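import Vale.Agent.Lib.P154.PChain.BC.R7_0

set_option linter.all false

namespace Vale.Agent.Lib.P154.PChain.BC.S8

open Vale.Agent.Lib.P154.Chain

noncomputable def pc0 : PT := (PT.nd (nat_lit 12853620) (PT.nd (nat_lit 12610026) (PT.nd (nat_lit 12447786) (PT.nd (nat_lit 6117384) (PT.nd (nat_lit 6117306) (PT.nd (nat_lit 6036186) PT.nil (PT.lf (nat_lit 76) (nat_lit 3) (nat_lit 1) (nat_lit 1) (nat_lit 353) (nat_lit 74) (nat_lit 353))) (PT.lf (nat_lit 152) (nat_lit 6) (nat_lit 2) (nat_lit 3) (nat_lit 352) (nat_lit 75) (nat_lit 353))) (PT.nd (nat_lit 6330324) (PT.lf (nat_lit 152) (nat_lit 6) (nat_lit 2) (nat_lit 1) (nat_lit 353) (nat_lit 75) (nat_lit 352)) (PT.lf (nat_lit 912) (nat_lit 6) (nat_lit 12) (nat_lit 3) (nat_lit 313) (nat_lit 153) (nat_lit 314)))) (PT.nd (nat_lit 81120) (PT.nd (nat_lit 81042) (PT.lf (nat_lit 912) (nat_lit 6) (nat_lit 12) (nat_lit 1) (nat_lit 314) (nat_lit 153) (nat_lit 313)) (PT.lf (nat_lit 988) (nat_lit 6) (nat_lit 13) (nat_lit 3) (nat_lit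 312) (nat_lit 154) (nat_lit 314))) (PT.nd (nat_lit 78) (PT.lf (nat_lit 1064) (nat_lit 3) (nat_lit 14) (nat_lit 1) (nat_lit 313) (nat_lit 154) (nat_lit 313)) (PT.lf (nat_lit 988) (nat_lit 6) (nat_lit 13) (nat_lit 1) (nat_lit 314) (nat_lit 154) (nat_lit 312))))) (PT.nd (nat_lit 81276) (PT.nd (nat_lit 81120) (PT.nd (nat_lit 78) (PT.lf (nat_lit 1216) (nat_lit 6) (nat_lit 16) (nat_lit 3) (nat_lit 312) (nat_lit 155) (nat_lit 313)) (PT.lf (nat_lit 1216) (nat_lit 6) (nat_lit 16) (nat_lit 1) (nat_lit 313) (nat_lit 155) (nat_lit 312))) (PT.nd (nat_lit 78) (PT.lf (nat_lit 1292) (nat_lit 6) (nat_lit 17) (nat_lit 3) (nat_lit 311) (nat_lit 156) (nat_lit 313)) (PT.lf (nat_lit 1368) (nat_lit 3) (nat_lit 18) (nat_lit 1) (nat_lit 312) (nat_lit 156) (nat_lit 312)))) (PT.nd (nat_lit 81120) (PT.nd (nat_lit 81042) (PT.lf (nat_lit 1292) (nat_lit 6) (nat_lit 17) (nat_lit 1) (nat_lit 313) (nat_lit 156) (nat_lit 311)) (PT.lf (nat_lit 1520) (nat_lit 6) (nat_lit 20) (nat_lit 3) (nat_lit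 311) (nat_lit 157) (nat_lit 312))) (PT.nd (nat_lit 81042) (PT.lf (nat_lit 1520) (nat_lit 6) (nat_lit 20) (nat_lit 1) (nat_lit 312) (nat_lit 157) (nat_lit 311)) (PT.nd (nat_lit 78) (PT.lf (nat_lit 1596) (nat_lit 6) (nat_lit 21) (nat_lit 3) (nat_lit 310) (nat_lit 158) (nat_lit 312)) (PT.lf (nat_lit 1672) (nat_lit 3) (nat_lit 22) (nat_lit 1) (nat_lit 311) (nat_lit 158) (nat_lit 311))))))) (PT.nd (nat_lit 243282) (PT.nd (nat_lit 81198) (PT.nd (nat_lit 81042) (PT.nd (nat_lit 80964) (PT.lf (nat_lit 1596) (nat_lit 6) (nat_lit 21) (nat_lit 1) (nat_lit 312) (nat_lit 158) (nat_lit 310)) (PT.lf (nat_lit 1748) (nat_lit 6) (nat_lit 23) (nat_lit 3) (nat_lit 309) (nat_lit 159) (nat_lit 312))) (PT.nd (nat_lit 78) (PT.lf (nat_lit 1824) (nat_lit 6) (nat_lit 24) (nat_lit 3) (nat_lit 310) (nat_lit 159) (nat_lit 311)) (PT.lf (nat_lit 1824) (nat_lit 6) (nat_lit 24) (nat_lit 1) (nat_lit 311) (nat_lit 159) (nat_lit 310)))) (PT.nd (nat_lit 81042) (PT.nd (nat_lit 80964) (PT.lf (nat_lit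 1748) (nat_lit 6) (nat_lit 23) (nat_lit 1) (nat_lit 312) (nat_lit 159) (nat_lit 309)) (PT.lf (nat_lit 1900) (nat_lit 6) (nat_lit 25) (nat_lit 3) (nat_lit 309) (nat_lit 160) (nat_lit 311))) (PT.nd (nat_lit 78) (PT.lf (nat_lit 1976) (nat_lit 3) (nat_lit 26) (nat_lit 1) (nat_lit 310) (nat_lit 160) (nat_lit 310)) (PT.lf (nat_lit 1900) (nat_lit 6) (nat_lit 25) (nat_lit 1) (nat_lit 311) (nat_lit 160) (nat_lit 309))))) (PT.nd (nat_lit 81198) (PT.nd (nat_lit 156) (PT.nd (nat_lit 78) (PT.lf (nat_lit 2052) (nat_lit 6) (nat_lit 27) (nat_lit 3) (nat_lit 308) (nat_lit 161) (nat_lit 311)) (PT.lf (nat_lit 2128) (nat_lit 6) (nat_lit 28) (nat_lit 3) (nat_lit 309) (nat_lit 161) (nat_lit 310))) (PT.nd (nat_lit 78) (PT.lf (nat_lit 2128) (nat_lit 6) (nat_lit 28) (nat_lit 1) (nat_lit 310) (nat_lit 161) (nat_lit 309)) (PT.lf (nat_lit 2052) (nat_lit 6) (nat_lit 27) (nat_lit 1) (nat_lit 311) (nat_lit 161) (nat_lit 308)))) (PT.nd (nat_lit 156) (PT.nd (nat_lit 78) (PT.lf (nat_lit 2204)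 (nat_lit 6) (nat_lit 29) (nat_lit 3) (nat_lit 308) (nat_lit 162) (nat_lit 310)) (PT.lf (nat_lit 2280) (nat_lit 3) (nat_lit 30) (nat_lit 1) (nat_lit 309) (nat_lit 162) (nat_lit 309))) (PT.nd (nat_lit 80964) (PT.lf (nat_lit 2204) (nat_lit 6) (nat_lit 29) (nat_lit 1) (nat_lit 310) (nat_lit 162) (nat_lit 308)) (PT.nd (nat_lit 78) (PT.lf (nat_lit 2356) (nat_lit 6) (nat_lit 31) (nat_lit 3) (nat_lit 307) (nat_lit 163) (nat_lit 310)) (PT.lf (nat_lit 2432) (nat_lit 6) (nat_lit 32) (nat_lit 3) (nat_lit 308) (nat_lit 163) (nat_lit 309))))))))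
noncomputable def pc1 : PT := (PT.nd (nat_lit 405678) (PT.nd (nat_lit 162396) (PT.nd (nat_lit 81198) (PT.nd (nat_lit 81042) (PT.nd (nat_lit 78) (PT.lf (nat_lit 2432) (nat_lit 6) (nat_lit 32) (nat_lit 1) (nat_lit 309) (nat_lit 163) (nat_lit 308)) (PT.lf (nat_lit 2356) (nat_lit 6) (nat_lit 31) (nat_lit 1) (nat_lit 310) (nat_lit 163) (nat_lit 307))) (PT.nd (nat_lit 78) (PT.lf (nat_lit 2584) (nat_lit 6) (nat_lit 34) (nat_lit 3) (nat_lit 307) (nat_lit 164) (nat_lit 309)) (PT.lf (nat_lit 2660) (nat_lit 3) (nat_lit 35) (nat_lit 1) (nat_lit 308) (nat_lit 164) (nat_lit 308)))) (PT.nd (nat_lit 81042) (PT.nd (nat_lit 80964) (PT.lf (nat_lit 2584) (nat_lit 6) (nat_lit 34) (nat_lit 1) (nat_lit 309) (nat_lit 164) (nat_lit 307)) (PT.lf (nat_lit 2736) (nat_lit 6) (nat_lit 36) (nat_lit 3) (nat_lit 306) (nat_lit 165) (nat_lit 309))) (PT.nd (nat_lit 78) (PT.lf (nat_lit 2812) (nat_lit 6) (nat_lit 37) (nat_lit 3) (nat_lit 307) (nat_lit 165) (nat_lit 308)) (PT.lf (nat_lit 2812)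 (nat_lit 6) (nat_lit 37) (nat_lit 1) (nat_lit 308) (nat_lit 165) (nat_lit 307))))) (PT.nd (nat_lit 162084) (PT.nd (nat_lit 81042) (PT.nd (nat_lit 80964) (PT.lf (nat_lit 2736) (nat_lit 6) (nat_lit 36) (nat_lit 1) (nat_lit 309) (nat_lit 165) (nat_lit 306)) (PT.lf (nat_lit 2964) (nat_lit 6) (nat_lit 39) (nat_lit 3) (nat_lit 306) (nat_lit 166) (nat_lit 308))) (PT.nd (nat_lit 78) (PT.lf (nat_lit 3040) (nat_lit 3) (nat_lit 40) (nat_lit 1) (nat_lit 307) (nat_lit 166) (nat_lit 307)) (PT.lf (nat_lit 2964) (nat_lit 6) (nat_lit 39) (nat_lit 1) (nat_lit 308) (nat_lit 166) (nat_lit 306)))) (PT.nd (nat_lit 156) (PT.nd (nat_lit 78) (PT.lf (nat_lit 3116) (nat_lit 6) (nat_lit 41) (nat_lit 3) (nat_lit 305) (nat_lit 167) (nat_lit 308)) (PT.lf (nat_lit 3192) (nat_lit 6) (nat_lit 42) (nat_lit 3) (nat_lit 306) (nat_lit 167) (nat_lit 307))) (PT.nd (nat_lit 78) (PT.lf (nat_lit 3192) (nat_lit 6) (nat_lit 42) (nat_lit 1) (nat_lit 307) (nat_lit 167) (nat_lit 306)) (PT.nd (nat_lit 80886)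 (PT.lf (nat_lit 3116) (nat_lit 6) (nat_lit 41) (nat_lit 1) (nat_lit 308) (nat_lit 167) (nat_lit 305)) (PT.lf (nat_lit 3268) (nat_lit 6) (nat_lit 43) (nat_lit 3) (nat_lit 304) (nat_lit 168) (nat_lit 308))))))) (PT.nd (nat_lit 162240) (PT.nd (nat_lit 81120) (PT.nd (nat_lit 156) (PT.nd (nat_lit 78) (PT.lf (nat_lit 3344) (nat_lit 6) (nat_lit 44) (nat_lit 3) (nat_lit 305) (nat_lit 168) (nat_lit 307)) (PT.lf (nat_lit 3420) (nat_lit 3) (nat_lit 45) (nat_lit 1) (nat_lit 306) (nat_lit 168) (nat_lit 306))) (PT.nd (nat_lit 78) (PT.lf (nat_lit 3344) (nat_lit 6) (nat_lit 44) (nat_lit 1) (nat_lit 307) (nat_lit 168) (nat_lit 305)) (PT.lf (nat_lit 3268) (nat_lit 6) (nat_lit 43) (nat_lit 1) (nat_lit 308) (nat_lit 168) (nat_lit 304)))) (PT.nd (nat_lit 156) (PT.nd (nat_lit 78) (PT.lf (nat_lit 3496) (nat_lit 6) (nat_lit 46) (nat_lit 3) (nat_lit 304) (nat_lit 169) (nat_lit 307)) (PT.lf (nat_lit 3572) (nat_lit 6) (nat_lit 47) (nat_lit 3) (nat_lit 305) (nat_lit 169) (nat_lit 306)))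 (PT.nd (nat_lit 78) (PT.lf (nat_lit 3572) (nat_lit 6) (nat_lit 47) (nat_lit 1) (nat_lit 306) (nat_lit 169) (nat_lit 305)) (PT.lf (nat_lit 3496) (nat_lit 6) (nat_lit 46) (nat_lit 1) (nat_lit 307) (nat_lit 169) (nat_lit 304))))) (PT.nd (nat_lit 312) (PT.nd (nat_lit 156) (PT.nd (nat_lit 78) (PT.lf (nat_lit 3648) (nat_lit 6) (nat_lit 48) (nat_lit 3) (nat_lit 303) (nat_lit 170) (nat_lit 307)) (PT.lf (nat_lit 3724) (nat_lit 6) (nat_lit 49) (nat_lit 3) (nat_lit 304) (nat_lit 170) (nat_lit 306))) (PT.nd (nat_lit 78) (PT.lf (nat_lit 3800) (nat_lit 3) (nat_lit 50) (nat_lit 1) (nat_lit 305) (nat_lit 170) (nat_lit 305)) (PT.lf (nat_lit 3724) (nat_lit 6) (nat_lit 49) (nat_lit 1) (nat_lit 306) (nat_lit 170) (nat_lit 304)))) (PT.nd (nat_lit 80964) (PT.nd (nat_lit 80886) (PT.lf (nat_lit 3648) (nat_lit 6) (nat_lit 48) (nat_lit 1) (nat_lit 307) (nat_lit 170) (nat_lit 303)) (PT.lf (nat_lit 3952) (nat_lit 6) (nat_lit 52) (nat_lit 3) (nat_lit 303) (nat_lit 171) (nat_lit 306)))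 (PT.nd (nat_lit 78) (PT.lf (nat_lit 4028) (nat_lit 6) (nat_lit 53) (nat_lit 3) (nat_lit 304) (nat_lit 171) (nat_lit 305)) (PT.nd (nat_lit 78) (PT.lf (nat_lit 4028) (nat_lit 6) (nat_lit 53) (nat_lit 1) (nat_lit 305) (nat_lit 171) (nat_lit 304)) (PT.lf (nat_lit 3952) (nat_lit 6) (nat_lit 52) (nat_lit 1) (nat_lit 306) (nat_lit 171) (nat_lit 303))))))))
noncomputable def pc2 : PT := (PT.nd (nat_lit 243750) (PT.nd (nat_lit 81432) (PT.nd (nat_lit 312) (PT.nd (nat_lit 156) (PT.nd (nat_lit 78) (PT.lf (nat_lit 4104) (nat_lit 6) (nat_lit 54) (nat_lit 3) (nat_lit 302) (nat_lit 172) (nat_lit 306)) (PT.lf (nat_lit 4180) (nat_lit 6) (nat_lit 55) (nat_lit 3) (nat_lit 303) (nat_lit 172) (nat_lit 305))) (PT.nd (nat_lit 78) (PT.lf (nat_lit 4256) (nat_lit 3) (nat_lit 56) (nat_lit 1) (nat_lit 304) (nat_lit 172) (nat_lit 304)) (PT.lf (nat_lit 4180) (nat_lit 6) (nat_lit 55) (nat_lit 1) (nat_lit 305) (nat_lit 172) (nat_lit 303)))) (PT.nd (nat_lit 80964) (PT.nd (nat_lit 80886) (PT.lf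 (nat_lit 4104) (nat_lit 6) (nat_lit 54) (nat_lit 1) (nat_lit 306) (nat_lit 172) (nat_lit 302)) (PT.lf (nat_lit 4408) (nat_lit 6) (nat_lit 58) (nat_lit 3) (nat_lit 302) (nat_lit 173) (nat_lit 305))) (PT.nd (nat_lit 78) (PT.lf (nat_lit 4484) (nat_lit 6) (nat_lit 59) (nat_lit 3) (nat_lit 303) (nat_lit 173) (nat_lit 304)) (PT.lf (nat_lit 4484) (nat_lit 6) (nat_lit 59) (nat_lit 1) (nat_lit 304) (nat_lit 173) (nat_lit 303))))) (PT.nd (nat_lit 81120) (PT.nd (nat_lit 80964) (PT.nd (nat_lit 80886) (PT.lf (nat_lit 4408) (nat_lit 6) (nat_lit 58) (nat_lit 1) (nat_lit 305) (nat_lit 173) (nat_lit 302)) (PT.lf (nat_lit 4560) (nat_lit 6) (nat_lit 60) (nat_lit 3) (nat_lit 301) (nat_lit 174) (nat_lit 305))) (PT.nd (nat_lit 78) (PT.lf (nat_lit 4636) (nat_lit 6) (nat_lit 61) (nat_lit 3) (nat_lit 302) (nat_lit 174) (nat_lit 304)) (PT.lf (nat_lit 4712) (nat_lit 3) (nat_lit 62) (nat_lit 1) (nat_lit 303) (nat_lit 174) (nat_lit 303)))) (PT.nd (nat_lit 80964) (PT.nd (nat_lit 78) (PT.lf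 (nat_lit 4636) (nat_lit 6) (nat_lit 61) (nat_lit 1) (nat_lit 304) (nat_lit 174) (nat_lit 302)) (PT.lf (nat_lit 4560) (nat_lit 6) (nat_lit 60) (nat_lit 1) (nat_lit 305) (nat_lit 174) (nat_lit 301))) (PT.nd (nat_lit 78) (PT.lf (nat_lit 4864) (nat_lit 6) (nat_lit 64) (nat_lit 3) (nat_lit 301) (nat_lit 175) (nat_lit 304)) (PT.nd (nat_lit 78) (PT.lf (nat_lit 4940) (nat_lit 6) (nat_lit 65) (nat_lit 3) (nat_lit 302) (nat_lit 175) (nat_lit 303)) (PT.lf (nat_lit 4940) (nat_lit 6) (nat_lit 65) (nat_lit 1) (nat_lit 303) (nat_lit 175) (nat_lit 302))))))) (PT.nd (nat_lit 162162) (PT.nd (nat_lit 81120) (PT.nd (nat_lit 80964) (PT.nd (nat_lit 80886) (PT.lf (nat_lit 4864) (nat_lit 6) (nat_lit 64) (nat_lit 1) (nat_lit 304) (nat_lit 175) (nat_lit 301)) (PT.lf (nat_lit 5016) (nat_lit 6) (nat_lit 66) (nat_lit 3) (nat_lit 300) (nat_lit 176) (nat_lit 304))) (PT.nd (nat_lit 78) (PT.lf (nat_lit 5092) (nat_lit 6) (nat_lit 67) (nat_lit 3) (nat_lit 301) (nat_lit 176) (nat_lit 303)) (PT.lf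 (nat_lit 5168) (nat_lit 3) (nat_lit 68) (nat_lit 1) (nat_lit 302) (nat_lit 176) (nat_lit 302)))) (PT.nd (nat_lit 80886) (PT.nd (nat_lit 78) (PT.lf (nat_lit 5092) (nat_lit 6) (nat_lit 67) (nat_lit 1) (nat_lit 303) (nat_lit 176) (nat_lit 301)) (PT.lf (nat_lit 5016) (nat_lit 6) (nat_lit 66) (nat_lit 1) (nat_lit 304) (nat_lit 176) (nat_lit 300))) (PT.nd (nat_lit 78) (PT.lf (nat_lit 5244) (nat_lit 6) (nat_lit 69) (nat_lit 3) (nat_lit 299) (nat_lit 177) (nat_lit 304)) (PT.lf (nat_lit 5320) (nat_lit 6) (nat_lit 70) (nat_lit 3) (nat_lit 300) (nat_lit 177) (nat_lit 303))))) (PT.nd (nat_lit 81042) (PT.nd (nat_lit 156) (PT.nd (nat_lit 78) (PT.lf (nat_lit 5396) (nat_lit 6) (nat_lit 71) (nat_lit 3) (nat_lit 301) (nat_lit 177) (nat_lit 302)) (PT.lf (nat_lit 5396) (nat_lit 6) (nat_lit 71) (nat_lit 1) (nat_lit 302) (nat_lit 177) (nat_lit 301))) (PT.nd (nat_lit 78) (PT.lf (nat_lit 5320) (nat_lit 6) (nat_lit 70) (nat_lit 1) (nat_lit 303) (nat_lit 177) (nat_lit 300)) (PT.lf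 (nat_lit 5244) (nat_lit 6) (nat_lit 69) (nat_lit 1) (nat_lit 304) (nat_lit 177) (nat_lit 299)))) (PT.nd (nat_lit 156) (PT.nd (nat_lit 78) (PT.lf (nat_lit 5548) (nat_lit 6) (nat_lit 73) (nat_lit 3) (nat_lit 299) (nat_lit 178) (nat_lit 303)) (PT.lf (nat_lit 5624) (nat_lit 6) (nat_lit 74) (nat_lit 3) (nat_lit 300) (nat_lit 178) (nat_lit 302))) (PT.nd (nat_lit 78) (PT.lf (nat_lit 5700) (nat_lit 3) (nat_lit 75) (nat_lit 1) (nat_lit 301) (nat_lit 178) (nat_lit 301)) (PT.nd (nat_lit 78) (PT.lf (nat_lit 5624) (nat_lit 6) (nat_lit 74) (nat_lit 1) (nat_lit 302) (nat_lit 178) (nat_lit 300)) (PT.lf (nat_lit 5548) (nat_lit 6) (nat_lit 73) (nat_lit 1) (nat_lit 303) (nat_lit 178) (nat_lit 299))))))))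
noncomputable def pc3 : PT := (PT.nd (nat_lit 162630) (PT.nd (nat_lit 81276) (PT.nd (nat_lit 312) (PT.nd (nat_lit 156) (PT.nd (nat_lit 78) (PT.lf (nat_lit 5776) (nat_lit 6) (nat_lit 76) (nat_lit 3) (nat_lit 298) (nat_lit 179) (nat_lit 303)) (PT.lf (nat_lit 5852) (nat_lit 6) (nat_lit 77) (nat_lit 3) (nat_lit 299) (nat_lit 179) (nat_lit 302))) (PT.nd (nat_lit 78) (PT.lf (nat_lit 5928) (nat_lit 6) (nat_lit 78) (nat_lit 3) (nat_lit 300) (nat_lit 179) (nat_lit 301)) (PT.lf (nat_lit 5928) (nat_lit 6) (nat_lit 78) (nat_lit 1) (nat_lit 301) (nat_lit 179) (nat_lit 300)))) (PT.nd (nat_lit 80808) (PT.nd (nat_lit 78) (PT.lf (nat_lit 5852) (nat_lit 6) (nat_lit 77) (nat_lit 1) (nat_lit 302) (nat_lit 179) (nat_lit 299)) (PT.lf (nat_lit 5776) (nat_lit 6) (nat_lit 76) (nat_lit 1) (nat_lit 303) (nat_lit 179) (nat_lit 298))) (PT.nd (nat_lit 78) (PT.lf (nat_lit 6004) (nat_lit 6) (nat_lit 79) (nat_lit 3) (nat_lit 297) (nat_lit 180) (nat_lit 303)) (PT.lf (nat_lit 6080) (nat_lit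 6) (nat_lit 80) (nat_lit 3) (nat_lit 298) (nat_lit 180) (nat_lit 302))))) (PT.nd (nat_lit 312) (PT.nd (nat_lit 156) (PT.nd (nat_lit 78) (PT.lf (nat_lit 6156) (nat_lit 6) (nat_lit 81) (nat_lit 3) (nat_lit 299) (nat_lit 180) (nat_lit 301)) (PT.lf (nat_lit 6232) (nat_lit 3) (nat_lit 82) (nat_lit 1) (nat_lit 300) (nat_lit 180) (nat_lit 300))) (PT.nd (nat_lit 78) (PT.lf (nat_lit 6156) (nat_lit 6) (nat_lit 81) (nat_lit 1) (nat_lit 301) (nat_lit 180) (nat_lit 299)) (PT.lf (nat_lit 6080) (nat_lit 6) (nat_lit 80) (nat_lit 1) (nat_lit 302) (nat_lit 180) (nat_lit 298)))) (PT.nd (nat_lit 80808) (PT.nd (nat_lit 80730) (PT.lf (nat_lit 6004) (nat_lit 6) (nat_lit 79) (nat_lit 1) (nat_lit 303) (nat_lit 180) (nat_lit 297)) (PT.lf (nat_lit 6308) (nat_lit 6) (nat_lit 83) (nat_lit 3) (nat_lit 297) (nat_lit 181) (nat_lit 302))) (PT.nd (nat_lit 78) (PT.lf (nat_lit 6384) (nat_lit 6) (nat_lit 84) (nat_lit 3) (nat_lit 298) (nat_lit 181) (nat_lit 301)) (PT.nd (nat_lit 78) (PT.lf (nat_lit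 6460) (nat_lit 6) (nat_lit 85) (nat_lit 3) (nat_lit 299) (nat_lit 181) (nat_lit 300)) (PT.lf (nat_lit 6460) (nat_lit 6) (nat_lit 85) (nat_lit 1) (nat_lit 300) (nat_lit 181) (nat_lit 299))))))) (PT.nd (nat_lit 81276) (PT.nd (nat_lit 80964) (PT.nd (nat_lit 80808) (PT.nd (nat_lit 78) (PT.lf (nat_lit 6384) (nat_lit 6) (nat_lit 84) (nat_lit 1) (nat_lit 301) (nat_lit 181) (nat_lit 298)) (PT.lf (nat_lit 6308) (nat_lit 6) (nat_lit 83) (nat_lit 1) (nat_lit 302) (nat_lit 181) (nat_lit 297))) (PT.nd (nat_lit 78) (PT.lf (nat_lit 6536) (nat_lit 6) (nat_lit 86) (nat_lit 3) (nat_lit 296) (nat_lit 182) (nat_lit 302)) (PT.lf (nat_lit 6612) (nat_lit 6) (nat_lit 87) (nat_lit 3) (nat_lit 297) (nat_lit 182) (nat_lit 301)))) (PT.nd (nat_lit 156) (PT.nd (nat_lit 78) (PT.lf (nat_lit 6688) (nat_lit 6) (nat_lit 88) (nat_lit 3) (nat_lit 298) (nat_lit 182) (nat_lit 300)) (PT.lf (nat_lit 6764) (nat_lit 3) (nat_lit 89) (nat_lit 1) (nat_lit 299) (nat_lit 182) (nat_lit 299))) (PT.nd (nat_lit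 78) (PT.lf (nat_lit 6688) (nat_lit 6) (nat_lit 88) (nat_lit 1) (nat_lit 300) (nat_lit 182) (nat_lit 298)) (PT.lf (nat_lit 6612) (nat_lit 6) (nat_lit 87) (nat_lit 1) (nat_lit 301) (nat_lit 182) (nat_lit 297))))) (PT.nd (nat_lit 80964) (PT.nd (nat_lit 80808) (PT.nd (nat_lit 80730) (PT.lf (nat_lit 6536) (nat_lit 6) (nat_lit 86) (nat_lit 1) (nat_lit 302) (nat_lit 182) (nat_lit 296)) (PT.lf (nat_lit 6840) (nat_lit 6) (nat_lit 90) (nat_lit 3) (nat_lit 296) (nat_lit 183) (nat_lit 301))) (PT.nd (nat_lit 78) (PT.lf (nat_lit 6916) (nat_lit 6) (nat_lit 91) (nat_lit 3) (nat_lit 297) (nat_lit 183) (nat_lit 300)) (PT.lf (nat_lit 6992) (nat_lit 6) (nat_lit 92) (nat_lit 3) (nat_lit 298) (nat_lit 183) (nat_lit 299)))) (PT.nd (nat_lit 156) (PT.nd (nat_lit 78) (PT.lf (nat_lit 6992) (nat_lit 6) (nat_lit 92) (nat_lit 1) (nat_lit 299) (nat_lit 183) (nat_lit 298)) (PT.lf (nat_lit 6916) (nat_lit 6) (nat_lit 91) (nat_lit 1) (nat_lit 300) (nat_lit 183) (nat_lit 297))) (PT.nd (nat_lit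 80730) (PT.lf (nat_lit 6840) (nat_lit 6) (nat_lit 90) (nat_lit 1) (nat_lit 301) (nat_lit 183) (nat_lit 296)) (PT.nd (nat_lit 78) (PT.lf (nat_lit 7068) (nat_lit 6) (nat_lit 93) (nat_lit 3) (nat_lit 295) (nat_lit 184) (nat_lit 301)) (PT.lf (nat_lit 7144) (nat_lit 6) (nat_lit 94) (nat_lit 3) (nat_lit 296) (nat_lit 184) (nat_lit 300))))))))
noncomputable def pc4 : PT := (PT.nd (nat_lit 162630) (PT.nd (nat_lit 81276) (PT.nd (nat_lit 312) (PT.nd (nat_lit 156) (PT.nd (nat_lit 78) (PT.lf (nat_lit 7220) (nat_lit 6) (nat_lit 95) (nat_lit 3) (nat_lit 297) (nat_lit 184) (nat_lit 299)) (PT.lf (nat_lit 7296) (nat_lit 3) (nat_lit 96) (nat_lit 1) (nat_lit 298) (nat_lit 184) (nat_lit 298))) (PT.nd (nat_lit 78) (PT.lf (nat_lit 7220) (nat_lit 6) (nat_lit 95) (nat_lit 1) (nat_lit 299) (nat_lit 184) (nat_lit 297)) (PT.lf (nat_lit 7144) (nat_lit 6) (nat_lit 94) (nat_lit 1) (nat_lit 300) (nat_lit 184) (nat_lit 296)))) (PT.nd (nat_lit 80808) (PT.nd (nat_lit 80730) (PT.lf (nat_lit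 7068) (nat_lit 6) (nat_lit 93) (nat_lit 1) (nat_lit 301) (nat_lit 184) (nat_lit 295)) (PT.lf (nat_lit 7448) (nat_lit 6) (nat_lit 98) (nat_lit 3) (nat_lit 295) (nat_lit 185) (nat_lit 300))) (PT.nd (nat_lit 78) (PT.lf (nat_lit 7524) (nat_lit 6) (nat_lit 99) (nat_lit 3) (nat_lit 296) (nat_lit 185) (nat_lit 299)) (PT.lf (nat_lit 7600) (nat_lit 6) (nat_lit 100) (nat_lit 3) (nat_lit 297) (nat_lit 185) (nat_lit 298))))) (PT.nd (nat_lit 80964) (PT.nd (nat_lit 156) (PT.nd (nat_lit 78) (PT.lf (nat_lit 7600) (nat_lit 6) (nat_lit 100) (nat_lit 1) (nat_lit 298) (nat_lit 185) (nat_lit 297)) (PT.lf (nat_lit 7524) (nat_lit 6) (nat_lit 99) (nat_lit 1) (nat_lit 299) (nat_lit 185) (nat_lit 296))) (PT.nd (nat_lit 80730) (PT.lf (nat_lit 7448) (nat_lit 6) (nat_lit 98) (nat_lit 1) (nat_lit 300) (nat_lit 185) (nat_lit 295)) (PT.lf (nat_lit 7676) (nat_lit 6) (nat_lit 101) (nat_lit 3) (nat_lit 294) (nat_lit 186) (nat_lit 300)))) (PT.nd (nat_lit 156) (PT.nd (nat_lit 78) (PT.lf (nat_lit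 7752) (nat_lit 6) (nat_lit 102) (nat_lit 3) (nat_lit 295) (nat_lit 186) (nat_lit 299)) (PT.lf (nat_lit 7828) (nat_lit 6) (nat_lit 103) (nat_lit 3) (nat_lit 296) (nat_lit 186) (nat_lit 298))) (PT.nd (nat_lit 78) (PT.lf (nat_lit 7904) (nat_lit 3) (nat_lit 104) (nat_lit 1) (nat_lit 297) (nat_lit 186) (nat_lit 297)) (PT.nd (nat_lit 78) (PT.lf (nat_lit 7828) (nat_lit 6) (nat_lit 103) (nat_lit 1) (nat_lit 298) (nat_lit 186) (nat_lit 296)) (PT.lf (nat_lit 7752) (nat_lit 6) (nat_lit 102) (nat_lit 1) (nat_lit 299) (nat_lit 186) (nat_lit 295))))))) (PT.nd (nat_lit 81198) (PT.nd (nat_lit 80886) (PT.nd (nat_lit 80730) (PT.nd (nat_lit 80652) (PT.lf (nat_lit 7676) (nat_lit 6) (nat_lit 101) (nat_lit 1) (nat_lit 300) (nat_lit 186) (nat_lit 294)) (PT.lf (nat_lit 7980) (nat_lit 6) (nat_lit 105) (nat_lit 3) (nat_lit 293) (nat_lit 187) (nat_lit 300))) (PT.nd (nat_lit 78) (PT.lf (nat_lit 8056) (nat_lit 6) (nat_lit 106) (nat_lit 3) (nat_lit 294) (nat_lit 187) (nat_lit 299)) (PT.lf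 (nat_lit 8132) (nat_lit 6) (nat_lit 107) (nat_lit 3) (nat_lit 295) (nat_lit 187) (nat_lit 298)))) (PT.nd (nat_lit 156) (PT.nd (nat_lit 78) (PT.lf (nat_lit 8208) (nat_lit 6) (nat_lit 108) (nat_lit 3) (nat_lit 296) (nat_lit 187) (nat_lit 297)) (PT.lf (nat_lit 8208) (nat_lit 6) (nat_lit 108) (nat_lit 1) (nat_lit 297) (nat_lit 187) (nat_lit 296))) (PT.nd (nat_lit 78) (PT.lf (nat_lit 8132) (nat_lit 6) (nat_lit 107) (nat_lit 1) (nat_lit 298) (nat_lit 187) (nat_lit 295)) (PT.lf (nat_lit 8056) (nat_lit 6) (nat_lit 106) (nat_lit 1) (nat_lit 299) (nat_lit 187) (nat_lit 294))))) (PT.nd (nat_lit 80886) (PT.nd (nat_lit 80730) (PT.nd (nat_lit 80652) (PT.lf (nat_lit 7980) (nat_lit 6) (nat_lit 105) (nat_lit 1) (nat_lit 300) (nat_lit 187) (nat_lit 293)) (PT.lf (nat_lit 8284) (nat_lit 6) (nat_lit 109) (nat_lit 3) (nat_lit 293) (nat_lit 188) (nat_lit 299))) (PT.nd (nat_lit 78) (PT.lf (nat_lit 8360) (nat_lit 6) (nat_lit 110) (nat_lit 3) (nat_lit 294) (nat_lit 188) (nat_lit 298))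 (PT.lf (nat_lit 8436) (nat_lit 6) (nat_lit 111) (nat_lit 3) (nat_lit 295) (nat_lit 188) (nat_lit 297)))) (PT.nd (nat_lit 156) (PT.nd (nat_lit 78) (PT.lf (nat_lit 8512) (nat_lit 3) (nat_lit 112) (nat_lit 1) (nat_lit 296) (nat_lit 188) (nat_lit 296)) (PT.lf (nat_lit 8436) (nat_lit 6) (nat_lit 111) (nat_lit 1) (nat_lit 297) (nat_lit 188) (nat_lit 295))) (PT.nd (nat_lit 78) (PT.lf (nat_lit 8360) (nat_lit 6) (nat_lit 110) (nat_lit 1) (nat_lit 298) (nat_lit 188) (nat_lit 294)) (PT.nd (nat_lit 80652) (PT.lf (nat_lit 8284) (nat_lit 6) (nat_lit 109) (nat_lit 1) (nat_lit 299) (nat_lit 188) (nat_lit 293)) (PT.lf (nat_lit 8588) (nat_lit 6) (nat_lit 113) (nat_lit 3) (nat_lit 292) (nat_lit 189) (nat_lit 299))))))))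
noncomputable def pc5 : PT := (PT.nd (nat_lit 162474) (PT.nd (nat_lit 81198) (PT.nd (nat_lit 312) (PT.nd (nat_lit 156) (PT.nd (nat_lit 78) (PT.lf (nat_lit 8664) (nat_lit 6) (nat_lit 114) (nat_lit 3) (nat_lit 293) (nat_lit 189) (nat_lit 298)) (PT.lf (nat_lit 8740) (nat_lit 6) (nat_lit 115) (nat_lit 3) (nat_lit 294) (nat_lit 189) (nat_lit 297))) (PT.nd (nat_lit 78) (PT.lf (nat_lit 8816) (nat_lit 6) (nat_lit 116) (nat_lit 3) (nat_lit 295) (nat_lit 189) (nat_lit 296)) (PT.lf (nat_lit 8816) (nat_lit 6) (nat_lit 116) (nat_lit 1) (nat_lit 296) (nat_lit 189) (nat_lit 295)))) (PT.nd (nat_lit 156) (PT.nd (nat_lit 78) (PT.lf (nat_lit 8740) (nat_lit 6) (nat_lit 115) (nat_lit 1) (nat_lit 297) (nat_lit 189) (nat_lit 294)) (PT.lf (nat_lit 8664) (nat_lit 6) (nat_lit 114) (nat_lit 1) (nat_lit 298) (nat_lit 189) (nat_lit 293))) (PT.nd (nat_lit 80652) (PT.lf (nat_lit 8588) (nat_lit 6) (nat_lit 113) (nat_lit 1) (nat_lit 299) (nat_lit 189) (nat_lit 292)) (PT.lf (nat_lit 8892)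 (nat_lit 6) (nat_lit 117) (nat_lit 3) (nat_lit 292) (nat_lit 190) (nat_lit 298))))) (PT.nd (nat_lit 312) (PT.nd (nat_lit 156) (PT.nd (nat_lit 78) (PT.lf (nat_lit 8968) (nat_lit 6) (nat_lit 118) (nat_lit 3) (nat_lit 293) (nat_lit 190) (nat_lit 297)) (PT.lf (nat_lit 9044) (nat_lit 6) (nat_lit 119) (nat_lit 3) (nat_lit 294) (nat_lit 190) (nat_lit 296))) (PT.nd (nat_lit 78) (PT.lf (nat_lit 9120) (nat_lit 3) (nat_lit 120) (nat_lit 1) (nat_lit 295) (nat_lit 190) (nat_lit 295)) (PT.lf (nat_lit 9044) (nat_lit 6) (nat_lit 119) (nat_lit 1) (nat_lit 296) (nat_lit 190) (nat_lit 294)))) (PT.nd (nat_lit 80730) (PT.nd (nat_lit 78) (PT.lf (nat_lit 8968) (nat_lit 6) (nat_lit 118) (nat_lit 1) (nat_lit 297) (nat_lit 190) (nat_lit 293)) (PT.lf (nat_lit 8892) (nat_lit 6) (nat_lit 117) (nat_lit 1) (nat_lit 298) (nat_lit 190) (nat_lit 292))) (PT.nd (nat_lit 78) (PT.lf (nat_lit 9196) (nat_lit 6) (nat_lit 121) (nat_lit 3) (nat_lit 291) (nat_lit 191) (nat_lit 298)) (PT.nd (nat_lit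 78) (PT.lf (nat_lit 9272) (nat_lit 6) (nat_lit 122) (nat_lit 3) (nat_lit 292) (nat_lit 191) (nat_lit 297)) (PT.lf (nat_lit 9348) (nat_lit 6) (nat_lit 123) (nat_lit 3) (nat_lit 293) (nat_lit 191) (nat_lit 296))))))) (PT.nd (nat_lit 81120) (PT.nd (nat_lit 312) (PT.nd (nat_lit 156) (PT.nd (nat_lit 78) (PT.lf (nat_lit 9424) (nat_lit 6) (nat_lit 124) (nat_lit 3) (nat_lit 294) (nat_lit 191) (nat_lit 295)) (PT.lf (nat_lit 9424) (nat_lit 6) (nat_lit 124) (nat_lit 1) (nat_lit 295) (nat_lit 191) (nat_lit 294))) (PT.nd (nat_lit 78) (PT.lf (nat_lit 9348) (nat_lit 6) (nat_lit 123) (nat_lit 1) (nat_lit 296) (nat_lit 191) (nat_lit 293)) (PT.lf (nat_lit 9272) (nat_lit 6) (nat_lit 122) (nat_lit 1) (nat_lit 297) (nat_lit 191) (nat_lit 292)))) (PT.nd (nat_lit 80652) (PT.nd (nat_lit 80574) (PT.lf (nat_lit 9196) (nat_lit 6) (nat_lit 121) (nat_lit 1) (nat_lit 298) (nat_lit 191) (nat_lit 291)) (PT.lf (nat_lit 9500) (nat_lit 6) (nat_lit 125) (nat_lit 3) (nat_lit 290) (nat_lit 192)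 (nat_lit 298))) (PT.nd (nat_lit 78) (PT.lf (nat_lit 9576) (nat_lit 6) (nat_lit 126) (nat_lit 3) (nat_lit 291) (nat_lit 192) (nat_lit 297)) (PT.lf (nat_lit 9652) (nat_lit 6) (nat_lit 127) (nat_lit 3) (nat_lit 292) (nat_lit 192) (nat_lit 296))))) (PT.nd (nat_lit 312) (PT.nd (nat_lit 156) (PT.nd (nat_lit 78) (PT.lf (nat_lit 9728) (nat_lit 6) (nat_lit 128) (nat_lit 3) (nat_lit 293) (nat_lit 192) (nat_lit 295)) (PT.lf (nat_lit 9804) (nat_lit 3) (nat_lit 129) (nat_lit 1) (nat_lit 294) (nat_lit 192) (nat_lit 294))) (PT.nd (nat_lit 78) (PT.lf (nat_lit 9728) (nat_lit 6) (nat_lit 128) (nat_lit 1) (nat_lit 295) (nat_lit 192) (nat_lit 293)) (PT.lf (nat_lit 9652) (nat_lit 6) (nat_lit 127) (nat_lit 1) (nat_lit 296) (nat_lit 192) (nat_lit 292)))) (PT.nd (nat_lit 80652) (PT.nd (nat_lit 78) (PT.lf (nat_lit 9576) (nat_lit 6) (nat_lit 126) (nat_lit 1) (nat_lit 297) (nat_lit 192) (nat_lit 291)) (PT.lf (nat_lit 9500) (nat_lit 6) (nat_lit 125) (nat_lit 1) (nat_lit 298) (nat_lit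 192) (nat_lit 290))) (PT.nd (nat_lit 78) (PT.lf (nat_lit 9880) (nat_lit 6) (nat_lit 130) (nat_lit 3) (nat_lit 290) (nat_lit 193) (nat_lit 297)) (PT.nd (nat_lit 78) (PT.lf (nat_lit 9956) (nat_lit 6) (nat_lit 131) (nat_lit 3) (nat_lit 291) (nat_lit 193) (nat_lit 296)) (PT.lf (nat_lit 10032) (nat_lit 6) (nat_lit 132) (nat_lit 3) (nat_lit 292) (nat_lit 193) (nat_lit 295))))))))
noncomputable def pc6 : PT := (PT.nd (nat_lit 162318) (PT.nd (nat_lit 81120) (PT.nd (nat_lit 312) (PT.nd (nat_lit 156) (PT.nd (nat_lit 78) (PT.lf (nat_lit 10108) (nat_lit 6) (nat_lit 133) (nat_lit 3) (nat_lit 293) (nat_lit 193) (nat_lit 294)) (PT.lf (nat_lit 10108) (nat_lit 6) (nat_lit 133) (nat_lit 1) (nat_lit 294) (nat_lit 193) (nat_lit 293))) (PT.nd (nat_lit 78) (PT.lf (nat_lit 10032) (nat_lit 6) (nat_lit 132) (nat_lit 1) (nat_lit 295) (nat_lit 193) (nat_lit 292)) (PT.lf (nat_lit 9956) (nat_lit 6) (nat_lit 131) (nat_lit 1) (nat_lit 296) (nat_lit 193) (nat_lit 291)))) (PT.nd (nat_lit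 80652) (PT.nd (nat_lit 80574) (PT.lf (nat_lit 9880) (nat_lit 6) (nat_lit 130) (nat_lit 1) (nat_lit 297) (nat_lit 193) (nat_lit 290)) (PT.lf (nat_lit 10184) (nat_lit 6) (nat_lit 134) (nat_lit 3) (nat_lit 289) (nat_lit 194) (nat_lit 297))) (PT.nd (nat_lit 78) (PT.lf (nat_lit 10260) (nat_lit 6) (nat_lit 135) (nat_lit 3) (nat_lit 290) (nat_lit 194) (nat_lit 296)) (PT.lf (nat_lit 10336) (nat_lit 6) (nat_lit 136) (nat_lit 3) (nat_lit 291) (nat_lit 194) (nat_lit 295))))) (PT.nd (nat_lit 312) (PT.nd (nat_lit 156) (PT.nd (nat_lit 78) (PT.lf (nat_lit 10412) (nat_lit 6) (nat_lit 137) (nat_lit 3) (nat_lit 292) (nat_lit 194) (nat_lit 294)) (PT.lf (nat_lit 10488) (nat_lit 3) (nat_lit 138) (nat_lit 1) (nat_lit 293) (nat_lit 194) (nat_lit 293))) (PT.nd (nat_lit 78) (PT.lf (nat_lit 10412) (nat_lit 6) (nat_lit 137) (nat_lit 1) (nat_lit 294) (nat_lit 194) (nat_lit 292)) (PT.lf (nat_lit 10336) (nat_lit 6) (nat_lit 136) (nat_lit 1) (nat_lit 295) (nat_lit 194) (nat_lit 291))))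 (PT.nd (nat_lit 80652) (PT.nd (nat_lit 78) (PT.lf (nat_lit 10260) (nat_lit 6) (nat_lit 135) (nat_lit 1) (nat_lit 296) (nat_lit 194) (nat_lit 290)) (PT.lf (nat_lit 10184) (nat_lit 6) (nat_lit 134) (nat_lit 1) (nat_lit 297) (nat_lit 194) (nat_lit 289))) (PT.nd (nat_lit 78) (PT.lf (nat_lit 10640) (nat_lit 6) (nat_lit 140) (nat_lit 3) (nat_lit 289) (nat_lit 195) (nat_lit 296)) (PT.nd (nat_lit 78) (PT.lf (nat_lit 10716) (nat_lit 6) (nat_lit 141) (nat_lit 3) (nat_lit 290) (nat_lit 195) (nat_lit 295)) (PT.lf (nat_lit 10792) (nat_lit 6) (nat_lit 142) (nat_lit 3) (nat_lit 291) (nat_lit 195) (nat_lit 294))))))) (PT.nd (nat_lit 81120) (PT.nd (nat_lit 312) (PT.nd (nat_lit 156) (PT.nd (nat_lit 78) (PT.lf (nat_lit 10868) (nat_lit 6) (nat_lit 143) (nat_lit 3) (nat_lit 292) (nat_lit 195) (nat_lit 293)) (PT.lf (nat_lit 10868) (nat_lit 6) (nat_lit 143) (nat_lit 1) (nat_lit 293) (nat_lit 195) (nat_lit 292))) (PT.nd (nat_lit 78) (PT.lf (nat_lit 10792) (nat_lit 6) (nat_lit 142)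 (nat_lit 1) (nat_lit 294) (nat_lit 195) (nat_lit 291)) (PT.lf (nat_lit 10716) (nat_lit 6) (nat_lit 141) (nat_lit 1) (nat_lit 295) (nat_lit 195) (nat_lit 290)))) (PT.nd (nat_lit 80652) (PT.nd (nat_lit 80574) (PT.lf (nat_lit 10640) (nat_lit 6) (nat_lit 140) (nat_lit 1) (nat_lit 296) (nat_lit 195) (nat_lit 289)) (PT.lf (nat_lit 10944) (nat_lit 6) (nat_lit 144) (nat_lit 3) (nat_lit 288) (nat_lit 196) (nat_lit 296))) (PT.nd (nat_lit 78) (PT.lf (nat_lit 11020) (nat_lit 6) (nat_lit 145) (nat_lit 3) (nat_lit 289) (nat_lit 196) (nat_lit 295)) (PT.lf (nat_lit 11096) (nat_lit 6) (nat_lit 146) (nat_lit 3) (nat_lit 290) (nat_lit 196) (nat_lit 294))))) (PT.nd (nat_lit 312) (PT.nd (nat_lit 156) (PT.nd (nat_lit 78) (PT.lf (nat_lit 11172) (nat_lit 6) (nat_lit 147) (nat_lit 3) (nat_lit 291) (nat_lit 196) (nat_lit 293)) (PT.lf (nat_lit 11248) (nat_lit 3) (nat_lit 148) (nat_lit 1) (nat_lit 292) (nat_lit 196) (nat_lit 292))) (PT.nd (nat_lit 78) (PT.lf (nat_lit 11172) (nat_lit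 6) (nat_lit 147) (nat_lit 1) (nat_lit 293) (nat_lit 196) (nat_lit 291)) (PT.lf (nat_lit 11096) (nat_lit 6) (nat_lit 146) (nat_lit 1) (nat_lit 294) (nat_lit 196) (nat_lit 290)))) (PT.nd (nat_lit 80574) (PT.nd (nat_lit 78) (PT.lf (nat_lit 11020) (nat_lit 6) (nat_lit 145) (nat_lit 1) (nat_lit 295) (nat_lit 196) (nat_lit 289)) (PT.lf (nat_lit 10944) (nat_lit 6) (nat_lit 144) (nat_lit 1) (nat_lit 296) (nat_lit 196) (nat_lit 288))) (PT.nd (nat_lit 78) (PT.lf (nat_lit 11324) (nat_lit 6) (nat_lit 149) (nat_lit 3) (nat_lit 287) (nat_lit 197) (nat_lit 296)) (PT.nd (nat_lit 78) (PT.lf (nat_lit 11400) (nat_lit 6) (nat_lit 150) (nat_lit 3) (nat_lit 288) (nat_lit 197) (nat_lit 295)) (PT.lf (nat_lit 11476) (nat_lit 6) (nat_lit 151) (nat_lit 3) (nat_lit 289) (nat_lit 197) (nat_lit 294))))))))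
noncomputable def pc7 : PT := (PT.nd (nat_lit 162162) (PT.nd (nat_lit 81042) (PT.nd (nat_lit 312) (PT.nd (nat_lit 156) (PT.nd (nat_lit 78) (PT.lf (nat_lit 11552) (nat_lit 6) (nat_lit 152) (nat_lit 3) (nat_lit 290) (nat_lit 197) (nat_lit 293)) (PT.lf (nat_lit 11628) (nat_lit 6) (nat_lit 153) (nat_lit 3) (nat_lit 291) (nat_lit 197) (nat_lit 292))) (PT.nd (nat_lit 78) (PT.lf (nat_lit 11628) (nat_lit 6) (nat_lit 153) (nat_lit 1) (nat_lit 292) (nat_lit 197) (nat_lit 291)) (PT.lf (nat_lit 11552) (nat_lit 6) (nat_lit 152) (nat_lit 1) (nat_lit 293) (nat_lit 197) (nat_lit 290)))) (PT.nd (nat_lit 156) (PT.nd (nat_lit 78) (PT.lf (nat_lit 11476) (nat_lit 6) (nat_lit 151) (nat_lit 1) (nat_lit 294) (nat_lit 197) (nat_lit 289)) (PT.lf (nat_lit 11400) (nat_lit 6) (nat_lit 150) (nat_lit 1) (nat_lit 295) (nat_lit 197) (nat_lit 288))) (PT.nd (nat_lit 80496) (PT.lf (nat_lit 11324) (nat_lit 6) (nat_lit 149) (nat_lit 1) (nat_lit 296) (nat_lit 197) (nat_lit 287)) (PT.lf (nat_lit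 11704) (nat_lit 6) (nat_lit 154) (nat_lit 3) (nat_lit 287) (nat_lit 198) (nat_lit 295))))) (PT.nd (nat_lit 312) (PT.nd (nat_lit 156) (PT.nd (nat_lit 78) (PT.lf (nat_lit 11780) (nat_lit 6) (nat_lit 155) (nat_lit 3) (nat_lit 288) (nat_lit 198) (nat_lit 294)) (PT.lf (nat_lit 11856) (nat_lit 6) (nat_lit 156) (nat_lit 3) (nat_lit 289) (nat_lit 198) (nat_lit 293))) (PT.nd (nat_lit 78) (PT.lf (nat_lit 11932) (nat_lit 6) (nat_lit 157) (nat_lit 3) (nat_lit 290) (nat_lit 198) (nat_lit 292)) (PT.lf (nat_lit 12008) (nat_lit 3) (nat_lit 158) (nat_lit 1) (nat_lit 291) (nat_lit 198) (nat_lit 291)))) (PT.nd (nat_lit 156) (PT.nd (nat_lit 78) (PT.lf (nat_lit 11932) (nat_lit 6) (nat_lit 157) (nat_lit 1) (nat_lit 292) (nat_lit 198) (nat_lit 290)) (PT.lf (nat_lit 11856) (nat_lit 6) (nat_lit 156) (nat_lit 1) (nat_lit 293) (nat_lit 198) (nat_lit 289))) (PT.nd (nat_lit 78) (PT.lf (nat_lit 11780) (nat_lit 6) (nat_lit 155) (nat_lit 1) (nat_lit 294) (nat_lit 198) (nat_lit 288)) (PT.nd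 (nat_lit 80496) (PT.lf (nat_lit 11704) (nat_lit 6) (nat_lit 154) (nat_lit 1) (nat_lit 295) (nat_lit 198) (nat_lit 287)) (PT.lf (nat_lit 12084) (nat_lit 6) (nat_lit 159) (nat_lit 3) (nat_lit 286) (nat_lit 199) (nat_lit 295))))))) (PT.nd (nat_lit 81042) (PT.nd (nat_lit 312) (PT.nd (nat_lit 156) (PT.nd (nat_lit 78) (PT.lf (nat_lit 12160) (nat_lit 6) (nat_lit 160) (nat_lit 3) (nat_lit 287) (nat_lit 199) (nat_lit 294)) (PT.lf (nat_lit 12236) (nat_lit 6) (nat_lit 161) (nat_lit 3) (nat_lit 288) (nat_lit 199) (nat_lit 293))) (PT.nd (nat_lit 78) (PT.lf (nat_lit 12312) (nat_lit 6) (nat_lit 162) (nat_lit 3) (nat_lit 289) (nat_lit 199) (nat_lit 292)) (PT.lf (nat_lit 12388) (nat_lit 6) (nat_lit 163) (nat_lit 3) (nat_lit 290) (nat_lit 199) (nat_lit 291)))) (PT.nd (nat_lit 156) (PT.nd (nat_lit 78) (PT.lf (nat_lit 12388) (nat_lit 6) (nat_lit 163) (nat_lit 1) (nat_lit 291) (nat_lit 199) (nat_lit 290)) (PT.lf (nat_lit 12312) (nat_lit 6) (nat_lit 162) (nat_lit 1) (nat_lit 292)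 (nat_lit 199) (nat_lit 289))) (PT.nd (nat_lit 78) (PT.lf (nat_lit 12236) (nat_lit 6) (nat_lit 161) (nat_lit 1) (nat_lit 293) (nat_lit 199) (nat_lit 288)) (PT.nd (nat_lit 78) (PT.lf (nat_lit 12160) (nat_lit 6) (nat_lit 160) (nat_lit 1) (nat_lit 294) (nat_lit 199) (nat_lit 287)) (PT.lf (nat_lit 12084) (nat_lit 6) (nat_lit 159) (nat_lit 1) (nat_lit 295) (nat_lit 199) (nat_lit 286)))))) (PT.nd (nat_lit 312) (PT.nd (nat_lit 156) (PT.nd (nat_lit 78) (PT.lf (nat_lit 12464) (nat_lit 6) (nat_lit 164) (nat_lit 3) (nat_lit 285) (nat_lit 200) (nat_lit 295)) (PT.lf (nat_lit 12540) (nat_lit 6) (nat_lit 165) (nat_lit 3) (nat_lit 286) (nat_lit 200) (nat_lit 294))) (PT.nd (nat_lit 78) (PT.lf (nat_lit 12616) (nat_lit 6) (nat_lit 166) (nat_lit 3) (nat_lit 287) (nat_lit 200) (nat_lit 293)) (PT.lf (nat_lit 12692) (nat_lit 6) (nat_lit 167) (nat_lit 3) (nat_lit 288) (nat_lit 200) (nat_lit 292)))) (PT.nd (nat_lit 156) (PT.nd (nat_lit 78) (PT.lf (nat_lit 12768) (nat_lit 6) (nat_lit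 168) (nat_lit 3) (nat_lit 289) (nat_lit 200) (nat_lit 291)) (PT.lf (nat_lit 12844) (nat_lit 3) (nat_lit 169) (nat_lit 1) (nat_lit 290) (nat_lit 200) (nat_lit 290))) (PT.nd (nat_lit 78) (PT.lf (nat_lit 12768) (nat_lit 6) (nat_lit 168) (nat_lit 1) (nat_lit 291) (nat_lit 200) (nat_lit 289)) (PT.nd (nat_lit 78) (PT.lf (nat_lit 12692) (nat_lit 6) (nat_lit 167) (nat_lit 1) (nat_lit 292) (nat_lit 200) (nat_lit 288)) (PT.lf (nat_lit 12616) (nat_lit 6) (nat_lit 166) (nat_lit 1) (nat_lit 293) (nat_lit 200) (nat_lit 287))))))))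
noncomputable def pc8 : PT := (PT.nd (nat_lit 162006) (PT.nd (nat_lit 80964) (PT.nd (nat_lit 80652) (PT.nd (nat_lit 80496) (PT.nd (nat_lit 78) (PT.lf (nat_lit 12540) (nat_lit 6) (nat_lit 165) (nat_lit 1) (nat_lit 294) (nat_lit 200) (nat_lit 286)) (PT.lf (nat_lit 12464) (nat_lit 6) (nat_lit 164) (nat_lit 1) (nat_lit 295) (nat_lit 200) (nat_lit 285))) (PT.nd (nat_lit 78) (PT.lf (nat_lit 12920) (nat_lit 6) (nat_lit 170) (nat_lit 3) (nat_lit 285) (nat_lit 201) (nat_lit 294)) (PT.lf (nat_lit 12996) (nat_lit 6) (nat_lit 171) (nat_lit 3) (nat_lit 286) (nat_lit 201) (nat_lit 293)))) (PT.nd (nat_lit 156) (PT.nd (nat_lit 78) (PT.lf (nat_lit 13072) (nat_lit 6) (nat_lit 172) (nat_lit 3) (nat_lit 287) (nat_lit 201) (nat_lit 292)) (PT.lf (nat_lit 13148) (nat_lit 6) (nat_lit 173) (nat_lit 3) (nat_lit 288) (nat_lit 201) (nat_lit 291))) (PT.nd (nat_lit 78) (PT.lf (nat_lit 13224) (nat_lit 6) (nat_lit 174) (nat_lit 3) (nat_lit 289) (nat_lit 201) (nat_lit 290)) (PT.lf (nat_lit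 13224) (nat_lit 6) (nat_lit 174) (nat_lit 1) (nat_lit 290) (nat_lit 201) (nat_lit 289))))) (PT.nd (nat_lit 80652) (PT.nd (nat_lit 156) (PT.nd (nat_lit 78) (PT.lf (nat_lit 13148) (nat_lit 6) (nat_lit 173) (nat_lit 1) (nat_lit 291) (nat_lit 201) (nat_lit 288)) (PT.lf (nat_lit 13072) (nat_lit 6) (nat_lit 172) (nat_lit 1) (nat_lit 292) (nat_lit 201) (nat_lit 287))) (PT.nd (nat_lit 78) (PT.lf (nat_lit 12996) (nat_lit 6) (nat_lit 171) (nat_lit 1) (nat_lit 293) (nat_lit 201) (nat_lit 286)) (PT.lf (nat_lit 12920) (nat_lit 6) (nat_lit 170) (nat_lit 1) (nat_lit 294) (nat_lit 201) (nat_lit 285)))) (PT.nd (nat_lit 156) (PT.nd (nat_lit 78) (PT.lf (nat_lit 13300) (nat_lit 6) (nat_lit 175) (nat_lit 3) (nat_lit 284) (nat_lit 202) (nat_lit 294)) (PT.lf (nat_lit 13376) (nat_lit 6) (nat_lit 176) (nat_lit 3) (nat_lit 285) (nat_lit 202) (nat_lit 293))) (PT.nd (nat_lit 78) (PT.lf (nat_lit 13452) (nat_lit 6) (nat_lit 177) (nat_lit 3) (nat_lit 286) (nat_lit 202) (nat_lit 292)) (PT.nd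 (nat_lit 78) (PT.lf (nat_lit 13528) (nat_lit 6) (nat_lit 178) (nat_lit 3) (nat_lit 287) (nat_lit 202) (nat_lit 291)) (PT.lf (nat_lit 13604) (nat_lit 6) (nat_lit 179) (nat_lit 3) (nat_lit 288) (nat_lit 202) (nat_lit 290))))))) (PT.nd (nat_lit 80964) (PT.nd (nat_lit 312) (PT.nd (nat_lit 156) (PT.nd (nat_lit 78) (PT.lf (nat_lit 13680) (nat_lit 3) (nat_lit 180) (nat_lit 1) (nat_lit 289) (nat_lit 202) (nat_lit 289)) (PT.lf (nat_lit 13604) (nat_lit 6) (nat_lit 179) (nat_lit 1) (nat_lit 290) (nat_lit 202) (nat_lit 288))) (PT.nd (nat_lit 78) (PT.lf (nat_lit 13528) (nat_lit 6) (nat_lit 178) (nat_lit 1) (nat_lit 291) (nat_lit 202) (nat_lit 287)) (PT.lf (nat_lit 13452) (nat_lit 6) (nat_lit 177) (nat_lit 1) (nat_lit 292) (nat_lit 202) (nat_lit 286)))) (PT.nd (nat_lit 80496) (PT.nd (nat_lit 78) (PT.lf (nat_lit 13376) (nat_lit 6) (nat_lit 176) (nat_lit 1) (nat_lit 293) (nat_lit 202) (nat_lit 285)) (PT.lf (nat_lit 13300) (nat_lit 6) (nat_lit 175) (nat_lit 1) (nat_lit 294)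 (nat_lit 202) (nat_lit 284))) (PT.nd (nat_lit 78) (PT.lf (nat_lit 13756) (nat_lit 6) (nat_lit 181) (nat_lit 3) (nat_lit 284) (nat_lit 203) (nat_lit 293)) (PT.lf (nat_lit 13832) (nat_lit 6) (nat_lit 182) (nat_lit 3) (nat_lit 285) (nat_lit 203) (nat_lit 292))))) (PT.nd (nat_lit 312) (PT.nd (nat_lit 156) (PT.nd (nat_lit 78) (PT.lf (nat_lit 13908) (nat_lit 6) (nat_lit 183) (nat_lit 3) (nat_lit 286) (nat_lit 203) (nat_lit 291)) (PT.lf (nat_lit 13984) (nat_lit 6) (nat_lit 184) (nat_lit 3) (nat_lit 287) (nat_lit 203) (nat_lit 290))) (PT.nd (nat_lit 78) (PT.lf (nat_lit 14060) (nat_lit 6) (nat_lit 185) (nat_lit 3) (nat_lit 288) (nat_lit 203) (nat_lit 289)) (PT.lf (nat_lit 14060) (nat_lit 6) (nat_lit 185) (nat_lit 1) (nat_lit 289) (nat_lit 203) (nat_lit 288)))) (PT.nd (nat_lit 156) (PT.nd (nat_lit 78) (PT.lf (nat_lit 13984) (nat_lit 6) (nat_lit 184) (nat_lit 1) (nat_lit 290) (nat_lit 203) (nat_lit 287)) (PT.lf (nat_lit 13908) (nat_lit 6) (nat_lit 183) (nat_lit 1) (nat_lit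 291) (nat_lit 203) (nat_lit 286))) (PT.nd (nat_lit 78) (PT.lf (nat_lit 13832) (nat_lit 6) (nat_lit 182) (nat_lit 1) (nat_lit 292) (nat_lit 203) (nat_lit 285)) (PT.nd (nat_lit 80418) (PT.lf (nat_lit 13756) (nat_lit 6) (nat_lit 181) (nat_lit 1) (nat_lit 293) (nat_lit 203) (nat_lit 284)) (PT.lf (nat_lit 14136) (nat_lit 6) (nat_lit 186) (nat_lit 3) (nat_lit 283) (nat_lit 204) (nat_lit 293))))))))
noncomputable def pc9 : PT := (PT.nd (nat_lit 81588) (PT.nd (nat_lit 624) (PT.nd (nat_lit 312) (PT.nd (nat_lit 156) (PT.nd (nat_lit 78) (PT.lf (nat_lit 14212) (nat_lit 6) (nat_lit 187) (nat_lit 3) (nat_lit 284) (nat_lit 204) (nat_lit 292)) (PT.lf (nat_lit 14288) (nat_lit 6) (nat_lit 188) (nat_lit 3) (nat_lit 285) (nat_lit 204) (nat_lit 291))) (PT.nd (nat_lit 78) (PT.lf (nat_lit 14364) (nat_lit 6) (nat_lit 189) (nat_lit 3) (nat_lit 286) (nat_lit 204) (nat_lit 290)) (PT.lf (nat_lit 14440) (nat_lit 6) (nat_lit 190) (nat_lit 3) (nat_lit 287) (nat_lit 204) (nat_lit 289))))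 (PT.nd (nat_lit 156) (PT.nd (nat_lit 78) (PT.lf (nat_lit 14516) (nat_lit 3) (nat_lit 191) (nat_lit 1) (nat_lit 288) (nat_lit 204) (nat_lit 288)) (PT.lf (nat_lit 14440) (nat_lit 6) (nat_lit 190) (nat_lit 1) (nat_lit 289) (nat_lit 204) (nat_lit 287))) (PT.nd (nat_lit 78) (PT.lf (nat_lit 14364) (nat_lit 6) (nat_lit 189) (nat_lit 1) (nat_lit 290) (nat_lit 204) (nat_lit 286)) (PT.lf (nat_lit 14288) (nat_lit 6) (nat_lit 188) (nat_lit 1) (nat_lit 291) (nat_lit 204) (nat_lit 285))))) (PT.nd (nat_lit 80574) (PT.nd (nat_lit 80418) (PT.nd (nat_lit 78) (PT.lf (nat_lit 14212) (nat_lit 6) (nat_lit 187) (nat_lit 1) (nat_lit 292) (nat_lit 204) (nat_lit 284)) (PT.lf (nat_lit 14136) (nat_lit 6) (nat_lit 186) (nat_lit 1) (nat_lit 293) (nat_lit 204) (nat_lit 283))) (PT.nd (nat_lit 78) (PT.lf (nat_lit 14592) (nat_lit 6) (nat_lit 192) (nat_lit 3) (nat_lit 282) (nat_lit 205) (nat_lit 293)) (PT.lf (nat_lit 14668) (nat_lit 6) (nat_lit 193) (nat_lit 3) (nat_lit 283) (nat_lit 205) (nat_lit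 292)))) (PT.nd (nat_lit 156) (PT.nd (nat_lit 78) (PT.lf (nat_lit 14744) (nat_lit 6) (nat_lit 194) (nat_lit 3) (nat_lit 284) (nat_lit 205) (nat_lit 291)) (PT.lf (nat_lit 14820) (nat_lit 6) (nat_lit 195) (nat_lit 3) (nat_lit 285) (nat_lit 205) (nat_lit 290))) (PT.nd (nat_lit 78) (PT.lf (nat_lit 14896) (nat_lit 6) (nat_lit 196) (nat_lit 3) (nat_lit 286) (nat_lit 205) (nat_lit 289)) (PT.nd (nat_lit 78) (PT.lf (nat_lit 14972) (nat_lit 6) (nat_lit 197) (nat_lit 3) (nat_lit 287) (nat_lit 205) (nat_lit 288)) (PT.lf (nat_lit 14972) (nat_lit 6) (nat_lit 197) (nat_lit 1) (nat_lit 288) (nat_lit 205) (nat_lit 287))))))) (PT.nd (nat_lit 80886) (PT.nd (nat_lit 312) (PT.nd (nat_lit 156) (PT.nd (nat_lit 78) (PT.lf (nat_lit 14896) (nat_lit 6) (nat_lit 196) (nat_lit 1) (nat_lit 289) (nat_lit 205) (nat_lit 286)) (PT.lf (nat_lit 14820) (nat_lit 6) (nat_lit 195) (nat_lit 1) (nat_lit 290) (nat_lit 205) (nat_lit 285))) (PT.nd (nat_lit 78) (PT.lf (nat_lit 14744) (nat_lit 6) (nat_lit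 194) (nat_lit 1) (nat_lit 291) (nat_lit 205) (nat_lit 284)) (PT.lf (nat_lit 14668) (nat_lit 6) (nat_lit 193) (nat_lit 1) (nat_lit 292) (nat_lit 205) (nat_lit 283)))) (PT.nd (nat_lit 80418) (PT.nd (nat_lit 80340) (PT.lf (nat_lit 14592) (nat_lit 6) (nat_lit 192) (nat_lit 1) (nat_lit 293) (nat_lit 205) (nat_lit 282)) (PT.lf (nat_lit 15048) (nat_lit 6) (nat_lit 198) (nat_lit 3) (nat_lit 282) (nat_lit 206) (nat_lit 292))) (PT.nd (nat_lit 78) (PT.lf (nat_lit 15124) (nat_lit 6) (nat_lit 199) (nat_lit 3) (nat_lit 283) (nat_lit 206) (nat_lit 291)) (PT.lf (nat_lit 15200) (nat_lit 6) (nat_lit 200) (nat_lit 3) (nat_lit 284) (nat_lit 206) (nat_lit 290))))) (PT.nd (nat_lit 312) (PT.nd (nat_lit 156) (PT.nd (nat_lit 78) (PT.lf (nat_lit 15276) (nat_lit 6) (nat_lit 201) (nat_lit 3) (nat_lit 285) (nat_lit 206) (nat_lit 289)) (PT.lf (nat_lit 15352) (nat_lit 6) (nat_lit 202) (nat_lit 3) (nat_lit 286) (nat_lit 206) (nat_lit 288))) (PT.nd (nat_lit 78) (PT.lf (nat_lit 15428) (nat_lit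 3) (nat_lit 203) (nat_lit 1) (nat_lit 287) (nat_lit 206) (nat_lit 287)) (PT.lf (nat_lit 15352) (nat_lit 6) (nat_lit 202) (nat_lit 1) (nat_lit 288) (nat_lit 206) (nat_lit 286)))) (PT.nd (nat_lit 156) (PT.nd (nat_lit 78) (PT.lf (nat_lit 15276) (nat_lit 6) (nat_lit 201) (nat_lit 1) (nat_lit 289) (nat_lit 206) (nat_lit 285)) (PT.lf (nat_lit 15200) (nat_lit 6) (nat_lit 200) (nat_lit 1) (nat_lit 290) (nat_lit 206) (nat_lit 284))) (PT.nd (nat_lit 78) (PT.lf (nat_lit 15124) (nat_lit 6) (nat_lit 199) (nat_lit 1) (nat_lit 291) (nat_lit 206) (nat_lit 283)) (PT.nd (nat_lit 80340) (PT.lf (nat_lit 15048) (nat_lit 6) (nat_lit 198) (nat_lit 1) (nat_lit 292) (nat_lit 206) (nat_lit 282)) (PT.lf (nat_lit 15504) (nat_lit 6) (nat_lit 204) (nat_lit 3) (nat_lit 281) (nat_lit 207) (nat_lit 292))))))))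
noncomputable def pc10 : PT := (PT.nd (nat_lit 81510) (PT.nd (nat_lit 624) (PT.nd (nat_lit 312) (PT.nd (nat_lit 156) (PT.nd (nat_lit 78) (PT.lf (nat_lit 15580) (nat_lit 6) (nat_lit 205) (nat_lit 3) (nat_lit 282) (nat_lit 207) (nat_lit 291)) (PT.lf (nat_lit 15656) (nat_lit 6) (nat_lit 206) (nat_lit 3) (nat_lit 283) (nat_lit 207) (nat_lit 290))) (PT.nd (nat_lit 78) (PT.lf (nat_lit 15732) (nat_lit 6) (nat_lit 207) (nat_lit 3) (nat_lit 284) (nat_lit 207) (nat_lit 289)) (PT.lf (nat_lit 15808) (nat_lit 6) (nat_lit 208) (nat_lit 3) (nat_lit 285) (nat_lit 207) (nat_lit 288)))) (PT.nd (nat_lit 156) (PT.nd (nat_lit 78) (PT.lf (nat_lit 15884) (nat_lit 6) (nat_lit 209) (nat_lit 3) (nat_lit 286) (nat_lit 207) (nat_lit 287)) (PT.lf (nat_lit 15884) (nat_lit 6) (nat_lit 209) (nat_lit 1) (nat_lit 287) (nat_lit 207) (nat_lit 286))) (PT.nd (nat_lit 78) (PT.lf (nat_lit 15808) (nat_lit 6) (nat_lit 208) (nat_lit 1) (nat_lit 288) (nat_lit 207) (nat_lit 285)) (PT.lf (nat_lit 15732)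 (nat_lit 6) (nat_lit 207) (nat_lit 1) (nat_lit 289) (nat_lit 207) (nat_lit 284))))) (PT.nd (nat_lit 80496) (PT.nd (nat_lit 156) (PT.nd (nat_lit 78) (PT.lf (nat_lit 15656) (nat_lit 6) (nat_lit 206) (nat_lit 1) (nat_lit 290) (nat_lit 207) (nat_lit 283)) (PT.lf (nat_lit 15580) (nat_lit 6) (nat_lit 205) (nat_lit 1) (nat_lit 291) (nat_lit 207) (nat_lit 282))) (PT.nd (nat_lit 80262) (PT.lf (nat_lit 15504) (nat_lit 6) (nat_lit 204) (nat_lit 1) (nat_lit 292) (nat_lit 207) (nat_lit 281)) (PT.lf (nat_lit 15960) (nat_lit 6) (nat_lit 210) (nat_lit 3) (nat_lit 280) (nat_lit 208) (nat_lit 292)))) (PT.nd (nat_lit 156) (PT.nd (nat_lit 78) (PT.lf (nat_lit 16036) (nat_lit 6) (nat_lit 211) (nat_lit 3) (nat_lit 281) (nat_lit 208) (nat_lit 291)) (PT.lf (nat_lit 16112) (nat_lit 6) (nat_lit 212) (nat_lit 3) (nat_lit 282) (nat_lit 208) (nat_lit 290))) (PT.nd (nat_lit 78) (PT.lf (nat_lit 16188) (nat_lit 6) (nat_lit 213) (nat_lit 3) (nat_lit 283) (nat_lit 208) (nat_lit 289)) (PT.nd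 (nat_lit 78) (PT.lf (nat_lit 16264) (nat_lit 6) (nat_lit 214) (nat_lit 3) (nat_lit 284) (nat_lit 208) (nat_lit 288)) (PT.lf (nat_lit 16340) (nat_lit 6) (nat_lit 215) (nat_lit 3) (nat_lit 285) (nat_lit 208) (nat_lit 287))))))) (PT.nd (nat_lit 80808) (PT.nd (nat_lit 312) (PT.nd (nat_lit 156) (PT.nd (nat_lit 78) (PT.lf (nat_lit 16416) (nat_lit 3) (nat_lit 216) (nat_lit 1) (nat_lit 286) (nat_lit 208) (nat_lit 286)) (PT.lf (nat_lit 16340) (nat_lit 6) (nat_lit 215) (nat_lit 1) (nat_lit 287) (nat_lit 208) (nat_lit 285))) (PT.nd (nat_lit 78) (PT.lf (nat_lit 16264) (nat_lit 6) (nat_lit 214) (nat_lit 1) (nat_lit 288) (nat_lit 208) (nat_lit 284)) (PT.lf (nat_lit 16188) (nat_lit 6) (nat_lit 213) (nat_lit 1) (nat_lit 289) (nat_lit 208) (nat_lit 283)))) (PT.nd (nat_lit 156) (PT.nd (nat_lit 78) (PT.lf (nat_lit 16112) (nat_lit 6) (nat_lit 212) (nat_lit 1) (nat_lit 290) (nat_lit 208) (nat_lit 282)) (PT.lf (nat_lit 16036) (nat_lit 6) (nat_lit 211) (nat_lit 1) (nat_lit 291)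 (nat_lit 208) (nat_lit 281))) (PT.nd (nat_lit 80262) (PT.lf (nat_lit 15960) (nat_lit 6) (nat_lit 210) (nat_lit 1) (nat_lit 292) (nat_lit 208) (nat_lit 280)) (PT.lf (nat_lit 16492) (nat_lit 6) (nat_lit 217) (nat_lit 3) (nat_lit 280) (nat_lit 209) (nat_lit 291))))) (PT.nd (nat_lit 312) (PT.nd (nat_lit 156) (PT.nd (nat_lit 78) (PT.lf (nat_lit 16568) (nat_lit 6) (nat_lit 218) (nat_lit 3) (nat_lit 281) (nat_lit 209) (nat_lit 290)) (PT.lf (nat_lit 16644) (nat_lit 6) (nat_lit 219) (nat_lit 3) (nat_lit 282) (nat_lit 209) (nat_lit 289))) (PT.nd (nat_lit 78) (PT.lf (nat_lit 16720) (nat_lit 6) (nat_lit 220) (nat_lit 3) (nat_lit 283) (nat_lit 209) (nat_lit 288)) (PT.lf (nat_lit 16796) (nat_lit 6) (nat_lit 221) (nat_lit 3) (nat_lit 284) (nat_lit 209) (nat_lit 287)))) (PT.nd (nat_lit 156) (PT.nd (nat_lit 78) (PT.lf (nat_lit 16872) (nat_lit 6) (nat_lit 222) (nat_lit 3) (nat_lit 285) (nat_lit 209) (nat_lit 286)) (PT.lf (nat_lit 16872) (nat_lit 6) (nat_lit 222) (nat_lit 1)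 (nat_lit 286) (nat_lit 209) (nat_lit 285))) (PT.nd (nat_lit 78) (PT.lf (nat_lit 16796) (nat_lit 6) (nat_lit 221) (nat_lit 1) (nat_lit 287) (nat_lit 209) (nat_lit 284)) (PT.nd (nat_lit 78) (PT.lf (nat_lit 16720) (nat_lit 6) (nat_lit 220) (nat_lit 1) (nat_lit 288) (nat_lit 209) (nat_lit 283)) (PT.lf (nat_lit 16644) (nat_lit 6) (nat_lit 219) (nat_lit 1) (nat_lit 289) (nat_lit 209) (nat_lit 282))))))))
noncomputable def pc11 : PT := (PT.nd (nat_lit 161616) (PT.nd (nat_lit 80808) (PT.nd (nat_lit 80496) (PT.nd (nat_lit 80340) (PT.nd (nat_lit 78) (PT.lf (nat_lit 16568) (nat_lit 6) (nat_lit 218) (nat_lit 1) (nat_lit 290) (nat_lit 209) (nat_lit 281)) (PT.lf (nat_lit 16492) (nat_lit 6) (nat_lit 217) (nat_lit 1) (nat_lit 291) (nat_lit 209) (nat_lit 280))) (PT.nd (nat_lit 78) (PT.lf (nat_lit 16948) (nat_lit 6) (nat_lit 223) (nat_lit 3) (nat_lit 279) (nat_lit 210) (nat_lit 291)) (PT.lf (nat_lit 17024) (nat_lit 6) (nat_lit 224) (nat_lit 3) (nat_lit 280) (nat_lit 210) (nat_lit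 290)))) (PT.nd (nat_lit 156) (PT.nd (nat_lit 78) (PT.lf (nat_lit 17100) (nat_lit 6) (nat_lit 225) (nat_lit 3) (nat_lit 281) (nat_lit 210) (nat_lit 289)) (PT.lf (nat_lit 17176) (nat_lit 6) (nat_lit 226) (nat_lit 3) (nat_lit 282) (nat_lit 210) (nat_lit 288))) (PT.nd (nat_lit 78) (PT.lf (nat_lit 17252) (nat_lit 6) (nat_lit 227) (nat_lit 3) (nat_lit 283) (nat_lit 210) (nat_lit 287)) (PT.lf (nat_lit 17328) (nat_lit 6) (nat_lit 228) (nat_lit 3) (nat_lit 284) (nat_lit 210) (nat_lit 286))))) (PT.nd (nat_lit 312) (PT.nd (nat_lit 156) (PT.nd (nat_lit 78) (PT.lf (nat_lit 17404) (nat_lit 3) (nat_lit 229) (nat_lit 1) (nat_lit 285) (nat_lit 210) (nat_lit 285)) (PT.lf (nat_lit 17328) (nat_lit 6) (nat_lit 228) (nat_lit 1) (nat_lit 286) (nat_lit 210) (nat_lit 284))) (PT.nd (nat_lit 78) (PT.lf (nat_lit 17252) (nat_lit 6) (nat_lit 227) (nat_lit 1) (nat_lit 287) (nat_lit 210) (nat_lit 283)) (PT.lf (nat_lit 17176) (nat_lit 6) (nat_lit 226) (nat_lit 1) (nat_lit 288) (nat_lit 210)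 (nat_lit 282)))) (PT.nd (nat_lit 156) (PT.nd (nat_lit 78) (PT.lf (nat_lit 17100) (nat_lit 6) (nat_lit 225) (nat_lit 1) (nat_lit 289) (nat_lit 210) (nat_lit 281)) (PT.lf (nat_lit 17024) (nat_lit 6) (nat_lit 224) (nat_lit 1) (nat_lit 290) (nat_lit 210) (nat_lit 280))) (PT.nd (nat_lit 80184) (PT.lf (nat_lit 16948) (nat_lit 6) (nat_lit 223) (nat_lit 1) (nat_lit 291) (nat_lit 210) (nat_lit 279)) (PT.nd (nat_lit 78) (PT.lf (nat_lit 17480) (nat_lit 6) (nat_lit 230) (nat_lit 3) (nat_lit 278) (nat_lit 211) (nat_lit 291)) (PT.lf (nat_lit 17556) (nat_lit 6) (nat_lit 231) (nat_lit 3) (nat_lit 279) (nat_lit 211) (nat_lit 290))))))) (PT.nd (nat_lit 702) (PT.nd (nat_lit 312) (PT.nd (nat_lit 156) (PT.nd (nat_lit 78) (PT.lf (nat_lit 17632) (nat_lit 6) (nat_lit 232) (nat_lit 3) (nat_lit 280) (nat_lit 211) (nat_lit 289)) (PT.lf (nat_lit 17708) (nat_lit 6) (nat_lit 233) (nat_lit 3) (nat_lit 281) (nat_lit 211) (nat_lit 288))) (PT.nd (nat_lit 78) (PT.lf (nat_lit 17784) (nat_lit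 6) (nat_lit 234) (nat_lit 3) (nat_lit 282) (nat_lit 211) (nat_lit 287)) (PT.lf (nat_lit 17860) (nat_lit 6) (nat_lit 235) (nat_lit 3) (nat_lit 283) (nat_lit 211) (nat_lit 286)))) (PT.nd (nat_lit 156) (PT.nd (nat_lit 78) (PT.lf (nat_lit 17936) (nat_lit 6) (nat_lit 236) (nat_lit 3) (nat_lit 284) (nat_lit 211) (nat_lit 285)) (PT.lf (nat_lit 17936) (nat_lit 6) (nat_lit 236) (nat_lit 1) (nat_lit 285) (nat_lit 211) (nat_lit 284))) (PT.nd (nat_lit 78) (PT.lf (nat_lit 17860) (nat_lit 6) (nat_lit 235) (nat_lit 1) (nat_lit 286) (nat_lit 211) (nat_lit 283)) (PT.nd (nat_lit 78) (PT.lf (nat_lit 17784) (nat_lit 6) (nat_lit 234) (nat_lit 1) (nat_lit 287) (nat_lit 211) (nat_lit 282)) (PT.lf (nat_lit 17708) (nat_lit 6) (nat_lit 233) (nat_lit 1) (nat_lit 288) (nat_lit 211) (nat_lit 281)))))) (PT.nd (nat_lit 80418) (PT.nd (nat_lit 156) (PT.nd (nat_lit 78) (PT.lf (nat_lit 17632) (nat_lit 6) (nat_lit 232) (nat_lit 1) (nat_lit 289) (nat_lit 211) (nat_lit 280)) (PT.lf (nat_lit 17556)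 (nat_lit 6) (nat_lit 231) (nat_lit 1) (nat_lit 290) (nat_lit 211) (nat_lit 279))) (PT.nd (nat_lit 80184) (PT.lf (nat_lit 17480) (nat_lit 6) (nat_lit 230) (nat_lit 1) (nat_lit 291) (nat_lit 211) (nat_lit 278)) (PT.lf (nat_lit 18012) (nat_lit 6) (nat_lit 237) (nat_lit 3) (nat_lit 278) (nat_lit 212) (nat_lit 290)))) (PT.nd (nat_lit 156) (PT.nd (nat_lit 78) (PT.lf (nat_lit 18088) (nat_lit 6) (nat_lit 238) (nat_lit 3) (nat_lit 279) (nat_lit 212) (nat_lit 289)) (PT.lf (nat_lit 18164) (nat_lit 6) (nat_lit 239) (nat_lit 3) (nat_lit 280) (nat_lit 212) (nat_lit 288))) (PT.nd (nat_lit 78) (PT.lf (nat_lit 18240) (nat_lit 6) (nat_lit 240) (nat_lit 3) (nat_lit 281) (nat_lit 212) (nat_lit 287)) (PT.nd (nat_lit 78) (PT.lf (nat_lit 18316) (nat_lit 6) (nat_lit 241) (nat_lit 3) (nat_lit 282) (nat_lit 212) (nat_lit 286)) (PT.lf (nat_lit 18392) (nat_lit 6) (nat_lit 242) (nat_lit 3) (nat_lit 283) (nat_lit 212) (nat_lit 285))))))))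
noncomputable def pc12 : PT := (PT.nd (nat_lit 81432) (PT.nd (nat_lit 80730) (PT.nd (nat_lit 312) (PT.nd (nat_lit 156) (PT.nd (nat_lit 78) (PT.lf (nat_lit 18468) (nat_lit 3) (nat_lit 243) (nat_lit 1) (nat_lit 284) (nat_lit 212) (nat_lit 284)) (PT.lf (nat_lit 18392) (nat_lit 6) (nat_lit 242) (nat_lit 1) (nat_lit 285) (nat_lit 212) (nat_lit 283))) (PT.nd (nat_lit 78) (PT.lf (nat_lit 18316) (nat_lit 6) (nat_lit 241) (nat_lit 1) (nat_lit 286) (nat_lit 212) (nat_lit 282)) (PT.lf (nat_lit 18240) (nat_lit 6) (nat_lit 240) (nat_lit 1) (nat_lit 287) (nat_lit 212) (nat_lit 281)))) (PT.nd (nat_lit 156) (PT.nd (nat_lit 78) (PT.lf (nat_lit 18164) (nat_lit 6) (nat_lit 239) (nat_lit 1) (nat_lit 288) (nat_lit 212) (nat_lit 280)) (PT.lf (nat_lit 18088) (nat_lit 6) (nat_lit 238) (nat_lit 1) (nat_lit 289) (nat_lit 212) (nat_lit 279))) (PT.nd (nat_lit 80184) (PT.lf (nat_lit 18012) (nat_lit 6) (nat_lit 237) (nat_lit 1) (nat_lit 290) (nat_lit 212) (nat_lit 278)) (PT.lf (nat_lit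 18544) (nat_lit 6) (nat_lit 244) (nat_lit 3) (nat_lit 277) (nat_lit 213) (nat_lit 290))))) (PT.nd (nat_lit 312) (PT.nd (nat_lit 156) (PT.nd (nat_lit 78) (PT.lf (nat_lit 18620) (nat_lit 6) (nat_lit 245) (nat_lit 3) (nat_lit 278) (nat_lit 213) (nat_lit 289)) (PT.lf (nat_lit 18696) (nat_lit 6) (nat_lit 246) (nat_lit 3) (nat_lit 279) (nat_lit 213) (nat_lit 288))) (PT.nd (nat_lit 78) (PT.lf (nat_lit 18772) (nat_lit 6) (nat_lit 247) (nat_lit 3) (nat_lit 280) (nat_lit 213) (nat_lit 287)) (PT.lf (nat_lit 18848) (nat_lit 6) (nat_lit 248) (nat_lit 3) (nat_lit 281) (nat_lit 213) (nat_lit 286)))) (PT.nd (nat_lit 156) (PT.nd (nat_lit 78) (PT.lf (nat_lit 18924) (nat_lit 6) (nat_lit 249) (nat_lit 3) (nat_lit 282) (nat_lit 213) (nat_lit 285)) (PT.lf (nat_lit 19000) (nat_lit 6) (nat_lit 250) (nat_lit 3) (nat_lit 283) (nat_lit 213) (nat_lit 284))) (PT.nd (nat_lit 78) (PT.lf (nat_lit 19000) (nat_lit 6) (nat_lit 250) (nat_lit 1) (nat_lit 284) (nat_lit 213) (nat_lit 283)) (PT.nd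 (nat_lit 78) (PT.lf (nat_lit 18924) (nat_lit 6) (nat_lit 249) (nat_lit 1) (nat_lit 285) (nat_lit 213) (nat_lit 282)) (PT.lf (nat_lit 18848) (nat_lit 6) (nat_lit 248) (nat_lit 1) (nat_lit 286) (nat_lit 213) (nat_lit 281))))))) (PT.nd (nat_lit 80652) (PT.nd (nat_lit 80340) (PT.nd (nat_lit 156) (PT.nd (nat_lit 78) (PT.lf (nat_lit 18772) (nat_lit 6) (nat_lit 247) (nat_lit 1) (nat_lit 287) (nat_lit 213) (nat_lit 280)) (PT.lf (nat_lit 18696) (nat_lit 6) (nat_lit 246) (nat_lit 1) (nat_lit 288) (nat_lit 213) (nat_lit 279))) (PT.nd (nat_lit 78) (PT.lf (nat_lit 18620) (nat_lit 6) (nat_lit 245) (nat_lit 1) (nat_lit 289) (nat_lit 213) (nat_lit 278)) (PT.lf (nat_lit 18544) (nat_lit 6) (nat_lit 244) (nat_lit 1) (nat_lit 290) (nat_lit 213) (nat_lit 277)))) (PT.nd (nat_lit 156) (PT.nd (nat_lit 78) (PT.lf (nat_lit 19076) (nat_lit 6) (nat_lit 251) (nat_lit 3) (nat_lit 276) (nat_lit 214) (nat_lit 290)) (PT.lf (nat_lit 19152) (nat_lit 6) (nat_lit 252) (nat_lit 3) (nat_lit 277)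 (nat_lit 214) (nat_lit 289))) (PT.nd (nat_lit 78) (PT.lf (nat_lit 19228) (nat_lit 6) (nat_lit 253) (nat_lit 3) (nat_lit 278) (nat_lit 214) (nat_lit 288)) (PT.lf (nat_lit 19304) (nat_lit 6) (nat_lit 254) (nat_lit 3) (nat_lit 279) (nat_lit 214) (nat_lit 287))))) (PT.nd (nat_lit 312) (PT.nd (nat_lit 156) (PT.nd (nat_lit 78) (PT.lf (nat_lit 19380) (nat_lit 6) (nat_lit 255) (nat_lit 3) (nat_lit 280) (nat_lit 214) (nat_lit 286)) (PT.lf (nat_lit 19456) (nat_lit 6) (nat_lit 256) (nat_lit 3) (nat_lit 281) (nat_lit 214) (nat_lit 285))) (PT.nd (nat_lit 78) (PT.lf (nat_lit 19532) (nat_lit 6) (nat_lit 257) (nat_lit 3) (nat_lit 282) (nat_lit 214) (nat_lit 284)) (PT.lf (nat_lit 19608) (nat_lit 3) (nat_lit 258) (nat_lit 1) (nat_lit 283) (nat_lit 214) (nat_lit 283)))) (PT.nd (nat_lit 156) (PT.nd (nat_lit 78) (PT.lf (nat_lit 19532) (nat_lit 6) (nat_lit 257) (nat_lit 1) (nat_lit 284) (nat_lit 214) (nat_lit 282)) (PT.lf (nat_lit 19456) (nat_lit 6) (nat_lit 256) (nat_lit 1) (nat_lit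 285) (nat_lit 214) (nat_lit 281))) (PT.nd (nat_lit 78) (PT.lf (nat_lit 19380) (nat_lit 6) (nat_lit 255) (nat_lit 1) (nat_lit 286) (nat_lit 214) (nat_lit 280)) (PT.nd (nat_lit 78) (PT.lf (nat_lit 19304) (nat_lit 6) (nat_lit 254) (nat_lit 1) (nat_lit 287) (nat_lit 214) (nat_lit 279)) (PT.lf (nat_lit 19228) (nat_lit 6) (nat_lit 253) (nat_lit 1) (nat_lit 288) (nat_lit 214) (nat_lit 278))))))))
noncomputable def pc13 : PT := (PT.nd (nat_lit 161382) (PT.nd (nat_lit 80652) (PT.nd (nat_lit 80340) (PT.nd (nat_lit 80184) (PT.nd (nat_lit 78) (PT.lf (nat_lit 19152) (nat_lit 6) (nat_lit 252) (nat_lit 1) (nat_lit 289) (nat_lit 214) (nat_lit 277)) (PT.lf (nat_lit 19076) (nat_lit 6) (nat_lit 251) (nat_lit 1) (nat_lit 290) (nat_lit 214) (nat_lit 276))) (PT.nd (nat_lit 78) (PT.lf (nat_lit 19684) (nat_lit 6) (nat_lit 259) (nat_lit 3) (nat_lit 276) (nat_lit 215) (nat_lit 289)) (PT.lf (nat_lit 19760) (nat_lit 6) (nat_lit 260) (nat_lit 3) (nat_lit 277) (nat_lit 215) (nat_lit 288))))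 (PT.nd (nat_lit 156) (PT.nd (nat_lit 78) (PT.lf (nat_lit 19836) (nat_lit 6) (nat_lit 261) (nat_lit 3) (nat_lit 278) (nat_lit 215) (nat_lit 287)) (PT.lf (nat_lit 19912) (nat_lit 6) (nat_lit 262) (nat_lit 3) (nat_lit 279) (nat_lit 215) (nat_lit 286))) (PT.nd (nat_lit 78) (PT.lf (nat_lit 19988) (nat_lit 6) (nat_lit 263) (nat_lit 3) (nat_lit 280) (nat_lit 215) (nat_lit 285)) (PT.lf (nat_lit 20064) (nat_lit 6) (nat_lit 264) (nat_lit 3) (nat_lit 281) (nat_lit 215) (nat_lit 284))))) (PT.nd (nat_lit 312) (PT.nd (nat_lit 156) (PT.nd (nat_lit 78) (PT.lf (nat_lit 20140) (nat_lit 6) (nat_lit 265) (nat_lit 3) (nat_lit 282) (nat_lit 215) (nat_lit 283)) (PT.lf (nat_lit 20140) (nat_lit 6) (nat_lit 265) (nat_lit 1) (nat_lit 283) (nat_lit 215) (nat_lit 282))) (PT.nd (nat_lit 78) (PT.lf (nat_lit 20064) (nat_lit 6) (nat_lit 264) (nat_lit 1) (nat_lit 284) (nat_lit 215) (nat_lit 281)) (PT.lf (nat_lit 19988) (nat_lit 6) (nat_lit 263) (nat_lit 1) (nat_lit 285) (nat_lit 215) (nat_lit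 280)))) (PT.nd (nat_lit 156) (PT.nd (nat_lit 78) (PT.lf (nat_lit 19912) (nat_lit 6) (nat_lit 262) (nat_lit 1) (nat_lit 286) (nat_lit 215) (nat_lit 279)) (PT.lf (nat_lit 19836) (nat_lit 6) (nat_lit 261) (nat_lit 1) (nat_lit 287) (nat_lit 215) (nat_lit 278))) (PT.nd (nat_lit 78) (PT.lf (nat_lit 19760) (nat_lit 6) (nat_lit 260) (nat_lit 1) (nat_lit 288) (nat_lit 215) (nat_lit 277)) (PT.nd (nat_lit 80106) (PT.lf (nat_lit 19684) (nat_lit 6) (nat_lit 259) (nat_lit 1) (nat_lit 289) (nat_lit 215) (nat_lit 276)) (PT.lf (nat_lit 20216) (nat_lit 6) (nat_lit 266) (nat_lit 3) (nat_lit 275) (nat_lit 216) (nat_lit 289))))))) (PT.nd (nat_lit 624) (PT.nd (nat_lit 312) (PT.nd (nat_lit 156) (PT.nd (nat_lit 78) (PT.lf (nat_lit 20292) (nat_lit 6) (nat_lit 267) (nat_lit 3) (nat_lit 276) (nat_lit 216) (nat_lit 288)) (PT.lf (nat_lit 20368) (nat_lit 6) (nat_lit 268) (nat_lit 3) (nat_lit 277) (nat_lit 216) (nat_lit 287))) (PT.nd (nat_lit 78) (PT.lf (nat_lit 20444) (nat_lit 6) (nat_lit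 269) (nat_lit 3) (nat_lit 278) (nat_lit 216) (nat_lit 286)) (PT.lf (nat_lit 20520) (nat_lit 6) (nat_lit 270) (nat_lit 3) (nat_lit 279) (nat_lit 216) (nat_lit 285)))) (PT.nd (nat_lit 156) (PT.nd (nat_lit 78) (PT.lf (nat_lit 20596) (nat_lit 6) (nat_lit 271) (nat_lit 3) (nat_lit 280) (nat_lit 216) (nat_lit 284)) (PT.lf (nat_lit 20672) (nat_lit 6) (nat_lit 272) (nat_lit 3) (nat_lit 281) (nat_lit 216) (nat_lit 283))) (PT.nd (nat_lit 78) (PT.lf (nat_lit 20748) (nat_lit 3) (nat_lit 273) (nat_lit 1) (nat_lit 282) (nat_lit 216) (nat_lit 282)) (PT.lf (nat_lit 20672) (nat_lit 6) (nat_lit 272) (nat_lit 1) (nat_lit 283) (nat_lit 216) (nat_lit 281))))) (PT.nd (nat_lit 312) (PT.nd (nat_lit 156) (PT.nd (nat_lit 78) (PT.lf (nat_lit 20596) (nat_lit 6) (nat_lit 271) (nat_lit 1) (nat_lit 284) (nat_lit 216) (nat_lit 280)) (PT.lf (nat_lit 20520) (nat_lit 6) (nat_lit 270) (nat_lit 1) (nat_lit 285) (nat_lit 216) (nat_lit 279))) (PT.nd (nat_lit 78) (PT.lf (nat_lit 20444) (nat_lit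 6) (nat_lit 269) (nat_lit 1) (nat_lit 286) (nat_lit 216) (nat_lit 278)) (PT.lf (nat_lit 20368) (nat_lit 6) (nat_lit 268) (nat_lit 1) (nat_lit 287) (nat_lit 216) (nat_lit 277)))) (PT.nd (nat_lit 80106) (PT.nd (nat_lit 78) (PT.lf (nat_lit 20292) (nat_lit 6) (nat_lit 267) (nat_lit 1) (nat_lit 288) (nat_lit 216) (nat_lit 276)) (PT.lf (nat_lit 20216) (nat_lit 6) (nat_lit 266) (nat_lit 1) (nat_lit 289) (nat_lit 216) (nat_lit 275))) (PT.nd (nat_lit 78) (PT.lf (nat_lit 20824) (nat_lit 6) (nat_lit 274) (nat_lit 3) (nat_lit 274) (nat_lit 217) (nat_lit 289)) (PT.nd (nat_lit 78) (PT.lf (nat_lit 20900) (nat_lit 6) (nat_lit 275) (nat_lit 3) (nat_lit 275) (nat_lit 217) (nat_lit 288)) (PT.lf (nat_lit 20976) (nat_lit 6) (nat_lit 276) (nat_lit 3) (nat_lit 276) (nat_lit 217) (nat_lit 287))))))))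
noncomputable def pc14 : PT := (PT.nd (nat_lit 81198) (PT.nd (nat_lit 624) (PT.nd (nat_lit 312) (PT.nd (nat_lit 156) (PT.nd (nat_lit 78) (PT.lf (nat_lit 21052) (nat_lit 6) (nat_lit 277) (nat_lit 3) (nat_lit 277) (nat_lit 217) (nat_lit 286)) (PT.lf (nat_lit 21128) (nat_lit 6) (nat_lit 278) (nat_lit 3) (nat_lit 278) (nat_lit 217) (nat_lit 285))) (PT.nd (nat_lit 78) (PT.lf (nat_lit 21204) (nat_lit 6) (nat_lit 279) (nat_lit 3) (nat_lit 279) (nat_lit 217) (nat_lit 284)) (PT.lf (nat_lit 21280) (nat_lit 6) (nat_lit 280) (nat_lit 3) (nat_lit 280) (nat_lit 217) (nat_lit 283)))) (PT.nd (nat_lit 156) (PT.nd (nat_lit 78) (PT.lf (nat_lit 21356) (nat_lit 6) (nat_lit 281) (nat_lit 3) (nat_lit 281) (nat_lit 217) (nat_lit 282)) (PT.lf (nat_lit 21356) (nat_lit 6) (nat_lit 281) (nat_lit 1) (nat_lit 282) (nat_lit 217) (nat_lit 281))) (PT.nd (nat_lit 78) (PT.lf (nat_lit 21280) (nat_lit 6) (nat_lit 280) (nat_lit 1) (nat_lit 283) (nat_lit 217) (nat_lit 280)) (PT.lf (nat_lit 21204)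 (nat_lit 6) (nat_lit 279) (nat_lit 1) (nat_lit 284) (nat_lit 217) (nat_lit 279))))) (PT.nd (nat_lit 312) (PT.nd (nat_lit 156) (PT.nd (nat_lit 78) (PT.lf (nat_lit 21128) (nat_lit 6) (nat_lit 278) (nat_lit 1) (nat_lit 285) (nat_lit 217) (nat_lit 278)) (PT.lf (nat_lit 21052) (nat_lit 6) (nat_lit 277) (nat_lit 1) (nat_lit 286) (nat_lit 217) (nat_lit 277))) (PT.nd (nat_lit 78) (PT.lf (nat_lit 20976) (nat_lit 6) (nat_lit 276) (nat_lit 1) (nat_lit 287) (nat_lit 217) (nat_lit 276)) (PT.lf (nat_lit 20900) (nat_lit 6) (nat_lit 275) (nat_lit 1) (nat_lit 288) (nat_lit 217) (nat_lit 275)))) (PT.nd (nat_lit 80028) (PT.nd (nat_lit 79950) (PT.lf (nat_lit 20824) (nat_lit 6) (nat_lit 274) (nat_lit 1) (nat_lit 289) (nat_lit 217) (nat_lit 274)) (PT.lf (nat_lit 21432) (nat_lit 6) (nat_lit 282) (nat_lit 3) (nat_lit 273) (nat_lit 218) (nat_lit 289))) (PT.nd (nat_lit 78) (PT.lf (nat_lit 21508) (nat_lit 6) (nat_lit 283) (nat_lit 3) (nat_lit 274) (nat_lit 218) (nat_lit 288)) (PT.nd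 (nat_lit 78) (PT.lf (nat_lit 21584) (nat_lit 6) (nat_lit 284) (nat_lit 3) (nat_lit 275) (nat_lit 218) (nat_lit 287)) (PT.lf (nat_lit 21660) (nat_lit 6) (nat_lit 285) (nat_lit 3) (nat_lit 276) (nat_lit 218) (nat_lit 286))))))) (PT.nd (nat_lit 624) (PT.nd (nat_lit 312) (PT.nd (nat_lit 156) (PT.nd (nat_lit 78) (PT.lf (nat_lit 21736) (nat_lit 6) (nat_lit 286) (nat_lit 3) (nat_lit 277) (nat_lit 218) (nat_lit 285)) (PT.lf (nat_lit 21812) (nat_lit 6) (nat_lit 287) (nat_lit 3) (nat_lit 278) (nat_lit 218) (nat_lit 284))) (PT.nd (nat_lit 78) (PT.lf (nat_lit 21888) (nat_lit 6) (nat_lit 288) (nat_lit 3) (nat_lit 279) (nat_lit 218) (nat_lit 283)) (PT.lf (nat_lit 21964) (nat_lit 6) (nat_lit 289) (nat_lit 3) (nat_lit 280) (nat_lit 218) (nat_lit 282)))) (PT.nd (nat_lit 156) (PT.nd (nat_lit 78) (PT.lf (nat_lit 22040) (nat_lit 3) (nat_lit 290) (nat_lit 1) (nat_lit 281) (nat_lit 218) (nat_lit 281)) (PT.lf (nat_lit 21964) (nat_lit 6) (nat_lit 289) (nat_lit 1) (nat_lit 282) (nat_lit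 218) (nat_lit 280))) (PT.nd (nat_lit 78) (PT.lf (nat_lit 21888) (nat_lit 6) (nat_lit 288) (nat_lit 1) (nat_lit 283) (nat_lit 218) (nat_lit 279)) (PT.lf (nat_lit 21812) (nat_lit 6) (nat_lit 287) (nat_lit 1) (nat_lit 284) (nat_lit 218) (nat_lit 278))))) (PT.nd (nat_lit 312) (PT.nd (nat_lit 156) (PT.nd (nat_lit 78) (PT.lf (nat_lit 21736) (nat_lit 6) (nat_lit 286) (nat_lit 1) (nat_lit 285) (nat_lit 218) (nat_lit 277)) (PT.lf (nat_lit 21660) (nat_lit 6) (nat_lit 285) (nat_lit 1) (nat_lit 286) (nat_lit 218) (nat_lit 276))) (PT.nd (nat_lit 78) (PT.lf (nat_lit 21584) (nat_lit 6) (nat_lit 284) (nat_lit 1) (nat_lit 287) (nat_lit 218) (nat_lit 275)) (PT.lf (nat_lit 21508) (nat_lit 6) (nat_lit 283) (nat_lit 1) (nat_lit 288) (nat_lit 218) (nat_lit 274)))) (PT.nd (nat_lit 80028) (PT.nd (nat_lit 79950) (PT.lf (nat_lit 21432) (nat_lit 6) (nat_lit 282) (nat_lit 1) (nat_lit 289) (nat_lit 218) (nat_lit 273)) (PT.lf (nat_lit 22116) (nat_lit 6) (nat_lit 291) (nat_lit 3) (nat_lit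 273) (nat_lit 219) (nat_lit 288))) (PT.nd (nat_lit 78) (PT.lf (nat_lit 22192) (nat_lit 6) (nat_lit 292) (nat_lit 3) (nat_lit 274) (nat_lit 219) (nat_lit 287)) (PT.nd (nat_lit 78) (PT.lf (nat_lit 22268) (nat_lit 6) (nat_lit 293) (nat_lit 3) (nat_lit 275) (nat_lit 219) (nat_lit 286)) (PT.lf (nat_lit 22344) (nat_lit 6) (nat_lit 294) (nat_lit 3) (nat_lit 276) (nat_lit 219) (nat_lit 285))))))))
noncomputable def pc15 : PT := (PT.nd (nat_lit 81198) (PT.nd (nat_lit 624) (PT.nd (nat_lit 312) (PT.nd (nat_lit 156) (PT.nd (nat_lit 78) (PT.lf (nat_lit 22420) (nat_lit 6) (nat_lit 295) (nat_lit 3) (nat_lit 277) (nat_lit 219) (nat_lit 284)) (PT.lf (nat_lit 22496) (nat_lit 6) (nat_lit 296) (nat_lit 3) (nat_lit 278) (nat_lit 219) (nat_lit 283))) (PT.nd (nat_lit 78) (PT.lf (nat_lit 22572) (nat_lit 6) (nat_lit 297) (nat_lit 3) (nat_lit 279) (nat_lit 219) (nat_lit 282)) (PT.lf (nat_lit 22648) (nat_lit 6) (nat_lit 298) (nat_lit 3) (nat_lit 280) (nat_lit 219) (nat_lit 281)))) (PT.nd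 (nat_lit 156) (PT.nd (nat_lit 78) (PT.lf (nat_lit 22648) (nat_lit 6) (nat_lit 298) (nat_lit 1) (nat_lit 281) (nat_lit 219) (nat_lit 280)) (PT.lf (nat_lit 22572) (nat_lit 6) (nat_lit 297) (nat_lit 1) (nat_lit 282) (nat_lit 219) (nat_lit 279))) (PT.nd (nat_lit 78) (PT.lf (nat_lit 22496) (nat_lit 6) (nat_lit 296) (nat_lit 1) (nat_lit 283) (nat_lit 219) (nat_lit 278)) (PT.lf (nat_lit 22420) (nat_lit 6) (nat_lit 295) (nat_lit 1) (nat_lit 284) (nat_lit 219) (nat_lit 277))))) (PT.nd (nat_lit 80184) (PT.nd (nat_lit 156) (PT.nd (nat_lit 78) (PT.lf (nat_lit 22344) (nat_lit 6) (nat_lit 294) (nat_lit 1) (nat_lit 285) (nat_lit 219) (nat_lit 276)) (PT.lf (nat_lit 22268) (nat_lit 6) (nat_lit 293) (nat_lit 1) (nat_lit 286) (nat_lit 219) (nat_lit 275))) (PT.nd (nat_lit 78) (PT.lf (nat_lit 22192) (nat_lit 6) (nat_lit 292) (nat_lit 1) (nat_lit 287) (nat_lit 219) (nat_lit 274)) (PT.lf (nat_lit 22116) (nat_lit 6) (nat_lit 291) (nat_lit 1) (nat_lit 288) (nat_lit 219) (nat_lit 273))))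 (PT.nd (nat_lit 156) (PT.nd (nat_lit 78) (PT.lf (nat_lit 22724) (nat_lit 6) (nat_lit 299) (nat_lit 3) (nat_lit 272) (nat_lit 220) (nat_lit 288)) (PT.lf (nat_lit 22800) (nat_lit 6) (nat_lit 300) (nat_lit 3) (nat_lit 273) (nat_lit 220) (nat_lit 287))) (PT.nd (nat_lit 78) (PT.lf (nat_lit 22876) (nat_lit 6) (nat_lit 301) (nat_lit 3) (nat_lit 274) (nat_lit 220) (nat_lit 286)) (PT.nd (nat_lit 78) (PT.lf (nat_lit 22952) (nat_lit 6) (nat_lit 302) (nat_lit 3) (nat_lit 275) (nat_lit 220) (nat_lit 285)) (PT.lf (nat_lit 23028) (nat_lit 6) (nat_lit 303) (nat_lit 3) (nat_lit 276) (nat_lit 220) (nat_lit 284))))))) (PT.nd (nat_lit 702) (PT.nd (nat_lit 312) (PT.nd (nat_lit 156) (PT.nd (nat_lit 78) (PT.lf (nat_lit 23104) (nat_lit 6) (nat_lit 304) (nat_lit 3) (nat_lit 277) (nat_lit 220) (nat_lit 283)) (PT.lf (nat_lit 23180) (nat_lit 6) (nat_lit 305) (nat_lit 3) (nat_lit 278) (nat_lit 220) (nat_lit 282))) (PT.nd (nat_lit 78) (PT.lf (nat_lit 23256) (nat_lit 6) (nat_lit 306) (nat_lit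 3) (nat_lit 279) (nat_lit 220) (nat_lit 281)) (PT.lf (nat_lit 23332) (nat_lit 3) (nat_lit 307) (nat_lit 1) (nat_lit 280) (nat_lit 220) (nat_lit 280)))) (PT.nd (nat_lit 156) (PT.nd (nat_lit 78) (PT.lf (nat_lit 23256) (nat_lit 6) (nat_lit 306) (nat_lit 1) (nat_lit 281) (nat_lit 220) (nat_lit 279)) (PT.lf (nat_lit 23180) (nat_lit 6) (nat_lit 305) (nat_lit 1) (nat_lit 282) (nat_lit 220) (nat_lit 278))) (PT.nd (nat_lit 78) (PT.lf (nat_lit 23104) (nat_lit 6) (nat_lit 304) (nat_lit 1) (nat_lit 283) (nat_lit 220) (nat_lit 277)) (PT.nd (nat_lit 78) (PT.lf (nat_lit 23028) (nat_lit 6) (nat_lit 303) (nat_lit 1) (nat_lit 284) (nat_lit 220) (nat_lit 276)) (PT.lf (nat_lit 22952) (nat_lit 6) (nat_lit 302) (nat_lit 1) (nat_lit 285) (nat_lit 220) (nat_lit 275)))))) (PT.nd (nat_lit 80106) (PT.nd (nat_lit 156) (PT.nd (nat_lit 78) (PT.lf (nat_lit 22876) (nat_lit 6) (nat_lit 301) (nat_lit 1) (nat_lit 286) (nat_lit 220) (nat_lit 274)) (PT.lf (nat_lit 22800) (nat_lit 6) (nat_lit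 300) (nat_lit 1) (nat_lit 287) (nat_lit 220) (nat_lit 273))) (PT.nd (nat_lit 79872) (PT.lf (nat_lit 22724) (nat_lit 6) (nat_lit 299) (nat_lit 1) (nat_lit 288) (nat_lit 220) (nat_lit 272)) (PT.lf (nat_lit 23408) (nat_lit 6) (nat_lit 308) (nat_lit 3) (nat_lit 271) (nat_lit 221) (nat_lit 288)))) (PT.nd (nat_lit 156) (PT.nd (nat_lit 78) (PT.lf (nat_lit 23484) (nat_lit 6) (nat_lit 309) (nat_lit 3) (nat_lit 272) (nat_lit 221) (nat_lit 287)) (PT.lf (nat_lit 23560) (nat_lit 6) (nat_lit 310) (nat_lit 3) (nat_lit 273) (nat_lit 221) (nat_lit 286))) (PT.nd (nat_lit 78) (PT.lf (nat_lit 23636) (nat_lit 6) (nat_lit 311) (nat_lit 3) (nat_lit 274) (nat_lit 221) (nat_lit 285)) (PT.nd (nat_lit 78) (PT.lf (nat_lit 23712) (nat_lit 6) (nat_lit 312) (nat_lit 3) (nat_lit 275) (nat_lit 221) (nat_lit 284)) (PT.lf (nat_lit 23788) (nat_lit 6) (nat_lit 313) (nat_lit 3) (nat_lit 276) (nat_lit 221) (nat_lit 283))))))))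
noncomputable def pc16 : PT := (PT.nd (nat_lit 81120) (PT.nd (nat_lit 624) (PT.nd (nat_lit 312) (PT.nd (nat_lit 156) (PT.nd (nat_lit 78) (PT.lf (nat_lit 23864) (nat_lit 6) (nat_lit 314) (nat_lit 3) (nat_lit 277) (nat_lit 221) (nat_lit 282)) (PT.lf (nat_lit 23940) (nat_lit 6) (nat_lit 315) (nat_lit 3) (nat_lit 278) (nat_lit 221) (nat_lit 281))) (PT.nd (nat_lit 78) (PT.lf (nat_lit 24016) (nat_lit 6) (nat_lit 316) (nat_lit 3) (nat_lit 279) (nat_lit 221) (nat_lit 280)) (PT.lf (nat_lit 24016) (nat_lit 6) (nat_lit 316) (nat_lit 1) (nat_lit 280) (nat_lit 221) (nat_lit 279)))) (PT.nd (nat_lit 156) (PT.nd (nat_lit 78) (PT.lf (nat_lit 23940) (nat_lit 6) (nat_lit 315) (nat_lit 1) (nat_lit 281) (nat_lit 221) (nat_lit 278)) (PT.lf (nat_lit 23864) (nat_lit 6) (nat_lit 314) (nat_lit 1) (nat_lit 282) (nat_lit 221) (nat_lit 277))) (PT.nd (nat_lit 78) (PT.lf (nat_lit 23788) (nat_lit 6) (nat_lit 313) (nat_lit 1) (nat_lit 283) (nat_lit 221) (nat_lit 276)) (PT.lf (nat_lit 23712)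 (nat_lit 6) (nat_lit 312) (nat_lit 1) (nat_lit 284) (nat_lit 221) (nat_lit 275))))) (PT.nd (nat_lit 80106) (PT.nd (nat_lit 156) (PT.nd (nat_lit 78) (PT.lf (nat_lit 23636) (nat_lit 6) (nat_lit 311) (nat_lit 1) (nat_lit 285) (nat_lit 221) (nat_lit 274)) (PT.lf (nat_lit 23560) (nat_lit 6) (nat_lit 310) (nat_lit 1) (nat_lit 286) (nat_lit 221) (nat_lit 273))) (PT.nd (nat_lit 78) (PT.lf (nat_lit 23484) (nat_lit 6) (nat_lit 309) (nat_lit 1) (nat_lit 287) (nat_lit 221) (nat_lit 272)) (PT.lf (nat_lit 23408) (nat_lit 6) (nat_lit 308) (nat_lit 1) (nat_lit 288) (nat_lit 221) (nat_lit 271)))) (PT.nd (nat_lit 156) (PT.nd (nat_lit 78) (PT.lf (nat_lit 24092) (nat_lit 6) (nat_lit 317) (nat_lit 3) (nat_lit 271) (nat_lit 222) (nat_lit 287)) (PT.lf (nat_lit 24168) (nat_lit 6) (nat_lit 318) (nat_lit 3) (nat_lit 272) (nat_lit 222) (nat_lit 286))) (PT.nd (nat_lit 78) (PT.lf (nat_lit 24244) (nat_lit 6) (nat_lit 319) (nat_lit 3) (nat_lit 273) (nat_lit 222) (nat_lit 285)) (PT.nd (nat_lit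 78) (PT.lf (nat_lit 24320) (nat_lit 6) (nat_lit 320) (nat_lit 3) (nat_lit 274) (nat_lit 222) (nat_lit 284)) (PT.lf (nat_lit 24396) (nat_lit 6) (nat_lit 321) (nat_lit 3) (nat_lit 275) (nat_lit 222) (nat_lit 283))))))) (PT.nd (nat_lit 624) (PT.nd (nat_lit 312) (PT.nd (nat_lit 156) (PT.nd (nat_lit 78) (PT.lf (nat_lit 24472) (nat_lit 6) (nat_lit 322) (nat_lit 3) (nat_lit 276) (nat_lit 222) (nat_lit 282)) (PT.lf (nat_lit 24548) (nat_lit 6) (nat_lit 323) (nat_lit 3) (nat_lit 277) (nat_lit 222) (nat_lit 281))) (PT.nd (nat_lit 78) (PT.lf (nat_lit 24624) (nat_lit 6) (nat_lit 324) (nat_lit 3) (nat_lit 278) (nat_lit 222) (nat_lit 280)) (PT.lf (nat_lit 24700) (nat_lit 3) (nat_lit 325) (nat_lit 1) (nat_lit 279) (nat_lit 222) (nat_lit 279)))) (PT.nd (nat_lit 156) (PT.nd (nat_lit 78) (PT.lf (nat_lit 24624) (nat_lit 6) (nat_lit 324) (nat_lit 1) (nat_lit 280) (nat_lit 222) (nat_lit 278)) (PT.lf (nat_lit 24548) (nat_lit 6) (nat_lit 323) (nat_lit 1) (nat_lit 281) (nat_lit 222)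 (nat_lit 277))) (PT.nd (nat_lit 78) (PT.lf (nat_lit 24472) (nat_lit 6) (nat_lit 322) (nat_lit 1) (nat_lit 282) (nat_lit 222) (nat_lit 276)) (PT.lf (nat_lit 24396) (nat_lit 6) (nat_lit 321) (nat_lit 1) (nat_lit 283) (nat_lit 222) (nat_lit 275))))) (PT.nd (nat_lit 80106) (PT.nd (nat_lit 156) (PT.nd (nat_lit 78) (PT.lf (nat_lit 24320) (nat_lit 6) (nat_lit 320) (nat_lit 1) (nat_lit 284) (nat_lit 222) (nat_lit 274)) (PT.lf (nat_lit 24244) (nat_lit 6) (nat_lit 319) (nat_lit 1) (nat_lit 285) (nat_lit 222) (nat_lit 273))) (PT.nd (nat_lit 78) (PT.lf (nat_lit 24168) (nat_lit 6) (nat_lit 318) (nat_lit 1) (nat_lit 286) (nat_lit 222) (nat_lit 272)) (PT.lf (nat_lit 24092) (nat_lit 6) (nat_lit 317) (nat_lit 1) (nat_lit 287) (nat_lit 222) (nat_lit 271)))) (PT.nd (nat_lit 156) (PT.nd (nat_lit 78) (PT.lf (nat_lit 24776) (nat_lit 6) (nat_lit 326) (nat_lit 3) (nat_lit 270) (nat_lit 223) (nat_lit 287)) (PT.lf (nat_lit 24852) (nat_lit 6) (nat_lit 327) (nat_lit 3) (nat_lit 271)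 (nat_lit 223) (nat_lit 286))) (PT.nd (nat_lit 78) (PT.lf (nat_lit 24928) (nat_lit 6) (nat_lit 328) (nat_lit 3) (nat_lit 272) (nat_lit 223) (nat_lit 285)) (PT.nd (nat_lit 78) (PT.lf (nat_lit 25004) (nat_lit 6) (nat_lit 329) (nat_lit 3) (nat_lit 273) (nat_lit 223) (nat_lit 284)) (PT.lf (nat_lit 25080) (nat_lit 6) (nat_lit 330) (nat_lit 3) (nat_lit 274) (nat_lit 223) (nat_lit 283))))))))
noncomputable def pc17 : PT := (PT.nd (nat_lit 81042) (PT.nd (nat_lit 624) (PT.nd (nat_lit 312) (PT.nd (nat_lit 156) (PT.nd (nat_lit 78) (PT.lf (nat_lit 25156) (nat_lit 6) (nat_lit 331) (nat_lit 3) (nat_lit 275) (nat_lit 223) (nat_lit 282)) (PT.lf (nat_lit 25232) (nat_lit 6) (nat_lit 332) (nat_lit 3) (nat_lit 276) (nat_lit 223) (nat_lit 281))) (PT.nd (nat_lit 78) (PT.lf (nat_lit 25308) (nat_lit 6) (nat_lit 333) (nat_lit 3) (nat_lit 277) (nat_lit 223) (nat_lit 280)) (PT.lf (nat_lit 25384) (nat_lit 6) (nat_lit 334) (nat_lit 3) (nat_lit 278) (nat_lit 223) (nat_lit 279)))) (PT.nd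 (nat_lit 156) (PT.nd (nat_lit 78) (PT.lf (nat_lit 25384) (nat_lit 6) (nat_lit 334) (nat_lit 1) (nat_lit 279) (nat_lit 223) (nat_lit 278)) (PT.lf (nat_lit 25308) (nat_lit 6) (nat_lit 333) (nat_lit 1) (nat_lit 280) (nat_lit 223) (nat_lit 277))) (PT.nd (nat_lit 78) (PT.lf (nat_lit 25232) (nat_lit 6) (nat_lit 332) (nat_lit 1) (nat_lit 281) (nat_lit 223) (nat_lit 276)) (PT.lf (nat_lit 25156) (nat_lit 6) (nat_lit 331) (nat_lit 1) (nat_lit 282) (nat_lit 223) (nat_lit 275))))) (PT.nd (nat_lit 312) (PT.nd (nat_lit 156) (PT.nd (nat_lit 78) (PT.lf (nat_lit 25080) (nat_lit 6) (nat_lit 330) (nat_lit 1) (nat_lit 283) (nat_lit 223) (nat_lit 274)) (PT.lf (nat_lit 25004) (nat_lit 6) (nat_lit 329) (nat_lit 1) (nat_lit 284) (nat_lit 223) (nat_lit 273))) (PT.nd (nat_lit 78) (PT.lf (nat_lit 24928) (nat_lit 6) (nat_lit 328) (nat_lit 1) (nat_lit 285) (nat_lit 223) (nat_lit 272)) (PT.lf (nat_lit 24852) (nat_lit 6) (nat_lit 327) (nat_lit 1) (nat_lit 286) (nat_lit 223) (nat_lit 271))))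 (PT.nd (nat_lit 79872) (PT.nd (nat_lit 79794) (PT.lf (nat_lit 24776) (nat_lit 6) (nat_lit 326) (nat_lit 1) (nat_lit 287) (nat_lit 223) (nat_lit 270)) (PT.lf (nat_lit 25460) (nat_lit 6) (nat_lit 335) (nat_lit 3) (nat_lit 269) (nat_lit 224) (nat_lit 287))) (PT.nd (nat_lit 78) (PT.lf (nat_lit 25536) (nat_lit 6) (nat_lit 336) (nat_lit 3) (nat_lit 270) (nat_lit 224) (nat_lit 286)) (PT.nd (nat_lit 78) (PT.lf (nat_lit 25612) (nat_lit 6) (nat_lit 337) (nat_lit 3) (nat_lit 271) (nat_lit 224) (nat_lit 285)) (PT.lf (nat_lit 25688) (nat_lit 6) (nat_lit 338) (nat_lit 3) (nat_lit 272) (nat_lit 224) (nat_lit 284))))))) (PT.nd (nat_lit 624) (PT.nd (nat_lit 312) (PT.nd (nat_lit 156) (PT.nd (nat_lit 78) (PT.lf (nat_lit 25764) (nat_lit 6) (nat_lit 339) (nat_lit 3) (nat_lit 273) (nat_lit 224) (nat_lit 283)) (PT.lf (nat_lit 25840) (nat_lit 6) (nat_lit 340) (nat_lit 3) (nat_lit 274) (nat_lit 224) (nat_lit 282))) (PT.nd (nat_lit 78) (PT.lf (nat_lit 25916) (nat_lit 6) (nat_lit 341)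 (nat_lit 3) (nat_lit 275) (nat_lit 224) (nat_lit 281)) (PT.lf (nat_lit 25992) (nat_lit 6) (nat_lit 342) (nat_lit 3) (nat_lit 276) (nat_lit 224) (nat_lit 280)))) (PT.nd (nat_lit 156) (PT.nd (nat_lit 78) (PT.lf (nat_lit 26068) (nat_lit 6) (nat_lit 343) (nat_lit 3) (nat_lit 277) (nat_lit 224) (nat_lit 279)) (PT.lf (nat_lit 26144) (nat_lit 3) (nat_lit 344) (nat_lit 1) (nat_lit 278) (nat_lit 224) (nat_lit 278))) (PT.nd (nat_lit 78) (PT.lf (nat_lit 26068) (nat_lit 6) (nat_lit 343) (nat_lit 1) (nat_lit 279) (nat_lit 224) (nat_lit 277)) (PT.lf (nat_lit 25992) (nat_lit 6) (nat_lit 342) (nat_lit 1) (nat_lit 280) (nat_lit 224) (nat_lit 276))))) (PT.nd (nat_lit 312) (PT.nd (nat_lit 156) (PT.nd (nat_lit 78) (PT.lf (nat_lit 25916) (nat_lit 6) (nat_lit 341) (nat_lit 1) (nat_lit 281) (nat_lit 224) (nat_lit 275)) (PT.lf (nat_lit 25840) (nat_lit 6) (nat_lit 340) (nat_lit 1) (nat_lit 282) (nat_lit 224) (nat_lit 274))) (PT.nd (nat_lit 78) (PT.lf (nat_lit 25764) (nat_lit 6) (nat_lit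 339) (nat_lit 1) (nat_lit 283) (nat_lit 224) (nat_lit 273)) (PT.lf (nat_lit 25688) (nat_lit 6) (nat_lit 338) (nat_lit 1) (nat_lit 284) (nat_lit 224) (nat_lit 272)))) (PT.nd (nat_lit 156) (PT.nd (nat_lit 78) (PT.lf (nat_lit 25612) (nat_lit 6) (nat_lit 337) (nat_lit 1) (nat_lit 285) (nat_lit 224) (nat_lit 271)) (PT.lf (nat_lit 25536) (nat_lit 6) (nat_lit 336) (nat_lit 1) (nat_lit 286) (nat_lit 224) (nat_lit 270))) (PT.nd (nat_lit 79716) (PT.lf (nat_lit 25460) (nat_lit 6) (nat_lit 335) (nat_lit 1) (nat_lit 287) (nat_lit 224) (nat_lit 269)) (PT.nd (nat_lit 78) (PT.lf (nat_lit 26220) (nat_lit 6) (nat_lit 345) (nat_lit 3) (nat_lit 268) (nat_lit 225) (nat_lit 287)) (PT.lf (nat_lit 26296) (nat_lit 6) (nat_lit 346) (nat_lit 3) (nat_lit 269) (nat_lit 225) (nat_lit 286))))))))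
noncomputable def pc18 : PT := (PT.nd (nat_lit 1326) (PT.nd (nat_lit 624) (PT.nd (nat_lit 312) (PT.nd (nat_lit 156) (PT.nd (nat_lit 78) (PT.lf (nat_lit 26372) (nat_lit 6) (nat_lit 347) (nat_lit 3) (nat_lit 270) (nat_lit 225) (nat_lit 285)) (PT.lf (nat_lit 26448) (nat_lit 6) (nat_lit 348) (nat_lit 3) (nat_lit 271) (nat_lit 225) (nat_lit 284))) (PT.nd (nat_lit 78) (PT.lf (nat_lit 26524) (nat_lit 6) (nat_lit 349) (nat_lit 3) (nat_lit 272) (nat_lit 225) (nat_lit 283)) (PT.lf (nat_lit 26600) (nat_lit 6) (nat_lit 350) (nat_lit 3) (nat_lit 273) (nat_lit 225) (nat_lit 282)))) (PT.nd (nat_lit 156) (PT.nd (nat_lit 78) (PT.lf (nat_lit 26676) (nat_lit 6) (nat_lit 351) (nat_lit 3) (nat_lit 274) (nat_lit 225) (nat_lit 281)) (PT.lf (nat_lit 26752) (nat_lit 6) (nat_lit 352) (nat_lit 3) (nat_lit 275) (nat_lit 225) (nat_lit 280))) (PT.nd (nat_lit 78) (PT.lf (nat_lit 26828) (nat_lit 6) (nat_lit 353) (nat_lit 3) (nat_lit 276) (nat_lit 225) (nat_lit 279)) (PT.lf (nat_lit 26904)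 (nat_lit 6) (nat_lit 354) (nat_lit 3) (nat_lit 277) (nat_lit 225) (nat_lit 278))))) (PT.nd (nat_lit 312) (PT.nd (nat_lit 156) (PT.nd (nat_lit 78) (PT.lf (nat_lit 26904) (nat_lit 6) (nat_lit 354) (nat_lit 1) (nat_lit 278) (nat_lit 225) (nat_lit 277)) (PT.lf (nat_lit 26828) (nat_lit 6) (nat_lit 353) (nat_lit 1) (nat_lit 279) (nat_lit 225) (nat_lit 276))) (PT.nd (nat_lit 78) (PT.lf (nat_lit 26752) (nat_lit 6) (nat_lit 352) (nat_lit 1) (nat_lit 280) (nat_lit 225) (nat_lit 275)) (PT.lf (nat_lit 26676) (nat_lit 6) (nat_lit 351) (nat_lit 1) (nat_lit 281) (nat_lit 225) (nat_lit 274)))) (PT.nd (nat_lit 156) (PT.nd (nat_lit 78) (PT.lf (nat_lit 26600) (nat_lit 6) (nat_lit 350) (nat_lit 1) (nat_lit 282) (nat_lit 225) (nat_lit 273)) (PT.lf (nat_lit 26524) (nat_lit 6) (nat_lit 349) (nat_lit 1) (nat_lit 283) (nat_lit 225) (nat_lit 272))) (PT.nd (nat_lit 78) (PT.lf (nat_lit 26448) (nat_lit 6) (nat_lit 348) (nat_lit 1) (nat_lit 284) (nat_lit 225) (nat_lit 271)) (PT.nd (nat_lit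 78) (PT.lf (nat_lit 26372) (nat_lit 6) (nat_lit 347) (nat_lit 1) (nat_lit 285) (nat_lit 225) (nat_lit 270)) (PT.lf (nat_lit 26296) (nat_lit 6) (nat_lit 346) (nat_lit 1) (nat_lit 286) (nat_lit 225) (nat_lit 269))))))) (PT.nd (nat_lit 80262) (PT.nd (nat_lit 79950) (PT.nd (nat_lit 79794) (PT.nd (nat_lit 79716) (PT.lf (nat_lit 26220) (nat_lit 6) (nat_lit 345) (nat_lit 1) (nat_lit 287) (nat_lit 225) (nat_lit 268)) (PT.lf (nat_lit 26980) (nat_lit 6) (nat_lit 355) (nat_lit 3) (nat_lit 268) (nat_lit 226) (nat_lit 286))) (PT.nd (nat_lit 78) (PT.lf (nat_lit 27056) (nat_lit 6) (nat_lit 356) (nat_lit 3) (nat_lit 269) (nat_lit 226) (nat_lit 285)) (PT.lf (nat_lit 27132) (nat_lit 6) (nat_lit 357) (nat_lit 3) (nat_lit 270) (nat_lit 226) (nat_lit 284)))) (PT.nd (nat_lit 156) (PT.nd (nat_lit 78) (PT.lf (nat_lit 27208) (nat_lit 6) (nat_lit 358) (nat_lit 3) (nat_lit 271) (nat_lit 226) (nat_lit 283)) (PT.lf (nat_lit 27284) (nat_lit 6) (nat_lit 359) (nat_lit 3) (nat_lit 272) (nat_lit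 226) (nat_lit 282))) (PT.nd (nat_lit 78) (PT.lf (nat_lit 27360) (nat_lit 6) (nat_lit 360) (nat_lit 3) (nat_lit 273) (nat_lit 226) (nat_lit 281)) (PT.lf (nat_lit 27436) (nat_lit 6) (nat_lit 361) (nat_lit 3) (nat_lit 274) (nat_lit 226) (nat_lit 280))))) (PT.nd (nat_lit 312) (PT.nd (nat_lit 156) (PT.nd (nat_lit 78) (PT.lf (nat_lit 27512) (nat_lit 6) (nat_lit 362) (nat_lit 3) (nat_lit 275) (nat_lit 226) (nat_lit 279)) (PT.lf (nat_lit 27588) (nat_lit 6) (nat_lit 363) (nat_lit 3) (nat_lit 276) (nat_lit 226) (nat_lit 278))) (PT.nd (nat_lit 78) (PT.lf (nat_lit 27664) (nat_lit 3) (nat_lit 364) (nat_lit 1) (nat_lit 277) (nat_lit 226) (nat_lit 277)) (PT.lf (nat_lit 27588) (nat_lit 6) (nat_lit 363) (nat_lit 1) (nat_lit 278) (nat_lit 226) (nat_lit 276)))) (PT.nd (nat_lit 156) (PT.nd (nat_lit 78) (PT.lf (nat_lit 27512) (nat_lit 6) (nat_lit 362) (nat_lit 1) (nat_lit 279) (nat_lit 226) (nat_lit 275)) (PT.lf (nat_lit 27436) (nat_lit 6) (nat_lit 361) (nat_lit 1) (nat_lit 280)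 (nat_lit 226) (nat_lit 274))) (PT.nd (nat_lit 78) (PT.lf (nat_lit 27360) (nat_lit 6) (nat_lit 360) (nat_lit 1) (nat_lit 281) (nat_lit 226) (nat_lit 273)) (PT.nd (nat_lit 78) (PT.lf (nat_lit 27284) (nat_lit 6) (nat_lit 359) (nat_lit 1) (nat_lit 282) (nat_lit 226) (nat_lit 272)) (PT.lf (nat_lit 27208) (nat_lit 6) (nat_lit 358) (nat_lit 1) (nat_lit 283) (nat_lit 226) (nat_lit 271))))))))
noncomputable def pc19 : PT := (PT.nd (nat_lit 80964) (PT.nd (nat_lit 80262) (PT.nd (nat_lit 79950) (PT.nd (nat_lit 156) (PT.nd (nat_lit 78) (PT.lf (nat_lit 27132) (nat_lit 6) (nat_lit 357) (nat_lit 1) (nat_lit 284) (nat_lit 226) (nat_lit 270)) (PT.lf (nat_lit 27056) (nat_lit 6) (nat_lit 356) (nat_lit 1) (nat_lit 285) (nat_lit 226) (nat_lit 269))) (PT.nd (nat_lit 79716) (PT.lf (nat_lit 26980) (nat_lit 6) (nat_lit 355) (nat_lit 1) (nat_lit 286) (nat_lit 226) (nat_lit 268)) (PT.lf (nat_lit 27740) (nat_lit 6) (nat_lit 365) (nat_lit 3) (nat_lit 267) (nat_lit 227) (nat_lit 286))))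 (PT.nd (nat_lit 156) (PT.nd (nat_lit 78) (PT.lf (nat_lit 27816) (nat_lit 6) (nat_lit 366) (nat_lit 3) (nat_lit 268) (nat_lit 227) (nat_lit 285)) (PT.lf (nat_lit 27892) (nat_lit 6) (nat_lit 367) (nat_lit 3) (nat_lit 269) (nat_lit 227) (nat_lit 284))) (PT.nd (nat_lit 78) (PT.lf (nat_lit 27968) (nat_lit 6) (nat_lit 368) (nat_lit 3) (nat_lit 270) (nat_lit 227) (nat_lit 283)) (PT.lf (nat_lit 28044) (nat_lit 6) (nat_lit 369) (nat_lit 3) (nat_lit 271) (nat_lit 227) (nat_lit 282))))) (PT.nd (nat_lit 312) (PT.nd (nat_lit 156) (PT.nd (nat_lit 78) (PT.lf (nat_lit 28120) (nat_lit 6) (nat_lit 370) (nat_lit 3) (nat_lit 272) (nat_lit 227) (nat_lit 281)) (PT.lf (nat_lit 28196) (nat_lit 6) (nat_lit 371) (nat_lit 3) (nat_lit 273) (nat_lit 227) (nat_lit 280))) (PT.nd (nat_lit 78) (PT.lf (nat_lit 28272) (nat_lit 6) (nat_lit 372) (nat_lit 3) (nat_lit 274) (nat_lit 227) (nat_lit 279)) (PT.lf (nat_lit 28348) (nat_lit 6) (nat_lit 373) (nat_lit 3) (nat_lit 275) (nat_lit 227) (nat_lit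 278)))) (PT.nd (nat_lit 156) (PT.nd (nat_lit 78) (PT.lf (nat_lit 28424) (nat_lit 6) (nat_lit 374) (nat_lit 3) (nat_lit 276) (nat_lit 227) (nat_lit 277)) (PT.lf (nat_lit 28424) (nat_lit 6) (nat_lit 374) (nat_lit 1) (nat_lit 277) (nat_lit 227) (nat_lit 276))) (PT.nd (nat_lit 78) (PT.lf (nat_lit 28348) (nat_lit 6) (nat_lit 373) (nat_lit 1) (nat_lit 278) (nat_lit 227) (nat_lit 275)) (PT.nd (nat_lit 78) (PT.lf (nat_lit 28272) (nat_lit 6) (nat_lit 372) (nat_lit 1) (nat_lit 279) (nat_lit 227) (nat_lit 274)) (PT.lf (nat_lit 28196) (nat_lit 6) (nat_lit 371) (nat_lit 1) (nat_lit 280) (nat_lit 227) (nat_lit 273))))))) (PT.nd (nat_lit 80262) (PT.nd (nat_lit 312) (PT.nd (nat_lit 156) (PT.nd (nat_lit 78) (PT.lf (nat_lit 28120) (nat_lit 6) (nat_lit 370) (nat_lit 1) (nat_lit 281) (nat_lit 227) (nat_lit 272)) (PT.lf (nat_lit 28044) (nat_lit 6) (nat_lit 369) (nat_lit 1) (nat_lit 282) (nat_lit 227) (nat_lit 271))) (PT.nd (nat_lit 78) (PT.lf (nat_lit 27968) (nat_lit 6) (nat_lit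 368) (nat_lit 1) (nat_lit 283) (nat_lit 227) (nat_lit 270)) (PT.lf (nat_lit 27892) (nat_lit 6) (nat_lit 367) (nat_lit 1) (nat_lit 284) (nat_lit 227) (nat_lit 269)))) (PT.nd (nat_lit 79716) (PT.nd (nat_lit 78) (PT.lf (nat_lit 27816) (nat_lit 6) (nat_lit 366) (nat_lit 1) (nat_lit 285) (nat_lit 227) (nat_lit 268)) (PT.lf (nat_lit 27740) (nat_lit 6) (nat_lit 365) (nat_lit 1) (nat_lit 286) (nat_lit 227) (nat_lit 267))) (PT.nd (nat_lit 78) (PT.lf (nat_lit 28500) (nat_lit 6) (nat_lit 375) (nat_lit 3) (nat_lit 266) (nat_lit 228) (nat_lit 286)) (PT.nd (nat_lit 78) (PT.lf (nat_lit 28576) (nat_lit 6) (nat_lit 376) (nat_lit 3) (nat_lit 267) (nat_lit 228) (nat_lit 285)) (PT.lf (nat_lit 28652) (nat_lit 6) (nat_lit 377) (nat_lit 3) (nat_lit 268) (nat_lit 228) (nat_lit 284)))))) (PT.nd (nat_lit 312) (PT.nd (nat_lit 156) (PT.nd (nat_lit 78) (PT.lf (nat_lit 28728) (nat_lit 6) (nat_lit 378) (nat_lit 3) (nat_lit 269) (nat_lit 228) (nat_lit 283)) (PT.lf (nat_lit 28804) (nat_lit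 6) (nat_lit 379) (nat_lit 3) (nat_lit 270) (nat_lit 228) (nat_lit 282))) (PT.nd (nat_lit 78) (PT.lf (nat_lit 28880) (nat_lit 6) (nat_lit 380) (nat_lit 3) (nat_lit 271) (nat_lit 228) (nat_lit 281)) (PT.lf (nat_lit 28956) (nat_lit 6) (nat_lit 381) (nat_lit 3) (nat_lit 272) (nat_lit 228) (nat_lit 280)))) (PT.nd (nat_lit 156) (PT.nd (nat_lit 78) (PT.lf (nat_lit 29032) (nat_lit 6) (nat_lit 382) (nat_lit 3) (nat_lit 273) (nat_lit 228) (nat_lit 279)) (PT.lf (nat_lit 29108) (nat_lit 6) (nat_lit 383) (nat_lit 3) (nat_lit 274) (nat_lit 228) (nat_lit 278))) (PT.nd (nat_lit 78) (PT.lf (nat_lit 29184) (nat_lit 6) (nat_lit 384) (nat_lit 3) (nat_lit 275) (nat_lit 228) (nat_lit 277)) (PT.nd (nat_lit 78) (PT.lf (nat_lit 29260) (nat_lit 3) (nat_lit 385) (nat_lit 1) (nat_lit 276) (nat_lit 228) (nat_lit 276)) (PT.lf (nat_lit 29184) (nat_lit 6) (nat_lit 384) (nat_lit 1) (nat_lit 277) (nat_lit 228) (nat_lit 275))))))))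
noncomputable def pc20 : PT := (PT.nd (nat_lit 80808) (PT.nd (nat_lit 624) (PT.nd (nat_lit 312) (PT.nd (nat_lit 156) (PT.nd (nat_lit 78) (PT.lf (nat_lit 29108) (nat_lit 6) (nat_lit 383) (nat_lit 1) (nat_lit 278) (nat_lit 228) (nat_lit 274)) (PT.lf (nat_lit 29032) (nat_lit 6) (nat_lit 382) (nat_lit 1) (nat_lit 279) (nat_lit 228) (nat_lit 273))) (PT.nd (nat_lit 78) (PT.lf (nat_lit 28956) (nat_lit 6) (nat_lit 381) (nat_lit 1) (nat_lit 280) (nat_lit 228) (nat_lit 272)) (PT.lf (nat_lit 28880) (nat_lit 6) (nat_lit 380) (nat_lit 1) (nat_lit 281) (nat_lit 228) (nat_lit 271)))) (PT.nd (nat_lit 156) (PT.nd (nat_lit 78) (PT.lf (nat_lit 28804) (nat_lit 6) (nat_lit 379) (nat_lit 1) (nat_lit 282) (nat_lit 228) (nat_lit 270)) (PT.lf (nat_lit 28728) (nat_lit 6) (nat_lit 378) (nat_lit 1) (nat_lit 283) (nat_lit 228) (nat_lit 269))) (PT.nd (nat_lit 78) (PT.lf (nat_lit 28652) (nat_lit 6) (nat_lit 377) (nat_lit 1) (nat_lit 284) (nat_lit 228) (nat_lit 268)) (PT.lf (nat_lit 28576)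 (nat_lit 6) (nat_lit 376) (nat_lit 1) (nat_lit 285) (nat_lit 228) (nat_lit 267))))) (PT.nd (nat_lit 79794) (PT.nd (nat_lit 79638) (PT.nd (nat_lit 79560) (PT.lf (nat_lit 28500) (nat_lit 6) (nat_lit 375) (nat_lit 1) (nat_lit 286) (nat_lit 228) (nat_lit 266)) (PT.lf (nat_lit 29336) (nat_lit 6) (nat_lit 386) (nat_lit 3) (nat_lit 265) (nat_lit 229) (nat_lit 286))) (PT.nd (nat_lit 78) (PT.lf (nat_lit 29412) (nat_lit 6) (nat_lit 387) (nat_lit 3) (nat_lit 266) (nat_lit 229) (nat_lit 285)) (PT.lf (nat_lit 29488) (nat_lit 6) (nat_lit 388) (nat_lit 3) (nat_lit 267) (nat_lit 229) (nat_lit 284)))) (PT.nd (nat_lit 156) (PT.nd (nat_lit 78) (PT.lf (nat_lit 29564) (nat_lit 6) (nat_lit 389) (nat_lit 3) (nat_lit 268) (nat_lit 229) (nat_lit 283)) (PT.lf (nat_lit 29640) (nat_lit 6) (nat_lit 390) (nat_lit 3) (nat_lit 269) (nat_lit 229) (nat_lit 282))) (PT.nd (nat_lit 78) (PT.lf (nat_lit 29716) (nat_lit 6) (nat_lit 391) (nat_lit 3) (nat_lit 270) (nat_lit 229) (nat_lit 281)) (PT.nd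 (nat_lit 78) (PT.lf (nat_lit 29792) (nat_lit 6) (nat_lit 392) (nat_lit 3) (nat_lit 271) (nat_lit 229) (nat_lit 280)) (PT.lf (nat_lit 29868) (nat_lit 6) (nat_lit 393) (nat_lit 3) (nat_lit 272) (nat_lit 229) (nat_lit 279))))))) (PT.nd (nat_lit 624) (PT.nd (nat_lit 312) (PT.nd (nat_lit 156) (PT.nd (nat_lit 78) (PT.lf (nat_lit 29944) (nat_lit 6) (nat_lit 394) (nat_lit 3) (nat_lit 273) (nat_lit 229) (nat_lit 278)) (PT.lf (nat_lit 30020) (nat_lit 6) (nat_lit 395) (nat_lit 3) (nat_lit 274) (nat_lit 229) (nat_lit 277))) (PT.nd (nat_lit 78) (PT.lf (nat_lit 30096) (nat_lit 6) (nat_lit 396) (nat_lit 3) (nat_lit 275) (nat_lit 229) (nat_lit 276)) (PT.lf (nat_lit 30096) (nat_lit 6) (nat_lit 396) (nat_lit 1) (nat_lit 276) (nat_lit 229) (nat_lit 275)))) (PT.nd (nat_lit 156) (PT.nd (nat_lit 78) (PT.lf (nat_lit 30020) (nat_lit 6) (nat_lit 395) (nat_lit 1) (nat_lit 277) (nat_lit 229) (nat_lit 274)) (PT.lf (nat_lit 29944) (nat_lit 6) (nat_lit 394) (nat_lit 1) (nat_lit 278) (nat_lit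 229) (nat_lit 273))) (PT.nd (nat_lit 78) (PT.lf (nat_lit 29868) (nat_lit 6) (nat_lit 393) (nat_lit 1) (nat_lit 279) (nat_lit 229) (nat_lit 272)) (PT.lf (nat_lit 29792) (nat_lit 6) (nat_lit 392) (nat_lit 1) (nat_lit 280) (nat_lit 229) (nat_lit 271))))) (PT.nd (nat_lit 312) (PT.nd (nat_lit 156) (PT.nd (nat_lit 78) (PT.lf (nat_lit 29716) (nat_lit 6) (nat_lit 391) (nat_lit 1) (nat_lit 281) (nat_lit 229) (nat_lit 270)) (PT.lf (nat_lit 29640) (nat_lit 6) (nat_lit 390) (nat_lit 1) (nat_lit 282) (nat_lit 229) (nat_lit 269))) (PT.nd (nat_lit 78) (PT.lf (nat_lit 29564) (nat_lit 6) (nat_lit 389) (nat_lit 1) (nat_lit 283) (nat_lit 229) (nat_lit 268)) (PT.lf (nat_lit 29488) (nat_lit 6) (nat_lit 388) (nat_lit 1) (nat_lit 284) (nat_lit 229) (nat_lit 267)))) (PT.nd (nat_lit 79560) (PT.nd (nat_lit 78) (PT.lf (nat_lit 29412) (nat_lit 6) (nat_lit 387) (nat_lit 1) (nat_lit 285) (nat_lit 229) (nat_lit 266)) (PT.lf (nat_lit 29336) (nat_lit 6) (nat_lit 386) (nat_lit 1) (nat_lit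 286) (nat_lit 229) (nat_lit 265))) (PT.nd (nat_lit 78) (PT.lf (nat_lit 30172) (nat_lit 6) (nat_lit 397) (nat_lit 3) (nat_lit 264) (nat_lit 230) (nat_lit 286)) (PT.nd (nat_lit 78) (PT.lf (nat_lit 30248) (nat_lit 6) (nat_lit 398) (nat_lit 3) (nat_lit 265) (nat_lit 230) (nat_lit 285)) (PT.lf (nat_lit 30324) (nat_lit 6) (nat_lit 399) (nat_lit 3) (nat_lit 266) (nat_lit 230) (nat_lit 284))))))))
noncomputable def pc21 : PT := (PT.nd (nat_lit 1326) (PT.nd (nat_lit 624) (PT.nd (nat_lit 312) (PT.nd (nat_lit 156) (PT.nd (nat_lit 78) (PT.lf (nat_lit 30400) (nat_lit 6) (nat_lit 400) (nat_lit 3) (nat_lit 267) (nat_lit 230) (nat_lit 283)) (PT.lf (nat_lit 30476) (nat_lit 6) (nat_lit 401) (nat_lit 3) (nat_lit 268) (nat_lit 230) (nat_lit 282))) (PT.nd (nat_lit 78) (PT.lf (nat_lit 30552) (nat_lit 6) (nat_lit 402) (nat_lit 3) (nat_lit 269) (nat_lit 230) (nat_lit 281)) (PT.lf (nat_lit 30628) (nat_lit 6) (nat_lit 403) (nat_lit 3) (nat_lit 270) (nat_lit 230) (nat_lit 280)))) (PT.nd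 (nat_lit 156) (PT.nd (nat_lit 78) (PT.lf (nat_lit 30704) (nat_lit 6) (nat_lit 404) (nat_lit 3) (nat_lit 271) (nat_lit 230) (nat_lit 279)) (PT.lf (nat_lit 30780) (nat_lit 6) (nat_lit 405) (nat_lit 3) (nat_lit 272) (nat_lit 230) (nat_lit 278))) (PT.nd (nat_lit 78) (PT.lf (nat_lit 30856) (nat_lit 6) (nat_lit 406) (nat_lit 3) (nat_lit 273) (nat_lit 230) (nat_lit 277)) (PT.lf (nat_lit 30932) (nat_lit 6) (nat_lit 407) (nat_lit 3) (nat_lit 274) (nat_lit 230) (nat_lit 276))))) (PT.nd (nat_lit 312) (PT.nd (nat_lit 156) (PT.nd (nat_lit 78) (PT.lf (nat_lit 31008) (nat_lit 3) (nat_lit 408) (nat_lit 1) (nat_lit 275) (nat_lit 230) (nat_lit 275)) (PT.lf (nat_lit 30932) (nat_lit 6) (nat_lit 407) (nat_lit 1) (nat_lit 276) (nat_lit 230) (nat_lit 274))) (PT.nd (nat_lit 78) (PT.lf (nat_lit 30856) (nat_lit 6) (nat_lit 406) (nat_lit 1) (nat_lit 277) (nat_lit 230) (nat_lit 273)) (PT.lf (nat_lit 30780) (nat_lit 6) (nat_lit 405) (nat_lit 1) (nat_lit 278) (nat_lit 230) (nat_lit 272))))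 (PT.nd (nat_lit 156) (PT.nd (nat_lit 78) (PT.lf (nat_lit 30704) (nat_lit 6) (nat_lit 404) (nat_lit 1) (nat_lit 279) (nat_lit 230) (nat_lit 271)) (PT.lf (nat_lit 30628) (nat_lit 6) (nat_lit 403) (nat_lit 1) (nat_lit 280) (nat_lit 230) (nat_lit 270))) (PT.nd (nat_lit 78) (PT.lf (nat_lit 30552) (nat_lit 6) (nat_lit 402) (nat_lit 1) (nat_lit 281) (nat_lit 230) (nat_lit 269)) (PT.nd (nat_lit 78) (PT.lf (nat_lit 30476) (nat_lit 6) (nat_lit 401) (nat_lit 1) (nat_lit 282) (nat_lit 230) (nat_lit 268)) (PT.lf (nat_lit 30400) (nat_lit 6) (nat_lit 400) (nat_lit 1) (nat_lit 283) (nat_lit 230) (nat_lit 267))))))) (PT.nd (nat_lit 80028) (PT.nd (nat_lit 79716) (PT.nd (nat_lit 156) (PT.nd (nat_lit 78) (PT.lf (nat_lit 30324) (nat_lit 6) (nat_lit 399) (nat_lit 1) (nat_lit 284) (nat_lit 230) (nat_lit 266)) (PT.lf (nat_lit 30248) (nat_lit 6) (nat_lit 398) (nat_lit 1) (nat_lit 285) (nat_lit 230) (nat_lit 265))) (PT.nd (nat_lit 79482) (PT.lf (nat_lit 30172) (nat_lit 6) (nat_lit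 397) (nat_lit 1) (nat_lit 286) (nat_lit 230) (nat_lit 264)) (PT.lf (nat_lit 31084) (nat_lit 6) (nat_lit 409) (nat_lit 3) (nat_lit 264) (nat_lit 231) (nat_lit 285)))) (PT.nd (nat_lit 156) (PT.nd (nat_lit 78) (PT.lf (nat_lit 31160) (nat_lit 6) (nat_lit 410) (nat_lit 3) (nat_lit 265) (nat_lit 231) (nat_lit 284)) (PT.lf (nat_lit 31236) (nat_lit 6) (nat_lit 411) (nat_lit 3) (nat_lit 266) (nat_lit 231) (nat_lit 283))) (PT.nd (nat_lit 78) (PT.lf (nat_lit 31312) (nat_lit 6) (nat_lit 412) (nat_lit 3) (nat_lit 267) (nat_lit 231) (nat_lit 282)) (PT.lf (nat_lit 31388) (nat_lit 6) (nat_lit 413) (nat_lit 3) (nat_lit 268) (nat_lit 231) (nat_lit 281))))) (PT.nd (nat_lit 312) (PT.nd (nat_lit 156) (PT.nd (nat_lit 78) (PT.lf (nat_lit 31464) (nat_lit 6) (nat_lit 414) (nat_lit 3) (nat_lit 269) (nat_lit 231) (nat_lit 280)) (PT.lf (nat_lit 31540) (nat_lit 6) (nat_lit 415) (nat_lit 3) (nat_lit 270) (nat_lit 231) (nat_lit 279))) (PT.nd (nat_lit 78) (PT.lf (nat_lit 31616) (nat_lit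 6) (nat_lit 416) (nat_lit 3) (nat_lit 271) (nat_lit 231) (nat_lit 278)) (PT.lf (nat_lit 31692) (nat_lit 6) (nat_lit 417) (nat_lit 3) (nat_lit 272) (nat_lit 231) (nat_lit 277)))) (PT.nd (nat_lit 156) (PT.nd (nat_lit 78) (PT.lf (nat_lit 31768) (nat_lit 6) (nat_lit 418) (nat_lit 3) (nat_lit 273) (nat_lit 231) (nat_lit 276)) (PT.lf (nat_lit 31844) (nat_lit 6) (nat_lit 419) (nat_lit 3) (nat_lit 274) (nat_lit 231) (nat_lit 275))) (PT.nd (nat_lit 78) (PT.lf (nat_lit 31844) (nat_lit 6) (nat_lit 419) (nat_lit 1) (nat_lit 275) (nat_lit 231) (nat_lit 274)) (PT.nd (nat_lit 78) (PT.lf (nat_lit 31768) (nat_lit 6) (nat_lit 418) (nat_lit 1) (nat_lit 276) (nat_lit 231) (nat_lit 273)) (PT.lf (nat_lit 31692) (nat_lit 6) (nat_lit 417) (nat_lit 1) (nat_lit 277) (nat_lit 231) (nat_lit 272))))))))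
noncomputable def pc22 : PT := (PT.nd (nat_lit 80730) (PT.nd (nat_lit 80028) (PT.nd (nat_lit 312) (PT.nd (nat_lit 156) (PT.nd (nat_lit 78) (PT.lf (nat_lit 31616) (nat_lit 6) (nat_lit 416) (nat_lit 1) (nat_lit 278) (nat_lit 231) (nat_lit 271)) (PT.lf (nat_lit 31540) (nat_lit 6) (nat_lit 415) (nat_lit 1) (nat_lit 279) (nat_lit 231) (nat_lit 270))) (PT.nd (nat_lit 78) (PT.lf (nat_lit 31464) (nat_lit 6) (nat_lit 414) (nat_lit 1) (nat_lit 280) (nat_lit 231) (nat_lit 269)) (PT.lf (nat_lit 31388) (nat_lit 6) (nat_lit 413) (nat_lit 1) (nat_lit 281) (nat_lit 231) (nat_lit 268)))) (PT.nd (nat_lit 156) (PT.nd (nat_lit 78) (PT.lf (nat_lit 31312) (nat_lit 6) (nat_lit 412) (nat_lit 1) (nat_lit 282) (nat_lit 231) (nat_lit 267)) (PT.lf (nat_lit 31236) (nat_lit 6) (nat_lit 411) (nat_lit 1) (nat_lit 283) (nat_lit 231) (nat_lit 266))) (PT.nd (nat_lit 78) (PT.lf (nat_lit 31160) (nat_lit 6) (nat_lit 410) (nat_lit 1) (nat_lit 284) (nat_lit 231) (nat_lit 265)) (PT.lf (nat_lit 31084)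 (nat_lit 6) (nat_lit 409) (nat_lit 1) (nat_lit 285) (nat_lit 231) (nat_lit 264))))) (PT.nd (nat_lit 312) (PT.nd (nat_lit 156) (PT.nd (nat_lit 78) (PT.lf (nat_lit 31920) (nat_lit 6) (nat_lit 420) (nat_lit 3) (nat_lit 263) (nat_lit 232) (nat_lit 285)) (PT.lf (nat_lit 31996) (nat_lit 6) (nat_lit 421) (nat_lit 3) (nat_lit 264) (nat_lit 232) (nat_lit 284))) (PT.nd (nat_lit 78) (PT.lf (nat_lit 32072) (nat_lit 6) (nat_lit 422) (nat_lit 3) (nat_lit 265) (nat_lit 232) (nat_lit 283)) (PT.lf (nat_lit 32148) (nat_lit 6) (nat_lit 423) (nat_lit 3) (nat_lit 266) (nat_lit 232) (nat_lit 282)))) (PT.nd (nat_lit 156) (PT.nd (nat_lit 78) (PT.lf (nat_lit 32224) (nat_lit 6) (nat_lit 424) (nat_lit 3) (nat_lit 267) (nat_lit 232) (nat_lit 281)) (PT.lf (nat_lit 32300) (nat_lit 6) (nat_lit 425) (nat_lit 3) (nat_lit 268) (nat_lit 232) (nat_lit 280))) (PT.nd (nat_lit 78) (PT.lf (nat_lit 32376) (nat_lit 6) (nat_lit 426) (nat_lit 3) (nat_lit 269) (nat_lit 232) (nat_lit 279)) (PT.nd (nat_lit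 78) (PT.lf (nat_lit 32452) (nat_lit 6) (nat_lit 427) (nat_lit 3) (nat_lit 270) (nat_lit 232) (nat_lit 278)) (PT.lf (nat_lit 32528) (nat_lit 6) (nat_lit 428) (nat_lit 3) (nat_lit 271) (nat_lit 232) (nat_lit 277))))))) (PT.nd (nat_lit 624) (PT.nd (nat_lit 312) (PT.nd (nat_lit 156) (PT.nd (nat_lit 78) (PT.lf (nat_lit 32604) (nat_lit 6) (nat_lit 429) (nat_lit 3) (nat_lit 272) (nat_lit 232) (nat_lit 276)) (PT.lf (nat_lit 32680) (nat_lit 6) (nat_lit 430) (nat_lit 3) (nat_lit 273) (nat_lit 232) (nat_lit 275))) (PT.nd (nat_lit 78) (PT.lf (nat_lit 32756) (nat_lit 3) (nat_lit 431) (nat_lit 1) (nat_lit 274) (nat_lit 232) (nat_lit 274)) (PT.lf (nat_lit 32680) (nat_lit 6) (nat_lit 430) (nat_lit 1) (nat_lit 275) (nat_lit 232) (nat_lit 273)))) (PT.nd (nat_lit 156) (PT.nd (nat_lit 78) (PT.lf (nat_lit 32604) (nat_lit 6) (nat_lit 429) (nat_lit 1) (nat_lit 276) (nat_lit 232) (nat_lit 272)) (PT.lf (nat_lit 32528) (nat_lit 6) (nat_lit 428) (nat_lit 1) (nat_lit 277) (nat_lit 232)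 (nat_lit 271))) (PT.nd (nat_lit 78) (PT.lf (nat_lit 32452) (nat_lit 6) (nat_lit 427) (nat_lit 1) (nat_lit 278) (nat_lit 232) (nat_lit 270)) (PT.lf (nat_lit 32376) (nat_lit 6) (nat_lit 426) (nat_lit 1) (nat_lit 279) (nat_lit 232) (nat_lit 269))))) (PT.nd (nat_lit 312) (PT.nd (nat_lit 156) (PT.nd (nat_lit 78) (PT.lf (nat_lit 32300) (nat_lit 6) (nat_lit 425) (nat_lit 1) (nat_lit 280) (nat_lit 232) (nat_lit 268)) (PT.lf (nat_lit 32224) (nat_lit 6) (nat_lit 424) (nat_lit 1) (nat_lit 281) (nat_lit 232) (nat_lit 267))) (PT.nd (nat_lit 78) (PT.lf (nat_lit 32148) (nat_lit 6) (nat_lit 423) (nat_lit 1) (nat_lit 282) (nat_lit 232) (nat_lit 266)) (PT.lf (nat_lit 32072) (nat_lit 6) (nat_lit 422) (nat_lit 1) (nat_lit 283) (nat_lit 232) (nat_lit 265)))) (PT.nd (nat_lit 79482) (PT.nd (nat_lit 78) (PT.lf (nat_lit 31996) (nat_lit 6) (nat_lit 421) (nat_lit 1) (nat_lit 284) (nat_lit 232) (nat_lit 264)) (PT.lf (nat_lit 31920) (nat_lit 6) (nat_lit 420) (nat_lit 1) (nat_lit 285)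 (nat_lit 232) (nat_lit 263))) (PT.nd (nat_lit 78) (PT.lf (nat_lit 32832) (nat_lit 6) (nat_lit 432) (nat_lit 3) (nat_lit 262) (nat_lit 233) (nat_lit 285)) (PT.nd (nat_lit 78) (PT.lf (nat_lit 32908) (nat_lit 6) (nat_lit 433) (nat_lit 3) (nat_lit 263) (nat_lit 233) (nat_lit 284)) (PT.lf (nat_lit 32984) (nat_lit 6) (nat_lit 434) (nat_lit 3) (nat_lit 264) (nat_lit 233) (nat_lit 283))))))))
noncomputable def pc23 : PT := (PT.nd (nat_lit 1326) (PT.nd (nat_lit 624) (PT.nd (nat_lit 312) (PT.nd (nat_lit 156) (PT.nd (nat_lit 78) (PT.lf (nat_lit 33060) (nat_lit 6) (nat_lit 435) (nat_lit 3) (nat_lit 265) (nat_lit 233) (nat_lit 282)) (PT.lf (nat_lit 33136) (nat_lit 6) (nat_lit 436) (nat_lit 3) (nat_lit 266) (nat_lit 233) (nat_lit 281))) (PT.nd (nat_lit 78) (PT.lf (nat_lit 33212) (nat_lit 6) (nat_lit 437) (nat_lit 3) (nat_lit 267) (nat_lit 233) (nat_lit 280)) (PT.lf (nat_lit 33288) (nat_lit 6) (nat_lit 438) (nat_lit 3) (nat_lit 268) (nat_lit 233) (nat_lit 279)))) (PT.nd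 (nat_lit 156) (PT.nd (nat_lit 78) (PT.lf (nat_lit 33364) (nat_lit 6) (nat_lit 439) (nat_lit 3) (nat_lit 269) (nat_lit 233) (nat_lit 278)) (PT.lf (nat_lit 33440) (nat_lit 6) (nat_lit 440) (nat_lit 3) (nat_lit 270) (nat_lit 233) (nat_lit 277))) (PT.nd (nat_lit 78) (PT.lf (nat_lit 33516) (nat_lit 6) (nat_lit 441) (nat_lit 3) (nat_lit 271) (nat_lit 233) (nat_lit 276)) (PT.lf (nat_lit 33592) (nat_lit 6) (nat_lit 442) (nat_lit 3) (nat_lit 272) (nat_lit 233) (nat_lit 275))))) (PT.nd (nat_lit 312) (PT.nd (nat_lit 156) (PT.nd (nat_lit 78) (PT.lf (nat_lit 33668) (nat_lit 6) (nat_lit 443) (nat_lit 3) (nat_lit 273) (nat_lit 233) (nat_lit 274)) (PT.lf (nat_lit 33668) (nat_lit 6) (nat_lit 443) (nat_lit 1) (nat_lit 274) (nat_lit 233) (nat_lit 273))) (PT.nd (nat_lit 78) (PT.lf (nat_lit 33592) (nat_lit 6) (nat_lit 442) (nat_lit 1) (nat_lit 275) (nat_lit 233) (nat_lit 272)) (PT.lf (nat_lit 33516) (nat_lit 6) (nat_lit 441) (nat_lit 1) (nat_lit 276) (nat_lit 233) (nat_lit 271))))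 (PT.nd (nat_lit 156) (PT.nd (nat_lit 78) (PT.lf (nat_lit 33440) (nat_lit 6) (nat_lit 440) (nat_lit 1) (nat_lit 277) (nat_lit 233) (nat_lit 270)) (PT.lf (nat_lit 33364) (nat_lit 6) (nat_lit 439) (nat_lit 1) (nat_lit 278) (nat_lit 233) (nat_lit 269))) (PT.nd (nat_lit 78) (PT.lf (nat_lit 33288) (nat_lit 6) (nat_lit 438) (nat_lit 1) (nat_lit 279) (nat_lit 233) (nat_lit 268)) (PT.nd (nat_lit 78) (PT.lf (nat_lit 33212) (nat_lit 6) (nat_lit 437) (nat_lit 1) (nat_lit 280) (nat_lit 233) (nat_lit 267)) (PT.lf (nat_lit 33136) (nat_lit 6) (nat_lit 436) (nat_lit 1) (nat_lit 281) (nat_lit 233) (nat_lit 266))))))) (PT.nd (nat_lit 79950) (PT.nd (nat_lit 79560) (PT.nd (nat_lit 156) (PT.nd (nat_lit 78) (PT.lf (nat_lit 33060) (nat_lit 6) (nat_lit 435) (nat_lit 1) (nat_lit 282) (nat_lit 233) (nat_lit 265)) (PT.lf (nat_lit 32984) (nat_lit 6) (nat_lit 434) (nat_lit 1) (nat_lit 283) (nat_lit 233) (nat_lit 264))) (PT.nd (nat_lit 78) (PT.lf (nat_lit 32908) (nat_lit 6) (nat_lit 433)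 (nat_lit 1) (nat_lit 284) (nat_lit 233) (nat_lit 263)) (PT.lf (nat_lit 32832) (nat_lit 6) (nat_lit 432) (nat_lit 1) (nat_lit 285) (nat_lit 233) (nat_lit 262)))) (PT.nd (nat_lit 156) (PT.nd (nat_lit 78) (PT.lf (nat_lit 33744) (nat_lit 6) (nat_lit 444) (nat_lit 3) (nat_lit 261) (nat_lit 234) (nat_lit 285)) (PT.lf (nat_lit 33820) (nat_lit 6) (nat_lit 445) (nat_lit 3) (nat_lit 262) (nat_lit 234) (nat_lit 284))) (PT.nd (nat_lit 78) (PT.lf (nat_lit 33896) (nat_lit 6) (nat_lit 446) (nat_lit 3) (nat_lit 263) (nat_lit 234) (nat_lit 283)) (PT.nd (nat_lit 78) (PT.lf (nat_lit 33972) (nat_lit 6) (nat_lit 447) (nat_lit 3) (nat_lit 264) (nat_lit 234) (nat_lit 282)) (PT.lf (nat_lit 34048) (nat_lit 6) (nat_lit 448) (nat_lit 3) (nat_lit 265) (nat_lit 234) (nat_lit 281)))))) (PT.nd (nat_lit 312) (PT.nd (nat_lit 156) (PT.nd (nat_lit 78) (PT.lf (nat_lit 34124) (nat_lit 6) (nat_lit 449) (nat_lit 3) (nat_lit 266) (nat_lit 234) (nat_lit 280)) (PT.lf (nat_lit 34200) (nat_lit 6) (nat_lit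 450) (nat_lit 3) (nat_lit 267) (nat_lit 234) (nat_lit 279))) (PT.nd (nat_lit 78) (PT.lf (nat_lit 34276) (nat_lit 6) (nat_lit 451) (nat_lit 3) (nat_lit 268) (nat_lit 234) (nat_lit 278)) (PT.lf (nat_lit 34352) (nat_lit 6) (nat_lit 452) (nat_lit 3) (nat_lit 269) (nat_lit 234) (nat_lit 277)))) (PT.nd (nat_lit 156) (PT.nd (nat_lit 78) (PT.lf (nat_lit 34428) (nat_lit 6) (nat_lit 453) (nat_lit 3) (nat_lit 270) (nat_lit 234) (nat_lit 276)) (PT.lf (nat_lit 34504) (nat_lit 6) (nat_lit 454) (nat_lit 3) (nat_lit 271) (nat_lit 234) (nat_lit 275))) (PT.nd (nat_lit 78) (PT.lf (nat_lit 34580) (nat_lit 6) (nat_lit 455) (nat_lit 3) (nat_lit 272) (nat_lit 234) (nat_lit 274)) (PT.nd (nat_lit 78) (PT.lf (nat_lit 34656) (nat_lit 3) (nat_lit 456) (nat_lit 1) (nat_lit 273) (nat_lit 234) (nat_lit 273)) (PT.lf (nat_lit 34580) (nat_lit 6) (nat_lit 455) (nat_lit 1) (nat_lit 274) (nat_lit 234) (nat_lit 272))))))))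
noncomputable def pc24 : PT := (PT.nd (nat_lit 80496) (PT.nd (nat_lit 624) (PT.nd (nat_lit 312) (PT.nd (nat_lit 156) (PT.nd (nat_lit 78) (PT.lf (nat_lit 34504) (nat_lit 6) (nat_lit 454) (nat_lit 1) (nat_lit 275) (nat_lit 234) (nat_lit 271)) (PT.lf (nat_lit 34428) (nat_lit 6) (nat_lit 453) (nat_lit 1) (nat_lit 276) (nat_lit 234) (nat_lit 270))) (PT.nd (nat_lit 78) (PT.lf (nat_lit 34352) (nat_lit 6) (nat_lit 452) (nat_lit 1) (nat_lit 277) (nat_lit 234) (nat_lit 269)) (PT.lf (nat_lit 34276) (nat_lit 6) (nat_lit 451) (nat_lit 1) (nat_lit 278) (nat_lit 234) (nat_lit 268)))) (PT.nd (nat_lit 156) (PT.nd (nat_lit 78) (PT.lf (nat_lit 34200) (nat_lit 6) (nat_lit 450) (nat_lit 1) (nat_lit 279) (nat_lit 234) (nat_lit 267)) (PT.lf (nat_lit 34124) (nat_lit 6) (nat_lit 449) (nat_lit 1) (nat_lit 280) (nat_lit 234) (nat_lit 266))) (PT.nd (nat_lit 78) (PT.lf (nat_lit 34048) (nat_lit 6) (nat_lit 448) (nat_lit 1) (nat_lit 281) (nat_lit 234) (nat_lit 265)) (PT.lf (nat_lit 33972)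 (nat_lit 6) (nat_lit 447) (nat_lit 1) (nat_lit 282) (nat_lit 234) (nat_lit 264))))) (PT.nd (nat_lit 79482) (PT.nd (nat_lit 156) (PT.nd (nat_lit 78) (PT.lf (nat_lit 33896) (nat_lit 6) (nat_lit 446) (nat_lit 1) (nat_lit 283) (nat_lit 234) (nat_lit 263)) (PT.lf (nat_lit 33820) (nat_lit 6) (nat_lit 445) (nat_lit 1) (nat_lit 284) (nat_lit 234) (nat_lit 262))) (PT.nd (nat_lit 79248) (PT.lf (nat_lit 33744) (nat_lit 6) (nat_lit 444) (nat_lit 1) (nat_lit 285) (nat_lit 234) (nat_lit 261)) (PT.lf (nat_lit 34808) (nat_lit 6) (nat_lit 458) (nat_lit 3) (nat_lit 260) (nat_lit 235) (nat_lit 285)))) (PT.nd (nat_lit 156) (PT.nd (nat_lit 78) (PT.lf (nat_lit 34884) (nat_lit 6) (nat_lit 459) (nat_lit 3) (nat_lit 261) (nat_lit 235) (nat_lit 284)) (PT.lf (nat_lit 34960) (nat_lit 6) (nat_lit 460) (nat_lit 3) (nat_lit 262) (nat_lit 235) (nat_lit 283))) (PT.nd (nat_lit 78) (PT.lf (nat_lit 35036) (nat_lit 6) (nat_lit 461) (nat_lit 3) (nat_lit 263) (nat_lit 235) (nat_lit 282)) (PT.nd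 (nat_lit 78) (PT.lf (nat_lit 35112) (nat_lit 6) (nat_lit 462) (nat_lit 3) (nat_lit 264) (nat_lit 235) (nat_lit 281)) (PT.lf (nat_lit 35188) (nat_lit 6) (nat_lit 463) (nat_lit 3) (nat_lit 265) (nat_lit 235) (nat_lit 280))))))) (PT.nd (nat_lit 624) (PT.nd (nat_lit 312) (PT.nd (nat_lit 156) (PT.nd (nat_lit 78) (PT.lf (nat_lit 35264) (nat_lit 6) (nat_lit 464) (nat_lit 3) (nat_lit 266) (nat_lit 235) (nat_lit 279)) (PT.lf (nat_lit 35340) (nat_lit 6) (nat_lit 465) (nat_lit 3) (nat_lit 267) (nat_lit 235) (nat_lit 278))) (PT.nd (nat_lit 78) (PT.lf (nat_lit 35416) (nat_lit 6) (nat_lit 466) (nat_lit 3) (nat_lit 268) (nat_lit 235) (nat_lit 277)) (PT.lf (nat_lit 35492) (nat_lit 6) (nat_lit 467) (nat_lit 3) (nat_lit 269) (nat_lit 235) (nat_lit 276)))) (PT.nd (nat_lit 156) (PT.nd (nat_lit 78) (PT.lf (nat_lit 35568) (nat_lit 6) (nat_lit 468) (nat_lit 3) (nat_lit 270) (nat_lit 235) (nat_lit 275)) (PT.lf (nat_lit 35644) (nat_lit 6) (nat_lit 469) (nat_lit 3) (nat_lit 271) (nat_lit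 235) (nat_lit 274))) (PT.nd (nat_lit 78) (PT.lf (nat_lit 35720) (nat_lit 6) (nat_lit 470) (nat_lit 3) (nat_lit 272) (nat_lit 235) (nat_lit 273)) (PT.lf (nat_lit 35720) (nat_lit 6) (nat_lit 470) (nat_lit 1) (nat_lit 273) (nat_lit 235) (nat_lit 272))))) (PT.nd (nat_lit 312) (PT.nd (nat_lit 156) (PT.nd (nat_lit 78) (PT.lf (nat_lit 35644) (nat_lit 6) (nat_lit 469) (nat_lit 1) (nat_lit 274) (nat_lit 235) (nat_lit 271)) (PT.lf (nat_lit 35568) (nat_lit 6) (nat_lit 468) (nat_lit 1) (nat_lit 275) (nat_lit 235) (nat_lit 270))) (PT.nd (nat_lit 78) (PT.lf (nat_lit 35492) (nat_lit 6) (nat_lit 467) (nat_lit 1) (nat_lit 276) (nat_lit 235) (nat_lit 269)) (PT.lf (nat_lit 35416) (nat_lit 6) (nat_lit 466) (nat_lit 1) (nat_lit 277) (nat_lit 235) (nat_lit 268)))) (PT.nd (nat_lit 156) (PT.nd (nat_lit 78) (PT.lf (nat_lit 35340) (nat_lit 6) (nat_lit 465) (nat_lit 1) (nat_lit 278) (nat_lit 235) (nat_lit 267)) (PT.lf (nat_lit 35264) (nat_lit 6) (nat_lit 464) (nat_lit 1) (nat_lit 279)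 (nat_lit 235) (nat_lit 266))) (PT.nd (nat_lit 78) (PT.lf (nat_lit 35188) (nat_lit 6) (nat_lit 463) (nat_lit 1) (nat_lit 280) (nat_lit 235) (nat_lit 265)) (PT.nd (nat_lit 78) (PT.lf (nat_lit 35112) (nat_lit 6) (nat_lit 462) (nat_lit 1) (nat_lit 281) (nat_lit 235) (nat_lit 264)) (PT.lf (nat_lit 35036) (nat_lit 6) (nat_lit 461) (nat_lit 1) (nat_lit 282) (nat_lit 235) (nat_lit 263))))))))
noncomputable def pc25 : PT := (PT.nd (nat_lit 80418) (PT.nd (nat_lit 79716) (PT.nd (nat_lit 79404) (PT.nd (nat_lit 156) (PT.nd (nat_lit 78) (PT.lf (nat_lit 34960) (nat_lit 6) (nat_lit 460) (nat_lit 1) (nat_lit 283) (nat_lit 235) (nat_lit 262)) (PT.lf (nat_lit 34884) (nat_lit 6) (nat_lit 459) (nat_lit 1) (nat_lit 284) (nat_lit 235) (nat_lit 261))) (PT.nd (nat_lit 79170) (PT.lf (nat_lit 34808) (nat_lit 6) (nat_lit 458) (nat_lit 1) (nat_lit 285) (nat_lit 235) (nat_lit 260)) (PT.lf (nat_lit 34732) (nat_lit 6) (nat_lit 457) (nat_lit 3) (nat_lit 259) (nat_lit 236) (nat_lit 285))))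 (PT.nd (nat_lit 156) (PT.nd (nat_lit 78) (PT.lf (nat_lit 36708) (nat_lit 6) (nat_lit 483) (nat_lit 3) (nat_lit 260) (nat_lit 236) (nat_lit 284)) (PT.lf (nat_lit 36784) (nat_lit 6) (nat_lit 484) (nat_lit 3) (nat_lit 261) (nat_lit 236) (nat_lit 283))) (PT.nd (nat_lit 78) (PT.lf (nat_lit 36860) (nat_lit 6) (nat_lit 485) (nat_lit 3) (nat_lit 262) (nat_lit 236) (nat_lit 282)) (PT.lf (nat_lit 36936) (nat_lit 6) (nat_lit 486) (nat_lit 3) (nat_lit 263) (nat_lit 236) (nat_lit 281))))) (PT.nd (nat_lit 312) (PT.nd (nat_lit 156) (PT.nd (nat_lit 78) (PT.lf (nat_lit 37012) (nat_lit 6) (nat_lit 487) (nat_lit 3) (nat_lit 264) (nat_lit 236) (nat_lit 280)) (PT.lf (nat_lit 37088) (nat_lit 6) (nat_lit 488) (nat_lit 3) (nat_lit 265) (nat_lit 236) (nat_lit 279))) (PT.nd (nat_lit 78) (PT.lf (nat_lit 37164) (nat_lit 6) (nat_lit 489) (nat_lit 3) (nat_lit 266) (nat_lit 236) (nat_lit 278)) (PT.lf (nat_lit 37240) (nat_lit 6) (nat_lit 490) (nat_lit 3) (nat_lit 267) (nat_lit 236) (nat_lit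 277)))) (PT.nd (nat_lit 156) (PT.nd (nat_lit 78) (PT.lf (nat_lit 37316) (nat_lit 6) (nat_lit 491) (nat_lit 3) (nat_lit 268) (nat_lit 236) (nat_lit 276)) (PT.lf (nat_lit 37392) (nat_lit 6) (nat_lit 492) (nat_lit 3) (nat_lit 269) (nat_lit 236) (nat_lit 275))) (PT.nd (nat_lit 78) (PT.lf (nat_lit 37468) (nat_lit 6) (nat_lit 493) (nat_lit 3) (nat_lit 270) (nat_lit 236) (nat_lit 274)) (PT.nd (nat_lit 78) (PT.lf (nat_lit 37544) (nat_lit 6) (nat_lit 494) (nat_lit 3) (nat_lit 271) (nat_lit 236) (nat_lit 273)) (PT.lf (nat_lit 37620) (nat_lit 3) (nat_lit 495) (nat_lit 1) (nat_lit 272) (nat_lit 236) (nat_lit 272))))))) (PT.nd (nat_lit 624) (PT.nd (nat_lit 312) (PT.nd (nat_lit 156) (PT.nd (nat_lit 78) (PT.lf (nat_lit 37544) (nat_lit 6) (nat_lit 494) (nat_lit 1) (nat_lit 273) (nat_lit 236) (nat_lit 271)) (PT.lf (nat_lit 37468) (nat_lit 6) (nat_lit 493) (nat_lit 1) (nat_lit 274) (nat_lit 236) (nat_lit 270))) (PT.nd (nat_lit 78) (PT.lf (nat_lit 37392) (nat_lit 6) (nat_lit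 492) (nat_lit 1) (nat_lit 275) (nat_lit 236) (nat_lit 269)) (PT.lf (nat_lit 37316) (nat_lit 6) (nat_lit 491) (nat_lit 1) (nat_lit 276) (nat_lit 236) (nat_lit 268)))) (PT.nd (nat_lit 156) (PT.nd (nat_lit 78) (PT.lf (nat_lit 37240) (nat_lit 6) (nat_lit 490) (nat_lit 1) (nat_lit 277) (nat_lit 236) (nat_lit 267)) (PT.lf (nat_lit 37164) (nat_lit 6) (nat_lit 489) (nat_lit 1) (nat_lit 278) (nat_lit 236) (nat_lit 266))) (PT.nd (nat_lit 78) (PT.lf (nat_lit 37088) (nat_lit 6) (nat_lit 488) (nat_lit 1) (nat_lit 279) (nat_lit 236) (nat_lit 265)) (PT.lf (nat_lit 37012) (nat_lit 6) (nat_lit 487) (nat_lit 1) (nat_lit 280) (nat_lit 236) (nat_lit 264))))) (PT.nd (nat_lit 312) (PT.nd (nat_lit 156) (PT.nd (nat_lit 78) (PT.lf (nat_lit 36936) (nat_lit 6) (nat_lit 486) (nat_lit 1) (nat_lit 281) (nat_lit 236) (nat_lit 263)) (PT.lf (nat_lit 36860) (nat_lit 6) (nat_lit 485) (nat_lit 1) (nat_lit 282) (nat_lit 236) (nat_lit 262))) (PT.nd (nat_lit 78) (PT.lf (nat_lit 36784) (nat_lit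 6) (nat_lit 484) (nat_lit 1) (nat_lit 283) (nat_lit 236) (nat_lit 261)) (PT.lf (nat_lit 36708) (nat_lit 6) (nat_lit 483) (nat_lit 1) (nat_lit 284) (nat_lit 236) (nat_lit 260)))) (PT.nd (nat_lit 79248) (PT.nd (nat_lit 79170) (PT.lf (nat_lit 34732) (nat_lit 6) (nat_lit 457) (nat_lit 1) (nat_lit 285) (nat_lit 236) (nat_lit 259)) (PT.lf (nat_lit 36632) (nat_lit 6) (nat_lit 482) (nat_lit 3) (nat_lit 259) (nat_lit 237) (nat_lit 284))) (PT.nd (nat_lit 78) (PT.lf (nat_lit 38532) (nat_lit 6) (nat_lit 507) (nat_lit 3) (nat_lit 260) (nat_lit 237) (nat_lit 283)) (PT.nd (nat_lit 78) (PT.lf (nat_lit 38608) (nat_lit 6) (nat_lit 508) (nat_lit 3) (nat_lit 261) (nat_lit 237) (nat_lit 282)) (PT.lf (nat_lit 38684) (nat_lit 6) (nat_lit 509) (nat_lit 3) (nat_lit 262) (nat_lit 237) (nat_lit 281))))))))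
noncomputable def pc26 : PT := (PT.nd (nat_lit 1326) (PT.nd (nat_lit 624) (PT.nd (nat_lit 312) (PT.nd (nat_lit 156) (PT.nd (nat_lit 78) (PT.lf (nat_lit 38760) (nat_lit 6) (nat_lit 510) (nat_lit 3) (nat_lit 263) (nat_lit 237) (nat_lit 280)) (PT.lf (nat_lit 38836) (nat_lit 6) (nat_lit 511) (nat_lit 3) (nat_lit 264) (nat_lit 237) (nat_lit 279))) (PT.nd (nat_lit 78) (PT.lf (nat_lit 38912) (nat_lit 6) (nat_lit 512) (nat_lit 3) (nat_lit 265) (nat_lit 237) (nat_lit 278)) (PT.lf (nat_lit 38988) (nat_lit 6) (nat_lit 513) (nat_lit 3) (nat_lit 266) (nat_lit 237) (nat_lit 277)))) (PT.nd (nat_lit 156) (PT.nd (nat_lit 78) (PT.lf (nat_lit 39064) (nat_lit 6) (nat_lit 514) (nat_lit 3) (nat_lit 267) (nat_lit 237) (nat_lit 276)) (PT.lf (nat_lit 39140) (nat_lit 6) (nat_lit 515) (nat_lit 3) (nat_lit 268) (nat_lit 237) (nat_lit 275))) (PT.nd (nat_lit 78) (PT.lf (nat_lit 39216) (nat_lit 6) (nat_lit 516) (nat_lit 3) (nat_lit 269) (nat_lit 237) (nat_lit 274)) (PT.lf (nat_lit 39292)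 (nat_lit 6) (nat_lit 517) (nat_lit 3) (nat_lit 270) (nat_lit 237) (nat_lit 273))))) (PT.nd (nat_lit 312) (PT.nd (nat_lit 156) (PT.nd (nat_lit 78) (PT.lf (nat_lit 39368) (nat_lit 6) (nat_lit 518) (nat_lit 3) (nat_lit 271) (nat_lit 237) (nat_lit 272)) (PT.lf (nat_lit 39368) (nat_lit 6) (nat_lit 518) (nat_lit 1) (nat_lit 272) (nat_lit 237) (nat_lit 271))) (PT.nd (nat_lit 78) (PT.lf (nat_lit 39292) (nat_lit 6) (nat_lit 517) (nat_lit 1) (nat_lit 273) (nat_lit 237) (nat_lit 270)) (PT.lf (nat_lit 39216) (nat_lit 6) (nat_lit 516) (nat_lit 1) (nat_lit 274) (nat_lit 237) (nat_lit 269)))) (PT.nd (nat_lit 156) (PT.nd (nat_lit 78) (PT.lf (nat_lit 39140) (nat_lit 6) (nat_lit 515) (nat_lit 1) (nat_lit 275) (nat_lit 237) (nat_lit 268)) (PT.lf (nat_lit 39064) (nat_lit 6) (nat_lit 514) (nat_lit 1) (nat_lit 276) (nat_lit 237) (nat_lit 267))) (PT.nd (nat_lit 78) (PT.lf (nat_lit 38988) (nat_lit 6) (nat_lit 513) (nat_lit 1) (nat_lit 277) (nat_lit 237) (nat_lit 266)) (PT.nd (nat_lit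 78) (PT.lf (nat_lit 38912) (nat_lit 6) (nat_lit 512) (nat_lit 1) (nat_lit 278) (nat_lit 237) (nat_lit 265)) (PT.lf (nat_lit 38836) (nat_lit 6) (nat_lit 511) (nat_lit 1) (nat_lit 279) (nat_lit 237) (nat_lit 264))))))) (PT.nd (nat_lit 79716) (PT.nd (nat_lit 312) (PT.nd (nat_lit 156) (PT.nd (nat_lit 78) (PT.lf (nat_lit 38760) (nat_lit 6) (nat_lit 510) (nat_lit 1) (nat_lit 280) (nat_lit 237) (nat_lit 263)) (PT.lf (nat_lit 38684) (nat_lit 6) (nat_lit 509) (nat_lit 1) (nat_lit 281) (nat_lit 237) (nat_lit 262))) (PT.nd (nat_lit 78) (PT.lf (nat_lit 38608) (nat_lit 6) (nat_lit 508) (nat_lit 1) (nat_lit 282) (nat_lit 237) (nat_lit 261)) (PT.lf (nat_lit 38532) (nat_lit 6) (nat_lit 507) (nat_lit 1) (nat_lit 283) (nat_lit 237) (nat_lit 260)))) (PT.nd (nat_lit 79248) (PT.nd (nat_lit 79170) (PT.lf (nat_lit 36632) (nat_lit 6) (nat_lit 482) (nat_lit 1) (nat_lit 284) (nat_lit 237) (nat_lit 259)) (PT.lf (nat_lit 36556) (nat_lit 6) (nat_lit 481) (nat_lit 3) (nat_lit 258) (nat_lit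 238) (nat_lit 284))) (PT.nd (nat_lit 78) (PT.lf (nat_lit 38456) (nat_lit 6) (nat_lit 506) (nat_lit 3) (nat_lit 259) (nat_lit 238) (nat_lit 283)) (PT.lf (nat_lit 40280) (nat_lit 6) (nat_lit 530) (nat_lit 3) (nat_lit 260) (nat_lit 238) (nat_lit 282))))) (PT.nd (nat_lit 312) (PT.nd (nat_lit 156) (PT.nd (nat_lit 78) (PT.lf (nat_lit 40356) (nat_lit 6) (nat_lit 531) (nat_lit 3) (nat_lit 261) (nat_lit 238) (nat_lit 281)) (PT.lf (nat_lit 40432) (nat_lit 6) (nat_lit 532) (nat_lit 3) (nat_lit 262) (nat_lit 238) (nat_lit 280))) (PT.nd (nat_lit 78) (PT.lf (nat_lit 40508) (nat_lit 6) (nat_lit 533) (nat_lit 3) (nat_lit 263) (nat_lit 238) (nat_lit 279)) (PT.lf (nat_lit 40584) (nat_lit 6) (nat_lit 534) (nat_lit 3) (nat_lit 264) (nat_lit 238) (nat_lit 278)))) (PT.nd (nat_lit 156) (PT.nd (nat_lit 78) (PT.lf (nat_lit 40660) (nat_lit 6) (nat_lit 535) (nat_lit 3) (nat_lit 265) (nat_lit 238) (nat_lit 277)) (PT.lf (nat_lit 40736) (nat_lit 6) (nat_lit 536) (nat_lit 3) (nat_lit 266)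 (nat_lit 238) (nat_lit 276))) (PT.nd (nat_lit 78) (PT.lf (nat_lit 40812) (nat_lit 6) (nat_lit 537) (nat_lit 3) (nat_lit 267) (nat_lit 238) (nat_lit 275)) (PT.nd (nat_lit 78) (PT.lf (nat_lit 40888) (nat_lit 6) (nat_lit 538) (nat_lit 3) (nat_lit 268) (nat_lit 238) (nat_lit 274)) (PT.lf (nat_lit 40964) (nat_lit 6) (nat_lit 539) (nat_lit 3) (nat_lit 269) (nat_lit 238) (nat_lit 273))))))))
noncomputable def pc27 : PT := (PT.nd (nat_lit 80340) (PT.nd (nat_lit 624) (PT.nd (nat_lit 312) (PT.nd (nat_lit 156) (PT.nd (nat_lit 78) (PT.lf (nat_lit 41040) (nat_lit 6) (nat_lit 540) (nat_lit 3) (nat_lit 270) (nat_lit 238) (nat_lit 272)) (PT.lf (nat_lit 41116) (nat_lit 3) (nat_lit 541) (nat_lit 1) (nat_lit 271) (nat_lit 238) (nat_lit 271))) (PT.nd (nat_lit 78) (PT.lf (nat_lit 41040) (nat_lit 6) (nat_lit 540) (nat_lit 1) (nat_lit 272) (nat_lit 238) (nat_lit 270)) (PT.lf (nat_lit 40964) (nat_lit 6) (nat_lit 539) (nat_lit 1) (nat_lit 273) (nat_lit 238) (nat_lit 269)))) (PT.nd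 (nat_lit 156) (PT.nd (nat_lit 78) (PT.lf (nat_lit 40888) (nat_lit 6) (nat_lit 538) (nat_lit 1) (nat_lit 274) (nat_lit 238) (nat_lit 268)) (PT.lf (nat_lit 40812) (nat_lit 6) (nat_lit 537) (nat_lit 1) (nat_lit 275) (nat_lit 238) (nat_lit 267))) (PT.nd (nat_lit 78) (PT.lf (nat_lit 40736) (nat_lit 6) (nat_lit 536) (nat_lit 1) (nat_lit 276) (nat_lit 238) (nat_lit 266)) (PT.lf (nat_lit 40660) (nat_lit 6) (nat_lit 535) (nat_lit 1) (nat_lit 277) (nat_lit 238) (nat_lit 265))))) (PT.nd (nat_lit 312) (PT.nd (nat_lit 156) (PT.nd (nat_lit 78) (PT.lf (nat_lit 40584) (nat_lit 6) (nat_lit 534) (nat_lit 1) (nat_lit 278) (nat_lit 238) (nat_lit 264)) (PT.lf (nat_lit 40508) (nat_lit 6) (nat_lit 533) (nat_lit 1) (nat_lit 279) (nat_lit 238) (nat_lit 263))) (PT.nd (nat_lit 78) (PT.lf (nat_lit 40432) (nat_lit 6) (nat_lit 532) (nat_lit 1) (nat_lit 280) (nat_lit 238) (nat_lit 262)) (PT.lf (nat_lit 40356) (nat_lit 6) (nat_lit 531) (nat_lit 1) (nat_lit 281) (nat_lit 238) (nat_lit 261))))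 (PT.nd (nat_lit 156) (PT.nd (nat_lit 78) (PT.lf (nat_lit 40280) (nat_lit 6) (nat_lit 530) (nat_lit 1) (nat_lit 282) (nat_lit 238) (nat_lit 260)) (PT.lf (nat_lit 38456) (nat_lit 6) (nat_lit 506) (nat_lit 1) (nat_lit 283) (nat_lit 238) (nat_lit 259))) (PT.nd (nat_lit 79092) (PT.lf (nat_lit 36556) (nat_lit 6) (nat_lit 481) (nat_lit 1) (nat_lit 284) (nat_lit 238) (nat_lit 258)) (PT.nd (nat_lit 78) (PT.lf (nat_lit 36480) (nat_lit 6) (nat_lit 480) (nat_lit 3) (nat_lit 257) (nat_lit 239) (nat_lit 284)) (PT.lf (nat_lit 38380) (nat_lit 6) (nat_lit 505) (nat_lit 3) (nat_lit 258) (nat_lit 239) (nat_lit 283))))))) (PT.nd (nat_lit 702) (PT.nd (nat_lit 312) (PT.nd (nat_lit 156) (PT.nd (nat_lit 78) (PT.lf (nat_lit 40204) (nat_lit 6) (nat_lit 529) (nat_lit 3) (nat_lit 259) (nat_lit 239) (nat_lit 282)) (PT.lf (nat_lit 41952) (nat_lit 6) (nat_lit 552) (nat_lit 3) (nat_lit 260) (nat_lit 239) (nat_lit 281))) (PT.nd (nat_lit 78) (PT.lf (nat_lit 42028) (nat_lit 6) (nat_lit 553)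 (nat_lit 3) (nat_lit 261) (nat_lit 239) (nat_lit 280)) (PT.lf (nat_lit 42104) (nat_lit 6) (nat_lit 554) (nat_lit 3) (nat_lit 262) (nat_lit 239) (nat_lit 279)))) (PT.nd (nat_lit 156) (PT.nd (nat_lit 78) (PT.lf (nat_lit 42180) (nat_lit 6) (nat_lit 555) (nat_lit 3) (nat_lit 263) (nat_lit 239) (nat_lit 278)) (PT.lf (nat_lit 42256) (nat_lit 6) (nat_lit 556) (nat_lit 3) (nat_lit 264) (nat_lit 239) (nat_lit 277))) (PT.nd (nat_lit 78) (PT.lf (nat_lit 42332) (nat_lit 6) (nat_lit 557) (nat_lit 3) (nat_lit 265) (nat_lit 239) (nat_lit 276)) (PT.nd (nat_lit 78) (PT.lf (nat_lit 42408) (nat_lit 6) (nat_lit 558) (nat_lit 3) (nat_lit 266) (nat_lit 239) (nat_lit 275)) (PT.lf (nat_lit 42484) (nat_lit 6) (nat_lit 559) (nat_lit 3) (nat_lit 267) (nat_lit 239) (nat_lit 274)))))) (PT.nd (nat_lit 312) (PT.nd (nat_lit 156) (PT.nd (nat_lit 78) (PT.lf (nat_lit 42560) (nat_lit 6) (nat_lit 560) (nat_lit 3) (nat_lit 268) (nat_lit 239) (nat_lit 273)) (PT.lf (nat_lit 42636) (nat_lit 6) (nat_lit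 561) (nat_lit 3) (nat_lit 269) (nat_lit 239) (nat_lit 272))) (PT.nd (nat_lit 78) (PT.lf (nat_lit 42712) (nat_lit 6) (nat_lit 562) (nat_lit 3) (nat_lit 270) (nat_lit 239) (nat_lit 271)) (PT.lf (nat_lit 42712) (nat_lit 6) (nat_lit 562) (nat_lit 1) (nat_lit 271) (nat_lit 239) (nat_lit 270)))) (PT.nd (nat_lit 156) (PT.nd (nat_lit 78) (PT.lf (nat_lit 42636) (nat_lit 6) (nat_lit 561) (nat_lit 1) (nat_lit 272) (nat_lit 239) (nat_lit 269)) (PT.lf (nat_lit 42560) (nat_lit 6) (nat_lit 560) (nat_lit 1) (nat_lit 273) (nat_lit 239) (nat_lit 268))) (PT.nd (nat_lit 78) (PT.lf (nat_lit 42484) (nat_lit 6) (nat_lit 559) (nat_lit 1) (nat_lit 274) (nat_lit 239) (nat_lit 267)) (PT.nd (nat_lit 78) (PT.lf (nat_lit 42408) (nat_lit 6) (nat_lit 558) (nat_lit 1) (nat_lit 275) (nat_lit 239) (nat_lit 266)) (PT.lf (nat_lit 42332) (nat_lit 6) (nat_lit 557) (nat_lit 1) (nat_lit 276) (nat_lit 239) (nat_lit 265))))))))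
noncomputable def pc28 : PT := (PT.nd (nat_lit 80262) (PT.nd (nat_lit 79560) (PT.nd (nat_lit 312) (PT.nd (nat_lit 156) (PT.nd (nat_lit 78) (PT.lf (nat_lit 42256) (nat_lit 6) (nat_lit 556) (nat_lit 1) (nat_lit 277) (nat_lit 239) (nat_lit 264)) (PT.lf (nat_lit 42180) (nat_lit 6) (nat_lit 555) (nat_lit 1) (nat_lit 278) (nat_lit 239) (nat_lit 263))) (PT.nd (nat_lit 78) (PT.lf (nat_lit 42104) (nat_lit 6) (nat_lit 554) (nat_lit 1) (nat_lit 279) (nat_lit 239) (nat_lit 262)) (PT.lf (nat_lit 42028) (nat_lit 6) (nat_lit 553) (nat_lit 1) (nat_lit 280) (nat_lit 239) (nat_lit 261)))) (PT.nd (nat_lit 156) (PT.nd (nat_lit 78) (PT.lf (nat_lit 41952) (nat_lit 6) (nat_lit 552) (nat_lit 1) (nat_lit 281) (nat_lit 239) (nat_lit 260)) (PT.lf (nat_lit 40204) (nat_lit 6) (nat_lit 529) (nat_lit 1) (nat_lit 282) (nat_lit 239) (nat_lit 259))) (PT.nd (nat_lit 78) (PT.lf (nat_lit 38380) (nat_lit 6) (nat_lit 505) (nat_lit 1) (nat_lit 283) (nat_lit 239) (nat_lit 258)) (PT.lf (nat_lit 36480)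 (nat_lit 6) (nat_lit 480) (nat_lit 1) (nat_lit 284) (nat_lit 239) (nat_lit 257))))) (PT.nd (nat_lit 312) (PT.nd (nat_lit 156) (PT.nd (nat_lit 78) (PT.lf (nat_lit 36404) (nat_lit 6) (nat_lit 479) (nat_lit 3) (nat_lit 256) (nat_lit 240) (nat_lit 284)) (PT.lf (nat_lit 38304) (nat_lit 6) (nat_lit 504) (nat_lit 3) (nat_lit 257) (nat_lit 240) (nat_lit 283))) (PT.nd (nat_lit 78) (PT.lf (nat_lit 40128) (nat_lit 6) (nat_lit 528) (nat_lit 3) (nat_lit 258) (nat_lit 240) (nat_lit 282)) (PT.lf (nat_lit 41876) (nat_lit 6) (nat_lit 551) (nat_lit 3) (nat_lit 259) (nat_lit 240) (nat_lit 281)))) (PT.nd (nat_lit 156) (PT.nd (nat_lit 78) (PT.lf (nat_lit 43548) (nat_lit 6) (nat_lit 573) (nat_lit 3) (nat_lit 260) (nat_lit 240) (nat_lit 280)) (PT.lf (nat_lit 43624) (nat_lit 6) (nat_lit 574) (nat_lit 3) (nat_lit 261) (nat_lit 240) (nat_lit 279))) (PT.nd (nat_lit 78) (PT.lf (nat_lit 43700) (nat_lit 6) (nat_lit 575) (nat_lit 3) (nat_lit 262) (nat_lit 240) (nat_lit 278)) (PT.nd (nat_lit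 78) (PT.lf (nat_lit 43776) (nat_lit 6) (nat_lit 576) (nat_lit 3) (nat_lit 263) (nat_lit 240) (nat_lit 277)) (PT.lf (nat_lit 43852) (nat_lit 6) (nat_lit 577) (nat_lit 3) (nat_lit 264) (nat_lit 240) (nat_lit 276))))))) (PT.nd (nat_lit 624) (PT.nd (nat_lit 312) (PT.nd (nat_lit 156) (PT.nd (nat_lit 78) (PT.lf (nat_lit 43928) (nat_lit 6) (nat_lit 578) (nat_lit 3) (nat_lit 265) (nat_lit 240) (nat_lit 275)) (PT.lf (nat_lit 44004) (nat_lit 6) (nat_lit 579) (nat_lit 3) (nat_lit 266) (nat_lit 240) (nat_lit 274))) (PT.nd (nat_lit 78) (PT.lf (nat_lit 44080) (nat_lit 6) (nat_lit 580) (nat_lit 3) (nat_lit 267) (nat_lit 240) (nat_lit 273)) (PT.lf (nat_lit 44156) (nat_lit 6) (nat_lit 581) (nat_lit 3) (nat_lit 268) (nat_lit 240) (nat_lit 272)))) (PT.nd (nat_lit 156) (PT.nd (nat_lit 78) (PT.lf (nat_lit 44232) (nat_lit 6) (nat_lit 582) (nat_lit 3) (nat_lit 269) (nat_lit 240) (nat_lit 271)) (PT.lf (nat_lit 44308) (nat_lit 3) (nat_lit 583) (nat_lit 1) (nat_lit 270) (nat_lit 240)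 (nat_lit 270))) (PT.nd (nat_lit 78) (PT.lf (nat_lit 44232) (nat_lit 6) (nat_lit 582) (nat_lit 1) (nat_lit 271) (nat_lit 240) (nat_lit 269)) (PT.lf (nat_lit 44156) (nat_lit 6) (nat_lit 581) (nat_lit 1) (nat_lit 272) (nat_lit 240) (nat_lit 268))))) (PT.nd (nat_lit 312) (PT.nd (nat_lit 156) (PT.nd (nat_lit 78) (PT.lf (nat_lit 44080) (nat_lit 6) (nat_lit 580) (nat_lit 1) (nat_lit 273) (nat_lit 240) (nat_lit 267)) (PT.lf (nat_lit 44004) (nat_lit 6) (nat_lit 579) (nat_lit 1) (nat_lit 274) (nat_lit 240) (nat_lit 266))) (PT.nd (nat_lit 78) (PT.lf (nat_lit 43928) (nat_lit 6) (nat_lit 578) (nat_lit 1) (nat_lit 275) (nat_lit 240) (nat_lit 265)) (PT.lf (nat_lit 43852) (nat_lit 6) (nat_lit 577) (nat_lit 1) (nat_lit 276) (nat_lit 240) (nat_lit 264)))) (PT.nd (nat_lit 156) (PT.nd (nat_lit 78) (PT.lf (nat_lit 43776) (nat_lit 6) (nat_lit 576) (nat_lit 1) (nat_lit 277) (nat_lit 240) (nat_lit 263)) (PT.lf (nat_lit 43700) (nat_lit 6) (nat_lit 575) (nat_lit 1) (nat_lit 278) (nat_lit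 240) (nat_lit 262))) (PT.nd (nat_lit 78) (PT.lf (nat_lit 43624) (nat_lit 6) (nat_lit 574) (nat_lit 1) (nat_lit 279) (nat_lit 240) (nat_lit 261)) (PT.nd (nat_lit 78) (PT.lf (nat_lit 43548) (nat_lit 6) (nat_lit 573) (nat_lit 1) (nat_lit 280) (nat_lit 240) (nat_lit 260)) (PT.lf (nat_lit 41876) (nat_lit 6) (nat_lit 551) (nat_lit 1) (nat_lit 281) (nat_lit 240) (nat_lit 259))))))))
noncomputable def pc29 : PT := (PT.nd (nat_lit 80184) (PT.nd (nat_lit 79482) (PT.nd (nat_lit 79170) (PT.nd (nat_lit 156) (PT.nd (nat_lit 78) (PT.lf (nat_lit 40128) (nat_lit 6) (nat_lit 528) (nat_lit 1) (nat_lit 282) (nat_lit 240) (nat_lit 258)) (PT.lf (nat_lit 38304) (nat_lit 6) (nat_lit 504) (nat_lit 1) (nat_lit 283) (nat_lit 240) (nat_lit 257))) (PT.nd (nat_lit 78936) (PT.lf (nat_lit 36404) (nat_lit 6) (nat_lit 479) (nat_lit 1) (nat_lit 284) (nat_lit 240) (nat_lit 256)) (PT.lf (nat_lit 36328) (nat_lit 6) (nat_lit 478) (nat_lit 3) (nat_lit 255) (nat_lit 241) (nat_lit 284)))) (PT.nd (nat_lit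 156) (PT.nd (nat_lit 78) (PT.lf (nat_lit 38228) (nat_lit 6) (nat_lit 503) (nat_lit 3) (nat_lit 256) (nat_lit 241) (nat_lit 283)) (PT.lf (nat_lit 40052) (nat_lit 6) (nat_lit 527) (nat_lit 3) (nat_lit 257) (nat_lit 241) (nat_lit 282))) (PT.nd (nat_lit 78) (PT.lf (nat_lit 41800) (nat_lit 6) (nat_lit 550) (nat_lit 3) (nat_lit 258) (nat_lit 241) (nat_lit 281)) (PT.lf (nat_lit 43472) (nat_lit 6) (nat_lit 572) (nat_lit 3) (nat_lit 259) (nat_lit 241) (nat_lit 280))))) (PT.nd (nat_lit 312) (PT.nd (nat_lit 156) (PT.nd (nat_lit 78) (PT.lf (nat_lit 45068) (nat_lit 6) (nat_lit 593) (nat_lit 3) (nat_lit 260) (nat_lit 241) (nat_lit 279)) (PT.lf (nat_lit 45144) (nat_lit 6) (nat_lit 594) (nat_lit 3) (nat_lit 261) (nat_lit 241) (nat_lit 278))) (PT.nd (nat_lit 78) (PT.lf (nat_lit 45220) (nat_lit 6) (nat_lit 595) (nat_lit 3) (nat_lit 262) (nat_lit 241) (nat_lit 277)) (PT.lf (nat_lit 45296) (nat_lit 6) (nat_lit 596) (nat_lit 3) (nat_lit 263) (nat_lit 241) (nat_lit 276)))) (PT.nd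 (nat_lit 156) (PT.nd (nat_lit 78) (PT.lf (nat_lit 45372) (nat_lit 6) (nat_lit 597) (nat_lit 3) (nat_lit 264) (nat_lit 241) (nat_lit 275)) (PT.lf (nat_lit 45448) (nat_lit 6) (nat_lit 598) (nat_lit 3) (nat_lit 265) (nat_lit 241) (nat_lit 274))) (PT.nd (nat_lit 78) (PT.lf (nat_lit 45524) (nat_lit 6) (nat_lit 599) (nat_lit 3) (nat_lit 266) (nat_lit 241) (nat_lit 273)) (PT.nd (nat_lit 78) (PT.lf (nat_lit 45600) (nat_lit 6) (nat_lit 600) (nat_lit 3) (nat_lit 267) (nat_lit 241) (nat_lit 272)) (PT.lf (nat_lit 45676) (nat_lit 6) (nat_lit 601) (nat_lit 3) (nat_lit 268) (nat_lit 241) (nat_lit 271))))))) (PT.nd (nat_lit 624) (PT.nd (nat_lit 312) (PT.nd (nat_lit 156) (PT.nd (nat_lit 78) (PT.lf (nat_lit 45752) (nat_lit 6) (nat_lit 602) (nat_lit 3) (nat_lit 269) (nat_lit 241) (nat_lit 270)) (PT.lf (nat_lit 45752) (nat_lit 6) (nat_lit 602) (nat_lit 1) (nat_lit 270) (nat_lit 241) (nat_lit 269))) (PT.nd (nat_lit 78) (PT.lf (nat_lit 45676) (nat_lit 6) (nat_lit 601) (nat_lit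 1) (nat_lit 271) (nat_lit 241) (nat_lit 268)) (PT.lf (nat_lit 45600) (nat_lit 6) (nat_lit 600) (nat_lit 1) (nat_lit 272) (nat_lit 241) (nat_lit 267)))) (PT.nd (nat_lit 156) (PT.nd (nat_lit 78) (PT.lf (nat_lit 45524) (nat_lit 6) (nat_lit 599) (nat_lit 1) (nat_lit 273) (nat_lit 241) (nat_lit 266)) (PT.lf (nat_lit 45448) (nat_lit 6) (nat_lit 598) (nat_lit 1) (nat_lit 274) (nat_lit 241) (nat_lit 265))) (PT.nd (nat_lit 78) (PT.lf (nat_lit 45372) (nat_lit 6) (nat_lit 597) (nat_lit 1) (nat_lit 275) (nat_lit 241) (nat_lit 264)) (PT.lf (nat_lit 45296) (nat_lit 6) (nat_lit 596) (nat_lit 1) (nat_lit 276) (nat_lit 241) (nat_lit 263))))) (PT.nd (nat_lit 312) (PT.nd (nat_lit 156) (PT.nd (nat_lit 78) (PT.lf (nat_lit 45220) (nat_lit 6) (nat_lit 595) (nat_lit 1) (nat_lit 277) (nat_lit 241) (nat_lit 262)) (PT.lf (nat_lit 45144) (nat_lit 6) (nat_lit 594) (nat_lit 1) (nat_lit 278) (nat_lit 241) (nat_lit 261))) (PT.nd (nat_lit 78) (PT.lf (nat_lit 45068) (nat_lit 6) (nat_lit 593)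 (nat_lit 1) (nat_lit 279) (nat_lit 241) (nat_lit 260)) (PT.lf (nat_lit 43472) (nat_lit 6) (nat_lit 572) (nat_lit 1) (nat_lit 280) (nat_lit 241) (nat_lit 259)))) (PT.nd (nat_lit 156) (PT.nd (nat_lit 78) (PT.lf (nat_lit 41800) (nat_lit 6) (nat_lit 550) (nat_lit 1) (nat_lit 281) (nat_lit 241) (nat_lit 258)) (PT.lf (nat_lit 40052) (nat_lit 6) (nat_lit 527) (nat_lit 1) (nat_lit 282) (nat_lit 241) (nat_lit 257))) (PT.nd (nat_lit 78) (PT.lf (nat_lit 38228) (nat_lit 6) (nat_lit 503) (nat_lit 1) (nat_lit 283) (nat_lit 241) (nat_lit 256)) (PT.nd (nat_lit 78858) (PT.lf (nat_lit 36328) (nat_lit 6) (nat_lit 478) (nat_lit 1) (nat_lit 284) (nat_lit 241) (nat_lit 255)) (PT.lf (nat_lit 36252) (nat_lit 6) (nat_lit 477) (nat_lit 3) (nat_lit 254) (nat_lit 242) (nat_lit 284))))))))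
noncomputable def pc30 : PT := (PT.nd (nat_lit 1326) (PT.nd (nat_lit 624) (PT.nd (nat_lit 312) (PT.nd (nat_lit 156) (PT.nd (nat_lit 78) (PT.lf (nat_lit 38152) (nat_lit 6) (nat_lit 502) (nat_lit 3) (nat_lit 255) (nat_lit 242) (nat_lit 283)) (PT.lf (nat_lit 39976) (nat_lit 6) (nat_lit 526) (nat_lit 3) (nat_lit 256) (nat_lit 242) (nat_lit 282))) (PT.nd (nat_lit 78) (PT.lf (nat_lit 41724) (nat_lit 6) (nat_lit 549) (nat_lit 3) (nat_lit 257) (nat_lit 242) (nat_lit 281)) (PT.lf (nat_lit 43396) (nat_lit 6) (nat_lit 571) (nat_lit 3) (nat_lit 258) (nat_lit 242) (nat_lit 280)))) (PT.nd (nat_lit 156) (PT.nd (nat_lit 78) (PT.lf (nat_lit 44992) (nat_lit 6) (nat_lit 592) (nat_lit 3) (nat_lit 259) (nat_lit 242) (nat_lit 279)) (PT.lf (nat_lit 46512) (nat_lit 6) (nat_lit 612) (nat_lit 3) (nat_lit 260) (nat_lit 242) (nat_lit 278))) (PT.nd (nat_lit 78) (PT.lf (nat_lit 46588) (nat_lit 6) (nat_lit 613) (nat_lit 3) (nat_lit 261) (nat_lit 242) (nat_lit 277)) (PT.lf (nat_lit 46664)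 (nat_lit 6) (nat_lit 614) (nat_lit 3) (nat_lit 262) (nat_lit 242) (nat_lit 276))))) (PT.nd (nat_lit 312) (PT.nd (nat_lit 156) (PT.nd (nat_lit 78) (PT.lf (nat_lit 46740) (nat_lit 6) (nat_lit 615) (nat_lit 3) (nat_lit 263) (nat_lit 242) (nat_lit 275)) (PT.lf (nat_lit 46816) (nat_lit 6) (nat_lit 616) (nat_lit 3) (nat_lit 264) (nat_lit 242) (nat_lit 274))) (PT.nd (nat_lit 78) (PT.lf (nat_lit 46892) (nat_lit 6) (nat_lit 617) (nat_lit 3) (nat_lit 265) (nat_lit 242) (nat_lit 273)) (PT.lf (nat_lit 46968) (nat_lit 6) (nat_lit 618) (nat_lit 3) (nat_lit 266) (nat_lit 242) (nat_lit 272)))) (PT.nd (nat_lit 156) (PT.nd (nat_lit 78) (PT.lf (nat_lit 47044) (nat_lit 6) (nat_lit 619) (nat_lit 3) (nat_lit 267) (nat_lit 242) (nat_lit 271)) (PT.lf (nat_lit 47120) (nat_lit 6) (nat_lit 620) (nat_lit 3) (nat_lit 268) (nat_lit 242) (nat_lit 270))) (PT.nd (nat_lit 78) (PT.lf (nat_lit 47196) (nat_lit 3) (nat_lit 621) (nat_lit 1) (nat_lit 269) (nat_lit 242) (nat_lit 269)) (PT.nd (nat_lit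 78) (PT.lf (nat_lit 47120) (nat_lit 6) (nat_lit 620) (nat_lit 1) (nat_lit 270) (nat_lit 242) (nat_lit 268)) (PT.lf (nat_lit 47044) (nat_lit 6) (nat_lit 619) (nat_lit 1) (nat_lit 271) (nat_lit 242) (nat_lit 267))))))) (PT.nd (nat_lit 624) (PT.nd (nat_lit 312) (PT.nd (nat_lit 156) (PT.nd (nat_lit 78) (PT.lf (nat_lit 46968) (nat_lit 6) (nat_lit 618) (nat_lit 1) (nat_lit 272) (nat_lit 242) (nat_lit 266)) (PT.lf (nat_lit 46892) (nat_lit 6) (nat_lit 617) (nat_lit 1) (nat_lit 273) (nat_lit 242) (nat_lit 265))) (PT.nd (nat_lit 78) (PT.lf (nat_lit 46816) (nat_lit 6) (nat_lit 616) (nat_lit 1) (nat_lit 274) (nat_lit 242) (nat_lit 264)) (PT.lf (nat_lit 46740) (nat_lit 6) (nat_lit 615) (nat_lit 1) (nat_lit 275) (nat_lit 242) (nat_lit 263)))) (PT.nd (nat_lit 156) (PT.nd (nat_lit 78) (PT.lf (nat_lit 46664) (nat_lit 6) (nat_lit 614) (nat_lit 1) (nat_lit 276) (nat_lit 242) (nat_lit 262)) (PT.lf (nat_lit 46588) (nat_lit 6) (nat_lit 613) (nat_lit 1) (nat_lit 277) (nat_lit 242)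 (nat_lit 261))) (PT.nd (nat_lit 78) (PT.lf (nat_lit 46512) (nat_lit 6) (nat_lit 612) (nat_lit 1) (nat_lit 278) (nat_lit 242) (nat_lit 260)) (PT.lf (nat_lit 44992) (nat_lit 6) (nat_lit 592) (nat_lit 1) (nat_lit 279) (nat_lit 242) (nat_lit 259))))) (PT.nd (nat_lit 312) (PT.nd (nat_lit 156) (PT.nd (nat_lit 78) (PT.lf (nat_lit 43396) (nat_lit 6) (nat_lit 571) (nat_lit 1) (nat_lit 280) (nat_lit 242) (nat_lit 258)) (PT.lf (nat_lit 41724) (nat_lit 6) (nat_lit 549) (nat_lit 1) (nat_lit 281) (nat_lit 242) (nat_lit 257))) (PT.nd (nat_lit 78) (PT.lf (nat_lit 39976) (nat_lit 6) (nat_lit 526) (nat_lit 1) (nat_lit 282) (nat_lit 242) (nat_lit 256)) (PT.lf (nat_lit 38152) (nat_lit 6) (nat_lit 502) (nat_lit 1) (nat_lit 283) (nat_lit 242) (nat_lit 255)))) (PT.nd (nat_lit 78858) (PT.nd (nat_lit 78780) (PT.lf (nat_lit 36252) (nat_lit 6) (nat_lit 477) (nat_lit 1) (nat_lit 284) (nat_lit 242) (nat_lit 254)) (PT.lf (nat_lit 36176) (nat_lit 6) (nat_lit 476) (nat_lit 3) (nat_lit 253)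 (nat_lit 243) (nat_lit 284))) (PT.nd (nat_lit 78) (PT.lf (nat_lit 38076) (nat_lit 6) (nat_lit 501) (nat_lit 3) (nat_lit 254) (nat_lit 243) (nat_lit 283)) (PT.nd (nat_lit 78) (PT.lf (nat_lit 39900) (nat_lit 6) (nat_lit 525) (nat_lit 3) (nat_lit 255) (nat_lit 243) (nat_lit 282)) (PT.lf (nat_lit 41648) (nat_lit 6) (nat_lit 548) (nat_lit 3) (nat_lit 256) (nat_lit 243) (nat_lit 281))))))))
noncomputable def pc31 : PT := (PT.nd (nat_lit 1326) (PT.nd (nat_lit 624) (PT.nd (nat_lit 312) (PT.nd (nat_lit 156) (PT.nd (nat_lit 78) (PT.lf (nat_lit 43320) (nat_lit 6) (nat_lit 570) (nat_lit 3) (nat_lit 257) (nat_lit 243) (nat_lit 280)) (PT.lf (nat_lit 44916) (nat_lit 6) (nat_lit 591) (nat_lit 3) (nat_lit 258) (nat_lit 243) (nat_lit 279))) (PT.nd (nat_lit 78) (PT.lf (nat_lit 46436) (nat_lit 6) (nat_lit 611) (nat_lit 3) (nat_lit 259) (nat_lit 243) (nat_lit 278)) (PT.lf (nat_lit 47880) (nat_lit 6) (nat_lit 630) (nat_lit 3) (nat_lit 260) (nat_lit 243) (nat_lit 277)))) (PT.nd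 (nat_lit 156) (PT.nd (nat_lit 78) (PT.lf (nat_lit 47956) (nat_lit 6) (nat_lit 631) (nat_lit 3) (nat_lit 261) (nat_lit 243) (nat_lit 276)) (PT.lf (nat_lit 48032) (nat_lit 6) (nat_lit 632) (nat_lit 3) (nat_lit 262) (nat_lit 243) (nat_lit 275))) (PT.nd (nat_lit 78) (PT.lf (nat_lit 48108) (nat_lit 6) (nat_lit 633) (nat_lit 3) (nat_lit 263) (nat_lit 243) (nat_lit 274)) (PT.lf (nat_lit 48184) (nat_lit 6) (nat_lit 634) (nat_lit 3) (nat_lit 264) (nat_lit 243) (nat_lit 273))))) (PT.nd (nat_lit 312) (PT.nd (nat_lit 156) (PT.nd (nat_lit 78) (PT.lf (nat_lit 48260) (nat_lit 6) (nat_lit 635) (nat_lit 3) (nat_lit 265) (nat_lit 243) (nat_lit 272)) (PT.lf (nat_lit 48336) (nat_lit 6) (nat_lit 636) (nat_lit 3) (nat_lit 266) (nat_lit 243) (nat_lit 271))) (PT.nd (nat_lit 78) (PT.lf (nat_lit 48412) (nat_lit 6) (nat_lit 637) (nat_lit 3) (nat_lit 267) (nat_lit 243) (nat_lit 270)) (PT.lf (nat_lit 48488) (nat_lit 6) (nat_lit 638) (nat_lit 3) (nat_lit 268) (nat_lit 243) (nat_lit 269))))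 (PT.nd (nat_lit 156) (PT.nd (nat_lit 78) (PT.lf (nat_lit 48488) (nat_lit 6) (nat_lit 638) (nat_lit 1) (nat_lit 269) (nat_lit 243) (nat_lit 268)) (PT.lf (nat_lit 48412) (nat_lit 6) (nat_lit 637) (nat_lit 1) (nat_lit 270) (nat_lit 243) (nat_lit 267))) (PT.nd (nat_lit 78) (PT.lf (nat_lit 48336) (nat_lit 6) (nat_lit 636) (nat_lit 1) (nat_lit 271) (nat_lit 243) (nat_lit 266)) (PT.nd (nat_lit 78) (PT.lf (nat_lit 48260) (nat_lit 6) (nat_lit 635) (nat_lit 1) (nat_lit 272) (nat_lit 243) (nat_lit 265)) (PT.lf (nat_lit 48184) (nat_lit 6) (nat_lit 634) (nat_lit 1) (nat_lit 273) (nat_lit 243) (nat_lit 264))))))) (PT.nd (nat_lit 702) (PT.nd (nat_lit 312) (PT.nd (nat_lit 156) (PT.nd (nat_lit 78) (PT.lf (nat_lit 48108) (nat_lit 6) (nat_lit 633) (nat_lit 1) (nat_lit 274) (nat_lit 243) (nat_lit 263)) (PT.lf (nat_lit 48032) (nat_lit 6) (nat_lit 632) (nat_lit 1) (nat_lit 275) (nat_lit 243) (nat_lit 262))) (PT.nd (nat_lit 78) (PT.lf (nat_lit 47956) (nat_lit 6) (nat_lit 631) (nat_lit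 1) (nat_lit 276) (nat_lit 243) (nat_lit 261)) (PT.lf (nat_lit 47880) (nat_lit 6) (nat_lit 630) (nat_lit 1) (nat_lit 277) (nat_lit 243) (nat_lit 260)))) (PT.nd (nat_lit 156) (PT.nd (nat_lit 78) (PT.lf (nat_lit 46436) (nat_lit 6) (nat_lit 611) (nat_lit 1) (nat_lit 278) (nat_lit 243) (nat_lit 259)) (PT.lf (nat_lit 44916) (nat_lit 6) (nat_lit 591) (nat_lit 1) (nat_lit 279) (nat_lit 243) (nat_lit 258))) (PT.nd (nat_lit 78) (PT.lf (nat_lit 43320) (nat_lit 6) (nat_lit 570) (nat_lit 1) (nat_lit 280) (nat_lit 243) (nat_lit 257)) (PT.nd (nat_lit 78) (PT.lf (nat_lit 41648) (nat_lit 6) (nat_lit 548) (nat_lit 1) (nat_lit 281) (nat_lit 243) (nat_lit 256)) (PT.lf (nat_lit 39900) (nat_lit 6) (nat_lit 525) (nat_lit 1) (nat_lit 282) (nat_lit 243) (nat_lit 255)))))) (PT.nd (nat_lit 78936) (PT.nd (nat_lit 78780) (PT.nd (nat_lit 78) (PT.lf (nat_lit 38076) (nat_lit 6) (nat_lit 501) (nat_lit 1) (nat_lit 283) (nat_lit 243) (nat_lit 254)) (PT.lf (nat_lit 36176) (nat_lit 6) (nat_lit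 476) (nat_lit 1) (nat_lit 284) (nat_lit 243) (nat_lit 253))) (PT.nd (nat_lit 78) (PT.lf (nat_lit 36100) (nat_lit 6) (nat_lit 475) (nat_lit 3) (nat_lit 252) (nat_lit 244) (nat_lit 284)) (PT.lf (nat_lit 38000) (nat_lit 6) (nat_lit 500) (nat_lit 3) (nat_lit 253) (nat_lit 244) (nat_lit 283)))) (PT.nd (nat_lit 156) (PT.nd (nat_lit 78) (PT.lf (nat_lit 39824) (nat_lit 6) (nat_lit 524) (nat_lit 3) (nat_lit 254) (nat_lit 244) (nat_lit 282)) (PT.lf (nat_lit 41572) (nat_lit 6) (nat_lit 547) (nat_lit 3) (nat_lit 255) (nat_lit 244) (nat_lit 281))) (PT.nd (nat_lit 78) (PT.lf (nat_lit 43244) (nat_lit 6) (nat_lit 569) (nat_lit 3) (nat_lit 256) (nat_lit 244) (nat_lit 280)) (PT.nd (nat_lit 78) (PT.lf (nat_lit 44840) (nat_lit 6) (nat_lit 590) (nat_lit 3) (nat_lit 257) (nat_lit 244) (nat_lit 279)) (PT.lf (nat_lit 46360) (nat_lit 6) (nat_lit 610) (nat_lit 3) (nat_lit 258) (nat_lit 244) (nat_lit 278))))))))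
noncomputable def pc32 : PT := (PT.nd (nat_lit 1326) (PT.nd (nat_lit 624) (PT.nd (nat_lit 312) (PT.nd (nat_lit 156) (PT.nd (nat_lit 78) (PT.lf (nat_lit 47804) (nat_lit 6) (nat_lit 629) (nat_lit 3) (nat_lit 259) (nat_lit 244) (nat_lit 277)) (PT.lf (nat_lit 49172) (nat_lit 6) (nat_lit 647) (nat_lit 3) (nat_lit 260) (nat_lit 244) (nat_lit 276))) (PT.nd (nat_lit 78) (PT.lf (nat_lit 49248) (nat_lit 6) (nat_lit 648) (nat_lit 3) (nat_lit 261) (nat_lit 244) (nat_lit 275)) (PT.lf (nat_lit 49324) (nat_lit 6) (nat_lit 649) (nat_lit 3) (nat_lit 262) (nat_lit 244) (nat_lit 274)))) (PT.nd (nat_lit 156) (PT.nd (nat_lit 78) (PT.lf (nat_lit 49400) (nat_lit 6) (nat_lit 650) (nat_lit 3) (nat_lit 263) (nat_lit 244) (nat_lit 273)) (PT.lf (nat_lit 49476) (nat_lit 6) (nat_lit 651) (nat_lit 3) (nat_lit 264) (nat_lit 244) (nat_lit 272))) (PT.nd (nat_lit 78) (PT.lf (nat_lit 49552) (nat_lit 6) (nat_lit 652) (nat_lit 3) (nat_lit 265) (nat_lit 244) (nat_lit 271)) (PT.lf (nat_lit 49628)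 (nat_lit 6) (nat_lit 653) (nat_lit 3) (nat_lit 266) (nat_lit 244) (nat_lit 270))))) (PT.nd (nat_lit 312) (PT.nd (nat_lit 156) (PT.nd (nat_lit 78) (PT.lf (nat_lit 49704) (nat_lit 6) (nat_lit 654) (nat_lit 3) (nat_lit 267) (nat_lit 244) (nat_lit 269)) (PT.lf (nat_lit 49780) (nat_lit 3) (nat_lit 655) (nat_lit 1) (nat_lit 268) (nat_lit 244) (nat_lit 268))) (PT.nd (nat_lit 78) (PT.lf (nat_lit 49704) (nat_lit 6) (nat_lit 654) (nat_lit 1) (nat_lit 269) (nat_lit 244) (nat_lit 267)) (PT.lf (nat_lit 49628) (nat_lit 6) (nat_lit 653) (nat_lit 1) (nat_lit 270) (nat_lit 244) (nat_lit 266)))) (PT.nd (nat_lit 156) (PT.nd (nat_lit 78) (PT.lf (nat_lit 49552) (nat_lit 6) (nat_lit 652) (nat_lit 1) (nat_lit 271) (nat_lit 244) (nat_lit 265)) (PT.lf (nat_lit 49476) (nat_lit 6) (nat_lit 651) (nat_lit 1) (nat_lit 272) (nat_lit 244) (nat_lit 264))) (PT.nd (nat_lit 78) (PT.lf (nat_lit 49400) (nat_lit 6) (nat_lit 650) (nat_lit 1) (nat_lit 273) (nat_lit 244) (nat_lit 263)) (PT.nd (nat_lit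 78) (PT.lf (nat_lit 49324) (nat_lit 6) (nat_lit 649) (nat_lit 1) (nat_lit 274) (nat_lit 244) (nat_lit 262)) (PT.lf (nat_lit 49248) (nat_lit 6) (nat_lit 648) (nat_lit 1) (nat_lit 275) (nat_lit 244) (nat_lit 261))))))) (PT.nd (nat_lit 624) (PT.nd (nat_lit 312) (PT.nd (nat_lit 156) (PT.nd (nat_lit 78) (PT.lf (nat_lit 49172) (nat_lit 6) (nat_lit 647) (nat_lit 1) (nat_lit 276) (nat_lit 244) (nat_lit 260)) (PT.lf (nat_lit 47804) (nat_lit 6) (nat_lit 629) (nat_lit 1) (nat_lit 277) (nat_lit 244) (nat_lit 259))) (PT.nd (nat_lit 78) (PT.lf (nat_lit 46360) (nat_lit 6) (nat_lit 610) (nat_lit 1) (nat_lit 278) (nat_lit 244) (nat_lit 258)) (PT.lf (nat_lit 44840) (nat_lit 6) (nat_lit 590) (nat_lit 1) (nat_lit 279) (nat_lit 244) (nat_lit 257)))) (PT.nd (nat_lit 156) (PT.nd (nat_lit 78) (PT.lf (nat_lit 43244) (nat_lit 6) (nat_lit 569) (nat_lit 1) (nat_lit 280) (nat_lit 244) (nat_lit 256)) (PT.lf (nat_lit 41572) (nat_lit 6) (nat_lit 547) (nat_lit 1) (nat_lit 281) (nat_lit 244)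 (nat_lit 255))) (PT.nd (nat_lit 78) (PT.lf (nat_lit 39824) (nat_lit 6) (nat_lit 524) (nat_lit 1) (nat_lit 282) (nat_lit 244) (nat_lit 254)) (PT.lf (nat_lit 38000) (nat_lit 6) (nat_lit 500) (nat_lit 1) (nat_lit 283) (nat_lit 244) (nat_lit 253))))) (PT.nd (nat_lit 78858) (PT.nd (nat_lit 78702) (PT.nd (nat_lit 78624) (PT.lf (nat_lit 36100) (nat_lit 6) (nat_lit 475) (nat_lit 1) (nat_lit 284) (nat_lit 244) (nat_lit 252)) (PT.lf (nat_lit 36024) (nat_lit 6) (nat_lit 474) (nat_lit 3) (nat_lit 251) (nat_lit 245) (nat_lit 284))) (PT.nd (nat_lit 78) (PT.lf (nat_lit 37924) (nat_lit 6) (nat_lit 499) (nat_lit 3) (nat_lit 252) (nat_lit 245) (nat_lit 283)) (PT.lf (nat_lit 39748) (nat_lit 6) (nat_lit 523) (nat_lit 3) (nat_lit 253) (nat_lit 245) (nat_lit 282)))) (PT.nd (nat_lit 156) (PT.nd (nat_lit 78) (PT.lf (nat_lit 41496) (nat_lit 6) (nat_lit 546) (nat_lit 3) (nat_lit 254) (nat_lit 245) (nat_lit 281)) (PT.lf (nat_lit 43168) (nat_lit 6) (nat_lit 568) (nat_lit 3) (nat_lit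 255) (nat_lit 245) (nat_lit 280))) (PT.nd (nat_lit 78) (PT.lf (nat_lit 44764) (nat_lit 6) (nat_lit 589) (nat_lit 3) (nat_lit 256) (nat_lit 245) (nat_lit 279)) (PT.nd (nat_lit 78) (PT.lf (nat_lit 46284) (nat_lit 6) (nat_lit 609) (nat_lit 3) (nat_lit 257) (nat_lit 245) (nat_lit 278)) (PT.lf (nat_lit 47728) (nat_lit 6) (nat_lit 628) (nat_lit 3) (nat_lit 258) (nat_lit 245) (nat_lit 277))))))))
noncomputable def pc33 : PT := (PT.nd (nat_lit 1326) (PT.nd (nat_lit 624) (PT.nd (nat_lit 312) (PT.nd (nat_lit 156) (PT.nd (nat_lit 78) (PT.lf (nat_lit 49096) (nat_lit 6) (nat_lit 646) (nat_lit 3) (nat_lit 259) (nat_lit 245) (nat_lit 276)) (PT.lf (nat_lit 50388) (nat_lit 6) (nat_lit 663) (nat_lit 3) (nat_lit 260) (nat_lit 245) (nat_lit 275))) (PT.nd (nat_lit 78) (PT.lf (nat_lit 50464) (nat_lit 6) (nat_lit 664) (nat_lit 3) (nat_lit 261) (nat_lit 245) (nat_lit 274)) (PT.lf (nat_lit 50540) (nat_lit 6) (nat_lit 665) (nat_lit 3) (nat_lit 262) (nat_lit 245) (nat_lit 273)))) (PT.nd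 (nat_lit 156) (PT.nd (nat_lit 78) (PT.lf (nat_lit 50616) (nat_lit 6) (nat_lit 666) (nat_lit 3) (nat_lit 263) (nat_lit 245) (nat_lit 272)) (PT.lf (nat_lit 50692) (nat_lit 6) (nat_lit 667) (nat_lit 3) (nat_lit 264) (nat_lit 245) (nat_lit 271))) (PT.nd (nat_lit 78) (PT.lf (nat_lit 50768) (nat_lit 6) (nat_lit 668) (nat_lit 3) (nat_lit 265) (nat_lit 245) (nat_lit 270)) (PT.lf (nat_lit 50844) (nat_lit 6) (nat_lit 669) (nat_lit 3) (nat_lit 266) (nat_lit 245) (nat_lit 269))))) (PT.nd (nat_lit 312) (PT.nd (nat_lit 156) (PT.nd (nat_lit 78) (PT.lf (nat_lit 50920) (nat_lit 6) (nat_lit 670) (nat_lit 3) (nat_lit 267) (nat_lit 245) (nat_lit 268)) (PT.lf (nat_lit 50920) (nat_lit 6) (nat_lit 670) (nat_lit 1) (nat_lit 268) (nat_lit 245) (nat_lit 267))) (PT.nd (nat_lit 78) (PT.lf (nat_lit 50844) (nat_lit 6) (nat_lit 669) (nat_lit 1) (nat_lit 269) (nat_lit 245) (nat_lit 266)) (PT.lf (nat_lit 50768) (nat_lit 6) (nat_lit 668) (nat_lit 1) (nat_lit 270) (nat_lit 245) (nat_lit 265))))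 (PT.nd (nat_lit 156) (PT.nd (nat_lit 78) (PT.lf (nat_lit 50692) (nat_lit 6) (nat_lit 667) (nat_lit 1) (nat_lit 271) (nat_lit 245) (nat_lit 264)) (PT.lf (nat_lit 50616) (nat_lit 6) (nat_lit 666) (nat_lit 1) (nat_lit 272) (nat_lit 245) (nat_lit 263))) (PT.nd (nat_lit 78) (PT.lf (nat_lit 50540) (nat_lit 6) (nat_lit 665) (nat_lit 1) (nat_lit 273) (nat_lit 245) (nat_lit 262)) (PT.nd (nat_lit 78) (PT.lf (nat_lit 50464) (nat_lit 6) (nat_lit 664) (nat_lit 1) (nat_lit 274) (nat_lit 245) (nat_lit 261)) (PT.lf (nat_lit 50388) (nat_lit 6) (nat_lit 663) (nat_lit 1) (nat_lit 275) (nat_lit 245) (nat_lit 260))))))) (PT.nd (nat_lit 624) (PT.nd (nat_lit 312) (PT.nd (nat_lit 156) (PT.nd (nat_lit 78) (PT.lf (nat_lit 49096) (nat_lit 6) (nat_lit 646) (nat_lit 1) (nat_lit 276) (nat_lit 245) (nat_lit 259)) (PT.lf (nat_lit 47728) (nat_lit 6) (nat_lit 628) (nat_lit 1) (nat_lit 277) (nat_lit 245) (nat_lit 258))) (PT.nd (nat_lit 78) (PT.lf (nat_lit 46284) (nat_lit 6) (nat_lit 609) (nat_lit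 1) (nat_lit 278) (nat_lit 245) (nat_lit 257)) (PT.lf (nat_lit 44764) (nat_lit 6) (nat_lit 589) (nat_lit 1) (nat_lit 279) (nat_lit 245) (nat_lit 256)))) (PT.nd (nat_lit 156) (PT.nd (nat_lit 78) (PT.lf (nat_lit 43168) (nat_lit 6) (nat_lit 568) (nat_lit 1) (nat_lit 280) (nat_lit 245) (nat_lit 255)) (PT.lf (nat_lit 41496) (nat_lit 6) (nat_lit 546) (nat_lit 1) (nat_lit 281) (nat_lit 245) (nat_lit 254))) (PT.nd (nat_lit 78) (PT.lf (nat_lit 39748) (nat_lit 6) (nat_lit 523) (nat_lit 1) (nat_lit 282) (nat_lit 245) (nat_lit 253)) (PT.lf (nat_lit 37924) (nat_lit 6) (nat_lit 499) (nat_lit 1) (nat_lit 283) (nat_lit 245) (nat_lit 252))))) (PT.nd (nat_lit 78780) (PT.nd (nat_lit 78624) (PT.nd (nat_lit 78546) (PT.lf (nat_lit 36024) (nat_lit 6) (nat_lit 474) (nat_lit 1) (nat_lit 284) (nat_lit 245) (nat_lit 251)) (PT.lf (nat_lit 35948) (nat_lit 6) (nat_lit 473) (nat_lit 3) (nat_lit 250) (nat_lit 246) (nat_lit 284))) (PT.nd (nat_lit 78) (PT.lf (nat_lit 37848) (nat_lit 6) (nat_lit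 498) (nat_lit 3) (nat_lit 251) (nat_lit 246) (nat_lit 283)) (PT.lf (nat_lit 39672) (nat_lit 6) (nat_lit 522) (nat_lit 3) (nat_lit 252) (nat_lit 246) (nat_lit 282)))) (PT.nd (nat_lit 156) (PT.nd (nat_lit 78) (PT.lf (nat_lit 41420) (nat_lit 6) (nat_lit 545) (nat_lit 3) (nat_lit 253) (nat_lit 246) (nat_lit 281)) (PT.lf (nat_lit 43092) (nat_lit 6) (nat_lit 567) (nat_lit 3) (nat_lit 254) (nat_lit 246) (nat_lit 280))) (PT.nd (nat_lit 78) (PT.lf (nat_lit 44688) (nat_lit 6) (nat_lit 588) (nat_lit 3) (nat_lit 255) (nat_lit 246) (nat_lit 279)) (PT.nd (nat_lit 78) (PT.lf (nat_lit 46208) (nat_lit 6) (nat_lit 608) (nat_lit 3) (nat_lit 256) (nat_lit 246) (nat_lit 278)) (PT.lf (nat_lit 47652) (nat_lit 6) (nat_lit 627) (nat_lit 3) (nat_lit 257) (nat_lit 246) (nat_lit 277))))))))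
noncomputable def pc34 : PT := (PT.nd (nat_lit 1326) (PT.nd (nat_lit 624) (PT.nd (nat_lit 312) (PT.nd (nat_lit 156) (PT.nd (nat_lit 78) (PT.lf (nat_lit 49020) (nat_lit 6) (nat_lit 645) (nat_lit 3) (nat_lit 258) (nat_lit 246) (nat_lit 276)) (PT.lf (nat_lit 50312) (nat_lit 6) (nat_lit 662) (nat_lit 3) (nat_lit 259) (nat_lit 246) (nat_lit 275))) (PT.nd (nat_lit 78) (PT.lf (nat_lit 51528) (nat_lit 6) (nat_lit 678) (nat_lit 3) (nat_lit 260) (nat_lit 246) (nat_lit 274)) (PT.lf (nat_lit 51604) (nat_lit 6) (nat_lit 679) (nat_lit 3) (nat_lit 261) (nat_lit 246) (nat_lit 273)))) (PT.nd (nat_lit 156) (PT.nd (nat_lit 78) (PT.lf (nat_lit 51680) (nat_lit 6) (nat_lit 680) (nat_lit 3) (nat_lit 262) (nat_lit 246) (nat_lit 272)) (PT.lf (nat_lit 51756) (nat_lit 6) (nat_lit 681) (nat_lit 3) (nat_lit 263) (nat_lit 246) (nat_lit 271))) (PT.nd (nat_lit 78) (PT.lf (nat_lit 51832) (nat_lit 6) (nat_lit 682) (nat_lit 3) (nat_lit 264) (nat_lit 246) (nat_lit 270)) (PT.lf (nat_lit 51908)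 (nat_lit 6) (nat_lit 683) (nat_lit 3) (nat_lit 265) (nat_lit 246) (nat_lit 269))))) (PT.nd (nat_lit 312) (PT.nd (nat_lit 156) (PT.nd (nat_lit 78) (PT.lf (nat_lit 51984) (nat_lit 6) (nat_lit 684) (nat_lit 3) (nat_lit 266) (nat_lit 246) (nat_lit 268)) (PT.lf (nat_lit 52060) (nat_lit 3) (nat_lit 685) (nat_lit 1) (nat_lit 267) (nat_lit 246) (nat_lit 267))) (PT.nd (nat_lit 78) (PT.lf (nat_lit 51984) (nat_lit 6) (nat_lit 684) (nat_lit 1) (nat_lit 268) (nat_lit 246) (nat_lit 266)) (PT.lf (nat_lit 51908) (nat_lit 6) (nat_lit 683) (nat_lit 1) (nat_lit 269) (nat_lit 246) (nat_lit 265)))) (PT.nd (nat_lit 156) (PT.nd (nat_lit 78) (PT.lf (nat_lit 51832) (nat_lit 6) (nat_lit 682) (nat_lit 1) (nat_lit 270) (nat_lit 246) (nat_lit 264)) (PT.lf (nat_lit 51756) (nat_lit 6) (nat_lit 681) (nat_lit 1) (nat_lit 271) (nat_lit 246) (nat_lit 263))) (PT.nd (nat_lit 78) (PT.lf (nat_lit 51680) (nat_lit 6) (nat_lit 680) (nat_lit 1) (nat_lit 272) (nat_lit 246) (nat_lit 262)) (PT.nd (nat_lit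 78) (PT.lf (nat_lit 51604) (nat_lit 6) (nat_lit 679) (nat_lit 1) (nat_lit 273) (nat_lit 246) (nat_lit 261)) (PT.lf (nat_lit 51528) (nat_lit 6) (nat_lit 678) (nat_lit 1) (nat_lit 274) (nat_lit 246) (nat_lit 260))))))) (PT.nd (nat_lit 624) (PT.nd (nat_lit 312) (PT.nd (nat_lit 156) (PT.nd (nat_lit 78) (PT.lf (nat_lit 50312) (nat_lit 6) (nat_lit 662) (nat_lit 1) (nat_lit 275) (nat_lit 246) (nat_lit 259)) (PT.lf (nat_lit 49020) (nat_lit 6) (nat_lit 645) (nat_lit 1) (nat_lit 276) (nat_lit 246) (nat_lit 258))) (PT.nd (nat_lit 78) (PT.lf (nat_lit 47652) (nat_lit 6) (nat_lit 627) (nat_lit 1) (nat_lit 277) (nat_lit 246) (nat_lit 257)) (PT.lf (nat_lit 46208) (nat_lit 6) (nat_lit 608) (nat_lit 1) (nat_lit 278) (nat_lit 246) (nat_lit 256)))) (PT.nd (nat_lit 156) (PT.nd (nat_lit 78) (PT.lf (nat_lit 44688) (nat_lit 6) (nat_lit 588) (nat_lit 1) (nat_lit 279) (nat_lit 246) (nat_lit 255)) (PT.lf (nat_lit 43092) (nat_lit 6) (nat_lit 567) (nat_lit 1) (nat_lit 280) (nat_lit 246)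 (nat_lit 254))) (PT.nd (nat_lit 78) (PT.lf (nat_lit 41420) (nat_lit 6) (nat_lit 545) (nat_lit 1) (nat_lit 281) (nat_lit 246) (nat_lit 253)) (PT.lf (nat_lit 39672) (nat_lit 6) (nat_lit 522) (nat_lit 1) (nat_lit 282) (nat_lit 246) (nat_lit 252))))) (PT.nd (nat_lit 78702) (PT.nd (nat_lit 78546) (PT.nd (nat_lit 78) (PT.lf (nat_lit 37848) (nat_lit 6) (nat_lit 498) (nat_lit 1) (nat_lit 283) (nat_lit 246) (nat_lit 251)) (PT.lf (nat_lit 35948) (nat_lit 6) (nat_lit 473) (nat_lit 1) (nat_lit 284) (nat_lit 246) (nat_lit 250))) (PT.nd (nat_lit 78) (PT.lf (nat_lit 35872) (nat_lit 6) (nat_lit 472) (nat_lit 3) (nat_lit 249) (nat_lit 247) (nat_lit 284)) (PT.lf (nat_lit 37772) (nat_lit 6) (nat_lit 497) (nat_lit 3) (nat_lit 250) (nat_lit 247) (nat_lit 283)))) (PT.nd (nat_lit 156) (PT.nd (nat_lit 78) (PT.lf (nat_lit 39596) (nat_lit 6) (nat_lit 521) (nat_lit 3) (nat_lit 251) (nat_lit 247) (nat_lit 282)) (PT.lf (nat_lit 41344) (nat_lit 6) (nat_lit 544) (nat_lit 3) (nat_lit 252)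 (nat_lit 247) (nat_lit 281))) (PT.nd (nat_lit 78) (PT.lf (nat_lit 43016) (nat_lit 6) (nat_lit 566) (nat_lit 3) (nat_lit 253) (nat_lit 247) (nat_lit 280)) (PT.nd (nat_lit 78) (PT.lf (nat_lit 44612) (nat_lit 6) (nat_lit 587) (nat_lit 3) (nat_lit 254) (nat_lit 247) (nat_lit 279)) (PT.lf (nat_lit 46132) (nat_lit 6) (nat_lit 607) (nat_lit 3) (nat_lit 255) (nat_lit 247) (nat_lit 278))))))))
noncomputable def pc35 : PT := (PT.nd (nat_lit 1326) (PT.nd (nat_lit 624) (PT.nd (nat_lit 312) (PT.nd (nat_lit 156) (PT.nd (nat_lit 78) (PT.lf (nat_lit 47576) (nat_lit 6) (nat_lit 626) (nat_lit 3) (nat_lit 256) (nat_lit 247) (nat_lit 277)) (PT.lf (nat_lit 48944) (nat_lit 6) (nat_lit 644) (nat_lit 3) (nat_lit 257) (nat_lit 247) (nat_lit 276))) (PT.nd (nat_lit 78) (PT.lf (nat_lit 50236) (nat_lit 6) (nat_lit 661) (nat_lit 3) (nat_lit 258) (nat_lit 247) (nat_lit 275)) (PT.lf (nat_lit 51452) (nat_lit 6) (nat_lit 677) (nat_lit 3) (nat_lit 259) (nat_lit 247) (nat_lit 274)))) (PT.nd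 (nat_lit 156) (PT.nd (nat_lit 78) (PT.lf (nat_lit 52592) (nat_lit 6) (nat_lit 692) (nat_lit 3) (nat_lit 260) (nat_lit 247) (nat_lit 273)) (PT.lf (nat_lit 52668) (nat_lit 6) (nat_lit 693) (nat_lit 3) (nat_lit 261) (nat_lit 247) (nat_lit 272))) (PT.nd (nat_lit 78) (PT.lf (nat_lit 52744) (nat_lit 6) (nat_lit 694) (nat_lit 3) (nat_lit 262) (nat_lit 247) (nat_lit 271)) (PT.lf (nat_lit 52820) (nat_lit 6) (nat_lit 695) (nat_lit 3) (nat_lit 263) (nat_lit 247) (nat_lit 270))))) (PT.nd (nat_lit 312) (PT.nd (nat_lit 156) (PT.nd (nat_lit 78) (PT.lf (nat_lit 52896) (nat_lit 6) (nat_lit 696) (nat_lit 3) (nat_lit 264) (nat_lit 247) (nat_lit 269)) (PT.lf (nat_lit 52972) (nat_lit 6) (nat_lit 697) (nat_lit 3) (nat_lit 265) (nat_lit 247) (nat_lit 268))) (PT.nd (nat_lit 78) (PT.lf (nat_lit 53048) (nat_lit 6) (nat_lit 698) (nat_lit 3) (nat_lit 266) (nat_lit 247) (nat_lit 267)) (PT.lf (nat_lit 53048) (nat_lit 6) (nat_lit 698) (nat_lit 1) (nat_lit 267) (nat_lit 247) (nat_lit 266))))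 (PT.nd (nat_lit 156) (PT.nd (nat_lit 78) (PT.lf (nat_lit 52972) (nat_lit 6) (nat_lit 697) (nat_lit 1) (nat_lit 268) (nat_lit 247) (nat_lit 265)) (PT.lf (nat_lit 52896) (nat_lit 6) (nat_lit 696) (nat_lit 1) (nat_lit 269) (nat_lit 247) (nat_lit 264))) (PT.nd (nat_lit 78) (PT.lf (nat_lit 52820) (nat_lit 6) (nat_lit 695) (nat_lit 1) (nat_lit 270) (nat_lit 247) (nat_lit 263)) (PT.nd (nat_lit 78) (PT.lf (nat_lit 52744) (nat_lit 6) (nat_lit 694) (nat_lit 1) (nat_lit 271) (nat_lit 247) (nat_lit 262)) (PT.lf (nat_lit 52668) (nat_lit 6) (nat_lit 693) (nat_lit 1) (nat_lit 272) (nat_lit 247) (nat_lit 261))))))) (PT.nd (nat_lit 624) (PT.nd (nat_lit 312) (PT.nd (nat_lit 156) (PT.nd (nat_lit 78) (PT.lf (nat_lit 52592) (nat_lit 6) (nat_lit 692) (nat_lit 1) (nat_lit 273) (nat_lit 247) (nat_lit 260)) (PT.lf (nat_lit 51452) (nat_lit 6) (nat_lit 677) (nat_lit 1) (nat_lit 274) (nat_lit 247) (nat_lit 259))) (PT.nd (nat_lit 78) (PT.lf (nat_lit 50236) (nat_lit 6) (nat_lit 661) (nat_lit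 1) (nat_lit 275) (nat_lit 247) (nat_lit 258)) (PT.lf (nat_lit 48944) (nat_lit 6) (nat_lit 644) (nat_lit 1) (nat_lit 276) (nat_lit 247) (nat_lit 257)))) (PT.nd (nat_lit 156) (PT.nd (nat_lit 78) (PT.lf (nat_lit 47576) (nat_lit 6) (nat_lit 626) (nat_lit 1) (nat_lit 277) (nat_lit 247) (nat_lit 256)) (PT.lf (nat_lit 46132) (nat_lit 6) (nat_lit 607) (nat_lit 1) (nat_lit 278) (nat_lit 247) (nat_lit 255))) (PT.nd (nat_lit 78) (PT.lf (nat_lit 44612) (nat_lit 6) (nat_lit 587) (nat_lit 1) (nat_lit 279) (nat_lit 247) (nat_lit 254)) (PT.lf (nat_lit 43016) (nat_lit 6) (nat_lit 566) (nat_lit 1) (nat_lit 280) (nat_lit 247) (nat_lit 253))))) (PT.nd (nat_lit 78624) (PT.nd (nat_lit 156) (PT.nd (nat_lit 78) (PT.lf (nat_lit 41344) (nat_lit 6) (nat_lit 544) (nat_lit 1) (nat_lit 281) (nat_lit 247) (nat_lit 252)) (PT.lf (nat_lit 39596) (nat_lit 6) (nat_lit 521) (nat_lit 1) (nat_lit 282) (nat_lit 247) (nat_lit 251))) (PT.nd (nat_lit 78) (PT.lf (nat_lit 37772) (nat_lit 6) (nat_lit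 497) (nat_lit 1) (nat_lit 283) (nat_lit 247) (nat_lit 250)) (PT.lf (nat_lit 35872) (nat_lit 6) (nat_lit 472) (nat_lit 1) (nat_lit 284) (nat_lit 247) (nat_lit 249)))) (PT.nd (nat_lit 156) (PT.nd (nat_lit 78) (PT.lf (nat_lit 35796) (nat_lit 3) (nat_lit 471) (nat_lit 3) (nat_lit 248) (nat_lit 248) (nat_lit 284)) (PT.lf (nat_lit 37696) (nat_lit 6) (nat_lit 496) (nat_lit 3) (nat_lit 249) (nat_lit 248) (nat_lit 283))) (PT.nd (nat_lit 78) (PT.lf (nat_lit 39520) (nat_lit 6) (nat_lit 520) (nat_lit 3) (nat_lit 250) (nat_lit 248) (nat_lit 282)) (PT.nd (nat_lit 78) (PT.lf (nat_lit 41268) (nat_lit 6) (nat_lit 543) (nat_lit 3) (nat_lit 251) (nat_lit 248) (nat_lit 281)) (PT.lf (nat_lit 42940) (nat_lit 6) (nat_lit 565) (nat_lit 3) (nat_lit 252) (nat_lit 248) (nat_lit 280))))))))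
noncomputable def pc36 : PT := (PT.nd (nat_lit 1326) (PT.nd (nat_lit 624) (PT.nd (nat_lit 312) (PT.nd (nat_lit 156) (PT.nd (nat_lit 78) (PT.lf (nat_lit 44536) (nat_lit 6) (nat_lit 586) (nat_lit 3) (nat_lit 253) (nat_lit 248) (nat_lit 279)) (PT.lf (nat_lit 46056) (nat_lit 6) (nat_lit 606) (nat_lit 3) (nat_lit 254) (nat_lit 248) (nat_lit 278))) (PT.nd (nat_lit 78) (PT.lf (nat_lit 47500) (nat_lit 6) (nat_lit 625) (nat_lit 3) (nat_lit 255) (nat_lit 248) (nat_lit 277)) (PT.lf (nat_lit 48868) (nat_lit 6) (nat_lit 643) (nat_lit 3) (nat_lit 256) (nat_lit 248) (nat_lit 276)))) (PT.nd (nat_lit 156) (PT.nd (nat_lit 78) (PT.lf (nat_lit 50160) (nat_lit 6) (nat_lit 660) (nat_lit 3) (nat_lit 257) (nat_lit 248) (nat_lit 275)) (PT.lf (nat_lit 51376) (nat_lit 6) (nat_lit 676) (nat_lit 3) (nat_lit 258) (nat_lit 248) (nat_lit 274))) (PT.nd (nat_lit 78) (PT.lf (nat_lit 52516) (nat_lit 6) (nat_lit 691) (nat_lit 3) (nat_lit 259) (nat_lit 248) (nat_lit 273)) (PT.lf (nat_lit 53580)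 (nat_lit 6) (nat_lit 705) (nat_lit 3) (nat_lit 260) (nat_lit 248) (nat_lit 272))))) (PT.nd (nat_lit 312) (PT.nd (nat_lit 156) (PT.nd (nat_lit 78) (PT.lf (nat_lit 53656) (nat_lit 6) (nat_lit 706) (nat_lit 3) (nat_lit 261) (nat_lit 248) (nat_lit 271)) (PT.lf (nat_lit 53732) (nat_lit 6) (nat_lit 707) (nat_lit 3) (nat_lit 262) (nat_lit 248) (nat_lit 270))) (PT.nd (nat_lit 78) (PT.lf (nat_lit 53808) (nat_lit 6) (nat_lit 708) (nat_lit 3) (nat_lit 263) (nat_lit 248) (nat_lit 269)) (PT.lf (nat_lit 53884) (nat_lit 6) (nat_lit 709) (nat_lit 3) (nat_lit 264) (nat_lit 248) (nat_lit 268)))) (PT.nd (nat_lit 156) (PT.nd (nat_lit 78) (PT.lf (nat_lit 53960) (nat_lit 6) (nat_lit 710) (nat_lit 3) (nat_lit 265) (nat_lit 248) (nat_lit 267)) (PT.lf (nat_lit 54036) (nat_lit 3) (nat_lit 711) (nat_lit 1) (nat_lit 266) (nat_lit 248) (nat_lit 266))) (PT.nd (nat_lit 78) (PT.lf (nat_lit 53960) (nat_lit 6) (nat_lit 710) (nat_lit 1) (nat_lit 267) (nat_lit 248) (nat_lit 265)) (PT.nd (nat_lit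 78) (PT.lf (nat_lit 53884) (nat_lit 6) (nat_lit 709) (nat_lit 1) (nat_lit 268) (nat_lit 248) (nat_lit 264)) (PT.lf (nat_lit 53808) (nat_lit 6) (nat_lit 708) (nat_lit 1) (nat_lit 269) (nat_lit 248) (nat_lit 263))))))) (PT.nd (nat_lit 624) (PT.nd (nat_lit 312) (PT.nd (nat_lit 156) (PT.nd (nat_lit 78) (PT.lf (nat_lit 53732) (nat_lit 6) (nat_lit 707) (nat_lit 1) (nat_lit 270) (nat_lit 248) (nat_lit 262)) (PT.lf (nat_lit 53656) (nat_lit 6) (nat_lit 706) (nat_lit 1) (nat_lit 271) (nat_lit 248) (nat_lit 261))) (PT.nd (nat_lit 78) (PT.lf (nat_lit 53580) (nat_lit 6) (nat_lit 705) (nat_lit 1) (nat_lit 272) (nat_lit 248) (nat_lit 260)) (PT.lf (nat_lit 52516) (nat_lit 6) (nat_lit 691) (nat_lit 1) (nat_lit 273) (nat_lit 248) (nat_lit 259)))) (PT.nd (nat_lit 156) (PT.nd (nat_lit 78) (PT.lf (nat_lit 51376) (nat_lit 6) (nat_lit 676) (nat_lit 1) (nat_lit 274) (nat_lit 248) (nat_lit 258)) (PT.lf (nat_lit 50160) (nat_lit 6) (nat_lit 660) (nat_lit 1) (nat_lit 275) (nat_lit 248)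 (nat_lit 257))) (PT.nd (nat_lit 78) (PT.lf (nat_lit 48868) (nat_lit 6) (nat_lit 643) (nat_lit 1) (nat_lit 276) (nat_lit 248) (nat_lit 256)) (PT.lf (nat_lit 47500) (nat_lit 6) (nat_lit 625) (nat_lit 1) (nat_lit 277) (nat_lit 248) (nat_lit 255))))) (PT.nd (nat_lit 312) (PT.nd (nat_lit 156) (PT.nd (nat_lit 78) (PT.lf (nat_lit 46056) (nat_lit 6) (nat_lit 606) (nat_lit 1) (nat_lit 278) (nat_lit 248) (nat_lit 254)) (PT.lf (nat_lit 44536) (nat_lit 6) (nat_lit 586) (nat_lit 1) (nat_lit 279) (nat_lit 248) (nat_lit 253))) (PT.nd (nat_lit 78) (PT.lf (nat_lit 42940) (nat_lit 6) (nat_lit 565) (nat_lit 1) (nat_lit 280) (nat_lit 248) (nat_lit 252)) (PT.lf (nat_lit 41268) (nat_lit 6) (nat_lit 543) (nat_lit 1) (nat_lit 281) (nat_lit 248) (nat_lit 251)))) (PT.nd (nat_lit 156) (PT.nd (nat_lit 78) (PT.lf (nat_lit 39520) (nat_lit 6) (nat_lit 520) (nat_lit 1) (nat_lit 282) (nat_lit 248) (nat_lit 250)) (PT.lf (nat_lit 37696) (nat_lit 6) (nat_lit 496) (nat_lit 1) (nat_lit 283) (nat_lit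 248) (nat_lit 249))) (PT.nd (nat_lit 78312) (PT.lf (nat_lit 35796) (nat_lit 3) (nat_lit 471) (nat_lit 0) (nat_lit 284) (nat_lit 248) (nat_lit 248)) (PT.nd (nat_lit 78) (PT.lf (nat_lit 35872) (nat_lit 6) (nat_lit 472) (nat_lit 5) (nat_lit 247) (nat_lit 249) (nat_lit 284)) (PT.lf (nat_lit 37696) (nat_lit 6) (nat_lit 496) (nat_lit 5) (nat_lit 248) (nat_lit 249) (nat_lit 283))))))))
noncomputable def pc37 : PT := (PT.nd (nat_lit 1326) (PT.nd (nat_lit 624) (PT.nd (nat_lit 312) (PT.nd (nat_lit 156) (PT.nd (nat_lit 78) (PT.lf (nat_lit 39444) (nat_lit 3) (nat_lit 519) (nat_lit 3) (nat_lit 249) (nat_lit 249) (nat_lit 282)) (PT.lf (nat_lit 41192) (nat_lit 6) (nat_lit 542) (nat_lit 3) (nat_lit 250) (nat_lit 249) (nat_lit 281))) (PT.nd (nat_lit 78) (PT.lf (nat_lit 42864) (nat_lit 6) (nat_lit 564) (nat_lit 3) (nat_lit 251) (nat_lit 249) (nat_lit 280)) (PT.lf (nat_lit 44460) (nat_lit 6) (nat_lit 585) (nat_lit 3) (nat_lit 252) (nat_lit 249) (nat_lit 279)))) (PT.nd (nat_lit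 156) (PT.nd (nat_lit 78) (PT.lf (nat_lit 45980) (nat_lit 6) (nat_lit 605) (nat_lit 3) (nat_lit 253) (nat_lit 249) (nat_lit 278)) (PT.lf (nat_lit 47424) (nat_lit 6) (nat_lit 624) (nat_lit 3) (nat_lit 254) (nat_lit 249) (nat_lit 277))) (PT.nd (nat_lit 78) (PT.lf (nat_lit 48792) (nat_lit 6) (nat_lit 642) (nat_lit 3) (nat_lit 255) (nat_lit 249) (nat_lit 276)) (PT.lf (nat_lit 50084) (nat_lit 6) (nat_lit 659) (nat_lit 3) (nat_lit 256) (nat_lit 249) (nat_lit 275))))) (PT.nd (nat_lit 312) (PT.nd (nat_lit 156) (PT.nd (nat_lit 78) (PT.lf (nat_lit 51300) (nat_lit 6) (nat_lit 675) (nat_lit 3) (nat_lit 257) (nat_lit 249) (nat_lit 274)) (PT.lf (nat_lit 52440) (nat_lit 6) (nat_lit 690) (nat_lit 3) (nat_lit 258) (nat_lit 249) (nat_lit 273))) (PT.nd (nat_lit 78) (PT.lf (nat_lit 53504) (nat_lit 6) (nat_lit 704) (nat_lit 3) (nat_lit 259) (nat_lit 249) (nat_lit 272)) (PT.lf (nat_lit 54492) (nat_lit 6) (nat_lit 717) (nat_lit 3) (nat_lit 260) (nat_lit 249) (nat_lit 271)))) (PT.nd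 (nat_lit 156) (PT.nd (nat_lit 78) (PT.lf (nat_lit 54568) (nat_lit 6) (nat_lit 718) (nat_lit 3) (nat_lit 261) (nat_lit 249) (nat_lit 270)) (PT.lf (nat_lit 54644) (nat_lit 6) (nat_lit 719) (nat_lit 3) (nat_lit 262) (nat_lit 249) (nat_lit 269))) (PT.nd (nat_lit 78) (PT.lf (nat_lit 54720) (nat_lit 6) (nat_lit 720) (nat_lit 3) (nat_lit 263) (nat_lit 249) (nat_lit 268)) (PT.nd (nat_lit 78) (PT.lf (nat_lit 54796) (nat_lit 6) (nat_lit 721) (nat_lit 3) (nat_lit 264) (nat_lit 249) (nat_lit 267)) (PT.lf (nat_lit 54872) (nat_lit 6) (nat_lit 722) (nat_lit 3) (nat_lit 265) (nat_lit 249) (nat_lit 266))))))) (PT.nd (nat_lit 624) (PT.nd (nat_lit 312) (PT.nd (nat_lit 156) (PT.nd (nat_lit 78) (PT.lf (nat_lit 54872) (nat_lit 6) (nat_lit 722) (nat_lit 1) (nat_lit 266) (nat_lit 249) (nat_lit 265)) (PT.lf (nat_lit 54796) (nat_lit 6) (nat_lit 721) (nat_lit 1) (nat_lit 267) (nat_lit 249) (nat_lit 264))) (PT.nd (nat_lit 78) (PT.lf (nat_lit 54720) (nat_lit 6) (nat_lit 720) (nat_lit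 1) (nat_lit 268) (nat_lit 249) (nat_lit 263)) (PT.lf (nat_lit 54644) (nat_lit 6) (nat_lit 719) (nat_lit 1) (nat_lit 269) (nat_lit 249) (nat_lit 262)))) (PT.nd (nat_lit 156) (PT.nd (nat_lit 78) (PT.lf (nat_lit 54568) (nat_lit 6) (nat_lit 718) (nat_lit 1) (nat_lit 270) (nat_lit 249) (nat_lit 261)) (PT.lf (nat_lit 54492) (nat_lit 6) (nat_lit 717) (nat_lit 1) (nat_lit 271) (nat_lit 249) (nat_lit 260))) (PT.nd (nat_lit 78) (PT.lf (nat_lit 53504) (nat_lit 6) (nat_lit 704) (nat_lit 1) (nat_lit 272) (nat_lit 249) (nat_lit 259)) (PT.lf (nat_lit 52440) (nat_lit 6) (nat_lit 690) (nat_lit 1) (nat_lit 273) (nat_lit 249) (nat_lit 258))))) (PT.nd (nat_lit 312) (PT.nd (nat_lit 156) (PT.nd (nat_lit 78) (PT.lf (nat_lit 51300) (nat_lit 6) (nat_lit 675) (nat_lit 1) (nat_lit 274) (nat_lit 249) (nat_lit 257)) (PT.lf (nat_lit 50084) (nat_lit 6) (nat_lit 659) (nat_lit 1) (nat_lit 275) (nat_lit 249) (nat_lit 256))) (PT.nd (nat_lit 78) (PT.lf (nat_lit 48792) (nat_lit 6) (nat_lit 642)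 (nat_lit 1) (nat_lit 276) (nat_lit 249) (nat_lit 255)) (PT.lf (nat_lit 47424) (nat_lit 6) (nat_lit 624) (nat_lit 1) (nat_lit 277) (nat_lit 249) (nat_lit 254)))) (PT.nd (nat_lit 156) (PT.nd (nat_lit 78) (PT.lf (nat_lit 45980) (nat_lit 6) (nat_lit 605) (nat_lit 1) (nat_lit 278) (nat_lit 249) (nat_lit 253)) (PT.lf (nat_lit 44460) (nat_lit 6) (nat_lit 585) (nat_lit 1) (nat_lit 279) (nat_lit 249) (nat_lit 252))) (PT.nd (nat_lit 78) (PT.lf (nat_lit 42864) (nat_lit 6) (nat_lit 564) (nat_lit 1) (nat_lit 280) (nat_lit 249) (nat_lit 251)) (PT.nd (nat_lit 78) (PT.lf (nat_lit 41192) (nat_lit 6) (nat_lit 542) (nat_lit 1) (nat_lit 281) (nat_lit 249) (nat_lit 250)) (PT.lf (nat_lit 39444) (nat_lit 3) (nat_lit 519) (nat_lit 0) (nat_lit 282) (nat_lit 249) (nat_lit 249))))))))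
noncomputable def pc38 : PT := (PT.nd (nat_lit 79482) (PT.nd (nat_lit 78780) (PT.nd (nat_lit 78468) (PT.nd (nat_lit 78312) (PT.nd (nat_lit 78) (PT.lf (nat_lit 37696) (nat_lit 6) (nat_lit 496) (nat_lit 0) (nat_lit 283) (nat_lit 249) (nat_lit 248)) (PT.lf (nat_lit 35872) (nat_lit 6) (nat_lit 472) (nat_lit 0) (nat_lit 284) (nat_lit 249) (nat_lit 247))) (PT.nd (nat_lit 78) (PT.lf (nat_lit 35948) (nat_lit 6) (nat_lit 473) (nat_lit 5) (nat_lit 246) (nat_lit 250) (nat_lit 284)) (PT.lf (nat_lit 37772) (nat_lit 6) (nat_lit 497) (nat_lit 5) (nat_lit 247) (nat_lit 250) (nat_lit 283)))) (PT.nd (nat_lit 156) (PT.nd (nat_lit 78) (PT.lf (nat_lit 39520) (nat_lit 6) (nat_lit 520) (nat_lit 5) (nat_lit 248) (nat_lit 250) (nat_lit 282)) (PT.lf (nat_lit 41192) (nat_lit 6) (nat_lit 542) (nat_lit 5) (nat_lit 249) (nat_lit 250) (nat_lit 281))) (PT.nd (nat_lit 78) (PT.lf (nat_lit 42788) (nat_lit 3) (nat_lit 563) (nat_lit 3) (nat_lit 250) (nat_lit 250) (nat_lit 280)) (PT.lf (nat_lit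 44384) (nat_lit 6) (nat_lit 584) (nat_lit 3) (nat_lit 251) (nat_lit 250) (nat_lit 279))))) (PT.nd (nat_lit 312) (PT.nd (nat_lit 156) (PT.nd (nat_lit 78) (PT.lf (nat_lit 45904) (nat_lit 6) (nat_lit 604) (nat_lit 3) (nat_lit 252) (nat_lit 250) (nat_lit 278)) (PT.lf (nat_lit 47348) (nat_lit 6) (nat_lit 623) (nat_lit 3) (nat_lit 253) (nat_lit 250) (nat_lit 277))) (PT.nd (nat_lit 78) (PT.lf (nat_lit 48716) (nat_lit 6) (nat_lit 641) (nat_lit 3) (nat_lit 254) (nat_lit 250) (nat_lit 276)) (PT.lf (nat_lit 50008) (nat_lit 6) (nat_lit 658) (nat_lit 3) (nat_lit 255) (nat_lit 250) (nat_lit 275)))) (PT.nd (nat_lit 156) (PT.nd (nat_lit 78) (PT.lf (nat_lit 51224) (nat_lit 6) (nat_lit 674) (nat_lit 3) (nat_lit 256) (nat_lit 250) (nat_lit 274)) (PT.lf (nat_lit 52364) (nat_lit 6) (nat_lit 689) (nat_lit 3) (nat_lit 257) (nat_lit 250) (nat_lit 273))) (PT.nd (nat_lit 78) (PT.lf (nat_lit 53428) (nat_lit 6) (nat_lit 703) (nat_lit 3) (nat_lit 258) (nat_lit 250) (nat_lit 272)) (PT.nd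 (nat_lit 78) (PT.lf (nat_lit 54416) (nat_lit 6) (nat_lit 716) (nat_lit 3) (nat_lit 259) (nat_lit 250) (nat_lit 271)) (PT.lf (nat_lit 55328) (nat_lit 6) (nat_lit 728) (nat_lit 3) (nat_lit 260) (nat_lit 250) (nat_lit 270))))))) (PT.nd (nat_lit 624) (PT.nd (nat_lit 312) (PT.nd (nat_lit 156) (PT.nd (nat_lit 78) (PT.lf (nat_lit 55404) (nat_lit 6) (nat_lit 729) (nat_lit 3) (nat_lit 261) (nat_lit 250) (nat_lit 269)) (PT.lf (nat_lit 55480) (nat_lit 6) (nat_lit 730) (nat_lit 3) (nat_lit 262) (nat_lit 250) (nat_lit 268))) (PT.nd (nat_lit 78) (PT.lf (nat_lit 55556) (nat_lit 6) (nat_lit 731) (nat_lit 3) (nat_lit 263) (nat_lit 250) (nat_lit 267)) (PT.lf (nat_lit 55632) (nat_lit 6) (nat_lit 732) (nat_lit 3) (nat_lit 264) (nat_lit 250) (nat_lit 266)))) (PT.nd (nat_lit 156) (PT.nd (nat_lit 78) (PT.lf (nat_lit 55708) (nat_lit 3) (nat_lit 733) (nat_lit 1) (nat_lit 265) (nat_lit 250) (nat_lit 265)) (PT.lf (nat_lit 55632) (nat_lit 6) (nat_lit 732) (nat_lit 1) (nat_lit 266) (nat_lit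 250) (nat_lit 264))) (PT.nd (nat_lit 78) (PT.lf (nat_lit 55556) (nat_lit 6) (nat_lit 731) (nat_lit 1) (nat_lit 267) (nat_lit 250) (nat_lit 263)) (PT.lf (nat_lit 55480) (nat_lit 6) (nat_lit 730) (nat_lit 1) (nat_lit 268) (nat_lit 250) (nat_lit 262))))) (PT.nd (nat_lit 312) (PT.nd (nat_lit 156) (PT.nd (nat_lit 78) (PT.lf (nat_lit 55404) (nat_lit 6) (nat_lit 729) (nat_lit 1) (nat_lit 269) (nat_lit 250) (nat_lit 261)) (PT.lf (nat_lit 55328) (nat_lit 6) (nat_lit 728) (nat_lit 1) (nat_lit 270) (nat_lit 250) (nat_lit 260))) (PT.nd (nat_lit 78) (PT.lf (nat_lit 54416) (nat_lit 6) (nat_lit 716) (nat_lit 1) (nat_lit 271) (nat_lit 250) (nat_lit 259)) (PT.lf (nat_lit 53428) (nat_lit 6) (nat_lit 703) (nat_lit 1) (nat_lit 272) (nat_lit 250) (nat_lit 258)))) (PT.nd (nat_lit 156) (PT.nd (nat_lit 78) (PT.lf (nat_lit 52364) (nat_lit 6) (nat_lit 689) (nat_lit 1) (nat_lit 273) (nat_lit 250) (nat_lit 257)) (PT.lf (nat_lit 51224) (nat_lit 6) (nat_lit 674) (nat_lit 1) (nat_lit 274)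 (nat_lit 250) (nat_lit 256))) (PT.nd (nat_lit 78) (PT.lf (nat_lit 50008) (nat_lit 6) (nat_lit 658) (nat_lit 1) (nat_lit 275) (nat_lit 250) (nat_lit 255)) (PT.nd (nat_lit 78) (PT.lf (nat_lit 48716) (nat_lit 6) (nat_lit 641) (nat_lit 1) (nat_lit 276) (nat_lit 250) (nat_lit 254)) (PT.lf (nat_lit 47348) (nat_lit 6) (nat_lit 623) (nat_lit 1) (nat_lit 277) (nat_lit 250) (nat_lit 253))))))))
noncomputable def pc39 : PT := (PT.nd (nat_lit 79404) (PT.nd (nat_lit 78702) (PT.nd (nat_lit 312) (PT.nd (nat_lit 156) (PT.nd (nat_lit 78) (PT.lf (nat_lit 45904) (nat_lit 6) (nat_lit 604) (nat_lit 1) (nat_lit 278) (nat_lit 250) (nat_lit 252)) (PT.lf (nat_lit 44384) (nat_lit 6) (nat_lit 584) (nat_lit 1) (nat_lit 279) (nat_lit 250) (nat_lit 251))) (PT.nd (nat_lit 78) (PT.lf (nat_lit 42788) (nat_lit 3) (nat_lit 563) (nat_lit 0) (nat_lit 280) (nat_lit 250) (nat_lit 250)) (PT.lf (nat_lit 41192) (nat_lit 6) (nat_lit 542) (nat_lit 0) (nat_lit 281) (nat_lit 250) (nat_lit 249)))) (PT.nd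 (nat_lit 156) (PT.nd (nat_lit 78) (PT.lf (nat_lit 39520) (nat_lit 6) (nat_lit 520) (nat_lit 0) (nat_lit 282) (nat_lit 250) (nat_lit 248)) (PT.lf (nat_lit 37772) (nat_lit 6) (nat_lit 497) (nat_lit 0) (nat_lit 283) (nat_lit 250) (nat_lit 247))) (PT.nd (nat_lit 78156) (PT.lf (nat_lit 35948) (nat_lit 6) (nat_lit 473) (nat_lit 0) (nat_lit 284) (nat_lit 250) (nat_lit 246)) (PT.lf (nat_lit 36024) (nat_lit 6) (nat_lit 474) (nat_lit 5) (nat_lit 245) (nat_lit 251) (nat_lit 284))))) (PT.nd (nat_lit 312) (PT.nd (nat_lit 156) (PT.nd (nat_lit 78) (PT.lf (nat_lit 37848) (nat_lit 6) (nat_lit 498) (nat_lit 5) (nat_lit 246) (nat_lit 251) (nat_lit 283)) (PT.lf (nat_lit 39596) (nat_lit 6) (nat_lit 521) (nat_lit 5) (nat_lit 247) (nat_lit 251) (nat_lit 282))) (PT.nd (nat_lit 78) (PT.lf (nat_lit 41268) (nat_lit 6) (nat_lit 543) (nat_lit 5) (nat_lit 248) (nat_lit 251) (nat_lit 281)) (PT.lf (nat_lit 42864) (nat_lit 6) (nat_lit 564) (nat_lit 5) (nat_lit 249) (nat_lit 251) (nat_lit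 280)))) (PT.nd (nat_lit 156) (PT.nd (nat_lit 78) (PT.lf (nat_lit 44384) (nat_lit 6) (nat_lit 584) (nat_lit 5) (nat_lit 250) (nat_lit 251) (nat_lit 279)) (PT.lf (nat_lit 45828) (nat_lit 3) (nat_lit 603) (nat_lit 3) (nat_lit 251) (nat_lit 251) (nat_lit 278))) (PT.nd (nat_lit 78) (PT.lf (nat_lit 47272) (nat_lit 6) (nat_lit 622) (nat_lit 3) (nat_lit 252) (nat_lit 251) (nat_lit 277)) (PT.nd (nat_lit 78) (PT.lf (nat_lit 48640) (nat_lit 6) (nat_lit 640) (nat_lit 3) (nat_lit 253) (nat_lit 251) (nat_lit 276)) (PT.lf (nat_lit 49932) (nat_lit 6) (nat_lit 657) (nat_lit 3) (nat_lit 254) (nat_lit 251) (nat_lit 275))))))) (PT.nd (nat_lit 702) (PT.nd (nat_lit 312) (PT.nd (nat_lit 156) (PT.nd (nat_lit 78) (PT.lf (nat_lit 51148) (nat_lit 6) (nat_lit 673) (nat_lit 3) (nat_lit 255) (nat_lit 251) (nat_lit 274)) (PT.lf (nat_lit 52288) (nat_lit 6) (nat_lit 688) (nat_lit 3) (nat_lit 256) (nat_lit 251) (nat_lit 273))) (PT.nd (nat_lit 78) (PT.lf (nat_lit 53352) (nat_lit 6) (nat_lit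 702) (nat_lit 3) (nat_lit 257) (nat_lit 251) (nat_lit 272)) (PT.lf (nat_lit 54340) (nat_lit 6) (nat_lit 715) (nat_lit 3) (nat_lit 258) (nat_lit 251) (nat_lit 271)))) (PT.nd (nat_lit 156) (PT.nd (nat_lit 78) (PT.lf (nat_lit 55252) (nat_lit 6) (nat_lit 727) (nat_lit 3) (nat_lit 259) (nat_lit 251) (nat_lit 270)) (PT.lf (nat_lit 56088) (nat_lit 6) (nat_lit 738) (nat_lit 3) (nat_lit 260) (nat_lit 251) (nat_lit 269))) (PT.nd (nat_lit 78) (PT.lf (nat_lit 56164) (nat_lit 6) (nat_lit 739) (nat_lit 3) (nat_lit 261) (nat_lit 251) (nat_lit 268)) (PT.nd (nat_lit 78) (PT.lf (nat_lit 56240) (nat_lit 6) (nat_lit 740) (nat_lit 3) (nat_lit 262) (nat_lit 251) (nat_lit 267)) (PT.lf (nat_lit 56316) (nat_lit 6) (nat_lit 741) (nat_lit 3) (nat_lit 263) (nat_lit 251) (nat_lit 266)))))) (PT.nd (nat_lit 312) (PT.nd (nat_lit 156) (PT.nd (nat_lit 78) (PT.lf (nat_lit 56392) (nat_lit 6) (nat_lit 742) (nat_lit 3) (nat_lit 264) (nat_lit 251) (nat_lit 265)) (PT.lf (nat_lit 56392) (nat_lit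 6) (nat_lit 742) (nat_lit 1) (nat_lit 265) (nat_lit 251) (nat_lit 264))) (PT.nd (nat_lit 78) (PT.lf (nat_lit 56316) (nat_lit 6) (nat_lit 741) (nat_lit 1) (nat_lit 266) (nat_lit 251) (nat_lit 263)) (PT.lf (nat_lit 56240) (nat_lit 6) (nat_lit 740) (nat_lit 1) (nat_lit 267) (nat_lit 251) (nat_lit 262)))) (PT.nd (nat_lit 156) (PT.nd (nat_lit 78) (PT.lf (nat_lit 56164) (nat_lit 6) (nat_lit 739) (nat_lit 1) (nat_lit 268) (nat_lit 251) (nat_lit 261)) (PT.lf (nat_lit 56088) (nat_lit 6) (nat_lit 738) (nat_lit 1) (nat_lit 269) (nat_lit 251) (nat_lit 260))) (PT.nd (nat_lit 78) (PT.lf (nat_lit 55252) (nat_lit 6) (nat_lit 727) (nat_lit 1) (nat_lit 270) (nat_lit 251) (nat_lit 259)) (PT.nd (nat_lit 78) (PT.lf (nat_lit 54340) (nat_lit 6) (nat_lit 715) (nat_lit 1) (nat_lit 271) (nat_lit 251) (nat_lit 258)) (PT.lf (nat_lit 53352) (nat_lit 6) (nat_lit 702) (nat_lit 1) (nat_lit 272) (nat_lit 251) (nat_lit 257))))))))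
noncomputable def pc40 : PT := (PT.nd (nat_lit 79326) (PT.nd (nat_lit 624) (PT.nd (nat_lit 312) (PT.nd (nat_lit 156) (PT.nd (nat_lit 78) (PT.lf (nat_lit 52288) (nat_lit 6) (nat_lit 688) (nat_lit 1) (nat_lit 273) (nat_lit 251) (nat_lit 256)) (PT.lf (nat_lit 51148) (nat_lit 6) (nat_lit 673) (nat_lit 1) (nat_lit 274) (nat_lit 251) (nat_lit 255))) (PT.nd (nat_lit 78) (PT.lf (nat_lit 49932) (nat_lit 6) (nat_lit 657) (nat_lit 1) (nat_lit 275) (nat_lit 251) (nat_lit 254)) (PT.lf (nat_lit 48640) (nat_lit 6) (nat_lit 640) (nat_lit 1) (nat_lit 276) (nat_lit 251) (nat_lit 253)))) (PT.nd (nat_lit 156) (PT.nd (nat_lit 78) (PT.lf (nat_lit 47272) (nat_lit 6) (nat_lit 622) (nat_lit 1) (nat_lit 277) (nat_lit 251) (nat_lit 252)) (PT.lf (nat_lit 45828) (nat_lit 3) (nat_lit 603) (nat_lit 0) (nat_lit 278) (nat_lit 251) (nat_lit 251))) (PT.nd (nat_lit 78) (PT.lf (nat_lit 44384) (nat_lit 6) (nat_lit 584) (nat_lit 0) (nat_lit 279) (nat_lit 251) (nat_lit 250)) (PT.lf (nat_lit 42864)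 (nat_lit 6) (nat_lit 564) (nat_lit 0) (nat_lit 280) (nat_lit 251) (nat_lit 249))))) (PT.nd (nat_lit 78312) (PT.nd (nat_lit 156) (PT.nd (nat_lit 78) (PT.lf (nat_lit 41268) (nat_lit 6) (nat_lit 543) (nat_lit 0) (nat_lit 281) (nat_lit 251) (nat_lit 248)) (PT.lf (nat_lit 39596) (nat_lit 6) (nat_lit 521) (nat_lit 0) (nat_lit 282) (nat_lit 251) (nat_lit 247))) (PT.nd (nat_lit 78) (PT.lf (nat_lit 37848) (nat_lit 6) (nat_lit 498) (nat_lit 0) (nat_lit 283) (nat_lit 251) (nat_lit 246)) (PT.lf (nat_lit 36024) (nat_lit 6) (nat_lit 474) (nat_lit 0) (nat_lit 284) (nat_lit 251) (nat_lit 245)))) (PT.nd (nat_lit 156) (PT.nd (nat_lit 78) (PT.lf (nat_lit 36100) (nat_lit 6) (nat_lit 475) (nat_lit 5) (nat_lit 244) (nat_lit 252) (nat_lit 284)) (PT.lf (nat_lit 37924) (nat_lit 6) (nat_lit 499) (nat_lit 5) (nat_lit 245) (nat_lit 252) (nat_lit 283))) (PT.nd (nat_lit 78) (PT.lf (nat_lit 39672) (nat_lit 6) (nat_lit 522) (nat_lit 5) (nat_lit 246) (nat_lit 252) (nat_lit 282)) (PT.nd (nat_lit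 78) (PT.lf (nat_lit 41344) (nat_lit 6) (nat_lit 544) (nat_lit 5) (nat_lit 247) (nat_lit 252) (nat_lit 281)) (PT.lf (nat_lit 42940) (nat_lit 6) (nat_lit 565) (nat_lit 5) (nat_lit 248) (nat_lit 252) (nat_lit 280))))))) (PT.nd (nat_lit 624) (PT.nd (nat_lit 312) (PT.nd (nat_lit 156) (PT.nd (nat_lit 78) (PT.lf (nat_lit 44460) (nat_lit 6) (nat_lit 585) (nat_lit 5) (nat_lit 249) (nat_lit 252) (nat_lit 279)) (PT.lf (nat_lit 45904) (nat_lit 6) (nat_lit 604) (nat_lit 5) (nat_lit 250) (nat_lit 252) (nat_lit 278))) (PT.nd (nat_lit 78) (PT.lf (nat_lit 47272) (nat_lit 6) (nat_lit 622) (nat_lit 5) (nat_lit 251) (nat_lit 252) (nat_lit 277)) (PT.lf (nat_lit 48564) (nat_lit 3) (nat_lit 639) (nat_lit 3) (nat_lit 252) (nat_lit 252) (nat_lit 276)))) (PT.nd (nat_lit 156) (PT.nd (nat_lit 78) (PT.lf (nat_lit 49856) (nat_lit 6) (nat_lit 656) (nat_lit 3) (nat_lit 253) (nat_lit 252) (nat_lit 275)) (PT.lf (nat_lit 51072) (nat_lit 6) (nat_lit 672) (nat_lit 3) (nat_lit 254) (nat_lit 252)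 (nat_lit 274))) (PT.nd (nat_lit 78) (PT.lf (nat_lit 52212) (nat_lit 6) (nat_lit 687) (nat_lit 3) (nat_lit 255) (nat_lit 252) (nat_lit 273)) (PT.lf (nat_lit 53276) (nat_lit 6) (nat_lit 701) (nat_lit 3) (nat_lit 256) (nat_lit 252) (nat_lit 272))))) (PT.nd (nat_lit 312) (PT.nd (nat_lit 156) (PT.nd (nat_lit 78) (PT.lf (nat_lit 54264) (nat_lit 6) (nat_lit 714) (nat_lit 3) (nat_lit 257) (nat_lit 252) (nat_lit 271)) (PT.lf (nat_lit 55176) (nat_lit 6) (nat_lit 726) (nat_lit 3) (nat_lit 258) (nat_lit 252) (nat_lit 270))) (PT.nd (nat_lit 78) (PT.lf (nat_lit 56012) (nat_lit 6) (nat_lit 737) (nat_lit 3) (nat_lit 259) (nat_lit 252) (nat_lit 269)) (PT.lf (nat_lit 56772) (nat_lit 6) (nat_lit 747) (nat_lit 3) (nat_lit 260) (nat_lit 252) (nat_lit 268)))) (PT.nd (nat_lit 156) (PT.nd (nat_lit 78) (PT.lf (nat_lit 56848) (nat_lit 6) (nat_lit 748) (nat_lit 3) (nat_lit 261) (nat_lit 252) (nat_lit 267)) (PT.lf (nat_lit 56924) (nat_lit 6) (nat_lit 749) (nat_lit 3) (nat_lit 262) (nat_lit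 252) (nat_lit 266))) (PT.nd (nat_lit 78) (PT.lf (nat_lit 57000) (nat_lit 6) (nat_lit 750) (nat_lit 3) (nat_lit 263) (nat_lit 252) (nat_lit 265)) (PT.nd (nat_lit 78) (PT.lf (nat_lit 57076) (nat_lit 3) (nat_lit 751) (nat_lit 1) (nat_lit 264) (nat_lit 252) (nat_lit 264)) (PT.lf (nat_lit 57000) (nat_lit 6) (nat_lit 750) (nat_lit 1) (nat_lit 265) (nat_lit 252) (nat_lit 263))))))))
noncomputable def pc41 : PT := (PT.nd (nat_lit 1326) (PT.nd (nat_lit 624) (PT.nd (nat_lit 312) (PT.nd (nat_lit 156) (PT.nd (nat_lit 78) (PT.lf (nat_lit 56924) (nat_lit 6) (nat_lit 749) (nat_lit 1) (nat_lit 266) (nat_lit 252) (nat_lit 262)) (PT.lf (nat_lit 56848) (nat_lit 6) (nat_lit 748) (nat_lit 1) (nat_lit 267) (nat_lit 252) (nat_lit 261))) (PT.nd (nat_lit 78) (PT.lf (nat_lit 56772) (nat_lit 6) (nat_lit 747) (nat_lit 1) (nat_lit 268) (nat_lit 252) (nat_lit 260)) (PT.lf (nat_lit 56012) (nat_lit 6) (nat_lit 737) (nat_lit 1) (nat_lit 269) (nat_lit 252) (nat_lit 259)))) (PT.nd (nat_lit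 156) (PT.nd (nat_lit 78) (PT.lf (nat_lit 55176) (nat_lit 6) (nat_lit 726) (nat_lit 1) (nat_lit 270) (nat_lit 252) (nat_lit 258)) (PT.lf (nat_lit 54264) (nat_lit 6) (nat_lit 714) (nat_lit 1) (nat_lit 271) (nat_lit 252) (nat_lit 257))) (PT.nd (nat_lit 78) (PT.lf (nat_lit 53276) (nat_lit 6) (nat_lit 701) (nat_lit 1) (nat_lit 272) (nat_lit 252) (nat_lit 256)) (PT.lf (nat_lit 52212) (nat_lit 6) (nat_lit 687) (nat_lit 1) (nat_lit 273) (nat_lit 252) (nat_lit 255))))) (PT.nd (nat_lit 312) (PT.nd (nat_lit 156) (PT.nd (nat_lit 78) (PT.lf (nat_lit 51072) (nat_lit 6) (nat_lit 672) (nat_lit 1) (nat_lit 274) (nat_lit 252) (nat_lit 254)) (PT.lf (nat_lit 49856) (nat_lit 6) (nat_lit 656) (nat_lit 1) (nat_lit 275) (nat_lit 252) (nat_lit 253))) (PT.nd (nat_lit 78) (PT.lf (nat_lit 48564) (nat_lit 3) (nat_lit 639) (nat_lit 0) (nat_lit 276) (nat_lit 252) (nat_lit 252)) (PT.lf (nat_lit 47272) (nat_lit 6) (nat_lit 622) (nat_lit 0) (nat_lit 277) (nat_lit 252) (nat_lit 251)))) (PT.nd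 (nat_lit 156) (PT.nd (nat_lit 78) (PT.lf (nat_lit 45904) (nat_lit 6) (nat_lit 604) (nat_lit 0) (nat_lit 278) (nat_lit 252) (nat_lit 250)) (PT.lf (nat_lit 44460) (nat_lit 6) (nat_lit 585) (nat_lit 0) (nat_lit 279) (nat_lit 252) (nat_lit 249))) (PT.nd (nat_lit 78) (PT.lf (nat_lit 42940) (nat_lit 6) (nat_lit 565) (nat_lit 0) (nat_lit 280) (nat_lit 252) (nat_lit 248)) (PT.nd (nat_lit 78) (PT.lf (nat_lit 41344) (nat_lit 6) (nat_lit 544) (nat_lit 0) (nat_lit 281) (nat_lit 252) (nat_lit 247)) (PT.lf (nat_lit 39672) (nat_lit 6) (nat_lit 522) (nat_lit 0) (nat_lit 282) (nat_lit 252) (nat_lit 246))))))) (PT.nd (nat_lit 78546) (PT.nd (nat_lit 78234) (PT.nd (nat_lit 78078) (PT.nd (nat_lit 78) (PT.lf (nat_lit 37924) (nat_lit 6) (nat_lit 499) (nat_lit 0) (nat_lit 283) (nat_lit 252) (nat_lit 245)) (PT.lf (nat_lit 36100) (nat_lit 6) (nat_lit 475) (nat_lit 0) (nat_lit 284) (nat_lit 252) (nat_lit 244))) (PT.nd (nat_lit 78) (PT.lf (nat_lit 36176) (nat_lit 6) (nat_lit 476) (nat_lit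 5) (nat_lit 243) (nat_lit 253) (nat_lit 284)) (PT.lf (nat_lit 38000) (nat_lit 6) (nat_lit 500) (nat_lit 5) (nat_lit 244) (nat_lit 253) (nat_lit 283)))) (PT.nd (nat_lit 156) (PT.nd (nat_lit 78) (PT.lf (nat_lit 39748) (nat_lit 6) (nat_lit 523) (nat_lit 5) (nat_lit 245) (nat_lit 253) (nat_lit 282)) (PT.lf (nat_lit 41420) (nat_lit 6) (nat_lit 545) (nat_lit 5) (nat_lit 246) (nat_lit 253) (nat_lit 281))) (PT.nd (nat_lit 78) (PT.lf (nat_lit 43016) (nat_lit 6) (nat_lit 566) (nat_lit 5) (nat_lit 247) (nat_lit 253) (nat_lit 280)) (PT.lf (nat_lit 44536) (nat_lit 6) (nat_lit 586) (nat_lit 5) (nat_lit 248) (nat_lit 253) (nat_lit 279))))) (PT.nd (nat_lit 312) (PT.nd (nat_lit 156) (PT.nd (nat_lit 78) (PT.lf (nat_lit 45980) (nat_lit 6) (nat_lit 605) (nat_lit 5) (nat_lit 249) (nat_lit 253) (nat_lit 278)) (PT.lf (nat_lit 47348) (nat_lit 6) (nat_lit 623) (nat_lit 5) (nat_lit 250) (nat_lit 253) (nat_lit 277))) (PT.nd (nat_lit 78) (PT.lf (nat_lit 48640) (nat_lit 6) (nat_lit 640)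 (nat_lit 5) (nat_lit 251) (nat_lit 253) (nat_lit 276)) (PT.lf (nat_lit 49856) (nat_lit 6) (nat_lit 656) (nat_lit 5) (nat_lit 252) (nat_lit 253) (nat_lit 275)))) (PT.nd (nat_lit 156) (PT.nd (nat_lit 78) (PT.lf (nat_lit 50996) (nat_lit 3) (nat_lit 671) (nat_lit 3) (nat_lit 253) (nat_lit 253) (nat_lit 274)) (PT.lf (nat_lit 52136) (nat_lit 6) (nat_lit 686) (nat_lit 3) (nat_lit 254) (nat_lit 253) (nat_lit 273))) (PT.nd (nat_lit 78) (PT.lf (nat_lit 53200) (nat_lit 6) (nat_lit 700) (nat_lit 3) (nat_lit 255) (nat_lit 253) (nat_lit 272)) (PT.nd (nat_lit 78) (PT.lf (nat_lit 54188) (nat_lit 6) (nat_lit 713) (nat_lit 3) (nat_lit 256) (nat_lit 253) (nat_lit 271)) (PT.lf (nat_lit 55100) (nat_lit 6) (nat_lit 725) (nat_lit 3) (nat_lit 257) (nat_lit 253) (nat_lit 270))))))))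
noncomputable def pc42 : PT := (PT.nd (nat_lit 1326) (PT.nd (nat_lit 624) (PT.nd (nat_lit 312) (PT.nd (nat_lit 156) (PT.nd (nat_lit 78) (PT.lf (nat_lit 55936) (nat_lit 6) (nat_lit 736) (nat_lit 3) (nat_lit 258) (nat_lit 253) (nat_lit 269)) (PT.lf (nat_lit 56696) (nat_lit 6) (nat_lit 746) (nat_lit 3) (nat_lit 259) (nat_lit 253) (nat_lit 268))) (PT.nd (nat_lit 78) (PT.lf (nat_lit 57380) (nat_lit 6) (nat_lit 755) (nat_lit 3) (nat_lit 260) (nat_lit 253) (nat_lit 267)) (PT.lf (nat_lit 57456) (nat_lit 6) (nat_lit 756) (nat_lit 3) (nat_lit 261) (nat_lit 253) (nat_lit 266)))) (PT.nd (nat_lit 156) (PT.nd (nat_lit 78) (PT.lf (nat_lit 57532) (nat_lit 6) (nat_lit 757) (nat_lit 3) (nat_lit 262) (nat_lit 253) (nat_lit 265)) (PT.lf (nat_lit 57608) (nat_lit 6) (nat_lit 758) (nat_lit 3) (nat_lit 263) (nat_lit 253) (nat_lit 264))) (PT.nd (nat_lit 78) (PT.lf (nat_lit 57608) (nat_lit 6) (nat_lit 758) (nat_lit 1) (nat_lit 264) (nat_lit 253) (nat_lit 263)) (PT.lf (nat_lit 57532)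 (nat_lit 6) (nat_lit 757) (nat_lit 1) (nat_lit 265) (nat_lit 253) (nat_lit 262))))) (PT.nd (nat_lit 312) (PT.nd (nat_lit 156) (PT.nd (nat_lit 78) (PT.lf (nat_lit 57456) (nat_lit 6) (nat_lit 756) (nat_lit 1) (nat_lit 266) (nat_lit 253) (nat_lit 261)) (PT.lf (nat_lit 57380) (nat_lit 6) (nat_lit 755) (nat_lit 1) (nat_lit 267) (nat_lit 253) (nat_lit 260))) (PT.nd (nat_lit 78) (PT.lf (nat_lit 56696) (nat_lit 6) (nat_lit 746) (nat_lit 1) (nat_lit 268) (nat_lit 253) (nat_lit 259)) (PT.lf (nat_lit 55936) (nat_lit 6) (nat_lit 736) (nat_lit 1) (nat_lit 269) (nat_lit 253) (nat_lit 258)))) (PT.nd (nat_lit 156) (PT.nd (nat_lit 78) (PT.lf (nat_lit 55100) (nat_lit 6) (nat_lit 725) (nat_lit 1) (nat_lit 270) (nat_lit 253) (nat_lit 257)) (PT.lf (nat_lit 54188) (nat_lit 6) (nat_lit 713) (nat_lit 1) (nat_lit 271) (nat_lit 253) (nat_lit 256))) (PT.nd (nat_lit 78) (PT.lf (nat_lit 53200) (nat_lit 6) (nat_lit 700) (nat_lit 1) (nat_lit 272) (nat_lit 253) (nat_lit 255)) (PT.nd (nat_lit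 78) (PT.lf (nat_lit 52136) (nat_lit 6) (nat_lit 686) (nat_lit 1) (nat_lit 273) (nat_lit 253) (nat_lit 254)) (PT.lf (nat_lit 50996) (nat_lit 3) (nat_lit 671) (nat_lit 0) (nat_lit 274) (nat_lit 253) (nat_lit 253))))))) (PT.nd (nat_lit 624) (PT.nd (nat_lit 312) (PT.nd (nat_lit 156) (PT.nd (nat_lit 78) (PT.lf (nat_lit 49856) (nat_lit 6) (nat_lit 656) (nat_lit 0) (nat_lit 275) (nat_lit 253) (nat_lit 252)) (PT.lf (nat_lit 48640) (nat_lit 6) (nat_lit 640) (nat_lit 0) (nat_lit 276) (nat_lit 253) (nat_lit 251))) (PT.nd (nat_lit 78) (PT.lf (nat_lit 47348) (nat_lit 6) (nat_lit 623) (nat_lit 0) (nat_lit 277) (nat_lit 253) (nat_lit 250)) (PT.lf (nat_lit 45980) (nat_lit 6) (nat_lit 605) (nat_lit 0) (nat_lit 278) (nat_lit 253) (nat_lit 249)))) (PT.nd (nat_lit 156) (PT.nd (nat_lit 78) (PT.lf (nat_lit 44536) (nat_lit 6) (nat_lit 586) (nat_lit 0) (nat_lit 279) (nat_lit 253) (nat_lit 248)) (PT.lf (nat_lit 43016) (nat_lit 6) (nat_lit 566) (nat_lit 0) (nat_lit 280) (nat_lit 253)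 (nat_lit 247))) (PT.nd (nat_lit 78) (PT.lf (nat_lit 41420) (nat_lit 6) (nat_lit 545) (nat_lit 0) (nat_lit 281) (nat_lit 253) (nat_lit 246)) (PT.lf (nat_lit 39748) (nat_lit 6) (nat_lit 523) (nat_lit 0) (nat_lit 282) (nat_lit 253) (nat_lit 245))))) (PT.nd (nat_lit 78156) (PT.nd (nat_lit 78000) (PT.nd (nat_lit 78) (PT.lf (nat_lit 38000) (nat_lit 6) (nat_lit 500) (nat_lit 0) (nat_lit 283) (nat_lit 253) (nat_lit 244)) (PT.lf (nat_lit 36176) (nat_lit 6) (nat_lit 476) (nat_lit 0) (nat_lit 284) (nat_lit 253) (nat_lit 243))) (PT.nd (nat_lit 78) (PT.lf (nat_lit 36252) (nat_lit 6) (nat_lit 477) (nat_lit 5) (nat_lit 242) (nat_lit 254) (nat_lit 284)) (PT.lf (nat_lit 38076) (nat_lit 6) (nat_lit 501) (nat_lit 5) (nat_lit 243) (nat_lit 254) (nat_lit 283)))) (PT.nd (nat_lit 156) (PT.nd (nat_lit 78) (PT.lf (nat_lit 39824) (nat_lit 6) (nat_lit 524) (nat_lit 5) (nat_lit 244) (nat_lit 254) (nat_lit 282)) (PT.lf (nat_lit 41496) (nat_lit 6) (nat_lit 546) (nat_lit 5) (nat_lit 245)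 (nat_lit 254) (nat_lit 281))) (PT.nd (nat_lit 78) (PT.lf (nat_lit 43092) (nat_lit 6) (nat_lit 567) (nat_lit 5) (nat_lit 246) (nat_lit 254) (nat_lit 280)) (PT.nd (nat_lit 78) (PT.lf (nat_lit 44612) (nat_lit 6) (nat_lit 587) (nat_lit 5) (nat_lit 247) (nat_lit 254) (nat_lit 279)) (PT.lf (nat_lit 46056) (nat_lit 6) (nat_lit 606) (nat_lit 5) (nat_lit 248) (nat_lit 254) (nat_lit 278))))))))
noncomputable def pc43 : PT := (PT.nd (nat_lit 1326) (PT.nd (nat_lit 624) (PT.nd (nat_lit 312) (PT.nd (nat_lit 156) (PT.nd (nat_lit 78) (PT.lf (nat_lit 47424) (nat_lit 6) (nat_lit 624) (nat_lit 5) (nat_lit 249) (nat_lit 254) (nat_lit 277)) (PT.lf (nat_lit 48716) (nat_lit 6) (nat_lit 641) (nat_lit 5) (nat_lit 250) (nat_lit 254) (nat_lit 276))) (PT.nd (nat_lit 78) (PT.lf (nat_lit 49932) (nat_lit 6) (nat_lit 657) (nat_lit 5) (nat_lit 251) (nat_lit 254) (nat_lit 275)) (PT.lf (nat_lit 51072) (nat_lit 6) (nat_lit 672) (nat_lit 5) (nat_lit 252) (nat_lit 254) (nat_lit 274)))) (PT.nd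 (nat_lit 156) (PT.nd (nat_lit 78) (PT.lf (nat_lit 52136) (nat_lit 6) (nat_lit 686) (nat_lit 5) (nat_lit 253) (nat_lit 254) (nat_lit 273)) (PT.lf (nat_lit 53124) (nat_lit 3) (nat_lit 699) (nat_lit 3) (nat_lit 254) (nat_lit 254) (nat_lit 272))) (PT.nd (nat_lit 78) (PT.lf (nat_lit 54112) (nat_lit 6) (nat_lit 712) (nat_lit 3) (nat_lit 255) (nat_lit 254) (nat_lit 271)) (PT.lf (nat_lit 55024) (nat_lit 6) (nat_lit 724) (nat_lit 3) (nat_lit 256) (nat_lit 254) (nat_lit 270))))) (PT.nd (nat_lit 312) (PT.nd (nat_lit 156) (PT.nd (nat_lit 78) (PT.lf (nat_lit 55860) (nat_lit 6) (nat_lit 735) (nat_lit 3) (nat_lit 257) (nat_lit 254) (nat_lit 269)) (PT.lf (nat_lit 56620) (nat_lit 6) (nat_lit 745) (nat_lit 3) (nat_lit 258) (nat_lit 254) (nat_lit 268))) (PT.nd (nat_lit 78) (PT.lf (nat_lit 57304) (nat_lit 6) (nat_lit 754) (nat_lit 3) (nat_lit 259) (nat_lit 254) (nat_lit 267)) (PT.lf (nat_lit 57912) (nat_lit 6) (nat_lit 762) (nat_lit 3) (nat_lit 260) (nat_lit 254) (nat_lit 266))))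 (PT.nd (nat_lit 156) (PT.nd (nat_lit 78) (PT.lf (nat_lit 57988) (nat_lit 6) (nat_lit 763) (nat_lit 3) (nat_lit 261) (nat_lit 254) (nat_lit 265)) (PT.lf (nat_lit 58064) (nat_lit 6) (nat_lit 764) (nat_lit 3) (nat_lit 262) (nat_lit 254) (nat_lit 264))) (PT.nd (nat_lit 78) (PT.lf (nat_lit 58140) (nat_lit 3) (nat_lit 765) (nat_lit 1) (nat_lit 263) (nat_lit 254) (nat_lit 263)) (PT.nd (nat_lit 78) (PT.lf (nat_lit 58064) (nat_lit 6) (nat_lit 764) (nat_lit 1) (nat_lit 264) (nat_lit 254) (nat_lit 262)) (PT.lf (nat_lit 57988) (nat_lit 6) (nat_lit 763) (nat_lit 1) (nat_lit 265) (nat_lit 254) (nat_lit 261))))))) (PT.nd (nat_lit 702) (PT.nd (nat_lit 312) (PT.nd (nat_lit 156) (PT.nd (nat_lit 78) (PT.lf (nat_lit 57912) (nat_lit 6) (nat_lit 762) (nat_lit 1) (nat_lit 266) (nat_lit 254) (nat_lit 260)) (PT.lf (nat_lit 57304) (nat_lit 6) (nat_lit 754) (nat_lit 1) (nat_lit 267) (nat_lit 254) (nat_lit 259))) (PT.nd (nat_lit 78) (PT.lf (nat_lit 56620) (nat_lit 6) (nat_lit 745) (nat_lit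 1) (nat_lit 268) (nat_lit 254) (nat_lit 258)) (PT.lf (nat_lit 55860) (nat_lit 6) (nat_lit 735) (nat_lit 1) (nat_lit 269) (nat_lit 254) (nat_lit 257)))) (PT.nd (nat_lit 156) (PT.nd (nat_lit 78) (PT.lf (nat_lit 55024) (nat_lit 6) (nat_lit 724) (nat_lit 1) (nat_lit 270) (nat_lit 254) (nat_lit 256)) (PT.lf (nat_lit 54112) (nat_lit 6) (nat_lit 712) (nat_lit 1) (nat_lit 271) (nat_lit 254) (nat_lit 255))) (PT.nd (nat_lit 78) (PT.lf (nat_lit 53124) (nat_lit 3) (nat_lit 699) (nat_lit 0) (nat_lit 272) (nat_lit 254) (nat_lit 254)) (PT.nd (nat_lit 78) (PT.lf (nat_lit 52136) (nat_lit 6) (nat_lit 686) (nat_lit 0) (nat_lit 273) (nat_lit 254) (nat_lit 253)) (PT.lf (nat_lit 51072) (nat_lit 6) (nat_lit 672) (nat_lit 0) (nat_lit 274) (nat_lit 254) (nat_lit 252)))))) (PT.nd (nat_lit 312) (PT.nd (nat_lit 156) (PT.nd (nat_lit 78) (PT.lf (nat_lit 49932) (nat_lit 6) (nat_lit 657) (nat_lit 0) (nat_lit 275) (nat_lit 254) (nat_lit 251)) (PT.lf (nat_lit 48716) (nat_lit 6) (nat_lit 641)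 (nat_lit 0) (nat_lit 276) (nat_lit 254) (nat_lit 250))) (PT.nd (nat_lit 78) (PT.lf (nat_lit 47424) (nat_lit 6) (nat_lit 624) (nat_lit 0) (nat_lit 277) (nat_lit 254) (nat_lit 249)) (PT.lf (nat_lit 46056) (nat_lit 6) (nat_lit 606) (nat_lit 0) (nat_lit 278) (nat_lit 254) (nat_lit 248)))) (PT.nd (nat_lit 156) (PT.nd (nat_lit 78) (PT.lf (nat_lit 44612) (nat_lit 6) (nat_lit 587) (nat_lit 0) (nat_lit 279) (nat_lit 254) (nat_lit 247)) (PT.lf (nat_lit 43092) (nat_lit 6) (nat_lit 567) (nat_lit 0) (nat_lit 280) (nat_lit 254) (nat_lit 246))) (PT.nd (nat_lit 78) (PT.lf (nat_lit 41496) (nat_lit 6) (nat_lit 546) (nat_lit 0) (nat_lit 281) (nat_lit 254) (nat_lit 245)) (PT.nd (nat_lit 78) (PT.lf (nat_lit 39824) (nat_lit 6) (nat_lit 524) (nat_lit 0) (nat_lit 282) (nat_lit 254) (nat_lit 244)) (PT.lf (nat_lit 38076) (nat_lit 6) (nat_lit 501) (nat_lit 0) (nat_lit 283) (nat_lit 254) (nat_lit 243))))))))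
noncomputable def pc44 : PT := (PT.nd (nat_lit 79092) (PT.nd (nat_lit 78390) (PT.nd (nat_lit 78078) (PT.nd (nat_lit 77922) (PT.nd (nat_lit 77844) (PT.lf (nat_lit 36252) (nat_lit 6) (nat_lit 477) (nat_lit 0) (nat_lit 284) (nat_lit 254) (nat_lit 242)) (PT.lf (nat_lit 36328) (nat_lit 6) (nat_lit 478) (nat_lit 5) (nat_lit 241) (nat_lit 255) (nat_lit 284))) (PT.nd (nat_lit 78) (PT.lf (nat_lit 38152) (nat_lit 6) (nat_lit 502) (nat_lit 5) (nat_lit 242) (nat_lit 255) (nat_lit 283)) (PT.lf (nat_lit 39900) (nat_lit 6) (nat_lit 525) (nat_lit 5) (nat_lit 243) (nat_lit 255) (nat_lit 282)))) (PT.nd (nat_lit 156) (PT.nd (nat_lit 78) (PT.lf (nat_lit 41572) (nat_lit 6) (nat_lit 547) (nat_lit 5) (nat_lit 244) (nat_lit 255) (nat_lit 281)) (PT.lf (nat_lit 43168) (nat_lit 6) (nat_lit 568) (nat_lit 5) (nat_lit 245) (nat_lit 255) (nat_lit 280))) (PT.nd (nat_lit 78) (PT.lf (nat_lit 44688) (nat_lit 6) (nat_lit 588) (nat_lit 5) (nat_lit 246) (nat_lit 255) (nat_lit 279)) (PT.lf (nat_lit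 46132) (nat_lit 6) (nat_lit 607) (nat_lit 5) (nat_lit 247) (nat_lit 255) (nat_lit 278))))) (PT.nd (nat_lit 312) (PT.nd (nat_lit 156) (PT.nd (nat_lit 78) (PT.lf (nat_lit 47500) (nat_lit 6) (nat_lit 625) (nat_lit 5) (nat_lit 248) (nat_lit 255) (nat_lit 277)) (PT.lf (nat_lit 48792) (nat_lit 6) (nat_lit 642) (nat_lit 5) (nat_lit 249) (nat_lit 255) (nat_lit 276))) (PT.nd (nat_lit 78) (PT.lf (nat_lit 50008) (nat_lit 6) (nat_lit 658) (nat_lit 5) (nat_lit 250) (nat_lit 255) (nat_lit 275)) (PT.lf (nat_lit 51148) (nat_lit 6) (nat_lit 673) (nat_lit 5) (nat_lit 251) (nat_lit 255) (nat_lit 274)))) (PT.nd (nat_lit 156) (PT.nd (nat_lit 78) (PT.lf (nat_lit 52212) (nat_lit 6) (nat_lit 687) (nat_lit 5) (nat_lit 252) (nat_lit 255) (nat_lit 273)) (PT.lf (nat_lit 53200) (nat_lit 6) (nat_lit 700) (nat_lit 5) (nat_lit 253) (nat_lit 255) (nat_lit 272))) (PT.nd (nat_lit 78) (PT.lf (nat_lit 54112) (nat_lit 6) (nat_lit 712) (nat_lit 5) (nat_lit 254) (nat_lit 255) (nat_lit 271)) (PT.nd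 (nat_lit 78) (PT.lf (nat_lit 54948) (nat_lit 3) (nat_lit 723) (nat_lit 3) (nat_lit 255) (nat_lit 255) (nat_lit 270)) (PT.lf (nat_lit 55784) (nat_lit 6) (nat_lit 734) (nat_lit 3) (nat_lit 256) (nat_lit 255) (nat_lit 269))))))) (PT.nd (nat_lit 624) (PT.nd (nat_lit 312) (PT.nd (nat_lit 156) (PT.nd (nat_lit 78) (PT.lf (nat_lit 56544) (nat_lit 6) (nat_lit 744) (nat_lit 3) (nat_lit 257) (nat_lit 255) (nat_lit 268)) (PT.lf (nat_lit 57228) (nat_lit 6) (nat_lit 753) (nat_lit 3) (nat_lit 258) (nat_lit 255) (nat_lit 267))) (PT.nd (nat_lit 78) (PT.lf (nat_lit 57836) (nat_lit 6) (nat_lit 761) (nat_lit 3) (nat_lit 259) (nat_lit 255) (nat_lit 266)) (PT.lf (nat_lit 58368) (nat_lit 6) (nat_lit 768) (nat_lit 3) (nat_lit 260) (nat_lit 255) (nat_lit 265)))) (PT.nd (nat_lit 156) (PT.nd (nat_lit 78) (PT.lf (nat_lit 58444) (nat_lit 6) (nat_lit 769) (nat_lit 3) (nat_lit 261) (nat_lit 255) (nat_lit 264)) (PT.lf (nat_lit 58520) (nat_lit 6) (nat_lit 770) (nat_lit 3) (nat_lit 262) (nat_lit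 255) (nat_lit 263))) (PT.nd (nat_lit 78) (PT.lf (nat_lit 58520) (nat_lit 6) (nat_lit 770) (nat_lit 1) (nat_lit 263) (nat_lit 255) (nat_lit 262)) (PT.lf (nat_lit 58444) (nat_lit 6) (nat_lit 769) (nat_lit 1) (nat_lit 264) (nat_lit 255) (nat_lit 261))))) (PT.nd (nat_lit 312) (PT.nd (nat_lit 156) (PT.nd (nat_lit 78) (PT.lf (nat_lit 58368) (nat_lit 6) (nat_lit 768) (nat_lit 1) (nat_lit 265) (nat_lit 255) (nat_lit 260)) (PT.lf (nat_lit 57836) (nat_lit 6) (nat_lit 761) (nat_lit 1) (nat_lit 266) (nat_lit 255) (nat_lit 259))) (PT.nd (nat_lit 78) (PT.lf (nat_lit 57228) (nat_lit 6) (nat_lit 753) (nat_lit 1) (nat_lit 267) (nat_lit 255) (nat_lit 258)) (PT.lf (nat_lit 56544) (nat_lit 6) (nat_lit 744) (nat_lit 1) (nat_lit 268) (nat_lit 255) (nat_lit 257)))) (PT.nd (nat_lit 156) (PT.nd (nat_lit 78) (PT.lf (nat_lit 55784) (nat_lit 6) (nat_lit 734) (nat_lit 1) (nat_lit 269) (nat_lit 255) (nat_lit 256)) (PT.lf (nat_lit 54948) (nat_lit 3) (nat_lit 723) (nat_lit 0) (nat_lit 270)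 (nat_lit 255) (nat_lit 255))) (PT.nd (nat_lit 78) (PT.lf (nat_lit 54112) (nat_lit 6) (nat_lit 712) (nat_lit 0) (nat_lit 271) (nat_lit 255) (nat_lit 254)) (PT.nd (nat_lit 78) (PT.lf (nat_lit 53200) (nat_lit 6) (nat_lit 700) (nat_lit 0) (nat_lit 272) (nat_lit 255) (nat_lit 253)) (PT.lf (nat_lit 52212) (nat_lit 6) (nat_lit 687) (nat_lit 0) (nat_lit 273) (nat_lit 255) (nat_lit 252))))))))
noncomputable def pc45 : PT := (PT.nd (nat_lit 79014) (PT.nd (nat_lit 624) (PT.nd (nat_lit 312) (PT.nd (nat_lit 156) (PT.nd (nat_lit 78) (PT.lf (nat_lit 51148) (nat_lit 6) (nat_lit 673) (nat_lit 0) (nat_lit 274) (nat_lit 255) (nat_lit 251)) (PT.lf (nat_lit 50008) (nat_lit 6) (nat_lit 658) (nat_lit 0) (nat_lit 275) (nat_lit 255) (nat_lit 250))) (PT.nd (nat_lit 78) (PT.lf (nat_lit 48792) (nat_lit 6) (nat_lit 642) (nat_lit 0) (nat_lit 276) (nat_lit 255) (nat_lit 249)) (PT.lf (nat_lit 47500) (nat_lit 6) (nat_lit 625) (nat_lit 0) (nat_lit 277) (nat_lit 255) (nat_lit 248)))) (PT.nd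 (nat_lit 156) (PT.nd (nat_lit 78) (PT.lf (nat_lit 46132) (nat_lit 6) (nat_lit 607) (nat_lit 0) (nat_lit 278) (nat_lit 255) (nat_lit 247)) (PT.lf (nat_lit 44688) (nat_lit 6) (nat_lit 588) (nat_lit 0) (nat_lit 279) (nat_lit 255) (nat_lit 246))) (PT.nd (nat_lit 78) (PT.lf (nat_lit 43168) (nat_lit 6) (nat_lit 568) (nat_lit 0) (nat_lit 280) (nat_lit 255) (nat_lit 245)) (PT.lf (nat_lit 41572) (nat_lit 6) (nat_lit 547) (nat_lit 0) (nat_lit 281) (nat_lit 255) (nat_lit 244))))) (PT.nd (nat_lit 78000) (PT.nd (nat_lit 156) (PT.nd (nat_lit 78) (PT.lf (nat_lit 39900) (nat_lit 6) (nat_lit 525) (nat_lit 0) (nat_lit 282) (nat_lit 255) (nat_lit 243)) (PT.lf (nat_lit 38152) (nat_lit 6) (nat_lit 502) (nat_lit 0) (nat_lit 283) (nat_lit 255) (nat_lit 242))) (PT.nd (nat_lit 77766) (PT.lf (nat_lit 36328) (nat_lit 6) (nat_lit 478) (nat_lit 0) (nat_lit 284) (nat_lit 255) (nat_lit 241)) (PT.lf (nat_lit 36404) (nat_lit 6) (nat_lit 479) (nat_lit 5) (nat_lit 240) (nat_lit 256) (nat_lit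 284)))) (PT.nd (nat_lit 156) (PT.nd (nat_lit 78) (PT.lf (nat_lit 38228) (nat_lit 6) (nat_lit 503) (nat_lit 5) (nat_lit 241) (nat_lit 256) (nat_lit 283)) (PT.lf (nat_lit 39976) (nat_lit 6) (nat_lit 526) (nat_lit 5) (nat_lit 242) (nat_lit 256) (nat_lit 282))) (PT.nd (nat_lit 78) (PT.lf (nat_lit 41648) (nat_lit 6) (nat_lit 548) (nat_lit 5) (nat_lit 243) (nat_lit 256) (nat_lit 281)) (PT.nd (nat_lit 78) (PT.lf (nat_lit 43244) (nat_lit 6) (nat_lit 569) (nat_lit 5) (nat_lit 244) (nat_lit 256) (nat_lit 280)) (PT.lf (nat_lit 44764) (nat_lit 6) (nat_lit 589) (nat_lit 5) (nat_lit 245) (nat_lit 256) (nat_lit 279))))))) (PT.nd (nat_lit 624) (PT.nd (nat_lit 312) (PT.nd (nat_lit 156) (PT.nd (nat_lit 78) (PT.lf (nat_lit 46208) (nat_lit 6) (nat_lit 608) (nat_lit 5) (nat_lit 246) (nat_lit 256) (nat_lit 278)) (PT.lf (nat_lit 47576) (nat_lit 6) (nat_lit 626) (nat_lit 5) (nat_lit 247) (nat_lit 256) (nat_lit 277))) (PT.nd (nat_lit 78) (PT.lf (nat_lit 48868) (nat_lit 6) (nat_lit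 643) (nat_lit 5) (nat_lit 248) (nat_lit 256) (nat_lit 276)) (PT.lf (nat_lit 50084) (nat_lit 6) (nat_lit 659) (nat_lit 5) (nat_lit 249) (nat_lit 256) (nat_lit 275)))) (PT.nd (nat_lit 156) (PT.nd (nat_lit 78) (PT.lf (nat_lit 51224) (nat_lit 6) (nat_lit 674) (nat_lit 5) (nat_lit 250) (nat_lit 256) (nat_lit 274)) (PT.lf (nat_lit 52288) (nat_lit 6) (nat_lit 688) (nat_lit 5) (nat_lit 251) (nat_lit 256) (nat_lit 273))) (PT.nd (nat_lit 78) (PT.lf (nat_lit 53276) (nat_lit 6) (nat_lit 701) (nat_lit 5) (nat_lit 252) (nat_lit 256) (nat_lit 272)) (PT.lf (nat_lit 54188) (nat_lit 6) (nat_lit 713) (nat_lit 5) (nat_lit 253) (nat_lit 256) (nat_lit 271))))) (PT.nd (nat_lit 312) (PT.nd (nat_lit 156) (PT.nd (nat_lit 78) (PT.lf (nat_lit 55024) (nat_lit 6) (nat_lit 724) (nat_lit 5) (nat_lit 254) (nat_lit 256) (nat_lit 270)) (PT.lf (nat_lit 55784) (nat_lit 6) (nat_lit 734) (nat_lit 5) (nat_lit 255) (nat_lit 256) (nat_lit 269))) (PT.nd (nat_lit 78) (PT.lf (nat_lit 56468) (nat_lit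 3) (nat_lit 743) (nat_lit 3) (nat_lit 256) (nat_lit 256) (nat_lit 268)) (PT.lf (nat_lit 57152) (nat_lit 6) (nat_lit 752) (nat_lit 3) (nat_lit 257) (nat_lit 256) (nat_lit 267)))) (PT.nd (nat_lit 156) (PT.nd (nat_lit 78) (PT.lf (nat_lit 57760) (nat_lit 6) (nat_lit 760) (nat_lit 3) (nat_lit 258) (nat_lit 256) (nat_lit 266)) (PT.lf (nat_lit 58292) (nat_lit 6) (nat_lit 767) (nat_lit 3) (nat_lit 259) (nat_lit 256) (nat_lit 265))) (PT.nd (nat_lit 78) (PT.lf (nat_lit 58748) (nat_lit 6) (nat_lit 773) (nat_lit 3) (nat_lit 260) (nat_lit 256) (nat_lit 264)) (PT.nd (nat_lit 78) (PT.lf (nat_lit 58824) (nat_lit 6) (nat_lit 774) (nat_lit 3) (nat_lit 261) (nat_lit 256) (nat_lit 263)) (PT.lf (nat_lit 58900) (nat_lit 3) (nat_lit 775) (nat_lit 1) (nat_lit 262) (nat_lit 256) (nat_lit 262))))))))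
noncomputable def pc46 : PT := (PT.nd (nat_lit 1326) (PT.nd (nat_lit 624) (PT.nd (nat_lit 312) (PT.nd (nat_lit 156) (PT.nd (nat_lit 78) (PT.lf (nat_lit 58824) (nat_lit 6) (nat_lit 774) (nat_lit 1) (nat_lit 263) (nat_lit 256) (nat_lit 261)) (PT.lf (nat_lit 58748) (nat_lit 6) (nat_lit 773) (nat_lit 1) (nat_lit 264) (nat_lit 256) (nat_lit 260))) (PT.nd (nat_lit 78) (PT.lf (nat_lit 58292) (nat_lit 6) (nat_lit 767) (nat_lit 1) (nat_lit 265) (nat_lit 256) (nat_lit 259)) (PT.lf (nat_lit 57760) (nat_lit 6) (nat_lit 760) (nat_lit 1) (nat_lit 266) (nat_lit 256) (nat_lit 258)))) (PT.nd (nat_lit 156) (PT.nd (nat_lit 78) (PT.lf (nat_lit 57152) (nat_lit 6) (nat_lit 752) (nat_lit 1) (nat_lit 267) (nat_lit 256) (nat_lit 257)) (PT.lf (nat_lit 56468) (nat_lit 3) (nat_lit 743) (nat_lit 0) (nat_lit 268) (nat_lit 256) (nat_lit 256))) (PT.nd (nat_lit 78) (PT.lf (nat_lit 55784) (nat_lit 6) (nat_lit 734) (nat_lit 0) (nat_lit 269) (nat_lit 256) (nat_lit 255)) (PT.lf (nat_lit 55024)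 (nat_lit 6) (nat_lit 724) (nat_lit 0) (nat_lit 270) (nat_lit 256) (nat_lit 254))))) (PT.nd (nat_lit 312) (PT.nd (nat_lit 156) (PT.nd (nat_lit 78) (PT.lf (nat_lit 54188) (nat_lit 6) (nat_lit 713) (nat_lit 0) (nat_lit 271) (nat_lit 256) (nat_lit 253)) (PT.lf (nat_lit 53276) (nat_lit 6) (nat_lit 701) (nat_lit 0) (nat_lit 272) (nat_lit 256) (nat_lit 252))) (PT.nd (nat_lit 78) (PT.lf (nat_lit 52288) (nat_lit 6) (nat_lit 688) (nat_lit 0) (nat_lit 273) (nat_lit 256) (nat_lit 251)) (PT.lf (nat_lit 51224) (nat_lit 6) (nat_lit 674) (nat_lit 0) (nat_lit 274) (nat_lit 256) (nat_lit 250)))) (PT.nd (nat_lit 156) (PT.nd (nat_lit 78) (PT.lf (nat_lit 50084) (nat_lit 6) (nat_lit 659) (nat_lit 0) (nat_lit 275) (nat_lit 256) (nat_lit 249)) (PT.lf (nat_lit 48868) (nat_lit 6) (nat_lit 643) (nat_lit 0) (nat_lit 276) (nat_lit 256) (nat_lit 248))) (PT.nd (nat_lit 78) (PT.lf (nat_lit 47576) (nat_lit 6) (nat_lit 626) (nat_lit 0) (nat_lit 277) (nat_lit 256) (nat_lit 247)) (PT.nd (nat_lit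 78) (PT.lf (nat_lit 46208) (nat_lit 6) (nat_lit 608) (nat_lit 0) (nat_lit 278) (nat_lit 256) (nat_lit 246)) (PT.lf (nat_lit 44764) (nat_lit 6) (nat_lit 589) (nat_lit 0) (nat_lit 279) (nat_lit 256) (nat_lit 245))))))) (PT.nd (nat_lit 78234) (PT.nd (nat_lit 312) (PT.nd (nat_lit 156) (PT.nd (nat_lit 78) (PT.lf (nat_lit 43244) (nat_lit 6) (nat_lit 569) (nat_lit 0) (nat_lit 280) (nat_lit 256) (nat_lit 244)) (PT.lf (nat_lit 41648) (nat_lit 6) (nat_lit 548) (nat_lit 0) (nat_lit 281) (nat_lit 256) (nat_lit 243))) (PT.nd (nat_lit 78) (PT.lf (nat_lit 39976) (nat_lit 6) (nat_lit 526) (nat_lit 0) (nat_lit 282) (nat_lit 256) (nat_lit 242)) (PT.lf (nat_lit 38228) (nat_lit 6) (nat_lit 503) (nat_lit 0) (nat_lit 283) (nat_lit 256) (nat_lit 241)))) (PT.nd (nat_lit 77766) (PT.nd (nat_lit 77688) (PT.lf (nat_lit 36404) (nat_lit 6) (nat_lit 479) (nat_lit 0) (nat_lit 284) (nat_lit 256) (nat_lit 240)) (PT.lf (nat_lit 36480) (nat_lit 6) (nat_lit 480) (nat_lit 5) (nat_lit 239) (nat_lit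 257) (nat_lit 284))) (PT.nd (nat_lit 78) (PT.lf (nat_lit 38304) (nat_lit 6) (nat_lit 504) (nat_lit 5) (nat_lit 240) (nat_lit 257) (nat_lit 283)) (PT.lf (nat_lit 40052) (nat_lit 6) (nat_lit 527) (nat_lit 5) (nat_lit 241) (nat_lit 257) (nat_lit 282))))) (PT.nd (nat_lit 312) (PT.nd (nat_lit 156) (PT.nd (nat_lit 78) (PT.lf (nat_lit 41724) (nat_lit 6) (nat_lit 549) (nat_lit 5) (nat_lit 242) (nat_lit 257) (nat_lit 281)) (PT.lf (nat_lit 43320) (nat_lit 6) (nat_lit 570) (nat_lit 5) (nat_lit 243) (nat_lit 257) (nat_lit 280))) (PT.nd (nat_lit 78) (PT.lf (nat_lit 44840) (nat_lit 6) (nat_lit 590) (nat_lit 5) (nat_lit 244) (nat_lit 257) (nat_lit 279)) (PT.lf (nat_lit 46284) (nat_lit 6) (nat_lit 609) (nat_lit 5) (nat_lit 245) (nat_lit 257) (nat_lit 278)))) (PT.nd (nat_lit 156) (PT.nd (nat_lit 78) (PT.lf (nat_lit 47652) (nat_lit 6) (nat_lit 627) (nat_lit 5) (nat_lit 246) (nat_lit 257) (nat_lit 277)) (PT.lf (nat_lit 48944) (nat_lit 6) (nat_lit 644) (nat_lit 5) (nat_lit 247)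 (nat_lit 257) (nat_lit 276))) (PT.nd (nat_lit 78) (PT.lf (nat_lit 50160) (nat_lit 6) (nat_lit 660) (nat_lit 5) (nat_lit 248) (nat_lit 257) (nat_lit 275)) (PT.nd (nat_lit 78) (PT.lf (nat_lit 51300) (nat_lit 6) (nat_lit 675) (nat_lit 5) (nat_lit 249) (nat_lit 257) (nat_lit 274)) (PT.lf (nat_lit 52364) (nat_lit 6) (nat_lit 689) (nat_lit 5) (nat_lit 250) (nat_lit 257) (nat_lit 273))))))))
noncomputable def pc47 : PT := (PT.nd (nat_lit 1326) (PT.nd (nat_lit 624) (PT.nd (nat_lit 312) (PT.nd (nat_lit 156) (PT.nd (nat_lit 78) (PT.lf (nat_lit 53352) (nat_lit 6) (nat_lit 702) (nat_lit 5) (nat_lit 251) (nat_lit 257) (nat_lit 272)) (PT.lf (nat_lit 54264) (nat_lit 6) (nat_lit 714) (nat_lit 5) (nat_lit 252) (nat_lit 257) (nat_lit 271))) (PT.nd (nat_lit 78) (PT.lf (nat_lit 55100) (nat_lit 6) (nat_lit 725) (nat_lit 5) (nat_lit 253) (nat_lit 257) (nat_lit 270)) (PT.lf (nat_lit 55860) (nat_lit 6) (nat_lit 735) (nat_lit 5) (nat_lit 254) (nat_lit 257) (nat_lit 269)))) (PT.nd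 (nat_lit 156) (PT.nd (nat_lit 78) (PT.lf (nat_lit 56544) (nat_lit 6) (nat_lit 744) (nat_lit 5) (nat_lit 255) (nat_lit 257) (nat_lit 268)) (PT.lf (nat_lit 57152) (nat_lit 6) (nat_lit 752) (nat_lit 5) (nat_lit 256) (nat_lit 257) (nat_lit 267))) (PT.nd (nat_lit 78) (PT.lf (nat_lit 57684) (nat_lit 3) (nat_lit 759) (nat_lit 3) (nat_lit 257) (nat_lit 257) (nat_lit 266)) (PT.lf (nat_lit 58216) (nat_lit 6) (nat_lit 766) (nat_lit 3) (nat_lit 258) (nat_lit 257) (nat_lit 265))))) (PT.nd (nat_lit 312) (PT.nd (nat_lit 156) (PT.nd (nat_lit 78) (PT.lf (nat_lit 58672) (nat_lit 6) (nat_lit 772) (nat_lit 3) (nat_lit 259) (nat_lit 257) (nat_lit 264)) (PT.lf (nat_lit 59052) (nat_lit 6) (nat_lit 777) (nat_lit 3) (nat_lit 260) (nat_lit 257) (nat_lit 263))) (PT.nd (nat_lit 78) (PT.lf (nat_lit 59128) (nat_lit 6) (nat_lit 778) (nat_lit 3) (nat_lit 261) (nat_lit 257) (nat_lit 262)) (PT.lf (nat_lit 59128) (nat_lit 6) (nat_lit 778) (nat_lit 1) (nat_lit 262) (nat_lit 257) (nat_lit 261))))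 (PT.nd (nat_lit 156) (PT.nd (nat_lit 78) (PT.lf (nat_lit 59052) (nat_lit 6) (nat_lit 777) (nat_lit 1) (nat_lit 263) (nat_lit 257) (nat_lit 260)) (PT.lf (nat_lit 58672) (nat_lit 6) (nat_lit 772) (nat_lit 1) (nat_lit 264) (nat_lit 257) (nat_lit 259))) (PT.nd (nat_lit 78) (PT.lf (nat_lit 58216) (nat_lit 6) (nat_lit 766) (nat_lit 1) (nat_lit 265) (nat_lit 257) (nat_lit 258)) (PT.nd (nat_lit 78) (PT.lf (nat_lit 57684) (nat_lit 3) (nat_lit 759) (nat_lit 0) (nat_lit 266) (nat_lit 257) (nat_lit 257)) (PT.lf (nat_lit 57152) (nat_lit 6) (nat_lit 752) (nat_lit 0) (nat_lit 267) (nat_lit 257) (nat_lit 256))))))) (PT.nd (nat_lit 702) (PT.nd (nat_lit 312) (PT.nd (nat_lit 156) (PT.nd (nat_lit 78) (PT.lf (nat_lit 56544) (nat_lit 6) (nat_lit 744) (nat_lit 0) (nat_lit 268) (nat_lit 257) (nat_lit 255)) (PT.lf (nat_lit 55860) (nat_lit 6) (nat_lit 735) (nat_lit 0) (nat_lit 269) (nat_lit 257) (nat_lit 254))) (PT.nd (nat_lit 78) (PT.lf (nat_lit 55100) (nat_lit 6) (nat_lit 725) (nat_lit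 0) (nat_lit 270) (nat_lit 257) (nat_lit 253)) (PT.lf (nat_lit 54264) (nat_lit 6) (nat_lit 714) (nat_lit 0) (nat_lit 271) (nat_lit 257) (nat_lit 252)))) (PT.nd (nat_lit 156) (PT.nd (nat_lit 78) (PT.lf (nat_lit 53352) (nat_lit 6) (nat_lit 702) (nat_lit 0) (nat_lit 272) (nat_lit 257) (nat_lit 251)) (PT.lf (nat_lit 52364) (nat_lit 6) (nat_lit 689) (nat_lit 0) (nat_lit 273) (nat_lit 257) (nat_lit 250))) (PT.nd (nat_lit 78) (PT.lf (nat_lit 51300) (nat_lit 6) (nat_lit 675) (nat_lit 0) (nat_lit 274) (nat_lit 257) (nat_lit 249)) (PT.nd (nat_lit 78) (PT.lf (nat_lit 50160) (nat_lit 6) (nat_lit 660) (nat_lit 0) (nat_lit 275) (nat_lit 257) (nat_lit 248)) (PT.lf (nat_lit 48944) (nat_lit 6) (nat_lit 644) (nat_lit 0) (nat_lit 276) (nat_lit 257) (nat_lit 247)))))) (PT.nd (nat_lit 312) (PT.nd (nat_lit 156) (PT.nd (nat_lit 78) (PT.lf (nat_lit 47652) (nat_lit 6) (nat_lit 627) (nat_lit 0) (nat_lit 277) (nat_lit 257) (nat_lit 246)) (PT.lf (nat_lit 46284) (nat_lit 6) (nat_lit 609)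 (nat_lit 0) (nat_lit 278) (nat_lit 257) (nat_lit 245))) (PT.nd (nat_lit 78) (PT.lf (nat_lit 44840) (nat_lit 6) (nat_lit 590) (nat_lit 0) (nat_lit 279) (nat_lit 257) (nat_lit 244)) (PT.lf (nat_lit 43320) (nat_lit 6) (nat_lit 570) (nat_lit 0) (nat_lit 280) (nat_lit 257) (nat_lit 243)))) (PT.nd (nat_lit 156) (PT.nd (nat_lit 78) (PT.lf (nat_lit 41724) (nat_lit 6) (nat_lit 549) (nat_lit 0) (nat_lit 281) (nat_lit 257) (nat_lit 242)) (PT.lf (nat_lit 40052) (nat_lit 6) (nat_lit 527) (nat_lit 0) (nat_lit 282) (nat_lit 257) (nat_lit 241))) (PT.nd (nat_lit 78) (PT.lf (nat_lit 38304) (nat_lit 6) (nat_lit 504) (nat_lit 0) (nat_lit 283) (nat_lit 257) (nat_lit 240)) (PT.nd (nat_lit 77610) (PT.lf (nat_lit 36480) (nat_lit 6) (nat_lit 480) (nat_lit 0) (nat_lit 284) (nat_lit 257) (nat_lit 239)) (PT.lf (nat_lit 36556) (nat_lit 6) (nat_lit 481) (nat_lit 5) (nat_lit 238) (nat_lit 258) (nat_lit 284))))))))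
noncomputable def pc48 : PT := (PT.nd (nat_lit 1326) (PT.nd (nat_lit 624) (PT.nd (nat_lit 312) (PT.nd (nat_lit 156) (PT.nd (nat_lit 78) (PT.lf (nat_lit 38380) (nat_lit 6) (nat_lit 505) (nat_lit 5) (nat_lit 239) (nat_lit 258) (nat_lit 283)) (PT.lf (nat_lit 40128) (nat_lit 6) (nat_lit 528) (nat_lit 5) (nat_lit 240) (nat_lit 258) (nat_lit 282))) (PT.nd (nat_lit 78) (PT.lf (nat_lit 41800) (nat_lit 6) (nat_lit 550) (nat_lit 5) (nat_lit 241) (nat_lit 258) (nat_lit 281)) (PT.lf (nat_lit 43396) (nat_lit 6) (nat_lit 571) (nat_lit 5) (nat_lit 242) (nat_lit 258) (nat_lit 280)))) (PT.nd (nat_lit 156) (PT.nd (nat_lit 78) (PT.lf (nat_lit 44916) (nat_lit 6) (nat_lit 591) (nat_lit 5) (nat_lit 243) (nat_lit 258) (nat_lit 279)) (PT.lf (nat_lit 46360) (nat_lit 6) (nat_lit 610) (nat_lit 5) (nat_lit 244) (nat_lit 258) (nat_lit 278))) (PT.nd (nat_lit 78) (PT.lf (nat_lit 47728) (nat_lit 6) (nat_lit 628) (nat_lit 5) (nat_lit 245) (nat_lit 258) (nat_lit 277)) (PT.lf (nat_lit 49020)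 (nat_lit 6) (nat_lit 645) (nat_lit 5) (nat_lit 246) (nat_lit 258) (nat_lit 276))))) (PT.nd (nat_lit 312) (PT.nd (nat_lit 156) (PT.nd (nat_lit 78) (PT.lf (nat_lit 50236) (nat_lit 6) (nat_lit 661) (nat_lit 5) (nat_lit 247) (nat_lit 258) (nat_lit 275)) (PT.lf (nat_lit 51376) (nat_lit 6) (nat_lit 676) (nat_lit 5) (nat_lit 248) (nat_lit 258) (nat_lit 274))) (PT.nd (nat_lit 78) (PT.lf (nat_lit 52440) (nat_lit 6) (nat_lit 690) (nat_lit 5) (nat_lit 249) (nat_lit 258) (nat_lit 273)) (PT.lf (nat_lit 53428) (nat_lit 6) (nat_lit 703) (nat_lit 5) (nat_lit 250) (nat_lit 258) (nat_lit 272)))) (PT.nd (nat_lit 156) (PT.nd (nat_lit 78) (PT.lf (nat_lit 54340) (nat_lit 6) (nat_lit 715) (nat_lit 5) (nat_lit 251) (nat_lit 258) (nat_lit 271)) (PT.lf (nat_lit 55176) (nat_lit 6) (nat_lit 726) (nat_lit 5) (nat_lit 252) (nat_lit 258) (nat_lit 270))) (PT.nd (nat_lit 78) (PT.lf (nat_lit 55936) (nat_lit 6) (nat_lit 736) (nat_lit 5) (nat_lit 253) (nat_lit 258) (nat_lit 269)) (PT.nd (nat_lit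 78) (PT.lf (nat_lit 56620) (nat_lit 6) (nat_lit 745) (nat_lit 5) (nat_lit 254) (nat_lit 258) (nat_lit 268)) (PT.lf (nat_lit 57228) (nat_lit 6) (nat_lit 753) (nat_lit 5) (nat_lit 255) (nat_lit 258) (nat_lit 267))))))) (PT.nd (nat_lit 624) (PT.nd (nat_lit 312) (PT.nd (nat_lit 156) (PT.nd (nat_lit 78) (PT.lf (nat_lit 57760) (nat_lit 6) (nat_lit 760) (nat_lit 5) (nat_lit 256) (nat_lit 258) (nat_lit 266)) (PT.lf (nat_lit 58216) (nat_lit 6) (nat_lit 766) (nat_lit 5) (nat_lit 257) (nat_lit 258) (nat_lit 265))) (PT.nd (nat_lit 78) (PT.lf (nat_lit 58596) (nat_lit 3) (nat_lit 771) (nat_lit 3) (nat_lit 258) (nat_lit 258) (nat_lit 264)) (PT.lf (nat_lit 58976) (nat_lit 6) (nat_lit 776) (nat_lit 3) (nat_lit 259) (nat_lit 258) (nat_lit 263)))) (PT.nd (nat_lit 156) (PT.nd (nat_lit 78) (PT.lf (nat_lit 59280) (nat_lit 6) (nat_lit 780) (nat_lit 3) (nat_lit 260) (nat_lit 258) (nat_lit 262)) (PT.lf (nat_lit 59356) (nat_lit 3) (nat_lit 781) (nat_lit 1) (nat_lit 261) (nat_lit 258)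 (nat_lit 261))) (PT.nd (nat_lit 78) (PT.lf (nat_lit 59280) (nat_lit 6) (nat_lit 780) (nat_lit 1) (nat_lit 262) (nat_lit 258) (nat_lit 260)) (PT.lf (nat_lit 58976) (nat_lit 6) (nat_lit 776) (nat_lit 1) (nat_lit 263) (nat_lit 258) (nat_lit 259))))) (PT.nd (nat_lit 312) (PT.nd (nat_lit 156) (PT.nd (nat_lit 78) (PT.lf (nat_lit 58596) (nat_lit 3) (nat_lit 771) (nat_lit 0) (nat_lit 264) (nat_lit 258) (nat_lit 258)) (PT.lf (nat_lit 58216) (nat_lit 6) (nat_lit 766) (nat_lit 0) (nat_lit 265) (nat_lit 258) (nat_lit 257))) (PT.nd (nat_lit 78) (PT.lf (nat_lit 57760) (nat_lit 6) (nat_lit 760) (nat_lit 0) (nat_lit 266) (nat_lit 258) (nat_lit 256)) (PT.lf (nat_lit 57228) (nat_lit 6) (nat_lit 753) (nat_lit 0) (nat_lit 267) (nat_lit 258) (nat_lit 255)))) (PT.nd (nat_lit 156) (PT.nd (nat_lit 78) (PT.lf (nat_lit 56620) (nat_lit 6) (nat_lit 745) (nat_lit 0) (nat_lit 268) (nat_lit 258) (nat_lit 254)) (PT.lf (nat_lit 55936) (nat_lit 6) (nat_lit 736) (nat_lit 0) (nat_lit 269) (nat_lit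 258) (nat_lit 253))) (PT.nd (nat_lit 78) (PT.lf (nat_lit 55176) (nat_lit 6) (nat_lit 726) (nat_lit 0) (nat_lit 270) (nat_lit 258) (nat_lit 252)) (PT.nd (nat_lit 78) (PT.lf (nat_lit 54340) (nat_lit 6) (nat_lit 715) (nat_lit 0) (nat_lit 271) (nat_lit 258) (nat_lit 251)) (PT.lf (nat_lit 53428) (nat_lit 6) (nat_lit 703) (nat_lit 0) (nat_lit 272) (nat_lit 258) (nat_lit 250))))))))
noncomputable def pc49 : PT := (PT.nd (nat_lit 78702) (PT.nd (nat_lit 624) (PT.nd (nat_lit 312) (PT.nd (nat_lit 156) (PT.nd (nat_lit 78) (PT.lf (nat_lit 52440) (nat_lit 6) (nat_lit 690) (nat_lit 0) (nat_lit 273) (nat_lit 258) (nat_lit 249)) (PT.lf (nat_lit 51376) (nat_lit 6) (nat_lit 676) (nat_lit 0) (nat_lit 274) (nat_lit 258) (nat_lit 248))) (PT.nd (nat_lit 78) (PT.lf (nat_lit 50236) (nat_lit 6) (nat_lit 661) (nat_lit 0) (nat_lit 275) (nat_lit 258) (nat_lit 247)) (PT.lf (nat_lit 49020) (nat_lit 6) (nat_lit 645) (nat_lit 0) (nat_lit 276) (nat_lit 258) (nat_lit 246)))) (PT.nd (nat_lit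 156) (PT.nd (nat_lit 78) (PT.lf (nat_lit 47728) (nat_lit 6) (nat_lit 628) (nat_lit 0) (nat_lit 277) (nat_lit 258) (nat_lit 245)) (PT.lf (nat_lit 46360) (nat_lit 6) (nat_lit 610) (nat_lit 0) (nat_lit 278) (nat_lit 258) (nat_lit 244))) (PT.nd (nat_lit 78) (PT.lf (nat_lit 44916) (nat_lit 6) (nat_lit 591) (nat_lit 0) (nat_lit 279) (nat_lit 258) (nat_lit 243)) (PT.lf (nat_lit 43396) (nat_lit 6) (nat_lit 571) (nat_lit 0) (nat_lit 280) (nat_lit 258) (nat_lit 242))))) (PT.nd (nat_lit 77688) (PT.nd (nat_lit 156) (PT.nd (nat_lit 78) (PT.lf (nat_lit 41800) (nat_lit 6) (nat_lit 550) (nat_lit 0) (nat_lit 281) (nat_lit 258) (nat_lit 241)) (PT.lf (nat_lit 40128) (nat_lit 6) (nat_lit 528) (nat_lit 0) (nat_lit 282) (nat_lit 258) (nat_lit 240))) (PT.nd (nat_lit 78) (PT.lf (nat_lit 38380) (nat_lit 6) (nat_lit 505) (nat_lit 0) (nat_lit 283) (nat_lit 258) (nat_lit 239)) (PT.lf (nat_lit 36556) (nat_lit 6) (nat_lit 481) (nat_lit 0) (nat_lit 284) (nat_lit 258) (nat_lit 238)))) (PT.nd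 (nat_lit 156) (PT.nd (nat_lit 78) (PT.lf (nat_lit 34732) (nat_lit 6) (nat_lit 457) (nat_lit 5) (nat_lit 236) (nat_lit 259) (nat_lit 285)) (PT.lf (nat_lit 36632) (nat_lit 6) (nat_lit 482) (nat_lit 5) (nat_lit 237) (nat_lit 259) (nat_lit 284))) (PT.nd (nat_lit 78) (PT.lf (nat_lit 38456) (nat_lit 6) (nat_lit 506) (nat_lit 5) (nat_lit 238) (nat_lit 259) (nat_lit 283)) (PT.nd (nat_lit 78) (PT.lf (nat_lit 40204) (nat_lit 6) (nat_lit 529) (nat_lit 5) (nat_lit 239) (nat_lit 259) (nat_lit 282)) (PT.lf (nat_lit 41876) (nat_lit 6) (nat_lit 551) (nat_lit 5) (nat_lit 240) (nat_lit 259) (nat_lit 281))))))) (PT.nd (nat_lit 624) (PT.nd (nat_lit 312) (PT.nd (nat_lit 156) (PT.nd (nat_lit 78) (PT.lf (nat_lit 43472) (nat_lit 6) (nat_lit 572) (nat_lit 5) (nat_lit 241) (nat_lit 259) (nat_lit 280)) (PT.lf (nat_lit 44992) (nat_lit 6) (nat_lit 592) (nat_lit 5) (nat_lit 242) (nat_lit 259) (nat_lit 279))) (PT.nd (nat_lit 78) (PT.lf (nat_lit 46436) (nat_lit 6) (nat_lit 611) (nat_lit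 5) (nat_lit 243) (nat_lit 259) (nat_lit 278)) (PT.lf (nat_lit 47804) (nat_lit 6) (nat_lit 629) (nat_lit 5) (nat_lit 244) (nat_lit 259) (nat_lit 277)))) (PT.nd (nat_lit 156) (PT.nd (nat_lit 78) (PT.lf (nat_lit 49096) (nat_lit 6) (nat_lit 646) (nat_lit 5) (nat_lit 245) (nat_lit 259) (nat_lit 276)) (PT.lf (nat_lit 50312) (nat_lit 6) (nat_lit 662) (nat_lit 5) (nat_lit 246) (nat_lit 259) (nat_lit 275))) (PT.nd (nat_lit 78) (PT.lf (nat_lit 51452) (nat_lit 6) (nat_lit 677) (nat_lit 5) (nat_lit 247) (nat_lit 259) (nat_lit 274)) (PT.lf (nat_lit 52516) (nat_lit 6) (nat_lit 691) (nat_lit 5) (nat_lit 248) (nat_lit 259) (nat_lit 273))))) (PT.nd (nat_lit 312) (PT.nd (nat_lit 156) (PT.nd (nat_lit 78) (PT.lf (nat_lit 53504) (nat_lit 6) (nat_lit 704) (nat_lit 5) (nat_lit 249) (nat_lit 259) (nat_lit 272)) (PT.lf (nat_lit 54416) (nat_lit 6) (nat_lit 716) (nat_lit 5) (nat_lit 250) (nat_lit 259) (nat_lit 271))) (PT.nd (nat_lit 78) (PT.lf (nat_lit 55252) (nat_lit 6) (nat_lit 727)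 (nat_lit 5) (nat_lit 251) (nat_lit 259) (nat_lit 270)) (PT.lf (nat_lit 56012) (nat_lit 6) (nat_lit 737) (nat_lit 5) (nat_lit 252) (nat_lit 259) (nat_lit 269)))) (PT.nd (nat_lit 156) (PT.nd (nat_lit 78) (PT.lf (nat_lit 56696) (nat_lit 6) (nat_lit 746) (nat_lit 5) (nat_lit 253) (nat_lit 259) (nat_lit 268)) (PT.lf (nat_lit 57304) (nat_lit 6) (nat_lit 754) (nat_lit 5) (nat_lit 254) (nat_lit 259) (nat_lit 267))) (PT.nd (nat_lit 78) (PT.lf (nat_lit 57836) (nat_lit 6) (nat_lit 761) (nat_lit 5) (nat_lit 255) (nat_lit 259) (nat_lit 266)) (PT.nd (nat_lit 78) (PT.lf (nat_lit 58292) (nat_lit 6) (nat_lit 767) (nat_lit 5) (nat_lit 256) (nat_lit 259) (nat_lit 265)) (PT.lf (nat_lit 58672) (nat_lit 6) (nat_lit 772) (nat_lit 5) (nat_lit 257) (nat_lit 259) (nat_lit 264))))))))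
noncomputable def pc50 : PT := (PT.nd (nat_lit 1326) (PT.nd (nat_lit 624) (PT.nd (nat_lit 312) (PT.nd (nat_lit 156) (PT.nd (nat_lit 78) (PT.lf (nat_lit 58976) (nat_lit 6) (nat_lit 776) (nat_lit 5) (nat_lit 258) (nat_lit 259) (nat_lit 263)) (PT.lf (nat_lit 59204) (nat_lit 3) (nat_lit 779) (nat_lit 3) (nat_lit 259) (nat_lit 259) (nat_lit 262))) (PT.nd (nat_lit 78) (PT.lf (nat_lit 59432) (nat_lit 6) (nat_lit 782) (nat_lit 3) (nat_lit 260) (nat_lit 259) (nat_lit 261)) (PT.lf (nat_lit 59432) (nat_lit 6) (nat_lit 782) (nat_lit 1) (nat_lit 261) (nat_lit 259) (nat_lit 260)))) (PT.nd (nat_lit 156) (PT.nd (nat_lit 78) (PT.lf (nat_lit 59204) (nat_lit 3) (nat_lit 779) (nat_lit 0) (nat_lit 262) (nat_lit 259) (nat_lit 259)) (PT.lf (nat_lit 58976) (nat_lit 6) (nat_lit 776) (nat_lit 0) (nat_lit 263) (nat_lit 259) (nat_lit 258))) (PT.nd (nat_lit 78) (PT.lf (nat_lit 58672) (nat_lit 6) (nat_lit 772) (nat_lit 0) (nat_lit 264) (nat_lit 259) (nat_lit 257)) (PT.lf (nat_lit 58292)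 (nat_lit 6) (nat_lit 767) (nat_lit 0) (nat_lit 265) (nat_lit 259) (nat_lit 256))))) (PT.nd (nat_lit 312) (PT.nd (nat_lit 156) (PT.nd (nat_lit 78) (PT.lf (nat_lit 57836) (nat_lit 6) (nat_lit 761) (nat_lit 0) (nat_lit 266) (nat_lit 259) (nat_lit 255)) (PT.lf (nat_lit 57304) (nat_lit 6) (nat_lit 754) (nat_lit 0) (nat_lit 267) (nat_lit 259) (nat_lit 254))) (PT.nd (nat_lit 78) (PT.lf (nat_lit 56696) (nat_lit 6) (nat_lit 746) (nat_lit 0) (nat_lit 268) (nat_lit 259) (nat_lit 253)) (PT.lf (nat_lit 56012) (nat_lit 6) (nat_lit 737) (nat_lit 0) (nat_lit 269) (nat_lit 259) (nat_lit 252)))) (PT.nd (nat_lit 156) (PT.nd (nat_lit 78) (PT.lf (nat_lit 55252) (nat_lit 6) (nat_lit 727) (nat_lit 0) (nat_lit 270) (nat_lit 259) (nat_lit 251)) (PT.lf (nat_lit 54416) (nat_lit 6) (nat_lit 716) (nat_lit 0) (nat_lit 271) (nat_lit 259) (nat_lit 250))) (PT.nd (nat_lit 78) (PT.lf (nat_lit 53504) (nat_lit 6) (nat_lit 704) (nat_lit 0) (nat_lit 272) (nat_lit 259) (nat_lit 249)) (PT.nd (nat_lit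 78) (PT.lf (nat_lit 52516) (nat_lit 6) (nat_lit 691) (nat_lit 0) (nat_lit 273) (nat_lit 259) (nat_lit 248)) (PT.lf (nat_lit 51452) (nat_lit 6) (nat_lit 677) (nat_lit 0) (nat_lit 274) (nat_lit 259) (nat_lit 247))))))) (PT.nd (nat_lit 624) (PT.nd (nat_lit 312) (PT.nd (nat_lit 156) (PT.nd (nat_lit 78) (PT.lf (nat_lit 50312) (nat_lit 6) (nat_lit 662) (nat_lit 0) (nat_lit 275) (nat_lit 259) (nat_lit 246)) (PT.lf (nat_lit 49096) (nat_lit 6) (nat_lit 646) (nat_lit 0) (nat_lit 276) (nat_lit 259) (nat_lit 245))) (PT.nd (nat_lit 78) (PT.lf (nat_lit 47804) (nat_lit 6) (nat_lit 629) (nat_lit 0) (nat_lit 277) (nat_lit 259) (nat_lit 244)) (PT.lf (nat_lit 46436) (nat_lit 6) (nat_lit 611) (nat_lit 0) (nat_lit 278) (nat_lit 259) (nat_lit 243)))) (PT.nd (nat_lit 156) (PT.nd (nat_lit 78) (PT.lf (nat_lit 44992) (nat_lit 6) (nat_lit 592) (nat_lit 0) (nat_lit 279) (nat_lit 259) (nat_lit 242)) (PT.lf (nat_lit 43472) (nat_lit 6) (nat_lit 572) (nat_lit 0) (nat_lit 280) (nat_lit 259)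 (nat_lit 241))) (PT.nd (nat_lit 78) (PT.lf (nat_lit 41876) (nat_lit 6) (nat_lit 551) (nat_lit 0) (nat_lit 281) (nat_lit 259) (nat_lit 240)) (PT.lf (nat_lit 40204) (nat_lit 6) (nat_lit 529) (nat_lit 0) (nat_lit 282) (nat_lit 259) (nat_lit 239))))) (PT.nd (nat_lit 77532) (PT.nd (nat_lit 156) (PT.nd (nat_lit 78) (PT.lf (nat_lit 38456) (nat_lit 6) (nat_lit 506) (nat_lit 0) (nat_lit 283) (nat_lit 259) (nat_lit 238)) (PT.lf (nat_lit 36632) (nat_lit 6) (nat_lit 482) (nat_lit 0) (nat_lit 284) (nat_lit 259) (nat_lit 237))) (PT.nd (nat_lit 77298) (PT.lf (nat_lit 34732) (nat_lit 6) (nat_lit 457) (nat_lit 0) (nat_lit 285) (nat_lit 259) (nat_lit 236)) (PT.lf (nat_lit 34808) (nat_lit 6) (nat_lit 458) (nat_lit 5) (nat_lit 235) (nat_lit 260) (nat_lit 285)))) (PT.nd (nat_lit 156) (PT.nd (nat_lit 78) (PT.lf (nat_lit 36708) (nat_lit 6) (nat_lit 483) (nat_lit 5) (nat_lit 236) (nat_lit 260) (nat_lit 284)) (PT.lf (nat_lit 38532) (nat_lit 6) (nat_lit 507) (nat_lit 5) (nat_lit 237)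 (nat_lit 260) (nat_lit 283))) (PT.nd (nat_lit 78) (PT.lf (nat_lit 40280) (nat_lit 6) (nat_lit 530) (nat_lit 5) (nat_lit 238) (nat_lit 260) (nat_lit 282)) (PT.nd (nat_lit 78) (PT.lf (nat_lit 41952) (nat_lit 6) (nat_lit 552) (nat_lit 5) (nat_lit 239) (nat_lit 260) (nat_lit 281)) (PT.lf (nat_lit 43548) (nat_lit 6) (nat_lit 573) (nat_lit 5) (nat_lit 240) (nat_lit 260) (nat_lit 280))))))))
noncomputable def pc51 : PT := (PT.nd (nat_lit 1326) (PT.nd (nat_lit 624) (PT.nd (nat_lit 312) (PT.nd (nat_lit 156) (PT.nd (nat_lit 78) (PT.lf (nat_lit 45068) (nat_lit 6) (nat_lit 593) (nat_lit 5) (nat_lit 241) (nat_lit 260) (nat_lit 279)) (PT.lf (nat_lit 46512) (nat_lit 6) (nat_lit 612) (nat_lit 5) (nat_lit 242) (nat_lit 260) (nat_lit 278))) (PT.nd (nat_lit 78) (PT.lf (nat_lit 47880) (nat_lit 6) (nat_lit 630) (nat_lit 5) (nat_lit 243) (nat_lit 260) (nat_lit 277)) (PT.lf (nat_lit 49172) (nat_lit 6) (nat_lit 647) (nat_lit 5) (nat_lit 244) (nat_lit 260) (nat_lit 276)))) (PT.nd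 (nat_lit 156) (PT.nd (nat_lit 78) (PT.lf (nat_lit 50388) (nat_lit 6) (nat_lit 663) (nat_lit 5) (nat_lit 245) (nat_lit 260) (nat_lit 275)) (PT.lf (nat_lit 51528) (nat_lit 6) (nat_lit 678) (nat_lit 5) (nat_lit 246) (nat_lit 260) (nat_lit 274))) (PT.nd (nat_lit 78) (PT.lf (nat_lit 52592) (nat_lit 6) (nat_lit 692) (nat_lit 5) (nat_lit 247) (nat_lit 260) (nat_lit 273)) (PT.lf (nat_lit 53580) (nat_lit 6) (nat_lit 705) (nat_lit 5) (nat_lit 248) (nat_lit 260) (nat_lit 272))))) (PT.nd (nat_lit 312) (PT.nd (nat_lit 156) (PT.nd (nat_lit 78) (PT.lf (nat_lit 54492) (nat_lit 6) (nat_lit 717) (nat_lit 5) (nat_lit 249) (nat_lit 260) (nat_lit 271)) (PT.lf (nat_lit 55328) (nat_lit 6) (nat_lit 728) (nat_lit 5) (nat_lit 250) (nat_lit 260) (nat_lit 270))) (PT.nd (nat_lit 78) (PT.lf (nat_lit 56088) (nat_lit 6) (nat_lit 738) (nat_lit 5) (nat_lit 251) (nat_lit 260) (nat_lit 269)) (PT.lf (nat_lit 56772) (nat_lit 6) (nat_lit 747) (nat_lit 5) (nat_lit 252) (nat_lit 260) (nat_lit 268))))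 (PT.nd (nat_lit 156) (PT.nd (nat_lit 78) (PT.lf (nat_lit 57380) (nat_lit 6) (nat_lit 755) (nat_lit 5) (nat_lit 253) (nat_lit 260) (nat_lit 267)) (PT.lf (nat_lit 57912) (nat_lit 6) (nat_lit 762) (nat_lit 5) (nat_lit 254) (nat_lit 260) (nat_lit 266))) (PT.nd (nat_lit 78) (PT.lf (nat_lit 58368) (nat_lit 6) (nat_lit 768) (nat_lit 5) (nat_lit 255) (nat_lit 260) (nat_lit 265)) (PT.nd (nat_lit 78) (PT.lf (nat_lit 58748) (nat_lit 6) (nat_lit 773) (nat_lit 5) (nat_lit 256) (nat_lit 260) (nat_lit 264)) (PT.lf (nat_lit 59052) (nat_lit 6) (nat_lit 777) (nat_lit 5) (nat_lit 257) (nat_lit 260) (nat_lit 263))))))) (PT.nd (nat_lit 702) (PT.nd (nat_lit 312) (PT.nd (nat_lit 156) (PT.nd (nat_lit 78) (PT.lf (nat_lit 59280) (nat_lit 6) (nat_lit 780) (nat_lit 5) (nat_lit 258) (nat_lit 260) (nat_lit 262)) (PT.lf (nat_lit 59432) (nat_lit 6) (nat_lit 782) (nat_lit 5) (nat_lit 259) (nat_lit 260) (nat_lit 261))) (PT.nd (nat_lit 78) (PT.lf (nat_lit 59508) (nat_lit 1) (nat_lit 783) (nat_lit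 0) (nat_lit 260) (nat_lit 260) (nat_lit 260)) (PT.lf (nat_lit 59432) (nat_lit 6) (nat_lit 782) (nat_lit 0) (nat_lit 261) (nat_lit 260) (nat_lit 259)))) (PT.nd (nat_lit 156) (PT.nd (nat_lit 78) (PT.lf (nat_lit 59280) (nat_lit 6) (nat_lit 780) (nat_lit 0) (nat_lit 262) (nat_lit 260) (nat_lit 258)) (PT.lf (nat_lit 59052) (nat_lit 6) (nat_lit 777) (nat_lit 0) (nat_lit 263) (nat_lit 260) (nat_lit 257))) (PT.nd (nat_lit 78) (PT.lf (nat_lit 58748) (nat_lit 6) (nat_lit 773) (nat_lit 0) (nat_lit 264) (nat_lit 260) (nat_lit 256)) (PT.nd (nat_lit 78) (PT.lf (nat_lit 58368) (nat_lit 6) (nat_lit 768) (nat_lit 0) (nat_lit 265) (nat_lit 260) (nat_lit 255)) (PT.lf (nat_lit 57912) (nat_lit 6) (nat_lit 762) (nat_lit 0) (nat_lit 266) (nat_lit 260) (nat_lit 254)))))) (PT.nd (nat_lit 312) (PT.nd (nat_lit 156) (PT.nd (nat_lit 78) (PT.lf (nat_lit 57380) (nat_lit 6) (nat_lit 755) (nat_lit 0) (nat_lit 267) (nat_lit 260) (nat_lit 253)) (PT.lf (nat_lit 56772) (nat_lit 6) (nat_lit 747)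 (nat_lit 0) (nat_lit 268) (nat_lit 260) (nat_lit 252))) (PT.nd (nat_lit 78) (PT.lf (nat_lit 56088) (nat_lit 6) (nat_lit 738) (nat_lit 0) (nat_lit 269) (nat_lit 260) (nat_lit 251)) (PT.lf (nat_lit 55328) (nat_lit 6) (nat_lit 728) (nat_lit 0) (nat_lit 270) (nat_lit 260) (nat_lit 250)))) (PT.nd (nat_lit 156) (PT.nd (nat_lit 78) (PT.lf (nat_lit 54492) (nat_lit 6) (nat_lit 717) (nat_lit 0) (nat_lit 271) (nat_lit 260) (nat_lit 249)) (PT.lf (nat_lit 53580) (nat_lit 6) (nat_lit 705) (nat_lit 0) (nat_lit 272) (nat_lit 260) (nat_lit 248))) (PT.nd (nat_lit 78) (PT.lf (nat_lit 52592) (nat_lit 6) (nat_lit 692) (nat_lit 0) (nat_lit 273) (nat_lit 260) (nat_lit 247)) (PT.nd (nat_lit 78) (PT.lf (nat_lit 51528) (nat_lit 6) (nat_lit 678) (nat_lit 0) (nat_lit 274) (nat_lit 260) (nat_lit 246)) (PT.lf (nat_lit 50388) (nat_lit 6) (nat_lit 663) (nat_lit 0) (nat_lit 275) (nat_lit 260) (nat_lit 245))))))))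
noncomputable def pc52 : PT := (PT.nd (nat_lit 78468) (PT.nd (nat_lit 624) (PT.nd (nat_lit 312) (PT.nd (nat_lit 156) (PT.nd (nat_lit 78) (PT.lf (nat_lit 49172) (nat_lit 6) (nat_lit 647) (nat_lit 0) (nat_lit 276) (nat_lit 260) (nat_lit 244)) (PT.lf (nat_lit 47880) (nat_lit 6) (nat_lit 630) (nat_lit 0) (nat_lit 277) (nat_lit 260) (nat_lit 243))) (PT.nd (nat_lit 78) (PT.lf (nat_lit 46512) (nat_lit 6) (nat_lit 612) (nat_lit 0) (nat_lit 278) (nat_lit 260) (nat_lit 242)) (PT.lf (nat_lit 45068) (nat_lit 6) (nat_lit 593) (nat_lit 0) (nat_lit 279) (nat_lit 260) (nat_lit 241)))) (PT.nd (nat_lit 156) (PT.nd (nat_lit 78) (PT.lf (nat_lit 43548) (nat_lit 6) (nat_lit 573) (nat_lit 0) (nat_lit 280) (nat_lit 260) (nat_lit 240)) (PT.lf (nat_lit 41952) (nat_lit 6) (nat_lit 552) (nat_lit 0) (nat_lit 281) (nat_lit 260) (nat_lit 239))) (PT.nd (nat_lit 78) (PT.lf (nat_lit 40280) (nat_lit 6) (nat_lit 530) (nat_lit 0) (nat_lit 282) (nat_lit 260) (nat_lit 238)) (PT.lf (nat_lit 38532)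 (nat_lit 6) (nat_lit 507) (nat_lit 0) (nat_lit 283) (nat_lit 260) (nat_lit 237))))) (PT.nd (nat_lit 77454) (PT.nd (nat_lit 77298) (PT.nd (nat_lit 78) (PT.lf (nat_lit 36708) (nat_lit 6) (nat_lit 483) (nat_lit 0) (nat_lit 284) (nat_lit 260) (nat_lit 236)) (PT.lf (nat_lit 34808) (nat_lit 6) (nat_lit 458) (nat_lit 0) (nat_lit 285) (nat_lit 260) (nat_lit 235))) (PT.nd (nat_lit 78) (PT.lf (nat_lit 33744) (nat_lit 6) (nat_lit 444) (nat_lit 5) (nat_lit 234) (nat_lit 261) (nat_lit 285)) (PT.lf (nat_lit 34884) (nat_lit 6) (nat_lit 459) (nat_lit 5) (nat_lit 235) (nat_lit 261) (nat_lit 284)))) (PT.nd (nat_lit 156) (PT.nd (nat_lit 78) (PT.lf (nat_lit 36784) (nat_lit 6) (nat_lit 484) (nat_lit 5) (nat_lit 236) (nat_lit 261) (nat_lit 283)) (PT.lf (nat_lit 38608) (nat_lit 6) (nat_lit 508) (nat_lit 5) (nat_lit 237) (nat_lit 261) (nat_lit 282))) (PT.nd (nat_lit 78) (PT.lf (nat_lit 40356) (nat_lit 6) (nat_lit 531) (nat_lit 5) (nat_lit 238) (nat_lit 261) (nat_lit 281)) (PT.nd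 (nat_lit 78) (PT.lf (nat_lit 42028) (nat_lit 6) (nat_lit 553) (nat_lit 5) (nat_lit 239) (nat_lit 261) (nat_lit 280)) (PT.lf (nat_lit 43624) (nat_lit 6) (nat_lit 574) (nat_lit 5) (nat_lit 240) (nat_lit 261) (nat_lit 279))))))) (PT.nd (nat_lit 624) (PT.nd (nat_lit 312) (PT.nd (nat_lit 156) (PT.nd (nat_lit 78) (PT.lf (nat_lit 45144) (nat_lit 6) (nat_lit 594) (nat_lit 5) (nat_lit 241) (nat_lit 261) (nat_lit 278)) (PT.lf (nat_lit 46588) (nat_lit 6) (nat_lit 613) (nat_lit 5) (nat_lit 242) (nat_lit 261) (nat_lit 277))) (PT.nd (nat_lit 78) (PT.lf (nat_lit 47956) (nat_lit 6) (nat_lit 631) (nat_lit 5) (nat_lit 243) (nat_lit 261) (nat_lit 276)) (PT.lf (nat_lit 49248) (nat_lit 6) (nat_lit 648) (nat_lit 5) (nat_lit 244) (nat_lit 261) (nat_lit 275)))) (PT.nd (nat_lit 156) (PT.nd (nat_lit 78) (PT.lf (nat_lit 50464) (nat_lit 6) (nat_lit 664) (nat_lit 5) (nat_lit 245) (nat_lit 261) (nat_lit 274)) (PT.lf (nat_lit 51604) (nat_lit 6) (nat_lit 679) (nat_lit 5) (nat_lit 246) (nat_lit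 261) (nat_lit 273))) (PT.nd (nat_lit 78) (PT.lf (nat_lit 52668) (nat_lit 6) (nat_lit 693) (nat_lit 5) (nat_lit 247) (nat_lit 261) (nat_lit 272)) (PT.lf (nat_lit 53656) (nat_lit 6) (nat_lit 706) (nat_lit 5) (nat_lit 248) (nat_lit 261) (nat_lit 271))))) (PT.nd (nat_lit 312) (PT.nd (nat_lit 156) (PT.nd (nat_lit 78) (PT.lf (nat_lit 54568) (nat_lit 6) (nat_lit 718) (nat_lit 5) (nat_lit 249) (nat_lit 261) (nat_lit 270)) (PT.lf (nat_lit 55404) (nat_lit 6) (nat_lit 729) (nat_lit 5) (nat_lit 250) (nat_lit 261) (nat_lit 269))) (PT.nd (nat_lit 78) (PT.lf (nat_lit 56164) (nat_lit 6) (nat_lit 739) (nat_lit 5) (nat_lit 251) (nat_lit 261) (nat_lit 268)) (PT.lf (nat_lit 56848) (nat_lit 6) (nat_lit 748) (nat_lit 5) (nat_lit 252) (nat_lit 261) (nat_lit 267)))) (PT.nd (nat_lit 156) (PT.nd (nat_lit 78) (PT.lf (nat_lit 57456) (nat_lit 6) (nat_lit 756) (nat_lit 5) (nat_lit 253) (nat_lit 261) (nat_lit 266)) (PT.lf (nat_lit 57988) (nat_lit 6) (nat_lit 763) (nat_lit 5) (nat_lit 254)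 (nat_lit 261) (nat_lit 265))) (PT.nd (nat_lit 78) (PT.lf (nat_lit 58444) (nat_lit 6) (nat_lit 769) (nat_lit 5) (nat_lit 255) (nat_lit 261) (nat_lit 264)) (PT.nd (nat_lit 78) (PT.lf (nat_lit 58824) (nat_lit 6) (nat_lit 774) (nat_lit 5) (nat_lit 256) (nat_lit 261) (nat_lit 263)) (PT.lf (nat_lit 59128) (nat_lit 6) (nat_lit 778) (nat_lit 5) (nat_lit 257) (nat_lit 261) (nat_lit 262))))))))
noncomputable def pc53 : PT := (PT.nd (nat_lit 1326) (PT.nd (nat_lit 624) (PT.nd (nat_lit 312) (PT.nd (nat_lit 156) (PT.nd (nat_lit 78) (PT.lf (nat_lit 59356) (nat_lit 3) (nat_lit 781) (nat_lit 4) (nat_lit 258) (nat_lit 261) (nat_lit 261)) (PT.lf (nat_lit 59432) (nat_lit 6) (nat_lit 782) (nat_lit 4) (nat_lit 259) (nat_lit 261) (nat_lit 260))) (PT.nd (nat_lit 78) (PT.lf (nat_lit 59432) (nat_lit 6) (nat_lit 782) (nat_lit 2) (nat_lit 260) (nat_lit 261) (nat_lit 259)) (PT.lf (nat_lit 59356) (nat_lit 3) (nat_lit 781) (nat_lit 0) (nat_lit 261) (nat_lit 261) (nat_lit 258)))) (PT.nd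 (nat_lit 156) (PT.nd (nat_lit 78) (PT.lf (nat_lit 59128) (nat_lit 6) (nat_lit 778) (nat_lit 0) (nat_lit 262) (nat_lit 261) (nat_lit 257)) (PT.lf (nat_lit 58824) (nat_lit 6) (nat_lit 774) (nat_lit 0) (nat_lit 263) (nat_lit 261) (nat_lit 256))) (PT.nd (nat_lit 78) (PT.lf (nat_lit 58444) (nat_lit 6) (nat_lit 769) (nat_lit 0) (nat_lit 264) (nat_lit 261) (nat_lit 255)) (PT.lf (nat_lit 57988) (nat_lit 6) (nat_lit 763) (nat_lit 0) (nat_lit 265) (nat_lit 261) (nat_lit 254))))) (PT.nd (nat_lit 312) (PT.nd (nat_lit 156) (PT.nd (nat_lit 78) (PT.lf (nat_lit 57456) (nat_lit 6) (nat_lit 756) (nat_lit 0) (nat_lit 266) (nat_lit 261) (nat_lit 253)) (PT.lf (nat_lit 56848) (nat_lit 6) (nat_lit 748) (nat_lit 0) (nat_lit 267) (nat_lit 261) (nat_lit 252))) (PT.nd (nat_lit 78) (PT.lf (nat_lit 56164) (nat_lit 6) (nat_lit 739) (nat_lit 0) (nat_lit 268) (nat_lit 261) (nat_lit 251)) (PT.lf (nat_lit 55404) (nat_lit 6) (nat_lit 729) (nat_lit 0) (nat_lit 269) (nat_lit 261) (nat_lit 250))))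 (PT.nd (nat_lit 156) (PT.nd (nat_lit 78) (PT.lf (nat_lit 54568) (nat_lit 6) (nat_lit 718) (nat_lit 0) (nat_lit 270) (nat_lit 261) (nat_lit 249)) (PT.lf (nat_lit 53656) (nat_lit 6) (nat_lit 706) (nat_lit 0) (nat_lit 271) (nat_lit 261) (nat_lit 248))) (PT.nd (nat_lit 78) (PT.lf (nat_lit 52668) (nat_lit 6) (nat_lit 693) (nat_lit 0) (nat_lit 272) (nat_lit 261) (nat_lit 247)) (PT.nd (nat_lit 78) (PT.lf (nat_lit 51604) (nat_lit 6) (nat_lit 679) (nat_lit 0) (nat_lit 273) (nat_lit 261) (nat_lit 246)) (PT.lf (nat_lit 50464) (nat_lit 6) (nat_lit 664) (nat_lit 0) (nat_lit 274) (nat_lit 261) (nat_lit 245))))))) (PT.nd (nat_lit 624) (PT.nd (nat_lit 312) (PT.nd (nat_lit 156) (PT.nd (nat_lit 78) (PT.lf (nat_lit 49248) (nat_lit 6) (nat_lit 648) (nat_lit 0) (nat_lit 275) (nat_lit 261) (nat_lit 244)) (PT.lf (nat_lit 47956) (nat_lit 6) (nat_lit 631) (nat_lit 0) (nat_lit 276) (nat_lit 261) (nat_lit 243))) (PT.nd (nat_lit 78) (PT.lf (nat_lit 46588) (nat_lit 6) (nat_lit 613) (nat_lit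 0) (nat_lit 277) (nat_lit 261) (nat_lit 242)) (PT.lf (nat_lit 45144) (nat_lit 6) (nat_lit 594) (nat_lit 0) (nat_lit 278) (nat_lit 261) (nat_lit 241)))) (PT.nd (nat_lit 156) (PT.nd (nat_lit 78) (PT.lf (nat_lit 43624) (nat_lit 6) (nat_lit 574) (nat_lit 0) (nat_lit 279) (nat_lit 261) (nat_lit 240)) (PT.lf (nat_lit 42028) (nat_lit 6) (nat_lit 553) (nat_lit 0) (nat_lit 280) (nat_lit 261) (nat_lit 239))) (PT.nd (nat_lit 78) (PT.lf (nat_lit 40356) (nat_lit 6) (nat_lit 531) (nat_lit 0) (nat_lit 281) (nat_lit 261) (nat_lit 238)) (PT.lf (nat_lit 38608) (nat_lit 6) (nat_lit 508) (nat_lit 0) (nat_lit 282) (nat_lit 261) (nat_lit 237))))) (PT.nd (nat_lit 77376) (PT.nd (nat_lit 156) (PT.nd (nat_lit 78) (PT.lf (nat_lit 36784) (nat_lit 6) (nat_lit 484) (nat_lit 0) (nat_lit 283) (nat_lit 261) (nat_lit 236)) (PT.lf (nat_lit 34884) (nat_lit 6) (nat_lit 459) (nat_lit 0) (nat_lit 284) (nat_lit 261) (nat_lit 235))) (PT.nd (nat_lit 77142) (PT.lf (nat_lit 33744) (nat_lit 6) (nat_lit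 444) (nat_lit 0) (nat_lit 285) (nat_lit 261) (nat_lit 234)) (PT.lf (nat_lit 32832) (nat_lit 6) (nat_lit 432) (nat_lit 5) (nat_lit 233) (nat_lit 262) (nat_lit 285)))) (PT.nd (nat_lit 156) (PT.nd (nat_lit 78) (PT.lf (nat_lit 33820) (nat_lit 6) (nat_lit 445) (nat_lit 5) (nat_lit 234) (nat_lit 262) (nat_lit 284)) (PT.lf (nat_lit 34960) (nat_lit 6) (nat_lit 460) (nat_lit 5) (nat_lit 235) (nat_lit 262) (nat_lit 283))) (PT.nd (nat_lit 78) (PT.lf (nat_lit 36860) (nat_lit 6) (nat_lit 485) (nat_lit 5) (nat_lit 236) (nat_lit 262) (nat_lit 282)) (PT.nd (nat_lit 78) (PT.lf (nat_lit 38684) (nat_lit 6) (nat_lit 509) (nat_lit 5) (nat_lit 237) (nat_lit 262) (nat_lit 281)) (PT.lf (nat_lit 40432) (nat_lit 6) (nat_lit 532) (nat_lit 5) (nat_lit 238) (nat_lit 262) (nat_lit 280))))))))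
noncomputable def pc54 : PT := (PT.nd (nat_lit 1326) (PT.nd (nat_lit 624) (PT.nd (nat_lit 312) (PT.nd (nat_lit 156) (PT.nd (nat_lit 78) (PT.lf (nat_lit 42104) (nat_lit 6) (nat_lit 554) (nat_lit 5) (nat_lit 239) (nat_lit 262) (nat_lit 279)) (PT.lf (nat_lit 43700) (nat_lit 6) (nat_lit 575) (nat_lit 5) (nat_lit 240) (nat_lit 262) (nat_lit 278))) (PT.nd (nat_lit 78) (PT.lf (nat_lit 45220) (nat_lit 6) (nat_lit 595) (nat_lit 5) (nat_lit 241) (nat_lit 262) (nat_lit 277)) (PT.lf (nat_lit 46664) (nat_lit 6) (nat_lit 614) (nat_lit 5) (nat_lit 242) (nat_lit 262) (nat_lit 276)))) (PT.nd (nat_lit 156) (PT.nd (nat_lit 78) (PT.lf (nat_lit 48032) (nat_lit 6) (nat_lit 632) (nat_lit 5) (nat_lit 243) (nat_lit 262) (nat_lit 275)) (PT.lf (nat_lit 49324) (nat_lit 6) (nat_lit 649) (nat_lit 5) (nat_lit 244) (nat_lit 262) (nat_lit 274))) (PT.nd (nat_lit 78) (PT.lf (nat_lit 50540) (nat_lit 6) (nat_lit 665) (nat_lit 5) (nat_lit 245) (nat_lit 262) (nat_lit 273)) (PT.lf (nat_lit 51680)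 (nat_lit 6) (nat_lit 680) (nat_lit 5) (nat_lit 246) (nat_lit 262) (nat_lit 272))))) (PT.nd (nat_lit 312) (PT.nd (nat_lit 156) (PT.nd (nat_lit 78) (PT.lf (nat_lit 52744) (nat_lit 6) (nat_lit 694) (nat_lit 5) (nat_lit 247) (nat_lit 262) (nat_lit 271)) (PT.lf (nat_lit 53732) (nat_lit 6) (nat_lit 707) (nat_lit 5) (nat_lit 248) (nat_lit 262) (nat_lit 270))) (PT.nd (nat_lit 78) (PT.lf (nat_lit 54644) (nat_lit 6) (nat_lit 719) (nat_lit 5) (nat_lit 249) (nat_lit 262) (nat_lit 269)) (PT.lf (nat_lit 55480) (nat_lit 6) (nat_lit 730) (nat_lit 5) (nat_lit 250) (nat_lit 262) (nat_lit 268)))) (PT.nd (nat_lit 156) (PT.nd (nat_lit 78) (PT.lf (nat_lit 56240) (nat_lit 6) (nat_lit 740) (nat_lit 5) (nat_lit 251) (nat_lit 262) (nat_lit 267)) (PT.lf (nat_lit 56924) (nat_lit 6) (nat_lit 749) (nat_lit 5) (nat_lit 252) (nat_lit 262) (nat_lit 266))) (PT.nd (nat_lit 78) (PT.lf (nat_lit 57532) (nat_lit 6) (nat_lit 757) (nat_lit 5) (nat_lit 253) (nat_lit 262) (nat_lit 265)) (PT.nd (nat_lit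 78) (PT.lf (nat_lit 58064) (nat_lit 6) (nat_lit 764) (nat_lit 5) (nat_lit 254) (nat_lit 262) (nat_lit 264)) (PT.lf (nat_lit 58520) (nat_lit 6) (nat_lit 770) (nat_lit 5) (nat_lit 255) (nat_lit 262) (nat_lit 263))))))) (PT.nd (nat_lit 624) (PT.nd (nat_lit 312) (PT.nd (nat_lit 156) (PT.nd (nat_lit 78) (PT.lf (nat_lit 58900) (nat_lit 3) (nat_lit 775) (nat_lit 4) (nat_lit 256) (nat_lit 262) (nat_lit 262)) (PT.lf (nat_lit 59128) (nat_lit 6) (nat_lit 778) (nat_lit 4) (nat_lit 257) (nat_lit 262) (nat_lit 261))) (PT.nd (nat_lit 78) (PT.lf (nat_lit 59280) (nat_lit 6) (nat_lit 780) (nat_lit 4) (nat_lit 258) (nat_lit 262) (nat_lit 260)) (PT.lf (nat_lit 59204) (nat_lit 3) (nat_lit 779) (nat_lit 2) (nat_lit 259) (nat_lit 262) (nat_lit 259)))) (PT.nd (nat_lit 156) (PT.nd (nat_lit 78) (PT.lf (nat_lit 59280) (nat_lit 6) (nat_lit 780) (nat_lit 2) (nat_lit 260) (nat_lit 262) (nat_lit 258)) (PT.lf (nat_lit 59128) (nat_lit 6) (nat_lit 778) (nat_lit 2) (nat_lit 261) (nat_lit 262)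 (nat_lit 257))) (PT.nd (nat_lit 78) (PT.lf (nat_lit 58900) (nat_lit 3) (nat_lit 775) (nat_lit 0) (nat_lit 262) (nat_lit 262) (nat_lit 256)) (PT.lf (nat_lit 58520) (nat_lit 6) (nat_lit 770) (nat_lit 0) (nat_lit 263) (nat_lit 262) (nat_lit 255))))) (PT.nd (nat_lit 312) (PT.nd (nat_lit 156) (PT.nd (nat_lit 78) (PT.lf (nat_lit 58064) (nat_lit 6) (nat_lit 764) (nat_lit 0) (nat_lit 264) (nat_lit 262) (nat_lit 254)) (PT.lf (nat_lit 57532) (nat_lit 6) (nat_lit 757) (nat_lit 0) (nat_lit 265) (nat_lit 262) (nat_lit 253))) (PT.nd (nat_lit 78) (PT.lf (nat_lit 56924) (nat_lit 6) (nat_lit 749) (nat_lit 0) (nat_lit 266) (nat_lit 262) (nat_lit 252)) (PT.lf (nat_lit 56240) (nat_lit 6) (nat_lit 740) (nat_lit 0) (nat_lit 267) (nat_lit 262) (nat_lit 251)))) (PT.nd (nat_lit 156) (PT.nd (nat_lit 78) (PT.lf (nat_lit 55480) (nat_lit 6) (nat_lit 730) (nat_lit 0) (nat_lit 268) (nat_lit 262) (nat_lit 250)) (PT.lf (nat_lit 54644) (nat_lit 6) (nat_lit 719) (nat_lit 0) (nat_lit 269) (nat_lit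 262) (nat_lit 249))) (PT.nd (nat_lit 78) (PT.lf (nat_lit 53732) (nat_lit 6) (nat_lit 707) (nat_lit 0) (nat_lit 270) (nat_lit 262) (nat_lit 248)) (PT.nd (nat_lit 78) (PT.lf (nat_lit 52744) (nat_lit 6) (nat_lit 694) (nat_lit 0) (nat_lit 271) (nat_lit 262) (nat_lit 247)) (PT.lf (nat_lit 51680) (nat_lit 6) (nat_lit 680) (nat_lit 0) (nat_lit 272) (nat_lit 262) (nat_lit 246))))))))
noncomputable def pc55 : PT := (PT.nd (nat_lit 78312) (PT.nd (nat_lit 624) (PT.nd (nat_lit 312) (PT.nd (nat_lit 156) (PT.nd (nat_lit 78) (PT.lf (nat_lit 50540) (nat_lit 6) (nat_lit 665) (nat_lit 0) (nat_lit 273) (nat_lit 262) (nat_lit 245)) (PT.lf (nat_lit 49324) (nat_lit 6) (nat_lit 649) (nat_lit 0) (nat_lit 274) (nat_lit 262) (nat_lit 244))) (PT.nd (nat_lit 78) (PT.lf (nat_lit 48032) (nat_lit 6) (nat_lit 632) (nat_lit 0) (nat_lit 275) (nat_lit 262) (nat_lit 243)) (PT.lf (nat_lit 46664) (nat_lit 6) (nat_lit 614) (nat_lit 0) (nat_lit 276) (nat_lit 262) (nat_lit 242)))) (PT.nd (nat_lit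 156) (PT.nd (nat_lit 78) (PT.lf (nat_lit 45220) (nat_lit 6) (nat_lit 595) (nat_lit 0) (nat_lit 277) (nat_lit 262) (nat_lit 241)) (PT.lf (nat_lit 43700) (nat_lit 6) (nat_lit 575) (nat_lit 0) (nat_lit 278) (nat_lit 262) (nat_lit 240))) (PT.nd (nat_lit 78) (PT.lf (nat_lit 42104) (nat_lit 6) (nat_lit 554) (nat_lit 0) (nat_lit 279) (nat_lit 262) (nat_lit 239)) (PT.lf (nat_lit 40432) (nat_lit 6) (nat_lit 532) (nat_lit 0) (nat_lit 280) (nat_lit 262) (nat_lit 238))))) (PT.nd (nat_lit 312) (PT.nd (nat_lit 156) (PT.nd (nat_lit 78) (PT.lf (nat_lit 38684) (nat_lit 6) (nat_lit 509) (nat_lit 0) (nat_lit 281) (nat_lit 262) (nat_lit 237)) (PT.lf (nat_lit 36860) (nat_lit 6) (nat_lit 485) (nat_lit 0) (nat_lit 282) (nat_lit 262) (nat_lit 236))) (PT.nd (nat_lit 78) (PT.lf (nat_lit 34960) (nat_lit 6) (nat_lit 460) (nat_lit 0) (nat_lit 283) (nat_lit 262) (nat_lit 235)) (PT.lf (nat_lit 33820) (nat_lit 6) (nat_lit 445) (nat_lit 0) (nat_lit 284) (nat_lit 262) (nat_lit 234)))) (PT.nd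 (nat_lit 77142) (PT.nd (nat_lit 77064) (PT.lf (nat_lit 32832) (nat_lit 6) (nat_lit 432) (nat_lit 0) (nat_lit 285) (nat_lit 262) (nat_lit 233)) (PT.lf (nat_lit 31920) (nat_lit 6) (nat_lit 420) (nat_lit 5) (nat_lit 232) (nat_lit 263) (nat_lit 285))) (PT.nd (nat_lit 78) (PT.lf (nat_lit 32908) (nat_lit 6) (nat_lit 433) (nat_lit 5) (nat_lit 233) (nat_lit 263) (nat_lit 284)) (PT.nd (nat_lit 78) (PT.lf (nat_lit 33896) (nat_lit 6) (nat_lit 446) (nat_lit 5) (nat_lit 234) (nat_lit 263) (nat_lit 283)) (PT.lf (nat_lit 35036) (nat_lit 6) (nat_lit 461) (nat_lit 5) (nat_lit 235) (nat_lit 263) (nat_lit 282))))))) (PT.nd (nat_lit 702) (PT.nd (nat_lit 312) (PT.nd (nat_lit 156) (PT.nd (nat_lit 78) (PT.lf (nat_lit 36936) (nat_lit 6) (nat_lit 486) (nat_lit 5) (nat_lit 236) (nat_lit 263) (nat_lit 281)) (PT.lf (nat_lit 38760) (nat_lit 6) (nat_lit 510) (nat_lit 5) (nat_lit 237) (nat_lit 263) (nat_lit 280))) (PT.nd (nat_lit 78) (PT.lf (nat_lit 40508) (nat_lit 6) (nat_lit 533) (nat_lit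 5) (nat_lit 238) (nat_lit 263) (nat_lit 279)) (PT.lf (nat_lit 42180) (nat_lit 6) (nat_lit 555) (nat_lit 5) (nat_lit 239) (nat_lit 263) (nat_lit 278)))) (PT.nd (nat_lit 156) (PT.nd (nat_lit 78) (PT.lf (nat_lit 43776) (nat_lit 6) (nat_lit 576) (nat_lit 5) (nat_lit 240) (nat_lit 263) (nat_lit 277)) (PT.lf (nat_lit 45296) (nat_lit 6) (nat_lit 596) (nat_lit 5) (nat_lit 241) (nat_lit 263) (nat_lit 276))) (PT.nd (nat_lit 78) (PT.lf (nat_lit 46740) (nat_lit 6) (nat_lit 615) (nat_lit 5) (nat_lit 242) (nat_lit 263) (nat_lit 275)) (PT.nd (nat_lit 78) (PT.lf (nat_lit 48108) (nat_lit 6) (nat_lit 633) (nat_lit 5) (nat_lit 243) (nat_lit 263) (nat_lit 274)) (PT.lf (nat_lit 49400) (nat_lit 6) (nat_lit 650) (nat_lit 5) (nat_lit 244) (nat_lit 263) (nat_lit 273)))))) (PT.nd (nat_lit 312) (PT.nd (nat_lit 156) (PT.nd (nat_lit 78) (PT.lf (nat_lit 50616) (nat_lit 6) (nat_lit 666) (nat_lit 5) (nat_lit 245) (nat_lit 263) (nat_lit 272)) (PT.lf (nat_lit 51756) (nat_lit 6) (nat_lit 681)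 (nat_lit 5) (nat_lit 246) (nat_lit 263) (nat_lit 271))) (PT.nd (nat_lit 78) (PT.lf (nat_lit 52820) (nat_lit 6) (nat_lit 695) (nat_lit 5) (nat_lit 247) (nat_lit 263) (nat_lit 270)) (PT.lf (nat_lit 53808) (nat_lit 6) (nat_lit 708) (nat_lit 5) (nat_lit 248) (nat_lit 263) (nat_lit 269)))) (PT.nd (nat_lit 156) (PT.nd (nat_lit 78) (PT.lf (nat_lit 54720) (nat_lit 6) (nat_lit 720) (nat_lit 5) (nat_lit 249) (nat_lit 263) (nat_lit 268)) (PT.lf (nat_lit 55556) (nat_lit 6) (nat_lit 731) (nat_lit 5) (nat_lit 250) (nat_lit 263) (nat_lit 267))) (PT.nd (nat_lit 78) (PT.lf (nat_lit 56316) (nat_lit 6) (nat_lit 741) (nat_lit 5) (nat_lit 251) (nat_lit 263) (nat_lit 266)) (PT.nd (nat_lit 78) (PT.lf (nat_lit 57000) (nat_lit 6) (nat_lit 750) (nat_lit 5) (nat_lit 252) (nat_lit 263) (nat_lit 265)) (PT.lf (nat_lit 57608) (nat_lit 6) (nat_lit 758) (nat_lit 5) (nat_lit 253) (nat_lit 263) (nat_lit 264))))))))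
noncomputable def pc56 : PT := (PT.nd (nat_lit 1326) (PT.nd (nat_lit 624) (PT.nd (nat_lit 312) (PT.nd (nat_lit 156) (PT.nd (nat_lit 78) (PT.lf (nat_lit 58140) (nat_lit 3) (nat_lit 765) (nat_lit 4) (nat_lit 254) (nat_lit 263) (nat_lit 263)) (PT.lf (nat_lit 58520) (nat_lit 6) (nat_lit 770) (nat_lit 4) (nat_lit 255) (nat_lit 263) (nat_lit 262))) (PT.nd (nat_lit 78) (PT.lf (nat_lit 58824) (nat_lit 6) (nat_lit 774) (nat_lit 4) (nat_lit 256) (nat_lit 263) (nat_lit 261)) (PT.lf (nat_lit 59052) (nat_lit 6) (nat_lit 777) (nat_lit 4) (nat_lit 257) (nat_lit 263) (nat_lit 260)))) (PT.nd (nat_lit 156) (PT.nd (nat_lit 78) (PT.lf (nat_lit 58976) (nat_lit 6) (nat_lit 776) (nat_lit 4) (nat_lit 258) (nat_lit 263) (nat_lit 259)) (PT.lf (nat_lit 58976) (nat_lit 6) (nat_lit 776) (nat_lit 2) (nat_lit 259) (nat_lit 263) (nat_lit 258))) (PT.nd (nat_lit 78) (PT.lf (nat_lit 59052) (nat_lit 6) (nat_lit 777) (nat_lit 2) (nat_lit 260) (nat_lit 263) (nat_lit 257)) (PT.lf (nat_lit 58824)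 (nat_lit 6) (nat_lit 774) (nat_lit 2) (nat_lit 261) (nat_lit 263) (nat_lit 256))))) (PT.nd (nat_lit 312) (PT.nd (nat_lit 156) (PT.nd (nat_lit 78) (PT.lf (nat_lit 58520) (nat_lit 6) (nat_lit 770) (nat_lit 2) (nat_lit 262) (nat_lit 263) (nat_lit 255)) (PT.lf (nat_lit 58140) (nat_lit 3) (nat_lit 765) (nat_lit 0) (nat_lit 263) (nat_lit 263) (nat_lit 254))) (PT.nd (nat_lit 78) (PT.lf (nat_lit 57608) (nat_lit 6) (nat_lit 758) (nat_lit 0) (nat_lit 264) (nat_lit 263) (nat_lit 253)) (PT.lf (nat_lit 57000) (nat_lit 6) (nat_lit 750) (nat_lit 0) (nat_lit 265) (nat_lit 263) (nat_lit 252)))) (PT.nd (nat_lit 156) (PT.nd (nat_lit 78) (PT.lf (nat_lit 56316) (nat_lit 6) (nat_lit 741) (nat_lit 0) (nat_lit 266) (nat_lit 263) (nat_lit 251)) (PT.lf (nat_lit 55556) (nat_lit 6) (nat_lit 731) (nat_lit 0) (nat_lit 267) (nat_lit 263) (nat_lit 250))) (PT.nd (nat_lit 78) (PT.lf (nat_lit 54720) (nat_lit 6) (nat_lit 720) (nat_lit 0) (nat_lit 268) (nat_lit 263) (nat_lit 249)) (PT.nd (nat_lit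 78) (PT.lf (nat_lit 53808) (nat_lit 6) (nat_lit 708) (nat_lit 0) (nat_lit 269) (nat_lit 263) (nat_lit 248)) (PT.lf (nat_lit 52820) (nat_lit 6) (nat_lit 695) (nat_lit 0) (nat_lit 270) (nat_lit 263) (nat_lit 247))))))) (PT.nd (nat_lit 624) (PT.nd (nat_lit 312) (PT.nd (nat_lit 156) (PT.nd (nat_lit 78) (PT.lf (nat_lit 51756) (nat_lit 6) (nat_lit 681) (nat_lit 0) (nat_lit 271) (nat_lit 263) (nat_lit 246)) (PT.lf (nat_lit 50616) (nat_lit 6) (nat_lit 666) (nat_lit 0) (nat_lit 272) (nat_lit 263) (nat_lit 245))) (PT.nd (nat_lit 78) (PT.lf (nat_lit 49400) (nat_lit 6) (nat_lit 650) (nat_lit 0) (nat_lit 273) (nat_lit 263) (nat_lit 244)) (PT.lf (nat_lit 48108) (nat_lit 6) (nat_lit 633) (nat_lit 0) (nat_lit 274) (nat_lit 263) (nat_lit 243)))) (PT.nd (nat_lit 156) (PT.nd (nat_lit 78) (PT.lf (nat_lit 46740) (nat_lit 6) (nat_lit 615) (nat_lit 0) (nat_lit 275) (nat_lit 263) (nat_lit 242)) (PT.lf (nat_lit 45296) (nat_lit 6) (nat_lit 596) (nat_lit 0) (nat_lit 276) (nat_lit 263)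 (nat_lit 241))) (PT.nd (nat_lit 78) (PT.lf (nat_lit 43776) (nat_lit 6) (nat_lit 576) (nat_lit 0) (nat_lit 277) (nat_lit 263) (nat_lit 240)) (PT.lf (nat_lit 42180) (nat_lit 6) (nat_lit 555) (nat_lit 0) (nat_lit 278) (nat_lit 263) (nat_lit 239))))) (PT.nd (nat_lit 312) (PT.nd (nat_lit 156) (PT.nd (nat_lit 78) (PT.lf (nat_lit 40508) (nat_lit 6) (nat_lit 533) (nat_lit 0) (nat_lit 279) (nat_lit 263) (nat_lit 238)) (PT.lf (nat_lit 38760) (nat_lit 6) (nat_lit 510) (nat_lit 0) (nat_lit 280) (nat_lit 263) (nat_lit 237))) (PT.nd (nat_lit 78) (PT.lf (nat_lit 36936) (nat_lit 6) (nat_lit 486) (nat_lit 0) (nat_lit 281) (nat_lit 263) (nat_lit 236)) (PT.lf (nat_lit 35036) (nat_lit 6) (nat_lit 461) (nat_lit 0) (nat_lit 282) (nat_lit 263) (nat_lit 235)))) (PT.nd (nat_lit 156) (PT.nd (nat_lit 78) (PT.lf (nat_lit 33896) (nat_lit 6) (nat_lit 446) (nat_lit 0) (nat_lit 283) (nat_lit 263) (nat_lit 234)) (PT.lf (nat_lit 32908) (nat_lit 6) (nat_lit 433) (nat_lit 0) (nat_lit 284) (nat_lit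 263) (nat_lit 233))) (PT.nd (nat_lit 76908) (PT.lf (nat_lit 31920) (nat_lit 6) (nat_lit 420) (nat_lit 0) (nat_lit 285) (nat_lit 263) (nat_lit 232)) (PT.nd (nat_lit 78) (PT.lf (nat_lit 30172) (nat_lit 6) (nat_lit 397) (nat_lit 5) (nat_lit 230) (nat_lit 264) (nat_lit 286)) (PT.lf (nat_lit 31084) (nat_lit 6) (nat_lit 409) (nat_lit 5) (nat_lit 231) (nat_lit 264) (nat_lit 285))))))))
noncomputable def pc57 : PT := (PT.nd (nat_lit 1326) (PT.nd (nat_lit 624) (PT.nd (nat_lit 312) (PT.nd (nat_lit 156) (PT.nd (nat_lit 78) (PT.lf (nat_lit 31996) (nat_lit 6) (nat_lit 421) (nat_lit 5) (nat_lit 232) (nat_lit 264) (nat_lit 284)) (PT.lf (nat_lit 32984) (nat_lit 6) (nat_lit 434) (nat_lit 5) (nat_lit 233) (nat_lit 264) (nat_lit 283))) (PT.nd (nat_lit 78) (PT.lf (nat_lit 33972) (nat_lit 6) (nat_lit 447) (nat_lit 5) (nat_lit 234) (nat_lit 264) (nat_lit 282)) (PT.lf (nat_lit 35112) (nat_lit 6) (nat_lit 462) (nat_lit 5) (nat_lit 235) (nat_lit 264) (nat_lit 281)))) (PT.nd (nat_lit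 156) (PT.nd (nat_lit 78) (PT.lf (nat_lit 37012) (nat_lit 6) (nat_lit 487) (nat_lit 5) (nat_lit 236) (nat_lit 264) (nat_lit 280)) (PT.lf (nat_lit 38836) (nat_lit 6) (nat_lit 511) (nat_lit 5) (nat_lit 237) (nat_lit 264) (nat_lit 279))) (PT.nd (nat_lit 78) (PT.lf (nat_lit 40584) (nat_lit 6) (nat_lit 534) (nat_lit 5) (nat_lit 238) (nat_lit 264) (nat_lit 278)) (PT.lf (nat_lit 42256) (nat_lit 6) (nat_lit 556) (nat_lit 5) (nat_lit 239) (nat_lit 264) (nat_lit 277))))) (PT.nd (nat_lit 312) (PT.nd (nat_lit 156) (PT.nd (nat_lit 78) (PT.lf (nat_lit 43852) (nat_lit 6) (nat_lit 577) (nat_lit 5) (nat_lit 240) (nat_lit 264) (nat_lit 276)) (PT.lf (nat_lit 45372) (nat_lit 6) (nat_lit 597) (nat_lit 5) (nat_lit 241) (nat_lit 264) (nat_lit 275))) (PT.nd (nat_lit 78) (PT.lf (nat_lit 46816) (nat_lit 6) (nat_lit 616) (nat_lit 5) (nat_lit 242) (nat_lit 264) (nat_lit 274)) (PT.lf (nat_lit 48184) (nat_lit 6) (nat_lit 634) (nat_lit 5) (nat_lit 243) (nat_lit 264) (nat_lit 273)))) (PT.nd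 (nat_lit 156) (PT.nd (nat_lit 78) (PT.lf (nat_lit 49476) (nat_lit 6) (nat_lit 651) (nat_lit 5) (nat_lit 244) (nat_lit 264) (nat_lit 272)) (PT.lf (nat_lit 50692) (nat_lit 6) (nat_lit 667) (nat_lit 5) (nat_lit 245) (nat_lit 264) (nat_lit 271))) (PT.nd (nat_lit 78) (PT.lf (nat_lit 51832) (nat_lit 6) (nat_lit 682) (nat_lit 5) (nat_lit 246) (nat_lit 264) (nat_lit 270)) (PT.nd (nat_lit 78) (PT.lf (nat_lit 52896) (nat_lit 6) (nat_lit 696) (nat_lit 5) (nat_lit 247) (nat_lit 264) (nat_lit 269)) (PT.lf (nat_lit 53884) (nat_lit 6) (nat_lit 709) (nat_lit 5) (nat_lit 248) (nat_lit 264) (nat_lit 268))))))) (PT.nd (nat_lit 624) (PT.nd (nat_lit 312) (PT.nd (nat_lit 156) (PT.nd (nat_lit 78) (PT.lf (nat_lit 54796) (nat_lit 6) (nat_lit 721) (nat_lit 5) (nat_lit 249) (nat_lit 264) (nat_lit 267)) (PT.lf (nat_lit 55632) (nat_lit 6) (nat_lit 732) (nat_lit 5) (nat_lit 250) (nat_lit 264) (nat_lit 266))) (PT.nd (nat_lit 78) (PT.lf (nat_lit 56392) (nat_lit 6) (nat_lit 742) (nat_lit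 5) (nat_lit 251) (nat_lit 264) (nat_lit 265)) (PT.lf (nat_lit 57076) (nat_lit 3) (nat_lit 751) (nat_lit 4) (nat_lit 252) (nat_lit 264) (nat_lit 264)))) (PT.nd (nat_lit 156) (PT.nd (nat_lit 78) (PT.lf (nat_lit 57608) (nat_lit 6) (nat_lit 758) (nat_lit 4) (nat_lit 253) (nat_lit 264) (nat_lit 263)) (PT.lf (nat_lit 58064) (nat_lit 6) (nat_lit 764) (nat_lit 4) (nat_lit 254) (nat_lit 264) (nat_lit 262))) (PT.nd (nat_lit 78) (PT.lf (nat_lit 58444) (nat_lit 6) (nat_lit 769) (nat_lit 4) (nat_lit 255) (nat_lit 264) (nat_lit 261)) (PT.lf (nat_lit 58748) (nat_lit 6) (nat_lit 773) (nat_lit 4) (nat_lit 256) (nat_lit 264) (nat_lit 260))))) (PT.nd (nat_lit 312) (PT.nd (nat_lit 156) (PT.nd (nat_lit 78) (PT.lf (nat_lit 58672) (nat_lit 6) (nat_lit 772) (nat_lit 4) (nat_lit 257) (nat_lit 264) (nat_lit 259)) (PT.lf (nat_lit 58596) (nat_lit 3) (nat_lit 771) (nat_lit 2) (nat_lit 258) (nat_lit 264) (nat_lit 258))) (PT.nd (nat_lit 78) (PT.lf (nat_lit 58672) (nat_lit 6) (nat_lit 772)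 (nat_lit 2) (nat_lit 259) (nat_lit 264) (nat_lit 257)) (PT.lf (nat_lit 58748) (nat_lit 6) (nat_lit 773) (nat_lit 2) (nat_lit 260) (nat_lit 264) (nat_lit 256)))) (PT.nd (nat_lit 156) (PT.nd (nat_lit 78) (PT.lf (nat_lit 58444) (nat_lit 6) (nat_lit 769) (nat_lit 2) (nat_lit 261) (nat_lit 264) (nat_lit 255)) (PT.lf (nat_lit 58064) (nat_lit 6) (nat_lit 764) (nat_lit 2) (nat_lit 262) (nat_lit 264) (nat_lit 254))) (PT.nd (nat_lit 78) (PT.lf (nat_lit 57608) (nat_lit 6) (nat_lit 758) (nat_lit 2) (nat_lit 263) (nat_lit 264) (nat_lit 253)) (PT.nd (nat_lit 78) (PT.lf (nat_lit 57076) (nat_lit 3) (nat_lit 751) (nat_lit 0) (nat_lit 264) (nat_lit 264) (nat_lit 252)) (PT.lf (nat_lit 56392) (nat_lit 6) (nat_lit 742) (nat_lit 0) (nat_lit 265) (nat_lit 264) (nat_lit 251))))))))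
noncomputable def pc58 : PT := (PT.nd (nat_lit 1326) (PT.nd (nat_lit 624) (PT.nd (nat_lit 312) (PT.nd (nat_lit 156) (PT.nd (nat_lit 78) (PT.lf (nat_lit 55632) (nat_lit 6) (nat_lit 732) (nat_lit 0) (nat_lit 266) (nat_lit 264) (nat_lit 250)) (PT.lf (nat_lit 54796) (nat_lit 6) (nat_lit 721) (nat_lit 0) (nat_lit 267) (nat_lit 264) (nat_lit 249))) (PT.nd (nat_lit 78) (PT.lf (nat_lit 53884) (nat_lit 6) (nat_lit 709) (nat_lit 0) (nat_lit 268) (nat_lit 264) (nat_lit 248)) (PT.lf (nat_lit 52896) (nat_lit 6) (nat_lit 696) (nat_lit 0) (nat_lit 269) (nat_lit 264) (nat_lit 247)))) (PT.nd (nat_lit 156) (PT.nd (nat_lit 78) (PT.lf (nat_lit 51832) (nat_lit 6) (nat_lit 682) (nat_lit 0) (nat_lit 270) (nat_lit 264) (nat_lit 246)) (PT.lf (nat_lit 50692) (nat_lit 6) (nat_lit 667) (nat_lit 0) (nat_lit 271) (nat_lit 264) (nat_lit 245))) (PT.nd (nat_lit 78) (PT.lf (nat_lit 49476) (nat_lit 6) (nat_lit 651) (nat_lit 0) (nat_lit 272) (nat_lit 264) (nat_lit 244)) (PT.lf (nat_lit 48184)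 (nat_lit 6) (nat_lit 634) (nat_lit 0) (nat_lit 273) (nat_lit 264) (nat_lit 243))))) (PT.nd (nat_lit 312) (PT.nd (nat_lit 156) (PT.nd (nat_lit 78) (PT.lf (nat_lit 46816) (nat_lit 6) (nat_lit 616) (nat_lit 0) (nat_lit 274) (nat_lit 264) (nat_lit 242)) (PT.lf (nat_lit 45372) (nat_lit 6) (nat_lit 597) (nat_lit 0) (nat_lit 275) (nat_lit 264) (nat_lit 241))) (PT.nd (nat_lit 78) (PT.lf (nat_lit 43852) (nat_lit 6) (nat_lit 577) (nat_lit 0) (nat_lit 276) (nat_lit 264) (nat_lit 240)) (PT.lf (nat_lit 42256) (nat_lit 6) (nat_lit 556) (nat_lit 0) (nat_lit 277) (nat_lit 264) (nat_lit 239)))) (PT.nd (nat_lit 156) (PT.nd (nat_lit 78) (PT.lf (nat_lit 40584) (nat_lit 6) (nat_lit 534) (nat_lit 0) (nat_lit 278) (nat_lit 264) (nat_lit 238)) (PT.lf (nat_lit 38836) (nat_lit 6) (nat_lit 511) (nat_lit 0) (nat_lit 279) (nat_lit 264) (nat_lit 237))) (PT.nd (nat_lit 78) (PT.lf (nat_lit 37012) (nat_lit 6) (nat_lit 487) (nat_lit 0) (nat_lit 280) (nat_lit 264) (nat_lit 236)) (PT.nd (nat_lit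 78) (PT.lf (nat_lit 35112) (nat_lit 6) (nat_lit 462) (nat_lit 0) (nat_lit 281) (nat_lit 264) (nat_lit 235)) (PT.lf (nat_lit 33972) (nat_lit 6) (nat_lit 447) (nat_lit 0) (nat_lit 282) (nat_lit 264) (nat_lit 234))))))) (PT.nd (nat_lit 77298) (PT.nd (nat_lit 76986) (PT.nd (nat_lit 156) (PT.nd (nat_lit 78) (PT.lf (nat_lit 32984) (nat_lit 6) (nat_lit 434) (nat_lit 0) (nat_lit 283) (nat_lit 264) (nat_lit 233)) (PT.lf (nat_lit 31996) (nat_lit 6) (nat_lit 421) (nat_lit 0) (nat_lit 284) (nat_lit 264) (nat_lit 232))) (PT.nd (nat_lit 78) (PT.lf (nat_lit 31084) (nat_lit 6) (nat_lit 409) (nat_lit 0) (nat_lit 285) (nat_lit 264) (nat_lit 231)) (PT.lf (nat_lit 30172) (nat_lit 6) (nat_lit 397) (nat_lit 0) (nat_lit 286) (nat_lit 264) (nat_lit 230)))) (PT.nd (nat_lit 156) (PT.nd (nat_lit 78) (PT.lf (nat_lit 29336) (nat_lit 6) (nat_lit 386) (nat_lit 5) (nat_lit 229) (nat_lit 265) (nat_lit 286)) (PT.lf (nat_lit 30248) (nat_lit 6) (nat_lit 398) (nat_lit 5) (nat_lit 230) (nat_lit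 265) (nat_lit 285))) (PT.nd (nat_lit 78) (PT.lf (nat_lit 31160) (nat_lit 6) (nat_lit 410) (nat_lit 5) (nat_lit 231) (nat_lit 265) (nat_lit 284)) (PT.lf (nat_lit 32072) (nat_lit 6) (nat_lit 422) (nat_lit 5) (nat_lit 232) (nat_lit 265) (nat_lit 283))))) (PT.nd (nat_lit 312) (PT.nd (nat_lit 156) (PT.nd (nat_lit 78) (PT.lf (nat_lit 33060) (nat_lit 6) (nat_lit 435) (nat_lit 5) (nat_lit 233) (nat_lit 265) (nat_lit 282)) (PT.lf (nat_lit 34048) (nat_lit 6) (nat_lit 448) (nat_lit 5) (nat_lit 234) (nat_lit 265) (nat_lit 281))) (PT.nd (nat_lit 78) (PT.lf (nat_lit 35188) (nat_lit 6) (nat_lit 463) (nat_lit 5) (nat_lit 235) (nat_lit 265) (nat_lit 280)) (PT.lf (nat_lit 37088) (nat_lit 6) (nat_lit 488) (nat_lit 5) (nat_lit 236) (nat_lit 265) (nat_lit 279)))) (PT.nd (nat_lit 156) (PT.nd (nat_lit 78) (PT.lf (nat_lit 38912) (nat_lit 6) (nat_lit 512) (nat_lit 5) (nat_lit 237) (nat_lit 265) (nat_lit 278)) (PT.lf (nat_lit 40660) (nat_lit 6) (nat_lit 535) (nat_lit 5) (nat_lit 238)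 (nat_lit 265) (nat_lit 277))) (PT.nd (nat_lit 78) (PT.lf (nat_lit 42332) (nat_lit 6) (nat_lit 557) (nat_lit 5) (nat_lit 239) (nat_lit 265) (nat_lit 276)) (PT.nd (nat_lit 78) (PT.lf (nat_lit 43928) (nat_lit 6) (nat_lit 578) (nat_lit 5) (nat_lit 240) (nat_lit 265) (nat_lit 275)) (PT.lf (nat_lit 45448) (nat_lit 6) (nat_lit 598) (nat_lit 5) (nat_lit 241) (nat_lit 265) (nat_lit 274))))))))
noncomputable def pc59 : PT := (PT.nd (nat_lit 1326) (PT.nd (nat_lit 624) (PT.nd (nat_lit 312) (PT.nd (nat_lit 156) (PT.nd (nat_lit 78) (PT.lf (nat_lit 46892) (nat_lit 6) (nat_lit 617) (nat_lit 5) (nat_lit 242) (nat_lit 265) (nat_lit 273)) (PT.lf (nat_lit 48260) (nat_lit 6) (nat_lit 635) (nat_lit 5) (nat_lit 243) (nat_lit 265) (nat_lit 272))) (PT.nd (nat_lit 78) (PT.lf (nat_lit 49552) (nat_lit 6) (nat_lit 652) (nat_lit 5) (nat_lit 244) (nat_lit 265) (nat_lit 271)) (PT.lf (nat_lit 50768) (nat_lit 6) (nat_lit 668) (nat_lit 5) (nat_lit 245) (nat_lit 265) (nat_lit 270)))) (PT.nd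 (nat_lit 156) (PT.nd (nat_lit 78) (PT.lf (nat_lit 51908) (nat_lit 6) (nat_lit 683) (nat_lit 5) (nat_lit 246) (nat_lit 265) (nat_lit 269)) (PT.lf (nat_lit 52972) (nat_lit 6) (nat_lit 697) (nat_lit 5) (nat_lit 247) (nat_lit 265) (nat_lit 268))) (PT.nd (nat_lit 78) (PT.lf (nat_lit 53960) (nat_lit 6) (nat_lit 710) (nat_lit 5) (nat_lit 248) (nat_lit 265) (nat_lit 267)) (PT.lf (nat_lit 54872) (nat_lit 6) (nat_lit 722) (nat_lit 5) (nat_lit 249) (nat_lit 265) (nat_lit 266))))) (PT.nd (nat_lit 312) (PT.nd (nat_lit 156) (PT.nd (nat_lit 78) (PT.lf (nat_lit 55708) (nat_lit 3) (nat_lit 733) (nat_lit 4) (nat_lit 250) (nat_lit 265) (nat_lit 265)) (PT.lf (nat_lit 56392) (nat_lit 6) (nat_lit 742) (nat_lit 4) (nat_lit 251) (nat_lit 265) (nat_lit 264))) (PT.nd (nat_lit 78) (PT.lf (nat_lit 57000) (nat_lit 6) (nat_lit 750) (nat_lit 4) (nat_lit 252) (nat_lit 265) (nat_lit 263)) (PT.lf (nat_lit 57532) (nat_lit 6) (nat_lit 757) (nat_lit 4) (nat_lit 253) (nat_lit 265) (nat_lit 262))))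 (PT.nd (nat_lit 156) (PT.nd (nat_lit 78) (PT.lf (nat_lit 57988) (nat_lit 6) (nat_lit 763) (nat_lit 4) (nat_lit 254) (nat_lit 265) (nat_lit 261)) (PT.lf (nat_lit 58368) (nat_lit 6) (nat_lit 768) (nat_lit 4) (nat_lit 255) (nat_lit 265) (nat_lit 260))) (PT.nd (nat_lit 78) (PT.lf (nat_lit 58292) (nat_lit 6) (nat_lit 767) (nat_lit 4) (nat_lit 256) (nat_lit 265) (nat_lit 259)) (PT.nd (nat_lit 78) (PT.lf (nat_lit 58216) (nat_lit 6) (nat_lit 766) (nat_lit 4) (nat_lit 257) (nat_lit 265) (nat_lit 258)) (PT.lf (nat_lit 58216) (nat_lit 6) (nat_lit 766) (nat_lit 2) (nat_lit 258) (nat_lit 265) (nat_lit 257))))))) (PT.nd (nat_lit 702) (PT.nd (nat_lit 312) (PT.nd (nat_lit 156) (PT.nd (nat_lit 78) (PT.lf (nat_lit 58292) (nat_lit 6) (nat_lit 767) (nat_lit 2) (nat_lit 259) (nat_lit 265) (nat_lit 256)) (PT.lf (nat_lit 58368) (nat_lit 6) (nat_lit 768) (nat_lit 2) (nat_lit 260) (nat_lit 265) (nat_lit 255))) (PT.nd (nat_lit 78) (PT.lf (nat_lit 57988) (nat_lit 6) (nat_lit 763) (nat_lit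 2) (nat_lit 261) (nat_lit 265) (nat_lit 254)) (PT.lf (nat_lit 57532) (nat_lit 6) (nat_lit 757) (nat_lit 2) (nat_lit 262) (nat_lit 265) (nat_lit 253)))) (PT.nd (nat_lit 156) (PT.nd (nat_lit 78) (PT.lf (nat_lit 57000) (nat_lit 6) (nat_lit 750) (nat_lit 2) (nat_lit 263) (nat_lit 265) (nat_lit 252)) (PT.lf (nat_lit 56392) (nat_lit 6) (nat_lit 742) (nat_lit 2) (nat_lit 264) (nat_lit 265) (nat_lit 251))) (PT.nd (nat_lit 78) (PT.lf (nat_lit 55708) (nat_lit 3) (nat_lit 733) (nat_lit 0) (nat_lit 265) (nat_lit 265) (nat_lit 250)) (PT.nd (nat_lit 78) (PT.lf (nat_lit 54872) (nat_lit 6) (nat_lit 722) (nat_lit 0) (nat_lit 266) (nat_lit 265) (nat_lit 249)) (PT.lf (nat_lit 53960) (nat_lit 6) (nat_lit 710) (nat_lit 0) (nat_lit 267) (nat_lit 265) (nat_lit 248)))))) (PT.nd (nat_lit 312) (PT.nd (nat_lit 156) (PT.nd (nat_lit 78) (PT.lf (nat_lit 52972) (nat_lit 6) (nat_lit 697) (nat_lit 0) (nat_lit 268) (nat_lit 265) (nat_lit 247)) (PT.lf (nat_lit 51908) (nat_lit 6) (nat_lit 683)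 (nat_lit 0) (nat_lit 269) (nat_lit 265) (nat_lit 246))) (PT.nd (nat_lit 78) (PT.lf (nat_lit 50768) (nat_lit 6) (nat_lit 668) (nat_lit 0) (nat_lit 270) (nat_lit 265) (nat_lit 245)) (PT.lf (nat_lit 49552) (nat_lit 6) (nat_lit 652) (nat_lit 0) (nat_lit 271) (nat_lit 265) (nat_lit 244)))) (PT.nd (nat_lit 156) (PT.nd (nat_lit 78) (PT.lf (nat_lit 48260) (nat_lit 6) (nat_lit 635) (nat_lit 0) (nat_lit 272) (nat_lit 265) (nat_lit 243)) (PT.lf (nat_lit 46892) (nat_lit 6) (nat_lit 617) (nat_lit 0) (nat_lit 273) (nat_lit 265) (nat_lit 242))) (PT.nd (nat_lit 78) (PT.lf (nat_lit 45448) (nat_lit 6) (nat_lit 598) (nat_lit 0) (nat_lit 274) (nat_lit 265) (nat_lit 241)) (PT.nd (nat_lit 78) (PT.lf (nat_lit 43928) (nat_lit 6) (nat_lit 578) (nat_lit 0) (nat_lit 275) (nat_lit 265) (nat_lit 240)) (PT.lf (nat_lit 42332) (nat_lit 6) (nat_lit 557) (nat_lit 0) (nat_lit 276) (nat_lit 265) (nat_lit 239))))))))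
noncomputable def pc60 : PT := (PT.nd (nat_lit 77922) (PT.nd (nat_lit 624) (PT.nd (nat_lit 312) (PT.nd (nat_lit 156) (PT.nd (nat_lit 78) (PT.lf (nat_lit 40660) (nat_lit 6) (nat_lit 535) (nat_lit 0) (nat_lit 277) (nat_lit 265) (nat_lit 238)) (PT.lf (nat_lit 38912) (nat_lit 6) (nat_lit 512) (nat_lit 0) (nat_lit 278) (nat_lit 265) (nat_lit 237))) (PT.nd (nat_lit 78) (PT.lf (nat_lit 37088) (nat_lit 6) (nat_lit 488) (nat_lit 0) (nat_lit 279) (nat_lit 265) (nat_lit 236)) (PT.lf (nat_lit 35188) (nat_lit 6) (nat_lit 463) (nat_lit 0) (nat_lit 280) (nat_lit 265) (nat_lit 235)))) (PT.nd (nat_lit 156) (PT.nd (nat_lit 78) (PT.lf (nat_lit 34048) (nat_lit 6) (nat_lit 448) (nat_lit 0) (nat_lit 281) (nat_lit 265) (nat_lit 234)) (PT.lf (nat_lit 33060) (nat_lit 6) (nat_lit 435) (nat_lit 0) (nat_lit 282) (nat_lit 265) (nat_lit 233))) (PT.nd (nat_lit 78) (PT.lf (nat_lit 32072) (nat_lit 6) (nat_lit 422) (nat_lit 0) (nat_lit 283) (nat_lit 265) (nat_lit 232)) (PT.lf (nat_lit 31160)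 (nat_lit 6) (nat_lit 410) (nat_lit 0) (nat_lit 284) (nat_lit 265) (nat_lit 231))))) (PT.nd (nat_lit 76908) (PT.nd (nat_lit 76752) (PT.nd (nat_lit 78) (PT.lf (nat_lit 30248) (nat_lit 6) (nat_lit 398) (nat_lit 0) (nat_lit 285) (nat_lit 265) (nat_lit 230)) (PT.lf (nat_lit 29336) (nat_lit 6) (nat_lit 386) (nat_lit 0) (nat_lit 286) (nat_lit 265) (nat_lit 229))) (PT.nd (nat_lit 78) (PT.lf (nat_lit 28500) (nat_lit 6) (nat_lit 375) (nat_lit 5) (nat_lit 228) (nat_lit 266) (nat_lit 286)) (PT.lf (nat_lit 29412) (nat_lit 6) (nat_lit 387) (nat_lit 5) (nat_lit 229) (nat_lit 266) (nat_lit 285)))) (PT.nd (nat_lit 156) (PT.nd (nat_lit 78) (PT.lf (nat_lit 30324) (nat_lit 6) (nat_lit 399) (nat_lit 5) (nat_lit 230) (nat_lit 266) (nat_lit 284)) (PT.lf (nat_lit 31236) (nat_lit 6) (nat_lit 411) (nat_lit 5) (nat_lit 231) (nat_lit 266) (nat_lit 283))) (PT.nd (nat_lit 78) (PT.lf (nat_lit 32148) (nat_lit 6) (nat_lit 423) (nat_lit 5) (nat_lit 232) (nat_lit 266) (nat_lit 282)) (PT.nd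 (nat_lit 78) (PT.lf (nat_lit 33136) (nat_lit 6) (nat_lit 436) (nat_lit 5) (nat_lit 233) (nat_lit 266) (nat_lit 281)) (PT.lf (nat_lit 34124) (nat_lit 6) (nat_lit 449) (nat_lit 5) (nat_lit 234) (nat_lit 266) (nat_lit 280))))))) (PT.nd (nat_lit 624) (PT.nd (nat_lit 312) (PT.nd (nat_lit 156) (PT.nd (nat_lit 78) (PT.lf (nat_lit 35264) (nat_lit 6) (nat_lit 464) (nat_lit 5) (nat_lit 235) (nat_lit 266) (nat_lit 279)) (PT.lf (nat_lit 37164) (nat_lit 6) (nat_lit 489) (nat_lit 5) (nat_lit 236) (nat_lit 266) (nat_lit 278))) (PT.nd (nat_lit 78) (PT.lf (nat_lit 38988) (nat_lit 6) (nat_lit 513) (nat_lit 5) (nat_lit 237) (nat_lit 266) (nat_lit 277)) (PT.lf (nat_lit 40736) (nat_lit 6) (nat_lit 536) (nat_lit 5) (nat_lit 238) (nat_lit 266) (nat_lit 276)))) (PT.nd (nat_lit 156) (PT.nd (nat_lit 78) (PT.lf (nat_lit 42408) (nat_lit 6) (nat_lit 558) (nat_lit 5) (nat_lit 239) (nat_lit 266) (nat_lit 275)) (PT.lf (nat_lit 44004) (nat_lit 6) (nat_lit 579) (nat_lit 5) (nat_lit 240) (nat_lit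 266) (nat_lit 274))) (PT.nd (nat_lit 78) (PT.lf (nat_lit 45524) (nat_lit 6) (nat_lit 599) (nat_lit 5) (nat_lit 241) (nat_lit 266) (nat_lit 273)) (PT.lf (nat_lit 46968) (nat_lit 6) (nat_lit 618) (nat_lit 5) (nat_lit 242) (nat_lit 266) (nat_lit 272))))) (PT.nd (nat_lit 312) (PT.nd (nat_lit 156) (PT.nd (nat_lit 78) (PT.lf (nat_lit 48336) (nat_lit 6) (nat_lit 636) (nat_lit 5) (nat_lit 243) (nat_lit 266) (nat_lit 271)) (PT.lf (nat_lit 49628) (nat_lit 6) (nat_lit 653) (nat_lit 5) (nat_lit 244) (nat_lit 266) (nat_lit 270))) (PT.nd (nat_lit 78) (PT.lf (nat_lit 50844) (nat_lit 6) (nat_lit 669) (nat_lit 5) (nat_lit 245) (nat_lit 266) (nat_lit 269)) (PT.lf (nat_lit 51984) (nat_lit 6) (nat_lit 684) (nat_lit 5) (nat_lit 246) (nat_lit 266) (nat_lit 268)))) (PT.nd (nat_lit 156) (PT.nd (nat_lit 78) (PT.lf (nat_lit 53048) (nat_lit 6) (nat_lit 698) (nat_lit 5) (nat_lit 247) (nat_lit 266) (nat_lit 267)) (PT.lf (nat_lit 54036) (nat_lit 3) (nat_lit 711) (nat_lit 4) (nat_lit 248)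 (nat_lit 266) (nat_lit 266))) (PT.nd (nat_lit 78) (PT.lf (nat_lit 54872) (nat_lit 6) (nat_lit 722) (nat_lit 4) (nat_lit 249) (nat_lit 266) (nat_lit 265)) (PT.nd (nat_lit 78) (PT.lf (nat_lit 55632) (nat_lit 6) (nat_lit 732) (nat_lit 4) (nat_lit 250) (nat_lit 266) (nat_lit 264)) (PT.lf (nat_lit 56316) (nat_lit 6) (nat_lit 741) (nat_lit 4) (nat_lit 251) (nat_lit 266) (nat_lit 263))))))))
noncomputable def pc61 : PT := (PT.nd (nat_lit 1326) (PT.nd (nat_lit 624) (PT.nd (nat_lit 312) (PT.nd (nat_lit 156) (PT.nd (nat_lit 78) (PT.lf (nat_lit 56924) (nat_lit 6) (nat_lit 749) (nat_lit 4) (nat_lit 252) (nat_lit 266) (nat_lit 262)) (PT.lf (nat_lit 57456) (nat_lit 6) (nat_lit 756) (nat_lit 4) (nat_lit 253) (nat_lit 266) (nat_lit 261))) (PT.nd (nat_lit 78) (PT.lf (nat_lit 57912) (nat_lit 6) (nat_lit 762) (nat_lit 4) (nat_lit 254) (nat_lit 266) (nat_lit 260)) (PT.lf (nat_lit 57836) (nat_lit 6) (nat_lit 761) (nat_lit 4) (nat_lit 255) (nat_lit 266) (nat_lit 259)))) (PT.nd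 (nat_lit 156) (PT.nd (nat_lit 78) (PT.lf (nat_lit 57760) (nat_lit 6) (nat_lit 760) (nat_lit 4) (nat_lit 256) (nat_lit 266) (nat_lit 258)) (PT.lf (nat_lit 57684) (nat_lit 3) (nat_lit 759) (nat_lit 2) (nat_lit 257) (nat_lit 266) (nat_lit 257))) (PT.nd (nat_lit 78) (PT.lf (nat_lit 57760) (nat_lit 6) (nat_lit 760) (nat_lit 2) (nat_lit 258) (nat_lit 266) (nat_lit 256)) (PT.lf (nat_lit 57836) (nat_lit 6) (nat_lit 761) (nat_lit 2) (nat_lit 259) (nat_lit 266) (nat_lit 255))))) (PT.nd (nat_lit 312) (PT.nd (nat_lit 156) (PT.nd (nat_lit 78) (PT.lf (nat_lit 57912) (nat_lit 6) (nat_lit 762) (nat_lit 2) (nat_lit 260) (nat_lit 266) (nat_lit 254)) (PT.lf (nat_lit 57456) (nat_lit 6) (nat_lit 756) (nat_lit 2) (nat_lit 261) (nat_lit 266) (nat_lit 253))) (PT.nd (nat_lit 78) (PT.lf (nat_lit 56924) (nat_lit 6) (nat_lit 749) (nat_lit 2) (nat_lit 262) (nat_lit 266) (nat_lit 252)) (PT.lf (nat_lit 56316) (nat_lit 6) (nat_lit 741) (nat_lit 2) (nat_lit 263) (nat_lit 266) (nat_lit 251))))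 (PT.nd (nat_lit 156) (PT.nd (nat_lit 78) (PT.lf (nat_lit 55632) (nat_lit 6) (nat_lit 732) (nat_lit 2) (nat_lit 264) (nat_lit 266) (nat_lit 250)) (PT.lf (nat_lit 54872) (nat_lit 6) (nat_lit 722) (nat_lit 2) (nat_lit 265) (nat_lit 266) (nat_lit 249))) (PT.nd (nat_lit 78) (PT.lf (nat_lit 54036) (nat_lit 3) (nat_lit 711) (nat_lit 0) (nat_lit 266) (nat_lit 266) (nat_lit 248)) (PT.nd (nat_lit 78) (PT.lf (nat_lit 53048) (nat_lit 6) (nat_lit 698) (nat_lit 0) (nat_lit 267) (nat_lit 266) (nat_lit 247)) (PT.lf (nat_lit 51984) (nat_lit 6) (nat_lit 684) (nat_lit 0) (nat_lit 268) (nat_lit 266) (nat_lit 246))))))) (PT.nd (nat_lit 624) (PT.nd (nat_lit 312) (PT.nd (nat_lit 156) (PT.nd (nat_lit 78) (PT.lf (nat_lit 50844) (nat_lit 6) (nat_lit 669) (nat_lit 0) (nat_lit 269) (nat_lit 266) (nat_lit 245)) (PT.lf (nat_lit 49628) (nat_lit 6) (nat_lit 653) (nat_lit 0) (nat_lit 270) (nat_lit 266) (nat_lit 244))) (PT.nd (nat_lit 78) (PT.lf (nat_lit 48336) (nat_lit 6) (nat_lit 636) (nat_lit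 0) (nat_lit 271) (nat_lit 266) (nat_lit 243)) (PT.lf (nat_lit 46968) (nat_lit 6) (nat_lit 618) (nat_lit 0) (nat_lit 272) (nat_lit 266) (nat_lit 242)))) (PT.nd (nat_lit 156) (PT.nd (nat_lit 78) (PT.lf (nat_lit 45524) (nat_lit 6) (nat_lit 599) (nat_lit 0) (nat_lit 273) (nat_lit 266) (nat_lit 241)) (PT.lf (nat_lit 44004) (nat_lit 6) (nat_lit 579) (nat_lit 0) (nat_lit 274) (nat_lit 266) (nat_lit 240))) (PT.nd (nat_lit 78) (PT.lf (nat_lit 42408) (nat_lit 6) (nat_lit 558) (nat_lit 0) (nat_lit 275) (nat_lit 266) (nat_lit 239)) (PT.lf (nat_lit 40736) (nat_lit 6) (nat_lit 536) (nat_lit 0) (nat_lit 276) (nat_lit 266) (nat_lit 238))))) (PT.nd (nat_lit 312) (PT.nd (nat_lit 156) (PT.nd (nat_lit 78) (PT.lf (nat_lit 38988) (nat_lit 6) (nat_lit 513) (nat_lit 0) (nat_lit 277) (nat_lit 266) (nat_lit 237)) (PT.lf (nat_lit 37164) (nat_lit 6) (nat_lit 489) (nat_lit 0) (nat_lit 278) (nat_lit 266) (nat_lit 236))) (PT.nd (nat_lit 78) (PT.lf (nat_lit 35264) (nat_lit 6) (nat_lit 464)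 (nat_lit 0) (nat_lit 279) (nat_lit 266) (nat_lit 235)) (PT.lf (nat_lit 34124) (nat_lit 6) (nat_lit 449) (nat_lit 0) (nat_lit 280) (nat_lit 266) (nat_lit 234)))) (PT.nd (nat_lit 156) (PT.nd (nat_lit 78) (PT.lf (nat_lit 33136) (nat_lit 6) (nat_lit 436) (nat_lit 0) (nat_lit 281) (nat_lit 266) (nat_lit 233)) (PT.lf (nat_lit 32148) (nat_lit 6) (nat_lit 423) (nat_lit 0) (nat_lit 282) (nat_lit 266) (nat_lit 232))) (PT.nd (nat_lit 78) (PT.lf (nat_lit 31236) (nat_lit 6) (nat_lit 411) (nat_lit 0) (nat_lit 283) (nat_lit 266) (nat_lit 231)) (PT.nd (nat_lit 78) (PT.lf (nat_lit 30324) (nat_lit 6) (nat_lit 399) (nat_lit 0) (nat_lit 284) (nat_lit 266) (nat_lit 230)) (PT.lf (nat_lit 29412) (nat_lit 6) (nat_lit 387) (nat_lit 0) (nat_lit 285) (nat_lit 266) (nat_lit 229))))))))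
noncomputable def pc62 : PT := (PT.nd (nat_lit 77844) (PT.nd (nat_lit 77142) (PT.nd (nat_lit 76830) (PT.nd (nat_lit 76674) (PT.nd (nat_lit 76596) (PT.lf (nat_lit 28500) (nat_lit 6) (nat_lit 375) (nat_lit 0) (nat_lit 286) (nat_lit 266) (nat_lit 228)) (PT.lf (nat_lit 27740) (nat_lit 6) (nat_lit 365) (nat_lit 5) (nat_lit 227) (nat_lit 267) (nat_lit 286))) (PT.nd (nat_lit 78) (PT.lf (nat_lit 28576) (nat_lit 6) (nat_lit 376) (nat_lit 5) (nat_lit 228) (nat_lit 267) (nat_lit 285)) (PT.lf (nat_lit 29488) (nat_lit 6) (nat_lit 388) (nat_lit 5) (nat_lit 229) (nat_lit 267) (nat_lit 284)))) (PT.nd (nat_lit 156) (PT.nd (nat_lit 78) (PT.lf (nat_lit 30400) (nat_lit 6) (nat_lit 400) (nat_lit 5) (nat_lit 230) (nat_lit 267) (nat_lit 283)) (PT.lf (nat_lit 31312) (nat_lit 6) (nat_lit 412) (nat_lit 5) (nat_lit 231) (nat_lit 267) (nat_lit 282))) (PT.nd (nat_lit 78) (PT.lf (nat_lit 32224) (nat_lit 6) (nat_lit 424) (nat_lit 5) (nat_lit 232) (nat_lit 267) (nat_lit 281)) (PT.lf (nat_lit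 33212) (nat_lit 6) (nat_lit 437) (nat_lit 5) (nat_lit 233) (nat_lit 267) (nat_lit 280))))) (PT.nd (nat_lit 312) (PT.nd (nat_lit 156) (PT.nd (nat_lit 78) (PT.lf (nat_lit 34200) (nat_lit 6) (nat_lit 450) (nat_lit 5) (nat_lit 234) (nat_lit 267) (nat_lit 279)) (PT.lf (nat_lit 35340) (nat_lit 6) (nat_lit 465) (nat_lit 5) (nat_lit 235) (nat_lit 267) (nat_lit 278))) (PT.nd (nat_lit 78) (PT.lf (nat_lit 37240) (nat_lit 6) (nat_lit 490) (nat_lit 5) (nat_lit 236) (nat_lit 267) (nat_lit 277)) (PT.lf (nat_lit 39064) (nat_lit 6) (nat_lit 514) (nat_lit 5) (nat_lit 237) (nat_lit 267) (nat_lit 276)))) (PT.nd (nat_lit 156) (PT.nd (nat_lit 78) (PT.lf (nat_lit 40812) (nat_lit 6) (nat_lit 537) (nat_lit 5) (nat_lit 238) (nat_lit 267) (nat_lit 275)) (PT.lf (nat_lit 42484) (nat_lit 6) (nat_lit 559) (nat_lit 5) (nat_lit 239) (nat_lit 267) (nat_lit 274))) (PT.nd (nat_lit 78) (PT.lf (nat_lit 44080) (nat_lit 6) (nat_lit 580) (nat_lit 5) (nat_lit 240) (nat_lit 267) (nat_lit 273)) (PT.nd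 (nat_lit 78) (PT.lf (nat_lit 45600) (nat_lit 6) (nat_lit 600) (nat_lit 5) (nat_lit 241) (nat_lit 267) (nat_lit 272)) (PT.lf (nat_lit 47044) (nat_lit 6) (nat_lit 619) (nat_lit 5) (nat_lit 242) (nat_lit 267) (nat_lit 271))))))) (PT.nd (nat_lit 624) (PT.nd (nat_lit 312) (PT.nd (nat_lit 156) (PT.nd (nat_lit 78) (PT.lf (nat_lit 48412) (nat_lit 6) (nat_lit 637) (nat_lit 5) (nat_lit 243) (nat_lit 267) (nat_lit 270)) (PT.lf (nat_lit 49704) (nat_lit 6) (nat_lit 654) (nat_lit 5) (nat_lit 244) (nat_lit 267) (nat_lit 269))) (PT.nd (nat_lit 78) (PT.lf (nat_lit 50920) (nat_lit 6) (nat_lit 670) (nat_lit 5) (nat_lit 245) (nat_lit 267) (nat_lit 268)) (PT.lf (nat_lit 52060) (nat_lit 3) (nat_lit 685) (nat_lit 4) (nat_lit 246) (nat_lit 267) (nat_lit 267)))) (PT.nd (nat_lit 156) (PT.nd (nat_lit 78) (PT.lf (nat_lit 53048) (nat_lit 6) (nat_lit 698) (nat_lit 4) (nat_lit 247) (nat_lit 267) (nat_lit 266)) (PT.lf (nat_lit 53960) (nat_lit 6) (nat_lit 710) (nat_lit 4) (nat_lit 248) (nat_lit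 267) (nat_lit 265))) (PT.nd (nat_lit 78) (PT.lf (nat_lit 54796) (nat_lit 6) (nat_lit 721) (nat_lit 4) (nat_lit 249) (nat_lit 267) (nat_lit 264)) (PT.lf (nat_lit 55556) (nat_lit 6) (nat_lit 731) (nat_lit 4) (nat_lit 250) (nat_lit 267) (nat_lit 263))))) (PT.nd (nat_lit 312) (PT.nd (nat_lit 156) (PT.nd (nat_lit 78) (PT.lf (nat_lit 56240) (nat_lit 6) (nat_lit 740) (nat_lit 4) (nat_lit 251) (nat_lit 267) (nat_lit 262)) (PT.lf (nat_lit 56848) (nat_lit 6) (nat_lit 748) (nat_lit 4) (nat_lit 252) (nat_lit 267) (nat_lit 261))) (PT.nd (nat_lit 78) (PT.lf (nat_lit 57380) (nat_lit 6) (nat_lit 755) (nat_lit 4) (nat_lit 253) (nat_lit 267) (nat_lit 260)) (PT.lf (nat_lit 57304) (nat_lit 6) (nat_lit 754) (nat_lit 4) (nat_lit 254) (nat_lit 267) (nat_lit 259)))) (PT.nd (nat_lit 156) (PT.nd (nat_lit 78) (PT.lf (nat_lit 57228) (nat_lit 6) (nat_lit 753) (nat_lit 4) (nat_lit 255) (nat_lit 267) (nat_lit 258)) (PT.lf (nat_lit 57152) (nat_lit 6) (nat_lit 752) (nat_lit 4) (nat_lit 256)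 (nat_lit 267) (nat_lit 257))) (PT.nd (nat_lit 78) (PT.lf (nat_lit 57152) (nat_lit 6) (nat_lit 752) (nat_lit 2) (nat_lit 257) (nat_lit 267) (nat_lit 256)) (PT.nd (nat_lit 78) (PT.lf (nat_lit 57228) (nat_lit 6) (nat_lit 753) (nat_lit 2) (nat_lit 258) (nat_lit 267) (nat_lit 255)) (PT.lf (nat_lit 57304) (nat_lit 6) (nat_lit 754) (nat_lit 2) (nat_lit 259) (nat_lit 267) (nat_lit 254))))))))
noncomputable def pc63 : PT := (PT.nd (nat_lit 1326) (PT.nd (nat_lit 624) (PT.nd (nat_lit 312) (PT.nd (nat_lit 156) (PT.nd (nat_lit 78) (PT.lf (nat_lit 57380) (nat_lit 6) (nat_lit 755) (nat_lit 2) (nat_lit 260) (nat_lit 267) (nat_lit 253)) (PT.lf (nat_lit 56848) (nat_lit 6) (nat_lit 748) (nat_lit 2) (nat_lit 261) (nat_lit 267) (nat_lit 252))) (PT.nd (nat_lit 78) (PT.lf (nat_lit 56240) (nat_lit 6) (nat_lit 740) (nat_lit 2) (nat_lit 262) (nat_lit 267) (nat_lit 251)) (PT.lf (nat_lit 55556) (nat_lit 6) (nat_lit 731) (nat_lit 2) (nat_lit 263) (nat_lit 267) (nat_lit 250)))) (PT.nd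 (nat_lit 156) (PT.nd (nat_lit 78) (PT.lf (nat_lit 54796) (nat_lit 6) (nat_lit 721) (nat_lit 2) (nat_lit 264) (nat_lit 267) (nat_lit 249)) (PT.lf (nat_lit 53960) (nat_lit 6) (nat_lit 710) (nat_lit 2) (nat_lit 265) (nat_lit 267) (nat_lit 248))) (PT.nd (nat_lit 78) (PT.lf (nat_lit 53048) (nat_lit 6) (nat_lit 698) (nat_lit 2) (nat_lit 266) (nat_lit 267) (nat_lit 247)) (PT.lf (nat_lit 52060) (nat_lit 3) (nat_lit 685) (nat_lit 0) (nat_lit 267) (nat_lit 267) (nat_lit 246))))) (PT.nd (nat_lit 312) (PT.nd (nat_lit 156) (PT.nd (nat_lit 78) (PT.lf (nat_lit 50920) (nat_lit 6) (nat_lit 670) (nat_lit 0) (nat_lit 268) (nat_lit 267) (nat_lit 245)) (PT.lf (nat_lit 49704) (nat_lit 6) (nat_lit 654) (nat_lit 0) (nat_lit 269) (nat_lit 267) (nat_lit 244))) (PT.nd (nat_lit 78) (PT.lf (nat_lit 48412) (nat_lit 6) (nat_lit 637) (nat_lit 0) (nat_lit 270) (nat_lit 267) (nat_lit 243)) (PT.lf (nat_lit 47044) (nat_lit 6) (nat_lit 619) (nat_lit 0) (nat_lit 271) (nat_lit 267) (nat_lit 242))))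 (PT.nd (nat_lit 156) (PT.nd (nat_lit 78) (PT.lf (nat_lit 45600) (nat_lit 6) (nat_lit 600) (nat_lit 0) (nat_lit 272) (nat_lit 267) (nat_lit 241)) (PT.lf (nat_lit 44080) (nat_lit 6) (nat_lit 580) (nat_lit 0) (nat_lit 273) (nat_lit 267) (nat_lit 240))) (PT.nd (nat_lit 78) (PT.lf (nat_lit 42484) (nat_lit 6) (nat_lit 559) (nat_lit 0) (nat_lit 274) (nat_lit 267) (nat_lit 239)) (PT.nd (nat_lit 78) (PT.lf (nat_lit 40812) (nat_lit 6) (nat_lit 537) (nat_lit 0) (nat_lit 275) (nat_lit 267) (nat_lit 238)) (PT.lf (nat_lit 39064) (nat_lit 6) (nat_lit 514) (nat_lit 0) (nat_lit 276) (nat_lit 267) (nat_lit 237))))))) (PT.nd (nat_lit 702) (PT.nd (nat_lit 312) (PT.nd (nat_lit 156) (PT.nd (nat_lit 78) (PT.lf (nat_lit 37240) (nat_lit 6) (nat_lit 490) (nat_lit 0) (nat_lit 277) (nat_lit 267) (nat_lit 236)) (PT.lf (nat_lit 35340) (nat_lit 6) (nat_lit 465) (nat_lit 0) (nat_lit 278) (nat_lit 267) (nat_lit 235))) (PT.nd (nat_lit 78) (PT.lf (nat_lit 34200) (nat_lit 6) (nat_lit 450) (nat_lit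 0) (nat_lit 279) (nat_lit 267) (nat_lit 234)) (PT.lf (nat_lit 33212) (nat_lit 6) (nat_lit 437) (nat_lit 0) (nat_lit 280) (nat_lit 267) (nat_lit 233)))) (PT.nd (nat_lit 156) (PT.nd (nat_lit 78) (PT.lf (nat_lit 32224) (nat_lit 6) (nat_lit 424) (nat_lit 0) (nat_lit 281) (nat_lit 267) (nat_lit 232)) (PT.lf (nat_lit 31312) (nat_lit 6) (nat_lit 412) (nat_lit 0) (nat_lit 282) (nat_lit 267) (nat_lit 231))) (PT.nd (nat_lit 78) (PT.lf (nat_lit 30400) (nat_lit 6) (nat_lit 400) (nat_lit 0) (nat_lit 283) (nat_lit 267) (nat_lit 230)) (PT.nd (nat_lit 78) (PT.lf (nat_lit 29488) (nat_lit 6) (nat_lit 388) (nat_lit 0) (nat_lit 284) (nat_lit 267) (nat_lit 229)) (PT.lf (nat_lit 28576) (nat_lit 6) (nat_lit 376) (nat_lit 0) (nat_lit 285) (nat_lit 267) (nat_lit 228)))))) (PT.nd (nat_lit 76674) (PT.nd (nat_lit 76518) (PT.nd (nat_lit 76440) (PT.lf (nat_lit 27740) (nat_lit 6) (nat_lit 365) (nat_lit 0) (nat_lit 286) (nat_lit 267) (nat_lit 227)) (PT.lf (nat_lit 26220) (nat_lit 6) (nat_lit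 345) (nat_lit 5) (nat_lit 225) (nat_lit 268) (nat_lit 287))) (PT.nd (nat_lit 78) (PT.lf (nat_lit 26980) (nat_lit 6) (nat_lit 355) (nat_lit 5) (nat_lit 226) (nat_lit 268) (nat_lit 286)) (PT.lf (nat_lit 27816) (nat_lit 6) (nat_lit 366) (nat_lit 5) (nat_lit 227) (nat_lit 268) (nat_lit 285)))) (PT.nd (nat_lit 156) (PT.nd (nat_lit 78) (PT.lf (nat_lit 28652) (nat_lit 6) (nat_lit 377) (nat_lit 5) (nat_lit 228) (nat_lit 268) (nat_lit 284)) (PT.lf (nat_lit 29564) (nat_lit 6) (nat_lit 389) (nat_lit 5) (nat_lit 229) (nat_lit 268) (nat_lit 283))) (PT.nd (nat_lit 78) (PT.lf (nat_lit 30476) (nat_lit 6) (nat_lit 401) (nat_lit 5) (nat_lit 230) (nat_lit 268) (nat_lit 282)) (PT.nd (nat_lit 78) (PT.lf (nat_lit 31388) (nat_lit 6) (nat_lit 413) (nat_lit 5) (nat_lit 231) (nat_lit 268) (nat_lit 281)) (PT.lf (nat_lit 32300) (nat_lit 6) (nat_lit 425) (nat_lit 5) (nat_lit 232) (nat_lit 268) (nat_lit 280))))))))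
noncomputable def pc64 : PT := (PT.nd (nat_lit 1326) (PT.nd (nat_lit 624) (PT.nd (nat_lit 312) (PT.nd (nat_lit 156) (PT.nd (nat_lit 78) (PT.lf (nat_lit 33288) (nat_lit 6) (nat_lit 438) (nat_lit 5) (nat_lit 233) (nat_lit 268) (nat_lit 279)) (PT.lf (nat_lit 34276) (nat_lit 6) (nat_lit 451) (nat_lit 5) (nat_lit 234) (nat_lit 268) (nat_lit 278))) (PT.nd (nat_lit 78) (PT.lf (nat_lit 35416) (nat_lit 6) (nat_lit 466) (nat_lit 5) (nat_lit 235) (nat_lit 268) (nat_lit 277)) (PT.lf (nat_lit 37316) (nat_lit 6) (nat_lit 491) (nat_lit 5) (nat_lit 236) (nat_lit 268) (nat_lit 276)))) (PT.nd (nat_lit 156) (PT.nd (nat_lit 78) (PT.lf (nat_lit 39140) (nat_lit 6) (nat_lit 515) (nat_lit 5) (nat_lit 237) (nat_lit 268) (nat_lit 275)) (PT.lf (nat_lit 40888) (nat_lit 6) (nat_lit 538) (nat_lit 5) (nat_lit 238) (nat_lit 268) (nat_lit 274))) (PT.nd (nat_lit 78) (PT.lf (nat_lit 42560) (nat_lit 6) (nat_lit 560) (nat_lit 5) (nat_lit 239) (nat_lit 268) (nat_lit 273)) (PT.lf (nat_lit 44156)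 (nat_lit 6) (nat_lit 581) (nat_lit 5) (nat_lit 240) (nat_lit 268) (nat_lit 272))))) (PT.nd (nat_lit 312) (PT.nd (nat_lit 156) (PT.nd (nat_lit 78) (PT.lf (nat_lit 45676) (nat_lit 6) (nat_lit 601) (nat_lit 5) (nat_lit 241) (nat_lit 268) (nat_lit 271)) (PT.lf (nat_lit 47120) (nat_lit 6) (nat_lit 620) (nat_lit 5) (nat_lit 242) (nat_lit 268) (nat_lit 270))) (PT.nd (nat_lit 78) (PT.lf (nat_lit 48488) (nat_lit 6) (nat_lit 638) (nat_lit 5) (nat_lit 243) (nat_lit 268) (nat_lit 269)) (PT.lf (nat_lit 49780) (nat_lit 3) (nat_lit 655) (nat_lit 4) (nat_lit 244) (nat_lit 268) (nat_lit 268)))) (PT.nd (nat_lit 156) (PT.nd (nat_lit 78) (PT.lf (nat_lit 50920) (nat_lit 6) (nat_lit 670) (nat_lit 4) (nat_lit 245) (nat_lit 268) (nat_lit 267)) (PT.lf (nat_lit 51984) (nat_lit 6) (nat_lit 684) (nat_lit 4) (nat_lit 246) (nat_lit 268) (nat_lit 266))) (PT.nd (nat_lit 78) (PT.lf (nat_lit 52972) (nat_lit 6) (nat_lit 697) (nat_lit 4) (nat_lit 247) (nat_lit 268) (nat_lit 265)) (PT.nd (nat_lit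 78) (PT.lf (nat_lit 53884) (nat_lit 6) (nat_lit 709) (nat_lit 4) (nat_lit 248) (nat_lit 268) (nat_lit 264)) (PT.lf (nat_lit 54720) (nat_lit 6) (nat_lit 720) (nat_lit 4) (nat_lit 249) (nat_lit 268) (nat_lit 263))))))) (PT.nd (nat_lit 624) (PT.nd (nat_lit 312) (PT.nd (nat_lit 156) (PT.nd (nat_lit 78) (PT.lf (nat_lit 55480) (nat_lit 6) (nat_lit 730) (nat_lit 4) (nat_lit 250) (nat_lit 268) (nat_lit 262)) (PT.lf (nat_lit 56164) (nat_lit 6) (nat_lit 739) (nat_lit 4) (nat_lit 251) (nat_lit 268) (nat_lit 261))) (PT.nd (nat_lit 78) (PT.lf (nat_lit 56772) (nat_lit 6) (nat_lit 747) (nat_lit 4) (nat_lit 252) (nat_lit 268) (nat_lit 260)) (PT.lf (nat_lit 56696) (nat_lit 6) (nat_lit 746) (nat_lit 4) (nat_lit 253) (nat_lit 268) (nat_lit 259)))) (PT.nd (nat_lit 156) (PT.nd (nat_lit 78) (PT.lf (nat_lit 56620) (nat_lit 6) (nat_lit 745) (nat_lit 4) (nat_lit 254) (nat_lit 268) (nat_lit 258)) (PT.lf (nat_lit 56544) (nat_lit 6) (nat_lit 744) (nat_lit 4) (nat_lit 255) (nat_lit 268)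 (nat_lit 257))) (PT.nd (nat_lit 78) (PT.lf (nat_lit 56468) (nat_lit 3) (nat_lit 743) (nat_lit 2) (nat_lit 256) (nat_lit 268) (nat_lit 256)) (PT.lf (nat_lit 56544) (nat_lit 6) (nat_lit 744) (nat_lit 2) (nat_lit 257) (nat_lit 268) (nat_lit 255))))) (PT.nd (nat_lit 312) (PT.nd (nat_lit 156) (PT.nd (nat_lit 78) (PT.lf (nat_lit 56620) (nat_lit 6) (nat_lit 745) (nat_lit 2) (nat_lit 258) (nat_lit 268) (nat_lit 254)) (PT.lf (nat_lit 56696) (nat_lit 6) (nat_lit 746) (nat_lit 2) (nat_lit 259) (nat_lit 268) (nat_lit 253))) (PT.nd (nat_lit 78) (PT.lf (nat_lit 56772) (nat_lit 6) (nat_lit 747) (nat_lit 2) (nat_lit 260) (nat_lit 268) (nat_lit 252)) (PT.lf (nat_lit 56164) (nat_lit 6) (nat_lit 739) (nat_lit 2) (nat_lit 261) (nat_lit 268) (nat_lit 251)))) (PT.nd (nat_lit 156) (PT.nd (nat_lit 78) (PT.lf (nat_lit 55480) (nat_lit 6) (nat_lit 730) (nat_lit 2) (nat_lit 262) (nat_lit 268) (nat_lit 250)) (PT.lf (nat_lit 54720) (nat_lit 6) (nat_lit 720) (nat_lit 2) (nat_lit 263) (nat_lit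 268) (nat_lit 249))) (PT.nd (nat_lit 78) (PT.lf (nat_lit 53884) (nat_lit 6) (nat_lit 709) (nat_lit 2) (nat_lit 264) (nat_lit 268) (nat_lit 248)) (PT.nd (nat_lit 78) (PT.lf (nat_lit 52972) (nat_lit 6) (nat_lit 697) (nat_lit 2) (nat_lit 265) (nat_lit 268) (nat_lit 247)) (PT.lf (nat_lit 51984) (nat_lit 6) (nat_lit 684) (nat_lit 2) (nat_lit 266) (nat_lit 268) (nat_lit 246))))))))
noncomputable def pc65 : PT := (PT.nd (nat_lit 1326) (PT.nd (nat_lit 624) (PT.nd (nat_lit 312) (PT.nd (nat_lit 156) (PT.nd (nat_lit 78) (PT.lf (nat_lit 50920) (nat_lit 6) (nat_lit 670) (nat_lit 2) (nat_lit 267) (nat_lit 268) (nat_lit 245)) (PT.lf (nat_lit 49780) (nat_lit 3) (nat_lit 655) (nat_lit 0) (nat_lit 268) (nat_lit 268) (nat_lit 244))) (PT.nd (nat_lit 78) (PT.lf (nat_lit 48488) (nat_lit 6) (nat_lit 638) (nat_lit 0) (nat_lit 269) (nat_lit 268) (nat_lit 243)) (PT.lf (nat_lit 47120) (nat_lit 6) (nat_lit 620) (nat_lit 0) (nat_lit 270) (nat_lit 268) (nat_lit 242)))) (PT.nd (nat_lit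 156) (PT.nd (nat_lit 78) (PT.lf (nat_lit 45676) (nat_lit 6) (nat_lit 601) (nat_lit 0) (nat_lit 271) (nat_lit 268) (nat_lit 241)) (PT.lf (nat_lit 44156) (nat_lit 6) (nat_lit 581) (nat_lit 0) (nat_lit 272) (nat_lit 268) (nat_lit 240))) (PT.nd (nat_lit 78) (PT.lf (nat_lit 42560) (nat_lit 6) (nat_lit 560) (nat_lit 0) (nat_lit 273) (nat_lit 268) (nat_lit 239)) (PT.lf (nat_lit 40888) (nat_lit 6) (nat_lit 538) (nat_lit 0) (nat_lit 274) (nat_lit 268) (nat_lit 238))))) (PT.nd (nat_lit 312) (PT.nd (nat_lit 156) (PT.nd (nat_lit 78) (PT.lf (nat_lit 39140) (nat_lit 6) (nat_lit 515) (nat_lit 0) (nat_lit 275) (nat_lit 268) (nat_lit 237)) (PT.lf (nat_lit 37316) (nat_lit 6) (nat_lit 491) (nat_lit 0) (nat_lit 276) (nat_lit 268) (nat_lit 236))) (PT.nd (nat_lit 78) (PT.lf (nat_lit 35416) (nat_lit 6) (nat_lit 466) (nat_lit 0) (nat_lit 277) (nat_lit 268) (nat_lit 235)) (PT.lf (nat_lit 34276) (nat_lit 6) (nat_lit 451) (nat_lit 0) (nat_lit 278) (nat_lit 268) (nat_lit 234)))) (PT.nd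 (nat_lit 156) (PT.nd (nat_lit 78) (PT.lf (nat_lit 33288) (nat_lit 6) (nat_lit 438) (nat_lit 0) (nat_lit 279) (nat_lit 268) (nat_lit 233)) (PT.lf (nat_lit 32300) (nat_lit 6) (nat_lit 425) (nat_lit 0) (nat_lit 280) (nat_lit 268) (nat_lit 232))) (PT.nd (nat_lit 78) (PT.lf (nat_lit 31388) (nat_lit 6) (nat_lit 413) (nat_lit 0) (nat_lit 281) (nat_lit 268) (nat_lit 231)) (PT.nd (nat_lit 78) (PT.lf (nat_lit 30476) (nat_lit 6) (nat_lit 401) (nat_lit 0) (nat_lit 282) (nat_lit 268) (nat_lit 230)) (PT.lf (nat_lit 29564) (nat_lit 6) (nat_lit 389) (nat_lit 0) (nat_lit 283) (nat_lit 268) (nat_lit 229))))))) (PT.nd (nat_lit 76830) (PT.nd (nat_lit 76518) (PT.nd (nat_lit 156) (PT.nd (nat_lit 78) (PT.lf (nat_lit 28652) (nat_lit 6) (nat_lit 377) (nat_lit 0) (nat_lit 284) (nat_lit 268) (nat_lit 228)) (PT.lf (nat_lit 27816) (nat_lit 6) (nat_lit 366) (nat_lit 0) (nat_lit 285) (nat_lit 268) (nat_lit 227))) (PT.nd (nat_lit 78) (PT.lf (nat_lit 26980) (nat_lit 6) (nat_lit 355) (nat_lit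 0) (nat_lit 286) (nat_lit 268) (nat_lit 226)) (PT.lf (nat_lit 26220) (nat_lit 6) (nat_lit 345) (nat_lit 0) (nat_lit 287) (nat_lit 268) (nat_lit 225)))) (PT.nd (nat_lit 156) (PT.nd (nat_lit 78) (PT.lf (nat_lit 25460) (nat_lit 6) (nat_lit 335) (nat_lit 5) (nat_lit 224) (nat_lit 269) (nat_lit 287)) (PT.lf (nat_lit 26296) (nat_lit 6) (nat_lit 346) (nat_lit 5) (nat_lit 225) (nat_lit 269) (nat_lit 286))) (PT.nd (nat_lit 78) (PT.lf (nat_lit 27056) (nat_lit 6) (nat_lit 356) (nat_lit 5) (nat_lit 226) (nat_lit 269) (nat_lit 285)) (PT.lf (nat_lit 27892) (nat_lit 6) (nat_lit 367) (nat_lit 5) (nat_lit 227) (nat_lit 269) (nat_lit 284))))) (PT.nd (nat_lit 312) (PT.nd (nat_lit 156) (PT.nd (nat_lit 78) (PT.lf (nat_lit 28728) (nat_lit 6) (nat_lit 378) (nat_lit 5) (nat_lit 228) (nat_lit 269) (nat_lit 283)) (PT.lf (nat_lit 29640) (nat_lit 6) (nat_lit 390) (nat_lit 5) (nat_lit 229) (nat_lit 269) (nat_lit 282))) (PT.nd (nat_lit 78) (PT.lf (nat_lit 30552) (nat_lit 6) (nat_lit 402)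 (nat_lit 5) (nat_lit 230) (nat_lit 269) (nat_lit 281)) (PT.lf (nat_lit 31464) (nat_lit 6) (nat_lit 414) (nat_lit 5) (nat_lit 231) (nat_lit 269) (nat_lit 280)))) (PT.nd (nat_lit 156) (PT.nd (nat_lit 78) (PT.lf (nat_lit 32376) (nat_lit 6) (nat_lit 426) (nat_lit 5) (nat_lit 232) (nat_lit 269) (nat_lit 279)) (PT.lf (nat_lit 33364) (nat_lit 6) (nat_lit 439) (nat_lit 5) (nat_lit 233) (nat_lit 269) (nat_lit 278))) (PT.nd (nat_lit 78) (PT.lf (nat_lit 34352) (nat_lit 6) (nat_lit 452) (nat_lit 5) (nat_lit 234) (nat_lit 269) (nat_lit 277)) (PT.nd (nat_lit 78) (PT.lf (nat_lit 35492) (nat_lit 6) (nat_lit 467) (nat_lit 5) (nat_lit 235) (nat_lit 269) (nat_lit 276)) (PT.lf (nat_lit 37392) (nat_lit 6) (nat_lit 492) (nat_lit 5) (nat_lit 236) (nat_lit 269) (nat_lit 275))))))))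
noncomputable def pc66 : PT := (PT.nd (nat_lit 1326) (PT.nd (nat_lit 624) (PT.nd (nat_lit 312) (PT.nd (nat_lit 156) (PT.nd (nat_lit 78) (PT.lf (nat_lit 39216) (nat_lit 6) (nat_lit 516) (nat_lit 5) (nat_lit 237) (nat_lit 269) (nat_lit 274)) (PT.lf (nat_lit 40964) (nat_lit 6) (nat_lit 539) (nat_lit 5) (nat_lit 238) (nat_lit 269) (nat_lit 273))) (PT.nd (nat_lit 78) (PT.lf (nat_lit 42636) (nat_lit 6) (nat_lit 561) (nat_lit 5) (nat_lit 239) (nat_lit 269) (nat_lit 272)) (PT.lf (nat_lit 44232) (nat_lit 6) (nat_lit 582) (nat_lit 5) (nat_lit 240) (nat_lit 269) (nat_lit 271)))) (PT.nd (nat_lit 156) (PT.nd (nat_lit 78) (PT.lf (nat_lit 45752) (nat_lit 6) (nat_lit 602) (nat_lit 5) (nat_lit 241) (nat_lit 269) (nat_lit 270)) (PT.lf (nat_lit 47196) (nat_lit 3) (nat_lit 621) (nat_lit 4) (nat_lit 242) (nat_lit 269) (nat_lit 269))) (PT.nd (nat_lit 78) (PT.lf (nat_lit 48488) (nat_lit 6) (nat_lit 638) (nat_lit 4) (nat_lit 243) (nat_lit 269) (nat_lit 268)) (PT.lf (nat_lit 49704)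 (nat_lit 6) (nat_lit 654) (nat_lit 4) (nat_lit 244) (nat_lit 269) (nat_lit 267))))) (PT.nd (nat_lit 312) (PT.nd (nat_lit 156) (PT.nd (nat_lit 78) (PT.lf (nat_lit 50844) (nat_lit 6) (nat_lit 669) (nat_lit 4) (nat_lit 245) (nat_lit 269) (nat_lit 266)) (PT.lf (nat_lit 51908) (nat_lit 6) (nat_lit 683) (nat_lit 4) (nat_lit 246) (nat_lit 269) (nat_lit 265))) (PT.nd (nat_lit 78) (PT.lf (nat_lit 52896) (nat_lit 6) (nat_lit 696) (nat_lit 4) (nat_lit 247) (nat_lit 269) (nat_lit 264)) (PT.lf (nat_lit 53808) (nat_lit 6) (nat_lit 708) (nat_lit 4) (nat_lit 248) (nat_lit 269) (nat_lit 263)))) (PT.nd (nat_lit 156) (PT.nd (nat_lit 78) (PT.lf (nat_lit 54644) (nat_lit 6) (nat_lit 719) (nat_lit 4) (nat_lit 249) (nat_lit 269) (nat_lit 262)) (PT.lf (nat_lit 55404) (nat_lit 6) (nat_lit 729) (nat_lit 4) (nat_lit 250) (nat_lit 269) (nat_lit 261))) (PT.nd (nat_lit 78) (PT.lf (nat_lit 56088) (nat_lit 6) (nat_lit 738) (nat_lit 4) (nat_lit 251) (nat_lit 269) (nat_lit 260)) (PT.nd (nat_lit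 78) (PT.lf (nat_lit 56012) (nat_lit 6) (nat_lit 737) (nat_lit 4) (nat_lit 252) (nat_lit 269) (nat_lit 259)) (PT.lf (nat_lit 55936) (nat_lit 6) (nat_lit 736) (nat_lit 4) (nat_lit 253) (nat_lit 269) (nat_lit 258))))))) (PT.nd (nat_lit 624) (PT.nd (nat_lit 312) (PT.nd (nat_lit 156) (PT.nd (nat_lit 78) (PT.lf (nat_lit 55860) (nat_lit 6) (nat_lit 735) (nat_lit 4) (nat_lit 254) (nat_lit 269) (nat_lit 257)) (PT.lf (nat_lit 55784) (nat_lit 6) (nat_lit 734) (nat_lit 4) (nat_lit 255) (nat_lit 269) (nat_lit 256))) (PT.nd (nat_lit 78) (PT.lf (nat_lit 55784) (nat_lit 6) (nat_lit 734) (nat_lit 2) (nat_lit 256) (nat_lit 269) (nat_lit 255)) (PT.lf (nat_lit 55860) (nat_lit 6) (nat_lit 735) (nat_lit 2) (nat_lit 257) (nat_lit 269) (nat_lit 254)))) (PT.nd (nat_lit 156) (PT.nd (nat_lit 78) (PT.lf (nat_lit 55936) (nat_lit 6) (nat_lit 736) (nat_lit 2) (nat_lit 258) (nat_lit 269) (nat_lit 253)) (PT.lf (nat_lit 56012) (nat_lit 6) (nat_lit 737) (nat_lit 2) (nat_lit 259) (nat_lit 269)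 (nat_lit 252))) (PT.nd (nat_lit 78) (PT.lf (nat_lit 56088) (nat_lit 6) (nat_lit 738) (nat_lit 2) (nat_lit 260) (nat_lit 269) (nat_lit 251)) (PT.lf (nat_lit 55404) (nat_lit 6) (nat_lit 729) (nat_lit 2) (nat_lit 261) (nat_lit 269) (nat_lit 250))))) (PT.nd (nat_lit 312) (PT.nd (nat_lit 156) (PT.nd (nat_lit 78) (PT.lf (nat_lit 54644) (nat_lit 6) (nat_lit 719) (nat_lit 2) (nat_lit 262) (nat_lit 269) (nat_lit 249)) (PT.lf (nat_lit 53808) (nat_lit 6) (nat_lit 708) (nat_lit 2) (nat_lit 263) (nat_lit 269) (nat_lit 248))) (PT.nd (nat_lit 78) (PT.lf (nat_lit 52896) (nat_lit 6) (nat_lit 696) (nat_lit 2) (nat_lit 264) (nat_lit 269) (nat_lit 247)) (PT.lf (nat_lit 51908) (nat_lit 6) (nat_lit 683) (nat_lit 2) (nat_lit 265) (nat_lit 269) (nat_lit 246)))) (PT.nd (nat_lit 156) (PT.nd (nat_lit 78) (PT.lf (nat_lit 50844) (nat_lit 6) (nat_lit 669) (nat_lit 2) (nat_lit 266) (nat_lit 269) (nat_lit 245)) (PT.lf (nat_lit 49704) (nat_lit 6) (nat_lit 654) (nat_lit 2) (nat_lit 267) (nat_lit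 269) (nat_lit 244))) (PT.nd (nat_lit 78) (PT.lf (nat_lit 48488) (nat_lit 6) (nat_lit 638) (nat_lit 2) (nat_lit 268) (nat_lit 269) (nat_lit 243)) (PT.nd (nat_lit 78) (PT.lf (nat_lit 47196) (nat_lit 3) (nat_lit 621) (nat_lit 0) (nat_lit 269) (nat_lit 269) (nat_lit 242)) (PT.lf (nat_lit 45752) (nat_lit 6) (nat_lit 602) (nat_lit 0) (nat_lit 270) (nat_lit 269) (nat_lit 241))))))))
noncomputable def pc67 : PT := (PT.nd (nat_lit 77454) (PT.nd (nat_lit 624) (PT.nd (nat_lit 312) (PT.nd (nat_lit 156) (PT.nd (nat_lit 78) (PT.lf (nat_lit 44232) (nat_lit 6) (nat_lit 582) (nat_lit 0) (nat_lit 271) (nat_lit 269) (nat_lit 240)) (PT.lf (nat_lit 42636) (nat_lit 6) (nat_lit 561) (nat_lit 0) (nat_lit 272) (nat_lit 269) (nat_lit 239))) (PT.nd (nat_lit 78) (PT.lf (nat_lit 40964) (nat_lit 6) (nat_lit 539) (nat_lit 0) (nat_lit 273) (nat_lit 269) (nat_lit 238)) (PT.lf (nat_lit 39216) (nat_lit 6) (nat_lit 516) (nat_lit 0) (nat_lit 274) (nat_lit 269) (nat_lit 237)))) (PT.nd (nat_lit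 156) (PT.nd (nat_lit 78) (PT.lf (nat_lit 37392) (nat_lit 6) (nat_lit 492) (nat_lit 0) (nat_lit 275) (nat_lit 269) (nat_lit 236)) (PT.lf (nat_lit 35492) (nat_lit 6) (nat_lit 467) (nat_lit 0) (nat_lit 276) (nat_lit 269) (nat_lit 235))) (PT.nd (nat_lit 78) (PT.lf (nat_lit 34352) (nat_lit 6) (nat_lit 452) (nat_lit 0) (nat_lit 277) (nat_lit 269) (nat_lit 234)) (PT.lf (nat_lit 33364) (nat_lit 6) (nat_lit 439) (nat_lit 0) (nat_lit 278) (nat_lit 269) (nat_lit 233))))) (PT.nd (nat_lit 312) (PT.nd (nat_lit 156) (PT.nd (nat_lit 78) (PT.lf (nat_lit 32376) (nat_lit 6) (nat_lit 426) (nat_lit 0) (nat_lit 279) (nat_lit 269) (nat_lit 232)) (PT.lf (nat_lit 31464) (nat_lit 6) (nat_lit 414) (nat_lit 0) (nat_lit 280) (nat_lit 269) (nat_lit 231))) (PT.nd (nat_lit 78) (PT.lf (nat_lit 30552) (nat_lit 6) (nat_lit 402) (nat_lit 0) (nat_lit 281) (nat_lit 269) (nat_lit 230)) (PT.lf (nat_lit 29640) (nat_lit 6) (nat_lit 390) (nat_lit 0) (nat_lit 282) (nat_lit 269) (nat_lit 229)))) (PT.nd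 (nat_lit 156) (PT.nd (nat_lit 78) (PT.lf (nat_lit 28728) (nat_lit 6) (nat_lit 378) (nat_lit 0) (nat_lit 283) (nat_lit 269) (nat_lit 228)) (PT.lf (nat_lit 27892) (nat_lit 6) (nat_lit 367) (nat_lit 0) (nat_lit 284) (nat_lit 269) (nat_lit 227))) (PT.nd (nat_lit 78) (PT.lf (nat_lit 27056) (nat_lit 6) (nat_lit 356) (nat_lit 0) (nat_lit 285) (nat_lit 269) (nat_lit 226)) (PT.nd (nat_lit 78) (PT.lf (nat_lit 26296) (nat_lit 6) (nat_lit 346) (nat_lit 0) (nat_lit 286) (nat_lit 269) (nat_lit 225)) (PT.lf (nat_lit 25460) (nat_lit 6) (nat_lit 335) (nat_lit 0) (nat_lit 287) (nat_lit 269) (nat_lit 224))))))) (PT.nd (nat_lit 624) (PT.nd (nat_lit 312) (PT.nd (nat_lit 156) (PT.nd (nat_lit 78) (PT.lf (nat_lit 24776) (nat_lit 6) (nat_lit 326) (nat_lit 5) (nat_lit 223) (nat_lit 270) (nat_lit 287)) (PT.lf (nat_lit 25536) (nat_lit 6) (nat_lit 336) (nat_lit 5) (nat_lit 224) (nat_lit 270) (nat_lit 286))) (PT.nd (nat_lit 78) (PT.lf (nat_lit 26372) (nat_lit 6) (nat_lit 347) (nat_lit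 5) (nat_lit 225) (nat_lit 270) (nat_lit 285)) (PT.lf (nat_lit 27132) (nat_lit 6) (nat_lit 357) (nat_lit 5) (nat_lit 226) (nat_lit 270) (nat_lit 284)))) (PT.nd (nat_lit 156) (PT.nd (nat_lit 78) (PT.lf (nat_lit 27968) (nat_lit 6) (nat_lit 368) (nat_lit 5) (nat_lit 227) (nat_lit 270) (nat_lit 283)) (PT.lf (nat_lit 28804) (nat_lit 6) (nat_lit 379) (nat_lit 5) (nat_lit 228) (nat_lit 270) (nat_lit 282))) (PT.nd (nat_lit 78) (PT.lf (nat_lit 29716) (nat_lit 6) (nat_lit 391) (nat_lit 5) (nat_lit 229) (nat_lit 270) (nat_lit 281)) (PT.lf (nat_lit 30628) (nat_lit 6) (nat_lit 403) (nat_lit 5) (nat_lit 230) (nat_lit 270) (nat_lit 280))))) (PT.nd (nat_lit 312) (PT.nd (nat_lit 156) (PT.nd (nat_lit 78) (PT.lf (nat_lit 31540) (nat_lit 6) (nat_lit 415) (nat_lit 5) (nat_lit 231) (nat_lit 270) (nat_lit 279)) (PT.lf (nat_lit 32452) (nat_lit 6) (nat_lit 427) (nat_lit 5) (nat_lit 232) (nat_lit 270) (nat_lit 278))) (PT.nd (nat_lit 78) (PT.lf (nat_lit 33440) (nat_lit 6) (nat_lit 440)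 (nat_lit 5) (nat_lit 233) (nat_lit 270) (nat_lit 277)) (PT.lf (nat_lit 34428) (nat_lit 6) (nat_lit 453) (nat_lit 5) (nat_lit 234) (nat_lit 270) (nat_lit 276)))) (PT.nd (nat_lit 156) (PT.nd (nat_lit 78) (PT.lf (nat_lit 35568) (nat_lit 6) (nat_lit 468) (nat_lit 5) (nat_lit 235) (nat_lit 270) (nat_lit 275)) (PT.lf (nat_lit 37468) (nat_lit 6) (nat_lit 493) (nat_lit 5) (nat_lit 236) (nat_lit 270) (nat_lit 274))) (PT.nd (nat_lit 78) (PT.lf (nat_lit 39292) (nat_lit 6) (nat_lit 517) (nat_lit 5) (nat_lit 237) (nat_lit 270) (nat_lit 273)) (PT.nd (nat_lit 78) (PT.lf (nat_lit 41040) (nat_lit 6) (nat_lit 540) (nat_lit 5) (nat_lit 238) (nat_lit 270) (nat_lit 272)) (PT.lf (nat_lit 42712) (nat_lit 6) (nat_lit 562) (nat_lit 5) (nat_lit 239) (nat_lit 270) (nat_lit 271))))))))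
noncomputable def pc68 : PT := (PT.nd (nat_lit 1326) (PT.nd (nat_lit 624) (PT.nd (nat_lit 312) (PT.nd (nat_lit 156) (PT.nd (nat_lit 78) (PT.lf (nat_lit 44308) (nat_lit 3) (nat_lit 583) (nat_lit 4) (nat_lit 240) (nat_lit 270) (nat_lit 270)) (PT.lf (nat_lit 45752) (nat_lit 6) (nat_lit 602) (nat_lit 4) (nat_lit 241) (nat_lit 270) (nat_lit 269))) (PT.nd (nat_lit 78) (PT.lf (nat_lit 47120) (nat_lit 6) (nat_lit 620) (nat_lit 4) (nat_lit 242) (nat_lit 270) (nat_lit 268)) (PT.lf (nat_lit 48412) (nat_lit 6) (nat_lit 637) (nat_lit 4) (nat_lit 243) (nat_lit 270) (nat_lit 267)))) (PT.nd (nat_lit 156) (PT.nd (nat_lit 78) (PT.lf (nat_lit 49628) (nat_lit 6) (nat_lit 653) (nat_lit 4) (nat_lit 244) (nat_lit 270) (nat_lit 266)) (PT.lf (nat_lit 50768) (nat_lit 6) (nat_lit 668) (nat_lit 4) (nat_lit 245) (nat_lit 270) (nat_lit 265))) (PT.nd (nat_lit 78) (PT.lf (nat_lit 51832) (nat_lit 6) (nat_lit 682) (nat_lit 4) (nat_lit 246) (nat_lit 270) (nat_lit 264)) (PT.lf (nat_lit 52820)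 (nat_lit 6) (nat_lit 695) (nat_lit 4) (nat_lit 247) (nat_lit 270) (nat_lit 263))))) (PT.nd (nat_lit 312) (PT.nd (nat_lit 156) (PT.nd (nat_lit 78) (PT.lf (nat_lit 53732) (nat_lit 6) (nat_lit 707) (nat_lit 4) (nat_lit 248) (nat_lit 270) (nat_lit 262)) (PT.lf (nat_lit 54568) (nat_lit 6) (nat_lit 718) (nat_lit 4) (nat_lit 249) (nat_lit 270) (nat_lit 261))) (PT.nd (nat_lit 78) (PT.lf (nat_lit 55328) (nat_lit 6) (nat_lit 728) (nat_lit 4) (nat_lit 250) (nat_lit 270) (nat_lit 260)) (PT.lf (nat_lit 55252) (nat_lit 6) (nat_lit 727) (nat_lit 4) (nat_lit 251) (nat_lit 270) (nat_lit 259)))) (PT.nd (nat_lit 156) (PT.nd (nat_lit 78) (PT.lf (nat_lit 55176) (nat_lit 6) (nat_lit 726) (nat_lit 4) (nat_lit 252) (nat_lit 270) (nat_lit 258)) (PT.lf (nat_lit 55100) (nat_lit 6) (nat_lit 725) (nat_lit 4) (nat_lit 253) (nat_lit 270) (nat_lit 257))) (PT.nd (nat_lit 78) (PT.lf (nat_lit 55024) (nat_lit 6) (nat_lit 724) (nat_lit 4) (nat_lit 254) (nat_lit 270) (nat_lit 256)) (PT.nd (nat_lit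 78) (PT.lf (nat_lit 54948) (nat_lit 3) (nat_lit 723) (nat_lit 2) (nat_lit 255) (nat_lit 270) (nat_lit 255)) (PT.lf (nat_lit 55024) (nat_lit 6) (nat_lit 724) (nat_lit 2) (nat_lit 256) (nat_lit 270) (nat_lit 254))))))) (PT.nd (nat_lit 624) (PT.nd (nat_lit 312) (PT.nd (nat_lit 156) (PT.nd (nat_lit 78) (PT.lf (nat_lit 55100) (nat_lit 6) (nat_lit 725) (nat_lit 2) (nat_lit 257) (nat_lit 270) (nat_lit 253)) (PT.lf (nat_lit 55176) (nat_lit 6) (nat_lit 726) (nat_lit 2) (nat_lit 258) (nat_lit 270) (nat_lit 252))) (PT.nd (nat_lit 78) (PT.lf (nat_lit 55252) (nat_lit 6) (nat_lit 727) (nat_lit 2) (nat_lit 259) (nat_lit 270) (nat_lit 251)) (PT.lf (nat_lit 55328) (nat_lit 6) (nat_lit 728) (nat_lit 2) (nat_lit 260) (nat_lit 270) (nat_lit 250)))) (PT.nd (nat_lit 156) (PT.nd (nat_lit 78) (PT.lf (nat_lit 54568) (nat_lit 6) (nat_lit 718) (nat_lit 2) (nat_lit 261) (nat_lit 270) (nat_lit 249)) (PT.lf (nat_lit 53732) (nat_lit 6) (nat_lit 707) (nat_lit 2) (nat_lit 262) (nat_lit 270)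 (nat_lit 248))) (PT.nd (nat_lit 78) (PT.lf (nat_lit 52820) (nat_lit 6) (nat_lit 695) (nat_lit 2) (nat_lit 263) (nat_lit 270) (nat_lit 247)) (PT.lf (nat_lit 51832) (nat_lit 6) (nat_lit 682) (nat_lit 2) (nat_lit 264) (nat_lit 270) (nat_lit 246))))) (PT.nd (nat_lit 312) (PT.nd (nat_lit 156) (PT.nd (nat_lit 78) (PT.lf (nat_lit 50768) (nat_lit 6) (nat_lit 668) (nat_lit 2) (nat_lit 265) (nat_lit 270) (nat_lit 245)) (PT.lf (nat_lit 49628) (nat_lit 6) (nat_lit 653) (nat_lit 2) (nat_lit 266) (nat_lit 270) (nat_lit 244))) (PT.nd (nat_lit 78) (PT.lf (nat_lit 48412) (nat_lit 6) (nat_lit 637) (nat_lit 2) (nat_lit 267) (nat_lit 270) (nat_lit 243)) (PT.lf (nat_lit 47120) (nat_lit 6) (nat_lit 620) (nat_lit 2) (nat_lit 268) (nat_lit 270) (nat_lit 242)))) (PT.nd (nat_lit 156) (PT.nd (nat_lit 78) (PT.lf (nat_lit 45752) (nat_lit 6) (nat_lit 602) (nat_lit 2) (nat_lit 269) (nat_lit 270) (nat_lit 241)) (PT.lf (nat_lit 44308) (nat_lit 3) (nat_lit 583) (nat_lit 0) (nat_lit 270) (nat_lit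 270) (nat_lit 240))) (PT.nd (nat_lit 78) (PT.lf (nat_lit 42712) (nat_lit 6) (nat_lit 562) (nat_lit 0) (nat_lit 271) (nat_lit 270) (nat_lit 239)) (PT.nd (nat_lit 78) (PT.lf (nat_lit 41040) (nat_lit 6) (nat_lit 540) (nat_lit 0) (nat_lit 272) (nat_lit 270) (nat_lit 238)) (PT.lf (nat_lit 39292) (nat_lit 6) (nat_lit 517) (nat_lit 0) (nat_lit 273) (nat_lit 270) (nat_lit 237))))))))
noncomputable def pc69 : PT := (PT.nd (nat_lit 77298) (PT.nd (nat_lit 624) (PT.nd (nat_lit 312) (PT.nd (nat_lit 156) (PT.nd (nat_lit 78) (PT.lf (nat_lit 37468) (nat_lit 6) (nat_lit 493) (nat_lit 0) (nat_lit 274) (nat_lit 270) (nat_lit 236)) (PT.lf (nat_lit 35568) (nat_lit 6) (nat_lit 468) (nat_lit 0) (nat_lit 275) (nat_lit 270) (nat_lit 235))) (PT.nd (nat_lit 78) (PT.lf (nat_lit 34428) (nat_lit 6) (nat_lit 453) (nat_lit 0) (nat_lit 276) (nat_lit 270) (nat_lit 234)) (PT.lf (nat_lit 33440) (nat_lit 6) (nat_lit 440) (nat_lit 0) (nat_lit 277) (nat_lit 270) (nat_lit 233)))) (PT.nd (nat_lit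 156) (PT.nd (nat_lit 78) (PT.lf (nat_lit 32452) (nat_lit 6) (nat_lit 427) (nat_lit 0) (nat_lit 278) (nat_lit 270) (nat_lit 232)) (PT.lf (nat_lit 31540) (nat_lit 6) (nat_lit 415) (nat_lit 0) (nat_lit 279) (nat_lit 270) (nat_lit 231))) (PT.nd (nat_lit 78) (PT.lf (nat_lit 30628) (nat_lit 6) (nat_lit 403) (nat_lit 0) (nat_lit 280) (nat_lit 270) (nat_lit 230)) (PT.lf (nat_lit 29716) (nat_lit 6) (nat_lit 391) (nat_lit 0) (nat_lit 281) (nat_lit 270) (nat_lit 229))))) (PT.nd (nat_lit 312) (PT.nd (nat_lit 156) (PT.nd (nat_lit 78) (PT.lf (nat_lit 28804) (nat_lit 6) (nat_lit 379) (nat_lit 0) (nat_lit 282) (nat_lit 270) (nat_lit 228)) (PT.lf (nat_lit 27968) (nat_lit 6) (nat_lit 368) (nat_lit 0) (nat_lit 283) (nat_lit 270) (nat_lit 227))) (PT.nd (nat_lit 78) (PT.lf (nat_lit 27132) (nat_lit 6) (nat_lit 357) (nat_lit 0) (nat_lit 284) (nat_lit 270) (nat_lit 226)) (PT.lf (nat_lit 26372) (nat_lit 6) (nat_lit 347) (nat_lit 0) (nat_lit 285) (nat_lit 270) (nat_lit 225)))) (PT.nd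 (nat_lit 76128) (PT.nd (nat_lit 78) (PT.lf (nat_lit 25536) (nat_lit 6) (nat_lit 336) (nat_lit 0) (nat_lit 286) (nat_lit 270) (nat_lit 224)) (PT.lf (nat_lit 24776) (nat_lit 6) (nat_lit 326) (nat_lit 0) (nat_lit 287) (nat_lit 270) (nat_lit 223))) (PT.nd (nat_lit 78) (PT.lf (nat_lit 23408) (nat_lit 6) (nat_lit 308) (nat_lit 5) (nat_lit 221) (nat_lit 271) (nat_lit 288)) (PT.nd (nat_lit 78) (PT.lf (nat_lit 24092) (nat_lit 6) (nat_lit 317) (nat_lit 5) (nat_lit 222) (nat_lit 271) (nat_lit 287)) (PT.lf (nat_lit 24852) (nat_lit 6) (nat_lit 327) (nat_lit 5) (nat_lit 223) (nat_lit 271) (nat_lit 286))))))) (PT.nd (nat_lit 624) (PT.nd (nat_lit 312) (PT.nd (nat_lit 156) (PT.nd (nat_lit 78) (PT.lf (nat_lit 25612) (nat_lit 6) (nat_lit 337) (nat_lit 5) (nat_lit 224) (nat_lit 271) (nat_lit 285)) (PT.lf (nat_lit 26448) (nat_lit 6) (nat_lit 348) (nat_lit 5) (nat_lit 225) (nat_lit 271) (nat_lit 284))) (PT.nd (nat_lit 78) (PT.lf (nat_lit 27208) (nat_lit 6) (nat_lit 358) (nat_lit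 5) (nat_lit 226) (nat_lit 271) (nat_lit 283)) (PT.lf (nat_lit 28044) (nat_lit 6) (nat_lit 369) (nat_lit 5) (nat_lit 227) (nat_lit 271) (nat_lit 282)))) (PT.nd (nat_lit 156) (PT.nd (nat_lit 78) (PT.lf (nat_lit 28880) (nat_lit 6) (nat_lit 380) (nat_lit 5) (nat_lit 228) (nat_lit 271) (nat_lit 281)) (PT.lf (nat_lit 29792) (nat_lit 6) (nat_lit 392) (nat_lit 5) (nat_lit 229) (nat_lit 271) (nat_lit 280))) (PT.nd (nat_lit 78) (PT.lf (nat_lit 30704) (nat_lit 6) (nat_lit 404) (nat_lit 5) (nat_lit 230) (nat_lit 271) (nat_lit 279)) (PT.lf (nat_lit 31616) (nat_lit 6) (nat_lit 416) (nat_lit 5) (nat_lit 231) (nat_lit 271) (nat_lit 278))))) (PT.nd (nat_lit 312) (PT.nd (nat_lit 156) (PT.nd (nat_lit 78) (PT.lf (nat_lit 32528) (nat_lit 6) (nat_lit 428) (nat_lit 5) (nat_lit 232) (nat_lit 271) (nat_lit 277)) (PT.lf (nat_lit 33516) (nat_lit 6) (nat_lit 441) (nat_lit 5) (nat_lit 233) (nat_lit 271) (nat_lit 276))) (PT.nd (nat_lit 78) (PT.lf (nat_lit 34504) (nat_lit 6) (nat_lit 454)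 (nat_lit 5) (nat_lit 234) (nat_lit 271) (nat_lit 275)) (PT.lf (nat_lit 35644) (nat_lit 6) (nat_lit 469) (nat_lit 5) (nat_lit 235) (nat_lit 271) (nat_lit 274)))) (PT.nd (nat_lit 156) (PT.nd (nat_lit 78) (PT.lf (nat_lit 37544) (nat_lit 6) (nat_lit 494) (nat_lit 5) (nat_lit 236) (nat_lit 271) (nat_lit 273)) (PT.lf (nat_lit 39368) (nat_lit 6) (nat_lit 518) (nat_lit 5) (nat_lit 237) (nat_lit 271) (nat_lit 272))) (PT.nd (nat_lit 78) (PT.lf (nat_lit 41116) (nat_lit 3) (nat_lit 541) (nat_lit 4) (nat_lit 238) (nat_lit 271) (nat_lit 271)) (PT.nd (nat_lit 78) (PT.lf (nat_lit 42712) (nat_lit 6) (nat_lit 562) (nat_lit 4) (nat_lit 239) (nat_lit 271) (nat_lit 270)) (PT.lf (nat_lit 44232) (nat_lit 6) (nat_lit 582) (nat_lit 4) (nat_lit 240) (nat_lit 271) (nat_lit 269))))))))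
noncomputable def pc70 : PT := (PT.nd (nat_lit 1326) (PT.nd (nat_lit 624) (PT.nd (nat_lit 312) (PT.nd (nat_lit 156) (PT.nd (nat_lit 78) (PT.lf (nat_lit 45676) (nat_lit 6) (nat_lit 601) (nat_lit 4) (nat_lit 241) (nat_lit 271) (nat_lit 268)) (PT.lf (nat_lit 47044) (nat_lit 6) (nat_lit 619) (nat_lit 4) (nat_lit 242) (nat_lit 271) (nat_lit 267))) (PT.nd (nat_lit 78) (PT.lf (nat_lit 48336) (nat_lit 6) (nat_lit 636) (nat_lit 4) (nat_lit 243) (nat_lit 271) (nat_lit 266)) (PT.lf (nat_lit 49552) (nat_lit 6) (nat_lit 652) (nat_lit 4) (nat_lit 244) (nat_lit 271) (nat_lit 265)))) (PT.nd (nat_lit 156) (PT.nd (nat_lit 78) (PT.lf (nat_lit 50692) (nat_lit 6) (nat_lit 667) (nat_lit 4) (nat_lit 245) (nat_lit 271) (nat_lit 264)) (PT.lf (nat_lit 51756) (nat_lit 6) (nat_lit 681) (nat_lit 4) (nat_lit 246) (nat_lit 271) (nat_lit 263))) (PT.nd (nat_lit 78) (PT.lf (nat_lit 52744) (nat_lit 6) (nat_lit 694) (nat_lit 4) (nat_lit 247) (nat_lit 271) (nat_lit 262)) (PT.lf (nat_lit 53656)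 (nat_lit 6) (nat_lit 706) (nat_lit 4) (nat_lit 248) (nat_lit 271) (nat_lit 261))))) (PT.nd (nat_lit 312) (PT.nd (nat_lit 156) (PT.nd (nat_lit 78) (PT.lf (nat_lit 54492) (nat_lit 6) (nat_lit 717) (nat_lit 4) (nat_lit 249) (nat_lit 271) (nat_lit 260)) (PT.lf (nat_lit 54416) (nat_lit 6) (nat_lit 716) (nat_lit 4) (nat_lit 250) (nat_lit 271) (nat_lit 259))) (PT.nd (nat_lit 78) (PT.lf (nat_lit 54340) (nat_lit 6) (nat_lit 715) (nat_lit 4) (nat_lit 251) (nat_lit 271) (nat_lit 258)) (PT.lf (nat_lit 54264) (nat_lit 6) (nat_lit 714) (nat_lit 4) (nat_lit 252) (nat_lit 271) (nat_lit 257)))) (PT.nd (nat_lit 156) (PT.nd (nat_lit 78) (PT.lf (nat_lit 54188) (nat_lit 6) (nat_lit 713) (nat_lit 4) (nat_lit 253) (nat_lit 271) (nat_lit 256)) (PT.lf (nat_lit 54112) (nat_lit 6) (nat_lit 712) (nat_lit 4) (nat_lit 254) (nat_lit 271) (nat_lit 255))) (PT.nd (nat_lit 78) (PT.lf (nat_lit 54112) (nat_lit 6) (nat_lit 712) (nat_lit 2) (nat_lit 255) (nat_lit 271) (nat_lit 254)) (PT.nd (nat_lit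 78) (PT.lf (nat_lit 54188) (nat_lit 6) (nat_lit 713) (nat_lit 2) (nat_lit 256) (nat_lit 271) (nat_lit 253)) (PT.lf (nat_lit 54264) (nat_lit 6) (nat_lit 714) (nat_lit 2) (nat_lit 257) (nat_lit 271) (nat_lit 252))))))) (PT.nd (nat_lit 624) (PT.nd (nat_lit 312) (PT.nd (nat_lit 156) (PT.nd (nat_lit 78) (PT.lf (nat_lit 54340) (nat_lit 6) (nat_lit 715) (nat_lit 2) (nat_lit 258) (nat_lit 271) (nat_lit 251)) (PT.lf (nat_lit 54416) (nat_lit 6) (nat_lit 716) (nat_lit 2) (nat_lit 259) (nat_lit 271) (nat_lit 250))) (PT.nd (nat_lit 78) (PT.lf (nat_lit 54492) (nat_lit 6) (nat_lit 717) (nat_lit 2) (nat_lit 260) (nat_lit 271) (nat_lit 249)) (PT.lf (nat_lit 53656) (nat_lit 6) (nat_lit 706) (nat_lit 2) (nat_lit 261) (nat_lit 271) (nat_lit 248)))) (PT.nd (nat_lit 156) (PT.nd (nat_lit 78) (PT.lf (nat_lit 52744) (nat_lit 6) (nat_lit 694) (nat_lit 2) (nat_lit 262) (nat_lit 271) (nat_lit 247)) (PT.lf (nat_lit 51756) (nat_lit 6) (nat_lit 681) (nat_lit 2) (nat_lit 263) (nat_lit 271)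 (nat_lit 246))) (PT.nd (nat_lit 78) (PT.lf (nat_lit 50692) (nat_lit 6) (nat_lit 667) (nat_lit 2) (nat_lit 264) (nat_lit 271) (nat_lit 245)) (PT.lf (nat_lit 49552) (nat_lit 6) (nat_lit 652) (nat_lit 2) (nat_lit 265) (nat_lit 271) (nat_lit 244))))) (PT.nd (nat_lit 312) (PT.nd (nat_lit 156) (PT.nd (nat_lit 78) (PT.lf (nat_lit 48336) (nat_lit 6) (nat_lit 636) (nat_lit 2) (nat_lit 266) (nat_lit 271) (nat_lit 243)) (PT.lf (nat_lit 47044) (nat_lit 6) (nat_lit 619) (nat_lit 2) (nat_lit 267) (nat_lit 271) (nat_lit 242))) (PT.nd (nat_lit 78) (PT.lf (nat_lit 45676) (nat_lit 6) (nat_lit 601) (nat_lit 2) (nat_lit 268) (nat_lit 271) (nat_lit 241)) (PT.lf (nat_lit 44232) (nat_lit 6) (nat_lit 582) (nat_lit 2) (nat_lit 269) (nat_lit 271) (nat_lit 240)))) (PT.nd (nat_lit 156) (PT.nd (nat_lit 78) (PT.lf (nat_lit 42712) (nat_lit 6) (nat_lit 562) (nat_lit 2) (nat_lit 270) (nat_lit 271) (nat_lit 239)) (PT.lf (nat_lit 41116) (nat_lit 3) (nat_lit 541) (nat_lit 0) (nat_lit 271) (nat_lit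 271) (nat_lit 238))) (PT.nd (nat_lit 78) (PT.lf (nat_lit 39368) (nat_lit 6) (nat_lit 518) (nat_lit 0) (nat_lit 272) (nat_lit 271) (nat_lit 237)) (PT.nd (nat_lit 78) (PT.lf (nat_lit 37544) (nat_lit 6) (nat_lit 494) (nat_lit 0) (nat_lit 273) (nat_lit 271) (nat_lit 236)) (PT.lf (nat_lit 35644) (nat_lit 6) (nat_lit 469) (nat_lit 0) (nat_lit 274) (nat_lit 271) (nat_lit 235))))))))
noncomputable def pc71 : PT := (PT.nd (nat_lit 77142) (PT.nd (nat_lit 624) (PT.nd (nat_lit 312) (PT.nd (nat_lit 156) (PT.nd (nat_lit 78) (PT.lf (nat_lit 34504) (nat_lit 6) (nat_lit 454) (nat_lit 0) (nat_lit 275) (nat_lit 271) (nat_lit 234)) (PT.lf (nat_lit 33516) (nat_lit 6) (nat_lit 441) (nat_lit 0) (nat_lit 276) (nat_lit 271) (nat_lit 233))) (PT.nd (nat_lit 78) (PT.lf (nat_lit 32528) (nat_lit 6) (nat_lit 428) (nat_lit 0) (nat_lit 277) (nat_lit 271) (nat_lit 232)) (PT.lf (nat_lit 31616) (nat_lit 6) (nat_lit 416) (nat_lit 0) (nat_lit 278) (nat_lit 271) (nat_lit 231)))) (PT.nd (nat_lit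 156) (PT.nd (nat_lit 78) (PT.lf (nat_lit 30704) (nat_lit 6) (nat_lit 404) (nat_lit 0) (nat_lit 279) (nat_lit 271) (nat_lit 230)) (PT.lf (nat_lit 29792) (nat_lit 6) (nat_lit 392) (nat_lit 0) (nat_lit 280) (nat_lit 271) (nat_lit 229))) (PT.nd (nat_lit 78) (PT.lf (nat_lit 28880) (nat_lit 6) (nat_lit 380) (nat_lit 0) (nat_lit 281) (nat_lit 271) (nat_lit 228)) (PT.lf (nat_lit 28044) (nat_lit 6) (nat_lit 369) (nat_lit 0) (nat_lit 282) (nat_lit 271) (nat_lit 227))))) (PT.nd (nat_lit 312) (PT.nd (nat_lit 156) (PT.nd (nat_lit 78) (PT.lf (nat_lit 27208) (nat_lit 6) (nat_lit 358) (nat_lit 0) (nat_lit 283) (nat_lit 271) (nat_lit 226)) (PT.lf (nat_lit 26448) (nat_lit 6) (nat_lit 348) (nat_lit 0) (nat_lit 284) (nat_lit 271) (nat_lit 225))) (PT.nd (nat_lit 78) (PT.lf (nat_lit 25612) (nat_lit 6) (nat_lit 337) (nat_lit 0) (nat_lit 285) (nat_lit 271) (nat_lit 224)) (PT.lf (nat_lit 24852) (nat_lit 6) (nat_lit 327) (nat_lit 0) (nat_lit 286) (nat_lit 271) (nat_lit 223)))) (PT.nd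 (nat_lit 75972) (PT.nd (nat_lit 78) (PT.lf (nat_lit 24092) (nat_lit 6) (nat_lit 317) (nat_lit 0) (nat_lit 287) (nat_lit 271) (nat_lit 222)) (PT.lf (nat_lit 23408) (nat_lit 6) (nat_lit 308) (nat_lit 0) (nat_lit 288) (nat_lit 271) (nat_lit 221))) (PT.nd (nat_lit 78) (PT.lf (nat_lit 22724) (nat_lit 6) (nat_lit 299) (nat_lit 5) (nat_lit 220) (nat_lit 272) (nat_lit 288)) (PT.nd (nat_lit 78) (PT.lf (nat_lit 23484) (nat_lit 6) (nat_lit 309) (nat_lit 5) (nat_lit 221) (nat_lit 272) (nat_lit 287)) (PT.lf (nat_lit 24168) (nat_lit 6) (nat_lit 318) (nat_lit 5) (nat_lit 222) (nat_lit 272) (nat_lit 286))))))) (PT.nd (nat_lit 702) (PT.nd (nat_lit 312) (PT.nd (nat_lit 156) (PT.nd (nat_lit 78) (PT.lf (nat_lit 24928) (nat_lit 6) (nat_lit 328) (nat_lit 5) (nat_lit 223) (nat_lit 272) (nat_lit 285)) (PT.lf (nat_lit 25688) (nat_lit 6) (nat_lit 338) (nat_lit 5) (nat_lit 224) (nat_lit 272) (nat_lit 284))) (PT.nd (nat_lit 78) (PT.lf (nat_lit 26524) (nat_lit 6) (nat_lit 349) (nat_lit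 5) (nat_lit 225) (nat_lit 272) (nat_lit 283)) (PT.lf (nat_lit 27284) (nat_lit 6) (nat_lit 359) (nat_lit 5) (nat_lit 226) (nat_lit 272) (nat_lit 282)))) (PT.nd (nat_lit 156) (PT.nd (nat_lit 78) (PT.lf (nat_lit 28120) (nat_lit 6) (nat_lit 370) (nat_lit 5) (nat_lit 227) (nat_lit 272) (nat_lit 281)) (PT.lf (nat_lit 28956) (nat_lit 6) (nat_lit 381) (nat_lit 5) (nat_lit 228) (nat_lit 272) (nat_lit 280))) (PT.nd (nat_lit 78) (PT.lf (nat_lit 29868) (nat_lit 6) (nat_lit 393) (nat_lit 5) (nat_lit 229) (nat_lit 272) (nat_lit 279)) (PT.nd (nat_lit 78) (PT.lf (nat_lit 30780) (nat_lit 6) (nat_lit 405) (nat_lit 5) (nat_lit 230) (nat_lit 272) (nat_lit 278)) (PT.lf (nat_lit 31692) (nat_lit 6) (nat_lit 417) (nat_lit 5) (nat_lit 231) (nat_lit 272) (nat_lit 277)))))) (PT.nd (nat_lit 312) (PT.nd (nat_lit 156) (PT.nd (nat_lit 78) (PT.lf (nat_lit 32604) (nat_lit 6) (nat_lit 429) (nat_lit 5) (nat_lit 232) (nat_lit 272) (nat_lit 276)) (PT.lf (nat_lit 33592) (nat_lit 6) (nat_lit 442)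 (nat_lit 5) (nat_lit 233) (nat_lit 272) (nat_lit 275))) (PT.nd (nat_lit 78) (PT.lf (nat_lit 34580) (nat_lit 6) (nat_lit 455) (nat_lit 5) (nat_lit 234) (nat_lit 272) (nat_lit 274)) (PT.lf (nat_lit 35720) (nat_lit 6) (nat_lit 470) (nat_lit 5) (nat_lit 235) (nat_lit 272) (nat_lit 273)))) (PT.nd (nat_lit 156) (PT.nd (nat_lit 78) (PT.lf (nat_lit 37620) (nat_lit 3) (nat_lit 495) (nat_lit 4) (nat_lit 236) (nat_lit 272) (nat_lit 272)) (PT.lf (nat_lit 39368) (nat_lit 6) (nat_lit 518) (nat_lit 4) (nat_lit 237) (nat_lit 272) (nat_lit 271))) (PT.nd (nat_lit 78) (PT.lf (nat_lit 41040) (nat_lit 6) (nat_lit 540) (nat_lit 4) (nat_lit 238) (nat_lit 272) (nat_lit 270)) (PT.nd (nat_lit 78) (PT.lf (nat_lit 42636) (nat_lit 6) (nat_lit 561) (nat_lit 4) (nat_lit 239) (nat_lit 272) (nat_lit 269)) (PT.lf (nat_lit 44156) (nat_lit 6) (nat_lit 581) (nat_lit 4) (nat_lit 240) (nat_lit 272) (nat_lit 268))))))))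
noncomputable def pc72 : PT := (PT.nd (nat_lit 1326) (PT.nd (nat_lit 624) (PT.nd (nat_lit 312) (PT.nd (nat_lit 156) (PT.nd (nat_lit 78) (PT.lf (nat_lit 45600) (nat_lit 6) (nat_lit 600) (nat_lit 4) (nat_lit 241) (nat_lit 272) (nat_lit 267)) (PT.lf (nat_lit 46968) (nat_lit 6) (nat_lit 618) (nat_lit 4) (nat_lit 242) (nat_lit 272) (nat_lit 266))) (PT.nd (nat_lit 78) (PT.lf (nat_lit 48260) (nat_lit 6) (nat_lit 635) (nat_lit 4) (nat_lit 243) (nat_lit 272) (nat_lit 265)) (PT.lf (nat_lit 49476) (nat_lit 6) (nat_lit 651) (nat_lit 4) (nat_lit 244) (nat_lit 272) (nat_lit 264)))) (PT.nd (nat_lit 156) (PT.nd (nat_lit 78) (PT.lf (nat_lit 50616) (nat_lit 6) (nat_lit 666) (nat_lit 4) (nat_lit 245) (nat_lit 272) (nat_lit 263)) (PT.lf (nat_lit 51680) (nat_lit 6) (nat_lit 680) (nat_lit 4) (nat_lit 246) (nat_lit 272) (nat_lit 262))) (PT.nd (nat_lit 78) (PT.lf (nat_lit 52668) (nat_lit 6) (nat_lit 693) (nat_lit 4) (nat_lit 247) (nat_lit 272) (nat_lit 261)) (PT.lf (nat_lit 53580)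 (nat_lit 6) (nat_lit 705) (nat_lit 4) (nat_lit 248) (nat_lit 272) (nat_lit 260))))) (PT.nd (nat_lit 312) (PT.nd (nat_lit 156) (PT.nd (nat_lit 78) (PT.lf (nat_lit 53504) (nat_lit 6) (nat_lit 704) (nat_lit 4) (nat_lit 249) (nat_lit 272) (nat_lit 259)) (PT.lf (nat_lit 53428) (nat_lit 6) (nat_lit 703) (nat_lit 4) (nat_lit 250) (nat_lit 272) (nat_lit 258))) (PT.nd (nat_lit 78) (PT.lf (nat_lit 53352) (nat_lit 6) (nat_lit 702) (nat_lit 4) (nat_lit 251) (nat_lit 272) (nat_lit 257)) (PT.lf (nat_lit 53276) (nat_lit 6) (nat_lit 701) (nat_lit 4) (nat_lit 252) (nat_lit 272) (nat_lit 256)))) (PT.nd (nat_lit 156) (PT.nd (nat_lit 78) (PT.lf (nat_lit 53200) (nat_lit 6) (nat_lit 700) (nat_lit 4) (nat_lit 253) (nat_lit 272) (nat_lit 255)) (PT.lf (nat_lit 53124) (nat_lit 3) (nat_lit 699) (nat_lit 2) (nat_lit 254) (nat_lit 272) (nat_lit 254))) (PT.nd (nat_lit 78) (PT.lf (nat_lit 53200) (nat_lit 6) (nat_lit 700) (nat_lit 2) (nat_lit 255) (nat_lit 272) (nat_lit 253)) (PT.nd (nat_lit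 78) (PT.lf (nat_lit 53276) (nat_lit 6) (nat_lit 701) (nat_lit 2) (nat_lit 256) (nat_lit 272) (nat_lit 252)) (PT.lf (nat_lit 53352) (nat_lit 6) (nat_lit 702) (nat_lit 2) (nat_lit 257) (nat_lit 272) (nat_lit 251))))))) (PT.nd (nat_lit 624) (PT.nd (nat_lit 312) (PT.nd (nat_lit 156) (PT.nd (nat_lit 78) (PT.lf (nat_lit 53428) (nat_lit 6) (nat_lit 703) (nat_lit 2) (nat_lit 258) (nat_lit 272) (nat_lit 250)) (PT.lf (nat_lit 53504) (nat_lit 6) (nat_lit 704) (nat_lit 2) (nat_lit 259) (nat_lit 272) (nat_lit 249))) (PT.nd (nat_lit 78) (PT.lf (nat_lit 53580) (nat_lit 6) (nat_lit 705) (nat_lit 2) (nat_lit 260) (nat_lit 272) (nat_lit 248)) (PT.lf (nat_lit 52668) (nat_lit 6) (nat_lit 693) (nat_lit 2) (nat_lit 261) (nat_lit 272) (nat_lit 247)))) (PT.nd (nat_lit 156) (PT.nd (nat_lit 78) (PT.lf (nat_lit 51680) (nat_lit 6) (nat_lit 680) (nat_lit 2) (nat_lit 262) (nat_lit 272) (nat_lit 246)) (PT.lf (nat_lit 50616) (nat_lit 6) (nat_lit 666) (nat_lit 2) (nat_lit 263) (nat_lit 272)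 (nat_lit 245))) (PT.nd (nat_lit 78) (PT.lf (nat_lit 49476) (nat_lit 6) (nat_lit 651) (nat_lit 2) (nat_lit 264) (nat_lit 272) (nat_lit 244)) (PT.lf (nat_lit 48260) (nat_lit 6) (nat_lit 635) (nat_lit 2) (nat_lit 265) (nat_lit 272) (nat_lit 243))))) (PT.nd (nat_lit 312) (PT.nd (nat_lit 156) (PT.nd (nat_lit 78) (PT.lf (nat_lit 46968) (nat_lit 6) (nat_lit 618) (nat_lit 2) (nat_lit 266) (nat_lit 272) (nat_lit 242)) (PT.lf (nat_lit 45600) (nat_lit 6) (nat_lit 600) (nat_lit 2) (nat_lit 267) (nat_lit 272) (nat_lit 241))) (PT.nd (nat_lit 78) (PT.lf (nat_lit 44156) (nat_lit 6) (nat_lit 581) (nat_lit 2) (nat_lit 268) (nat_lit 272) (nat_lit 240)) (PT.lf (nat_lit 42636) (nat_lit 6) (nat_lit 561) (nat_lit 2) (nat_lit 269) (nat_lit 272) (nat_lit 239)))) (PT.nd (nat_lit 156) (PT.nd (nat_lit 78) (PT.lf (nat_lit 41040) (nat_lit 6) (nat_lit 540) (nat_lit 2) (nat_lit 270) (nat_lit 272) (nat_lit 238)) (PT.lf (nat_lit 39368) (nat_lit 6) (nat_lit 518) (nat_lit 2) (nat_lit 271) (nat_lit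 272) (nat_lit 237))) (PT.nd (nat_lit 78) (PT.lf (nat_lit 37620) (nat_lit 3) (nat_lit 495) (nat_lit 0) (nat_lit 272) (nat_lit 272) (nat_lit 236)) (PT.nd (nat_lit 78) (PT.lf (nat_lit 35720) (nat_lit 6) (nat_lit 470) (nat_lit 0) (nat_lit 273) (nat_lit 272) (nat_lit 235)) (PT.lf (nat_lit 34580) (nat_lit 6) (nat_lit 455) (nat_lit 0) (nat_lit 274) (nat_lit 272) (nat_lit 234))))))))
noncomputable def pc73 : PT := (PT.nd (nat_lit 76986) (PT.nd (nat_lit 624) (PT.nd (nat_lit 312) (PT.nd (nat_lit 156) (PT.nd (nat_lit 78) (PT.lf (nat_lit 33592) (nat_lit 6) (nat_lit 442) (nat_lit 0) (nat_lit 275) (nat_lit 272) (nat_lit 233)) (PT.lf (nat_lit 32604) (nat_lit 6) (nat_lit 429) (nat_lit 0) (nat_lit 276) (nat_lit 272) (nat_lit 232))) (PT.nd (nat_lit 78) (PT.lf (nat_lit 31692) (nat_lit 6) (nat_lit 417) (nat_lit 0) (nat_lit 277) (nat_lit 272) (nat_lit 231)) (PT.lf (nat_lit 30780) (nat_lit 6) (nat_lit 405) (nat_lit 0) (nat_lit 278) (nat_lit 272) (nat_lit 230)))) (PT.nd (nat_lit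 156) (PT.nd (nat_lit 78) (PT.lf (nat_lit 29868) (nat_lit 6) (nat_lit 393) (nat_lit 0) (nat_lit 279) (nat_lit 272) (nat_lit 229)) (PT.lf (nat_lit 28956) (nat_lit 6) (nat_lit 381) (nat_lit 0) (nat_lit 280) (nat_lit 272) (nat_lit 228))) (PT.nd (nat_lit 78) (PT.lf (nat_lit 28120) (nat_lit 6) (nat_lit 370) (nat_lit 0) (nat_lit 281) (nat_lit 272) (nat_lit 227)) (PT.lf (nat_lit 27284) (nat_lit 6) (nat_lit 359) (nat_lit 0) (nat_lit 282) (nat_lit 272) (nat_lit 226))))) (PT.nd (nat_lit 312) (PT.nd (nat_lit 156) (PT.nd (nat_lit 78) (PT.lf (nat_lit 26524) (nat_lit 6) (nat_lit 349) (nat_lit 0) (nat_lit 283) (nat_lit 272) (nat_lit 225)) (PT.lf (nat_lit 25688) (nat_lit 6) (nat_lit 338) (nat_lit 0) (nat_lit 284) (nat_lit 272) (nat_lit 224))) (PT.nd (nat_lit 78) (PT.lf (nat_lit 24928) (nat_lit 6) (nat_lit 328) (nat_lit 0) (nat_lit 285) (nat_lit 272) (nat_lit 223)) (PT.lf (nat_lit 24168) (nat_lit 6) (nat_lit 318) (nat_lit 0) (nat_lit 286) (nat_lit 272) (nat_lit 222)))) (PT.nd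 (nat_lit 75816) (PT.nd (nat_lit 78) (PT.lf (nat_lit 23484) (nat_lit 6) (nat_lit 309) (nat_lit 0) (nat_lit 287) (nat_lit 272) (nat_lit 221)) (PT.lf (nat_lit 22724) (nat_lit 6) (nat_lit 299) (nat_lit 0) (nat_lit 288) (nat_lit 272) (nat_lit 220))) (PT.nd (nat_lit 78) (PT.lf (nat_lit 21432) (nat_lit 6) (nat_lit 282) (nat_lit 5) (nat_lit 218) (nat_lit 273) (nat_lit 289)) (PT.nd (nat_lit 78) (PT.lf (nat_lit 22116) (nat_lit 6) (nat_lit 291) (nat_lit 5) (nat_lit 219) (nat_lit 273) (nat_lit 288)) (PT.lf (nat_lit 22800) (nat_lit 6) (nat_lit 300) (nat_lit 5) (nat_lit 220) (nat_lit 273) (nat_lit 287))))))) (PT.nd (nat_lit 624) (PT.nd (nat_lit 312) (PT.nd (nat_lit 156) (PT.nd (nat_lit 78) (PT.lf (nat_lit 23560) (nat_lit 6) (nat_lit 310) (nat_lit 5) (nat_lit 221) (nat_lit 273) (nat_lit 286)) (PT.lf (nat_lit 24244) (nat_lit 6) (nat_lit 319) (nat_lit 5) (nat_lit 222) (nat_lit 273) (nat_lit 285))) (PT.nd (nat_lit 78) (PT.lf (nat_lit 25004) (nat_lit 6) (nat_lit 329) (nat_lit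 5) (nat_lit 223) (nat_lit 273) (nat_lit 284)) (PT.lf (nat_lit 25764) (nat_lit 6) (nat_lit 339) (nat_lit 5) (nat_lit 224) (nat_lit 273) (nat_lit 283)))) (PT.nd (nat_lit 156) (PT.nd (nat_lit 78) (PT.lf (nat_lit 26600) (nat_lit 6) (nat_lit 350) (nat_lit 5) (nat_lit 225) (nat_lit 273) (nat_lit 282)) (PT.lf (nat_lit 27360) (nat_lit 6) (nat_lit 360) (nat_lit 5) (nat_lit 226) (nat_lit 273) (nat_lit 281))) (PT.nd (nat_lit 78) (PT.lf (nat_lit 28196) (nat_lit 6) (nat_lit 371) (nat_lit 5) (nat_lit 227) (nat_lit 273) (nat_lit 280)) (PT.lf (nat_lit 29032) (nat_lit 6) (nat_lit 382) (nat_lit 5) (nat_lit 228) (nat_lit 273) (nat_lit 279))))) (PT.nd (nat_lit 312) (PT.nd (nat_lit 156) (PT.nd (nat_lit 78) (PT.lf (nat_lit 29944) (nat_lit 6) (nat_lit 394) (nat_lit 5) (nat_lit 229) (nat_lit 273) (nat_lit 278)) (PT.lf (nat_lit 30856) (nat_lit 6) (nat_lit 406) (nat_lit 5) (nat_lit 230) (nat_lit 273) (nat_lit 277))) (PT.nd (nat_lit 78) (PT.lf (nat_lit 31768) (nat_lit 6) (nat_lit 418)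 (nat_lit 5) (nat_lit 231) (nat_lit 273) (nat_lit 276)) (PT.lf (nat_lit 32680) (nat_lit 6) (nat_lit 430) (nat_lit 5) (nat_lit 232) (nat_lit 273) (nat_lit 275)))) (PT.nd (nat_lit 156) (PT.nd (nat_lit 78) (PT.lf (nat_lit 33668) (nat_lit 6) (nat_lit 443) (nat_lit 5) (nat_lit 233) (nat_lit 273) (nat_lit 274)) (PT.lf (nat_lit 34656) (nat_lit 3) (nat_lit 456) (nat_lit 4) (nat_lit 234) (nat_lit 273) (nat_lit 273))) (PT.nd (nat_lit 78) (PT.lf (nat_lit 35720) (nat_lit 6) (nat_lit 470) (nat_lit 4) (nat_lit 235) (nat_lit 273) (nat_lit 272)) (PT.nd (nat_lit 78) (PT.lf (nat_lit 37544) (nat_lit 6) (nat_lit 494) (nat_lit 4) (nat_lit 236) (nat_lit 273) (nat_lit 271)) (PT.lf (nat_lit 39292) (nat_lit 6) (nat_lit 517) (nat_lit 4) (nat_lit 237) (nat_lit 273) (nat_lit 270))))))))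
noncomputable def pc74 : PT := (PT.nd (nat_lit 1326) (PT.nd (nat_lit 624) (PT.nd (nat_lit 312) (PT.nd (nat_lit 156) (PT.nd (nat_lit 78) (PT.lf (nat_lit 40964) (nat_lit 6) (nat_lit 539) (nat_lit 4) (nat_lit 238) (nat_lit 273) (nat_lit 269)) (PT.lf (nat_lit 42560) (nat_lit 6) (nat_lit 560) (nat_lit 4) (nat_lit 239) (nat_lit 273) (nat_lit 268))) (PT.nd (nat_lit 78) (PT.lf (nat_lit 44080) (nat_lit 6) (nat_lit 580) (nat_lit 4) (nat_lit 240) (nat_lit 273) (nat_lit 267)) (PT.lf (nat_lit 45524) (nat_lit 6) (nat_lit 599) (nat_lit 4) (nat_lit 241) (nat_lit 273) (nat_lit 266)))) (PT.nd (nat_lit 156) (PT.nd (nat_lit 78) (PT.lf (nat_lit 46892) (nat_lit 6) (nat_lit 617) (nat_lit 4) (nat_lit 242) (nat_lit 273) (nat_lit 265)) (PT.lf (nat_lit 48184) (nat_lit 6) (nat_lit 634) (nat_lit 4) (nat_lit 243) (nat_lit 273) (nat_lit 264))) (PT.nd (nat_lit 78) (PT.lf (nat_lit 49400) (nat_lit 6) (nat_lit 650) (nat_lit 4) (nat_lit 244) (nat_lit 273) (nat_lit 263)) (PT.lf (nat_lit 50540)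 (nat_lit 6) (nat_lit 665) (nat_lit 4) (nat_lit 245) (nat_lit 273) (nat_lit 262))))) (PT.nd (nat_lit 312) (PT.nd (nat_lit 156) (PT.nd (nat_lit 78) (PT.lf (nat_lit 51604) (nat_lit 6) (nat_lit 679) (nat_lit 4) (nat_lit 246) (nat_lit 273) (nat_lit 261)) (PT.lf (nat_lit 52592) (nat_lit 6) (nat_lit 692) (nat_lit 4) (nat_lit 247) (nat_lit 273) (nat_lit 260))) (PT.nd (nat_lit 78) (PT.lf (nat_lit 52516) (nat_lit 6) (nat_lit 691) (nat_lit 4) (nat_lit 248) (nat_lit 273) (nat_lit 259)) (PT.lf (nat_lit 52440) (nat_lit 6) (nat_lit 690) (nat_lit 4) (nat_lit 249) (nat_lit 273) (nat_lit 258)))) (PT.nd (nat_lit 156) (PT.nd (nat_lit 78) (PT.lf (nat_lit 52364) (nat_lit 6) (nat_lit 689) (nat_lit 4) (nat_lit 250) (nat_lit 273) (nat_lit 257)) (PT.lf (nat_lit 52288) (nat_lit 6) (nat_lit 688) (nat_lit 4) (nat_lit 251) (nat_lit 273) (nat_lit 256))) (PT.nd (nat_lit 78) (PT.lf (nat_lit 52212) (nat_lit 6) (nat_lit 687) (nat_lit 4) (nat_lit 252) (nat_lit 273) (nat_lit 255)) (PT.nd (nat_lit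 78) (PT.lf (nat_lit 52136) (nat_lit 6) (nat_lit 686) (nat_lit 4) (nat_lit 253) (nat_lit 273) (nat_lit 254)) (PT.lf (nat_lit 52136) (nat_lit 6) (nat_lit 686) (nat_lit 2) (nat_lit 254) (nat_lit 273) (nat_lit 253))))))) (PT.nd (nat_lit 624) (PT.nd (nat_lit 312) (PT.nd (nat_lit 156) (PT.nd (nat_lit 78) (PT.lf (nat_lit 52212) (nat_lit 6) (nat_lit 687) (nat_lit 2) (nat_lit 255) (nat_lit 273) (nat_lit 252)) (PT.lf (nat_lit 52288) (nat_lit 6) (nat_lit 688) (nat_lit 2) (nat_lit 256) (nat_lit 273) (nat_lit 251))) (PT.nd (nat_lit 78) (PT.lf (nat_lit 52364) (nat_lit 6) (nat_lit 689) (nat_lit 2) (nat_lit 257) (nat_lit 273) (nat_lit 250)) (PT.lf (nat_lit 52440) (nat_lit 6) (nat_lit 690) (nat_lit 2) (nat_lit 258) (nat_lit 273) (nat_lit 249)))) (PT.nd (nat_lit 156) (PT.nd (nat_lit 78) (PT.lf (nat_lit 52516) (nat_lit 6) (nat_lit 691) (nat_lit 2) (nat_lit 259) (nat_lit 273) (nat_lit 248)) (PT.lf (nat_lit 52592) (nat_lit 6) (nat_lit 692) (nat_lit 2) (nat_lit 260) (nat_lit 273)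 (nat_lit 247))) (PT.nd (nat_lit 78) (PT.lf (nat_lit 51604) (nat_lit 6) (nat_lit 679) (nat_lit 2) (nat_lit 261) (nat_lit 273) (nat_lit 246)) (PT.lf (nat_lit 50540) (nat_lit 6) (nat_lit 665) (nat_lit 2) (nat_lit 262) (nat_lit 273) (nat_lit 245))))) (PT.nd (nat_lit 312) (PT.nd (nat_lit 156) (PT.nd (nat_lit 78) (PT.lf (nat_lit 49400) (nat_lit 6) (nat_lit 650) (nat_lit 2) (nat_lit 263) (nat_lit 273) (nat_lit 244)) (PT.lf (nat_lit 48184) (nat_lit 6) (nat_lit 634) (nat_lit 2) (nat_lit 264) (nat_lit 273) (nat_lit 243))) (PT.nd (nat_lit 78) (PT.lf (nat_lit 46892) (nat_lit 6) (nat_lit 617) (nat_lit 2) (nat_lit 265) (nat_lit 273) (nat_lit 242)) (PT.lf (nat_lit 45524) (nat_lit 6) (nat_lit 599) (nat_lit 2) (nat_lit 266) (nat_lit 273) (nat_lit 241)))) (PT.nd (nat_lit 156) (PT.nd (nat_lit 78) (PT.lf (nat_lit 44080) (nat_lit 6) (nat_lit 580) (nat_lit 2) (nat_lit 267) (nat_lit 273) (nat_lit 240)) (PT.lf (nat_lit 42560) (nat_lit 6) (nat_lit 560) (nat_lit 2) (nat_lit 268) (nat_lit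 273) (nat_lit 239))) (PT.nd (nat_lit 78) (PT.lf (nat_lit 40964) (nat_lit 6) (nat_lit 539) (nat_lit 2) (nat_lit 269) (nat_lit 273) (nat_lit 238)) (PT.nd (nat_lit 78) (PT.lf (nat_lit 39292) (nat_lit 6) (nat_lit 517) (nat_lit 2) (nat_lit 270) (nat_lit 273) (nat_lit 237)) (PT.lf (nat_lit 37544) (nat_lit 6) (nat_lit 494) (nat_lit 2) (nat_lit 271) (nat_lit 273) (nat_lit 236))))))))
noncomputable def pc75 : PT := (PT.nd (nat_lit 1326) (PT.nd (nat_lit 624) (PT.nd (nat_lit 312) (PT.nd (nat_lit 156) (PT.nd (nat_lit 78) (PT.lf (nat_lit 35720) (nat_lit 6) (nat_lit 470) (nat_lit 2) (nat_lit 272) (nat_lit 273) (nat_lit 235)) (PT.lf (nat_lit 34656) (nat_lit 3) (nat_lit 456) (nat_lit 0) (nat_lit 273) (nat_lit 273) (nat_lit 234))) (PT.nd (nat_lit 78) (PT.lf (nat_lit 33668) (nat_lit 6) (nat_lit 443) (nat_lit 0) (nat_lit 274) (nat_lit 273) (nat_lit 233)) (PT.lf (nat_lit 32680) (nat_lit 6) (nat_lit 430) (nat_lit 0) (nat_lit 275) (nat_lit 273) (nat_lit 232)))) (PT.nd (nat_lit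 156) (PT.nd (nat_lit 78) (PT.lf (nat_lit 31768) (nat_lit 6) (nat_lit 418) (nat_lit 0) (nat_lit 276) (nat_lit 273) (nat_lit 231)) (PT.lf (nat_lit 30856) (nat_lit 6) (nat_lit 406) (nat_lit 0) (nat_lit 277) (nat_lit 273) (nat_lit 230))) (PT.nd (nat_lit 78) (PT.lf (nat_lit 29944) (nat_lit 6) (nat_lit 394) (nat_lit 0) (nat_lit 278) (nat_lit 273) (nat_lit 229)) (PT.lf (nat_lit 29032) (nat_lit 6) (nat_lit 382) (nat_lit 0) (nat_lit 279) (nat_lit 273) (nat_lit 228))))) (PT.nd (nat_lit 312) (PT.nd (nat_lit 156) (PT.nd (nat_lit 78) (PT.lf (nat_lit 28196) (nat_lit 6) (nat_lit 371) (nat_lit 0) (nat_lit 280) (nat_lit 273) (nat_lit 227)) (PT.lf (nat_lit 27360) (nat_lit 6) (nat_lit 360) (nat_lit 0) (nat_lit 281) (nat_lit 273) (nat_lit 226))) (PT.nd (nat_lit 78) (PT.lf (nat_lit 26600) (nat_lit 6) (nat_lit 350) (nat_lit 0) (nat_lit 282) (nat_lit 273) (nat_lit 225)) (PT.lf (nat_lit 25764) (nat_lit 6) (nat_lit 339) (nat_lit 0) (nat_lit 283) (nat_lit 273) (nat_lit 224)))) (PT.nd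 (nat_lit 156) (PT.nd (nat_lit 78) (PT.lf (nat_lit 25004) (nat_lit 6) (nat_lit 329) (nat_lit 0) (nat_lit 284) (nat_lit 273) (nat_lit 223)) (PT.lf (nat_lit 24244) (nat_lit 6) (nat_lit 319) (nat_lit 0) (nat_lit 285) (nat_lit 273) (nat_lit 222))) (PT.nd (nat_lit 78) (PT.lf (nat_lit 23560) (nat_lit 6) (nat_lit 310) (nat_lit 0) (nat_lit 286) (nat_lit 273) (nat_lit 221)) (PT.nd (nat_lit 78) (PT.lf (nat_lit 22800) (nat_lit 6) (nat_lit 300) (nat_lit 0) (nat_lit 287) (nat_lit 273) (nat_lit 220)) (PT.lf (nat_lit 22116) (nat_lit 6) (nat_lit 291) (nat_lit 0) (nat_lit 288) (nat_lit 273) (nat_lit 219))))))) (PT.nd (nat_lit 76206) (PT.nd (nat_lit 75816) (PT.nd (nat_lit 75660) (PT.nd (nat_lit 75582) (PT.lf (nat_lit 21432) (nat_lit 6) (nat_lit 282) (nat_lit 0) (nat_lit 289) (nat_lit 273) (nat_lit 218)) (PT.lf (nat_lit 20824) (nat_lit 6) (nat_lit 274) (nat_lit 5) (nat_lit 217) (nat_lit 274) (nat_lit 289))) (PT.nd (nat_lit 78) (PT.lf (nat_lit 21508) (nat_lit 6) (nat_lit 283)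 (nat_lit 5) (nat_lit 218) (nat_lit 274) (nat_lit 288)) (PT.lf (nat_lit 22192) (nat_lit 6) (nat_lit 292) (nat_lit 5) (nat_lit 219) (nat_lit 274) (nat_lit 287)))) (PT.nd (nat_lit 156) (PT.nd (nat_lit 78) (PT.lf (nat_lit 22876) (nat_lit 6) (nat_lit 301) (nat_lit 5) (nat_lit 220) (nat_lit 274) (nat_lit 286)) (PT.lf (nat_lit 23636) (nat_lit 6) (nat_lit 311) (nat_lit 5) (nat_lit 221) (nat_lit 274) (nat_lit 285))) (PT.nd (nat_lit 78) (PT.lf (nat_lit 24320) (nat_lit 6) (nat_lit 320) (nat_lit 5) (nat_lit 222) (nat_lit 274) (nat_lit 284)) (PT.nd (nat_lit 78) (PT.lf (nat_lit 25080) (nat_lit 6) (nat_lit 330) (nat_lit 5) (nat_lit 223) (nat_lit 274) (nat_lit 283)) (PT.lf (nat_lit 25840) (nat_lit 6) (nat_lit 340) (nat_lit 5) (nat_lit 224) (nat_lit 274) (nat_lit 282)))))) (PT.nd (nat_lit 312) (PT.nd (nat_lit 156) (PT.nd (nat_lit 78) (PT.lf (nat_lit 26676) (nat_lit 6) (nat_lit 351) (nat_lit 5) (nat_lit 225) (nat_lit 274) (nat_lit 281)) (PT.lf (nat_lit 27436) (nat_lit 6) (nat_lit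 361) (nat_lit 5) (nat_lit 226) (nat_lit 274) (nat_lit 280))) (PT.nd (nat_lit 78) (PT.lf (nat_lit 28272) (nat_lit 6) (nat_lit 372) (nat_lit 5) (nat_lit 227) (nat_lit 274) (nat_lit 279)) (PT.lf (nat_lit 29108) (nat_lit 6) (nat_lit 383) (nat_lit 5) (nat_lit 228) (nat_lit 274) (nat_lit 278)))) (PT.nd (nat_lit 156) (PT.nd (nat_lit 78) (PT.lf (nat_lit 30020) (nat_lit 6) (nat_lit 395) (nat_lit 5) (nat_lit 229) (nat_lit 274) (nat_lit 277)) (PT.lf (nat_lit 30932) (nat_lit 6) (nat_lit 407) (nat_lit 5) (nat_lit 230) (nat_lit 274) (nat_lit 276))) (PT.nd (nat_lit 78) (PT.lf (nat_lit 31844) (nat_lit 6) (nat_lit 419) (nat_lit 5) (nat_lit 231) (nat_lit 274) (nat_lit 275)) (PT.nd (nat_lit 78) (PT.lf (nat_lit 32756) (nat_lit 3) (nat_lit 431) (nat_lit 4) (nat_lit 232) (nat_lit 274) (nat_lit 274)) (PT.lf (nat_lit 33668) (nat_lit 6) (nat_lit 443) (nat_lit 4) (nat_lit 233) (nat_lit 274) (nat_lit 273))))))))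
noncomputable def pc76 : PT := (PT.nd (nat_lit 1326) (PT.nd (nat_lit 624) (PT.nd (nat_lit 312) (PT.nd (nat_lit 156) (PT.nd (nat_lit 78) (PT.lf (nat_lit 34580) (nat_lit 6) (nat_lit 455) (nat_lit 4) (nat_lit 234) (nat_lit 274) (nat_lit 272)) (PT.lf (nat_lit 35644) (nat_lit 6) (nat_lit 469) (nat_lit 4) (nat_lit 235) (nat_lit 274) (nat_lit 271))) (PT.nd (nat_lit 78) (PT.lf (nat_lit 37468) (nat_lit 6) (nat_lit 493) (nat_lit 4) (nat_lit 236) (nat_lit 274) (nat_lit 270)) (PT.lf (nat_lit 39216) (nat_lit 6) (nat_lit 516) (nat_lit 4) (nat_lit 237) (nat_lit 274) (nat_lit 269)))) (PT.nd (nat_lit 156) (PT.nd (nat_lit 78) (PT.lf (nat_lit 40888) (nat_lit 6) (nat_lit 538) (nat_lit 4) (nat_lit 238) (nat_lit 274) (nat_lit 268)) (PT.lf (nat_lit 42484) (nat_lit 6) (nat_lit 559) (nat_lit 4) (nat_lit 239) (nat_lit 274) (nat_lit 267))) (PT.nd (nat_lit 78) (PT.lf (nat_lit 44004) (nat_lit 6) (nat_lit 579) (nat_lit 4) (nat_lit 240) (nat_lit 274) (nat_lit 266)) (PT.lf (nat_lit 45448)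 (nat_lit 6) (nat_lit 598) (nat_lit 4) (nat_lit 241) (nat_lit 274) (nat_lit 265))))) (PT.nd (nat_lit 312) (PT.nd (nat_lit 156) (PT.nd (nat_lit 78) (PT.lf (nat_lit 46816) (nat_lit 6) (nat_lit 616) (nat_lit 4) (nat_lit 242) (nat_lit 274) (nat_lit 264)) (PT.lf (nat_lit 48108) (nat_lit 6) (nat_lit 633) (nat_lit 4) (nat_lit 243) (nat_lit 274) (nat_lit 263))) (PT.nd (nat_lit 78) (PT.lf (nat_lit 49324) (nat_lit 6) (nat_lit 649) (nat_lit 4) (nat_lit 244) (nat_lit 274) (nat_lit 262)) (PT.lf (nat_lit 50464) (nat_lit 6) (nat_lit 664) (nat_lit 4) (nat_lit 245) (nat_lit 274) (nat_lit 261)))) (PT.nd (nat_lit 156) (PT.nd (nat_lit 78) (PT.lf (nat_lit 51528) (nat_lit 6) (nat_lit 678) (nat_lit 4) (nat_lit 246) (nat_lit 274) (nat_lit 260)) (PT.lf (nat_lit 51452) (nat_lit 6) (nat_lit 677) (nat_lit 4) (nat_lit 247) (nat_lit 274) (nat_lit 259))) (PT.nd (nat_lit 78) (PT.lf (nat_lit 51376) (nat_lit 6) (nat_lit 676) (nat_lit 4) (nat_lit 248) (nat_lit 274) (nat_lit 258)) (PT.nd (nat_lit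 78) (PT.lf (nat_lit 51300) (nat_lit 6) (nat_lit 675) (nat_lit 4) (nat_lit 249) (nat_lit 274) (nat_lit 257)) (PT.lf (nat_lit 51224) (nat_lit 6) (nat_lit 674) (nat_lit 4) (nat_lit 250) (nat_lit 274) (nat_lit 256))))))) (PT.nd (nat_lit 624) (PT.nd (nat_lit 312) (PT.nd (nat_lit 156) (PT.nd (nat_lit 78) (PT.lf (nat_lit 51148) (nat_lit 6) (nat_lit 673) (nat_lit 4) (nat_lit 251) (nat_lit 274) (nat_lit 255)) (PT.lf (nat_lit 51072) (nat_lit 6) (nat_lit 672) (nat_lit 4) (nat_lit 252) (nat_lit 274) (nat_lit 254))) (PT.nd (nat_lit 78) (PT.lf (nat_lit 50996) (nat_lit 3) (nat_lit 671) (nat_lit 2) (nat_lit 253) (nat_lit 274) (nat_lit 253)) (PT.lf (nat_lit 51072) (nat_lit 6) (nat_lit 672) (nat_lit 2) (nat_lit 254) (nat_lit 274) (nat_lit 252)))) (PT.nd (nat_lit 156) (PT.nd (nat_lit 78) (PT.lf (nat_lit 51148) (nat_lit 6) (nat_lit 673) (nat_lit 2) (nat_lit 255) (nat_lit 274) (nat_lit 251)) (PT.lf (nat_lit 51224) (nat_lit 6) (nat_lit 674) (nat_lit 2) (nat_lit 256) (nat_lit 274)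 (nat_lit 250))) (PT.nd (nat_lit 78) (PT.lf (nat_lit 51300) (nat_lit 6) (nat_lit 675) (nat_lit 2) (nat_lit 257) (nat_lit 274) (nat_lit 249)) (PT.lf (nat_lit 51376) (nat_lit 6) (nat_lit 676) (nat_lit 2) (nat_lit 258) (nat_lit 274) (nat_lit 248))))) (PT.nd (nat_lit 312) (PT.nd (nat_lit 156) (PT.nd (nat_lit 78) (PT.lf (nat_lit 51452) (nat_lit 6) (nat_lit 677) (nat_lit 2) (nat_lit 259) (nat_lit 274) (nat_lit 247)) (PT.lf (nat_lit 51528) (nat_lit 6) (nat_lit 678) (nat_lit 2) (nat_lit 260) (nat_lit 274) (nat_lit 246))) (PT.nd (nat_lit 78) (PT.lf (nat_lit 50464) (nat_lit 6) (nat_lit 664) (nat_lit 2) (nat_lit 261) (nat_lit 274) (nat_lit 245)) (PT.lf (nat_lit 49324) (nat_lit 6) (nat_lit 649) (nat_lit 2) (nat_lit 262) (nat_lit 274) (nat_lit 244)))) (PT.nd (nat_lit 156) (PT.nd (nat_lit 78) (PT.lf (nat_lit 48108) (nat_lit 6) (nat_lit 633) (nat_lit 2) (nat_lit 263) (nat_lit 274) (nat_lit 243)) (PT.lf (nat_lit 46816) (nat_lit 6) (nat_lit 616) (nat_lit 2) (nat_lit 264) (nat_lit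 274) (nat_lit 242))) (PT.nd (nat_lit 78) (PT.lf (nat_lit 45448) (nat_lit 6) (nat_lit 598) (nat_lit 2) (nat_lit 265) (nat_lit 274) (nat_lit 241)) (PT.nd (nat_lit 78) (PT.lf (nat_lit 44004) (nat_lit 6) (nat_lit 579) (nat_lit 2) (nat_lit 266) (nat_lit 274) (nat_lit 240)) (PT.lf (nat_lit 42484) (nat_lit 6) (nat_lit 559) (nat_lit 2) (nat_lit 267) (nat_lit 274) (nat_lit 239))))))))
noncomputable def pc77 : PT := (PT.nd (nat_lit 1326) (PT.nd (nat_lit 624) (PT.nd (nat_lit 312) (PT.nd (nat_lit 156) (PT.nd (nat_lit 78) (PT.lf (nat_lit 40888) (nat_lit 6) (nat_lit 538) (nat_lit 2) (nat_lit 268) (nat_lit 274) (nat_lit 238)) (PT.lf (nat_lit 39216) (nat_lit 6) (nat_lit 516) (nat_lit 2) (nat_lit 269) (nat_lit 274) (nat_lit 237))) (PT.nd (nat_lit 78) (PT.lf (nat_lit 37468) (nat_lit 6) (nat_lit 493) (nat_lit 2) (nat_lit 270) (nat_lit 274) (nat_lit 236)) (PT.lf (nat_lit 35644) (nat_lit 6) (nat_lit 469) (nat_lit 2) (nat_lit 271) (nat_lit 274) (nat_lit 235)))) (PT.nd (nat_lit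 156) (PT.nd (nat_lit 78) (PT.lf (nat_lit 34580) (nat_lit 6) (nat_lit 455) (nat_lit 2) (nat_lit 272) (nat_lit 274) (nat_lit 234)) (PT.lf (nat_lit 33668) (nat_lit 6) (nat_lit 443) (nat_lit 2) (nat_lit 273) (nat_lit 274) (nat_lit 233))) (PT.nd (nat_lit 78) (PT.lf (nat_lit 32756) (nat_lit 3) (nat_lit 431) (nat_lit 0) (nat_lit 274) (nat_lit 274) (nat_lit 232)) (PT.lf (nat_lit 31844) (nat_lit 6) (nat_lit 419) (nat_lit 0) (nat_lit 275) (nat_lit 274) (nat_lit 231))))) (PT.nd (nat_lit 312) (PT.nd (nat_lit 156) (PT.nd (nat_lit 78) (PT.lf (nat_lit 30932) (nat_lit 6) (nat_lit 407) (nat_lit 0) (nat_lit 276) (nat_lit 274) (nat_lit 230)) (PT.lf (nat_lit 30020) (nat_lit 6) (nat_lit 395) (nat_lit 0) (nat_lit 277) (nat_lit 274) (nat_lit 229))) (PT.nd (nat_lit 78) (PT.lf (nat_lit 29108) (nat_lit 6) (nat_lit 383) (nat_lit 0) (nat_lit 278) (nat_lit 274) (nat_lit 228)) (PT.lf (nat_lit 28272) (nat_lit 6) (nat_lit 372) (nat_lit 0) (nat_lit 279) (nat_lit 274) (nat_lit 227)))) (PT.nd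 (nat_lit 156) (PT.nd (nat_lit 78) (PT.lf (nat_lit 27436) (nat_lit 6) (nat_lit 361) (nat_lit 0) (nat_lit 280) (nat_lit 274) (nat_lit 226)) (PT.lf (nat_lit 26676) (nat_lit 6) (nat_lit 351) (nat_lit 0) (nat_lit 281) (nat_lit 274) (nat_lit 225))) (PT.nd (nat_lit 78) (PT.lf (nat_lit 25840) (nat_lit 6) (nat_lit 340) (nat_lit 0) (nat_lit 282) (nat_lit 274) (nat_lit 224)) (PT.nd (nat_lit 78) (PT.lf (nat_lit 25080) (nat_lit 6) (nat_lit 330) (nat_lit 0) (nat_lit 283) (nat_lit 274) (nat_lit 223)) (PT.lf (nat_lit 24320) (nat_lit 6) (nat_lit 320) (nat_lit 0) (nat_lit 284) (nat_lit 274) (nat_lit 222))))))) (PT.nd (nat_lit 76050) (PT.nd (nat_lit 312) (PT.nd (nat_lit 156) (PT.nd (nat_lit 78) (PT.lf (nat_lit 23636) (nat_lit 6) (nat_lit 311) (nat_lit 0) (nat_lit 285) (nat_lit 274) (nat_lit 221)) (PT.lf (nat_lit 22876) (nat_lit 6) (nat_lit 301) (nat_lit 0) (nat_lit 286) (nat_lit 274) (nat_lit 220))) (PT.nd (nat_lit 78) (PT.lf (nat_lit 22192) (nat_lit 6) (nat_lit 292) (nat_lit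 0) (nat_lit 287) (nat_lit 274) (nat_lit 219)) (PT.lf (nat_lit 21508) (nat_lit 6) (nat_lit 283) (nat_lit 0) (nat_lit 288) (nat_lit 274) (nat_lit 218)))) (PT.nd (nat_lit 75582) (PT.nd (nat_lit 75504) (PT.lf (nat_lit 20824) (nat_lit 6) (nat_lit 274) (nat_lit 0) (nat_lit 289) (nat_lit 274) (nat_lit 217)) (PT.lf (nat_lit 20216) (nat_lit 6) (nat_lit 266) (nat_lit 5) (nat_lit 216) (nat_lit 275) (nat_lit 289))) (PT.nd (nat_lit 78) (PT.lf (nat_lit 20900) (nat_lit 6) (nat_lit 275) (nat_lit 5) (nat_lit 217) (nat_lit 275) (nat_lit 288)) (PT.lf (nat_lit 21584) (nat_lit 6) (nat_lit 284) (nat_lit 5) (nat_lit 218) (nat_lit 275) (nat_lit 287))))) (PT.nd (nat_lit 312) (PT.nd (nat_lit 156) (PT.nd (nat_lit 78) (PT.lf (nat_lit 22268) (nat_lit 6) (nat_lit 293) (nat_lit 5) (nat_lit 219) (nat_lit 275) (nat_lit 286)) (PT.lf (nat_lit 22952) (nat_lit 6) (nat_lit 302) (nat_lit 5) (nat_lit 220) (nat_lit 275) (nat_lit 285))) (PT.nd (nat_lit 78) (PT.lf (nat_lit 23712) (nat_lit 6) (nat_lit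 312) (nat_lit 5) (nat_lit 221) (nat_lit 275) (nat_lit 284)) (PT.lf (nat_lit 24396) (nat_lit 6) (nat_lit 321) (nat_lit 5) (nat_lit 222) (nat_lit 275) (nat_lit 283)))) (PT.nd (nat_lit 156) (PT.nd (nat_lit 78) (PT.lf (nat_lit 25156) (nat_lit 6) (nat_lit 331) (nat_lit 5) (nat_lit 223) (nat_lit 275) (nat_lit 282)) (PT.lf (nat_lit 25916) (nat_lit 6) (nat_lit 341) (nat_lit 5) (nat_lit 224) (nat_lit 275) (nat_lit 281))) (PT.nd (nat_lit 78) (PT.lf (nat_lit 26752) (nat_lit 6) (nat_lit 352) (nat_lit 5) (nat_lit 225) (nat_lit 275) (nat_lit 280)) (PT.nd (nat_lit 78) (PT.lf (nat_lit 27512) (nat_lit 6) (nat_lit 362) (nat_lit 5) (nat_lit 226) (nat_lit 275) (nat_lit 279)) (PT.lf (nat_lit 28348) (nat_lit 6) (nat_lit 373) (nat_lit 5) (nat_lit 227) (nat_lit 275) (nat_lit 278))))))))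
noncomputable def pc78 : PT := (PT.nd (nat_lit 1326) (PT.nd (nat_lit 624) (PT.nd (nat_lit 312) (PT.nd (nat_lit 156) (PT.nd (nat_lit 78) (PT.lf (nat_lit 29184) (nat_lit 6) (nat_lit 384) (nat_lit 5) (nat_lit 228) (nat_lit 275) (nat_lit 277)) (PT.lf (nat_lit 30096) (nat_lit 6) (nat_lit 396) (nat_lit 5) (nat_lit 229) (nat_lit 275) (nat_lit 276))) (PT.nd (nat_lit 78) (PT.lf (nat_lit 31008) (nat_lit 3) (nat_lit 408) (nat_lit 4) (nat_lit 230) (nat_lit 275) (nat_lit 275)) (PT.lf (nat_lit 31844) (nat_lit 6) (nat_lit 419) (nat_lit 4) (nat_lit 231) (nat_lit 275) (nat_lit 274)))) (PT.nd (nat_lit 156) (PT.nd (nat_lit 78) (PT.lf (nat_lit 32680) (nat_lit 6) (nat_lit 430) (nat_lit 4) (nat_lit 232) (nat_lit 275) (nat_lit 273)) (PT.lf (nat_lit 33592) (nat_lit 6) (nat_lit 442) (nat_lit 4) (nat_lit 233) (nat_lit 275) (nat_lit 272))) (PT.nd (nat_lit 78) (PT.lf (nat_lit 34504) (nat_lit 6) (nat_lit 454) (nat_lit 4) (nat_lit 234) (nat_lit 275) (nat_lit 271)) (PT.lf (nat_lit 35568)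 (nat_lit 6) (nat_lit 468) (nat_lit 4) (nat_lit 235) (nat_lit 275) (nat_lit 270))))) (PT.nd (nat_lit 312) (PT.nd (nat_lit 156) (PT.nd (nat_lit 78) (PT.lf (nat_lit 37392) (nat_lit 6) (nat_lit 492) (nat_lit 4) (nat_lit 236) (nat_lit 275) (nat_lit 269)) (PT.lf (nat_lit 39140) (nat_lit 6) (nat_lit 515) (nat_lit 4) (nat_lit 237) (nat_lit 275) (nat_lit 268))) (PT.nd (nat_lit 78) (PT.lf (nat_lit 40812) (nat_lit 6) (nat_lit 537) (nat_lit 4) (nat_lit 238) (nat_lit 275) (nat_lit 267)) (PT.lf (nat_lit 42408) (nat_lit 6) (nat_lit 558) (nat_lit 4) (nat_lit 239) (nat_lit 275) (nat_lit 266)))) (PT.nd (nat_lit 156) (PT.nd (nat_lit 78) (PT.lf (nat_lit 43928) (nat_lit 6) (nat_lit 578) (nat_lit 4) (nat_lit 240) (nat_lit 275) (nat_lit 265)) (PT.lf (nat_lit 45372) (nat_lit 6) (nat_lit 597) (nat_lit 4) (nat_lit 241) (nat_lit 275) (nat_lit 264))) (PT.nd (nat_lit 78) (PT.lf (nat_lit 46740) (nat_lit 6) (nat_lit 615) (nat_lit 4) (nat_lit 242) (nat_lit 275) (nat_lit 263)) (PT.nd (nat_lit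 78) (PT.lf (nat_lit 48032) (nat_lit 6) (nat_lit 632) (nat_lit 4) (nat_lit 243) (nat_lit 275) (nat_lit 262)) (PT.lf (nat_lit 49248) (nat_lit 6) (nat_lit 648) (nat_lit 4) (nat_lit 244) (nat_lit 275) (nat_lit 261))))))) (PT.nd (nat_lit 624) (PT.nd (nat_lit 312) (PT.nd (nat_lit 156) (PT.nd (nat_lit 78) (PT.lf (nat_lit 50388) (nat_lit 6) (nat_lit 663) (nat_lit 4) (nat_lit 245) (nat_lit 275) (nat_lit 260)) (PT.lf (nat_lit 50312) (nat_lit 6) (nat_lit 662) (nat_lit 4) (nat_lit 246) (nat_lit 275) (nat_lit 259))) (PT.nd (nat_lit 78) (PT.lf (nat_lit 50236) (nat_lit 6) (nat_lit 661) (nat_lit 4) (nat_lit 247) (nat_lit 275) (nat_lit 258)) (PT.lf (nat_lit 50160) (nat_lit 6) (nat_lit 660) (nat_lit 4) (nat_lit 248) (nat_lit 275) (nat_lit 257)))) (PT.nd (nat_lit 156) (PT.nd (nat_lit 78) (PT.lf (nat_lit 50084) (nat_lit 6) (nat_lit 659) (nat_lit 4) (nat_lit 249) (nat_lit 275) (nat_lit 256)) (PT.lf (nat_lit 50008) (nat_lit 6) (nat_lit 658) (nat_lit 4) (nat_lit 250) (nat_lit 275)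 (nat_lit 255))) (PT.nd (nat_lit 78) (PT.lf (nat_lit 49932) (nat_lit 6) (nat_lit 657) (nat_lit 4) (nat_lit 251) (nat_lit 275) (nat_lit 254)) (PT.lf (nat_lit 49856) (nat_lit 6) (nat_lit 656) (nat_lit 4) (nat_lit 252) (nat_lit 275) (nat_lit 253))))) (PT.nd (nat_lit 312) (PT.nd (nat_lit 156) (PT.nd (nat_lit 78) (PT.lf (nat_lit 49856) (nat_lit 6) (nat_lit 656) (nat_lit 2) (nat_lit 253) (nat_lit 275) (nat_lit 252)) (PT.lf (nat_lit 49932) (nat_lit 6) (nat_lit 657) (nat_lit 2) (nat_lit 254) (nat_lit 275) (nat_lit 251))) (PT.nd (nat_lit 78) (PT.lf (nat_lit 50008) (nat_lit 6) (nat_lit 658) (nat_lit 2) (nat_lit 255) (nat_lit 275) (nat_lit 250)) (PT.lf (nat_lit 50084) (nat_lit 6) (nat_lit 659) (nat_lit 2) (nat_lit 256) (nat_lit 275) (nat_lit 249)))) (PT.nd (nat_lit 156) (PT.nd (nat_lit 78) (PT.lf (nat_lit 50160) (nat_lit 6) (nat_lit 660) (nat_lit 2) (nat_lit 257) (nat_lit 275) (nat_lit 248)) (PT.lf (nat_lit 50236) (nat_lit 6) (nat_lit 661) (nat_lit 2) (nat_lit 258) (nat_lit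 275) (nat_lit 247))) (PT.nd (nat_lit 78) (PT.lf (nat_lit 50312) (nat_lit 6) (nat_lit 662) (nat_lit 2) (nat_lit 259) (nat_lit 275) (nat_lit 246)) (PT.nd (nat_lit 78) (PT.lf (nat_lit 50388) (nat_lit 6) (nat_lit 663) (nat_lit 2) (nat_lit 260) (nat_lit 275) (nat_lit 245)) (PT.lf (nat_lit 49248) (nat_lit 6) (nat_lit 648) (nat_lit 2) (nat_lit 261) (nat_lit 275) (nat_lit 244))))))))
noncomputable def pc79 : PT := (PT.nd (nat_lit 1326) (PT.nd (nat_lit 624) (PT.nd (nat_lit 312) (PT.nd (nat_lit 156) (PT.nd (nat_lit 78) (PT.lf (nat_lit 48032) (nat_lit 6) (nat_lit 632) (nat_lit 2) (nat_lit 262) (nat_lit 275) (nat_lit 243)) (PT.lf (nat_lit 46740) (nat_lit 6) (nat_lit 615) (nat_lit 2) (nat_lit 263) (nat_lit 275) (nat_lit 242))) (PT.nd (nat_lit 78) (PT.lf (nat_lit 45372) (nat_lit 6) (nat_lit 597) (nat_lit 2) (nat_lit 264) (nat_lit 275) (nat_lit 241)) (PT.lf (nat_lit 43928) (nat_lit 6) (nat_lit 578) (nat_lit 2) (nat_lit 265) (nat_lit 275) (nat_lit 240)))) (PT.nd (nat_lit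 156) (PT.nd (nat_lit 78) (PT.lf (nat_lit 42408) (nat_lit 6) (nat_lit 558) (nat_lit 2) (nat_lit 266) (nat_lit 275) (nat_lit 239)) (PT.lf (nat_lit 40812) (nat_lit 6) (nat_lit 537) (nat_lit 2) (nat_lit 267) (nat_lit 275) (nat_lit 238))) (PT.nd (nat_lit 78) (PT.lf (nat_lit 39140) (nat_lit 6) (nat_lit 515) (nat_lit 2) (nat_lit 268) (nat_lit 275) (nat_lit 237)) (PT.lf (nat_lit 37392) (nat_lit 6) (nat_lit 492) (nat_lit 2) (nat_lit 269) (nat_lit 275) (nat_lit 236))))) (PT.nd (nat_lit 312) (PT.nd (nat_lit 156) (PT.nd (nat_lit 78) (PT.lf (nat_lit 35568) (nat_lit 6) (nat_lit 468) (nat_lit 2) (nat_lit 270) (nat_lit 275) (nat_lit 235)) (PT.lf (nat_lit 34504) (nat_lit 6) (nat_lit 454) (nat_lit 2) (nat_lit 271) (nat_lit 275) (nat_lit 234))) (PT.nd (nat_lit 78) (PT.lf (nat_lit 33592) (nat_lit 6) (nat_lit 442) (nat_lit 2) (nat_lit 272) (nat_lit 275) (nat_lit 233)) (PT.lf (nat_lit 32680) (nat_lit 6) (nat_lit 430) (nat_lit 2) (nat_lit 273) (nat_lit 275) (nat_lit 232)))) (PT.nd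 (nat_lit 156) (PT.nd (nat_lit 78) (PT.lf (nat_lit 31844) (nat_lit 6) (nat_lit 419) (nat_lit 2) (nat_lit 274) (nat_lit 275) (nat_lit 231)) (PT.lf (nat_lit 31008) (nat_lit 3) (nat_lit 408) (nat_lit 0) (nat_lit 275) (nat_lit 275) (nat_lit 230))) (PT.nd (nat_lit 78) (PT.lf (nat_lit 30096) (nat_lit 6) (nat_lit 396) (nat_lit 0) (nat_lit 276) (nat_lit 275) (nat_lit 229)) (PT.nd (nat_lit 78) (PT.lf (nat_lit 29184) (nat_lit 6) (nat_lit 384) (nat_lit 0) (nat_lit 277) (nat_lit 275) (nat_lit 228)) (PT.lf (nat_lit 28348) (nat_lit 6) (nat_lit 373) (nat_lit 0) (nat_lit 278) (nat_lit 275) (nat_lit 227))))))) (PT.nd (nat_lit 702) (PT.nd (nat_lit 312) (PT.nd (nat_lit 156) (PT.nd (nat_lit 78) (PT.lf (nat_lit 27512) (nat_lit 6) (nat_lit 362) (nat_lit 0) (nat_lit 279) (nat_lit 275) (nat_lit 226)) (PT.lf (nat_lit 26752) (nat_lit 6) (nat_lit 352) (nat_lit 0) (nat_lit 280) (nat_lit 275) (nat_lit 225))) (PT.nd (nat_lit 78) (PT.lf (nat_lit 25916) (nat_lit 6) (nat_lit 341) (nat_lit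 0) (nat_lit 281) (nat_lit 275) (nat_lit 224)) (PT.lf (nat_lit 25156) (nat_lit 6) (nat_lit 331) (nat_lit 0) (nat_lit 282) (nat_lit 275) (nat_lit 223)))) (PT.nd (nat_lit 156) (PT.nd (nat_lit 78) (PT.lf (nat_lit 24396) (nat_lit 6) (nat_lit 321) (nat_lit 0) (nat_lit 283) (nat_lit 275) (nat_lit 222)) (PT.lf (nat_lit 23712) (nat_lit 6) (nat_lit 312) (nat_lit 0) (nat_lit 284) (nat_lit 275) (nat_lit 221))) (PT.nd (nat_lit 78) (PT.lf (nat_lit 22952) (nat_lit 6) (nat_lit 302) (nat_lit 0) (nat_lit 285) (nat_lit 275) (nat_lit 220)) (PT.nd (nat_lit 78) (PT.lf (nat_lit 22268) (nat_lit 6) (nat_lit 293) (nat_lit 0) (nat_lit 286) (nat_lit 275) (nat_lit 219)) (PT.lf (nat_lit 21584) (nat_lit 6) (nat_lit 284) (nat_lit 0) (nat_lit 287) (nat_lit 275) (nat_lit 218)))))) (PT.nd (nat_lit 75582) (PT.nd (nat_lit 75426) (PT.nd (nat_lit 78) (PT.lf (nat_lit 20900) (nat_lit 6) (nat_lit 275) (nat_lit 0) (nat_lit 288) (nat_lit 275) (nat_lit 217)) (PT.lf (nat_lit 20216) (nat_lit 6) (nat_lit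 266) (nat_lit 0) (nat_lit 289) (nat_lit 275) (nat_lit 216))) (PT.nd (nat_lit 78) (PT.lf (nat_lit 19076) (nat_lit 6) (nat_lit 251) (nat_lit 5) (nat_lit 214) (nat_lit 276) (nat_lit 290)) (PT.lf (nat_lit 19684) (nat_lit 6) (nat_lit 259) (nat_lit 5) (nat_lit 215) (nat_lit 276) (nat_lit 289)))) (PT.nd (nat_lit 156) (PT.nd (nat_lit 78) (PT.lf (nat_lit 20292) (nat_lit 6) (nat_lit 267) (nat_lit 5) (nat_lit 216) (nat_lit 276) (nat_lit 288)) (PT.lf (nat_lit 20976) (nat_lit 6) (nat_lit 276) (nat_lit 5) (nat_lit 217) (nat_lit 276) (nat_lit 287))) (PT.nd (nat_lit 78) (PT.lf (nat_lit 21660) (nat_lit 6) (nat_lit 285) (nat_lit 5) (nat_lit 218) (nat_lit 276) (nat_lit 286)) (PT.nd (nat_lit 78) (PT.lf (nat_lit 22344) (nat_lit 6) (nat_lit 294) (nat_lit 5) (nat_lit 219) (nat_lit 276) (nat_lit 285)) (PT.lf (nat_lit 23028) (nat_lit 6) (nat_lit 303) (nat_lit 5) (nat_lit 220) (nat_lit 276) (nat_lit 284))))))))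
noncomputable def pc80 : PT := (PT.nd (nat_lit 1326) (PT.nd (nat_lit 624) (PT.nd (nat_lit 312) (PT.nd (nat_lit 156) (PT.nd (nat_lit 78) (PT.lf (nat_lit 23788) (nat_lit 6) (nat_lit 313) (nat_lit 5) (nat_lit 221) (nat_lit 276) (nat_lit 283)) (PT.lf (nat_lit 24472) (nat_lit 6) (nat_lit 322) (nat_lit 5) (nat_lit 222) (nat_lit 276) (nat_lit 282))) (PT.nd (nat_lit 78) (PT.lf (nat_lit 25232) (nat_lit 6) (nat_lit 332) (nat_lit 5) (nat_lit 223) (nat_lit 276) (nat_lit 281)) (PT.lf (nat_lit 25992) (nat_lit 6) (nat_lit 342) (nat_lit 5) (nat_lit 224) (nat_lit 276) (nat_lit 280)))) (PT.nd (nat_lit 156) (PT.nd (nat_lit 78) (PT.lf (nat_lit 26828) (nat_lit 6) (nat_lit 353) (nat_lit 5) (nat_lit 225) (nat_lit 276) (nat_lit 279)) (PT.lf (nat_lit 27588) (nat_lit 6) (nat_lit 363) (nat_lit 5) (nat_lit 226) (nat_lit 276) (nat_lit 278))) (PT.nd (nat_lit 78) (PT.lf (nat_lit 28424) (nat_lit 6) (nat_lit 374) (nat_lit 5) (nat_lit 227) (nat_lit 276) (nat_lit 277)) (PT.lf (nat_lit 29260)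 (nat_lit 3) (nat_lit 385) (nat_lit 4) (nat_lit 228) (nat_lit 276) (nat_lit 276))))) (PT.nd (nat_lit 312) (PT.nd (nat_lit 156) (PT.nd (nat_lit 78) (PT.lf (nat_lit 30096) (nat_lit 6) (nat_lit 396) (nat_lit 4) (nat_lit 229) (nat_lit 276) (nat_lit 275)) (PT.lf (nat_lit 30932) (nat_lit 6) (nat_lit 407) (nat_lit 4) (nat_lit 230) (nat_lit 276) (nat_lit 274))) (PT.nd (nat_lit 78) (PT.lf (nat_lit 31768) (nat_lit 6) (nat_lit 418) (nat_lit 4) (nat_lit 231) (nat_lit 276) (nat_lit 273)) (PT.lf (nat_lit 32604) (nat_lit 6) (nat_lit 429) (nat_lit 4) (nat_lit 232) (nat_lit 276) (nat_lit 272)))) (PT.nd (nat_lit 156) (PT.nd (nat_lit 78) (PT.lf (nat_lit 33516) (nat_lit 6) (nat_lit 441) (nat_lit 4) (nat_lit 233) (nat_lit 276) (nat_lit 271)) (PT.lf (nat_lit 34428) (nat_lit 6) (nat_lit 453) (nat_lit 4) (nat_lit 234) (nat_lit 276) (nat_lit 270))) (PT.nd (nat_lit 78) (PT.lf (nat_lit 35492) (nat_lit 6) (nat_lit 467) (nat_lit 4) (nat_lit 235) (nat_lit 276) (nat_lit 269)) (PT.nd (nat_lit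 78) (PT.lf (nat_lit 37316) (nat_lit 6) (nat_lit 491) (nat_lit 4) (nat_lit 236) (nat_lit 276) (nat_lit 268)) (PT.lf (nat_lit 39064) (nat_lit 6) (nat_lit 514) (nat_lit 4) (nat_lit 237) (nat_lit 276) (nat_lit 267))))))) (PT.nd (nat_lit 624) (PT.nd (nat_lit 312) (PT.nd (nat_lit 156) (PT.nd (nat_lit 78) (PT.lf (nat_lit 40736) (nat_lit 6) (nat_lit 536) (nat_lit 4) (nat_lit 238) (nat_lit 276) (nat_lit 266)) (PT.lf (nat_lit 42332) (nat_lit 6) (nat_lit 557) (nat_lit 4) (nat_lit 239) (nat_lit 276) (nat_lit 265))) (PT.nd (nat_lit 78) (PT.lf (nat_lit 43852) (nat_lit 6) (nat_lit 577) (nat_lit 4) (nat_lit 240) (nat_lit 276) (nat_lit 264)) (PT.lf (nat_lit 45296) (nat_lit 6) (nat_lit 596) (nat_lit 4) (nat_lit 241) (nat_lit 276) (nat_lit 263)))) (PT.nd (nat_lit 156) (PT.nd (nat_lit 78) (PT.lf (nat_lit 46664) (nat_lit 6) (nat_lit 614) (nat_lit 4) (nat_lit 242) (nat_lit 276) (nat_lit 262)) (PT.lf (nat_lit 47956) (nat_lit 6) (nat_lit 631) (nat_lit 4) (nat_lit 243) (nat_lit 276)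 (nat_lit 261))) (PT.nd (nat_lit 78) (PT.lf (nat_lit 49172) (nat_lit 6) (nat_lit 647) (nat_lit 4) (nat_lit 244) (nat_lit 276) (nat_lit 260)) (PT.lf (nat_lit 49096) (nat_lit 6) (nat_lit 646) (nat_lit 4) (nat_lit 245) (nat_lit 276) (nat_lit 259))))) (PT.nd (nat_lit 312) (PT.nd (nat_lit 156) (PT.nd (nat_lit 78) (PT.lf (nat_lit 49020) (nat_lit 6) (nat_lit 645) (nat_lit 4) (nat_lit 246) (nat_lit 276) (nat_lit 258)) (PT.lf (nat_lit 48944) (nat_lit 6) (nat_lit 644) (nat_lit 4) (nat_lit 247) (nat_lit 276) (nat_lit 257))) (PT.nd (nat_lit 78) (PT.lf (nat_lit 48868) (nat_lit 6) (nat_lit 643) (nat_lit 4) (nat_lit 248) (nat_lit 276) (nat_lit 256)) (PT.lf (nat_lit 48792) (nat_lit 6) (nat_lit 642) (nat_lit 4) (nat_lit 249) (nat_lit 276) (nat_lit 255)))) (PT.nd (nat_lit 156) (PT.nd (nat_lit 78) (PT.lf (nat_lit 48716) (nat_lit 6) (nat_lit 641) (nat_lit 4) (nat_lit 250) (nat_lit 276) (nat_lit 254)) (PT.lf (nat_lit 48640) (nat_lit 6) (nat_lit 640) (nat_lit 4) (nat_lit 251) (nat_lit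 276) (nat_lit 253))) (PT.nd (nat_lit 78) (PT.lf (nat_lit 48564) (nat_lit 3) (nat_lit 639) (nat_lit 2) (nat_lit 252) (nat_lit 276) (nat_lit 252)) (PT.nd (nat_lit 78) (PT.lf (nat_lit 48640) (nat_lit 6) (nat_lit 640) (nat_lit 2) (nat_lit 253) (nat_lit 276) (nat_lit 251)) (PT.lf (nat_lit 48716) (nat_lit 6) (nat_lit 641) (nat_lit 2) (nat_lit 254) (nat_lit 276) (nat_lit 250))))))))
noncomputable def pc81 : PT := (PT.nd (nat_lit 1326) (PT.nd (nat_lit 624) (PT.nd (nat_lit 312) (PT.nd (nat_lit 156) (PT.nd (nat_lit 78) (PT.lf (nat_lit 48792) (nat_lit 6) (nat_lit 642) (nat_lit 2) (nat_lit 255) (nat_lit 276) (nat_lit 249)) (PT.lf (nat_lit 48868) (nat_lit 6) (nat_lit 643) (nat_lit 2) (nat_lit 256) (nat_lit 276) (nat_lit 248))) (PT.nd (nat_lit 78) (PT.lf (nat_lit 48944) (nat_lit 6) (nat_lit 644) (nat_lit 2) (nat_lit 257) (nat_lit 276) (nat_lit 247)) (PT.lf (nat_lit 49020) (nat_lit 6) (nat_lit 645) (nat_lit 2) (nat_lit 258) (nat_lit 276) (nat_lit 246)))) (PT.nd (nat_lit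 156) (PT.nd (nat_lit 78) (PT.lf (nat_lit 49096) (nat_lit 6) (nat_lit 646) (nat_lit 2) (nat_lit 259) (nat_lit 276) (nat_lit 245)) (PT.lf (nat_lit 49172) (nat_lit 6) (nat_lit 647) (nat_lit 2) (nat_lit 260) (nat_lit 276) (nat_lit 244))) (PT.nd (nat_lit 78) (PT.lf (nat_lit 47956) (nat_lit 6) (nat_lit 631) (nat_lit 2) (nat_lit 261) (nat_lit 276) (nat_lit 243)) (PT.lf (nat_lit 46664) (nat_lit 6) (nat_lit 614) (nat_lit 2) (nat_lit 262) (nat_lit 276) (nat_lit 242))))) (PT.nd (nat_lit 312) (PT.nd (nat_lit 156) (PT.nd (nat_lit 78) (PT.lf (nat_lit 45296) (nat_lit 6) (nat_lit 596) (nat_lit 2) (nat_lit 263) (nat_lit 276) (nat_lit 241)) (PT.lf (nat_lit 43852) (nat_lit 6) (nat_lit 577) (nat_lit 2) (nat_lit 264) (nat_lit 276) (nat_lit 240))) (PT.nd (nat_lit 78) (PT.lf (nat_lit 42332) (nat_lit 6) (nat_lit 557) (nat_lit 2) (nat_lit 265) (nat_lit 276) (nat_lit 239)) (PT.lf (nat_lit 40736) (nat_lit 6) (nat_lit 536) (nat_lit 2) (nat_lit 266) (nat_lit 276) (nat_lit 238)))) (PT.nd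 (nat_lit 156) (PT.nd (nat_lit 78) (PT.lf (nat_lit 39064) (nat_lit 6) (nat_lit 514) (nat_lit 2) (nat_lit 267) (nat_lit 276) (nat_lit 237)) (PT.lf (nat_lit 37316) (nat_lit 6) (nat_lit 491) (nat_lit 2) (nat_lit 268) (nat_lit 276) (nat_lit 236))) (PT.nd (nat_lit 78) (PT.lf (nat_lit 35492) (nat_lit 6) (nat_lit 467) (nat_lit 2) (nat_lit 269) (nat_lit 276) (nat_lit 235)) (PT.nd (nat_lit 78) (PT.lf (nat_lit 34428) (nat_lit 6) (nat_lit 453) (nat_lit 2) (nat_lit 270) (nat_lit 276) (nat_lit 234)) (PT.lf (nat_lit 33516) (nat_lit 6) (nat_lit 441) (nat_lit 2) (nat_lit 271) (nat_lit 276) (nat_lit 233))))))) (PT.nd (nat_lit 624) (PT.nd (nat_lit 312) (PT.nd (nat_lit 156) (PT.nd (nat_lit 78) (PT.lf (nat_lit 32604) (nat_lit 6) (nat_lit 429) (nat_lit 2) (nat_lit 272) (nat_lit 276) (nat_lit 232)) (PT.lf (nat_lit 31768) (nat_lit 6) (nat_lit 418) (nat_lit 2) (nat_lit 273) (nat_lit 276) (nat_lit 231))) (PT.nd (nat_lit 78) (PT.lf (nat_lit 30932) (nat_lit 6) (nat_lit 407) (nat_lit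 2) (nat_lit 274) (nat_lit 276) (nat_lit 230)) (PT.lf (nat_lit 30096) (nat_lit 6) (nat_lit 396) (nat_lit 2) (nat_lit 275) (nat_lit 276) (nat_lit 229)))) (PT.nd (nat_lit 156) (PT.nd (nat_lit 78) (PT.lf (nat_lit 29260) (nat_lit 3) (nat_lit 385) (nat_lit 0) (nat_lit 276) (nat_lit 276) (nat_lit 228)) (PT.lf (nat_lit 28424) (nat_lit 6) (nat_lit 374) (nat_lit 0) (nat_lit 277) (nat_lit 276) (nat_lit 227))) (PT.nd (nat_lit 78) (PT.lf (nat_lit 27588) (nat_lit 6) (nat_lit 363) (nat_lit 0) (nat_lit 278) (nat_lit 276) (nat_lit 226)) (PT.lf (nat_lit 26828) (nat_lit 6) (nat_lit 353) (nat_lit 0) (nat_lit 279) (nat_lit 276) (nat_lit 225))))) (PT.nd (nat_lit 312) (PT.nd (nat_lit 156) (PT.nd (nat_lit 78) (PT.lf (nat_lit 25992) (nat_lit 6) (nat_lit 342) (nat_lit 0) (nat_lit 280) (nat_lit 276) (nat_lit 224)) (PT.lf (nat_lit 25232) (nat_lit 6) (nat_lit 332) (nat_lit 0) (nat_lit 281) (nat_lit 276) (nat_lit 223))) (PT.nd (nat_lit 78) (PT.lf (nat_lit 24472) (nat_lit 6) (nat_lit 322)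 (nat_lit 0) (nat_lit 282) (nat_lit 276) (nat_lit 222)) (PT.lf (nat_lit 23788) (nat_lit 6) (nat_lit 313) (nat_lit 0) (nat_lit 283) (nat_lit 276) (nat_lit 221)))) (PT.nd (nat_lit 156) (PT.nd (nat_lit 78) (PT.lf (nat_lit 23028) (nat_lit 6) (nat_lit 303) (nat_lit 0) (nat_lit 284) (nat_lit 276) (nat_lit 220)) (PT.lf (nat_lit 22344) (nat_lit 6) (nat_lit 294) (nat_lit 0) (nat_lit 285) (nat_lit 276) (nat_lit 219))) (PT.nd (nat_lit 78) (PT.lf (nat_lit 21660) (nat_lit 6) (nat_lit 285) (nat_lit 0) (nat_lit 286) (nat_lit 276) (nat_lit 218)) (PT.nd (nat_lit 78) (PT.lf (nat_lit 20976) (nat_lit 6) (nat_lit 276) (nat_lit 0) (nat_lit 287) (nat_lit 276) (nat_lit 217)) (PT.lf (nat_lit 20292) (nat_lit 6) (nat_lit 267) (nat_lit 0) (nat_lit 288) (nat_lit 276) (nat_lit 216))))))))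
noncomputable def pc82 : PT := (PT.nd (nat_lit 76440) (PT.nd (nat_lit 75738) (PT.nd (nat_lit 75426) (PT.nd (nat_lit 75270) (PT.nd (nat_lit 78) (PT.lf (nat_lit 19684) (nat_lit 6) (nat_lit 259) (nat_lit 0) (nat_lit 289) (nat_lit 276) (nat_lit 215)) (PT.lf (nat_lit 19076) (nat_lit 6) (nat_lit 251) (nat_lit 0) (nat_lit 290) (nat_lit 276) (nat_lit 214))) (PT.nd (nat_lit 78) (PT.lf (nat_lit 18544) (nat_lit 6) (nat_lit 244) (nat_lit 5) (nat_lit 213) (nat_lit 277) (nat_lit 290)) (PT.lf (nat_lit 19152) (nat_lit 6) (nat_lit 252) (nat_lit 5) (nat_lit 214) (nat_lit 277) (nat_lit 289)))) (PT.nd (nat_lit 156) (PT.nd (nat_lit 78) (PT.lf (nat_lit 19760) (nat_lit 6) (nat_lit 260) (nat_lit 5) (nat_lit 215) (nat_lit 277) (nat_lit 288)) (PT.lf (nat_lit 20368) (nat_lit 6) (nat_lit 268) (nat_lit 5) (nat_lit 216) (nat_lit 277) (nat_lit 287))) (PT.nd (nat_lit 78) (PT.lf (nat_lit 21052) (nat_lit 6) (nat_lit 277) (nat_lit 5) (nat_lit 217) (nat_lit 277) (nat_lit 286)) (PT.lf (nat_lit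 21736) (nat_lit 6) (nat_lit 286) (nat_lit 5) (nat_lit 218) (nat_lit 277) (nat_lit 285))))) (PT.nd (nat_lit 312) (PT.nd (nat_lit 156) (PT.nd (nat_lit 78) (PT.lf (nat_lit 22420) (nat_lit 6) (nat_lit 295) (nat_lit 5) (nat_lit 219) (nat_lit 277) (nat_lit 284)) (PT.lf (nat_lit 23104) (nat_lit 6) (nat_lit 304) (nat_lit 5) (nat_lit 220) (nat_lit 277) (nat_lit 283))) (PT.nd (nat_lit 78) (PT.lf (nat_lit 23864) (nat_lit 6) (nat_lit 314) (nat_lit 5) (nat_lit 221) (nat_lit 277) (nat_lit 282)) (PT.lf (nat_lit 24548) (nat_lit 6) (nat_lit 323) (nat_lit 5) (nat_lit 222) (nat_lit 277) (nat_lit 281)))) (PT.nd (nat_lit 156) (PT.nd (nat_lit 78) (PT.lf (nat_lit 25308) (nat_lit 6) (nat_lit 333) (nat_lit 5) (nat_lit 223) (nat_lit 277) (nat_lit 280)) (PT.lf (nat_lit 26068) (nat_lit 6) (nat_lit 343) (nat_lit 5) (nat_lit 224) (nat_lit 277) (nat_lit 279))) (PT.nd (nat_lit 78) (PT.lf (nat_lit 26904) (nat_lit 6) (nat_lit 354) (nat_lit 5) (nat_lit 225) (nat_lit 277) (nat_lit 278)) (PT.nd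 (nat_lit 78) (PT.lf (nat_lit 27664) (nat_lit 3) (nat_lit 364) (nat_lit 4) (nat_lit 226) (nat_lit 277) (nat_lit 277)) (PT.lf (nat_lit 28424) (nat_lit 6) (nat_lit 374) (nat_lit 4) (nat_lit 227) (nat_lit 277) (nat_lit 276))))))) (PT.nd (nat_lit 624) (PT.nd (nat_lit 312) (PT.nd (nat_lit 156) (PT.nd (nat_lit 78) (PT.lf (nat_lit 29184) (nat_lit 6) (nat_lit 384) (nat_lit 4) (nat_lit 228) (nat_lit 277) (nat_lit 275)) (PT.lf (nat_lit 30020) (nat_lit 6) (nat_lit 395) (nat_lit 4) (nat_lit 229) (nat_lit 277) (nat_lit 274))) (PT.nd (nat_lit 78) (PT.lf (nat_lit 30856) (nat_lit 6) (nat_lit 406) (nat_lit 4) (nat_lit 230) (nat_lit 277) (nat_lit 273)) (PT.lf (nat_lit 31692) (nat_lit 6) (nat_lit 417) (nat_lit 4) (nat_lit 231) (nat_lit 277) (nat_lit 272)))) (PT.nd (nat_lit 156) (PT.nd (nat_lit 78) (PT.lf (nat_lit 32528) (nat_lit 6) (nat_lit 428) (nat_lit 4) (nat_lit 232) (nat_lit 277) (nat_lit 271)) (PT.lf (nat_lit 33440) (nat_lit 6) (nat_lit 440) (nat_lit 4) (nat_lit 233) (nat_lit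 277) (nat_lit 270))) (PT.nd (nat_lit 78) (PT.lf (nat_lit 34352) (nat_lit 6) (nat_lit 452) (nat_lit 4) (nat_lit 234) (nat_lit 277) (nat_lit 269)) (PT.lf (nat_lit 35416) (nat_lit 6) (nat_lit 466) (nat_lit 4) (nat_lit 235) (nat_lit 277) (nat_lit 268))))) (PT.nd (nat_lit 312) (PT.nd (nat_lit 156) (PT.nd (nat_lit 78) (PT.lf (nat_lit 37240) (nat_lit 6) (nat_lit 490) (nat_lit 4) (nat_lit 236) (nat_lit 277) (nat_lit 267)) (PT.lf (nat_lit 38988) (nat_lit 6) (nat_lit 513) (nat_lit 4) (nat_lit 237) (nat_lit 277) (nat_lit 266))) (PT.nd (nat_lit 78) (PT.lf (nat_lit 40660) (nat_lit 6) (nat_lit 535) (nat_lit 4) (nat_lit 238) (nat_lit 277) (nat_lit 265)) (PT.lf (nat_lit 42256) (nat_lit 6) (nat_lit 556) (nat_lit 4) (nat_lit 239) (nat_lit 277) (nat_lit 264)))) (PT.nd (nat_lit 156) (PT.nd (nat_lit 78) (PT.lf (nat_lit 43776) (nat_lit 6) (nat_lit 576) (nat_lit 4) (nat_lit 240) (nat_lit 277) (nat_lit 263)) (PT.lf (nat_lit 45220) (nat_lit 6) (nat_lit 595) (nat_lit 4) (nat_lit 241)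 (nat_lit 277) (nat_lit 262))) (PT.nd (nat_lit 78) (PT.lf (nat_lit 46588) (nat_lit 6) (nat_lit 613) (nat_lit 4) (nat_lit 242) (nat_lit 277) (nat_lit 261)) (PT.nd (nat_lit 78) (PT.lf (nat_lit 47880) (nat_lit 6) (nat_lit 630) (nat_lit 4) (nat_lit 243) (nat_lit 277) (nat_lit 260)) (PT.lf (nat_lit 47804) (nat_lit 6) (nat_lit 629) (nat_lit 4) (nat_lit 244) (nat_lit 277) (nat_lit 259))))))))
noncomputable def pc83 : PT := (PT.nd (nat_lit 1326) (PT.nd (nat_lit 624) (PT.nd (nat_lit 312) (PT.nd (nat_lit 156) (PT.nd (nat_lit 78) (PT.lf (nat_lit 47728) (nat_lit 6) (nat_lit 628) (nat_lit 4) (nat_lit 245) (nat_lit 277) (nat_lit 258)) (PT.lf (nat_lit 47652) (nat_lit 6) (nat_lit 627) (nat_lit 4) (nat_lit 246) (nat_lit 277) (nat_lit 257))) (PT.nd (nat_lit 78) (PT.lf (nat_lit 47576) (nat_lit 6) (nat_lit 626) (nat_lit 4) (nat_lit 247) (nat_lit 277) (nat_lit 256)) (PT.lf (nat_lit 47500) (nat_lit 6) (nat_lit 625) (nat_lit 4) (nat_lit 248) (nat_lit 277) (nat_lit 255)))) (PT.nd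 (nat_lit 156) (PT.nd (nat_lit 78) (PT.lf (nat_lit 47424) (nat_lit 6) (nat_lit 624) (nat_lit 4) (nat_lit 249) (nat_lit 277) (nat_lit 254)) (PT.lf (nat_lit 47348) (nat_lit 6) (nat_lit 623) (nat_lit 4) (nat_lit 250) (nat_lit 277) (nat_lit 253))) (PT.nd (nat_lit 78) (PT.lf (nat_lit 47272) (nat_lit 6) (nat_lit 622) (nat_lit 4) (nat_lit 251) (nat_lit 277) (nat_lit 252)) (PT.lf (nat_lit 47272) (nat_lit 6) (nat_lit 622) (nat_lit 2) (nat_lit 252) (nat_lit 277) (nat_lit 251))))) (PT.nd (nat_lit 312) (PT.nd (nat_lit 156) (PT.nd (nat_lit 78) (PT.lf (nat_lit 47348) (nat_lit 6) (nat_lit 623) (nat_lit 2) (nat_lit 253) (nat_lit 277) (nat_lit 250)) (PT.lf (nat_lit 47424) (nat_lit 6) (nat_lit 624) (nat_lit 2) (nat_lit 254) (nat_lit 277) (nat_lit 249))) (PT.nd (nat_lit 78) (PT.lf (nat_lit 47500) (nat_lit 6) (nat_lit 625) (nat_lit 2) (nat_lit 255) (nat_lit 277) (nat_lit 248)) (PT.lf (nat_lit 47576) (nat_lit 6) (nat_lit 626) (nat_lit 2) (nat_lit 256) (nat_lit 277) (nat_lit 247))))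 (PT.nd (nat_lit 156) (PT.nd (nat_lit 78) (PT.lf (nat_lit 47652) (nat_lit 6) (nat_lit 627) (nat_lit 2) (nat_lit 257) (nat_lit 277) (nat_lit 246)) (PT.lf (nat_lit 47728) (nat_lit 6) (nat_lit 628) (nat_lit 2) (nat_lit 258) (nat_lit 277) (nat_lit 245))) (PT.nd (nat_lit 78) (PT.lf (nat_lit 47804) (nat_lit 6) (nat_lit 629) (nat_lit 2) (nat_lit 259) (nat_lit 277) (nat_lit 244)) (PT.nd (nat_lit 78) (PT.lf (nat_lit 47880) (nat_lit 6) (nat_lit 630) (nat_lit 2) (nat_lit 260) (nat_lit 277) (nat_lit 243)) (PT.lf (nat_lit 46588) (nat_lit 6) (nat_lit 613) (nat_lit 2) (nat_lit 261) (nat_lit 277) (nat_lit 242))))))) (PT.nd (nat_lit 702) (PT.nd (nat_lit 312) (PT.nd (nat_lit 156) (PT.nd (nat_lit 78) (PT.lf (nat_lit 45220) (nat_lit 6) (nat_lit 595) (nat_lit 2) (nat_lit 262) (nat_lit 277) (nat_lit 241)) (PT.lf (nat_lit 43776) (nat_lit 6) (nat_lit 576) (nat_lit 2) (nat_lit 263) (nat_lit 277) (nat_lit 240))) (PT.nd (nat_lit 78) (PT.lf (nat_lit 42256) (nat_lit 6) (nat_lit 556) (nat_lit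 2) (nat_lit 264) (nat_lit 277) (nat_lit 239)) (PT.lf (nat_lit 40660) (nat_lit 6) (nat_lit 535) (nat_lit 2) (nat_lit 265) (nat_lit 277) (nat_lit 238)))) (PT.nd (nat_lit 156) (PT.nd (nat_lit 78) (PT.lf (nat_lit 38988) (nat_lit 6) (nat_lit 513) (nat_lit 2) (nat_lit 266) (nat_lit 277) (nat_lit 237)) (PT.lf (nat_lit 37240) (nat_lit 6) (nat_lit 490) (nat_lit 2) (nat_lit 267) (nat_lit 277) (nat_lit 236))) (PT.nd (nat_lit 78) (PT.lf (nat_lit 35416) (nat_lit 6) (nat_lit 466) (nat_lit 2) (nat_lit 268) (nat_lit 277) (nat_lit 235)) (PT.nd (nat_lit 78) (PT.lf (nat_lit 34352) (nat_lit 6) (nat_lit 452) (nat_lit 2) (nat_lit 269) (nat_lit 277) (nat_lit 234)) (PT.lf (nat_lit 33440) (nat_lit 6) (nat_lit 440) (nat_lit 2) (nat_lit 270) (nat_lit 277) (nat_lit 233)))))) (PT.nd (nat_lit 312) (PT.nd (nat_lit 156) (PT.nd (nat_lit 78) (PT.lf (nat_lit 32528) (nat_lit 6) (nat_lit 428) (nat_lit 2) (nat_lit 271) (nat_lit 277) (nat_lit 232)) (PT.lf (nat_lit 31692) (nat_lit 6) (nat_lit 417)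 (nat_lit 2) (nat_lit 272) (nat_lit 277) (nat_lit 231))) (PT.nd (nat_lit 78) (PT.lf (nat_lit 30856) (nat_lit 6) (nat_lit 406) (nat_lit 2) (nat_lit 273) (nat_lit 277) (nat_lit 230)) (PT.lf (nat_lit 30020) (nat_lit 6) (nat_lit 395) (nat_lit 2) (nat_lit 274) (nat_lit 277) (nat_lit 229)))) (PT.nd (nat_lit 156) (PT.nd (nat_lit 78) (PT.lf (nat_lit 29184) (nat_lit 6) (nat_lit 384) (nat_lit 2) (nat_lit 275) (nat_lit 277) (nat_lit 228)) (PT.lf (nat_lit 28424) (nat_lit 6) (nat_lit 374) (nat_lit 2) (nat_lit 276) (nat_lit 277) (nat_lit 227))) (PT.nd (nat_lit 78) (PT.lf (nat_lit 27664) (nat_lit 3) (nat_lit 364) (nat_lit 0) (nat_lit 277) (nat_lit 277) (nat_lit 226)) (PT.nd (nat_lit 78) (PT.lf (nat_lit 26904) (nat_lit 6) (nat_lit 354) (nat_lit 0) (nat_lit 278) (nat_lit 277) (nat_lit 225)) (PT.lf (nat_lit 26068) (nat_lit 6) (nat_lit 343) (nat_lit 0) (nat_lit 279) (nat_lit 277) (nat_lit 224))))))))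
noncomputable def pc84 : PT := (PT.nd (nat_lit 76284) (PT.nd (nat_lit 624) (PT.nd (nat_lit 312) (PT.nd (nat_lit 156) (PT.nd (nat_lit 78) (PT.lf (nat_lit 25308) (nat_lit 6) (nat_lit 333) (nat_lit 0) (nat_lit 280) (nat_lit 277) (nat_lit 223)) (PT.lf (nat_lit 24548) (nat_lit 6) (nat_lit 323) (nat_lit 0) (nat_lit 281) (nat_lit 277) (nat_lit 222))) (PT.nd (nat_lit 78) (PT.lf (nat_lit 23864) (nat_lit 6) (nat_lit 314) (nat_lit 0) (nat_lit 282) (nat_lit 277) (nat_lit 221)) (PT.lf (nat_lit 23104) (nat_lit 6) (nat_lit 304) (nat_lit 0) (nat_lit 283) (nat_lit 277) (nat_lit 220)))) (PT.nd (nat_lit 156) (PT.nd (nat_lit 78) (PT.lf (nat_lit 22420) (nat_lit 6) (nat_lit 295) (nat_lit 0) (nat_lit 284) (nat_lit 277) (nat_lit 219)) (PT.lf (nat_lit 21736) (nat_lit 6) (nat_lit 286) (nat_lit 0) (nat_lit 285) (nat_lit 277) (nat_lit 218))) (PT.nd (nat_lit 78) (PT.lf (nat_lit 21052) (nat_lit 6) (nat_lit 277) (nat_lit 0) (nat_lit 286) (nat_lit 277) (nat_lit 217)) (PT.lf (nat_lit 20368)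 (nat_lit 6) (nat_lit 268) (nat_lit 0) (nat_lit 287) (nat_lit 277) (nat_lit 216))))) (PT.nd (nat_lit 75270) (PT.nd (nat_lit 156) (PT.nd (nat_lit 78) (PT.lf (nat_lit 19760) (nat_lit 6) (nat_lit 260) (nat_lit 0) (nat_lit 288) (nat_lit 277) (nat_lit 215)) (PT.lf (nat_lit 19152) (nat_lit 6) (nat_lit 252) (nat_lit 0) (nat_lit 289) (nat_lit 277) (nat_lit 214))) (PT.nd (nat_lit 75036) (PT.lf (nat_lit 18544) (nat_lit 6) (nat_lit 244) (nat_lit 0) (nat_lit 290) (nat_lit 277) (nat_lit 213)) (PT.lf (nat_lit 17480) (nat_lit 6) (nat_lit 230) (nat_lit 5) (nat_lit 211) (nat_lit 278) (nat_lit 291)))) (PT.nd (nat_lit 156) (PT.nd (nat_lit 78) (PT.lf (nat_lit 18012) (nat_lit 6) (nat_lit 237) (nat_lit 5) (nat_lit 212) (nat_lit 278) (nat_lit 290)) (PT.lf (nat_lit 18620) (nat_lit 6) (nat_lit 245) (nat_lit 5) (nat_lit 213) (nat_lit 278) (nat_lit 289))) (PT.nd (nat_lit 78) (PT.lf (nat_lit 19228) (nat_lit 6) (nat_lit 253) (nat_lit 5) (nat_lit 214) (nat_lit 278) (nat_lit 288)) (PT.nd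 (nat_lit 78) (PT.lf (nat_lit 19836) (nat_lit 6) (nat_lit 261) (nat_lit 5) (nat_lit 215) (nat_lit 278) (nat_lit 287)) (PT.lf (nat_lit 20444) (nat_lit 6) (nat_lit 269) (nat_lit 5) (nat_lit 216) (nat_lit 278) (nat_lit 286))))))) (PT.nd (nat_lit 624) (PT.nd (nat_lit 312) (PT.nd (nat_lit 156) (PT.nd (nat_lit 78) (PT.lf (nat_lit 21128) (nat_lit 6) (nat_lit 278) (nat_lit 5) (nat_lit 217) (nat_lit 278) (nat_lit 285)) (PT.lf (nat_lit 21812) (nat_lit 6) (nat_lit 287) (nat_lit 5) (nat_lit 218) (nat_lit 278) (nat_lit 284))) (PT.nd (nat_lit 78) (PT.lf (nat_lit 22496) (nat_lit 6) (nat_lit 296) (nat_lit 5) (nat_lit 219) (nat_lit 278) (nat_lit 283)) (PT.lf (nat_lit 23180) (nat_lit 6) (nat_lit 305) (nat_lit 5) (nat_lit 220) (nat_lit 278) (nat_lit 282)))) (PT.nd (nat_lit 156) (PT.nd (nat_lit 78) (PT.lf (nat_lit 23940) (nat_lit 6) (nat_lit 315) (nat_lit 5) (nat_lit 221) (nat_lit 278) (nat_lit 281)) (PT.lf (nat_lit 24624) (nat_lit 6) (nat_lit 324) (nat_lit 5) (nat_lit 222) (nat_lit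 278) (nat_lit 280))) (PT.nd (nat_lit 78) (PT.lf (nat_lit 25384) (nat_lit 6) (nat_lit 334) (nat_lit 5) (nat_lit 223) (nat_lit 278) (nat_lit 279)) (PT.lf (nat_lit 26144) (nat_lit 3) (nat_lit 344) (nat_lit 4) (nat_lit 224) (nat_lit 278) (nat_lit 278))))) (PT.nd (nat_lit 312) (PT.nd (nat_lit 156) (PT.nd (nat_lit 78) (PT.lf (nat_lit 26904) (nat_lit 6) (nat_lit 354) (nat_lit 4) (nat_lit 225) (nat_lit 278) (nat_lit 277)) (PT.lf (nat_lit 27588) (nat_lit 6) (nat_lit 363) (nat_lit 4) (nat_lit 226) (nat_lit 278) (nat_lit 276))) (PT.nd (nat_lit 78) (PT.lf (nat_lit 28348) (nat_lit 6) (nat_lit 373) (nat_lit 4) (nat_lit 227) (nat_lit 278) (nat_lit 275)) (PT.lf (nat_lit 29108) (nat_lit 6) (nat_lit 383) (nat_lit 4) (nat_lit 228) (nat_lit 278) (nat_lit 274)))) (PT.nd (nat_lit 156) (PT.nd (nat_lit 78) (PT.lf (nat_lit 29944) (nat_lit 6) (nat_lit 394) (nat_lit 4) (nat_lit 229) (nat_lit 278) (nat_lit 273)) (PT.lf (nat_lit 30780) (nat_lit 6) (nat_lit 405) (nat_lit 4) (nat_lit 230)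 (nat_lit 278) (nat_lit 272))) (PT.nd (nat_lit 78) (PT.lf (nat_lit 31616) (nat_lit 6) (nat_lit 416) (nat_lit 4) (nat_lit 231) (nat_lit 278) (nat_lit 271)) (PT.nd (nat_lit 78) (PT.lf (nat_lit 32452) (nat_lit 6) (nat_lit 427) (nat_lit 4) (nat_lit 232) (nat_lit 278) (nat_lit 270)) (PT.lf (nat_lit 33364) (nat_lit 6) (nat_lit 439) (nat_lit 4) (nat_lit 233) (nat_lit 278) (nat_lit 269))))))))
noncomputable def pc85 : PT := (PT.nd (nat_lit 1326) (PT.nd (nat_lit 624) (PT.nd (nat_lit 312) (PT.nd (nat_lit 156) (PT.nd (nat_lit 78) (PT.lf (nat_lit 34276) (nat_lit 6) (nat_lit 451) (nat_lit 4) (nat_lit 234) (nat_lit 278) (nat_lit 268)) (PT.lf (nat_lit 35340) (nat_lit 6) (nat_lit 465) (nat_lit 4) (nat_lit 235) (nat_lit 278) (nat_lit 267))) (PT.nd (nat_lit 78) (PT.lf (nat_lit 37164) (nat_lit 6) (nat_lit 489) (nat_lit 4) (nat_lit 236) (nat_lit 278) (nat_lit 266)) (PT.lf (nat_lit 38912) (nat_lit 6) (nat_lit 512) (nat_lit 4) (nat_lit 237) (nat_lit 278) (nat_lit 265)))) (PT.nd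 (nat_lit 156) (PT.nd (nat_lit 78) (PT.lf (nat_lit 40584) (nat_lit 6) (nat_lit 534) (nat_lit 4) (nat_lit 238) (nat_lit 278) (nat_lit 264)) (PT.lf (nat_lit 42180) (nat_lit 6) (nat_lit 555) (nat_lit 4) (nat_lit 239) (nat_lit 278) (nat_lit 263))) (PT.nd (nat_lit 78) (PT.lf (nat_lit 43700) (nat_lit 6) (nat_lit 575) (nat_lit 4) (nat_lit 240) (nat_lit 278) (nat_lit 262)) (PT.lf (nat_lit 45144) (nat_lit 6) (nat_lit 594) (nat_lit 4) (nat_lit 241) (nat_lit 278) (nat_lit 261))))) (PT.nd (nat_lit 312) (PT.nd (nat_lit 156) (PT.nd (nat_lit 78) (PT.lf (nat_lit 46512) (nat_lit 6) (nat_lit 612) (nat_lit 4) (nat_lit 242) (nat_lit 278) (nat_lit 260)) (PT.lf (nat_lit 46436) (nat_lit 6) (nat_lit 611) (nat_lit 4) (nat_lit 243) (nat_lit 278) (nat_lit 259))) (PT.nd (nat_lit 78) (PT.lf (nat_lit 46360) (nat_lit 6) (nat_lit 610) (nat_lit 4) (nat_lit 244) (nat_lit 278) (nat_lit 258)) (PT.lf (nat_lit 46284) (nat_lit 6) (nat_lit 609) (nat_lit 4) (nat_lit 245) (nat_lit 278) (nat_lit 257))))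 (PT.nd (nat_lit 156) (PT.nd (nat_lit 78) (PT.lf (nat_lit 46208) (nat_lit 6) (nat_lit 608) (nat_lit 4) (nat_lit 246) (nat_lit 278) (nat_lit 256)) (PT.lf (nat_lit 46132) (nat_lit 6) (nat_lit 607) (nat_lit 4) (nat_lit 247) (nat_lit 278) (nat_lit 255))) (PT.nd (nat_lit 78) (PT.lf (nat_lit 46056) (nat_lit 6) (nat_lit 606) (nat_lit 4) (nat_lit 248) (nat_lit 278) (nat_lit 254)) (PT.nd (nat_lit 78) (PT.lf (nat_lit 45980) (nat_lit 6) (nat_lit 605) (nat_lit 4) (nat_lit 249) (nat_lit 278) (nat_lit 253)) (PT.lf (nat_lit 45904) (nat_lit 6) (nat_lit 604) (nat_lit 4) (nat_lit 250) (nat_lit 278) (nat_lit 252))))))) (PT.nd (nat_lit 624) (PT.nd (nat_lit 312) (PT.nd (nat_lit 156) (PT.nd (nat_lit 78) (PT.lf (nat_lit 45828) (nat_lit 3) (nat_lit 603) (nat_lit 2) (nat_lit 251) (nat_lit 278) (nat_lit 251)) (PT.lf (nat_lit 45904) (nat_lit 6) (nat_lit 604) (nat_lit 2) (nat_lit 252) (nat_lit 278) (nat_lit 250))) (PT.nd (nat_lit 78) (PT.lf (nat_lit 45980) (nat_lit 6) (nat_lit 605) (nat_lit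 2) (nat_lit 253) (nat_lit 278) (nat_lit 249)) (PT.lf (nat_lit 46056) (nat_lit 6) (nat_lit 606) (nat_lit 2) (nat_lit 254) (nat_lit 278) (nat_lit 248)))) (PT.nd (nat_lit 156) (PT.nd (nat_lit 78) (PT.lf (nat_lit 46132) (nat_lit 6) (nat_lit 607) (nat_lit 2) (nat_lit 255) (nat_lit 278) (nat_lit 247)) (PT.lf (nat_lit 46208) (nat_lit 6) (nat_lit 608) (nat_lit 2) (nat_lit 256) (nat_lit 278) (nat_lit 246))) (PT.nd (nat_lit 78) (PT.lf (nat_lit 46284) (nat_lit 6) (nat_lit 609) (nat_lit 2) (nat_lit 257) (nat_lit 278) (nat_lit 245)) (PT.lf (nat_lit 46360) (nat_lit 6) (nat_lit 610) (nat_lit 2) (nat_lit 258) (nat_lit 278) (nat_lit 244))))) (PT.nd (nat_lit 312) (PT.nd (nat_lit 156) (PT.nd (nat_lit 78) (PT.lf (nat_lit 46436) (nat_lit 6) (nat_lit 611) (nat_lit 2) (nat_lit 259) (nat_lit 278) (nat_lit 243)) (PT.lf (nat_lit 46512) (nat_lit 6) (nat_lit 612) (nat_lit 2) (nat_lit 260) (nat_lit 278) (nat_lit 242))) (PT.nd (nat_lit 78) (PT.lf (nat_lit 45144) (nat_lit 6) (nat_lit 594)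 (nat_lit 2) (nat_lit 261) (nat_lit 278) (nat_lit 241)) (PT.lf (nat_lit 43700) (nat_lit 6) (nat_lit 575) (nat_lit 2) (nat_lit 262) (nat_lit 278) (nat_lit 240)))) (PT.nd (nat_lit 156) (PT.nd (nat_lit 78) (PT.lf (nat_lit 42180) (nat_lit 6) (nat_lit 555) (nat_lit 2) (nat_lit 263) (nat_lit 278) (nat_lit 239)) (PT.lf (nat_lit 40584) (nat_lit 6) (nat_lit 534) (nat_lit 2) (nat_lit 264) (nat_lit 278) (nat_lit 238))) (PT.nd (nat_lit 78) (PT.lf (nat_lit 38912) (nat_lit 6) (nat_lit 512) (nat_lit 2) (nat_lit 265) (nat_lit 278) (nat_lit 237)) (PT.nd (nat_lit 78) (PT.lf (nat_lit 37164) (nat_lit 6) (nat_lit 489) (nat_lit 2) (nat_lit 266) (nat_lit 278) (nat_lit 236)) (PT.lf (nat_lit 35340) (nat_lit 6) (nat_lit 465) (nat_lit 2) (nat_lit 267) (nat_lit 278) (nat_lit 235))))))))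
noncomputable def pc86 : PT := (PT.nd (nat_lit 1326) (PT.nd (nat_lit 624) (PT.nd (nat_lit 312) (PT.nd (nat_lit 156) (PT.nd (nat_lit 78) (PT.lf (nat_lit 34276) (nat_lit 6) (nat_lit 451) (nat_lit 2) (nat_lit 268) (nat_lit 278) (nat_lit 234)) (PT.lf (nat_lit 33364) (nat_lit 6) (nat_lit 439) (nat_lit 2) (nat_lit 269) (nat_lit 278) (nat_lit 233))) (PT.nd (nat_lit 78) (PT.lf (nat_lit 32452) (nat_lit 6) (nat_lit 427) (nat_lit 2) (nat_lit 270) (nat_lit 278) (nat_lit 232)) (PT.lf (nat_lit 31616) (nat_lit 6) (nat_lit 416) (nat_lit 2) (nat_lit 271) (nat_lit 278) (nat_lit 231)))) (PT.nd (nat_lit 156) (PT.nd (nat_lit 78) (PT.lf (nat_lit 30780) (nat_lit 6) (nat_lit 405) (nat_lit 2) (nat_lit 272) (nat_lit 278) (nat_lit 230)) (PT.lf (nat_lit 29944) (nat_lit 6) (nat_lit 394) (nat_lit 2) (nat_lit 273) (nat_lit 278) (nat_lit 229))) (PT.nd (nat_lit 78) (PT.lf (nat_lit 29108) (nat_lit 6) (nat_lit 383) (nat_lit 2) (nat_lit 274) (nat_lit 278) (nat_lit 228)) (PT.lf (nat_lit 28348)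 (nat_lit 6) (nat_lit 373) (nat_lit 2) (nat_lit 275) (nat_lit 278) (nat_lit 227))))) (PT.nd (nat_lit 312) (PT.nd (nat_lit 156) (PT.nd (nat_lit 78) (PT.lf (nat_lit 27588) (nat_lit 6) (nat_lit 363) (nat_lit 2) (nat_lit 276) (nat_lit 278) (nat_lit 226)) (PT.lf (nat_lit 26904) (nat_lit 6) (nat_lit 354) (nat_lit 2) (nat_lit 277) (nat_lit 278) (nat_lit 225))) (PT.nd (nat_lit 78) (PT.lf (nat_lit 26144) (nat_lit 3) (nat_lit 344) (nat_lit 0) (nat_lit 278) (nat_lit 278) (nat_lit 224)) (PT.lf (nat_lit 25384) (nat_lit 6) (nat_lit 334) (nat_lit 0) (nat_lit 279) (nat_lit 278) (nat_lit 223)))) (PT.nd (nat_lit 156) (PT.nd (nat_lit 78) (PT.lf (nat_lit 24624) (nat_lit 6) (nat_lit 324) (nat_lit 0) (nat_lit 280) (nat_lit 278) (nat_lit 222)) (PT.lf (nat_lit 23940) (nat_lit 6) (nat_lit 315) (nat_lit 0) (nat_lit 281) (nat_lit 278) (nat_lit 221))) (PT.nd (nat_lit 78) (PT.lf (nat_lit 23180) (nat_lit 6) (nat_lit 305) (nat_lit 0) (nat_lit 282) (nat_lit 278) (nat_lit 220)) (PT.nd (nat_lit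 78) (PT.lf (nat_lit 22496) (nat_lit 6) (nat_lit 296) (nat_lit 0) (nat_lit 283) (nat_lit 278) (nat_lit 219)) (PT.lf (nat_lit 21812) (nat_lit 6) (nat_lit 287) (nat_lit 0) (nat_lit 284) (nat_lit 278) (nat_lit 218))))))) (PT.nd (nat_lit 75426) (PT.nd (nat_lit 312) (PT.nd (nat_lit 156) (PT.nd (nat_lit 78) (PT.lf (nat_lit 21128) (nat_lit 6) (nat_lit 278) (nat_lit 0) (nat_lit 285) (nat_lit 278) (nat_lit 217)) (PT.lf (nat_lit 20444) (nat_lit 6) (nat_lit 269) (nat_lit 0) (nat_lit 286) (nat_lit 278) (nat_lit 216))) (PT.nd (nat_lit 78) (PT.lf (nat_lit 19836) (nat_lit 6) (nat_lit 261) (nat_lit 0) (nat_lit 287) (nat_lit 278) (nat_lit 215)) (PT.lf (nat_lit 19228) (nat_lit 6) (nat_lit 253) (nat_lit 0) (nat_lit 288) (nat_lit 278) (nat_lit 214)))) (PT.nd (nat_lit 156) (PT.nd (nat_lit 78) (PT.lf (nat_lit 18620) (nat_lit 6) (nat_lit 245) (nat_lit 0) (nat_lit 289) (nat_lit 278) (nat_lit 213)) (PT.lf (nat_lit 18012) (nat_lit 6) (nat_lit 237) (nat_lit 0) (nat_lit 290) (nat_lit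 278) (nat_lit 212))) (PT.nd (nat_lit 74880) (PT.lf (nat_lit 17480) (nat_lit 6) (nat_lit 230) (nat_lit 0) (nat_lit 291) (nat_lit 278) (nat_lit 211)) (PT.lf (nat_lit 16948) (nat_lit 6) (nat_lit 223) (nat_lit 5) (nat_lit 210) (nat_lit 279) (nat_lit 291))))) (PT.nd (nat_lit 312) (PT.nd (nat_lit 156) (PT.nd (nat_lit 78) (PT.lf (nat_lit 17556) (nat_lit 6) (nat_lit 231) (nat_lit 5) (nat_lit 211) (nat_lit 279) (nat_lit 290)) (PT.lf (nat_lit 18088) (nat_lit 6) (nat_lit 238) (nat_lit 5) (nat_lit 212) (nat_lit 279) (nat_lit 289))) (PT.nd (nat_lit 78) (PT.lf (nat_lit 18696) (nat_lit 6) (nat_lit 246) (nat_lit 5) (nat_lit 213) (nat_lit 279) (nat_lit 288)) (PT.lf (nat_lit 19304) (nat_lit 6) (nat_lit 254) (nat_lit 5) (nat_lit 214) (nat_lit 279) (nat_lit 287)))) (PT.nd (nat_lit 156) (PT.nd (nat_lit 78) (PT.lf (nat_lit 19912) (nat_lit 6) (nat_lit 262) (nat_lit 5) (nat_lit 215) (nat_lit 279) (nat_lit 286)) (PT.lf (nat_lit 20520) (nat_lit 6) (nat_lit 270) (nat_lit 5) (nat_lit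 216) (nat_lit 279) (nat_lit 285))) (PT.nd (nat_lit 78) (PT.lf (nat_lit 21204) (nat_lit 6) (nat_lit 279) (nat_lit 5) (nat_lit 217) (nat_lit 279) (nat_lit 284)) (PT.nd (nat_lit 78) (PT.lf (nat_lit 21888) (nat_lit 6) (nat_lit 288) (nat_lit 5) (nat_lit 218) (nat_lit 279) (nat_lit 283)) (PT.lf (nat_lit 22572) (nat_lit 6) (nat_lit 297) (nat_lit 5) (nat_lit 219) (nat_lit 279) (nat_lit 282))))))))
noncomputable def pc87 : PT := (PT.nd (nat_lit 1326) (PT.nd (nat_lit 624) (PT.nd (nat_lit 312) (PT.nd (nat_lit 156) (PT.nd (nat_lit 78) (PT.lf (nat_lit 23256) (nat_lit 6) (nat_lit 306) (nat_lit 5) (nat_lit 220) (nat_lit 279) (nat_lit 281)) (PT.lf (nat_lit 24016) (nat_lit 6) (nat_lit 316) (nat_lit 5) (nat_lit 221) (nat_lit 279) (nat_lit 280))) (PT.nd (nat_lit 78) (PT.lf (nat_lit 24700) (nat_lit 3) (nat_lit 325) (nat_lit 4) (nat_lit 222) (nat_lit 279) (nat_lit 279)) (PT.lf (nat_lit 25384) (nat_lit 6) (nat_lit 334) (nat_lit 4) (nat_lit 223) (nat_lit 279) (nat_lit 278)))) (PT.nd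 (nat_lit 156) (PT.nd (nat_lit 78) (PT.lf (nat_lit 26068) (nat_lit 6) (nat_lit 343) (nat_lit 4) (nat_lit 224) (nat_lit 279) (nat_lit 277)) (PT.lf (nat_lit 26828) (nat_lit 6) (nat_lit 353) (nat_lit 4) (nat_lit 225) (nat_lit 279) (nat_lit 276))) (PT.nd (nat_lit 78) (PT.lf (nat_lit 27512) (nat_lit 6) (nat_lit 362) (nat_lit 4) (nat_lit 226) (nat_lit 279) (nat_lit 275)) (PT.lf (nat_lit 28272) (nat_lit 6) (nat_lit 372) (nat_lit 4) (nat_lit 227) (nat_lit 279) (nat_lit 274))))) (PT.nd (nat_lit 312) (PT.nd (nat_lit 156) (PT.nd (nat_lit 78) (PT.lf (nat_lit 29032) (nat_lit 6) (nat_lit 382) (nat_lit 4) (nat_lit 228) (nat_lit 279) (nat_lit 273)) (PT.lf (nat_lit 29868) (nat_lit 6) (nat_lit 393) (nat_lit 4) (nat_lit 229) (nat_lit 279) (nat_lit 272))) (PT.nd (nat_lit 78) (PT.lf (nat_lit 30704) (nat_lit 6) (nat_lit 404) (nat_lit 4) (nat_lit 230) (nat_lit 279) (nat_lit 271)) (PT.lf (nat_lit 31540) (nat_lit 6) (nat_lit 415) (nat_lit 4) (nat_lit 231) (nat_lit 279) (nat_lit 270))))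 (PT.nd (nat_lit 156) (PT.nd (nat_lit 78) (PT.lf (nat_lit 32376) (nat_lit 6) (nat_lit 426) (nat_lit 4) (nat_lit 232) (nat_lit 279) (nat_lit 269)) (PT.lf (nat_lit 33288) (nat_lit 6) (nat_lit 438) (nat_lit 4) (nat_lit 233) (nat_lit 279) (nat_lit 268))) (PT.nd (nat_lit 78) (PT.lf (nat_lit 34200) (nat_lit 6) (nat_lit 450) (nat_lit 4) (nat_lit 234) (nat_lit 279) (nat_lit 267)) (PT.nd (nat_lit 78) (PT.lf (nat_lit 35264) (nat_lit 6) (nat_lit 464) (nat_lit 4) (nat_lit 235) (nat_lit 279) (nat_lit 266)) (PT.lf (nat_lit 37088) (nat_lit 6) (nat_lit 488) (nat_lit 4) (nat_lit 236) (nat_lit 279) (nat_lit 265))))))) (PT.nd (nat_lit 702) (PT.nd (nat_lit 312) (PT.nd (nat_lit 156) (PT.nd (nat_lit 78) (PT.lf (nat_lit 38836) (nat_lit 6) (nat_lit 511) (nat_lit 4) (nat_lit 237) (nat_lit 279) (nat_lit 264)) (PT.lf (nat_lit 40508) (nat_lit 6) (nat_lit 533) (nat_lit 4) (nat_lit 238) (nat_lit 279) (nat_lit 263))) (PT.nd (nat_lit 78) (PT.lf (nat_lit 42104) (nat_lit 6) (nat_lit 554) (nat_lit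 4) (nat_lit 239) (nat_lit 279) (nat_lit 262)) (PT.lf (nat_lit 43624) (nat_lit 6) (nat_lit 574) (nat_lit 4) (nat_lit 240) (nat_lit 279) (nat_lit 261)))) (PT.nd (nat_lit 156) (PT.nd (nat_lit 78) (PT.lf (nat_lit 45068) (nat_lit 6) (nat_lit 593) (nat_lit 4) (nat_lit 241) (nat_lit 279) (nat_lit 260)) (PT.lf (nat_lit 44992) (nat_lit 6) (nat_lit 592) (nat_lit 4) (nat_lit 242) (nat_lit 279) (nat_lit 259))) (PT.nd (nat_lit 78) (PT.lf (nat_lit 44916) (nat_lit 6) (nat_lit 591) (nat_lit 4) (nat_lit 243) (nat_lit 279) (nat_lit 258)) (PT.nd (nat_lit 78) (PT.lf (nat_lit 44840) (nat_lit 6) (nat_lit 590) (nat_lit 4) (nat_lit 244) (nat_lit 279) (nat_lit 257)) (PT.lf (nat_lit 44764) (nat_lit 6) (nat_lit 589) (nat_lit 4) (nat_lit 245) (nat_lit 279) (nat_lit 256)))))) (PT.nd (nat_lit 312) (PT.nd (nat_lit 156) (PT.nd (nat_lit 78) (PT.lf (nat_lit 44688) (nat_lit 6) (nat_lit 588) (nat_lit 4) (nat_lit 246) (nat_lit 279) (nat_lit 255)) (PT.lf (nat_lit 44612) (nat_lit 6) (nat_lit 587)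 (nat_lit 4) (nat_lit 247) (nat_lit 279) (nat_lit 254))) (PT.nd (nat_lit 78) (PT.lf (nat_lit 44536) (nat_lit 6) (nat_lit 586) (nat_lit 4) (nat_lit 248) (nat_lit 279) (nat_lit 253)) (PT.lf (nat_lit 44460) (nat_lit 6) (nat_lit 585) (nat_lit 4) (nat_lit 249) (nat_lit 279) (nat_lit 252)))) (PT.nd (nat_lit 156) (PT.nd (nat_lit 78) (PT.lf (nat_lit 44384) (nat_lit 6) (nat_lit 584) (nat_lit 4) (nat_lit 250) (nat_lit 279) (nat_lit 251)) (PT.lf (nat_lit 44384) (nat_lit 6) (nat_lit 584) (nat_lit 2) (nat_lit 251) (nat_lit 279) (nat_lit 250))) (PT.nd (nat_lit 78) (PT.lf (nat_lit 44460) (nat_lit 6) (nat_lit 585) (nat_lit 2) (nat_lit 252) (nat_lit 279) (nat_lit 249)) (PT.nd (nat_lit 78) (PT.lf (nat_lit 44536) (nat_lit 6) (nat_lit 586) (nat_lit 2) (nat_lit 253) (nat_lit 279) (nat_lit 248)) (PT.lf (nat_lit 44612) (nat_lit 6) (nat_lit 587) (nat_lit 2) (nat_lit 254) (nat_lit 279) (nat_lit 247))))))))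
noncomputable def pc88 : PT := (PT.nd (nat_lit 1326) (PT.nd (nat_lit 624) (PT.nd (nat_lit 312) (PT.nd (nat_lit 156) (PT.nd (nat_lit 78) (PT.lf (nat_lit 44688) (nat_lit 6) (nat_lit 588) (nat_lit 2) (nat_lit 255) (nat_lit 279) (nat_lit 246)) (PT.lf (nat_lit 44764) (nat_lit 6) (nat_lit 589) (nat_lit 2) (nat_lit 256) (nat_lit 279) (nat_lit 245))) (PT.nd (nat_lit 78) (PT.lf (nat_lit 44840) (nat_lit 6) (nat_lit 590) (nat_lit 2) (nat_lit 257) (nat_lit 279) (nat_lit 244)) (PT.lf (nat_lit 44916) (nat_lit 6) (nat_lit 591) (nat_lit 2) (nat_lit 258) (nat_lit 279) (nat_lit 243)))) (PT.nd (nat_lit 156) (PT.nd (nat_lit 78) (PT.lf (nat_lit 44992) (nat_lit 6) (nat_lit 592) (nat_lit 2) (nat_lit 259) (nat_lit 279) (nat_lit 242)) (PT.lf (nat_lit 45068) (nat_lit 6) (nat_lit 593) (nat_lit 2) (nat_lit 260) (nat_lit 279) (nat_lit 241))) (PT.nd (nat_lit 78) (PT.lf (nat_lit 43624) (nat_lit 6) (nat_lit 574) (nat_lit 2) (nat_lit 261) (nat_lit 279) (nat_lit 240)) (PT.lf (nat_lit 42104)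 (nat_lit 6) (nat_lit 554) (nat_lit 2) (nat_lit 262) (nat_lit 279) (nat_lit 239))))) (PT.nd (nat_lit 312) (PT.nd (nat_lit 156) (PT.nd (nat_lit 78) (PT.lf (nat_lit 40508) (nat_lit 6) (nat_lit 533) (nat_lit 2) (nat_lit 263) (nat_lit 279) (nat_lit 238)) (PT.lf (nat_lit 38836) (nat_lit 6) (nat_lit 511) (nat_lit 2) (nat_lit 264) (nat_lit 279) (nat_lit 237))) (PT.nd (nat_lit 78) (PT.lf (nat_lit 37088) (nat_lit 6) (nat_lit 488) (nat_lit 2) (nat_lit 265) (nat_lit 279) (nat_lit 236)) (PT.lf (nat_lit 35264) (nat_lit 6) (nat_lit 464) (nat_lit 2) (nat_lit 266) (nat_lit 279) (nat_lit 235)))) (PT.nd (nat_lit 156) (PT.nd (nat_lit 78) (PT.lf (nat_lit 34200) (nat_lit 6) (nat_lit 450) (nat_lit 2) (nat_lit 267) (nat_lit 279) (nat_lit 234)) (PT.lf (nat_lit 33288) (nat_lit 6) (nat_lit 438) (nat_lit 2) (nat_lit 268) (nat_lit 279) (nat_lit 233))) (PT.nd (nat_lit 78) (PT.lf (nat_lit 32376) (nat_lit 6) (nat_lit 426) (nat_lit 2) (nat_lit 269) (nat_lit 279) (nat_lit 232)) (PT.nd (nat_lit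 78) (PT.lf (nat_lit 31540) (nat_lit 6) (nat_lit 415) (nat_lit 2) (nat_lit 270) (nat_lit 279) (nat_lit 231)) (PT.lf (nat_lit 30704) (nat_lit 6) (nat_lit 404) (nat_lit 2) (nat_lit 271) (nat_lit 279) (nat_lit 230))))))) (PT.nd (nat_lit 624) (PT.nd (nat_lit 312) (PT.nd (nat_lit 156) (PT.nd (nat_lit 78) (PT.lf (nat_lit 29868) (nat_lit 6) (nat_lit 393) (nat_lit 2) (nat_lit 272) (nat_lit 279) (nat_lit 229)) (PT.lf (nat_lit 29032) (nat_lit 6) (nat_lit 382) (nat_lit 2) (nat_lit 273) (nat_lit 279) (nat_lit 228))) (PT.nd (nat_lit 78) (PT.lf (nat_lit 28272) (nat_lit 6) (nat_lit 372) (nat_lit 2) (nat_lit 274) (nat_lit 279) (nat_lit 227)) (PT.lf (nat_lit 27512) (nat_lit 6) (nat_lit 362) (nat_lit 2) (nat_lit 275) (nat_lit 279) (nat_lit 226)))) (PT.nd (nat_lit 156) (PT.nd (nat_lit 78) (PT.lf (nat_lit 26828) (nat_lit 6) (nat_lit 353) (nat_lit 2) (nat_lit 276) (nat_lit 279) (nat_lit 225)) (PT.lf (nat_lit 26068) (nat_lit 6) (nat_lit 343) (nat_lit 2) (nat_lit 277) (nat_lit 279)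 (nat_lit 224))) (PT.nd (nat_lit 78) (PT.lf (nat_lit 25384) (nat_lit 6) (nat_lit 334) (nat_lit 2) (nat_lit 278) (nat_lit 279) (nat_lit 223)) (PT.lf (nat_lit 24700) (nat_lit 3) (nat_lit 325) (nat_lit 0) (nat_lit 279) (nat_lit 279) (nat_lit 222))))) (PT.nd (nat_lit 312) (PT.nd (nat_lit 156) (PT.nd (nat_lit 78) (PT.lf (nat_lit 24016) (nat_lit 6) (nat_lit 316) (nat_lit 0) (nat_lit 280) (nat_lit 279) (nat_lit 221)) (PT.lf (nat_lit 23256) (nat_lit 6) (nat_lit 306) (nat_lit 0) (nat_lit 281) (nat_lit 279) (nat_lit 220))) (PT.nd (nat_lit 78) (PT.lf (nat_lit 22572) (nat_lit 6) (nat_lit 297) (nat_lit 0) (nat_lit 282) (nat_lit 279) (nat_lit 219)) (PT.lf (nat_lit 21888) (nat_lit 6) (nat_lit 288) (nat_lit 0) (nat_lit 283) (nat_lit 279) (nat_lit 218)))) (PT.nd (nat_lit 156) (PT.nd (nat_lit 78) (PT.lf (nat_lit 21204) (nat_lit 6) (nat_lit 279) (nat_lit 0) (nat_lit 284) (nat_lit 279) (nat_lit 217)) (PT.lf (nat_lit 20520) (nat_lit 6) (nat_lit 270) (nat_lit 0) (nat_lit 285) (nat_lit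 279) (nat_lit 216))) (PT.nd (nat_lit 78) (PT.lf (nat_lit 19912) (nat_lit 6) (nat_lit 262) (nat_lit 0) (nat_lit 286) (nat_lit 279) (nat_lit 215)) (PT.nd (nat_lit 78) (PT.lf (nat_lit 19304) (nat_lit 6) (nat_lit 254) (nat_lit 0) (nat_lit 287) (nat_lit 279) (nat_lit 214)) (PT.lf (nat_lit 18696) (nat_lit 6) (nat_lit 246) (nat_lit 0) (nat_lit 288) (nat_lit 279) (nat_lit 213))))))))
noncomputable def pc89 : PT := (PT.nd (nat_lit 75972) (PT.nd (nat_lit 75270) (PT.nd (nat_lit 74958) (PT.nd (nat_lit 156) (PT.nd (nat_lit 78) (PT.lf (nat_lit 18088) (nat_lit 6) (nat_lit 238) (nat_lit 0) (nat_lit 289) (nat_lit 279) (nat_lit 212)) (PT.lf (nat_lit 17556) (nat_lit 6) (nat_lit 231) (nat_lit 0) (nat_lit 290) (nat_lit 279) (nat_lit 211))) (PT.nd (nat_lit 74724) (PT.lf (nat_lit 16948) (nat_lit 6) (nat_lit 223) (nat_lit 0) (nat_lit 291) (nat_lit 279) (nat_lit 210)) (PT.lf (nat_lit 15960) (nat_lit 6) (nat_lit 210) (nat_lit 5) (nat_lit 208) (nat_lit 280) (nat_lit 292)))) (PT.nd (nat_lit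 156) (PT.nd (nat_lit 78) (PT.lf (nat_lit 16492) (nat_lit 6) (nat_lit 217) (nat_lit 5) (nat_lit 209) (nat_lit 280) (nat_lit 291)) (PT.lf (nat_lit 17024) (nat_lit 6) (nat_lit 224) (nat_lit 5) (nat_lit 210) (nat_lit 280) (nat_lit 290))) (PT.nd (nat_lit 78) (PT.lf (nat_lit 17632) (nat_lit 6) (nat_lit 232) (nat_lit 5) (nat_lit 211) (nat_lit 280) (nat_lit 289)) (PT.lf (nat_lit 18164) (nat_lit 6) (nat_lit 239) (nat_lit 5) (nat_lit 212) (nat_lit 280) (nat_lit 288))))) (PT.nd (nat_lit 312) (PT.nd (nat_lit 156) (PT.nd (nat_lit 78) (PT.lf (nat_lit 18772) (nat_lit 6) (nat_lit 247) (nat_lit 5) (nat_lit 213) (nat_lit 280) (nat_lit 287)) (PT.lf (nat_lit 19380) (nat_lit 6) (nat_lit 255) (nat_lit 5) (nat_lit 214) (nat_lit 280) (nat_lit 286))) (PT.nd (nat_lit 78) (PT.lf (nat_lit 19988) (nat_lit 6) (nat_lit 263) (nat_lit 5) (nat_lit 215) (nat_lit 280) (nat_lit 285)) (PT.lf (nat_lit 20596) (nat_lit 6) (nat_lit 271) (nat_lit 5) (nat_lit 216) (nat_lit 280) (nat_lit 284)))) (PT.nd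 (nat_lit 156) (PT.nd (nat_lit 78) (PT.lf (nat_lit 21280) (nat_lit 6) (nat_lit 280) (nat_lit 5) (nat_lit 217) (nat_lit 280) (nat_lit 283)) (PT.lf (nat_lit 21964) (nat_lit 6) (nat_lit 289) (nat_lit 5) (nat_lit 218) (nat_lit 280) (nat_lit 282))) (PT.nd (nat_lit 78) (PT.lf (nat_lit 22648) (nat_lit 6) (nat_lit 298) (nat_lit 5) (nat_lit 219) (nat_lit 280) (nat_lit 281)) (PT.nd (nat_lit 78) (PT.lf (nat_lit 23332) (nat_lit 3) (nat_lit 307) (nat_lit 4) (nat_lit 220) (nat_lit 280) (nat_lit 280)) (PT.lf (nat_lit 24016) (nat_lit 6) (nat_lit 316) (nat_lit 4) (nat_lit 221) (nat_lit 280) (nat_lit 279))))))) (PT.nd (nat_lit 624) (PT.nd (nat_lit 312) (PT.nd (nat_lit 156) (PT.nd (nat_lit 78) (PT.lf (nat_lit 24624) (nat_lit 6) (nat_lit 324) (nat_lit 4) (nat_lit 222) (nat_lit 280) (nat_lit 278)) (PT.lf (nat_lit 25308) (nat_lit 6) (nat_lit 333) (nat_lit 4) (nat_lit 223) (nat_lit 280) (nat_lit 277))) (PT.nd (nat_lit 78) (PT.lf (nat_lit 25992) (nat_lit 6) (nat_lit 342) (nat_lit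 4) (nat_lit 224) (nat_lit 280) (nat_lit 276)) (PT.lf (nat_lit 26752) (nat_lit 6) (nat_lit 352) (nat_lit 4) (nat_lit 225) (nat_lit 280) (nat_lit 275)))) (PT.nd (nat_lit 156) (PT.nd (nat_lit 78) (PT.lf (nat_lit 27436) (nat_lit 6) (nat_lit 361) (nat_lit 4) (nat_lit 226) (nat_lit 280) (nat_lit 274)) (PT.lf (nat_lit 28196) (nat_lit 6) (nat_lit 371) (nat_lit 4) (nat_lit 227) (nat_lit 280) (nat_lit 273))) (PT.nd (nat_lit 78) (PT.lf (nat_lit 28956) (nat_lit 6) (nat_lit 381) (nat_lit 4) (nat_lit 228) (nat_lit 280) (nat_lit 272)) (PT.lf (nat_lit 29792) (nat_lit 6) (nat_lit 392) (nat_lit 4) (nat_lit 229) (nat_lit 280) (nat_lit 271))))) (PT.nd (nat_lit 312) (PT.nd (nat_lit 156) (PT.nd (nat_lit 78) (PT.lf (nat_lit 30628) (nat_lit 6) (nat_lit 403) (nat_lit 4) (nat_lit 230) (nat_lit 280) (nat_lit 270)) (PT.lf (nat_lit 31464) (nat_lit 6) (nat_lit 414) (nat_lit 4) (nat_lit 231) (nat_lit 280) (nat_lit 269))) (PT.nd (nat_lit 78) (PT.lf (nat_lit 32300) (nat_lit 6) (nat_lit 425)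 (nat_lit 4) (nat_lit 232) (nat_lit 280) (nat_lit 268)) (PT.lf (nat_lit 33212) (nat_lit 6) (nat_lit 437) (nat_lit 4) (nat_lit 233) (nat_lit 280) (nat_lit 267)))) (PT.nd (nat_lit 156) (PT.nd (nat_lit 78) (PT.lf (nat_lit 34124) (nat_lit 6) (nat_lit 449) (nat_lit 4) (nat_lit 234) (nat_lit 280) (nat_lit 266)) (PT.lf (nat_lit 35188) (nat_lit 6) (nat_lit 463) (nat_lit 4) (nat_lit 235) (nat_lit 280) (nat_lit 265))) (PT.nd (nat_lit 78) (PT.lf (nat_lit 37012) (nat_lit 6) (nat_lit 487) (nat_lit 4) (nat_lit 236) (nat_lit 280) (nat_lit 264)) (PT.nd (nat_lit 78) (PT.lf (nat_lit 38760) (nat_lit 6) (nat_lit 510) (nat_lit 4) (nat_lit 237) (nat_lit 280) (nat_lit 263)) (PT.lf (nat_lit 40432) (nat_lit 6) (nat_lit 532) (nat_lit 4) (nat_lit 238) (nat_lit 280) (nat_lit 262))))))))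
noncomputable def pc90 : PT := (PT.nd (nat_lit 1326) (PT.nd (nat_lit 624) (PT.nd (nat_lit 312) (PT.nd (nat_lit 156) (PT.nd (nat_lit 78) (PT.lf (nat_lit 42028) (nat_lit 6) (nat_lit 553) (nat_lit 4) (nat_lit 239) (nat_lit 280) (nat_lit 261)) (PT.lf (nat_lit 43548) (nat_lit 6) (nat_lit 573) (nat_lit 4) (nat_lit 240) (nat_lit 280) (nat_lit 260))) (PT.nd (nat_lit 78) (PT.lf (nat_lit 43472) (nat_lit 6) (nat_lit 572) (nat_lit 4) (nat_lit 241) (nat_lit 280) (nat_lit 259)) (PT.lf (nat_lit 43396) (nat_lit 6) (nat_lit 571) (nat_lit 4) (nat_lit 242) (nat_lit 280) (nat_lit 258)))) (PT.nd (nat_lit 156) (PT.nd (nat_lit 78) (PT.lf (nat_lit 43320) (nat_lit 6) (nat_lit 570) (nat_lit 4) (nat_lit 243) (nat_lit 280) (nat_lit 257)) (PT.lf (nat_lit 43244) (nat_lit 6) (nat_lit 569) (nat_lit 4) (nat_lit 244) (nat_lit 280) (nat_lit 256))) (PT.nd (nat_lit 78) (PT.lf (nat_lit 43168) (nat_lit 6) (nat_lit 568) (nat_lit 4) (nat_lit 245) (nat_lit 280) (nat_lit 255)) (PT.lf (nat_lit 43092)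 (nat_lit 6) (nat_lit 567) (nat_lit 4) (nat_lit 246) (nat_lit 280) (nat_lit 254))))) (PT.nd (nat_lit 312) (PT.nd (nat_lit 156) (PT.nd (nat_lit 78) (PT.lf (nat_lit 43016) (nat_lit 6) (nat_lit 566) (nat_lit 4) (nat_lit 247) (nat_lit 280) (nat_lit 253)) (PT.lf (nat_lit 42940) (nat_lit 6) (nat_lit 565) (nat_lit 4) (nat_lit 248) (nat_lit 280) (nat_lit 252))) (PT.nd (nat_lit 78) (PT.lf (nat_lit 42864) (nat_lit 6) (nat_lit 564) (nat_lit 4) (nat_lit 249) (nat_lit 280) (nat_lit 251)) (PT.lf (nat_lit 42788) (nat_lit 3) (nat_lit 563) (nat_lit 2) (nat_lit 250) (nat_lit 280) (nat_lit 250)))) (PT.nd (nat_lit 156) (PT.nd (nat_lit 78) (PT.lf (nat_lit 42864) (nat_lit 6) (nat_lit 564) (nat_lit 2) (nat_lit 251) (nat_lit 280) (nat_lit 249)) (PT.lf (nat_lit 42940) (nat_lit 6) (nat_lit 565) (nat_lit 2) (nat_lit 252) (nat_lit 280) (nat_lit 248))) (PT.nd (nat_lit 78) (PT.lf (nat_lit 43016) (nat_lit 6) (nat_lit 566) (nat_lit 2) (nat_lit 253) (nat_lit 280) (nat_lit 247)) (PT.nd (nat_lit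 78) (PT.lf (nat_lit 43092) (nat_lit 6) (nat_lit 567) (nat_lit 2) (nat_lit 254) (nat_lit 280) (nat_lit 246)) (PT.lf (nat_lit 43168) (nat_lit 6) (nat_lit 568) (nat_lit 2) (nat_lit 255) (nat_lit 280) (nat_lit 245))))))) (PT.nd (nat_lit 624) (PT.nd (nat_lit 312) (PT.nd (nat_lit 156) (PT.nd (nat_lit 78) (PT.lf (nat_lit 43244) (nat_lit 6) (nat_lit 569) (nat_lit 2) (nat_lit 256) (nat_lit 280) (nat_lit 244)) (PT.lf (nat_lit 43320) (nat_lit 6) (nat_lit 570) (nat_lit 2) (nat_lit 257) (nat_lit 280) (nat_lit 243))) (PT.nd (nat_lit 78) (PT.lf (nat_lit 43396) (nat_lit 6) (nat_lit 571) (nat_lit 2) (nat_lit 258) (nat_lit 280) (nat_lit 242)) (PT.lf (nat_lit 43472) (nat_lit 6) (nat_lit 572) (nat_lit 2) (nat_lit 259) (nat_lit 280) (nat_lit 241)))) (PT.nd (nat_lit 156) (PT.nd (nat_lit 78) (PT.lf (nat_lit 43548) (nat_lit 6) (nat_lit 573) (nat_lit 2) (nat_lit 260) (nat_lit 280) (nat_lit 240)) (PT.lf (nat_lit 42028) (nat_lit 6) (nat_lit 553) (nat_lit 2) (nat_lit 261) (nat_lit 280)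 (nat_lit 239))) (PT.nd (nat_lit 78) (PT.lf (nat_lit 40432) (nat_lit 6) (nat_lit 532) (nat_lit 2) (nat_lit 262) (nat_lit 280) (nat_lit 238)) (PT.lf (nat_lit 38760) (nat_lit 6) (nat_lit 510) (nat_lit 2) (nat_lit 263) (nat_lit 280) (nat_lit 237))))) (PT.nd (nat_lit 312) (PT.nd (nat_lit 156) (PT.nd (nat_lit 78) (PT.lf (nat_lit 37012) (nat_lit 6) (nat_lit 487) (nat_lit 2) (nat_lit 264) (nat_lit 280) (nat_lit 236)) (PT.lf (nat_lit 35188) (nat_lit 6) (nat_lit 463) (nat_lit 2) (nat_lit 265) (nat_lit 280) (nat_lit 235))) (PT.nd (nat_lit 78) (PT.lf (nat_lit 34124) (nat_lit 6) (nat_lit 449) (nat_lit 2) (nat_lit 266) (nat_lit 280) (nat_lit 234)) (PT.lf (nat_lit 33212) (nat_lit 6) (nat_lit 437) (nat_lit 2) (nat_lit 267) (nat_lit 280) (nat_lit 233)))) (PT.nd (nat_lit 156) (PT.nd (nat_lit 78) (PT.lf (nat_lit 32300) (nat_lit 6) (nat_lit 425) (nat_lit 2) (nat_lit 268) (nat_lit 280) (nat_lit 232)) (PT.lf (nat_lit 31464) (nat_lit 6) (nat_lit 414) (nat_lit 2) (nat_lit 269) (nat_lit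 280) (nat_lit 231))) (PT.nd (nat_lit 78) (PT.lf (nat_lit 30628) (nat_lit 6) (nat_lit 403) (nat_lit 2) (nat_lit 270) (nat_lit 280) (nat_lit 230)) (PT.nd (nat_lit 78) (PT.lf (nat_lit 29792) (nat_lit 6) (nat_lit 392) (nat_lit 2) (nat_lit 271) (nat_lit 280) (nat_lit 229)) (PT.lf (nat_lit 28956) (nat_lit 6) (nat_lit 381) (nat_lit 2) (nat_lit 272) (nat_lit 280) (nat_lit 228))))))))
noncomputable def pc91 : PT := (PT.nd (nat_lit 1326) (PT.nd (nat_lit 624) (PT.nd (nat_lit 312) (PT.nd (nat_lit 156) (PT.nd (nat_lit 78) (PT.lf (nat_lit 28196) (nat_lit 6) (nat_lit 371) (nat_lit 2) (nat_lit 273) (nat_lit 280) (nat_lit 227)) (PT.lf (nat_lit 27436) (nat_lit 6) (nat_lit 361) (nat_lit 2) (nat_lit 274) (nat_lit 280) (nat_lit 226))) (PT.nd (nat_lit 78) (PT.lf (nat_lit 26752) (nat_lit 6) (nat_lit 352) (nat_lit 2) (nat_lit 275) (nat_lit 280) (nat_lit 225)) (PT.lf (nat_lit 25992) (nat_lit 6) (nat_lit 342) (nat_lit 2) (nat_lit 276) (nat_lit 280) (nat_lit 224)))) (PT.nd (nat_lit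 156) (PT.nd (nat_lit 78) (PT.lf (nat_lit 25308) (nat_lit 6) (nat_lit 333) (nat_lit 2) (nat_lit 277) (nat_lit 280) (nat_lit 223)) (PT.lf (nat_lit 24624) (nat_lit 6) (nat_lit 324) (nat_lit 2) (nat_lit 278) (nat_lit 280) (nat_lit 222))) (PT.nd (nat_lit 78) (PT.lf (nat_lit 24016) (nat_lit 6) (nat_lit 316) (nat_lit 2) (nat_lit 279) (nat_lit 280) (nat_lit 221)) (PT.lf (nat_lit 23332) (nat_lit 3) (nat_lit 307) (nat_lit 0) (nat_lit 280) (nat_lit 280) (nat_lit 220))))) (PT.nd (nat_lit 312) (PT.nd (nat_lit 156) (PT.nd (nat_lit 78) (PT.lf (nat_lit 22648) (nat_lit 6) (nat_lit 298) (nat_lit 0) (nat_lit 281) (nat_lit 280) (nat_lit 219)) (PT.lf (nat_lit 21964) (nat_lit 6) (nat_lit 289) (nat_lit 0) (nat_lit 282) (nat_lit 280) (nat_lit 218))) (PT.nd (nat_lit 78) (PT.lf (nat_lit 21280) (nat_lit 6) (nat_lit 280) (nat_lit 0) (nat_lit 283) (nat_lit 280) (nat_lit 217)) (PT.lf (nat_lit 20596) (nat_lit 6) (nat_lit 271) (nat_lit 0) (nat_lit 284) (nat_lit 280) (nat_lit 216)))) (PT.nd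 (nat_lit 156) (PT.nd (nat_lit 78) (PT.lf (nat_lit 19988) (nat_lit 6) (nat_lit 263) (nat_lit 0) (nat_lit 285) (nat_lit 280) (nat_lit 215)) (PT.lf (nat_lit 19380) (nat_lit 6) (nat_lit 255) (nat_lit 0) (nat_lit 286) (nat_lit 280) (nat_lit 214))) (PT.nd (nat_lit 78) (PT.lf (nat_lit 18772) (nat_lit 6) (nat_lit 247) (nat_lit 0) (nat_lit 287) (nat_lit 280) (nat_lit 213)) (PT.nd (nat_lit 78) (PT.lf (nat_lit 18164) (nat_lit 6) (nat_lit 239) (nat_lit 0) (nat_lit 288) (nat_lit 280) (nat_lit 212)) (PT.lf (nat_lit 17632) (nat_lit 6) (nat_lit 232) (nat_lit 0) (nat_lit 289) (nat_lit 280) (nat_lit 211))))))) (PT.nd (nat_lit 75192) (PT.nd (nat_lit 74802) (PT.nd (nat_lit 156) (PT.nd (nat_lit 78) (PT.lf (nat_lit 17024) (nat_lit 6) (nat_lit 224) (nat_lit 0) (nat_lit 290) (nat_lit 280) (nat_lit 210)) (PT.lf (nat_lit 16492) (nat_lit 6) (nat_lit 217) (nat_lit 0) (nat_lit 291) (nat_lit 280) (nat_lit 209))) (PT.nd (nat_lit 74568) (PT.lf (nat_lit 15960) (nat_lit 6) (nat_lit 210) (nat_lit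 0) (nat_lit 292) (nat_lit 280) (nat_lit 208)) (PT.lf (nat_lit 15504) (nat_lit 6) (nat_lit 204) (nat_lit 5) (nat_lit 207) (nat_lit 281) (nat_lit 292)))) (PT.nd (nat_lit 156) (PT.nd (nat_lit 78) (PT.lf (nat_lit 16036) (nat_lit 6) (nat_lit 211) (nat_lit 5) (nat_lit 208) (nat_lit 281) (nat_lit 291)) (PT.lf (nat_lit 16568) (nat_lit 6) (nat_lit 218) (nat_lit 5) (nat_lit 209) (nat_lit 281) (nat_lit 290))) (PT.nd (nat_lit 78) (PT.lf (nat_lit 17100) (nat_lit 6) (nat_lit 225) (nat_lit 5) (nat_lit 210) (nat_lit 281) (nat_lit 289)) (PT.nd (nat_lit 78) (PT.lf (nat_lit 17708) (nat_lit 6) (nat_lit 233) (nat_lit 5) (nat_lit 211) (nat_lit 281) (nat_lit 288)) (PT.lf (nat_lit 18240) (nat_lit 6) (nat_lit 240) (nat_lit 5) (nat_lit 212) (nat_lit 281) (nat_lit 287)))))) (PT.nd (nat_lit 312) (PT.nd (nat_lit 156) (PT.nd (nat_lit 78) (PT.lf (nat_lit 18848) (nat_lit 6) (nat_lit 248) (nat_lit 5) (nat_lit 213) (nat_lit 281) (nat_lit 286)) (PT.lf (nat_lit 19456) (nat_lit 6) (nat_lit 256)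 (nat_lit 5) (nat_lit 214) (nat_lit 281) (nat_lit 285))) (PT.nd (nat_lit 78) (PT.lf (nat_lit 20064) (nat_lit 6) (nat_lit 264) (nat_lit 5) (nat_lit 215) (nat_lit 281) (nat_lit 284)) (PT.lf (nat_lit 20672) (nat_lit 6) (nat_lit 272) (nat_lit 5) (nat_lit 216) (nat_lit 281) (nat_lit 283)))) (PT.nd (nat_lit 156) (PT.nd (nat_lit 78) (PT.lf (nat_lit 21356) (nat_lit 6) (nat_lit 281) (nat_lit 5) (nat_lit 217) (nat_lit 281) (nat_lit 282)) (PT.lf (nat_lit 22040) (nat_lit 3) (nat_lit 290) (nat_lit 4) (nat_lit 218) (nat_lit 281) (nat_lit 281))) (PT.nd (nat_lit 78) (PT.lf (nat_lit 22648) (nat_lit 6) (nat_lit 298) (nat_lit 4) (nat_lit 219) (nat_lit 281) (nat_lit 280)) (PT.nd (nat_lit 78) (PT.lf (nat_lit 23256) (nat_lit 6) (nat_lit 306) (nat_lit 4) (nat_lit 220) (nat_lit 281) (nat_lit 279)) (PT.lf (nat_lit 23940) (nat_lit 6) (nat_lit 315) (nat_lit 4) (nat_lit 221) (nat_lit 281) (nat_lit 278))))))))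
noncomputable def pc92 : PT := (PT.nd (nat_lit 1326) (PT.nd (nat_lit 624) (PT.nd (nat_lit 312) (PT.nd (nat_lit 156) (PT.nd (nat_lit 78) (PT.lf (nat_lit 24548) (nat_lit 6) (nat_lit 323) (nat_lit 4) (nat_lit 222) (nat_lit 281) (nat_lit 277)) (PT.lf (nat_lit 25232) (nat_lit 6) (nat_lit 332) (nat_lit 4) (nat_lit 223) (nat_lit 281) (nat_lit 276))) (PT.nd (nat_lit 78) (PT.lf (nat_lit 25916) (nat_lit 6) (nat_lit 341) (nat_lit 4) (nat_lit 224) (nat_lit 281) (nat_lit 275)) (PT.lf (nat_lit 26676) (nat_lit 6) (nat_lit 351) (nat_lit 4) (nat_lit 225) (nat_lit 281) (nat_lit 274)))) (PT.nd (nat_lit 156) (PT.nd (nat_lit 78) (PT.lf (nat_lit 27360) (nat_lit 6) (nat_lit 360) (nat_lit 4) (nat_lit 226) (nat_lit 281) (nat_lit 273)) (PT.lf (nat_lit 28120) (nat_lit 6) (nat_lit 370) (nat_lit 4) (nat_lit 227) (nat_lit 281) (nat_lit 272))) (PT.nd (nat_lit 78) (PT.lf (nat_lit 28880) (nat_lit 6) (nat_lit 380) (nat_lit 4) (nat_lit 228) (nat_lit 281) (nat_lit 271)) (PT.lf (nat_lit 29716)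 (nat_lit 6) (nat_lit 391) (nat_lit 4) (nat_lit 229) (nat_lit 281) (nat_lit 270))))) (PT.nd (nat_lit 312) (PT.nd (nat_lit 156) (PT.nd (nat_lit 78) (PT.lf (nat_lit 30552) (nat_lit 6) (nat_lit 402) (nat_lit 4) (nat_lit 230) (nat_lit 281) (nat_lit 269)) (PT.lf (nat_lit 31388) (nat_lit 6) (nat_lit 413) (nat_lit 4) (nat_lit 231) (nat_lit 281) (nat_lit 268))) (PT.nd (nat_lit 78) (PT.lf (nat_lit 32224) (nat_lit 6) (nat_lit 424) (nat_lit 4) (nat_lit 232) (nat_lit 281) (nat_lit 267)) (PT.lf (nat_lit 33136) (nat_lit 6) (nat_lit 436) (nat_lit 4) (nat_lit 233) (nat_lit 281) (nat_lit 266)))) (PT.nd (nat_lit 156) (PT.nd (nat_lit 78) (PT.lf (nat_lit 34048) (nat_lit 6) (nat_lit 448) (nat_lit 4) (nat_lit 234) (nat_lit 281) (nat_lit 265)) (PT.lf (nat_lit 35112) (nat_lit 6) (nat_lit 462) (nat_lit 4) (nat_lit 235) (nat_lit 281) (nat_lit 264))) (PT.nd (nat_lit 78) (PT.lf (nat_lit 36936) (nat_lit 6) (nat_lit 486) (nat_lit 4) (nat_lit 236) (nat_lit 281) (nat_lit 263)) (PT.nd (nat_lit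 78) (PT.lf (nat_lit 38684) (nat_lit 6) (nat_lit 509) (nat_lit 4) (nat_lit 237) (nat_lit 281) (nat_lit 262)) (PT.lf (nat_lit 40356) (nat_lit 6) (nat_lit 531) (nat_lit 4) (nat_lit 238) (nat_lit 281) (nat_lit 261))))))) (PT.nd (nat_lit 624) (PT.nd (nat_lit 312) (PT.nd (nat_lit 156) (PT.nd (nat_lit 78) (PT.lf (nat_lit 41952) (nat_lit 6) (nat_lit 552) (nat_lit 4) (nat_lit 239) (nat_lit 281) (nat_lit 260)) (PT.lf (nat_lit 41876) (nat_lit 6) (nat_lit 551) (nat_lit 4) (nat_lit 240) (nat_lit 281) (nat_lit 259))) (PT.nd (nat_lit 78) (PT.lf (nat_lit 41800) (nat_lit 6) (nat_lit 550) (nat_lit 4) (nat_lit 241) (nat_lit 281) (nat_lit 258)) (PT.lf (nat_lit 41724) (nat_lit 6) (nat_lit 549) (nat_lit 4) (nat_lit 242) (nat_lit 281) (nat_lit 257)))) (PT.nd (nat_lit 156) (PT.nd (nat_lit 78) (PT.lf (nat_lit 41648) (nat_lit 6) (nat_lit 548) (nat_lit 4) (nat_lit 243) (nat_lit 281) (nat_lit 256)) (PT.lf (nat_lit 41572) (nat_lit 6) (nat_lit 547) (nat_lit 4) (nat_lit 244) (nat_lit 281)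 (nat_lit 255))) (PT.nd (nat_lit 78) (PT.lf (nat_lit 41496) (nat_lit 6) (nat_lit 546) (nat_lit 4) (nat_lit 245) (nat_lit 281) (nat_lit 254)) (PT.lf (nat_lit 41420) (nat_lit 6) (nat_lit 545) (nat_lit 4) (nat_lit 246) (nat_lit 281) (nat_lit 253))))) (PT.nd (nat_lit 312) (PT.nd (nat_lit 156) (PT.nd (nat_lit 78) (PT.lf (nat_lit 41344) (nat_lit 6) (nat_lit 544) (nat_lit 4) (nat_lit 247) (nat_lit 281) (nat_lit 252)) (PT.lf (nat_lit 41268) (nat_lit 6) (nat_lit 543) (nat_lit 4) (nat_lit 248) (nat_lit 281) (nat_lit 251))) (PT.nd (nat_lit 78) (PT.lf (nat_lit 41192) (nat_lit 6) (nat_lit 542) (nat_lit 4) (nat_lit 249) (nat_lit 281) (nat_lit 250)) (PT.lf (nat_lit 41192) (nat_lit 6) (nat_lit 542) (nat_lit 2) (nat_lit 250) (nat_lit 281) (nat_lit 249)))) (PT.nd (nat_lit 156) (PT.nd (nat_lit 78) (PT.lf (nat_lit 41268) (nat_lit 6) (nat_lit 543) (nat_lit 2) (nat_lit 251) (nat_lit 281) (nat_lit 248)) (PT.lf (nat_lit 41344) (nat_lit 6) (nat_lit 544) (nat_lit 2) (nat_lit 252) (nat_lit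 281) (nat_lit 247))) (PT.nd (nat_lit 78) (PT.lf (nat_lit 41420) (nat_lit 6) (nat_lit 545) (nat_lit 2) (nat_lit 253) (nat_lit 281) (nat_lit 246)) (PT.nd (nat_lit 78) (PT.lf (nat_lit 41496) (nat_lit 6) (nat_lit 546) (nat_lit 2) (nat_lit 254) (nat_lit 281) (nat_lit 245)) (PT.lf (nat_lit 41572) (nat_lit 6) (nat_lit 547) (nat_lit 2) (nat_lit 255) (nat_lit 281) (nat_lit 244))))))))
noncomputable def pc93 : PT := (PT.nd (nat_lit 1326) (PT.nd (nat_lit 624) (PT.nd (nat_lit 312) (PT.nd (nat_lit 156) (PT.nd (nat_lit 78) (PT.lf (nat_lit 41648) (nat_lit 6) (nat_lit 548) (nat_lit 2) (nat_lit 256) (nat_lit 281) (nat_lit 243)) (PT.lf (nat_lit 41724) (nat_lit 6) (nat_lit 549) (nat_lit 2) (nat_lit 257) (nat_lit 281) (nat_lit 242))) (PT.nd (nat_lit 78) (PT.lf (nat_lit 41800) (nat_lit 6) (nat_lit 550) (nat_lit 2) (nat_lit 258) (nat_lit 281) (nat_lit 241)) (PT.lf (nat_lit 41876) (nat_lit 6) (nat_lit 551) (nat_lit 2) (nat_lit 259) (nat_lit 281) (nat_lit 240)))) (PT.nd (nat_lit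 156) (PT.nd (nat_lit 78) (PT.lf (nat_lit 41952) (nat_lit 6) (nat_lit 552) (nat_lit 2) (nat_lit 260) (nat_lit 281) (nat_lit 239)) (PT.lf (nat_lit 40356) (nat_lit 6) (nat_lit 531) (nat_lit 2) (nat_lit 261) (nat_lit 281) (nat_lit 238))) (PT.nd (nat_lit 78) (PT.lf (nat_lit 38684) (nat_lit 6) (nat_lit 509) (nat_lit 2) (nat_lit 262) (nat_lit 281) (nat_lit 237)) (PT.lf (nat_lit 36936) (nat_lit 6) (nat_lit 486) (nat_lit 2) (nat_lit 263) (nat_lit 281) (nat_lit 236))))) (PT.nd (nat_lit 312) (PT.nd (nat_lit 156) (PT.nd (nat_lit 78) (PT.lf (nat_lit 35112) (nat_lit 6) (nat_lit 462) (nat_lit 2) (nat_lit 264) (nat_lit 281) (nat_lit 235)) (PT.lf (nat_lit 34048) (nat_lit 6) (nat_lit 448) (nat_lit 2) (nat_lit 265) (nat_lit 281) (nat_lit 234))) (PT.nd (nat_lit 78) (PT.lf (nat_lit 33136) (nat_lit 6) (nat_lit 436) (nat_lit 2) (nat_lit 266) (nat_lit 281) (nat_lit 233)) (PT.lf (nat_lit 32224) (nat_lit 6) (nat_lit 424) (nat_lit 2) (nat_lit 267) (nat_lit 281) (nat_lit 232)))) (PT.nd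 (nat_lit 156) (PT.nd (nat_lit 78) (PT.lf (nat_lit 31388) (nat_lit 6) (nat_lit 413) (nat_lit 2) (nat_lit 268) (nat_lit 281) (nat_lit 231)) (PT.lf (nat_lit 30552) (nat_lit 6) (nat_lit 402) (nat_lit 2) (nat_lit 269) (nat_lit 281) (nat_lit 230))) (PT.nd (nat_lit 78) (PT.lf (nat_lit 29716) (nat_lit 6) (nat_lit 391) (nat_lit 2) (nat_lit 270) (nat_lit 281) (nat_lit 229)) (PT.nd (nat_lit 78) (PT.lf (nat_lit 28880) (nat_lit 6) (nat_lit 380) (nat_lit 2) (nat_lit 271) (nat_lit 281) (nat_lit 228)) (PT.lf (nat_lit 28120) (nat_lit 6) (nat_lit 370) (nat_lit 2) (nat_lit 272) (nat_lit 281) (nat_lit 227))))))) (PT.nd (nat_lit 624) (PT.nd (nat_lit 312) (PT.nd (nat_lit 156) (PT.nd (nat_lit 78) (PT.lf (nat_lit 27360) (nat_lit 6) (nat_lit 360) (nat_lit 2) (nat_lit 273) (nat_lit 281) (nat_lit 226)) (PT.lf (nat_lit 26676) (nat_lit 6) (nat_lit 351) (nat_lit 2) (nat_lit 274) (nat_lit 281) (nat_lit 225))) (PT.nd (nat_lit 78) (PT.lf (nat_lit 25916) (nat_lit 6) (nat_lit 341) (nat_lit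 2) (nat_lit 275) (nat_lit 281) (nat_lit 224)) (PT.lf (nat_lit 25232) (nat_lit 6) (nat_lit 332) (nat_lit 2) (nat_lit 276) (nat_lit 281) (nat_lit 223)))) (PT.nd (nat_lit 156) (PT.nd (nat_lit 78) (PT.lf (nat_lit 24548) (nat_lit 6) (nat_lit 323) (nat_lit 2) (nat_lit 277) (nat_lit 281) (nat_lit 222)) (PT.lf (nat_lit 23940) (nat_lit 6) (nat_lit 315) (nat_lit 2) (nat_lit 278) (nat_lit 281) (nat_lit 221))) (PT.nd (nat_lit 78) (PT.lf (nat_lit 23256) (nat_lit 6) (nat_lit 306) (nat_lit 2) (nat_lit 279) (nat_lit 281) (nat_lit 220)) (PT.lf (nat_lit 22648) (nat_lit 6) (nat_lit 298) (nat_lit 2) (nat_lit 280) (nat_lit 281) (nat_lit 219))))) (PT.nd (nat_lit 312) (PT.nd (nat_lit 156) (PT.nd (nat_lit 78) (PT.lf (nat_lit 22040) (nat_lit 3) (nat_lit 290) (nat_lit 0) (nat_lit 281) (nat_lit 281) (nat_lit 218)) (PT.lf (nat_lit 21356) (nat_lit 6) (nat_lit 281) (nat_lit 0) (nat_lit 282) (nat_lit 281) (nat_lit 217))) (PT.nd (nat_lit 78) (PT.lf (nat_lit 20672) (nat_lit 6) (nat_lit 272)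 (nat_lit 0) (nat_lit 283) (nat_lit 281) (nat_lit 216)) (PT.lf (nat_lit 20064) (nat_lit 6) (nat_lit 264) (nat_lit 0) (nat_lit 284) (nat_lit 281) (nat_lit 215)))) (PT.nd (nat_lit 156) (PT.nd (nat_lit 78) (PT.lf (nat_lit 19456) (nat_lit 6) (nat_lit 256) (nat_lit 0) (nat_lit 285) (nat_lit 281) (nat_lit 214)) (PT.lf (nat_lit 18848) (nat_lit 6) (nat_lit 248) (nat_lit 0) (nat_lit 286) (nat_lit 281) (nat_lit 213))) (PT.nd (nat_lit 78) (PT.lf (nat_lit 18240) (nat_lit 6) (nat_lit 240) (nat_lit 0) (nat_lit 287) (nat_lit 281) (nat_lit 212)) (PT.nd (nat_lit 78) (PT.lf (nat_lit 17708) (nat_lit 6) (nat_lit 233) (nat_lit 0) (nat_lit 288) (nat_lit 281) (nat_lit 211)) (PT.lf (nat_lit 17100) (nat_lit 6) (nat_lit 225) (nat_lit 0) (nat_lit 289) (nat_lit 281) (nat_lit 210))))))))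
noncomputable def pc94 : PT := (PT.nd (nat_lit 75660) (PT.nd (nat_lit 74958) (PT.nd (nat_lit 74646) (PT.nd (nat_lit 156) (PT.nd (nat_lit 78) (PT.lf (nat_lit 16568) (nat_lit 6) (nat_lit 218) (nat_lit 0) (nat_lit 290) (nat_lit 281) (nat_lit 209)) (PT.lf (nat_lit 16036) (nat_lit 6) (nat_lit 211) (nat_lit 0) (nat_lit 291) (nat_lit 281) (nat_lit 208))) (PT.nd (nat_lit 74412) (PT.lf (nat_lit 15504) (nat_lit 6) (nat_lit 204) (nat_lit 0) (nat_lit 292) (nat_lit 281) (nat_lit 207)) (PT.lf (nat_lit 14592) (nat_lit 6) (nat_lit 192) (nat_lit 5) (nat_lit 205) (nat_lit 282) (nat_lit 293)))) (PT.nd (nat_lit 156) (PT.nd (nat_lit 78) (PT.lf (nat_lit 15048) (nat_lit 6) (nat_lit 198) (nat_lit 5) (nat_lit 206) (nat_lit 282) (nat_lit 292)) (PT.lf (nat_lit 15580) (nat_lit 6) (nat_lit 205) (nat_lit 5) (nat_lit 207) (nat_lit 282) (nat_lit 291))) (PT.nd (nat_lit 78) (PT.lf (nat_lit 16112) (nat_lit 6) (nat_lit 212) (nat_lit 5) (nat_lit 208) (nat_lit 282) (nat_lit 290)) (PT.lf (nat_lit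 16644) (nat_lit 6) (nat_lit 219) (nat_lit 5) (nat_lit 209) (nat_lit 282) (nat_lit 289))))) (PT.nd (nat_lit 312) (PT.nd (nat_lit 156) (PT.nd (nat_lit 78) (PT.lf (nat_lit 17176) (nat_lit 6) (nat_lit 226) (nat_lit 5) (nat_lit 210) (nat_lit 282) (nat_lit 288)) (PT.lf (nat_lit 17784) (nat_lit 6) (nat_lit 234) (nat_lit 5) (nat_lit 211) (nat_lit 282) (nat_lit 287))) (PT.nd (nat_lit 78) (PT.lf (nat_lit 18316) (nat_lit 6) (nat_lit 241) (nat_lit 5) (nat_lit 212) (nat_lit 282) (nat_lit 286)) (PT.lf (nat_lit 18924) (nat_lit 6) (nat_lit 249) (nat_lit 5) (nat_lit 213) (nat_lit 282) (nat_lit 285)))) (PT.nd (nat_lit 156) (PT.nd (nat_lit 78) (PT.lf (nat_lit 19532) (nat_lit 6) (nat_lit 257) (nat_lit 5) (nat_lit 214) (nat_lit 282) (nat_lit 284)) (PT.lf (nat_lit 20140) (nat_lit 6) (nat_lit 265) (nat_lit 5) (nat_lit 215) (nat_lit 282) (nat_lit 283))) (PT.nd (nat_lit 78) (PT.lf (nat_lit 20748) (nat_lit 3) (nat_lit 273) (nat_lit 4) (nat_lit 216) (nat_lit 282) (nat_lit 282)) (PT.nd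 (nat_lit 78) (PT.lf (nat_lit 21356) (nat_lit 6) (nat_lit 281) (nat_lit 4) (nat_lit 217) (nat_lit 282) (nat_lit 281)) (PT.lf (nat_lit 21964) (nat_lit 6) (nat_lit 289) (nat_lit 4) (nat_lit 218) (nat_lit 282) (nat_lit 280))))))) (PT.nd (nat_lit 624) (PT.nd (nat_lit 312) (PT.nd (nat_lit 156) (PT.nd (nat_lit 78) (PT.lf (nat_lit 22572) (nat_lit 6) (nat_lit 297) (nat_lit 4) (nat_lit 219) (nat_lit 282) (nat_lit 279)) (PT.lf (nat_lit 23180) (nat_lit 6) (nat_lit 305) (nat_lit 4) (nat_lit 220) (nat_lit 282) (nat_lit 278))) (PT.nd (nat_lit 78) (PT.lf (nat_lit 23864) (nat_lit 6) (nat_lit 314) (nat_lit 4) (nat_lit 221) (nat_lit 282) (nat_lit 277)) (PT.lf (nat_lit 24472) (nat_lit 6) (nat_lit 322) (nat_lit 4) (nat_lit 222) (nat_lit 282) (nat_lit 276)))) (PT.nd (nat_lit 156) (PT.nd (nat_lit 78) (PT.lf (nat_lit 25156) (nat_lit 6) (nat_lit 331) (nat_lit 4) (nat_lit 223) (nat_lit 282) (nat_lit 275)) (PT.lf (nat_lit 25840) (nat_lit 6) (nat_lit 340) (nat_lit 4) (nat_lit 224) (nat_lit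 282) (nat_lit 274))) (PT.nd (nat_lit 78) (PT.lf (nat_lit 26600) (nat_lit 6) (nat_lit 350) (nat_lit 4) (nat_lit 225) (nat_lit 282) (nat_lit 273)) (PT.lf (nat_lit 27284) (nat_lit 6) (nat_lit 359) (nat_lit 4) (nat_lit 226) (nat_lit 282) (nat_lit 272))))) (PT.nd (nat_lit 312) (PT.nd (nat_lit 156) (PT.nd (nat_lit 78) (PT.lf (nat_lit 28044) (nat_lit 6) (nat_lit 369) (nat_lit 4) (nat_lit 227) (nat_lit 282) (nat_lit 271)) (PT.lf (nat_lit 28804) (nat_lit 6) (nat_lit 379) (nat_lit 4) (nat_lit 228) (nat_lit 282) (nat_lit 270))) (PT.nd (nat_lit 78) (PT.lf (nat_lit 29640) (nat_lit 6) (nat_lit 390) (nat_lit 4) (nat_lit 229) (nat_lit 282) (nat_lit 269)) (PT.lf (nat_lit 30476) (nat_lit 6) (nat_lit 401) (nat_lit 4) (nat_lit 230) (nat_lit 282) (nat_lit 268)))) (PT.nd (nat_lit 156) (PT.nd (nat_lit 78) (PT.lf (nat_lit 31312) (nat_lit 6) (nat_lit 412) (nat_lit 4) (nat_lit 231) (nat_lit 282) (nat_lit 267)) (PT.lf (nat_lit 32148) (nat_lit 6) (nat_lit 423) (nat_lit 4) (nat_lit 232)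 (nat_lit 282) (nat_lit 266))) (PT.nd (nat_lit 78) (PT.lf (nat_lit 33060) (nat_lit 6) (nat_lit 435) (nat_lit 4) (nat_lit 233) (nat_lit 282) (nat_lit 265)) (PT.nd (nat_lit 78) (PT.lf (nat_lit 33972) (nat_lit 6) (nat_lit 447) (nat_lit 4) (nat_lit 234) (nat_lit 282) (nat_lit 264)) (PT.lf (nat_lit 35036) (nat_lit 6) (nat_lit 461) (nat_lit 4) (nat_lit 235) (nat_lit 282) (nat_lit 263))))))))
noncomputable def pc95 : PT := (PT.nd (nat_lit 1326) (PT.nd (nat_lit 624) (PT.nd (nat_lit 312) (PT.nd (nat_lit 156) (PT.nd (nat_lit 78) (PT.lf (nat_lit 36860) (nat_lit 6) (nat_lit 485) (nat_lit 4) (nat_lit 236) (nat_lit 282) (nat_lit 262)) (PT.lf (nat_lit 38608) (nat_lit 6) (nat_lit 508) (nat_lit 4) (nat_lit 237) (nat_lit 282) (nat_lit 261))) (PT.nd (nat_lit 78) (PT.lf (nat_lit 40280) (nat_lit 6) (nat_lit 530) (nat_lit 4) (nat_lit 238) (nat_lit 282) (nat_lit 260)) (PT.lf (nat_lit 40204) (nat_lit 6) (nat_lit 529) (nat_lit 4) (nat_lit 239) (nat_lit 282) (nat_lit 259)))) (PT.nd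 (nat_lit 156) (PT.nd (nat_lit 78) (PT.lf (nat_lit 40128) (nat_lit 6) (nat_lit 528) (nat_lit 4) (nat_lit 240) (nat_lit 282) (nat_lit 258)) (PT.lf (nat_lit 40052) (nat_lit 6) (nat_lit 527) (nat_lit 4) (nat_lit 241) (nat_lit 282) (nat_lit 257))) (PT.nd (nat_lit 78) (PT.lf (nat_lit 39976) (nat_lit 6) (nat_lit 526) (nat_lit 4) (nat_lit 242) (nat_lit 282) (nat_lit 256)) (PT.lf (nat_lit 39900) (nat_lit 6) (nat_lit 525) (nat_lit 4) (nat_lit 243) (nat_lit 282) (nat_lit 255))))) (PT.nd (nat_lit 312) (PT.nd (nat_lit 156) (PT.nd (nat_lit 78) (PT.lf (nat_lit 39824) (nat_lit 6) (nat_lit 524) (nat_lit 4) (nat_lit 244) (nat_lit 282) (nat_lit 254)) (PT.lf (nat_lit 39748) (nat_lit 6) (nat_lit 523) (nat_lit 4) (nat_lit 245) (nat_lit 282) (nat_lit 253))) (PT.nd (nat_lit 78) (PT.lf (nat_lit 39672) (nat_lit 6) (nat_lit 522) (nat_lit 4) (nat_lit 246) (nat_lit 282) (nat_lit 252)) (PT.lf (nat_lit 39596) (nat_lit 6) (nat_lit 521) (nat_lit 4) (nat_lit 247) (nat_lit 282) (nat_lit 251))))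 (PT.nd (nat_lit 156) (PT.nd (nat_lit 78) (PT.lf (nat_lit 39520) (nat_lit 6) (nat_lit 520) (nat_lit 4) (nat_lit 248) (nat_lit 282) (nat_lit 250)) (PT.lf (nat_lit 39444) (nat_lit 3) (nat_lit 519) (nat_lit 2) (nat_lit 249) (nat_lit 282) (nat_lit 249))) (PT.nd (nat_lit 78) (PT.lf (nat_lit 39520) (nat_lit 6) (nat_lit 520) (nat_lit 2) (nat_lit 250) (nat_lit 282) (nat_lit 248)) (PT.nd (nat_lit 78) (PT.lf (nat_lit 39596) (nat_lit 6) (nat_lit 521) (nat_lit 2) (nat_lit 251) (nat_lit 282) (nat_lit 247)) (PT.lf (nat_lit 39672) (nat_lit 6) (nat_lit 522) (nat_lit 2) (nat_lit 252) (nat_lit 282) (nat_lit 246))))))) (PT.nd (nat_lit 702) (PT.nd (nat_lit 312) (PT.nd (nat_lit 156) (PT.nd (nat_lit 78) (PT.lf (nat_lit 39748) (nat_lit 6) (nat_lit 523) (nat_lit 2) (nat_lit 253) (nat_lit 282) (nat_lit 245)) (PT.lf (nat_lit 39824) (nat_lit 6) (nat_lit 524) (nat_lit 2) (nat_lit 254) (nat_lit 282) (nat_lit 244))) (PT.nd (nat_lit 78) (PT.lf (nat_lit 39900) (nat_lit 6) (nat_lit 525) (nat_lit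 2) (nat_lit 255) (nat_lit 282) (nat_lit 243)) (PT.lf (nat_lit 39976) (nat_lit 6) (nat_lit 526) (nat_lit 2) (nat_lit 256) (nat_lit 282) (nat_lit 242)))) (PT.nd (nat_lit 156) (PT.nd (nat_lit 78) (PT.lf (nat_lit 40052) (nat_lit 6) (nat_lit 527) (nat_lit 2) (nat_lit 257) (nat_lit 282) (nat_lit 241)) (PT.lf (nat_lit 40128) (nat_lit 6) (nat_lit 528) (nat_lit 2) (nat_lit 258) (nat_lit 282) (nat_lit 240))) (PT.nd (nat_lit 78) (PT.lf (nat_lit 40204) (nat_lit 6) (nat_lit 529) (nat_lit 2) (nat_lit 259) (nat_lit 282) (nat_lit 239)) (PT.nd (nat_lit 78) (PT.lf (nat_lit 40280) (nat_lit 6) (nat_lit 530) (nat_lit 2) (nat_lit 260) (nat_lit 282) (nat_lit 238)) (PT.lf (nat_lit 38608) (nat_lit 6) (nat_lit 508) (nat_lit 2) (nat_lit 261) (nat_lit 282) (nat_lit 237)))))) (PT.nd (nat_lit 312) (PT.nd (nat_lit 156) (PT.nd (nat_lit 78) (PT.lf (nat_lit 36860) (nat_lit 6) (nat_lit 485) (nat_lit 2) (nat_lit 262) (nat_lit 282) (nat_lit 236)) (PT.lf (nat_lit 35036) (nat_lit 6) (nat_lit 461)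 (nat_lit 2) (nat_lit 263) (nat_lit 282) (nat_lit 235))) (PT.nd (nat_lit 78) (PT.lf (nat_lit 33972) (nat_lit 6) (nat_lit 447) (nat_lit 2) (nat_lit 264) (nat_lit 282) (nat_lit 234)) (PT.lf (nat_lit 33060) (nat_lit 6) (nat_lit 435) (nat_lit 2) (nat_lit 265) (nat_lit 282) (nat_lit 233)))) (PT.nd (nat_lit 156) (PT.nd (nat_lit 78) (PT.lf (nat_lit 32148) (nat_lit 6) (nat_lit 423) (nat_lit 2) (nat_lit 266) (nat_lit 282) (nat_lit 232)) (PT.lf (nat_lit 31312) (nat_lit 6) (nat_lit 412) (nat_lit 2) (nat_lit 267) (nat_lit 282) (nat_lit 231))) (PT.nd (nat_lit 78) (PT.lf (nat_lit 30476) (nat_lit 6) (nat_lit 401) (nat_lit 2) (nat_lit 268) (nat_lit 282) (nat_lit 230)) (PT.nd (nat_lit 78) (PT.lf (nat_lit 29640) (nat_lit 6) (nat_lit 390) (nat_lit 2) (nat_lit 269) (nat_lit 282) (nat_lit 229)) (PT.lf (nat_lit 28804) (nat_lit 6) (nat_lit 379) (nat_lit 2) (nat_lit 270) (nat_lit 282) (nat_lit 228))))))))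
noncomputable def pc96 : PT := (PT.nd (nat_lit 1326) (PT.nd (nat_lit 624) (PT.nd (nat_lit 312) (PT.nd (nat_lit 156) (PT.nd (nat_lit 78) (PT.lf (nat_lit 28044) (nat_lit 6) (nat_lit 369) (nat_lit 2) (nat_lit 271) (nat_lit 282) (nat_lit 227)) (PT.lf (nat_lit 27284) (nat_lit 6) (nat_lit 359) (nat_lit 2) (nat_lit 272) (nat_lit 282) (nat_lit 226))) (PT.nd (nat_lit 78) (PT.lf (nat_lit 26600) (nat_lit 6) (nat_lit 350) (nat_lit 2) (nat_lit 273) (nat_lit 282) (nat_lit 225)) (PT.lf (nat_lit 25840) (nat_lit 6) (nat_lit 340) (nat_lit 2) (nat_lit 274) (nat_lit 282) (nat_lit 224)))) (PT.nd (nat_lit 156) (PT.nd (nat_lit 78) (PT.lf (nat_lit 25156) (nat_lit 6) (nat_lit 331) (nat_lit 2) (nat_lit 275) (nat_lit 282) (nat_lit 223)) (PT.lf (nat_lit 24472) (nat_lit 6) (nat_lit 322) (nat_lit 2) (nat_lit 276) (nat_lit 282) (nat_lit 222))) (PT.nd (nat_lit 78) (PT.lf (nat_lit 23864) (nat_lit 6) (nat_lit 314) (nat_lit 2) (nat_lit 277) (nat_lit 282) (nat_lit 221)) (PT.lf (nat_lit 23180)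 (nat_lit 6) (nat_lit 305) (nat_lit 2) (nat_lit 278) (nat_lit 282) (nat_lit 220))))) (PT.nd (nat_lit 312) (PT.nd (nat_lit 156) (PT.nd (nat_lit 78) (PT.lf (nat_lit 22572) (nat_lit 6) (nat_lit 297) (nat_lit 2) (nat_lit 279) (nat_lit 282) (nat_lit 219)) (PT.lf (nat_lit 21964) (nat_lit 6) (nat_lit 289) (nat_lit 2) (nat_lit 280) (nat_lit 282) (nat_lit 218))) (PT.nd (nat_lit 78) (PT.lf (nat_lit 21356) (nat_lit 6) (nat_lit 281) (nat_lit 2) (nat_lit 281) (nat_lit 282) (nat_lit 217)) (PT.lf (nat_lit 20748) (nat_lit 3) (nat_lit 273) (nat_lit 0) (nat_lit 282) (nat_lit 282) (nat_lit 216)))) (PT.nd (nat_lit 156) (PT.nd (nat_lit 78) (PT.lf (nat_lit 20140) (nat_lit 6) (nat_lit 265) (nat_lit 0) (nat_lit 283) (nat_lit 282) (nat_lit 215)) (PT.lf (nat_lit 19532) (nat_lit 6) (nat_lit 257) (nat_lit 0) (nat_lit 284) (nat_lit 282) (nat_lit 214))) (PT.nd (nat_lit 78) (PT.lf (nat_lit 18924) (nat_lit 6) (nat_lit 249) (nat_lit 0) (nat_lit 285) (nat_lit 282) (nat_lit 213)) (PT.nd (nat_lit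 78) (PT.lf (nat_lit 18316) (nat_lit 6) (nat_lit 241) (nat_lit 0) (nat_lit 286) (nat_lit 282) (nat_lit 212)) (PT.lf (nat_lit 17784) (nat_lit 6) (nat_lit 234) (nat_lit 0) (nat_lit 287) (nat_lit 282) (nat_lit 211))))))) (PT.nd (nat_lit 74802) (PT.nd (nat_lit 312) (PT.nd (nat_lit 156) (PT.nd (nat_lit 78) (PT.lf (nat_lit 17176) (nat_lit 6) (nat_lit 226) (nat_lit 0) (nat_lit 288) (nat_lit 282) (nat_lit 210)) (PT.lf (nat_lit 16644) (nat_lit 6) (nat_lit 219) (nat_lit 0) (nat_lit 289) (nat_lit 282) (nat_lit 209))) (PT.nd (nat_lit 78) (PT.lf (nat_lit 16112) (nat_lit 6) (nat_lit 212) (nat_lit 0) (nat_lit 290) (nat_lit 282) (nat_lit 208)) (PT.lf (nat_lit 15580) (nat_lit 6) (nat_lit 205) (nat_lit 0) (nat_lit 291) (nat_lit 282) (nat_lit 207)))) (PT.nd (nat_lit 74334) (PT.nd (nat_lit 78) (PT.lf (nat_lit 15048) (nat_lit 6) (nat_lit 198) (nat_lit 0) (nat_lit 292) (nat_lit 282) (nat_lit 206)) (PT.lf (nat_lit 14592) (nat_lit 6) (nat_lit 192) (nat_lit 0) (nat_lit 293) (nat_lit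 282) (nat_lit 205))) (PT.nd (nat_lit 78) (PT.lf (nat_lit 14136) (nat_lit 6) (nat_lit 186) (nat_lit 5) (nat_lit 204) (nat_lit 283) (nat_lit 293)) (PT.lf (nat_lit 14668) (nat_lit 6) (nat_lit 193) (nat_lit 5) (nat_lit 205) (nat_lit 283) (nat_lit 292))))) (PT.nd (nat_lit 312) (PT.nd (nat_lit 156) (PT.nd (nat_lit 78) (PT.lf (nat_lit 15124) (nat_lit 6) (nat_lit 199) (nat_lit 5) (nat_lit 206) (nat_lit 283) (nat_lit 291)) (PT.lf (nat_lit 15656) (nat_lit 6) (nat_lit 206) (nat_lit 5) (nat_lit 207) (nat_lit 283) (nat_lit 290))) (PT.nd (nat_lit 78) (PT.lf (nat_lit 16188) (nat_lit 6) (nat_lit 213) (nat_lit 5) (nat_lit 208) (nat_lit 283) (nat_lit 289)) (PT.lf (nat_lit 16720) (nat_lit 6) (nat_lit 220) (nat_lit 5) (nat_lit 209) (nat_lit 283) (nat_lit 288)))) (PT.nd (nat_lit 156) (PT.nd (nat_lit 78) (PT.lf (nat_lit 17252) (nat_lit 6) (nat_lit 227) (nat_lit 5) (nat_lit 210) (nat_lit 283) (nat_lit 287)) (PT.lf (nat_lit 17860) (nat_lit 6) (nat_lit 235) (nat_lit 5) (nat_lit 211)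 (nat_lit 283) (nat_lit 286))) (PT.nd (nat_lit 78) (PT.lf (nat_lit 18392) (nat_lit 6) (nat_lit 242) (nat_lit 5) (nat_lit 212) (nat_lit 283) (nat_lit 285)) (PT.nd (nat_lit 78) (PT.lf (nat_lit 19000) (nat_lit 6) (nat_lit 250) (nat_lit 5) (nat_lit 213) (nat_lit 283) (nat_lit 284)) (PT.lf (nat_lit 19608) (nat_lit 3) (nat_lit 258) (nat_lit 4) (nat_lit 214) (nat_lit 283) (nat_lit 283))))))))
noncomputable def pc97 : PT := (PT.nd (nat_lit 1326) (PT.nd (nat_lit 624) (PT.nd (nat_lit 312) (PT.nd (nat_lit 156) (PT.nd (nat_lit 78) (PT.lf (nat_lit 20140) (nat_lit 6) (nat_lit 265) (nat_lit 4) (nat_lit 215) (nat_lit 283) (nat_lit 282)) (PT.lf (nat_lit 20672) (nat_lit 6) (nat_lit 272) (nat_lit 4) (nat_lit 216) (nat_lit 283) (nat_lit 281))) (PT.nd (nat_lit 78) (PT.lf (nat_lit 21280) (nat_lit 6) (nat_lit 280) (nat_lit 4) (nat_lit 217) (nat_lit 283) (nat_lit 280)) (PT.lf (nat_lit 21888) (nat_lit 6) (nat_lit 288) (nat_lit 4) (nat_lit 218) (nat_lit 283) (nat_lit 279)))) (PT.nd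 (nat_lit 156) (PT.nd (nat_lit 78) (PT.lf (nat_lit 22496) (nat_lit 6) (nat_lit 296) (nat_lit 4) (nat_lit 219) (nat_lit 283) (nat_lit 278)) (PT.lf (nat_lit 23104) (nat_lit 6) (nat_lit 304) (nat_lit 4) (nat_lit 220) (nat_lit 283) (nat_lit 277))) (PT.nd (nat_lit 78) (PT.lf (nat_lit 23788) (nat_lit 6) (nat_lit 313) (nat_lit 4) (nat_lit 221) (nat_lit 283) (nat_lit 276)) (PT.lf (nat_lit 24396) (nat_lit 6) (nat_lit 321) (nat_lit 4) (nat_lit 222) (nat_lit 283) (nat_lit 275))))) (PT.nd (nat_lit 312) (PT.nd (nat_lit 156) (PT.nd (nat_lit 78) (PT.lf (nat_lit 25080) (nat_lit 6) (nat_lit 330) (nat_lit 4) (nat_lit 223) (nat_lit 283) (nat_lit 274)) (PT.lf (nat_lit 25764) (nat_lit 6) (nat_lit 339) (nat_lit 4) (nat_lit 224) (nat_lit 283) (nat_lit 273))) (PT.nd (nat_lit 78) (PT.lf (nat_lit 26524) (nat_lit 6) (nat_lit 349) (nat_lit 4) (nat_lit 225) (nat_lit 283) (nat_lit 272)) (PT.lf (nat_lit 27208) (nat_lit 6) (nat_lit 358) (nat_lit 4) (nat_lit 226) (nat_lit 283) (nat_lit 271))))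 (PT.nd (nat_lit 156) (PT.nd (nat_lit 78) (PT.lf (nat_lit 27968) (nat_lit 6) (nat_lit 368) (nat_lit 4) (nat_lit 227) (nat_lit 283) (nat_lit 270)) (PT.lf (nat_lit 28728) (nat_lit 6) (nat_lit 378) (nat_lit 4) (nat_lit 228) (nat_lit 283) (nat_lit 269))) (PT.nd (nat_lit 78) (PT.lf (nat_lit 29564) (nat_lit 6) (nat_lit 389) (nat_lit 4) (nat_lit 229) (nat_lit 283) (nat_lit 268)) (PT.nd (nat_lit 78) (PT.lf (nat_lit 30400) (nat_lit 6) (nat_lit 400) (nat_lit 4) (nat_lit 230) (nat_lit 283) (nat_lit 267)) (PT.lf (nat_lit 31236) (nat_lit 6) (nat_lit 411) (nat_lit 4) (nat_lit 231) (nat_lit 283) (nat_lit 266))))))) (PT.nd (nat_lit 624) (PT.nd (nat_lit 312) (PT.nd (nat_lit 156) (PT.nd (nat_lit 78) (PT.lf (nat_lit 32072) (nat_lit 6) (nat_lit 422) (nat_lit 4) (nat_lit 232) (nat_lit 283) (nat_lit 265)) (PT.lf (nat_lit 32984) (nat_lit 6) (nat_lit 434) (nat_lit 4) (nat_lit 233) (nat_lit 283) (nat_lit 264))) (PT.nd (nat_lit 78) (PT.lf (nat_lit 33896) (nat_lit 6) (nat_lit 446) (nat_lit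 4) (nat_lit 234) (nat_lit 283) (nat_lit 263)) (PT.lf (nat_lit 34960) (nat_lit 6) (nat_lit 460) (nat_lit 4) (nat_lit 235) (nat_lit 283) (nat_lit 262)))) (PT.nd (nat_lit 156) (PT.nd (nat_lit 78) (PT.lf (nat_lit 36784) (nat_lit 6) (nat_lit 484) (nat_lit 4) (nat_lit 236) (nat_lit 283) (nat_lit 261)) (PT.lf (nat_lit 38532) (nat_lit 6) (nat_lit 507) (nat_lit 4) (nat_lit 237) (nat_lit 283) (nat_lit 260))) (PT.nd (nat_lit 78) (PT.lf (nat_lit 38456) (nat_lit 6) (nat_lit 506) (nat_lit 4) (nat_lit 238) (nat_lit 283) (nat_lit 259)) (PT.lf (nat_lit 38380) (nat_lit 6) (nat_lit 505) (nat_lit 4) (nat_lit 239) (nat_lit 283) (nat_lit 258))))) (PT.nd (nat_lit 312) (PT.nd (nat_lit 156) (PT.nd (nat_lit 78) (PT.lf (nat_lit 38304) (nat_lit 6) (nat_lit 504) (nat_lit 4) (nat_lit 240) (nat_lit 283) (nat_lit 257)) (PT.lf (nat_lit 38228) (nat_lit 6) (nat_lit 503) (nat_lit 4) (nat_lit 241) (nat_lit 283) (nat_lit 256))) (PT.nd (nat_lit 78) (PT.lf (nat_lit 38152) (nat_lit 6) (nat_lit 502)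 (nat_lit 4) (nat_lit 242) (nat_lit 283) (nat_lit 255)) (PT.lf (nat_lit 38076) (nat_lit 6) (nat_lit 501) (nat_lit 4) (nat_lit 243) (nat_lit 283) (nat_lit 254)))) (PT.nd (nat_lit 156) (PT.nd (nat_lit 78) (PT.lf (nat_lit 38000) (nat_lit 6) (nat_lit 500) (nat_lit 4) (nat_lit 244) (nat_lit 283) (nat_lit 253)) (PT.lf (nat_lit 37924) (nat_lit 6) (nat_lit 499) (nat_lit 4) (nat_lit 245) (nat_lit 283) (nat_lit 252))) (PT.nd (nat_lit 78) (PT.lf (nat_lit 37848) (nat_lit 6) (nat_lit 498) (nat_lit 4) (nat_lit 246) (nat_lit 283) (nat_lit 251)) (PT.nd (nat_lit 78) (PT.lf (nat_lit 37772) (nat_lit 6) (nat_lit 497) (nat_lit 4) (nat_lit 247) (nat_lit 283) (nat_lit 250)) (PT.lf (nat_lit 37696) (nat_lit 6) (nat_lit 496) (nat_lit 4) (nat_lit 248) (nat_lit 283) (nat_lit 249))))))))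
noncomputable def pc98 : PT := (PT.nd (nat_lit 1326) (PT.nd (nat_lit 624) (PT.nd (nat_lit 312) (PT.nd (nat_lit 156) (PT.nd (nat_lit 78) (PT.lf (nat_lit 37696) (nat_lit 6) (nat_lit 496) (nat_lit 2) (nat_lit 249) (nat_lit 283) (nat_lit 248)) (PT.lf (nat_lit 37772) (nat_lit 6) (nat_lit 497) (nat_lit 2) (nat_lit 250) (nat_lit 283) (nat_lit 247))) (PT.nd (nat_lit 78) (PT.lf (nat_lit 37848) (nat_lit 6) (nat_lit 498) (nat_lit 2) (nat_lit 251) (nat_lit 283) (nat_lit 246)) (PT.lf (nat_lit 37924) (nat_lit 6) (nat_lit 499) (nat_lit 2) (nat_lit 252) (nat_lit 283) (nat_lit 245)))) (PT.nd (nat_lit 156) (PT.nd (nat_lit 78) (PT.lf (nat_lit 38000) (nat_lit 6) (nat_lit 500) (nat_lit 2) (nat_lit 253) (nat_lit 283) (nat_lit 244)) (PT.lf (nat_lit 38076) (nat_lit 6) (nat_lit 501) (nat_lit 2) (nat_lit 254) (nat_lit 283) (nat_lit 243))) (PT.nd (nat_lit 78) (PT.lf (nat_lit 38152) (nat_lit 6) (nat_lit 502) (nat_lit 2) (nat_lit 255) (nat_lit 283) (nat_lit 242)) (PT.lf (nat_lit 38228)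 (nat_lit 6) (nat_lit 503) (nat_lit 2) (nat_lit 256) (nat_lit 283) (nat_lit 241))))) (PT.nd (nat_lit 312) (PT.nd (nat_lit 156) (PT.nd (nat_lit 78) (PT.lf (nat_lit 38304) (nat_lit 6) (nat_lit 504) (nat_lit 2) (nat_lit 257) (nat_lit 283) (nat_lit 240)) (PT.lf (nat_lit 38380) (nat_lit 6) (nat_lit 505) (nat_lit 2) (nat_lit 258) (nat_lit 283) (nat_lit 239))) (PT.nd (nat_lit 78) (PT.lf (nat_lit 38456) (nat_lit 6) (nat_lit 506) (nat_lit 2) (nat_lit 259) (nat_lit 283) (nat_lit 238)) (PT.lf (nat_lit 38532) (nat_lit 6) (nat_lit 507) (nat_lit 2) (nat_lit 260) (nat_lit 283) (nat_lit 237)))) (PT.nd (nat_lit 156) (PT.nd (nat_lit 78) (PT.lf (nat_lit 36784) (nat_lit 6) (nat_lit 484) (nat_lit 2) (nat_lit 261) (nat_lit 283) (nat_lit 236)) (PT.lf (nat_lit 34960) (nat_lit 6) (nat_lit 460) (nat_lit 2) (nat_lit 262) (nat_lit 283) (nat_lit 235))) (PT.nd (nat_lit 78) (PT.lf (nat_lit 33896) (nat_lit 6) (nat_lit 446) (nat_lit 2) (nat_lit 263) (nat_lit 283) (nat_lit 234)) (PT.nd (nat_lit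 78) (PT.lf (nat_lit 32984) (nat_lit 6) (nat_lit 434) (nat_lit 2) (nat_lit 264) (nat_lit 283) (nat_lit 233)) (PT.lf (nat_lit 32072) (nat_lit 6) (nat_lit 422) (nat_lit 2) (nat_lit 265) (nat_lit 283) (nat_lit 232))))))) (PT.nd (nat_lit 624) (PT.nd (nat_lit 312) (PT.nd (nat_lit 156) (PT.nd (nat_lit 78) (PT.lf (nat_lit 31236) (nat_lit 6) (nat_lit 411) (nat_lit 2) (nat_lit 266) (nat_lit 283) (nat_lit 231)) (PT.lf (nat_lit 30400) (nat_lit 6) (nat_lit 400) (nat_lit 2) (nat_lit 267) (nat_lit 283) (nat_lit 230))) (PT.nd (nat_lit 78) (PT.lf (nat_lit 29564) (nat_lit 6) (nat_lit 389) (nat_lit 2) (nat_lit 268) (nat_lit 283) (nat_lit 229)) (PT.lf (nat_lit 28728) (nat_lit 6) (nat_lit 378) (nat_lit 2) (nat_lit 269) (nat_lit 283) (nat_lit 228)))) (PT.nd (nat_lit 156) (PT.nd (nat_lit 78) (PT.lf (nat_lit 27968) (nat_lit 6) (nat_lit 368) (nat_lit 2) (nat_lit 270) (nat_lit 283) (nat_lit 227)) (PT.lf (nat_lit 27208) (nat_lit 6) (nat_lit 358) (nat_lit 2) (nat_lit 271) (nat_lit 283)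 (nat_lit 226))) (PT.nd (nat_lit 78) (PT.lf (nat_lit 26524) (nat_lit 6) (nat_lit 349) (nat_lit 2) (nat_lit 272) (nat_lit 283) (nat_lit 225)) (PT.lf (nat_lit 25764) (nat_lit 6) (nat_lit 339) (nat_lit 2) (nat_lit 273) (nat_lit 283) (nat_lit 224))))) (PT.nd (nat_lit 312) (PT.nd (nat_lit 156) (PT.nd (nat_lit 78) (PT.lf (nat_lit 25080) (nat_lit 6) (nat_lit 330) (nat_lit 2) (nat_lit 274) (nat_lit 283) (nat_lit 223)) (PT.lf (nat_lit 24396) (nat_lit 6) (nat_lit 321) (nat_lit 2) (nat_lit 275) (nat_lit 283) (nat_lit 222))) (PT.nd (nat_lit 78) (PT.lf (nat_lit 23788) (nat_lit 6) (nat_lit 313) (nat_lit 2) (nat_lit 276) (nat_lit 283) (nat_lit 221)) (PT.lf (nat_lit 23104) (nat_lit 6) (nat_lit 304) (nat_lit 2) (nat_lit 277) (nat_lit 283) (nat_lit 220)))) (PT.nd (nat_lit 156) (PT.nd (nat_lit 78) (PT.lf (nat_lit 22496) (nat_lit 6) (nat_lit 296) (nat_lit 2) (nat_lit 278) (nat_lit 283) (nat_lit 219)) (PT.lf (nat_lit 21888) (nat_lit 6) (nat_lit 288) (nat_lit 2) (nat_lit 279) (nat_lit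 283) (nat_lit 218))) (PT.nd (nat_lit 78) (PT.lf (nat_lit 21280) (nat_lit 6) (nat_lit 280) (nat_lit 2) (nat_lit 280) (nat_lit 283) (nat_lit 217)) (PT.nd (nat_lit 78) (PT.lf (nat_lit 20672) (nat_lit 6) (nat_lit 272) (nat_lit 2) (nat_lit 281) (nat_lit 283) (nat_lit 216)) (PT.lf (nat_lit 20140) (nat_lit 6) (nat_lit 265) (nat_lit 2) (nat_lit 282) (nat_lit 283) (nat_lit 215))))))))
noncomputable def pc99 : PT := (PT.nd (nat_lit 75348) (PT.nd (nat_lit 624) (PT.nd (nat_lit 312) (PT.nd (nat_lit 156) (PT.nd (nat_lit 78) (PT.lf (nat_lit 19608) (nat_lit 3) (nat_lit 258) (nat_lit 0) (nat_lit 283) (nat_lit 283) (nat_lit 214)) (PT.lf (nat_lit 19000) (nat_lit 6) (nat_lit 250) (nat_lit 0) (nat_lit 284) (nat_lit 283) (nat_lit 213))) (PT.nd (nat_lit 78) (PT.lf (nat_lit 18392) (nat_lit 6) (nat_lit 242) (nat_lit 0) (nat_lit 285) (nat_lit 283) (nat_lit 212)) (PT.lf (nat_lit 17860) (nat_lit 6) (nat_lit 235) (nat_lit 0) (nat_lit 286) (nat_lit 283) (nat_lit 211)))) (PT.nd (nat_lit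 156) (PT.nd (nat_lit 78) (PT.lf (nat_lit 17252) (nat_lit 6) (nat_lit 227) (nat_lit 0) (nat_lit 287) (nat_lit 283) (nat_lit 210)) (PT.lf (nat_lit 16720) (nat_lit 6) (nat_lit 220) (nat_lit 0) (nat_lit 288) (nat_lit 283) (nat_lit 209))) (PT.nd (nat_lit 78) (PT.lf (nat_lit 16188) (nat_lit 6) (nat_lit 213) (nat_lit 0) (nat_lit 289) (nat_lit 283) (nat_lit 208)) (PT.lf (nat_lit 15656) (nat_lit 6) (nat_lit 206) (nat_lit 0) (nat_lit 290) (nat_lit 283) (nat_lit 207))))) (PT.nd (nat_lit 74334) (PT.nd (nat_lit 156) (PT.nd (nat_lit 78) (PT.lf (nat_lit 15124) (nat_lit 6) (nat_lit 199) (nat_lit 0) (nat_lit 291) (nat_lit 283) (nat_lit 206)) (PT.lf (nat_lit 14668) (nat_lit 6) (nat_lit 193) (nat_lit 0) (nat_lit 292) (nat_lit 283) (nat_lit 205))) (PT.nd (nat_lit 74100) (PT.lf (nat_lit 14136) (nat_lit 6) (nat_lit 186) (nat_lit 0) (nat_lit 293) (nat_lit 283) (nat_lit 204)) (PT.lf (nat_lit 13300) (nat_lit 6) (nat_lit 175) (nat_lit 5) (nat_lit 202) (nat_lit 284) (nat_lit 294))))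 (PT.nd (nat_lit 156) (PT.nd (nat_lit 78) (PT.lf (nat_lit 13756) (nat_lit 6) (nat_lit 181) (nat_lit 5) (nat_lit 203) (nat_lit 284) (nat_lit 293)) (PT.lf (nat_lit 14212) (nat_lit 6) (nat_lit 187) (nat_lit 5) (nat_lit 204) (nat_lit 284) (nat_lit 292))) (PT.nd (nat_lit 78) (PT.lf (nat_lit 14744) (nat_lit 6) (nat_lit 194) (nat_lit 5) (nat_lit 205) (nat_lit 284) (nat_lit 291)) (PT.nd (nat_lit 78) (PT.lf (nat_lit 15200) (nat_lit 6) (nat_lit 200) (nat_lit 5) (nat_lit 206) (nat_lit 284) (nat_lit 290)) (PT.lf (nat_lit 15732) (nat_lit 6) (nat_lit 207) (nat_lit 5) (nat_lit 207) (nat_lit 284) (nat_lit 289))))))) (PT.nd (nat_lit 702) (PT.nd (nat_lit 312) (PT.nd (nat_lit 156) (PT.nd (nat_lit 78) (PT.lf (nat_lit 16264) (nat_lit 6) (nat_lit 214) (nat_lit 5) (nat_lit 208) (nat_lit 284) (nat_lit 288)) (PT.lf (nat_lit 16796) (nat_lit 6) (nat_lit 221) (nat_lit 5) (nat_lit 209) (nat_lit 284) (nat_lit 287))) (PT.nd (nat_lit 78) (PT.lf (nat_lit 17328) (nat_lit 6) (nat_lit 228) (nat_lit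 5) (nat_lit 210) (nat_lit 284) (nat_lit 286)) (PT.lf (nat_lit 17936) (nat_lit 6) (nat_lit 236) (nat_lit 5) (nat_lit 211) (nat_lit 284) (nat_lit 285)))) (PT.nd (nat_lit 156) (PT.nd (nat_lit 78) (PT.lf (nat_lit 18468) (nat_lit 3) (nat_lit 243) (nat_lit 4) (nat_lit 212) (nat_lit 284) (nat_lit 284)) (PT.lf (nat_lit 19000) (nat_lit 6) (nat_lit 250) (nat_lit 4) (nat_lit 213) (nat_lit 284) (nat_lit 283))) (PT.nd (nat_lit 78) (PT.lf (nat_lit 19532) (nat_lit 6) (nat_lit 257) (nat_lit 4) (nat_lit 214) (nat_lit 284) (nat_lit 282)) (PT.nd (nat_lit 78) (PT.lf (nat_lit 20064) (nat_lit 6) (nat_lit 264) (nat_lit 4) (nat_lit 215) (nat_lit 284) (nat_lit 281)) (PT.lf (nat_lit 20596) (nat_lit 6) (nat_lit 271) (nat_lit 4) (nat_lit 216) (nat_lit 284) (nat_lit 280)))))) (PT.nd (nat_lit 312) (PT.nd (nat_lit 156) (PT.nd (nat_lit 78) (PT.lf (nat_lit 21204) (nat_lit 6) (nat_lit 279) (nat_lit 4) (nat_lit 217) (nat_lit 284) (nat_lit 279)) (PT.lf (nat_lit 21812) (nat_lit 6) (nat_lit 287)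 (nat_lit 4) (nat_lit 218) (nat_lit 284) (nat_lit 278))) (PT.nd (nat_lit 78) (PT.lf (nat_lit 22420) (nat_lit 6) (nat_lit 295) (nat_lit 4) (nat_lit 219) (nat_lit 284) (nat_lit 277)) (PT.lf (nat_lit 23028) (nat_lit 6) (nat_lit 303) (nat_lit 4) (nat_lit 220) (nat_lit 284) (nat_lit 276)))) (PT.nd (nat_lit 156) (PT.nd (nat_lit 78) (PT.lf (nat_lit 23712) (nat_lit 6) (nat_lit 312) (nat_lit 4) (nat_lit 221) (nat_lit 284) (nat_lit 275)) (PT.lf (nat_lit 24320) (nat_lit 6) (nat_lit 320) (nat_lit 4) (nat_lit 222) (nat_lit 284) (nat_lit 274))) (PT.nd (nat_lit 78) (PT.lf (nat_lit 25004) (nat_lit 6) (nat_lit 329) (nat_lit 4) (nat_lit 223) (nat_lit 284) (nat_lit 273)) (PT.nd (nat_lit 78) (PT.lf (nat_lit 25688) (nat_lit 6) (nat_lit 338) (nat_lit 4) (nat_lit 224) (nat_lit 284) (nat_lit 272)) (PT.lf (nat_lit 26448) (nat_lit 6) (nat_lit 348) (nat_lit 4) (nat_lit 225) (nat_lit 284) (nat_lit 271))))))))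
noncomputable def pc100 : PT := (PT.nd (nat_lit 1326) (PT.nd (nat_lit 624) (PT.nd (nat_lit 312) (PT.nd (nat_lit 156) (PT.nd (nat_lit 78) (PT.lf (nat_lit 27132) (nat_lit 6) (nat_lit 357) (nat_lit 4) (nat_lit 226) (nat_lit 284) (nat_lit 270)) (PT.lf (nat_lit 27892) (nat_lit 6) (nat_lit 367) (nat_lit 4) (nat_lit 227) (nat_lit 284) (nat_lit 269))) (PT.nd (nat_lit 78) (PT.lf (nat_lit 28652) (nat_lit 6) (nat_lit 377) (nat_lit 4) (nat_lit 228) (nat_lit 284) (nat_lit 268)) (PT.lf (nat_lit 29488) (nat_lit 6) (nat_lit 388) (nat_lit 4) (nat_lit 229) (nat_lit 284) (nat_lit 267)))) (PT.nd (nat_lit 156) (PT.nd (nat_lit 78) (PT.lf (nat_lit 30324) (nat_lit 6) (nat_lit 399) (nat_lit 4) (nat_lit 230) (nat_lit 284) (nat_lit 266)) (PT.lf (nat_lit 31160) (nat_lit 6) (nat_lit 410) (nat_lit 4) (nat_lit 231) (nat_lit 284) (nat_lit 265))) (PT.nd (nat_lit 78) (PT.lf (nat_lit 31996) (nat_lit 6) (nat_lit 421) (nat_lit 4) (nat_lit 232) (nat_lit 284) (nat_lit 264)) (PT.lf (nat_lit 32908)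 (nat_lit 6) (nat_lit 433) (nat_lit 4) (nat_lit 233) (nat_lit 284) (nat_lit 263))))) (PT.nd (nat_lit 312) (PT.nd (nat_lit 156) (PT.nd (nat_lit 78) (PT.lf (nat_lit 33820) (nat_lit 6) (nat_lit 445) (nat_lit 4) (nat_lit 234) (nat_lit 284) (nat_lit 262)) (PT.lf (nat_lit 34884) (nat_lit 6) (nat_lit 459) (nat_lit 4) (nat_lit 235) (nat_lit 284) (nat_lit 261))) (PT.nd (nat_lit 78) (PT.lf (nat_lit 36708) (nat_lit 6) (nat_lit 483) (nat_lit 4) (nat_lit 236) (nat_lit 284) (nat_lit 260)) (PT.lf (nat_lit 36632) (nat_lit 6) (nat_lit 482) (nat_lit 4) (nat_lit 237) (nat_lit 284) (nat_lit 259)))) (PT.nd (nat_lit 156) (PT.nd (nat_lit 78) (PT.lf (nat_lit 36556) (nat_lit 6) (nat_lit 481) (nat_lit 4) (nat_lit 238) (nat_lit 284) (nat_lit 258)) (PT.lf (nat_lit 36480) (nat_lit 6) (nat_lit 480) (nat_lit 4) (nat_lit 239) (nat_lit 284) (nat_lit 257))) (PT.nd (nat_lit 78) (PT.lf (nat_lit 36404) (nat_lit 6) (nat_lit 479) (nat_lit 4) (nat_lit 240) (nat_lit 284) (nat_lit 256)) (PT.nd (nat_lit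 78) (PT.lf (nat_lit 36328) (nat_lit 6) (nat_lit 478) (nat_lit 4) (nat_lit 241) (nat_lit 284) (nat_lit 255)) (PT.lf (nat_lit 36252) (nat_lit 6) (nat_lit 477) (nat_lit 4) (nat_lit 242) (nat_lit 284) (nat_lit 254))))))) (PT.nd (nat_lit 624) (PT.nd (nat_lit 312) (PT.nd (nat_lit 156) (PT.nd (nat_lit 78) (PT.lf (nat_lit 36176) (nat_lit 6) (nat_lit 476) (nat_lit 4) (nat_lit 243) (nat_lit 284) (nat_lit 253)) (PT.lf (nat_lit 36100) (nat_lit 6) (nat_lit 475) (nat_lit 4) (nat_lit 244) (nat_lit 284) (nat_lit 252))) (PT.nd (nat_lit 78) (PT.lf (nat_lit 36024) (nat_lit 6) (nat_lit 474) (nat_lit 4) (nat_lit 245) (nat_lit 284) (nat_lit 251)) (PT.lf (nat_lit 35948) (nat_lit 6) (nat_lit 473) (nat_lit 4) (nat_lit 246) (nat_lit 284) (nat_lit 250)))) (PT.nd (nat_lit 156) (PT.nd (nat_lit 78) (PT.lf (nat_lit 35872) (nat_lit 6) (nat_lit 472) (nat_lit 4) (nat_lit 247) (nat_lit 284) (nat_lit 249)) (PT.lf (nat_lit 35796) (nat_lit 3) (nat_lit 471) (nat_lit 2) (nat_lit 248) (nat_lit 284)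 (nat_lit 248))) (PT.nd (nat_lit 78) (PT.lf (nat_lit 35872) (nat_lit 6) (nat_lit 472) (nat_lit 2) (nat_lit 249) (nat_lit 284) (nat_lit 247)) (PT.lf (nat_lit 35948) (nat_lit 6) (nat_lit 473) (nat_lit 2) (nat_lit 250) (nat_lit 284) (nat_lit 246))))) (PT.nd (nat_lit 312) (PT.nd (nat_lit 156) (PT.nd (nat_lit 78) (PT.lf (nat_lit 36024) (nat_lit 6) (nat_lit 474) (nat_lit 2) (nat_lit 251) (nat_lit 284) (nat_lit 245)) (PT.lf (nat_lit 36100) (nat_lit 6) (nat_lit 475) (nat_lit 2) (nat_lit 252) (nat_lit 284) (nat_lit 244))) (PT.nd (nat_lit 78) (PT.lf (nat_lit 36176) (nat_lit 6) (nat_lit 476) (nat_lit 2) (nat_lit 253) (nat_lit 284) (nat_lit 243)) (PT.lf (nat_lit 36252) (nat_lit 6) (nat_lit 477) (nat_lit 2) (nat_lit 254) (nat_lit 284) (nat_lit 242)))) (PT.nd (nat_lit 156) (PT.nd (nat_lit 78) (PT.lf (nat_lit 36328) (nat_lit 6) (nat_lit 478) (nat_lit 2) (nat_lit 255) (nat_lit 284) (nat_lit 241)) (PT.lf (nat_lit 36404) (nat_lit 6) (nat_lit 479) (nat_lit 2) (nat_lit 256) (nat_lit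 284) (nat_lit 240))) (PT.nd (nat_lit 78) (PT.lf (nat_lit 36480) (nat_lit 6) (nat_lit 480) (nat_lit 2) (nat_lit 257) (nat_lit 284) (nat_lit 239)) (PT.nd (nat_lit 78) (PT.lf (nat_lit 36556) (nat_lit 6) (nat_lit 481) (nat_lit 2) (nat_lit 258) (nat_lit 284) (nat_lit 238)) (PT.lf (nat_lit 36632) (nat_lit 6) (nat_lit 482) (nat_lit 2) (nat_lit 259) (nat_lit 284) (nat_lit 237))))))))
noncomputable def pc101 : PT := (PT.nd (nat_lit 1326) (PT.nd (nat_lit 624) (PT.nd (nat_lit 312) (PT.nd (nat_lit 156) (PT.nd (nat_lit 78) (PT.lf (nat_lit 36708) (nat_lit 6) (nat_lit 483) (nat_lit 2) (nat_lit 260) (nat_lit 284) (nat_lit 236)) (PT.lf (nat_lit 34884) (nat_lit 6) (nat_lit 459) (nat_lit 2) (nat_lit 261) (nat_lit 284) (nat_lit 235))) (PT.nd (nat_lit 78) (PT.lf (nat_lit 33820) (nat_lit 6) (nat_lit 445) (nat_lit 2) (nat_lit 262) (nat_lit 284) (nat_lit 234)) (PT.lf (nat_lit 32908) (nat_lit 6) (nat_lit 433) (nat_lit 2) (nat_lit 263) (nat_lit 284) (nat_lit 233)))) (PT.nd (nat_lit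 156) (PT.nd (nat_lit 78) (PT.lf (nat_lit 31996) (nat_lit 6) (nat_lit 421) (nat_lit 2) (nat_lit 264) (nat_lit 284) (nat_lit 232)) (PT.lf (nat_lit 31160) (nat_lit 6) (nat_lit 410) (nat_lit 2) (nat_lit 265) (nat_lit 284) (nat_lit 231))) (PT.nd (nat_lit 78) (PT.lf (nat_lit 30324) (nat_lit 6) (nat_lit 399) (nat_lit 2) (nat_lit 266) (nat_lit 284) (nat_lit 230)) (PT.lf (nat_lit 29488) (nat_lit 6) (nat_lit 388) (nat_lit 2) (nat_lit 267) (nat_lit 284) (nat_lit 229))))) (PT.nd (nat_lit 312) (PT.nd (nat_lit 156) (PT.nd (nat_lit 78) (PT.lf (nat_lit 28652) (nat_lit 6) (nat_lit 377) (nat_lit 2) (nat_lit 268) (nat_lit 284) (nat_lit 228)) (PT.lf (nat_lit 27892) (nat_lit 6) (nat_lit 367) (nat_lit 2) (nat_lit 269) (nat_lit 284) (nat_lit 227))) (PT.nd (nat_lit 78) (PT.lf (nat_lit 27132) (nat_lit 6) (nat_lit 357) (nat_lit 2) (nat_lit 270) (nat_lit 284) (nat_lit 226)) (PT.lf (nat_lit 26448) (nat_lit 6) (nat_lit 348) (nat_lit 2) (nat_lit 271) (nat_lit 284) (nat_lit 225)))) (PT.nd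 (nat_lit 156) (PT.nd (nat_lit 78) (PT.lf (nat_lit 25688) (nat_lit 6) (nat_lit 338) (nat_lit 2) (nat_lit 272) (nat_lit 284) (nat_lit 224)) (PT.lf (nat_lit 25004) (nat_lit 6) (nat_lit 329) (nat_lit 2) (nat_lit 273) (nat_lit 284) (nat_lit 223))) (PT.nd (nat_lit 78) (PT.lf (nat_lit 24320) (nat_lit 6) (nat_lit 320) (nat_lit 2) (nat_lit 274) (nat_lit 284) (nat_lit 222)) (PT.nd (nat_lit 78) (PT.lf (nat_lit 23712) (nat_lit 6) (nat_lit 312) (nat_lit 2) (nat_lit 275) (nat_lit 284) (nat_lit 221)) (PT.lf (nat_lit 23028) (nat_lit 6) (nat_lit 303) (nat_lit 2) (nat_lit 276) (nat_lit 284) (nat_lit 220))))))) (PT.nd (nat_lit 624) (PT.nd (nat_lit 312) (PT.nd (nat_lit 156) (PT.nd (nat_lit 78) (PT.lf (nat_lit 22420) (nat_lit 6) (nat_lit 295) (nat_lit 2) (nat_lit 277) (nat_lit 284) (nat_lit 219)) (PT.lf (nat_lit 21812) (nat_lit 6) (nat_lit 287) (nat_lit 2) (nat_lit 278) (nat_lit 284) (nat_lit 218))) (PT.nd (nat_lit 78) (PT.lf (nat_lit 21204) (nat_lit 6) (nat_lit 279) (nat_lit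 2) (nat_lit 279) (nat_lit 284) (nat_lit 217)) (PT.lf (nat_lit 20596) (nat_lit 6) (nat_lit 271) (nat_lit 2) (nat_lit 280) (nat_lit 284) (nat_lit 216)))) (PT.nd (nat_lit 156) (PT.nd (nat_lit 78) (PT.lf (nat_lit 20064) (nat_lit 6) (nat_lit 264) (nat_lit 2) (nat_lit 281) (nat_lit 284) (nat_lit 215)) (PT.lf (nat_lit 19532) (nat_lit 6) (nat_lit 257) (nat_lit 2) (nat_lit 282) (nat_lit 284) (nat_lit 214))) (PT.nd (nat_lit 78) (PT.lf (nat_lit 19000) (nat_lit 6) (nat_lit 250) (nat_lit 2) (nat_lit 283) (nat_lit 284) (nat_lit 213)) (PT.lf (nat_lit 18468) (nat_lit 3) (nat_lit 243) (nat_lit 0) (nat_lit 284) (nat_lit 284) (nat_lit 212))))) (PT.nd (nat_lit 312) (PT.nd (nat_lit 156) (PT.nd (nat_lit 78) (PT.lf (nat_lit 17936) (nat_lit 6) (nat_lit 236) (nat_lit 0) (nat_lit 285) (nat_lit 284) (nat_lit 211)) (PT.lf (nat_lit 17328) (nat_lit 6) (nat_lit 228) (nat_lit 0) (nat_lit 286) (nat_lit 284) (nat_lit 210))) (PT.nd (nat_lit 78) (PT.lf (nat_lit 16796) (nat_lit 6) (nat_lit 221)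 (nat_lit 0) (nat_lit 287) (nat_lit 284) (nat_lit 209)) (PT.lf (nat_lit 16264) (nat_lit 6) (nat_lit 214) (nat_lit 0) (nat_lit 288) (nat_lit 284) (nat_lit 208)))) (PT.nd (nat_lit 156) (PT.nd (nat_lit 78) (PT.lf (nat_lit 15732) (nat_lit 6) (nat_lit 207) (nat_lit 0) (nat_lit 289) (nat_lit 284) (nat_lit 207)) (PT.lf (nat_lit 15200) (nat_lit 6) (nat_lit 200) (nat_lit 0) (nat_lit 290) (nat_lit 284) (nat_lit 206))) (PT.nd (nat_lit 78) (PT.lf (nat_lit 14744) (nat_lit 6) (nat_lit 194) (nat_lit 0) (nat_lit 291) (nat_lit 284) (nat_lit 205)) (PT.nd (nat_lit 78) (PT.lf (nat_lit 14212) (nat_lit 6) (nat_lit 187) (nat_lit 0) (nat_lit 292) (nat_lit 284) (nat_lit 204)) (PT.lf (nat_lit 13756) (nat_lit 6) (nat_lit 181) (nat_lit 0) (nat_lit 293) (nat_lit 284) (nat_lit 203))))))))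
noncomputable def pc102 : PT := (PT.nd (nat_lit 75114) (PT.nd (nat_lit 74412) (PT.nd (nat_lit 74100) (PT.nd (nat_lit 73944) (PT.nd (nat_lit 73866) (PT.lf (nat_lit 13300) (nat_lit 6) (nat_lit 175) (nat_lit 0) (nat_lit 294) (nat_lit 284) (nat_lit 202)) (PT.lf (nat_lit 12464) (nat_lit 6) (nat_lit 164) (nat_lit 5) (nat_lit 200) (nat_lit 285) (nat_lit 295))) (PT.nd (nat_lit 78) (PT.lf (nat_lit 12920) (nat_lit 6) (nat_lit 170) (nat_lit 5) (nat_lit 201) (nat_lit 285) (nat_lit 294)) (PT.lf (nat_lit 13376) (nat_lit 6) (nat_lit 176) (nat_lit 5) (nat_lit 202) (nat_lit 285) (nat_lit 293)))) (PT.nd (nat_lit 156) (PT.nd (nat_lit 78) (PT.lf (nat_lit 13832) (nat_lit 6) (nat_lit 182) (nat_lit 5) (nat_lit 203) (nat_lit 285) (nat_lit 292)) (PT.lf (nat_lit 14288) (nat_lit 6) (nat_lit 188) (nat_lit 5) (nat_lit 204) (nat_lit 285) (nat_lit 291))) (PT.nd (nat_lit 78) (PT.lf (nat_lit 14820) (nat_lit 6) (nat_lit 195) (nat_lit 5) (nat_lit 205) (nat_lit 285) (nat_lit 290)) (PT.lf (nat_lit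 15276) (nat_lit 6) (nat_lit 201) (nat_lit 5) (nat_lit 206) (nat_lit 285) (nat_lit 289))))) (PT.nd (nat_lit 312) (PT.nd (nat_lit 156) (PT.nd (nat_lit 78) (PT.lf (nat_lit 15808) (nat_lit 6) (nat_lit 208) (nat_lit 5) (nat_lit 207) (nat_lit 285) (nat_lit 288)) (PT.lf (nat_lit 16340) (nat_lit 6) (nat_lit 215) (nat_lit 5) (nat_lit 208) (nat_lit 285) (nat_lit 287))) (PT.nd (nat_lit 78) (PT.lf (nat_lit 16872) (nat_lit 6) (nat_lit 222) (nat_lit 5) (nat_lit 209) (nat_lit 285) (nat_lit 286)) (PT.lf (nat_lit 17404) (nat_lit 3) (nat_lit 229) (nat_lit 4) (nat_lit 210) (nat_lit 285) (nat_lit 285)))) (PT.nd (nat_lit 156) (PT.nd (nat_lit 78) (PT.lf (nat_lit 17936) (nat_lit 6) (nat_lit 236) (nat_lit 4) (nat_lit 211) (nat_lit 285) (nat_lit 284)) (PT.lf (nat_lit 18392) (nat_lit 6) (nat_lit 242) (nat_lit 4) (nat_lit 212) (nat_lit 285) (nat_lit 283))) (PT.nd (nat_lit 78) (PT.lf (nat_lit 18924) (nat_lit 6) (nat_lit 249) (nat_lit 4) (nat_lit 213) (nat_lit 285) (nat_lit 282)) (PT.nd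 (nat_lit 78) (PT.lf (nat_lit 19456) (nat_lit 6) (nat_lit 256) (nat_lit 4) (nat_lit 214) (nat_lit 285) (nat_lit 281)) (PT.lf (nat_lit 19988) (nat_lit 6) (nat_lit 263) (nat_lit 4) (nat_lit 215) (nat_lit 285) (nat_lit 280))))))) (PT.nd (nat_lit 624) (PT.nd (nat_lit 312) (PT.nd (nat_lit 156) (PT.nd (nat_lit 78) (PT.lf (nat_lit 20520) (nat_lit 6) (nat_lit 270) (nat_lit 4) (nat_lit 216) (nat_lit 285) (nat_lit 279)) (PT.lf (nat_lit 21128) (nat_lit 6) (nat_lit 278) (nat_lit 4) (nat_lit 217) (nat_lit 285) (nat_lit 278))) (PT.nd (nat_lit 78) (PT.lf (nat_lit 21736) (nat_lit 6) (nat_lit 286) (nat_lit 4) (nat_lit 218) (nat_lit 285) (nat_lit 277)) (PT.lf (nat_lit 22344) (nat_lit 6) (nat_lit 294) (nat_lit 4) (nat_lit 219) (nat_lit 285) (nat_lit 276)))) (PT.nd (nat_lit 156) (PT.nd (nat_lit 78) (PT.lf (nat_lit 22952) (nat_lit 6) (nat_lit 302) (nat_lit 4) (nat_lit 220) (nat_lit 285) (nat_lit 275)) (PT.lf (nat_lit 23636) (nat_lit 6) (nat_lit 311) (nat_lit 4) (nat_lit 221) (nat_lit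 285) (nat_lit 274))) (PT.nd (nat_lit 78) (PT.lf (nat_lit 24244) (nat_lit 6) (nat_lit 319) (nat_lit 4) (nat_lit 222) (nat_lit 285) (nat_lit 273)) (PT.lf (nat_lit 24928) (nat_lit 6) (nat_lit 328) (nat_lit 4) (nat_lit 223) (nat_lit 285) (nat_lit 272))))) (PT.nd (nat_lit 312) (PT.nd (nat_lit 156) (PT.nd (nat_lit 78) (PT.lf (nat_lit 25612) (nat_lit 6) (nat_lit 337) (nat_lit 4) (nat_lit 224) (nat_lit 285) (nat_lit 271)) (PT.lf (nat_lit 26372) (nat_lit 6) (nat_lit 347) (nat_lit 4) (nat_lit 225) (nat_lit 285) (nat_lit 270))) (PT.nd (nat_lit 78) (PT.lf (nat_lit 27056) (nat_lit 6) (nat_lit 356) (nat_lit 4) (nat_lit 226) (nat_lit 285) (nat_lit 269)) (PT.lf (nat_lit 27816) (nat_lit 6) (nat_lit 366) (nat_lit 4) (nat_lit 227) (nat_lit 285) (nat_lit 268)))) (PT.nd (nat_lit 156) (PT.nd (nat_lit 78) (PT.lf (nat_lit 28576) (nat_lit 6) (nat_lit 376) (nat_lit 4) (nat_lit 228) (nat_lit 285) (nat_lit 267)) (PT.lf (nat_lit 29412) (nat_lit 6) (nat_lit 387) (nat_lit 4) (nat_lit 229)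 (nat_lit 285) (nat_lit 266))) (PT.nd (nat_lit 78) (PT.lf (nat_lit 30248) (nat_lit 6) (nat_lit 398) (nat_lit 4) (nat_lit 230) (nat_lit 285) (nat_lit 265)) (PT.nd (nat_lit 78) (PT.lf (nat_lit 31084) (nat_lit 6) (nat_lit 409) (nat_lit 4) (nat_lit 231) (nat_lit 285) (nat_lit 264)) (PT.lf (nat_lit 31920) (nat_lit 6) (nat_lit 420) (nat_lit 4) (nat_lit 232) (nat_lit 285) (nat_lit 263))))))))
noncomputable def pc103 : PT := (PT.nd (nat_lit 3042) (PT.nd (nat_lit 2340) (PT.nd (nat_lit 2028) (PT.nd (nat_lit 156) (PT.nd (nat_lit 78) (PT.lf (nat_lit 32832) (nat_lit 6) (nat_lit 432) (nat_lit 4) (nat_lit 233) (nat_lit 285) (nat_lit 262)) (PT.lf (nat_lit 33744) (nat_lit 6) (nat_lit 444) (nat_lit 4) (nat_lit 234) (nat_lit 285) (nat_lit 261))) (PT.nd (nat_lit 78) (PT.lf (nat_lit 34808) (nat_lit 6) (nat_lit 458) (nat_lit 4) (nat_lit 235) (nat_lit 285) (nat_lit 260)) (PT.lf (nat_lit 34732) (nat_lit 6) (nat_lit 457) (nat_lit 4) (nat_lit 236) (nat_lit 285) (nat_lit 259)))) (PT.nd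 (nat_lit 156) (PT.nd (nat_lit 78) (PT.lf (nat_lit 34732) (nat_lit 6) (nat_lit 457) (nat_lit 2) (nat_lit 259) (nat_lit 285) (nat_lit 236)) (PT.lf (nat_lit 34808) (nat_lit 6) (nat_lit 458) (nat_lit 2) (nat_lit 260) (nat_lit 285) (nat_lit 235))) (PT.nd (nat_lit 78) (PT.lf (nat_lit 33744) (nat_lit 6) (nat_lit 444) (nat_lit 2) (nat_lit 261) (nat_lit 285) (nat_lit 234)) (PT.lf (nat_lit 32832) (nat_lit 6) (nat_lit 432) (nat_lit 2) (nat_lit 262) (nat_lit 285) (nat_lit 233))))) (PT.nd (nat_lit 312) (PT.nd (nat_lit 156) (PT.nd (nat_lit 78) (PT.lf (nat_lit 31920) (nat_lit 6) (nat_lit 420) (nat_lit 2) (nat_lit 263) (nat_lit 285) (nat_lit 232)) (PT.lf (nat_lit 31084) (nat_lit 6) (nat_lit 409) (nat_lit 2) (nat_lit 264) (nat_lit 285) (nat_lit 231))) (PT.nd (nat_lit 78) (PT.lf (nat_lit 30248) (nat_lit 6) (nat_lit 398) (nat_lit 2) (nat_lit 265) (nat_lit 285) (nat_lit 230)) (PT.lf (nat_lit 29412) (nat_lit 6) (nat_lit 387) (nat_lit 2) (nat_lit 266) (nat_lit 285) (nat_lit 229))))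 (PT.nd (nat_lit 156) (PT.nd (nat_lit 78) (PT.lf (nat_lit 28576) (nat_lit 6) (nat_lit 376) (nat_lit 2) (nat_lit 267) (nat_lit 285) (nat_lit 228)) (PT.lf (nat_lit 27816) (nat_lit 6) (nat_lit 366) (nat_lit 2) (nat_lit 268) (nat_lit 285) (nat_lit 227))) (PT.nd (nat_lit 78) (PT.lf (nat_lit 27056) (nat_lit 6) (nat_lit 356) (nat_lit 2) (nat_lit 269) (nat_lit 285) (nat_lit 226)) (PT.nd (nat_lit 78) (PT.lf (nat_lit 26372) (nat_lit 6) (nat_lit 347) (nat_lit 2) (nat_lit 270) (nat_lit 285) (nat_lit 225)) (PT.lf (nat_lit 25612) (nat_lit 6) (nat_lit 337) (nat_lit 2) (nat_lit 271) (nat_lit 285) (nat_lit 224))))))) (PT.nd (nat_lit 702) (PT.nd (nat_lit 312) (PT.nd (nat_lit 156) (PT.nd (nat_lit 78) (PT.lf (nat_lit 24928) (nat_lit 6) (nat_lit 328) (nat_lit 2) (nat_lit 272) (nat_lit 285) (nat_lit 223)) (PT.lf (nat_lit 24244) (nat_lit 6) (nat_lit 319) (nat_lit 2) (nat_lit 273) (nat_lit 285) (nat_lit 222))) (PT.nd (nat_lit 78) (PT.lf (nat_lit 23636) (nat_lit 6) (nat_lit 311) (nat_lit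 2) (nat_lit 274) (nat_lit 285) (nat_lit 221)) (PT.lf (nat_lit 22952) (nat_lit 6) (nat_lit 302) (nat_lit 2) (nat_lit 275) (nat_lit 285) (nat_lit 220)))) (PT.nd (nat_lit 156) (PT.nd (nat_lit 78) (PT.lf (nat_lit 22344) (nat_lit 6) (nat_lit 294) (nat_lit 2) (nat_lit 276) (nat_lit 285) (nat_lit 219)) (PT.lf (nat_lit 21736) (nat_lit 6) (nat_lit 286) (nat_lit 2) (nat_lit 277) (nat_lit 285) (nat_lit 218))) (PT.nd (nat_lit 78) (PT.lf (nat_lit 21128) (nat_lit 6) (nat_lit 278) (nat_lit 2) (nat_lit 278) (nat_lit 285) (nat_lit 217)) (PT.nd (nat_lit 78) (PT.lf (nat_lit 20520) (nat_lit 6) (nat_lit 270) (nat_lit 2) (nat_lit 279) (nat_lit 285) (nat_lit 216)) (PT.lf (nat_lit 19988) (nat_lit 6) (nat_lit 263) (nat_lit 2) (nat_lit 280) (nat_lit 285) (nat_lit 215)))))) (PT.nd (nat_lit 312) (PT.nd (nat_lit 156) (PT.nd (nat_lit 78) (PT.lf (nat_lit 19456) (nat_lit 6) (nat_lit 256) (nat_lit 2) (nat_lit 281) (nat_lit 285) (nat_lit 214)) (PT.lf (nat_lit 18924) (nat_lit 6) (nat_lit 249)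 (nat_lit 2) (nat_lit 282) (nat_lit 285) (nat_lit 213))) (PT.nd (nat_lit 78) (PT.lf (nat_lit 18392) (nat_lit 6) (nat_lit 242) (nat_lit 2) (nat_lit 283) (nat_lit 285) (nat_lit 212)) (PT.lf (nat_lit 17936) (nat_lit 6) (nat_lit 236) (nat_lit 2) (nat_lit 284) (nat_lit 285) (nat_lit 211)))) (PT.nd (nat_lit 156) (PT.nd (nat_lit 78) (PT.lf (nat_lit 17404) (nat_lit 3) (nat_lit 229) (nat_lit 0) (nat_lit 285) (nat_lit 285) (nat_lit 210)) (PT.lf (nat_lit 16872) (nat_lit 6) (nat_lit 222) (nat_lit 0) (nat_lit 286) (nat_lit 285) (nat_lit 209))) (PT.nd (nat_lit 78) (PT.lf (nat_lit 16340) (nat_lit 6) (nat_lit 215) (nat_lit 0) (nat_lit 287) (nat_lit 285) (nat_lit 208)) (PT.nd (nat_lit 78) (PT.lf (nat_lit 15808) (nat_lit 6) (nat_lit 208) (nat_lit 0) (nat_lit 288) (nat_lit 285) (nat_lit 207)) (PT.lf (nat_lit 15276) (nat_lit 6) (nat_lit 201) (nat_lit 0) (nat_lit 289) (nat_lit 285) (nat_lit 206))))))))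
noncomputable def pc104 : PT := (PT.nd (nat_lit 74958) (PT.nd (nat_lit 74256) (PT.nd (nat_lit 312) (PT.nd (nat_lit 156) (PT.nd (nat_lit 78) (PT.lf (nat_lit 14820) (nat_lit 6) (nat_lit 195) (nat_lit 0) (nat_lit 290) (nat_lit 285) (nat_lit 205)) (PT.lf (nat_lit 14288) (nat_lit 6) (nat_lit 188) (nat_lit 0) (nat_lit 291) (nat_lit 285) (nat_lit 204))) (PT.nd (nat_lit 78) (PT.lf (nat_lit 13832) (nat_lit 6) (nat_lit 182) (nat_lit 0) (nat_lit 292) (nat_lit 285) (nat_lit 203)) (PT.lf (nat_lit 13376) (nat_lit 6) (nat_lit 176) (nat_lit 0) (nat_lit 293) (nat_lit 285) (nat_lit 202)))) (PT.nd (nat_lit 73788) (PT.nd (nat_lit 78) (PT.lf (nat_lit 12920) (nat_lit 6) (nat_lit 170) (nat_lit 0) (nat_lit 294) (nat_lit 285) (nat_lit 201)) (PT.lf (nat_lit 12464) (nat_lit 6) (nat_lit 164) (nat_lit 0) (nat_lit 295) (nat_lit 285) (nat_lit 200))) (PT.nd (nat_lit 78) (PT.lf (nat_lit 12084) (nat_lit 6) (nat_lit 159) (nat_lit 5) (nat_lit 199) (nat_lit 286) (nat_lit 295)) (PT.lf (nat_lit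 12540) (nat_lit 6) (nat_lit 165) (nat_lit 5) (nat_lit 200) (nat_lit 286) (nat_lit 294))))) (PT.nd (nat_lit 312) (PT.nd (nat_lit 156) (PT.nd (nat_lit 78) (PT.lf (nat_lit 12996) (nat_lit 6) (nat_lit 171) (nat_lit 5) (nat_lit 201) (nat_lit 286) (nat_lit 293)) (PT.lf (nat_lit 13452) (nat_lit 6) (nat_lit 177) (nat_lit 5) (nat_lit 202) (nat_lit 286) (nat_lit 292))) (PT.nd (nat_lit 78) (PT.lf (nat_lit 13908) (nat_lit 6) (nat_lit 183) (nat_lit 5) (nat_lit 203) (nat_lit 286) (nat_lit 291)) (PT.lf (nat_lit 14364) (nat_lit 6) (nat_lit 189) (nat_lit 5) (nat_lit 204) (nat_lit 286) (nat_lit 290)))) (PT.nd (nat_lit 156) (PT.nd (nat_lit 78) (PT.lf (nat_lit 14896) (nat_lit 6) (nat_lit 196) (nat_lit 5) (nat_lit 205) (nat_lit 286) (nat_lit 289)) (PT.lf (nat_lit 15352) (nat_lit 6) (nat_lit 202) (nat_lit 5) (nat_lit 206) (nat_lit 286) (nat_lit 288))) (PT.nd (nat_lit 78) (PT.lf (nat_lit 15884) (nat_lit 6) (nat_lit 209) (nat_lit 5) (nat_lit 207) (nat_lit 286) (nat_lit 287)) (PT.nd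 (nat_lit 78) (PT.lf (nat_lit 16416) (nat_lit 3) (nat_lit 216) (nat_lit 4) (nat_lit 208) (nat_lit 286) (nat_lit 286)) (PT.lf (nat_lit 16872) (nat_lit 6) (nat_lit 222) (nat_lit 4) (nat_lit 209) (nat_lit 286) (nat_lit 285))))))) (PT.nd (nat_lit 624) (PT.nd (nat_lit 312) (PT.nd (nat_lit 156) (PT.nd (nat_lit 78) (PT.lf (nat_lit 17328) (nat_lit 6) (nat_lit 228) (nat_lit 4) (nat_lit 210) (nat_lit 286) (nat_lit 284)) (PT.lf (nat_lit 17860) (nat_lit 6) (nat_lit 235) (nat_lit 4) (nat_lit 211) (nat_lit 286) (nat_lit 283))) (PT.nd (nat_lit 78) (PT.lf (nat_lit 18316) (nat_lit 6) (nat_lit 241) (nat_lit 4) (nat_lit 212) (nat_lit 286) (nat_lit 282)) (PT.lf (nat_lit 18848) (nat_lit 6) (nat_lit 248) (nat_lit 4) (nat_lit 213) (nat_lit 286) (nat_lit 281)))) (PT.nd (nat_lit 156) (PT.nd (nat_lit 78) (PT.lf (nat_lit 19380) (nat_lit 6) (nat_lit 255) (nat_lit 4) (nat_lit 214) (nat_lit 286) (nat_lit 280)) (PT.lf (nat_lit 19912) (nat_lit 6) (nat_lit 262) (nat_lit 4) (nat_lit 215) (nat_lit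 286) (nat_lit 279))) (PT.nd (nat_lit 78) (PT.lf (nat_lit 20444) (nat_lit 6) (nat_lit 269) (nat_lit 4) (nat_lit 216) (nat_lit 286) (nat_lit 278)) (PT.lf (nat_lit 21052) (nat_lit 6) (nat_lit 277) (nat_lit 4) (nat_lit 217) (nat_lit 286) (nat_lit 277))))) (PT.nd (nat_lit 312) (PT.nd (nat_lit 156) (PT.nd (nat_lit 78) (PT.lf (nat_lit 21660) (nat_lit 6) (nat_lit 285) (nat_lit 4) (nat_lit 218) (nat_lit 286) (nat_lit 276)) (PT.lf (nat_lit 22268) (nat_lit 6) (nat_lit 293) (nat_lit 4) (nat_lit 219) (nat_lit 286) (nat_lit 275))) (PT.nd (nat_lit 78) (PT.lf (nat_lit 22876) (nat_lit 6) (nat_lit 301) (nat_lit 4) (nat_lit 220) (nat_lit 286) (nat_lit 274)) (PT.lf (nat_lit 23560) (nat_lit 6) (nat_lit 310) (nat_lit 4) (nat_lit 221) (nat_lit 286) (nat_lit 273)))) (PT.nd (nat_lit 156) (PT.nd (nat_lit 78) (PT.lf (nat_lit 24168) (nat_lit 6) (nat_lit 318) (nat_lit 4) (nat_lit 222) (nat_lit 286) (nat_lit 272)) (PT.lf (nat_lit 24852) (nat_lit 6) (nat_lit 327) (nat_lit 4) (nat_lit 223)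 (nat_lit 286) (nat_lit 271))) (PT.nd (nat_lit 78) (PT.lf (nat_lit 25536) (nat_lit 6) (nat_lit 336) (nat_lit 4) (nat_lit 224) (nat_lit 286) (nat_lit 270)) (PT.nd (nat_lit 78) (PT.lf (nat_lit 26296) (nat_lit 6) (nat_lit 346) (nat_lit 4) (nat_lit 225) (nat_lit 286) (nat_lit 269)) (PT.lf (nat_lit 26980) (nat_lit 6) (nat_lit 355) (nat_lit 4) (nat_lit 226) (nat_lit 286) (nat_lit 268))))))))
noncomputable def pc105 : PT := (PT.nd (nat_lit 3900) (PT.nd (nat_lit 3198) (PT.nd (nat_lit 2886) (PT.nd (nat_lit 156) (PT.nd (nat_lit 78) (PT.lf (nat_lit 27740) (nat_lit 6) (nat_lit 365) (nat_lit 4) (nat_lit 227) (nat_lit 286) (nat_lit 267)) (PT.lf (nat_lit 28500) (nat_lit 6) (nat_lit 375) (nat_lit 4) (nat_lit 228) (nat_lit 286) (nat_lit 266))) (PT.nd (nat_lit 78) (PT.lf (nat_lit 29336) (nat_lit 6) (nat_lit 386) (nat_lit 4) (nat_lit 229) (nat_lit 286) (nat_lit 265)) (PT.lf (nat_lit 30172) (nat_lit 6) (nat_lit 397) (nat_lit 4) (nat_lit 230) (nat_lit 286) (nat_lit 264)))) (PT.nd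 (nat_lit 156) (PT.nd (nat_lit 78) (PT.lf (nat_lit 30172) (nat_lit 6) (nat_lit 397) (nat_lit 2) (nat_lit 264) (nat_lit 286) (nat_lit 230)) (PT.lf (nat_lit 29336) (nat_lit 6) (nat_lit 386) (nat_lit 2) (nat_lit 265) (nat_lit 286) (nat_lit 229))) (PT.nd (nat_lit 78) (PT.lf (nat_lit 28500) (nat_lit 6) (nat_lit 375) (nat_lit 2) (nat_lit 266) (nat_lit 286) (nat_lit 228)) (PT.lf (nat_lit 27740) (nat_lit 6) (nat_lit 365) (nat_lit 2) (nat_lit 267) (nat_lit 286) (nat_lit 227))))) (PT.nd (nat_lit 312) (PT.nd (nat_lit 156) (PT.nd (nat_lit 78) (PT.lf (nat_lit 26980) (nat_lit 6) (nat_lit 355) (nat_lit 2) (nat_lit 268) (nat_lit 286) (nat_lit 226)) (PT.lf (nat_lit 26296) (nat_lit 6) (nat_lit 346) (nat_lit 2) (nat_lit 269) (nat_lit 286) (nat_lit 225))) (PT.nd (nat_lit 78) (PT.lf (nat_lit 25536) (nat_lit 6) (nat_lit 336) (nat_lit 2) (nat_lit 270) (nat_lit 286) (nat_lit 224)) (PT.lf (nat_lit 24852) (nat_lit 6) (nat_lit 327) (nat_lit 2) (nat_lit 271) (nat_lit 286) (nat_lit 223))))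 (PT.nd (nat_lit 156) (PT.nd (nat_lit 78) (PT.lf (nat_lit 24168) (nat_lit 6) (nat_lit 318) (nat_lit 2) (nat_lit 272) (nat_lit 286) (nat_lit 222)) (PT.lf (nat_lit 23560) (nat_lit 6) (nat_lit 310) (nat_lit 2) (nat_lit 273) (nat_lit 286) (nat_lit 221))) (PT.nd (nat_lit 78) (PT.lf (nat_lit 22876) (nat_lit 6) (nat_lit 301) (nat_lit 2) (nat_lit 274) (nat_lit 286) (nat_lit 220)) (PT.nd (nat_lit 78) (PT.lf (nat_lit 22268) (nat_lit 6) (nat_lit 293) (nat_lit 2) (nat_lit 275) (nat_lit 286) (nat_lit 219)) (PT.lf (nat_lit 21660) (nat_lit 6) (nat_lit 285) (nat_lit 2) (nat_lit 276) (nat_lit 286) (nat_lit 218))))))) (PT.nd (nat_lit 624) (PT.nd (nat_lit 312) (PT.nd (nat_lit 156) (PT.nd (nat_lit 78) (PT.lf (nat_lit 21052) (nat_lit 6) (nat_lit 277) (nat_lit 2) (nat_lit 277) (nat_lit 286) (nat_lit 217)) (PT.lf (nat_lit 20444) (nat_lit 6) (nat_lit 269) (nat_lit 2) (nat_lit 278) (nat_lit 286) (nat_lit 216))) (PT.nd (nat_lit 78) (PT.lf (nat_lit 19912) (nat_lit 6) (nat_lit 262) (nat_lit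 2) (nat_lit 279) (nat_lit 286) (nat_lit 215)) (PT.lf (nat_lit 19380) (nat_lit 6) (nat_lit 255) (nat_lit 2) (nat_lit 280) (nat_lit 286) (nat_lit 214)))) (PT.nd (nat_lit 156) (PT.nd (nat_lit 78) (PT.lf (nat_lit 18848) (nat_lit 6) (nat_lit 248) (nat_lit 2) (nat_lit 281) (nat_lit 286) (nat_lit 213)) (PT.lf (nat_lit 18316) (nat_lit 6) (nat_lit 241) (nat_lit 2) (nat_lit 282) (nat_lit 286) (nat_lit 212))) (PT.nd (nat_lit 78) (PT.lf (nat_lit 17860) (nat_lit 6) (nat_lit 235) (nat_lit 2) (nat_lit 283) (nat_lit 286) (nat_lit 211)) (PT.lf (nat_lit 17328) (nat_lit 6) (nat_lit 228) (nat_lit 2) (nat_lit 284) (nat_lit 286) (nat_lit 210))))) (PT.nd (nat_lit 312) (PT.nd (nat_lit 156) (PT.nd (nat_lit 78) (PT.lf (nat_lit 16872) (nat_lit 6) (nat_lit 222) (nat_lit 2) (nat_lit 285) (nat_lit 286) (nat_lit 209)) (PT.lf (nat_lit 16416) (nat_lit 3) (nat_lit 216) (nat_lit 0) (nat_lit 286) (nat_lit 286) (nat_lit 208))) (PT.nd (nat_lit 78) (PT.lf (nat_lit 15884) (nat_lit 6) (nat_lit 209)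 (nat_lit 0) (nat_lit 287) (nat_lit 286) (nat_lit 207)) (PT.lf (nat_lit 15352) (nat_lit 6) (nat_lit 202) (nat_lit 0) (nat_lit 288) (nat_lit 286) (nat_lit 206)))) (PT.nd (nat_lit 156) (PT.nd (nat_lit 78) (PT.lf (nat_lit 14896) (nat_lit 6) (nat_lit 196) (nat_lit 0) (nat_lit 289) (nat_lit 286) (nat_lit 205)) (PT.lf (nat_lit 14364) (nat_lit 6) (nat_lit 189) (nat_lit 0) (nat_lit 290) (nat_lit 286) (nat_lit 204))) (PT.nd (nat_lit 78) (PT.lf (nat_lit 13908) (nat_lit 6) (nat_lit 183) (nat_lit 0) (nat_lit 291) (nat_lit 286) (nat_lit 203)) (PT.nd (nat_lit 78) (PT.lf (nat_lit 13452) (nat_lit 6) (nat_lit 177) (nat_lit 0) (nat_lit 292) (nat_lit 286) (nat_lit 202)) (PT.lf (nat_lit 12996) (nat_lit 6) (nat_lit 171) (nat_lit 0) (nat_lit 293) (nat_lit 286) (nat_lit 201))))))))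
noncomputable def pc106 : PT := (PT.nd (nat_lit 74802) (PT.nd (nat_lit 74100) (PT.nd (nat_lit 73788) (PT.nd (nat_lit 73632) (PT.nd (nat_lit 78) (PT.lf (nat_lit 12540) (nat_lit 6) (nat_lit 165) (nat_lit 0) (nat_lit 294) (nat_lit 286) (nat_lit 200)) (PT.lf (nat_lit 12084) (nat_lit 6) (nat_lit 159) (nat_lit 0) (nat_lit 295) (nat_lit 286) (nat_lit 199))) (PT.nd (nat_lit 78) (PT.lf (nat_lit 11324) (nat_lit 6) (nat_lit 149) (nat_lit 5) (nat_lit 197) (nat_lit 287) (nat_lit 296)) (PT.lf (nat_lit 11704) (nat_lit 6) (nat_lit 154) (nat_lit 5) (nat_lit 198) (nat_lit 287) (nat_lit 295)))) (PT.nd (nat_lit 156) (PT.nd (nat_lit 78) (PT.lf (nat_lit 12160) (nat_lit 6) (nat_lit 160) (nat_lit 5) (nat_lit 199) (nat_lit 287) (nat_lit 294)) (PT.lf (nat_lit 12616) (nat_lit 6) (nat_lit 166) (nat_lit 5) (nat_lit 200) (nat_lit 287) (nat_lit 293))) (PT.nd (nat_lit 78) (PT.lf (nat_lit 13072) (nat_lit 6) (nat_lit 172) (nat_lit 5) (nat_lit 201) (nat_lit 287) (nat_lit 292)) (PT.lf (nat_lit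 13528) (nat_lit 6) (nat_lit 178) (nat_lit 5) (nat_lit 202) (nat_lit 287) (nat_lit 291))))) (PT.nd (nat_lit 312) (PT.nd (nat_lit 156) (PT.nd (nat_lit 78) (PT.lf (nat_lit 13984) (nat_lit 6) (nat_lit 184) (nat_lit 5) (nat_lit 203) (nat_lit 287) (nat_lit 290)) (PT.lf (nat_lit 14440) (nat_lit 6) (nat_lit 190) (nat_lit 5) (nat_lit 204) (nat_lit 287) (nat_lit 289))) (PT.nd (nat_lit 78) (PT.lf (nat_lit 14972) (nat_lit 6) (nat_lit 197) (nat_lit 5) (nat_lit 205) (nat_lit 287) (nat_lit 288)) (PT.lf (nat_lit 15428) (nat_lit 3) (nat_lit 203) (nat_lit 4) (nat_lit 206) (nat_lit 287) (nat_lit 287)))) (PT.nd (nat_lit 156) (PT.nd (nat_lit 78) (PT.lf (nat_lit 15884) (nat_lit 6) (nat_lit 209) (nat_lit 4) (nat_lit 207) (nat_lit 287) (nat_lit 286)) (PT.lf (nat_lit 16340) (nat_lit 6) (nat_lit 215) (nat_lit 4) (nat_lit 208) (nat_lit 287) (nat_lit 285))) (PT.nd (nat_lit 78) (PT.lf (nat_lit 16796) (nat_lit 6) (nat_lit 221) (nat_lit 4) (nat_lit 209) (nat_lit 287) (nat_lit 284)) (PT.nd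 (nat_lit 78) (PT.lf (nat_lit 17252) (nat_lit 6) (nat_lit 227) (nat_lit 4) (nat_lit 210) (nat_lit 287) (nat_lit 283)) (PT.lf (nat_lit 17784) (nat_lit 6) (nat_lit 234) (nat_lit 4) (nat_lit 211) (nat_lit 287) (nat_lit 282))))))) (PT.nd (nat_lit 624) (PT.nd (nat_lit 312) (PT.nd (nat_lit 156) (PT.nd (nat_lit 78) (PT.lf (nat_lit 18240) (nat_lit 6) (nat_lit 240) (nat_lit 4) (nat_lit 212) (nat_lit 287) (nat_lit 281)) (PT.lf (nat_lit 18772) (nat_lit 6) (nat_lit 247) (nat_lit 4) (nat_lit 213) (nat_lit 287) (nat_lit 280))) (PT.nd (nat_lit 78) (PT.lf (nat_lit 19304) (nat_lit 6) (nat_lit 254) (nat_lit 4) (nat_lit 214) (nat_lit 287) (nat_lit 279)) (PT.lf (nat_lit 19836) (nat_lit 6) (nat_lit 261) (nat_lit 4) (nat_lit 215) (nat_lit 287) (nat_lit 278)))) (PT.nd (nat_lit 156) (PT.nd (nat_lit 78) (PT.lf (nat_lit 20368) (nat_lit 6) (nat_lit 268) (nat_lit 4) (nat_lit 216) (nat_lit 287) (nat_lit 277)) (PT.lf (nat_lit 20976) (nat_lit 6) (nat_lit 276) (nat_lit 4) (nat_lit 217) (nat_lit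 287) (nat_lit 276))) (PT.nd (nat_lit 78) (PT.lf (nat_lit 21584) (nat_lit 6) (nat_lit 284) (nat_lit 4) (nat_lit 218) (nat_lit 287) (nat_lit 275)) (PT.lf (nat_lit 22192) (nat_lit 6) (nat_lit 292) (nat_lit 4) (nat_lit 219) (nat_lit 287) (nat_lit 274))))) (PT.nd (nat_lit 312) (PT.nd (nat_lit 156) (PT.nd (nat_lit 78) (PT.lf (nat_lit 22800) (nat_lit 6) (nat_lit 300) (nat_lit 4) (nat_lit 220) (nat_lit 287) (nat_lit 273)) (PT.lf (nat_lit 23484) (nat_lit 6) (nat_lit 309) (nat_lit 4) (nat_lit 221) (nat_lit 287) (nat_lit 272))) (PT.nd (nat_lit 78) (PT.lf (nat_lit 24092) (nat_lit 6) (nat_lit 317) (nat_lit 4) (nat_lit 222) (nat_lit 287) (nat_lit 271)) (PT.lf (nat_lit 24776) (nat_lit 6) (nat_lit 326) (nat_lit 4) (nat_lit 223) (nat_lit 287) (nat_lit 270)))) (PT.nd (nat_lit 3432) (PT.nd (nat_lit 78) (PT.lf (nat_lit 25460) (nat_lit 6) (nat_lit 335) (nat_lit 4) (nat_lit 224) (nat_lit 287) (nat_lit 269)) (PT.lf (nat_lit 26220) (nat_lit 6) (nat_lit 345) (nat_lit 4) (nat_lit 225)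 (nat_lit 287) (nat_lit 268))) (PT.nd (nat_lit 78) (PT.lf (nat_lit 26220) (nat_lit 6) (nat_lit 345) (nat_lit 2) (nat_lit 268) (nat_lit 287) (nat_lit 225)) (PT.nd (nat_lit 78) (PT.lf (nat_lit 25460) (nat_lit 6) (nat_lit 335) (nat_lit 2) (nat_lit 269) (nat_lit 287) (nat_lit 224)) (PT.lf (nat_lit 24776) (nat_lit 6) (nat_lit 326) (nat_lit 2) (nat_lit 270) (nat_lit 287) (nat_lit 223))))))))
noncomputable def pc107 : PT := (PT.nd (nat_lit 1326) (PT.nd (nat_lit 624) (PT.nd (nat_lit 312) (PT.nd (nat_lit 156) (PT.nd (nat_lit 78) (PT.lf (nat_lit 24092) (nat_lit 6) (nat_lit 317) (nat_lit 2) (nat_lit 271) (nat_lit 287) (nat_lit 222)) (PT.lf (nat_lit 23484) (nat_lit 6) (nat_lit 309) (nat_lit 2) (nat_lit 272) (nat_lit 287) (nat_lit 221))) (PT.nd (nat_lit 78) (PT.lf (nat_lit 22800) (nat_lit 6) (nat_lit 300) (nat_lit 2) (nat_lit 273) (nat_lit 287) (nat_lit 220)) (PT.lf (nat_lit 22192) (nat_lit 6) (nat_lit 292) (nat_lit 2) (nat_lit 274) (nat_lit 287) (nat_lit 219)))) (PT.nd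 (nat_lit 156) (PT.nd (nat_lit 78) (PT.lf (nat_lit 21584) (nat_lit 6) (nat_lit 284) (nat_lit 2) (nat_lit 275) (nat_lit 287) (nat_lit 218)) (PT.lf (nat_lit 20976) (nat_lit 6) (nat_lit 276) (nat_lit 2) (nat_lit 276) (nat_lit 287) (nat_lit 217))) (PT.nd (nat_lit 78) (PT.lf (nat_lit 20368) (nat_lit 6) (nat_lit 268) (nat_lit 2) (nat_lit 277) (nat_lit 287) (nat_lit 216)) (PT.lf (nat_lit 19836) (nat_lit 6) (nat_lit 261) (nat_lit 2) (nat_lit 278) (nat_lit 287) (nat_lit 215))))) (PT.nd (nat_lit 312) (PT.nd (nat_lit 156) (PT.nd (nat_lit 78) (PT.lf (nat_lit 19304) (nat_lit 6) (nat_lit 254) (nat_lit 2) (nat_lit 279) (nat_lit 287) (nat_lit 214)) (PT.lf (nat_lit 18772) (nat_lit 6) (nat_lit 247) (nat_lit 2) (nat_lit 280) (nat_lit 287) (nat_lit 213))) (PT.nd (nat_lit 78) (PT.lf (nat_lit 18240) (nat_lit 6) (nat_lit 240) (nat_lit 2) (nat_lit 281) (nat_lit 287) (nat_lit 212)) (PT.lf (nat_lit 17784) (nat_lit 6) (nat_lit 234) (nat_lit 2) (nat_lit 282) (nat_lit 287) (nat_lit 211))))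 (PT.nd (nat_lit 156) (PT.nd (nat_lit 78) (PT.lf (nat_lit 17252) (nat_lit 6) (nat_lit 227) (nat_lit 2) (nat_lit 283) (nat_lit 287) (nat_lit 210)) (PT.lf (nat_lit 16796) (nat_lit 6) (nat_lit 221) (nat_lit 2) (nat_lit 284) (nat_lit 287) (nat_lit 209))) (PT.nd (nat_lit 78) (PT.lf (nat_lit 16340) (nat_lit 6) (nat_lit 215) (nat_lit 2) (nat_lit 285) (nat_lit 287) (nat_lit 208)) (PT.nd (nat_lit 78) (PT.lf (nat_lit 15884) (nat_lit 6) (nat_lit 209) (nat_lit 2) (nat_lit 286) (nat_lit 287) (nat_lit 207)) (PT.lf (nat_lit 15428) (nat_lit 3) (nat_lit 203) (nat_lit 0) (nat_lit 287) (nat_lit 287) (nat_lit 206))))))) (PT.nd (nat_lit 74022) (PT.nd (nat_lit 312) (PT.nd (nat_lit 156) (PT.nd (nat_lit 78) (PT.lf (nat_lit 14972) (nat_lit 6) (nat_lit 197) (nat_lit 0) (nat_lit 288) (nat_lit 287) (nat_lit 205)) (PT.lf (nat_lit 14440) (nat_lit 6) (nat_lit 190) (nat_lit 0) (nat_lit 289) (nat_lit 287) (nat_lit 204))) (PT.nd (nat_lit 78) (PT.lf (nat_lit 13984) (nat_lit 6) (nat_lit 184)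 (nat_lit 0) (nat_lit 290) (nat_lit 287) (nat_lit 203)) (PT.lf (nat_lit 13528) (nat_lit 6) (nat_lit 178) (nat_lit 0) (nat_lit 291) (nat_lit 287) (nat_lit 202)))) (PT.nd (nat_lit 156) (PT.nd (nat_lit 78) (PT.lf (nat_lit 13072) (nat_lit 6) (nat_lit 172) (nat_lit 0) (nat_lit 292) (nat_lit 287) (nat_lit 201)) (PT.lf (nat_lit 12616) (nat_lit 6) (nat_lit 166) (nat_lit 0) (nat_lit 293) (nat_lit 287) (nat_lit 200))) (PT.nd (nat_lit 78) (PT.lf (nat_lit 12160) (nat_lit 6) (nat_lit 160) (nat_lit 0) (nat_lit 294) (nat_lit 287) (nat_lit 199)) (PT.nd (nat_lit 78) (PT.lf (nat_lit 11704) (nat_lit 6) (nat_lit 154) (nat_lit 0) (nat_lit 295) (nat_lit 287) (nat_lit 198)) (PT.lf (nat_lit 11324) (nat_lit 6) (nat_lit 149) (nat_lit 0) (nat_lit 296) (nat_lit 287) (nat_lit 197)))))) (PT.nd (nat_lit 312) (PT.nd (nat_lit 156) (PT.nd (nat_lit 78) (PT.lf (nat_lit 10944) (nat_lit 6) (nat_lit 144) (nat_lit 5) (nat_lit 196) (nat_lit 288) (nat_lit 296)) (PT.lf (nat_lit 11400) (nat_lit 6) (nat_lit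 150) (nat_lit 5) (nat_lit 197) (nat_lit 288) (nat_lit 295))) (PT.nd (nat_lit 78) (PT.lf (nat_lit 11780) (nat_lit 6) (nat_lit 155) (nat_lit 5) (nat_lit 198) (nat_lit 288) (nat_lit 294)) (PT.lf (nat_lit 12236) (nat_lit 6) (nat_lit 161) (nat_lit 5) (nat_lit 199) (nat_lit 288) (nat_lit 293)))) (PT.nd (nat_lit 156) (PT.nd (nat_lit 78) (PT.lf (nat_lit 12692) (nat_lit 6) (nat_lit 167) (nat_lit 5) (nat_lit 200) (nat_lit 288) (nat_lit 292)) (PT.lf (nat_lit 13148) (nat_lit 6) (nat_lit 173) (nat_lit 5) (nat_lit 201) (nat_lit 288) (nat_lit 291))) (PT.nd (nat_lit 78) (PT.lf (nat_lit 13604) (nat_lit 6) (nat_lit 179) (nat_lit 5) (nat_lit 202) (nat_lit 288) (nat_lit 290)) (PT.nd (nat_lit 78) (PT.lf (nat_lit 14060) (nat_lit 6) (nat_lit 185) (nat_lit 5) (nat_lit 203) (nat_lit 288) (nat_lit 289)) (PT.lf (nat_lit 14516) (nat_lit 3) (nat_lit 191) (nat_lit 4) (nat_lit 204) (nat_lit 288) (nat_lit 288))))))))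
noncomputable def pc108 : PT := (PT.nd (nat_lit 5148) (PT.nd (nat_lit 624) (PT.nd (nat_lit 312) (PT.nd (nat_lit 156) (PT.nd (nat_lit 78) (PT.lf (nat_lit 14972) (nat_lit 6) (nat_lit 197) (nat_lit 4) (nat_lit 205) (nat_lit 288) (nat_lit 287)) (PT.lf (nat_lit 15352) (nat_lit 6) (nat_lit 202) (nat_lit 4) (nat_lit 206) (nat_lit 288) (nat_lit 286))) (PT.nd (nat_lit 78) (PT.lf (nat_lit 15808) (nat_lit 6) (nat_lit 208) (nat_lit 4) (nat_lit 207) (nat_lit 288) (nat_lit 285)) (PT.lf (nat_lit 16264) (nat_lit 6) (nat_lit 214) (nat_lit 4) (nat_lit 208) (nat_lit 288) (nat_lit 284)))) (PT.nd (nat_lit 156) (PT.nd (nat_lit 78) (PT.lf (nat_lit 16720) (nat_lit 6) (nat_lit 220) (nat_lit 4) (nat_lit 209) (nat_lit 288) (nat_lit 283)) (PT.lf (nat_lit 17176) (nat_lit 6) (nat_lit 226) (nat_lit 4) (nat_lit 210) (nat_lit 288) (nat_lit 282))) (PT.nd (nat_lit 78) (PT.lf (nat_lit 17708) (nat_lit 6) (nat_lit 233) (nat_lit 4) (nat_lit 211) (nat_lit 288) (nat_lit 281)) (PT.lf (nat_lit 18164)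 (nat_lit 6) (nat_lit 239) (nat_lit 4) (nat_lit 212) (nat_lit 288) (nat_lit 280))))) (PT.nd (nat_lit 312) (PT.nd (nat_lit 156) (PT.nd (nat_lit 78) (PT.lf (nat_lit 18696) (nat_lit 6) (nat_lit 246) (nat_lit 4) (nat_lit 213) (nat_lit 288) (nat_lit 279)) (PT.lf (nat_lit 19228) (nat_lit 6) (nat_lit 253) (nat_lit 4) (nat_lit 214) (nat_lit 288) (nat_lit 278))) (PT.nd (nat_lit 78) (PT.lf (nat_lit 19760) (nat_lit 6) (nat_lit 260) (nat_lit 4) (nat_lit 215) (nat_lit 288) (nat_lit 277)) (PT.lf (nat_lit 20292) (nat_lit 6) (nat_lit 267) (nat_lit 4) (nat_lit 216) (nat_lit 288) (nat_lit 276)))) (PT.nd (nat_lit 156) (PT.nd (nat_lit 78) (PT.lf (nat_lit 20900) (nat_lit 6) (nat_lit 275) (nat_lit 4) (nat_lit 217) (nat_lit 288) (nat_lit 275)) (PT.lf (nat_lit 21508) (nat_lit 6) (nat_lit 283) (nat_lit 4) (nat_lit 218) (nat_lit 288) (nat_lit 274))) (PT.nd (nat_lit 78) (PT.lf (nat_lit 22116) (nat_lit 6) (nat_lit 291) (nat_lit 4) (nat_lit 219) (nat_lit 288) (nat_lit 273)) (PT.nd (nat_lit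 78) (PT.lf (nat_lit 22724) (nat_lit 6) (nat_lit 299) (nat_lit 4) (nat_lit 220) (nat_lit 288) (nat_lit 272)) (PT.lf (nat_lit 23408) (nat_lit 6) (nat_lit 308) (nat_lit 4) (nat_lit 221) (nat_lit 288) (nat_lit 271))))))) (PT.nd (nat_lit 624) (PT.nd (nat_lit 312) (PT.nd (nat_lit 156) (PT.nd (nat_lit 78) (PT.lf (nat_lit 23408) (nat_lit 6) (nat_lit 308) (nat_lit 2) (nat_lit 271) (nat_lit 288) (nat_lit 221)) (PT.lf (nat_lit 22724) (nat_lit 6) (nat_lit 299) (nat_lit 2) (nat_lit 272) (nat_lit 288) (nat_lit 220))) (PT.nd (nat_lit 78) (PT.lf (nat_lit 22116) (nat_lit 6) (nat_lit 291) (nat_lit 2) (nat_lit 273) (nat_lit 288) (nat_lit 219)) (PT.lf (nat_lit 21508) (nat_lit 6) (nat_lit 283) (nat_lit 2) (nat_lit 274) (nat_lit 288) (nat_lit 218)))) (PT.nd (nat_lit 156) (PT.nd (nat_lit 78) (PT.lf (nat_lit 20900) (nat_lit 6) (nat_lit 275) (nat_lit 2) (nat_lit 275) (nat_lit 288) (nat_lit 217)) (PT.lf (nat_lit 20292) (nat_lit 6) (nat_lit 267) (nat_lit 2) (nat_lit 276) (nat_lit 288)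 (nat_lit 216))) (PT.nd (nat_lit 78) (PT.lf (nat_lit 19760) (nat_lit 6) (nat_lit 260) (nat_lit 2) (nat_lit 277) (nat_lit 288) (nat_lit 215)) (PT.lf (nat_lit 19228) (nat_lit 6) (nat_lit 253) (nat_lit 2) (nat_lit 278) (nat_lit 288) (nat_lit 214))))) (PT.nd (nat_lit 312) (PT.nd (nat_lit 156) (PT.nd (nat_lit 78) (PT.lf (nat_lit 18696) (nat_lit 6) (nat_lit 246) (nat_lit 2) (nat_lit 279) (nat_lit 288) (nat_lit 213)) (PT.lf (nat_lit 18164) (nat_lit 6) (nat_lit 239) (nat_lit 2) (nat_lit 280) (nat_lit 288) (nat_lit 212))) (PT.nd (nat_lit 78) (PT.lf (nat_lit 17708) (nat_lit 6) (nat_lit 233) (nat_lit 2) (nat_lit 281) (nat_lit 288) (nat_lit 211)) (PT.lf (nat_lit 17176) (nat_lit 6) (nat_lit 226) (nat_lit 2) (nat_lit 282) (nat_lit 288) (nat_lit 210)))) (PT.nd (nat_lit 156) (PT.nd (nat_lit 78) (PT.lf (nat_lit 16720) (nat_lit 6) (nat_lit 220) (nat_lit 2) (nat_lit 283) (nat_lit 288) (nat_lit 209)) (PT.lf (nat_lit 16264) (nat_lit 6) (nat_lit 214) (nat_lit 2) (nat_lit 284) (nat_lit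 288) (nat_lit 208))) (PT.nd (nat_lit 78) (PT.lf (nat_lit 15808) (nat_lit 6) (nat_lit 208) (nat_lit 2) (nat_lit 285) (nat_lit 288) (nat_lit 207)) (PT.nd (nat_lit 78) (PT.lf (nat_lit 15352) (nat_lit 6) (nat_lit 202) (nat_lit 2) (nat_lit 286) (nat_lit 288) (nat_lit 206)) (PT.lf (nat_lit 14972) (nat_lit 6) (nat_lit 197) (nat_lit 2) (nat_lit 287) (nat_lit 288) (nat_lit 205))))))))
noncomputable def pc109 : PT := (PT.nd (nat_lit 74490) (PT.nd (nat_lit 624) (PT.nd (nat_lit 312) (PT.nd (nat_lit 156) (PT.nd (nat_lit 78) (PT.lf (nat_lit 14516) (nat_lit 3) (nat_lit 191) (nat_lit 0) (nat_lit 288) (nat_lit 288) (nat_lit 204)) (PT.lf (nat_lit 14060) (nat_lit 6) (nat_lit 185) (nat_lit 0) (nat_lit 289) (nat_lit 288) (nat_lit 203))) (PT.nd (nat_lit 78) (PT.lf (nat_lit 13604) (nat_lit 6) (nat_lit 179) (nat_lit 0) (nat_lit 290) (nat_lit 288) (nat_lit 202)) (PT.lf (nat_lit 13148) (nat_lit 6) (nat_lit 173) (nat_lit 0) (nat_lit 291) (nat_lit 288) (nat_lit 201)))) (PT.nd (nat_lit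 156) (PT.nd (nat_lit 78) (PT.lf (nat_lit 12692) (nat_lit 6) (nat_lit 167) (nat_lit 0) (nat_lit 292) (nat_lit 288) (nat_lit 200)) (PT.lf (nat_lit 12236) (nat_lit 6) (nat_lit 161) (nat_lit 0) (nat_lit 293) (nat_lit 288) (nat_lit 199))) (PT.nd (nat_lit 78) (PT.lf (nat_lit 11780) (nat_lit 6) (nat_lit 155) (nat_lit 0) (nat_lit 294) (nat_lit 288) (nat_lit 198)) (PT.lf (nat_lit 11400) (nat_lit 6) (nat_lit 150) (nat_lit 0) (nat_lit 295) (nat_lit 288) (nat_lit 197))))) (PT.nd (nat_lit 73476) (PT.nd (nat_lit 73320) (PT.nd (nat_lit 73242) (PT.lf (nat_lit 10944) (nat_lit 6) (nat_lit 144) (nat_lit 0) (nat_lit 296) (nat_lit 288) (nat_lit 196)) (PT.lf (nat_lit 10184) (nat_lit 6) (nat_lit 134) (nat_lit 5) (nat_lit 194) (nat_lit 289) (nat_lit 297))) (PT.nd (nat_lit 78) (PT.lf (nat_lit 10640) (nat_lit 6) (nat_lit 140) (nat_lit 5) (nat_lit 195) (nat_lit 289) (nat_lit 296)) (PT.lf (nat_lit 11020) (nat_lit 6) (nat_lit 145) (nat_lit 5) (nat_lit 196) (nat_lit 289) (nat_lit 295))))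 (PT.nd (nat_lit 156) (PT.nd (nat_lit 78) (PT.lf (nat_lit 11476) (nat_lit 6) (nat_lit 151) (nat_lit 5) (nat_lit 197) (nat_lit 289) (nat_lit 294)) (PT.lf (nat_lit 11856) (nat_lit 6) (nat_lit 156) (nat_lit 5) (nat_lit 198) (nat_lit 289) (nat_lit 293))) (PT.nd (nat_lit 78) (PT.lf (nat_lit 12312) (nat_lit 6) (nat_lit 162) (nat_lit 5) (nat_lit 199) (nat_lit 289) (nat_lit 292)) (PT.nd (nat_lit 78) (PT.lf (nat_lit 12768) (nat_lit 6) (nat_lit 168) (nat_lit 5) (nat_lit 200) (nat_lit 289) (nat_lit 291)) (PT.lf (nat_lit 13224) (nat_lit 6) (nat_lit 174) (nat_lit 5) (nat_lit 201) (nat_lit 289) (nat_lit 290))))))) (PT.nd (nat_lit 624) (PT.nd (nat_lit 312) (PT.nd (nat_lit 156) (PT.nd (nat_lit 78) (PT.lf (nat_lit 13680) (nat_lit 3) (nat_lit 180) (nat_lit 4) (nat_lit 202) (nat_lit 289) (nat_lit 289)) (PT.lf (nat_lit 14060) (nat_lit 6) (nat_lit 185) (nat_lit 4) (nat_lit 203) (nat_lit 289) (nat_lit 288))) (PT.nd (nat_lit 78) (PT.lf (nat_lit 14440) (nat_lit 6) (nat_lit 190) (nat_lit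 4) (nat_lit 204) (nat_lit 289) (nat_lit 287)) (PT.lf (nat_lit 14896) (nat_lit 6) (nat_lit 196) (nat_lit 4) (nat_lit 205) (nat_lit 289) (nat_lit 286)))) (PT.nd (nat_lit 156) (PT.nd (nat_lit 78) (PT.lf (nat_lit 15276) (nat_lit 6) (nat_lit 201) (nat_lit 4) (nat_lit 206) (nat_lit 289) (nat_lit 285)) (PT.lf (nat_lit 15732) (nat_lit 6) (nat_lit 207) (nat_lit 4) (nat_lit 207) (nat_lit 289) (nat_lit 284))) (PT.nd (nat_lit 78) (PT.lf (nat_lit 16188) (nat_lit 6) (nat_lit 213) (nat_lit 4) (nat_lit 208) (nat_lit 289) (nat_lit 283)) (PT.lf (nat_lit 16644) (nat_lit 6) (nat_lit 219) (nat_lit 4) (nat_lit 209) (nat_lit 289) (nat_lit 282))))) (PT.nd (nat_lit 312) (PT.nd (nat_lit 156) (PT.nd (nat_lit 78) (PT.lf (nat_lit 17100) (nat_lit 6) (nat_lit 225) (nat_lit 4) (nat_lit 210) (nat_lit 289) (nat_lit 281)) (PT.lf (nat_lit 17632) (nat_lit 6) (nat_lit 232) (nat_lit 4) (nat_lit 211) (nat_lit 289) (nat_lit 280))) (PT.nd (nat_lit 78) (PT.lf (nat_lit 18088) (nat_lit 6) (nat_lit 238)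 (nat_lit 4) (nat_lit 212) (nat_lit 289) (nat_lit 279)) (PT.lf (nat_lit 18620) (nat_lit 6) (nat_lit 245) (nat_lit 4) (nat_lit 213) (nat_lit 289) (nat_lit 278)))) (PT.nd (nat_lit 156) (PT.nd (nat_lit 78) (PT.lf (nat_lit 19152) (nat_lit 6) (nat_lit 252) (nat_lit 4) (nat_lit 214) (nat_lit 289) (nat_lit 277)) (PT.lf (nat_lit 19684) (nat_lit 6) (nat_lit 259) (nat_lit 4) (nat_lit 215) (nat_lit 289) (nat_lit 276))) (PT.nd (nat_lit 78) (PT.lf (nat_lit 20216) (nat_lit 6) (nat_lit 266) (nat_lit 4) (nat_lit 216) (nat_lit 289) (nat_lit 275)) (PT.nd (nat_lit 78) (PT.lf (nat_lit 20824) (nat_lit 6) (nat_lit 274) (nat_lit 4) (nat_lit 217) (nat_lit 289) (nat_lit 274)) (PT.lf (nat_lit 21432) (nat_lit 6) (nat_lit 282) (nat_lit 4) (nat_lit 218) (nat_lit 289) (nat_lit 273))))))))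
noncomputable def pc110 : PT := (PT.nd (nat_lit 1326) (PT.nd (nat_lit 624) (PT.nd (nat_lit 312) (PT.nd (nat_lit 156) (PT.nd (nat_lit 78) (PT.lf (nat_lit 21432) (nat_lit 6) (nat_lit 282) (nat_lit 2) (nat_lit 273) (nat_lit 289) (nat_lit 218)) (PT.lf (nat_lit 20824) (nat_lit 6) (nat_lit 274) (nat_lit 2) (nat_lit 274) (nat_lit 289) (nat_lit 217))) (PT.nd (nat_lit 78) (PT.lf (nat_lit 20216) (nat_lit 6) (nat_lit 266) (nat_lit 2) (nat_lit 275) (nat_lit 289) (nat_lit 216)) (PT.lf (nat_lit 19684) (nat_lit 6) (nat_lit 259) (nat_lit 2) (nat_lit 276) (nat_lit 289) (nat_lit 215)))) (PT.nd (nat_lit 156) (PT.nd (nat_lit 78) (PT.lf (nat_lit 19152) (nat_lit 6) (nat_lit 252) (nat_lit 2) (nat_lit 277) (nat_lit 289) (nat_lit 214)) (PT.lf (nat_lit 18620) (nat_lit 6) (nat_lit 245) (nat_lit 2) (nat_lit 278) (nat_lit 289) (nat_lit 213))) (PT.nd (nat_lit 78) (PT.lf (nat_lit 18088) (nat_lit 6) (nat_lit 238) (nat_lit 2) (nat_lit 279) (nat_lit 289) (nat_lit 212)) (PT.lf (nat_lit 17632)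 (nat_lit 6) (nat_lit 232) (nat_lit 2) (nat_lit 280) (nat_lit 289) (nat_lit 211))))) (PT.nd (nat_lit 312) (PT.nd (nat_lit 156) (PT.nd (nat_lit 78) (PT.lf (nat_lit 17100) (nat_lit 6) (nat_lit 225) (nat_lit 2) (nat_lit 281) (nat_lit 289) (nat_lit 210)) (PT.lf (nat_lit 16644) (nat_lit 6) (nat_lit 219) (nat_lit 2) (nat_lit 282) (nat_lit 289) (nat_lit 209))) (PT.nd (nat_lit 78) (PT.lf (nat_lit 16188) (nat_lit 6) (nat_lit 213) (nat_lit 2) (nat_lit 283) (nat_lit 289) (nat_lit 208)) (PT.lf (nat_lit 15732) (nat_lit 6) (nat_lit 207) (nat_lit 2) (nat_lit 284) (nat_lit 289) (nat_lit 207)))) (PT.nd (nat_lit 156) (PT.nd (nat_lit 78) (PT.lf (nat_lit 15276) (nat_lit 6) (nat_lit 201) (nat_lit 2) (nat_lit 285) (nat_lit 289) (nat_lit 206)) (PT.lf (nat_lit 14896) (nat_lit 6) (nat_lit 196) (nat_lit 2) (nat_lit 286) (nat_lit 289) (nat_lit 205))) (PT.nd (nat_lit 78) (PT.lf (nat_lit 14440) (nat_lit 6) (nat_lit 190) (nat_lit 2) (nat_lit 287) (nat_lit 289) (nat_lit 204)) (PT.nd (nat_lit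 78) (PT.lf (nat_lit 14060) (nat_lit 6) (nat_lit 185) (nat_lit 2) (nat_lit 288) (nat_lit 289) (nat_lit 203)) (PT.lf (nat_lit 13680) (nat_lit 3) (nat_lit 180) (nat_lit 0) (nat_lit 289) (nat_lit 289) (nat_lit 202))))))) (PT.nd (nat_lit 73554) (PT.nd (nat_lit 312) (PT.nd (nat_lit 156) (PT.nd (nat_lit 78) (PT.lf (nat_lit 13224) (nat_lit 6) (nat_lit 174) (nat_lit 0) (nat_lit 290) (nat_lit 289) (nat_lit 201)) (PT.lf (nat_lit 12768) (nat_lit 6) (nat_lit 168) (nat_lit 0) (nat_lit 291) (nat_lit 289) (nat_lit 200))) (PT.nd (nat_lit 78) (PT.lf (nat_lit 12312) (nat_lit 6) (nat_lit 162) (nat_lit 0) (nat_lit 292) (nat_lit 289) (nat_lit 199)) (PT.lf (nat_lit 11856) (nat_lit 6) (nat_lit 156) (nat_lit 0) (nat_lit 293) (nat_lit 289) (nat_lit 198)))) (PT.nd (nat_lit 156) (PT.nd (nat_lit 78) (PT.lf (nat_lit 11476) (nat_lit 6) (nat_lit 151) (nat_lit 0) (nat_lit 294) (nat_lit 289) (nat_lit 197)) (PT.lf (nat_lit 11020) (nat_lit 6) (nat_lit 145) (nat_lit 0) (nat_lit 295) (nat_lit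 289) (nat_lit 196))) (PT.nd (nat_lit 78) (PT.lf (nat_lit 10640) (nat_lit 6) (nat_lit 140) (nat_lit 0) (nat_lit 296) (nat_lit 289) (nat_lit 195)) (PT.lf (nat_lit 10184) (nat_lit 6) (nat_lit 134) (nat_lit 0) (nat_lit 297) (nat_lit 289) (nat_lit 194))))) (PT.nd (nat_lit 312) (PT.nd (nat_lit 156) (PT.nd (nat_lit 78) (PT.lf (nat_lit 9500) (nat_lit 6) (nat_lit 125) (nat_lit 5) (nat_lit 192) (nat_lit 290) (nat_lit 298)) (PT.lf (nat_lit 9880) (nat_lit 6) (nat_lit 130) (nat_lit 5) (nat_lit 193) (nat_lit 290) (nat_lit 297))) (PT.nd (nat_lit 78) (PT.lf (nat_lit 10260) (nat_lit 6) (nat_lit 135) (nat_lit 5) (nat_lit 194) (nat_lit 290) (nat_lit 296)) (PT.lf (nat_lit 10716) (nat_lit 6) (nat_lit 141) (nat_lit 5) (nat_lit 195) (nat_lit 290) (nat_lit 295)))) (PT.nd (nat_lit 156) (PT.nd (nat_lit 78) (PT.lf (nat_lit 11096) (nat_lit 6) (nat_lit 146) (nat_lit 5) (nat_lit 196) (nat_lit 290) (nat_lit 294)) (PT.lf (nat_lit 11552) (nat_lit 6) (nat_lit 152) (nat_lit 5) (nat_lit 197)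 (nat_lit 290) (nat_lit 293))) (PT.nd (nat_lit 78) (PT.lf (nat_lit 11932) (nat_lit 6) (nat_lit 157) (nat_lit 5) (nat_lit 198) (nat_lit 290) (nat_lit 292)) (PT.nd (nat_lit 78) (PT.lf (nat_lit 12388) (nat_lit 6) (nat_lit 163) (nat_lit 5) (nat_lit 199) (nat_lit 290) (nat_lit 291)) (PT.lf (nat_lit 12844) (nat_lit 3) (nat_lit 169) (nat_lit 4) (nat_lit 200) (nat_lit 290) (nat_lit 290))))))))
noncomputable def pc111 : PT := (PT.nd (nat_lit 6084) (PT.nd (nat_lit 624) (PT.nd (nat_lit 312) (PT.nd (nat_lit 156) (PT.nd (nat_lit 78) (PT.lf (nat_lit 13224) (nat_lit 6) (nat_lit 174) (nat_lit 4) (nat_lit 201) (nat_lit 290) (nat_lit 289)) (PT.lf (nat_lit 13604) (nat_lit 6) (nat_lit 179) (nat_lit 4) (nat_lit 202) (nat_lit 290) (nat_lit 288))) (PT.nd (nat_lit 78) (PT.lf (nat_lit 13984) (nat_lit 6) (nat_lit 184) (nat_lit 4) (nat_lit 203) (nat_lit 290) (nat_lit 287)) (PT.lf (nat_lit 14364) (nat_lit 6) (nat_lit 189) (nat_lit 4) (nat_lit 204) (nat_lit 290) (nat_lit 286)))) (PT.nd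 (nat_lit 156) (PT.nd (nat_lit 78) (PT.lf (nat_lit 14820) (nat_lit 6) (nat_lit 195) (nat_lit 4) (nat_lit 205) (nat_lit 290) (nat_lit 285)) (PT.lf (nat_lit 15200) (nat_lit 6) (nat_lit 200) (nat_lit 4) (nat_lit 206) (nat_lit 290) (nat_lit 284))) (PT.nd (nat_lit 78) (PT.lf (nat_lit 15656) (nat_lit 6) (nat_lit 206) (nat_lit 4) (nat_lit 207) (nat_lit 290) (nat_lit 283)) (PT.lf (nat_lit 16112) (nat_lit 6) (nat_lit 212) (nat_lit 4) (nat_lit 208) (nat_lit 290) (nat_lit 282))))) (PT.nd (nat_lit 312) (PT.nd (nat_lit 156) (PT.nd (nat_lit 78) (PT.lf (nat_lit 16568) (nat_lit 6) (nat_lit 218) (nat_lit 4) (nat_lit 209) (nat_lit 290) (nat_lit 281)) (PT.lf (nat_lit 17024) (nat_lit 6) (nat_lit 224) (nat_lit 4) (nat_lit 210) (nat_lit 290) (nat_lit 280))) (PT.nd (nat_lit 78) (PT.lf (nat_lit 17556) (nat_lit 6) (nat_lit 231) (nat_lit 4) (nat_lit 211) (nat_lit 290) (nat_lit 279)) (PT.lf (nat_lit 18012) (nat_lit 6) (nat_lit 237) (nat_lit 4) (nat_lit 212) (nat_lit 290) (nat_lit 278))))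 (PT.nd (nat_lit 4914) (PT.nd (nat_lit 78) (PT.lf (nat_lit 18544) (nat_lit 6) (nat_lit 244) (nat_lit 4) (nat_lit 213) (nat_lit 290) (nat_lit 277)) (PT.lf (nat_lit 19076) (nat_lit 6) (nat_lit 251) (nat_lit 4) (nat_lit 214) (nat_lit 290) (nat_lit 276))) (PT.nd (nat_lit 78) (PT.lf (nat_lit 19076) (nat_lit 6) (nat_lit 251) (nat_lit 2) (nat_lit 276) (nat_lit 290) (nat_lit 214)) (PT.nd (nat_lit 78) (PT.lf (nat_lit 18544) (nat_lit 6) (nat_lit 244) (nat_lit 2) (nat_lit 277) (nat_lit 290) (nat_lit 213)) (PT.lf (nat_lit 18012) (nat_lit 6) (nat_lit 237) (nat_lit 2) (nat_lit 278) (nat_lit 290) (nat_lit 212))))))) (PT.nd (nat_lit 702) (PT.nd (nat_lit 312) (PT.nd (nat_lit 156) (PT.nd (nat_lit 78) (PT.lf (nat_lit 17556) (nat_lit 6) (nat_lit 231) (nat_lit 2) (nat_lit 279) (nat_lit 290) (nat_lit 211)) (PT.lf (nat_lit 17024) (nat_lit 6) (nat_lit 224) (nat_lit 2) (nat_lit 280) (nat_lit 290) (nat_lit 210))) (PT.nd (nat_lit 78) (PT.lf (nat_lit 16568) (nat_lit 6) (nat_lit 218) (nat_lit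 2) (nat_lit 281) (nat_lit 290) (nat_lit 209)) (PT.lf (nat_lit 16112) (nat_lit 6) (nat_lit 212) (nat_lit 2) (nat_lit 282) (nat_lit 290) (nat_lit 208)))) (PT.nd (nat_lit 156) (PT.nd (nat_lit 78) (PT.lf (nat_lit 15656) (nat_lit 6) (nat_lit 206) (nat_lit 2) (nat_lit 283) (nat_lit 290) (nat_lit 207)) (PT.lf (nat_lit 15200) (nat_lit 6) (nat_lit 200) (nat_lit 2) (nat_lit 284) (nat_lit 290) (nat_lit 206))) (PT.nd (nat_lit 78) (PT.lf (nat_lit 14820) (nat_lit 6) (nat_lit 195) (nat_lit 2) (nat_lit 285) (nat_lit 290) (nat_lit 205)) (PT.nd (nat_lit 78) (PT.lf (nat_lit 14364) (nat_lit 6) (nat_lit 189) (nat_lit 2) (nat_lit 286) (nat_lit 290) (nat_lit 204)) (PT.lf (nat_lit 13984) (nat_lit 6) (nat_lit 184) (nat_lit 2) (nat_lit 287) (nat_lit 290) (nat_lit 203)))))) (PT.nd (nat_lit 312) (PT.nd (nat_lit 156) (PT.nd (nat_lit 78) (PT.lf (nat_lit 13604) (nat_lit 6) (nat_lit 179) (nat_lit 2) (nat_lit 288) (nat_lit 290) (nat_lit 202)) (PT.lf (nat_lit 13224) (nat_lit 6) (nat_lit 174)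 (nat_lit 2) (nat_lit 289) (nat_lit 290) (nat_lit 201))) (PT.nd (nat_lit 78) (PT.lf (nat_lit 12844) (nat_lit 3) (nat_lit 169) (nat_lit 0) (nat_lit 290) (nat_lit 290) (nat_lit 200)) (PT.lf (nat_lit 12388) (nat_lit 6) (nat_lit 163) (nat_lit 0) (nat_lit 291) (nat_lit 290) (nat_lit 199)))) (PT.nd (nat_lit 156) (PT.nd (nat_lit 78) (PT.lf (nat_lit 11932) (nat_lit 6) (nat_lit 157) (nat_lit 0) (nat_lit 292) (nat_lit 290) (nat_lit 198)) (PT.lf (nat_lit 11552) (nat_lit 6) (nat_lit 152) (nat_lit 0) (nat_lit 293) (nat_lit 290) (nat_lit 197))) (PT.nd (nat_lit 78) (PT.lf (nat_lit 11096) (nat_lit 6) (nat_lit 146) (nat_lit 0) (nat_lit 294) (nat_lit 290) (nat_lit 196)) (PT.nd (nat_lit 78) (PT.lf (nat_lit 10716) (nat_lit 6) (nat_lit 141) (nat_lit 0) (nat_lit 295) (nat_lit 290) (nat_lit 195)) (PT.lf (nat_lit 10260) (nat_lit 6) (nat_lit 135) (nat_lit 0) (nat_lit 296) (nat_lit 290) (nat_lit 194))))))))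
noncomputable def pc112 : PT := (PT.nd (nat_lit 74100) (PT.nd (nat_lit 73398) (PT.nd (nat_lit 73086) (PT.nd (nat_lit 72930) (PT.nd (nat_lit 78) (PT.lf (nat_lit 9880) (nat_lit 6) (nat_lit 130) (nat_lit 0) (nat_lit 297) (nat_lit 290) (nat_lit 193)) (PT.lf (nat_lit 9500) (nat_lit 6) (nat_lit 125) (nat_lit 0) (nat_lit 298) (nat_lit 290) (nat_lit 192))) (PT.nd (nat_lit 78) (PT.lf (nat_lit 9196) (nat_lit 6) (nat_lit 121) (nat_lit 5) (nat_lit 191) (nat_lit 291) (nat_lit 298)) (PT.lf (nat_lit 9576) (nat_lit 6) (nat_lit 126) (nat_lit 5) (nat_lit 192) (nat_lit 291) (nat_lit 297)))) (PT.nd (nat_lit 156) (PT.nd (nat_lit 78) (PT.lf (nat_lit 9956) (nat_lit 6) (nat_lit 131) (nat_lit 5) (nat_lit 193) (nat_lit 291) (nat_lit 296)) (PT.lf (nat_lit 10336) (nat_lit 6) (nat_lit 136) (nat_lit 5) (nat_lit 194) (nat_lit 291) (nat_lit 295))) (PT.nd (nat_lit 78) (PT.lf (nat_lit 10792) (nat_lit 6) (nat_lit 142) (nat_lit 5) (nat_lit 195) (nat_lit 291) (nat_lit 294)) (PT.lf (nat_lit 11172)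 (nat_lit 6) (nat_lit 147) (nat_lit 5) (nat_lit 196) (nat_lit 291) (nat_lit 293))))) (PT.nd (nat_lit 312) (PT.nd (nat_lit 156) (PT.nd (nat_lit 78) (PT.lf (nat_lit 11628) (nat_lit 6) (nat_lit 153) (nat_lit 5) (nat_lit 197) (nat_lit 291) (nat_lit 292)) (PT.lf (nat_lit 12008) (nat_lit 3) (nat_lit 158) (nat_lit 4) (nat_lit 198) (nat_lit 291) (nat_lit 291))) (PT.nd (nat_lit 78) (PT.lf (nat_lit 12388) (nat_lit 6) (nat_lit 163) (nat_lit 4) (nat_lit 199) (nat_lit 291) (nat_lit 290)) (PT.lf (nat_lit 12768) (nat_lit 6) (nat_lit 168) (nat_lit 4) (nat_lit 200) (nat_lit 291) (nat_lit 289)))) (PT.nd (nat_lit 156) (PT.nd (nat_lit 78) (PT.lf (nat_lit 13148) (nat_lit 6) (nat_lit 173) (nat_lit 4) (nat_lit 201) (nat_lit 291) (nat_lit 288)) (PT.lf (nat_lit 13528) (nat_lit 6) (nat_lit 178) (nat_lit 4) (nat_lit 202) (nat_lit 291) (nat_lit 287))) (PT.nd (nat_lit 78) (PT.lf (nat_lit 13908) (nat_lit 6) (nat_lit 183) (nat_lit 4) (nat_lit 203) (nat_lit 291) (nat_lit 286)) (PT.nd (nat_lit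 78) (PT.lf (nat_lit 14288) (nat_lit 6) (nat_lit 188) (nat_lit 4) (nat_lit 204) (nat_lit 291) (nat_lit 285)) (PT.lf (nat_lit 14744) (nat_lit 6) (nat_lit 194) (nat_lit 4) (nat_lit 205) (nat_lit 291) (nat_lit 284))))))) (PT.nd (nat_lit 5772) (PT.nd (nat_lit 312) (PT.nd (nat_lit 156) (PT.nd (nat_lit 78) (PT.lf (nat_lit 15124) (nat_lit 6) (nat_lit 199) (nat_lit 4) (nat_lit 206) (nat_lit 291) (nat_lit 283)) (PT.lf (nat_lit 15580) (nat_lit 6) (nat_lit 205) (nat_lit 4) (nat_lit 207) (nat_lit 291) (nat_lit 282))) (PT.nd (nat_lit 78) (PT.lf (nat_lit 16036) (nat_lit 6) (nat_lit 211) (nat_lit 4) (nat_lit 208) (nat_lit 291) (nat_lit 281)) (PT.lf (nat_lit 16492) (nat_lit 6) (nat_lit 217) (nat_lit 4) (nat_lit 209) (nat_lit 291) (nat_lit 280)))) (PT.nd (nat_lit 5304) (PT.nd (nat_lit 78) (PT.lf (nat_lit 16948) (nat_lit 6) (nat_lit 223) (nat_lit 4) (nat_lit 210) (nat_lit 291) (nat_lit 279)) (PT.lf (nat_lit 17480) (nat_lit 6) (nat_lit 230) (nat_lit 4) (nat_lit 211) (nat_lit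 291) (nat_lit 278))) (PT.nd (nat_lit 78) (PT.lf (nat_lit 17480) (nat_lit 6) (nat_lit 230) (nat_lit 2) (nat_lit 278) (nat_lit 291) (nat_lit 211)) (PT.lf (nat_lit 16948) (nat_lit 6) (nat_lit 223) (nat_lit 2) (nat_lit 279) (nat_lit 291) (nat_lit 210))))) (PT.nd (nat_lit 312) (PT.nd (nat_lit 156) (PT.nd (nat_lit 78) (PT.lf (nat_lit 16492) (nat_lit 6) (nat_lit 217) (nat_lit 2) (nat_lit 280) (nat_lit 291) (nat_lit 209)) (PT.lf (nat_lit 16036) (nat_lit 6) (nat_lit 211) (nat_lit 2) (nat_lit 281) (nat_lit 291) (nat_lit 208))) (PT.nd (nat_lit 78) (PT.lf (nat_lit 15580) (nat_lit 6) (nat_lit 205) (nat_lit 2) (nat_lit 282) (nat_lit 291) (nat_lit 207)) (PT.lf (nat_lit 15124) (nat_lit 6) (nat_lit 199) (nat_lit 2) (nat_lit 283) (nat_lit 291) (nat_lit 206)))) (PT.nd (nat_lit 156) (PT.nd (nat_lit 78) (PT.lf (nat_lit 14744) (nat_lit 6) (nat_lit 194) (nat_lit 2) (nat_lit 284) (nat_lit 291) (nat_lit 205)) (PT.lf (nat_lit 14288) (nat_lit 6) (nat_lit 188) (nat_lit 2) (nat_lit 285)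 (nat_lit 291) (nat_lit 204))) (PT.nd (nat_lit 78) (PT.lf (nat_lit 13908) (nat_lit 6) (nat_lit 183) (nat_lit 2) (nat_lit 286) (nat_lit 291) (nat_lit 203)) (PT.nd (nat_lit 78) (PT.lf (nat_lit 13528) (nat_lit 6) (nat_lit 178) (nat_lit 2) (nat_lit 287) (nat_lit 291) (nat_lit 202)) (PT.lf (nat_lit 13148) (nat_lit 6) (nat_lit 173) (nat_lit 2) (nat_lit 288) (nat_lit 291) (nat_lit 201))))))))
noncomputable def pc113 : PT := (PT.nd (nat_lit 73944) (PT.nd (nat_lit 624) (PT.nd (nat_lit 312) (PT.nd (nat_lit 156) (PT.nd (nat_lit 78) (PT.lf (nat_lit 12768) (nat_lit 6) (nat_lit 168) (nat_lit 2) (nat_lit 289) (nat_lit 291) (nat_lit 200)) (PT.lf (nat_lit 12388) (nat_lit 6) (nat_lit 163) (nat_lit 2) (nat_lit 290) (nat_lit 291) (nat_lit 199))) (PT.nd (nat_lit 78) (PT.lf (nat_lit 12008) (nat_lit 3) (nat_lit 158) (nat_lit 0) (nat_lit 291) (nat_lit 291) (nat_lit 198)) (PT.lf (nat_lit 11628) (nat_lit 6) (nat_lit 153) (nat_lit 0) (nat_lit 292) (nat_lit 291) (nat_lit 197)))) (PT.nd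 (nat_lit 156) (PT.nd (nat_lit 78) (PT.lf (nat_lit 11172) (nat_lit 6) (nat_lit 147) (nat_lit 0) (nat_lit 293) (nat_lit 291) (nat_lit 196)) (PT.lf (nat_lit 10792) (nat_lit 6) (nat_lit 142) (nat_lit 0) (nat_lit 294) (nat_lit 291) (nat_lit 195))) (PT.nd (nat_lit 78) (PT.lf (nat_lit 10336) (nat_lit 6) (nat_lit 136) (nat_lit 0) (nat_lit 295) (nat_lit 291) (nat_lit 194)) (PT.lf (nat_lit 9956) (nat_lit 6) (nat_lit 131) (nat_lit 0) (nat_lit 296) (nat_lit 291) (nat_lit 193))))) (PT.nd (nat_lit 72930) (PT.nd (nat_lit 72774) (PT.nd (nat_lit 78) (PT.lf (nat_lit 9576) (nat_lit 6) (nat_lit 126) (nat_lit 0) (nat_lit 297) (nat_lit 291) (nat_lit 192)) (PT.lf (nat_lit 9196) (nat_lit 6) (nat_lit 121) (nat_lit 0) (nat_lit 298) (nat_lit 291) (nat_lit 191))) (PT.nd (nat_lit 78) (PT.lf (nat_lit 8588) (nat_lit 6) (nat_lit 113) (nat_lit 5) (nat_lit 189) (nat_lit 292) (nat_lit 299)) (PT.lf (nat_lit 8892) (nat_lit 6) (nat_lit 117) (nat_lit 5) (nat_lit 190) (nat_lit 292) (nat_lit 298))))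 (PT.nd (nat_lit 156) (PT.nd (nat_lit 78) (PT.lf (nat_lit 9272) (nat_lit 6) (nat_lit 122) (nat_lit 5) (nat_lit 191) (nat_lit 292) (nat_lit 297)) (PT.lf (nat_lit 9652) (nat_lit 6) (nat_lit 127) (nat_lit 5) (nat_lit 192) (nat_lit 292) (nat_lit 296))) (PT.nd (nat_lit 78) (PT.lf (nat_lit 10032) (nat_lit 6) (nat_lit 132) (nat_lit 5) (nat_lit 193) (nat_lit 292) (nat_lit 295)) (PT.nd (nat_lit 78) (PT.lf (nat_lit 10412) (nat_lit 6) (nat_lit 137) (nat_lit 5) (nat_lit 194) (nat_lit 292) (nat_lit 294)) (PT.lf (nat_lit 10868) (nat_lit 6) (nat_lit 143) (nat_lit 5) (nat_lit 195) (nat_lit 292) (nat_lit 293))))))) (PT.nd (nat_lit 624) (PT.nd (nat_lit 312) (PT.nd (nat_lit 156) (PT.nd (nat_lit 78) (PT.lf (nat_lit 11248) (nat_lit 3) (nat_lit 148) (nat_lit 4) (nat_lit 196) (nat_lit 292) (nat_lit 292)) (PT.lf (nat_lit 11628) (nat_lit 6) (nat_lit 153) (nat_lit 4) (nat_lit 197) (nat_lit 292) (nat_lit 291))) (PT.nd (nat_lit 78) (PT.lf (nat_lit 11932) (nat_lit 6) (nat_lit 157) (nat_lit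 4) (nat_lit 198) (nat_lit 292) (nat_lit 290)) (PT.lf (nat_lit 12312) (nat_lit 6) (nat_lit 162) (nat_lit 4) (nat_lit 199) (nat_lit 292) (nat_lit 289)))) (PT.nd (nat_lit 156) (PT.nd (nat_lit 78) (PT.lf (nat_lit 12692) (nat_lit 6) (nat_lit 167) (nat_lit 4) (nat_lit 200) (nat_lit 292) (nat_lit 288)) (PT.lf (nat_lit 13072) (nat_lit 6) (nat_lit 172) (nat_lit 4) (nat_lit 201) (nat_lit 292) (nat_lit 287))) (PT.nd (nat_lit 78) (PT.lf (nat_lit 13452) (nat_lit 6) (nat_lit 177) (nat_lit 4) (nat_lit 202) (nat_lit 292) (nat_lit 286)) (PT.lf (nat_lit 13832) (nat_lit 6) (nat_lit 182) (nat_lit 4) (nat_lit 203) (nat_lit 292) (nat_lit 285))))) (PT.nd (nat_lit 312) (PT.nd (nat_lit 156) (PT.nd (nat_lit 78) (PT.lf (nat_lit 14212) (nat_lit 6) (nat_lit 187) (nat_lit 4) (nat_lit 204) (nat_lit 292) (nat_lit 284)) (PT.lf (nat_lit 14668) (nat_lit 6) (nat_lit 193) (nat_lit 4) (nat_lit 205) (nat_lit 292) (nat_lit 283))) (PT.nd (nat_lit 78) (PT.lf (nat_lit 15048) (nat_lit 6) (nat_lit 198)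 (nat_lit 4) (nat_lit 206) (nat_lit 292) (nat_lit 282)) (PT.lf (nat_lit 15504) (nat_lit 6) (nat_lit 204) (nat_lit 4) (nat_lit 207) (nat_lit 292) (nat_lit 281)))) (PT.nd (nat_lit 5694) (PT.nd (nat_lit 5616) (PT.lf (nat_lit 15960) (nat_lit 6) (nat_lit 210) (nat_lit 4) (nat_lit 208) (nat_lit 292) (nat_lit 280)) (PT.lf (nat_lit 15960) (nat_lit 6) (nat_lit 210) (nat_lit 2) (nat_lit 280) (nat_lit 292) (nat_lit 208))) (PT.nd (nat_lit 78) (PT.lf (nat_lit 15504) (nat_lit 6) (nat_lit 204) (nat_lit 2) (nat_lit 281) (nat_lit 292) (nat_lit 207)) (PT.nd (nat_lit 78) (PT.lf (nat_lit 15048) (nat_lit 6) (nat_lit 198) (nat_lit 2) (nat_lit 282) (nat_lit 292) (nat_lit 206)) (PT.lf (nat_lit 14668) (nat_lit 6) (nat_lit 193) (nat_lit 2) (nat_lit 283) (nat_lit 292) (nat_lit 205))))))))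
noncomputable def pc114 : PT := (PT.nd (nat_lit 73710) (PT.nd (nat_lit 624) (PT.nd (nat_lit 312) (PT.nd (nat_lit 156) (PT.nd (nat_lit 78) (PT.lf (nat_lit 14212) (nat_lit 6) (nat_lit 187) (nat_lit 2) (nat_lit 284) (nat_lit 292) (nat_lit 204)) (PT.lf (nat_lit 13832) (nat_lit 6) (nat_lit 182) (nat_lit 2) (nat_lit 285) (nat_lit 292) (nat_lit 203))) (PT.nd (nat_lit 78) (PT.lf (nat_lit 13452) (nat_lit 6) (nat_lit 177) (nat_lit 2) (nat_lit 286) (nat_lit 292) (nat_lit 202)) (PT.lf (nat_lit 13072) (nat_lit 6) (nat_lit 172) (nat_lit 2) (nat_lit 287) (nat_lit 292) (nat_lit 201)))) (PT.nd (nat_lit 156) (PT.nd (nat_lit 78) (PT.lf (nat_lit 12692) (nat_lit 6) (nat_lit 167) (nat_lit 2) (nat_lit 288) (nat_lit 292) (nat_lit 200)) (PT.lf (nat_lit 12312) (nat_lit 6) (nat_lit 162) (nat_lit 2) (nat_lit 289) (nat_lit 292) (nat_lit 199))) (PT.nd (nat_lit 78) (PT.lf (nat_lit 11932) (nat_lit 6) (nat_lit 157) (nat_lit 2) (nat_lit 290) (nat_lit 292) (nat_lit 198)) (PT.lf (nat_lit 11628)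 (nat_lit 6) (nat_lit 153) (nat_lit 2) (nat_lit 291) (nat_lit 292) (nat_lit 197))))) (PT.nd (nat_lit 312) (PT.nd (nat_lit 156) (PT.nd (nat_lit 78) (PT.lf (nat_lit 11248) (nat_lit 3) (nat_lit 148) (nat_lit 0) (nat_lit 292) (nat_lit 292) (nat_lit 196)) (PT.lf (nat_lit 10868) (nat_lit 6) (nat_lit 143) (nat_lit 0) (nat_lit 293) (nat_lit 292) (nat_lit 195))) (PT.nd (nat_lit 78) (PT.lf (nat_lit 10412) (nat_lit 6) (nat_lit 137) (nat_lit 0) (nat_lit 294) (nat_lit 292) (nat_lit 194)) (PT.lf (nat_lit 10032) (nat_lit 6) (nat_lit 132) (nat_lit 0) (nat_lit 295) (nat_lit 292) (nat_lit 193)))) (PT.nd (nat_lit 156) (PT.nd (nat_lit 78) (PT.lf (nat_lit 9652) (nat_lit 6) (nat_lit 127) (nat_lit 0) (nat_lit 296) (nat_lit 292) (nat_lit 192)) (PT.lf (nat_lit 9272) (nat_lit 6) (nat_lit 122) (nat_lit 0) (nat_lit 297) (nat_lit 292) (nat_lit 191))) (PT.nd (nat_lit 78) (PT.lf (nat_lit 8892) (nat_lit 6) (nat_lit 117) (nat_lit 0) (nat_lit 298) (nat_lit 292) (nat_lit 190)) (PT.nd (nat_lit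 72462) (PT.lf (nat_lit 8588) (nat_lit 6) (nat_lit 113) (nat_lit 0) (nat_lit 299) (nat_lit 292) (nat_lit 189)) (PT.lf (nat_lit 7980) (nat_lit 6) (nat_lit 105) (nat_lit 5) (nat_lit 187) (nat_lit 293) (nat_lit 300))))))) (PT.nd (nat_lit 624) (PT.nd (nat_lit 312) (PT.nd (nat_lit 156) (PT.nd (nat_lit 78) (PT.lf (nat_lit 8284) (nat_lit 6) (nat_lit 109) (nat_lit 5) (nat_lit 188) (nat_lit 293) (nat_lit 299)) (PT.lf (nat_lit 8664) (nat_lit 6) (nat_lit 114) (nat_lit 5) (nat_lit 189) (nat_lit 293) (nat_lit 298))) (PT.nd (nat_lit 78) (PT.lf (nat_lit 8968) (nat_lit 6) (nat_lit 118) (nat_lit 5) (nat_lit 190) (nat_lit 293) (nat_lit 297)) (PT.lf (nat_lit 9348) (nat_lit 6) (nat_lit 123) (nat_lit 5) (nat_lit 191) (nat_lit 293) (nat_lit 296)))) (PT.nd (nat_lit 156) (PT.nd (nat_lit 78) (PT.lf (nat_lit 9728) (nat_lit 6) (nat_lit 128) (nat_lit 5) (nat_lit 192) (nat_lit 293) (nat_lit 295)) (PT.lf (nat_lit 10108) (nat_lit 6) (nat_lit 133) (nat_lit 5) (nat_lit 193) (nat_lit 293) (nat_lit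 294))) (PT.nd (nat_lit 78) (PT.lf (nat_lit 10488) (nat_lit 3) (nat_lit 138) (nat_lit 4) (nat_lit 194) (nat_lit 293) (nat_lit 293)) (PT.lf (nat_lit 10868) (nat_lit 6) (nat_lit 143) (nat_lit 4) (nat_lit 195) (nat_lit 293) (nat_lit 292))))) (PT.nd (nat_lit 312) (PT.nd (nat_lit 156) (PT.nd (nat_lit 78) (PT.lf (nat_lit 11172) (nat_lit 6) (nat_lit 147) (nat_lit 4) (nat_lit 196) (nat_lit 293) (nat_lit 291)) (PT.lf (nat_lit 11552) (nat_lit 6) (nat_lit 152) (nat_lit 4) (nat_lit 197) (nat_lit 293) (nat_lit 290))) (PT.nd (nat_lit 78) (PT.lf (nat_lit 11856) (nat_lit 6) (nat_lit 156) (nat_lit 4) (nat_lit 198) (nat_lit 293) (nat_lit 289)) (PT.lf (nat_lit 12236) (nat_lit 6) (nat_lit 161) (nat_lit 4) (nat_lit 199) (nat_lit 293) (nat_lit 288)))) (PT.nd (nat_lit 156) (PT.nd (nat_lit 78) (PT.lf (nat_lit 12616) (nat_lit 6) (nat_lit 166) (nat_lit 4) (nat_lit 200) (nat_lit 293) (nat_lit 287)) (PT.lf (nat_lit 12996) (nat_lit 6) (nat_lit 171) (nat_lit 4) (nat_lit 201) (nat_lit 293)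 (nat_lit 286))) (PT.nd (nat_lit 78) (PT.lf (nat_lit 13376) (nat_lit 6) (nat_lit 176) (nat_lit 4) (nat_lit 202) (nat_lit 293) (nat_lit 285)) (PT.nd (nat_lit 78) (PT.lf (nat_lit 13756) (nat_lit 6) (nat_lit 181) (nat_lit 4) (nat_lit 203) (nat_lit 293) (nat_lit 284)) (PT.lf (nat_lit 14136) (nat_lit 6) (nat_lit 186) (nat_lit 4) (nat_lit 204) (nat_lit 293) (nat_lit 283))))))))
noncomputable def pc115 : PT := (PT.nd (nat_lit 7254) (PT.nd (nat_lit 6552) (PT.nd (nat_lit 6240) (PT.nd (nat_lit 6084) (PT.nd (nat_lit 6006) (PT.lf (nat_lit 14592) (nat_lit 6) (nat_lit 192) (nat_lit 4) (nat_lit 205) (nat_lit 293) (nat_lit 282)) (PT.lf (nat_lit 14592) (nat_lit 6) (nat_lit 192) (nat_lit 2) (nat_lit 282) (nat_lit 293) (nat_lit 205))) (PT.nd (nat_lit 78) (PT.lf (nat_lit 14136) (nat_lit 6) (nat_lit 186) (nat_lit 2) (nat_lit 283) (nat_lit 293) (nat_lit 204)) (PT.lf (nat_lit 13756) (nat_lit 6) (nat_lit 181) (nat_lit 2) (nat_lit 284) (nat_lit 293) (nat_lit 203)))) (PT.nd (nat_lit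 156) (PT.nd (nat_lit 78) (PT.lf (nat_lit 13376) (nat_lit 6) (nat_lit 176) (nat_lit 2) (nat_lit 285) (nat_lit 293) (nat_lit 202)) (PT.lf (nat_lit 12996) (nat_lit 6) (nat_lit 171) (nat_lit 2) (nat_lit 286) (nat_lit 293) (nat_lit 201))) (PT.nd (nat_lit 78) (PT.lf (nat_lit 12616) (nat_lit 6) (nat_lit 166) (nat_lit 2) (nat_lit 287) (nat_lit 293) (nat_lit 200)) (PT.lf (nat_lit 12236) (nat_lit 6) (nat_lit 161) (nat_lit 2) (nat_lit 288) (nat_lit 293) (nat_lit 199))))) (PT.nd (nat_lit 312) (PT.nd (nat_lit 156) (PT.nd (nat_lit 78) (PT.lf (nat_lit 11856) (nat_lit 6) (nat_lit 156) (nat_lit 2) (nat_lit 289) (nat_lit 293) (nat_lit 198)) (PT.lf (nat_lit 11552) (nat_lit 6) (nat_lit 152) (nat_lit 2) (nat_lit 290) (nat_lit 293) (nat_lit 197))) (PT.nd (nat_lit 78) (PT.lf (nat_lit 11172) (nat_lit 6) (nat_lit 147) (nat_lit 2) (nat_lit 291) (nat_lit 293) (nat_lit 196)) (PT.lf (nat_lit 10868) (nat_lit 6) (nat_lit 143) (nat_lit 2) (nat_lit 292) (nat_lit 293) (nat_lit 195)))) (PT.nd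 (nat_lit 156) (PT.nd (nat_lit 78) (PT.lf (nat_lit 10488) (nat_lit 3) (nat_lit 138) (nat_lit 0) (nat_lit 293) (nat_lit 293) (nat_lit 194)) (PT.lf (nat_lit 10108) (nat_lit 6) (nat_lit 133) (nat_lit 0) (nat_lit 294) (nat_lit 293) (nat_lit 193))) (PT.nd (nat_lit 78) (PT.lf (nat_lit 9728) (nat_lit 6) (nat_lit 128) (nat_lit 0) (nat_lit 295) (nat_lit 293) (nat_lit 192)) (PT.nd (nat_lit 78) (PT.lf (nat_lit 9348) (nat_lit 6) (nat_lit 123) (nat_lit 0) (nat_lit 296) (nat_lit 293) (nat_lit 191)) (PT.lf (nat_lit 8968) (nat_lit 6) (nat_lit 118) (nat_lit 0) (nat_lit 297) (nat_lit 293) (nat_lit 190))))))) (PT.nd (nat_lit 72930) (PT.nd (nat_lit 72540) (PT.nd (nat_lit 156) (PT.nd (nat_lit 78) (PT.lf (nat_lit 8664) (nat_lit 6) (nat_lit 114) (nat_lit 0) (nat_lit 298) (nat_lit 293) (nat_lit 189)) (PT.lf (nat_lit 8284) (nat_lit 6) (nat_lit 109) (nat_lit 0) (nat_lit 299) (nat_lit 293) (nat_lit 188))) (PT.nd (nat_lit 72306) (PT.lf (nat_lit 7980) (nat_lit 6) (nat_lit 105) (nat_lit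 0) (nat_lit 300) (nat_lit 293) (nat_lit 187)) (PT.lf (nat_lit 7676) (nat_lit 6) (nat_lit 101) (nat_lit 5) (nat_lit 186) (nat_lit 294) (nat_lit 300)))) (PT.nd (nat_lit 156) (PT.nd (nat_lit 78) (PT.lf (nat_lit 8056) (nat_lit 6) (nat_lit 106) (nat_lit 5) (nat_lit 187) (nat_lit 294) (nat_lit 299)) (PT.lf (nat_lit 8360) (nat_lit 6) (nat_lit 110) (nat_lit 5) (nat_lit 188) (nat_lit 294) (nat_lit 298))) (PT.nd (nat_lit 78) (PT.lf (nat_lit 8740) (nat_lit 6) (nat_lit 115) (nat_lit 5) (nat_lit 189) (nat_lit 294) (nat_lit 297)) (PT.nd (nat_lit 78) (PT.lf (nat_lit 9044) (nat_lit 6) (nat_lit 119) (nat_lit 5) (nat_lit 190) (nat_lit 294) (nat_lit 296)) (PT.lf (nat_lit 9424) (nat_lit 6) (nat_lit 124) (nat_lit 5) (nat_lit 191) (nat_lit 294) (nat_lit 295)))))) (PT.nd (nat_lit 312) (PT.nd (nat_lit 156) (PT.nd (nat_lit 78) (PT.lf (nat_lit 9804) (nat_lit 3) (nat_lit 129) (nat_lit 4) (nat_lit 192) (nat_lit 294) (nat_lit 294)) (PT.lf (nat_lit 10108) (nat_lit 6) (nat_lit 133) (nat_lit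 4) (nat_lit 193) (nat_lit 294) (nat_lit 293))) (PT.nd (nat_lit 78) (PT.lf (nat_lit 10412) (nat_lit 6) (nat_lit 137) (nat_lit 4) (nat_lit 194) (nat_lit 294) (nat_lit 292)) (PT.lf (nat_lit 10792) (nat_lit 6) (nat_lit 142) (nat_lit 4) (nat_lit 195) (nat_lit 294) (nat_lit 291)))) (PT.nd (nat_lit 156) (PT.nd (nat_lit 78) (PT.lf (nat_lit 11096) (nat_lit 6) (nat_lit 146) (nat_lit 4) (nat_lit 196) (nat_lit 294) (nat_lit 290)) (PT.lf (nat_lit 11476) (nat_lit 6) (nat_lit 151) (nat_lit 4) (nat_lit 197) (nat_lit 294) (nat_lit 289))) (PT.nd (nat_lit 78) (PT.lf (nat_lit 11780) (nat_lit 6) (nat_lit 155) (nat_lit 4) (nat_lit 198) (nat_lit 294) (nat_lit 288)) (PT.nd (nat_lit 78) (PT.lf (nat_lit 12160) (nat_lit 6) (nat_lit 160) (nat_lit 4) (nat_lit 199) (nat_lit 294) (nat_lit 287)) (PT.lf (nat_lit 12540) (nat_lit 6) (nat_lit 165) (nat_lit 4) (nat_lit 200) (nat_lit 294) (nat_lit 286))))))))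
noncomputable def pc116 : PT := (PT.nd (nat_lit 7644) (PT.nd (nat_lit 6942) (PT.nd (nat_lit 6630) (PT.nd (nat_lit 6474) (PT.nd (nat_lit 78) (PT.lf (nat_lit 12920) (nat_lit 6) (nat_lit 170) (nat_lit 4) (nat_lit 201) (nat_lit 294) (nat_lit 285)) (PT.lf (nat_lit 13300) (nat_lit 6) (nat_lit 175) (nat_lit 4) (nat_lit 202) (nat_lit 294) (nat_lit 284))) (PT.nd (nat_lit 78) (PT.lf (nat_lit 13300) (nat_lit 6) (nat_lit 175) (nat_lit 2) (nat_lit 284) (nat_lit 294) (nat_lit 202)) (PT.lf (nat_lit 12920) (nat_lit 6) (nat_lit 170) (nat_lit 2) (nat_lit 285) (nat_lit 294) (nat_lit 201)))) (PT.nd (nat_lit 156) (PT.nd (nat_lit 78) (PT.lf (nat_lit 12540) (nat_lit 6) (nat_lit 165) (nat_lit 2) (nat_lit 286) (nat_lit 294) (nat_lit 200)) (PT.lf (nat_lit 12160) (nat_lit 6) (nat_lit 160) (nat_lit 2) (nat_lit 287) (nat_lit 294) (nat_lit 199))) (PT.nd (nat_lit 78) (PT.lf (nat_lit 11780) (nat_lit 6) (nat_lit 155) (nat_lit 2) (nat_lit 288) (nat_lit 294) (nat_lit 198)) (PT.lf (nat_lit 11476)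 (nat_lit 6) (nat_lit 151) (nat_lit 2) (nat_lit 289) (nat_lit 294) (nat_lit 197))))) (PT.nd (nat_lit 312) (PT.nd (nat_lit 156) (PT.nd (nat_lit 78) (PT.lf (nat_lit 11096) (nat_lit 6) (nat_lit 146) (nat_lit 2) (nat_lit 290) (nat_lit 294) (nat_lit 196)) (PT.lf (nat_lit 10792) (nat_lit 6) (nat_lit 142) (nat_lit 2) (nat_lit 291) (nat_lit 294) (nat_lit 195))) (PT.nd (nat_lit 78) (PT.lf (nat_lit 10412) (nat_lit 6) (nat_lit 137) (nat_lit 2) (nat_lit 292) (nat_lit 294) (nat_lit 194)) (PT.lf (nat_lit 10108) (nat_lit 6) (nat_lit 133) (nat_lit 2) (nat_lit 293) (nat_lit 294) (nat_lit 193)))) (PT.nd (nat_lit 156) (PT.nd (nat_lit 78) (PT.lf (nat_lit 9804) (nat_lit 3) (nat_lit 129) (nat_lit 0) (nat_lit 294) (nat_lit 294) (nat_lit 192)) (PT.lf (nat_lit 9424) (nat_lit 6) (nat_lit 124) (nat_lit 0) (nat_lit 295) (nat_lit 294) (nat_lit 191))) (PT.nd (nat_lit 78) (PT.lf (nat_lit 9044) (nat_lit 6) (nat_lit 119) (nat_lit 0) (nat_lit 296) (nat_lit 294) (nat_lit 190)) (PT.nd (nat_lit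 78) (PT.lf (nat_lit 8740) (nat_lit 6) (nat_lit 115) (nat_lit 0) (nat_lit 297) (nat_lit 294) (nat_lit 189)) (PT.lf (nat_lit 8360) (nat_lit 6) (nat_lit 110) (nat_lit 0) (nat_lit 298) (nat_lit 294) (nat_lit 188))))))) (PT.nd (nat_lit 72696) (PT.nd (nat_lit 72384) (PT.nd (nat_lit 72228) (PT.nd (nat_lit 78) (PT.lf (nat_lit 8056) (nat_lit 6) (nat_lit 106) (nat_lit 0) (nat_lit 299) (nat_lit 294) (nat_lit 187)) (PT.lf (nat_lit 7676) (nat_lit 6) (nat_lit 101) (nat_lit 0) (nat_lit 300) (nat_lit 294) (nat_lit 186))) (PT.nd (nat_lit 78) (PT.lf (nat_lit 7068) (nat_lit 6) (nat_lit 93) (nat_lit 5) (nat_lit 184) (nat_lit 295) (nat_lit 301)) (PT.lf (nat_lit 7448) (nat_lit 6) (nat_lit 98) (nat_lit 5) (nat_lit 185) (nat_lit 295) (nat_lit 300)))) (PT.nd (nat_lit 156) (PT.nd (nat_lit 78) (PT.lf (nat_lit 7752) (nat_lit 6) (nat_lit 102) (nat_lit 5) (nat_lit 186) (nat_lit 295) (nat_lit 299)) (PT.lf (nat_lit 8132) (nat_lit 6) (nat_lit 107) (nat_lit 5) (nat_lit 187) (nat_lit 295) (nat_lit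 298))) (PT.nd (nat_lit 78) (PT.lf (nat_lit 8436) (nat_lit 6) (nat_lit 111) (nat_lit 5) (nat_lit 188) (nat_lit 295) (nat_lit 297)) (PT.lf (nat_lit 8816) (nat_lit 6) (nat_lit 116) (nat_lit 5) (nat_lit 189) (nat_lit 295) (nat_lit 296))))) (PT.nd (nat_lit 312) (PT.nd (nat_lit 156) (PT.nd (nat_lit 78) (PT.lf (nat_lit 9120) (nat_lit 3) (nat_lit 120) (nat_lit 4) (nat_lit 190) (nat_lit 295) (nat_lit 295)) (PT.lf (nat_lit 9424) (nat_lit 6) (nat_lit 124) (nat_lit 4) (nat_lit 191) (nat_lit 295) (nat_lit 294))) (PT.nd (nat_lit 78) (PT.lf (nat_lit 9728) (nat_lit 6) (nat_lit 128) (nat_lit 4) (nat_lit 192) (nat_lit 295) (nat_lit 293)) (PT.lf (nat_lit 10032) (nat_lit 6) (nat_lit 132) (nat_lit 4) (nat_lit 193) (nat_lit 295) (nat_lit 292)))) (PT.nd (nat_lit 156) (PT.nd (nat_lit 78) (PT.lf (nat_lit 10336) (nat_lit 6) (nat_lit 136) (nat_lit 4) (nat_lit 194) (nat_lit 295) (nat_lit 291)) (PT.lf (nat_lit 10716) (nat_lit 6) (nat_lit 141) (nat_lit 4) (nat_lit 195) (nat_lit 295) (nat_lit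 290))) (PT.nd (nat_lit 78) (PT.lf (nat_lit 11020) (nat_lit 6) (nat_lit 145) (nat_lit 4) (nat_lit 196) (nat_lit 295) (nat_lit 289)) (PT.nd (nat_lit 78) (PT.lf (nat_lit 11400) (nat_lit 6) (nat_lit 150) (nat_lit 4) (nat_lit 197) (nat_lit 295) (nat_lit 288)) (PT.lf (nat_lit 11704) (nat_lit 6) (nat_lit 154) (nat_lit 4) (nat_lit 198) (nat_lit 295) (nat_lit 287))))))))
noncomputable def pc117 : PT := (PT.nd (nat_lit 7878) (PT.nd (nat_lit 7176) (PT.nd (nat_lit 6864) (PT.nd (nat_lit 6708) (PT.nd (nat_lit 78) (PT.lf (nat_lit 12084) (nat_lit 6) (nat_lit 159) (nat_lit 4) (nat_lit 199) (nat_lit 295) (nat_lit 286)) (PT.lf (nat_lit 12464) (nat_lit 6) (nat_lit 164) (nat_lit 4) (nat_lit 200) (nat_lit 295) (nat_lit 285))) (PT.nd (nat_lit 78) (PT.lf (nat_lit 12464) (nat_lit 6) (nat_lit 164) (nat_lit 2) (nat_lit 285) (nat_lit 295) (nat_lit 200)) (PT.lf (nat_lit 12084) (nat_lit 6) (nat_lit 159) (nat_lit 2) (nat_lit 286) (nat_lit 295) (nat_lit 199)))) (PT.nd (nat_lit 156) (PT.nd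 (nat_lit 78) (PT.lf (nat_lit 11704) (nat_lit 6) (nat_lit 154) (nat_lit 2) (nat_lit 287) (nat_lit 295) (nat_lit 198)) (PT.lf (nat_lit 11400) (nat_lit 6) (nat_lit 150) (nat_lit 2) (nat_lit 288) (nat_lit 295) (nat_lit 197))) (PT.nd (nat_lit 78) (PT.lf (nat_lit 11020) (nat_lit 6) (nat_lit 145) (nat_lit 2) (nat_lit 289) (nat_lit 295) (nat_lit 196)) (PT.lf (nat_lit 10716) (nat_lit 6) (nat_lit 141) (nat_lit 2) (nat_lit 290) (nat_lit 295) (nat_lit 195))))) (PT.nd (nat_lit 312) (PT.nd (nat_lit 156) (PT.nd (nat_lit 78) (PT.lf (nat_lit 10336) (nat_lit 6) (nat_lit 136) (nat_lit 2) (nat_lit 291) (nat_lit 295) (nat_lit 194)) (PT.lf (nat_lit 10032) (nat_lit 6) (nat_lit 132) (nat_lit 2) (nat_lit 292) (nat_lit 295) (nat_lit 193))) (PT.nd (nat_lit 78) (PT.lf (nat_lit 9728) (nat_lit 6) (nat_lit 128) (nat_lit 2) (nat_lit 293) (nat_lit 295) (nat_lit 192)) (PT.lf (nat_lit 9424) (nat_lit 6) (nat_lit 124) (nat_lit 2) (nat_lit 294) (nat_lit 295) (nat_lit 191)))) (PT.nd (nat_lit 156)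 (PT.nd (nat_lit 78) (PT.lf (nat_lit 9120) (nat_lit 3) (nat_lit 120) (nat_lit 0) (nat_lit 295) (nat_lit 295) (nat_lit 190)) (PT.lf (nat_lit 8816) (nat_lit 6) (nat_lit 116) (nat_lit 0) (nat_lit 296) (nat_lit 295) (nat_lit 189))) (PT.nd (nat_lit 78) (PT.lf (nat_lit 8436) (nat_lit 6) (nat_lit 111) (nat_lit 0) (nat_lit 297) (nat_lit 295) (nat_lit 188)) (PT.nd (nat_lit 78) (PT.lf (nat_lit 8132) (nat_lit 6) (nat_lit 107) (nat_lit 0) (nat_lit 298) (nat_lit 295) (nat_lit 187)) (PT.lf (nat_lit 7752) (nat_lit 6) (nat_lit 102) (nat_lit 0) (nat_lit 299) (nat_lit 295) (nat_lit 186))))))) (PT.nd (nat_lit 72462) (PT.nd (nat_lit 72150) (PT.nd (nat_lit 71994) (PT.nd (nat_lit 78) (PT.lf (nat_lit 7448) (nat_lit 6) (nat_lit 98) (nat_lit 0) (nat_lit 300) (nat_lit 295) (nat_lit 185)) (PT.lf (nat_lit 7068) (nat_lit 6) (nat_lit 93) (nat_lit 0) (nat_lit 301) (nat_lit 295) (nat_lit 184))) (PT.nd (nat_lit 78) (PT.lf (nat_lit 6536) (nat_lit 6) (nat_lit 86) (nat_lit 5) (nat_lit 182) (nat_lit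 296) (nat_lit 302)) (PT.lf (nat_lit 6840) (nat_lit 6) (nat_lit 90) (nat_lit 5) (nat_lit 183) (nat_lit 296) (nat_lit 301)))) (PT.nd (nat_lit 156) (PT.nd (nat_lit 78) (PT.lf (nat_lit 7144) (nat_lit 6) (nat_lit 94) (nat_lit 5) (nat_lit 184) (nat_lit 296) (nat_lit 300)) (PT.lf (nat_lit 7524) (nat_lit 6) (nat_lit 99) (nat_lit 5) (nat_lit 185) (nat_lit 296) (nat_lit 299))) (PT.nd (nat_lit 78) (PT.lf (nat_lit 7828) (nat_lit 6) (nat_lit 103) (nat_lit 5) (nat_lit 186) (nat_lit 296) (nat_lit 298)) (PT.lf (nat_lit 8208) (nat_lit 6) (nat_lit 108) (nat_lit 5) (nat_lit 187) (nat_lit 296) (nat_lit 297))))) (PT.nd (nat_lit 312) (PT.nd (nat_lit 156) (PT.nd (nat_lit 78) (PT.lf (nat_lit 8512) (nat_lit 3) (nat_lit 112) (nat_lit 4) (nat_lit 188) (nat_lit 296) (nat_lit 296)) (PT.lf (nat_lit 8816) (nat_lit 6) (nat_lit 116) (nat_lit 4) (nat_lit 189) (nat_lit 296) (nat_lit 295))) (PT.nd (nat_lit 78) (PT.lf (nat_lit 9044) (nat_lit 6) (nat_lit 119) (nat_lit 4) (nat_lit 190) (nat_lit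 296) (nat_lit 294)) (PT.lf (nat_lit 9348) (nat_lit 6) (nat_lit 123) (nat_lit 4) (nat_lit 191) (nat_lit 296) (nat_lit 293)))) (PT.nd (nat_lit 156) (PT.nd (nat_lit 78) (PT.lf (nat_lit 9652) (nat_lit 6) (nat_lit 127) (nat_lit 4) (nat_lit 192) (nat_lit 296) (nat_lit 292)) (PT.lf (nat_lit 9956) (nat_lit 6) (nat_lit 131) (nat_lit 4) (nat_lit 193) (nat_lit 296) (nat_lit 291))) (PT.nd (nat_lit 78) (PT.lf (nat_lit 10260) (nat_lit 6) (nat_lit 135) (nat_lit 4) (nat_lit 194) (nat_lit 296) (nat_lit 290)) (PT.nd (nat_lit 78) (PT.lf (nat_lit 10640) (nat_lit 6) (nat_lit 140) (nat_lit 4) (nat_lit 195) (nat_lit 296) (nat_lit 289)) (PT.lf (nat_lit 10944) (nat_lit 6) (nat_lit 144) (nat_lit 4) (nat_lit 196) (nat_lit 296) (nat_lit 288))))))))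
noncomputable def pc118 : PT := (PT.nd (nat_lit 79872) (PT.nd (nat_lit 7566) (PT.nd (nat_lit 7254) (PT.nd (nat_lit 7098) (PT.nd (nat_lit 7020) (PT.lf (nat_lit 11324) (nat_lit 6) (nat_lit 149) (nat_lit 4) (nat_lit 197) (nat_lit 296) (nat_lit 287)) (PT.lf (nat_lit 11324) (nat_lit 6) (nat_lit 149) (nat_lit 2) (nat_lit 287) (nat_lit 296) (nat_lit 197))) (PT.nd (nat_lit 78) (PT.lf (nat_lit 10944) (nat_lit 6) (nat_lit 144) (nat_lit 2) (nat_lit 288) (nat_lit 296) (nat_lit 196)) (PT.lf (nat_lit 10640) (nat_lit 6) (nat_lit 140) (nat_lit 2) (nat_lit 289) (nat_lit 296) (nat_lit 195)))) (PT.nd (nat_lit 156) (PT.nd (nat_lit 78) (PT.lf (nat_lit 10260) (nat_lit 6) (nat_lit 135) (nat_lit 2) (nat_lit 290) (nat_lit 296) (nat_lit 194)) (PT.lf (nat_lit 9956) (nat_lit 6) (nat_lit 131) (nat_lit 2) (nat_lit 291) (nat_lit 296) (nat_lit 193))) (PT.nd (nat_lit 78) (PT.lf (nat_lit 9652) (nat_lit 6) (nat_lit 127) (nat_lit 2) (nat_lit 292) (nat_lit 296) (nat_lit 192)) (PT.lf (nat_lit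 9348) (nat_lit 6) (nat_lit 123) (nat_lit 2) (nat_lit 293) (nat_lit 296) (nat_lit 191))))) (PT.nd (nat_lit 312) (PT.nd (nat_lit 156) (PT.nd (nat_lit 78) (PT.lf (nat_lit 9044) (nat_lit 6) (nat_lit 119) (nat_lit 2) (nat_lit 294) (nat_lit 296) (nat_lit 190)) (PT.lf (nat_lit 8816) (nat_lit 6) (nat_lit 116) (nat_lit 2) (nat_lit 295) (nat_lit 296) (nat_lit 189))) (PT.nd (nat_lit 78) (PT.lf (nat_lit 8512) (nat_lit 3) (nat_lit 112) (nat_lit 0) (nat_lit 296) (nat_lit 296) (nat_lit 188)) (PT.lf (nat_lit 8208) (nat_lit 6) (nat_lit 108) (nat_lit 0) (nat_lit 297) (nat_lit 296) (nat_lit 187)))) (PT.nd (nat_lit 156) (PT.nd (nat_lit 78) (PT.lf (nat_lit 7828) (nat_lit 6) (nat_lit 103) (nat_lit 0) (nat_lit 298) (nat_lit 296) (nat_lit 186)) (PT.lf (nat_lit 7524) (nat_lit 6) (nat_lit 99) (nat_lit 0) (nat_lit 299) (nat_lit 296) (nat_lit 185))) (PT.nd (nat_lit 78) (PT.lf (nat_lit 7144) (nat_lit 6) (nat_lit 94) (nat_lit 0) (nat_lit 300) (nat_lit 296) (nat_lit 184)) (PT.nd (nat_lit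 78) (PT.lf (nat_lit 6840) (nat_lit 6) (nat_lit 90) (nat_lit 0) (nat_lit 301) (nat_lit 296) (nat_lit 183)) (PT.lf (nat_lit 6536) (nat_lit 6) (nat_lit 86) (nat_lit 0) (nat_lit 302) (nat_lit 296) (nat_lit 182))))))) (PT.nd (nat_lit 624) (PT.nd (nat_lit 312) (PT.nd (nat_lit 156) (PT.nd (nat_lit 78) (PT.lf (nat_lit 6004) (nat_lit 6) (nat_lit 79) (nat_lit 5) (nat_lit 180) (nat_lit 297) (nat_lit 303)) (PT.lf (nat_lit 6308) (nat_lit 6) (nat_lit 83) (nat_lit 5) (nat_lit 181) (nat_lit 297) (nat_lit 302))) (PT.nd (nat_lit 78) (PT.lf (nat_lit 6612) (nat_lit 6) (nat_lit 87) (nat_lit 5) (nat_lit 182) (nat_lit 297) (nat_lit 301)) (PT.lf (nat_lit 6916) (nat_lit 6) (nat_lit 91) (nat_lit 5) (nat_lit 183) (nat_lit 297) (nat_lit 300)))) (PT.nd (nat_lit 156) (PT.nd (nat_lit 78) (PT.lf (nat_lit 7220) (nat_lit 6) (nat_lit 95) (nat_lit 5) (nat_lit 184) (nat_lit 297) (nat_lit 299)) (PT.lf (nat_lit 7600) (nat_lit 6) (nat_lit 100) (nat_lit 5) (nat_lit 185) (nat_lit 297) (nat_lit 298)))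 (PT.nd (nat_lit 78) (PT.lf (nat_lit 7904) (nat_lit 3) (nat_lit 104) (nat_lit 4) (nat_lit 186) (nat_lit 297) (nat_lit 297)) (PT.lf (nat_lit 8208) (nat_lit 6) (nat_lit 108) (nat_lit 4) (nat_lit 187) (nat_lit 297) (nat_lit 296))))) (PT.nd (nat_lit 312) (PT.nd (nat_lit 156) (PT.nd (nat_lit 78) (PT.lf (nat_lit 8436) (nat_lit 6) (nat_lit 111) (nat_lit 4) (nat_lit 188) (nat_lit 297) (nat_lit 295)) (PT.lf (nat_lit 8740) (nat_lit 6) (nat_lit 115) (nat_lit 4) (nat_lit 189) (nat_lit 297) (nat_lit 294))) (PT.nd (nat_lit 78) (PT.lf (nat_lit 8968) (nat_lit 6) (nat_lit 118) (nat_lit 4) (nat_lit 190) (nat_lit 297) (nat_lit 293)) (PT.lf (nat_lit 9272) (nat_lit 6) (nat_lit 122) (nat_lit 4) (nat_lit 191) (nat_lit 297) (nat_lit 292)))) (PT.nd (nat_lit 156) (PT.nd (nat_lit 78) (PT.lf (nat_lit 9576) (nat_lit 6) (nat_lit 126) (nat_lit 4) (nat_lit 192) (nat_lit 297) (nat_lit 291)) (PT.lf (nat_lit 9880) (nat_lit 6) (nat_lit 130) (nat_lit 4) (nat_lit 193) (nat_lit 297) (nat_lit 290)))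 (PT.nd (nat_lit 7410) (PT.lf (nat_lit 10184) (nat_lit 6) (nat_lit 134) (nat_lit 4) (nat_lit 194) (nat_lit 297) (nat_lit 289)) (PT.nd (nat_lit 78) (PT.lf (nat_lit 10184) (nat_lit 6) (nat_lit 134) (nat_lit 2) (nat_lit 289) (nat_lit 297) (nat_lit 194)) (PT.lf (nat_lit 9880) (nat_lit 6) (nat_lit 130) (nat_lit 2) (nat_lit 290) (nat_lit 297) (nat_lit 193))))))))
noncomputable def pc119 : PT := (PT.nd (nat_lit 72774) (PT.nd (nat_lit 624) (PT.nd (nat_lit 312) (PT.nd (nat_lit 156) (PT.nd (nat_lit 78) (PT.lf (nat_lit 9576) (nat_lit 6) (nat_lit 126) (nat_lit 2) (nat_lit 291) (nat_lit 297) (nat_lit 192)) (PT.lf (nat_lit 9272) (nat_lit 6) (nat_lit 122) (nat_lit 2) (nat_lit 292) (nat_lit 297) (nat_lit 191))) (PT.nd (nat_lit 78) (PT.lf (nat_lit 8968) (nat_lit 6) (nat_lit 118) (nat_lit 2) (nat_lit 293) (nat_lit 297) (nat_lit 190)) (PT.lf (nat_lit 8740) (nat_lit 6) (nat_lit 115) (nat_lit 2) (nat_lit 294) (nat_lit 297) (nat_lit 189)))) (PT.nd (nat_lit 156) (PT.nd (nat_lit 78)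 (PT.lf (nat_lit 8436) (nat_lit 6) (nat_lit 111) (nat_lit 2) (nat_lit 295) (nat_lit 297) (nat_lit 188)) (PT.lf (nat_lit 8208) (nat_lit 6) (nat_lit 108) (nat_lit 2) (nat_lit 296) (nat_lit 297) (nat_lit 187))) (PT.nd (nat_lit 78) (PT.lf (nat_lit 7904) (nat_lit 3) (nat_lit 104) (nat_lit 0) (nat_lit 297) (nat_lit 297) (nat_lit 186)) (PT.lf (nat_lit 7600) (nat_lit 6) (nat_lit 100) (nat_lit 0) (nat_lit 298) (nat_lit 297) (nat_lit 185))))) (PT.nd (nat_lit 312) (PT.nd (nat_lit 156) (PT.nd (nat_lit 78) (PT.lf (nat_lit 7220) (nat_lit 6) (nat_lit 95) (nat_lit 0) (nat_lit 299) (nat_lit 297) (nat_lit 184)) (PT.lf (nat_lit 6916) (nat_lit 6) (nat_lit 91) (nat_lit 0) (nat_lit 300) (nat_lit 297) (nat_lit 183))) (PT.nd (nat_lit 78) (PT.lf (nat_lit 6612) (nat_lit 6) (nat_lit 87) (nat_lit 0) (nat_lit 301) (nat_lit 297) (nat_lit 182)) (PT.lf (nat_lit 6308) (nat_lit 6) (nat_lit 83) (nat_lit 0) (nat_lit 302) (nat_lit 297) (nat_lit 181)))) (PT.nd (nat_lit 71604) (PT.nd (nat_lit 71526)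 (PT.lf (nat_lit 6004) (nat_lit 6) (nat_lit 79) (nat_lit 0) (nat_lit 303) (nat_lit 297) (nat_lit 180)) (PT.lf (nat_lit 5776) (nat_lit 6) (nat_lit 76) (nat_lit 5) (nat_lit 179) (nat_lit 298) (nat_lit 303))) (PT.nd (nat_lit 78) (PT.lf (nat_lit 6080) (nat_lit 6) (nat_lit 80) (nat_lit 5) (nat_lit 180) (nat_lit 298) (nat_lit 302)) (PT.nd (nat_lit 78) (PT.lf (nat_lit 6384) (nat_lit 6) (nat_lit 84) (nat_lit 5) (nat_lit 181) (nat_lit 298) (nat_lit 301)) (PT.lf (nat_lit 6688) (nat_lit 6) (nat_lit 88) (nat_lit 5) (nat_lit 182) (nat_lit 298) (nat_lit 300))))))) (PT.nd (nat_lit 702) (PT.nd (nat_lit 312) (PT.nd (nat_lit 156) (PT.nd (nat_lit 78) (PT.lf (nat_lit 6992) (nat_lit 6) (nat_lit 92) (nat_lit 5) (nat_lit 183) (nat_lit 298) (nat_lit 299)) (PT.lf (nat_lit 7296) (nat_lit 3) (nat_lit 96) (nat_lit 4) (nat_lit 184) (nat_lit 298) (nat_lit 298))) (PT.nd (nat_lit 78) (PT.lf (nat_lit 7600) (nat_lit 6) (nat_lit 100) (nat_lit 4) (nat_lit 185) (nat_lit 298) (nat_lit 297)) (PT.lf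 (nat_lit 7828) (nat_lit 6) (nat_lit 103) (nat_lit 4) (nat_lit 186) (nat_lit 298) (nat_lit 296)))) (PT.nd (nat_lit 156) (PT.nd (nat_lit 78) (PT.lf (nat_lit 8132) (nat_lit 6) (nat_lit 107) (nat_lit 4) (nat_lit 187) (nat_lit 298) (nat_lit 295)) (PT.lf (nat_lit 8360) (nat_lit 6) (nat_lit 110) (nat_lit 4) (nat_lit 188) (nat_lit 298) (nat_lit 294))) (PT.nd (nat_lit 78) (PT.lf (nat_lit 8664) (nat_lit 6) (nat_lit 114) (nat_lit 4) (nat_lit 189) (nat_lit 298) (nat_lit 293)) (PT.nd (nat_lit 78) (PT.lf (nat_lit 8892) (nat_lit 6) (nat_lit 117) (nat_lit 4) (nat_lit 190) (nat_lit 298) (nat_lit 292)) (PT.lf (nat_lit 9196) (nat_lit 6) (nat_lit 121) (nat_lit 4) (nat_lit 191) (nat_lit 298) (nat_lit 291)))))) (PT.nd (nat_lit 7878) (PT.nd (nat_lit 7722) (PT.nd (nat_lit 7644) (PT.lf (nat_lit 9500) (nat_lit 6) (nat_lit 125) (nat_lit 4) (nat_lit 192) (nat_lit 298) (nat_lit 290)) (PT.lf (nat_lit 9500) (nat_lit 6) (nat_lit 125) (nat_lit 2) (nat_lit 290) (nat_lit 298) (nat_lit 192)))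 (PT.nd (nat_lit 78) (PT.lf (nat_lit 9196) (nat_lit 6) (nat_lit 121) (nat_lit 2) (nat_lit 291) (nat_lit 298) (nat_lit 191)) (PT.lf (nat_lit 8892) (nat_lit 6) (nat_lit 117) (nat_lit 2) (nat_lit 292) (nat_lit 298) (nat_lit 190)))) (PT.nd (nat_lit 156) (PT.nd (nat_lit 78) (PT.lf (nat_lit 8664) (nat_lit 6) (nat_lit 114) (nat_lit 2) (nat_lit 293) (nat_lit 298) (nat_lit 189)) (PT.lf (nat_lit 8360) (nat_lit 6) (nat_lit 110) (nat_lit 2) (nat_lit 294) (nat_lit 298) (nat_lit 188))) (PT.nd (nat_lit 78) (PT.lf (nat_lit 8132) (nat_lit 6) (nat_lit 107) (nat_lit 2) (nat_lit 295) (nat_lit 298) (nat_lit 187)) (PT.nd (nat_lit 78) (PT.lf (nat_lit 7828) (nat_lit 6) (nat_lit 103) (nat_lit 2) (nat_lit 296) (nat_lit 298) (nat_lit 186)) (PT.lf (nat_lit 7600) (nat_lit 6) (nat_lit 100) (nat_lit 2) (nat_lit 297) (nat_lit 298) (nat_lit 185))))))))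
noncomputable def pc120 : PT := (PT.nd (nat_lit 72618) (PT.nd (nat_lit 71916) (PT.nd (nat_lit 312) (PT.nd (nat_lit 156) (PT.nd (nat_lit 78) (PT.lf (nat_lit 7296) (nat_lit 3) (nat_lit 96) (nat_lit 0) (nat_lit 298) (nat_lit 298) (nat_lit 184)) (PT.lf (nat_lit 6992) (nat_lit 6) (nat_lit 92) (nat_lit 0) (nat_lit 299) (nat_lit 298) (nat_lit 183))) (PT.nd (nat_lit 78) (PT.lf (nat_lit 6688) (nat_lit 6) (nat_lit 88) (nat_lit 0) (nat_lit 300) (nat_lit 298) (nat_lit 182)) (PT.lf (nat_lit 6384) (nat_lit 6) (nat_lit 84) (nat_lit 0) (nat_lit 301) (nat_lit 298) (nat_lit 181)))) (PT.nd (nat_lit 71448) (PT.nd (nat_lit 78) (PT.lf (nat_lit 6080) (nat_lit 6) (nat_lit 80) (nat_lit 0) (nat_lit 302) (nat_lit 298) (nat_lit 180)) (PT.lf (nat_lit 5776) (nat_lit 6) (nat_lit 76) (nat_lit 0) (nat_lit 303) (nat_lit 298) (nat_lit 179))) (PT.nd (nat_lit 78) (PT.lf (nat_lit 5244) (nat_lit 6) (nat_lit 69) (nat_lit 5) (nat_lit 177) (nat_lit 299) (nat_lit 304)) (PT.lf (nat_lit 5548) (nat_lit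 6) (nat_lit 73) (nat_lit 5) (nat_lit 178) (nat_lit 299) (nat_lit 303))))) (PT.nd (nat_lit 312) (PT.nd (nat_lit 156) (PT.nd (nat_lit 78) (PT.lf (nat_lit 5852) (nat_lit 6) (nat_lit 77) (nat_lit 5) (nat_lit 179) (nat_lit 299) (nat_lit 302)) (PT.lf (nat_lit 6156) (nat_lit 6) (nat_lit 81) (nat_lit 5) (nat_lit 180) (nat_lit 299) (nat_lit 301))) (PT.nd (nat_lit 78) (PT.lf (nat_lit 6460) (nat_lit 6) (nat_lit 85) (nat_lit 5) (nat_lit 181) (nat_lit 299) (nat_lit 300)) (PT.lf (nat_lit 6764) (nat_lit 3) (nat_lit 89) (nat_lit 4) (nat_lit 182) (nat_lit 299) (nat_lit 299)))) (PT.nd (nat_lit 156) (PT.nd (nat_lit 78) (PT.lf (nat_lit 6992) (nat_lit 6) (nat_lit 92) (nat_lit 4) (nat_lit 183) (nat_lit 299) (nat_lit 298)) (PT.lf (nat_lit 7220) (nat_lit 6) (nat_lit 95) (nat_lit 4) (nat_lit 184) (nat_lit 299) (nat_lit 297))) (PT.nd (nat_lit 78) (PT.lf (nat_lit 7524) (nat_lit 6) (nat_lit 99) (nat_lit 4) (nat_lit 185) (nat_lit 299) (nat_lit 296)) (PT.nd (nat_lit 78) (PT.lf (nat_lit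 7752) (nat_lit 6) (nat_lit 102) (nat_lit 4) (nat_lit 186) (nat_lit 299) (nat_lit 295)) (PT.lf (nat_lit 8056) (nat_lit 6) (nat_lit 106) (nat_lit 4) (nat_lit 187) (nat_lit 299) (nat_lit 294))))))) (PT.nd (nat_lit 8580) (PT.nd (nat_lit 8268) (PT.nd (nat_lit 8112) (PT.nd (nat_lit 78) (PT.lf (nat_lit 8284) (nat_lit 6) (nat_lit 109) (nat_lit 4) (nat_lit 188) (nat_lit 299) (nat_lit 293)) (PT.lf (nat_lit 8588) (nat_lit 6) (nat_lit 113) (nat_lit 4) (nat_lit 189) (nat_lit 299) (nat_lit 292))) (PT.nd (nat_lit 78) (PT.lf (nat_lit 8588) (nat_lit 6) (nat_lit 113) (nat_lit 2) (nat_lit 292) (nat_lit 299) (nat_lit 189)) (PT.lf (nat_lit 8284) (nat_lit 6) (nat_lit 109) (nat_lit 2) (nat_lit 293) (nat_lit 299) (nat_lit 188)))) (PT.nd (nat_lit 156) (PT.nd (nat_lit 78) (PT.lf (nat_lit 8056) (nat_lit 6) (nat_lit 106) (nat_lit 2) (nat_lit 294) (nat_lit 299) (nat_lit 187)) (PT.lf (nat_lit 7752) (nat_lit 6) (nat_lit 102) (nat_lit 2) (nat_lit 295) (nat_lit 299) (nat_lit 186))) (PT.nd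 (nat_lit 78) (PT.lf (nat_lit 7524) (nat_lit 6) (nat_lit 99) (nat_lit 2) (nat_lit 296) (nat_lit 299) (nat_lit 185)) (PT.lf (nat_lit 7220) (nat_lit 6) (nat_lit 95) (nat_lit 2) (nat_lit 297) (nat_lit 299) (nat_lit 184))))) (PT.nd (nat_lit 312) (PT.nd (nat_lit 156) (PT.nd (nat_lit 78) (PT.lf (nat_lit 6992) (nat_lit 6) (nat_lit 92) (nat_lit 2) (nat_lit 298) (nat_lit 299) (nat_lit 183)) (PT.lf (nat_lit 6764) (nat_lit 3) (nat_lit 89) (nat_lit 0) (nat_lit 299) (nat_lit 299) (nat_lit 182))) (PT.nd (nat_lit 78) (PT.lf (nat_lit 6460) (nat_lit 6) (nat_lit 85) (nat_lit 0) (nat_lit 300) (nat_lit 299) (nat_lit 181)) (PT.lf (nat_lit 6156) (nat_lit 6) (nat_lit 81) (nat_lit 0) (nat_lit 301) (nat_lit 299) (nat_lit 180)))) (PT.nd (nat_lit 156) (PT.nd (nat_lit 78) (PT.lf (nat_lit 5852) (nat_lit 6) (nat_lit 77) (nat_lit 0) (nat_lit 302) (nat_lit 299) (nat_lit 179)) (PT.lf (nat_lit 5548) (nat_lit 6) (nat_lit 73) (nat_lit 0) (nat_lit 303) (nat_lit 299) (nat_lit 178))) (PT.nd (nat_lit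 71214) (PT.lf (nat_lit 5244) (nat_lit 6) (nat_lit 69) (nat_lit 0) (nat_lit 304) (nat_lit 299) (nat_lit 177)) (PT.nd (nat_lit 78) (PT.lf (nat_lit 5016) (nat_lit 6) (nat_lit 66) (nat_lit 5) (nat_lit 176) (nat_lit 300) (nat_lit 304)) (PT.lf (nat_lit 5320) (nat_lit 6) (nat_lit 70) (nat_lit 5) (nat_lit 177) (nat_lit 300) (nat_lit 303))))))))
noncomputable def pc121 : PT := (PT.nd (nat_lit 9516) (PT.nd (nat_lit 624) (PT.nd (nat_lit 312) (PT.nd (nat_lit 156) (PT.nd (nat_lit 78) (PT.lf (nat_lit 5624) (nat_lit 6) (nat_lit 74) (nat_lit 5) (nat_lit 178) (nat_lit 300) (nat_lit 302)) (PT.lf (nat_lit 5928) (nat_lit 6) (nat_lit 78) (nat_lit 5) (nat_lit 179) (nat_lit 300) (nat_lit 301))) (PT.nd (nat_lit 78) (PT.lf (nat_lit 6232) (nat_lit 3) (nat_lit 82) (nat_lit 4) (nat_lit 180) (nat_lit 300) (nat_lit 300)) (PT.lf (nat_lit 6460) (nat_lit 6) (nat_lit 85) (nat_lit 4) (nat_lit 181) (nat_lit 300) (nat_lit 299)))) (PT.nd (nat_lit 156) (PT.nd (nat_lit 78) (PT.lf (nat_lit 6688)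 (nat_lit 6) (nat_lit 88) (nat_lit 4) (nat_lit 182) (nat_lit 300) (nat_lit 298)) (PT.lf (nat_lit 6916) (nat_lit 6) (nat_lit 91) (nat_lit 4) (nat_lit 183) (nat_lit 300) (nat_lit 297))) (PT.nd (nat_lit 78) (PT.lf (nat_lit 7144) (nat_lit 6) (nat_lit 94) (nat_lit 4) (nat_lit 184) (nat_lit 300) (nat_lit 296)) (PT.lf (nat_lit 7448) (nat_lit 6) (nat_lit 98) (nat_lit 4) (nat_lit 185) (nat_lit 300) (nat_lit 295))))) (PT.nd (nat_lit 8502) (PT.nd (nat_lit 8346) (PT.nd (nat_lit 78) (PT.lf (nat_lit 7676) (nat_lit 6) (nat_lit 101) (nat_lit 4) (nat_lit 186) (nat_lit 300) (nat_lit 294)) (PT.lf (nat_lit 7980) (nat_lit 6) (nat_lit 105) (nat_lit 4) (nat_lit 187) (nat_lit 300) (nat_lit 293))) (PT.nd (nat_lit 78) (PT.lf (nat_lit 7980) (nat_lit 6) (nat_lit 105) (nat_lit 2) (nat_lit 293) (nat_lit 300) (nat_lit 187)) (PT.lf (nat_lit 7676) (nat_lit 6) (nat_lit 101) (nat_lit 2) (nat_lit 294) (nat_lit 300) (nat_lit 186)))) (PT.nd (nat_lit 156) (PT.nd (nat_lit 78) (PT.lf (nat_lit 7448)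 (nat_lit 6) (nat_lit 98) (nat_lit 2) (nat_lit 295) (nat_lit 300) (nat_lit 185)) (PT.lf (nat_lit 7144) (nat_lit 6) (nat_lit 94) (nat_lit 2) (nat_lit 296) (nat_lit 300) (nat_lit 184))) (PT.nd (nat_lit 78) (PT.lf (nat_lit 6916) (nat_lit 6) (nat_lit 91) (nat_lit 2) (nat_lit 297) (nat_lit 300) (nat_lit 183)) (PT.nd (nat_lit 78) (PT.lf (nat_lit 6688) (nat_lit 6) (nat_lit 88) (nat_lit 2) (nat_lit 298) (nat_lit 300) (nat_lit 182)) (PT.lf (nat_lit 6460) (nat_lit 6) (nat_lit 85) (nat_lit 2) (nat_lit 299) (nat_lit 300) (nat_lit 181))))))) (PT.nd (nat_lit 71604) (PT.nd (nat_lit 312) (PT.nd (nat_lit 156) (PT.nd (nat_lit 78) (PT.lf (nat_lit 6232) (nat_lit 3) (nat_lit 82) (nat_lit 0) (nat_lit 300) (nat_lit 300) (nat_lit 180)) (PT.lf (nat_lit 5928) (nat_lit 6) (nat_lit 78) (nat_lit 0) (nat_lit 301) (nat_lit 300) (nat_lit 179))) (PT.nd (nat_lit 78) (PT.lf (nat_lit 5624) (nat_lit 6) (nat_lit 74) (nat_lit 0) (nat_lit 302) (nat_lit 300) (nat_lit 178)) (PT.lf (nat_lit 5320) (nat_lit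 6) (nat_lit 70) (nat_lit 0) (nat_lit 303) (nat_lit 300) (nat_lit 177)))) (PT.nd (nat_lit 71136) (PT.nd (nat_lit 71058) (PT.lf (nat_lit 5016) (nat_lit 6) (nat_lit 66) (nat_lit 0) (nat_lit 304) (nat_lit 300) (nat_lit 176)) (PT.lf (nat_lit 4560) (nat_lit 6) (nat_lit 60) (nat_lit 5) (nat_lit 174) (nat_lit 301) (nat_lit 305))) (PT.nd (nat_lit 78) (PT.lf (nat_lit 4864) (nat_lit 6) (nat_lit 64) (nat_lit 5) (nat_lit 175) (nat_lit 301) (nat_lit 304)) (PT.lf (nat_lit 5092) (nat_lit 6) (nat_lit 67) (nat_lit 5) (nat_lit 176) (nat_lit 301) (nat_lit 303))))) (PT.nd (nat_lit 312) (PT.nd (nat_lit 156) (PT.nd (nat_lit 78) (PT.lf (nat_lit 5396) (nat_lit 6) (nat_lit 71) (nat_lit 5) (nat_lit 177) (nat_lit 301) (nat_lit 302)) (PT.lf (nat_lit 5700) (nat_lit 3) (nat_lit 75) (nat_lit 4) (nat_lit 178) (nat_lit 301) (nat_lit 301))) (PT.nd (nat_lit 78) (PT.lf (nat_lit 5928) (nat_lit 6) (nat_lit 78) (nat_lit 4) (nat_lit 179) (nat_lit 301) (nat_lit 300)) (PT.lf (nat_lit 6156) (nat_lit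 6) (nat_lit 81) (nat_lit 4) (nat_lit 180) (nat_lit 301) (nat_lit 299)))) (PT.nd (nat_lit 156) (PT.nd (nat_lit 78) (PT.lf (nat_lit 6384) (nat_lit 6) (nat_lit 84) (nat_lit 4) (nat_lit 181) (nat_lit 301) (nat_lit 298)) (PT.lf (nat_lit 6612) (nat_lit 6) (nat_lit 87) (nat_lit 4) (nat_lit 182) (nat_lit 301) (nat_lit 297))) (PT.nd (nat_lit 78) (PT.lf (nat_lit 6840) (nat_lit 6) (nat_lit 90) (nat_lit 4) (nat_lit 183) (nat_lit 301) (nat_lit 296)) (PT.nd (nat_lit 8658) (PT.lf (nat_lit 7068) (nat_lit 6) (nat_lit 93) (nat_lit 4) (nat_lit 184) (nat_lit 301) (nat_lit 295)) (PT.lf (nat_lit 7068) (nat_lit 6) (nat_lit 93) (nat_lit 2) (nat_lit 295) (nat_lit 301) (nat_lit 184))))))))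
noncomputable def pc122 : PT := (PT.nd (nat_lit 72072) (PT.nd (nat_lit 624) (PT.nd (nat_lit 312) (PT.nd (nat_lit 156) (PT.nd (nat_lit 78) (PT.lf (nat_lit 6840) (nat_lit 6) (nat_lit 90) (nat_lit 2) (nat_lit 296) (nat_lit 301) (nat_lit 183)) (PT.lf (nat_lit 6612) (nat_lit 6) (nat_lit 87) (nat_lit 2) (nat_lit 297) (nat_lit 301) (nat_lit 182))) (PT.nd (nat_lit 78) (PT.lf (nat_lit 6384) (nat_lit 6) (nat_lit 84) (nat_lit 2) (nat_lit 298) (nat_lit 301) (nat_lit 181)) (PT.lf (nat_lit 6156) (nat_lit 6) (nat_lit 81) (nat_lit 2) (nat_lit 299) (nat_lit 301) (nat_lit 180)))) (PT.nd (nat_lit 156) (PT.nd (nat_lit 78) (PT.lf (nat_lit 5928) (nat_lit 6) (nat_lit 78) (nat_lit 2) (nat_lit 300) (nat_lit 301) (nat_lit 179)) (PT.lf (nat_lit 5700) (nat_lit 3) (nat_lit 75) (nat_lit 0) (nat_lit 301) (nat_lit 301) (nat_lit 178))) (PT.nd (nat_lit 78) (PT.lf (nat_lit 5396) (nat_lit 6) (nat_lit 71) (nat_lit 0) (nat_lit 302) (nat_lit 301) (nat_lit 177)) (PT.lf (nat_lit 5092) (nat_lit 6)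 (nat_lit 67) (nat_lit 0) (nat_lit 303) (nat_lit 301) (nat_lit 176))))) (PT.nd (nat_lit 71058) (PT.nd (nat_lit 70902) (PT.nd (nat_lit 78) (PT.lf (nat_lit 4864) (nat_lit 6) (nat_lit 64) (nat_lit 0) (nat_lit 304) (nat_lit 301) (nat_lit 175)) (PT.lf (nat_lit 4560) (nat_lit 6) (nat_lit 60) (nat_lit 0) (nat_lit 305) (nat_lit 301) (nat_lit 174))) (PT.nd (nat_lit 78) (PT.lf (nat_lit 4104) (nat_lit 6) (nat_lit 54) (nat_lit 5) (nat_lit 172) (nat_lit 302) (nat_lit 306)) (PT.lf (nat_lit 4408) (nat_lit 6) (nat_lit 58) (nat_lit 5) (nat_lit 173) (nat_lit 302) (nat_lit 305)))) (PT.nd (nat_lit 156) (PT.nd (nat_lit 78) (PT.lf (nat_lit 4636) (nat_lit 6) (nat_lit 61) (nat_lit 5) (nat_lit 174) (nat_lit 302) (nat_lit 304)) (PT.lf (nat_lit 4940) (nat_lit 6) (nat_lit 65) (nat_lit 5) (nat_lit 175) (nat_lit 302) (nat_lit 303))) (PT.nd (nat_lit 78) (PT.lf (nat_lit 5168) (nat_lit 3) (nat_lit 68) (nat_lit 4) (nat_lit 176) (nat_lit 302) (nat_lit 302)) (PT.nd (nat_lit 78) (PT.lf (nat_lit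 5396) (nat_lit 6) (nat_lit 71) (nat_lit 4) (nat_lit 177) (nat_lit 302) (nat_lit 301)) (PT.lf (nat_lit 5624) (nat_lit 6) (nat_lit 74) (nat_lit 4) (nat_lit 178) (nat_lit 302) (nat_lit 300))))))) (PT.nd (nat_lit 9438) (PT.nd (nat_lit 9126) (PT.nd (nat_lit 156) (PT.nd (nat_lit 78) (PT.lf (nat_lit 5852) (nat_lit 6) (nat_lit 77) (nat_lit 4) (nat_lit 179) (nat_lit 302) (nat_lit 299)) (PT.lf (nat_lit 6080) (nat_lit 6) (nat_lit 80) (nat_lit 4) (nat_lit 180) (nat_lit 302) (nat_lit 298))) (PT.nd (nat_lit 78) (PT.lf (nat_lit 6308) (nat_lit 6) (nat_lit 83) (nat_lit 4) (nat_lit 181) (nat_lit 302) (nat_lit 297)) (PT.lf (nat_lit 6536) (nat_lit 6) (nat_lit 86) (nat_lit 4) (nat_lit 182) (nat_lit 302) (nat_lit 296)))) (PT.nd (nat_lit 156) (PT.nd (nat_lit 78) (PT.lf (nat_lit 6536) (nat_lit 6) (nat_lit 86) (nat_lit 2) (nat_lit 296) (nat_lit 302) (nat_lit 182)) (PT.lf (nat_lit 6308) (nat_lit 6) (nat_lit 83) (nat_lit 2) (nat_lit 297) (nat_lit 302) (nat_lit 181))) (PT.nd (nat_lit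 78) (PT.lf (nat_lit 6080) (nat_lit 6) (nat_lit 80) (nat_lit 2) (nat_lit 298) (nat_lit 302) (nat_lit 180)) (PT.lf (nat_lit 5852) (nat_lit 6) (nat_lit 77) (nat_lit 2) (nat_lit 299) (nat_lit 302) (nat_lit 179))))) (PT.nd (nat_lit 312) (PT.nd (nat_lit 156) (PT.nd (nat_lit 78) (PT.lf (nat_lit 5624) (nat_lit 6) (nat_lit 74) (nat_lit 2) (nat_lit 300) (nat_lit 302) (nat_lit 178)) (PT.lf (nat_lit 5396) (nat_lit 6) (nat_lit 71) (nat_lit 2) (nat_lit 301) (nat_lit 302) (nat_lit 177))) (PT.nd (nat_lit 78) (PT.lf (nat_lit 5168) (nat_lit 3) (nat_lit 68) (nat_lit 0) (nat_lit 302) (nat_lit 302) (nat_lit 176)) (PT.lf (nat_lit 4940) (nat_lit 6) (nat_lit 65) (nat_lit 0) (nat_lit 303) (nat_lit 302) (nat_lit 175)))) (PT.nd (nat_lit 156) (PT.nd (nat_lit 78) (PT.lf (nat_lit 4636) (nat_lit 6) (nat_lit 61) (nat_lit 0) (nat_lit 304) (nat_lit 302) (nat_lit 174)) (PT.lf (nat_lit 4408) (nat_lit 6) (nat_lit 58) (nat_lit 0) (nat_lit 305) (nat_lit 302) (nat_lit 173))) (PT.nd (nat_lit 70590)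 (PT.lf (nat_lit 4104) (nat_lit 6) (nat_lit 54) (nat_lit 0) (nat_lit 306) (nat_lit 302) (nat_lit 172)) (PT.nd (nat_lit 78) (PT.lf (nat_lit 3648) (nat_lit 6) (nat_lit 48) (nat_lit 5) (nat_lit 170) (nat_lit 303) (nat_lit 307)) (PT.lf (nat_lit 3952) (nat_lit 6) (nat_lit 52) (nat_lit 5) (nat_lit 171) (nat_lit 303) (nat_lit 306))))))))
noncomputable def pc123 : PT := (PT.nd (nat_lit 10374) (PT.nd (nat_lit 624) (PT.nd (nat_lit 312) (PT.nd (nat_lit 156) (PT.nd (nat_lit 78) (PT.lf (nat_lit 4180) (nat_lit 6) (nat_lit 55) (nat_lit 5) (nat_lit 172) (nat_lit 303) (nat_lit 305)) (PT.lf (nat_lit 4484) (nat_lit 6) (nat_lit 59) (nat_lit 5) (nat_lit 173) (nat_lit 303) (nat_lit 304))) (PT.nd (nat_lit 78) (PT.lf (nat_lit 4712) (nat_lit 3) (nat_lit 62) (nat_lit 4) (nat_lit 174) (nat_lit 303) (nat_lit 303)) (PT.lf (nat_lit 4940) (nat_lit 6) (nat_lit 65) (nat_lit 4) (nat_lit 175) (nat_lit 303) (nat_lit 302)))) (PT.nd (nat_lit 156) (PT.nd (nat_lit 78) (PT.lf (nat_lit 5092) (nat_lit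 6) (nat_lit 67) (nat_lit 4) (nat_lit 176) (nat_lit 303) (nat_lit 301)) (PT.lf (nat_lit 5320) (nat_lit 6) (nat_lit 70) (nat_lit 4) (nat_lit 177) (nat_lit 303) (nat_lit 300))) (PT.nd (nat_lit 78) (PT.lf (nat_lit 5548) (nat_lit 6) (nat_lit 73) (nat_lit 4) (nat_lit 178) (nat_lit 303) (nat_lit 299)) (PT.lf (nat_lit 5776) (nat_lit 6) (nat_lit 76) (nat_lit 4) (nat_lit 179) (nat_lit 303) (nat_lit 298))))) (PT.nd (nat_lit 9360) (PT.nd (nat_lit 9204) (PT.nd (nat_lit 9126) (PT.lf (nat_lit 6004) (nat_lit 6) (nat_lit 79) (nat_lit 4) (nat_lit 180) (nat_lit 303) (nat_lit 297)) (PT.lf (nat_lit 6004) (nat_lit 6) (nat_lit 79) (nat_lit 2) (nat_lit 297) (nat_lit 303) (nat_lit 180))) (PT.nd (nat_lit 78) (PT.lf (nat_lit 5776) (nat_lit 6) (nat_lit 76) (nat_lit 2) (nat_lit 298) (nat_lit 303) (nat_lit 179)) (PT.lf (nat_lit 5548) (nat_lit 6) (nat_lit 73) (nat_lit 2) (nat_lit 299) (nat_lit 303) (nat_lit 178)))) (PT.nd (nat_lit 156) (PT.nd (nat_lit 78) (PT.lf (nat_lit 5320) (nat_lit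 6) (nat_lit 70) (nat_lit 2) (nat_lit 300) (nat_lit 303) (nat_lit 177)) (PT.lf (nat_lit 5092) (nat_lit 6) (nat_lit 67) (nat_lit 2) (nat_lit 301) (nat_lit 303) (nat_lit 176))) (PT.nd (nat_lit 78) (PT.lf (nat_lit 4940) (nat_lit 6) (nat_lit 65) (nat_lit 2) (nat_lit 302) (nat_lit 303) (nat_lit 175)) (PT.nd (nat_lit 78) (PT.lf (nat_lit 4712) (nat_lit 3) (nat_lit 62) (nat_lit 0) (nat_lit 303) (nat_lit 303) (nat_lit 174)) (PT.lf (nat_lit 4484) (nat_lit 6) (nat_lit 59) (nat_lit 0) (nat_lit 304) (nat_lit 303) (nat_lit 173))))))) (PT.nd (nat_lit 70980) (PT.nd (nat_lit 70590) (PT.nd (nat_lit 156) (PT.nd (nat_lit 78) (PT.lf (nat_lit 4180) (nat_lit 6) (nat_lit 55) (nat_lit 0) (nat_lit 305) (nat_lit 303) (nat_lit 172)) (PT.lf (nat_lit 3952) (nat_lit 6) (nat_lit 52) (nat_lit 0) (nat_lit 306) (nat_lit 303) (nat_lit 171))) (PT.nd (nat_lit 70356) (PT.lf (nat_lit 3648) (nat_lit 6) (nat_lit 48) (nat_lit 0) (nat_lit 307) (nat_lit 303) (nat_lit 170)) (PT.lf (nat_lit 3268) (nat_lit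 6) (nat_lit 43) (nat_lit 5) (nat_lit 168) (nat_lit 304) (nat_lit 308)))) (PT.nd (nat_lit 156) (PT.nd (nat_lit 78) (PT.lf (nat_lit 3496) (nat_lit 6) (nat_lit 46) (nat_lit 5) (nat_lit 169) (nat_lit 304) (nat_lit 307)) (PT.lf (nat_lit 3724) (nat_lit 6) (nat_lit 49) (nat_lit 5) (nat_lit 170) (nat_lit 304) (nat_lit 306))) (PT.nd (nat_lit 78) (PT.lf (nat_lit 4028) (nat_lit 6) (nat_lit 53) (nat_lit 5) (nat_lit 171) (nat_lit 304) (nat_lit 305)) (PT.nd (nat_lit 78) (PT.lf (nat_lit 4256) (nat_lit 3) (nat_lit 56) (nat_lit 4) (nat_lit 172) (nat_lit 304) (nat_lit 304)) (PT.lf (nat_lit 4484) (nat_lit 6) (nat_lit 59) (nat_lit 4) (nat_lit 173) (nat_lit 304) (nat_lit 303)))))) (PT.nd (nat_lit 9750) (PT.nd (nat_lit 156) (PT.nd (nat_lit 78) (PT.lf (nat_lit 4636) (nat_lit 6) (nat_lit 61) (nat_lit 4) (nat_lit 174) (nat_lit 304) (nat_lit 302)) (PT.lf (nat_lit 4864) (nat_lit 6) (nat_lit 64) (nat_lit 4) (nat_lit 175) (nat_lit 304) (nat_lit 301))) (PT.nd (nat_lit 78) (PT.lf (nat_lit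 5016) (nat_lit 6) (nat_lit 66) (nat_lit 4) (nat_lit 176) (nat_lit 304) (nat_lit 300)) (PT.lf (nat_lit 5244) (nat_lit 6) (nat_lit 69) (nat_lit 4) (nat_lit 177) (nat_lit 304) (nat_lit 299)))) (PT.nd (nat_lit 156) (PT.nd (nat_lit 78) (PT.lf (nat_lit 5244) (nat_lit 6) (nat_lit 69) (nat_lit 2) (nat_lit 299) (nat_lit 304) (nat_lit 177)) (PT.lf (nat_lit 5016) (nat_lit 6) (nat_lit 66) (nat_lit 2) (nat_lit 300) (nat_lit 304) (nat_lit 176))) (PT.nd (nat_lit 78) (PT.lf (nat_lit 4864) (nat_lit 6) (nat_lit 64) (nat_lit 2) (nat_lit 301) (nat_lit 304) (nat_lit 175)) (PT.nd (nat_lit 78) (PT.lf (nat_lit 4636) (nat_lit 6) (nat_lit 61) (nat_lit 2) (nat_lit 302) (nat_lit 304) (nat_lit 174)) (PT.lf (nat_lit 4484) (nat_lit 6) (nat_lit 59) (nat_lit 2) (nat_lit 303) (nat_lit 304) (nat_lit 173))))))))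
noncomputable def pc124 : PT := (PT.nd (nat_lit 81276) (PT.nd (nat_lit 70746) (PT.nd (nat_lit 312) (PT.nd (nat_lit 156) (PT.nd (nat_lit 78) (PT.lf (nat_lit 4256) (nat_lit 3) (nat_lit 56) (nat_lit 0) (nat_lit 304) (nat_lit 304) (nat_lit 172)) (PT.lf (nat_lit 4028) (nat_lit 6) (nat_lit 53) (nat_lit 0) (nat_lit 305) (nat_lit 304) (nat_lit 171))) (PT.nd (nat_lit 78) (PT.lf (nat_lit 3724) (nat_lit 6) (nat_lit 49) (nat_lit 0) (nat_lit 306) (nat_lit 304) (nat_lit 170)) (PT.lf (nat_lit 3496) (nat_lit 6) (nat_lit 46) (nat_lit 0) (nat_lit 307) (nat_lit 304) (nat_lit 169)))) (PT.nd (nat_lit 70278) (PT.nd (nat_lit 70200) (PT.lf (nat_lit 3268) (nat_lit 6) (nat_lit 43) (nat_lit 0) (nat_lit 308) (nat_lit 304) (nat_lit 168)) (PT.lf (nat_lit 3116) (nat_lit 6) (nat_lit 41) (nat_lit 5) (nat_lit 167) (nat_lit 305) (nat_lit 308))) (PT.nd (nat_lit 78) (PT.lf (nat_lit 3344) (nat_lit 6) (nat_lit 44) (nat_lit 5) (nat_lit 168) (nat_lit 305) (nat_lit 307)) (PT.lf (nat_lit 3572) (nat_lit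 6) (nat_lit 47) (nat_lit 5) (nat_lit 169) (nat_lit 305) (nat_lit 306))))) (PT.nd (nat_lit 312) (PT.nd (nat_lit 156) (PT.nd (nat_lit 78) (PT.lf (nat_lit 3800) (nat_lit 3) (nat_lit 50) (nat_lit 4) (nat_lit 170) (nat_lit 305) (nat_lit 305)) (PT.lf (nat_lit 4028) (nat_lit 6) (nat_lit 53) (nat_lit 4) (nat_lit 171) (nat_lit 305) (nat_lit 304))) (PT.nd (nat_lit 78) (PT.lf (nat_lit 4180) (nat_lit 6) (nat_lit 55) (nat_lit 4) (nat_lit 172) (nat_lit 305) (nat_lit 303)) (PT.lf (nat_lit 4408) (nat_lit 6) (nat_lit 58) (nat_lit 4) (nat_lit 173) (nat_lit 305) (nat_lit 302)))) (PT.nd (nat_lit 9984) (PT.nd (nat_lit 9906) (PT.lf (nat_lit 4560) (nat_lit 6) (nat_lit 60) (nat_lit 4) (nat_lit 174) (nat_lit 305) (nat_lit 301)) (PT.lf (nat_lit 4560) (nat_lit 6) (nat_lit 60) (nat_lit 2) (nat_lit 301) (nat_lit 305) (nat_lit 174))) (PT.nd (nat_lit 78) (PT.lf (nat_lit 4408) (nat_lit 6) (nat_lit 58) (nat_lit 2) (nat_lit 302) (nat_lit 305) (nat_lit 173)) (PT.nd (nat_lit 78) (PT.lf (nat_lit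 4180) (nat_lit 6) (nat_lit 55) (nat_lit 2) (nat_lit 303) (nat_lit 305) (nat_lit 172)) (PT.lf (nat_lit 4028) (nat_lit 6) (nat_lit 53) (nat_lit 2) (nat_lit 304) (nat_lit 305) (nat_lit 171))))))) (PT.nd (nat_lit 70590) (PT.nd (nat_lit 70278) (PT.nd (nat_lit 156) (PT.nd (nat_lit 78) (PT.lf (nat_lit 3800) (nat_lit 3) (nat_lit 50) (nat_lit 0) (nat_lit 305) (nat_lit 305) (nat_lit 170)) (PT.lf (nat_lit 3572) (nat_lit 6) (nat_lit 47) (nat_lit 0) (nat_lit 306) (nat_lit 305) (nat_lit 169))) (PT.nd (nat_lit 78) (PT.lf (nat_lit 3344) (nat_lit 6) (nat_lit 44) (nat_lit 0) (nat_lit 307) (nat_lit 305) (nat_lit 168)) (PT.lf (nat_lit 3116) (nat_lit 6) (nat_lit 41) (nat_lit 0) (nat_lit 308) (nat_lit 305) (nat_lit 167)))) (PT.nd (nat_lit 156) (PT.nd (nat_lit 78) (PT.lf (nat_lit 2736) (nat_lit 6) (nat_lit 36) (nat_lit 5) (nat_lit 165) (nat_lit 306) (nat_lit 309)) (PT.lf (nat_lit 2964) (nat_lit 6) (nat_lit 39) (nat_lit 5) (nat_lit 166) (nat_lit 306) (nat_lit 308))) (PT.nd (nat_lit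 78) (PT.lf (nat_lit 3192) (nat_lit 6) (nat_lit 42) (nat_lit 5) (nat_lit 167) (nat_lit 306) (nat_lit 307)) (PT.lf (nat_lit 3420) (nat_lit 3) (nat_lit 45) (nat_lit 4) (nat_lit 168) (nat_lit 306) (nat_lit 306))))) (PT.nd (nat_lit 10374) (PT.nd (nat_lit 156) (PT.nd (nat_lit 78) (PT.lf (nat_lit 3572) (nat_lit 6) (nat_lit 47) (nat_lit 4) (nat_lit 169) (nat_lit 306) (nat_lit 305)) (PT.lf (nat_lit 3724) (nat_lit 6) (nat_lit 49) (nat_lit 4) (nat_lit 170) (nat_lit 306) (nat_lit 304))) (PT.nd (nat_lit 78) (PT.lf (nat_lit 3952) (nat_lit 6) (nat_lit 52) (nat_lit 4) (nat_lit 171) (nat_lit 306) (nat_lit 303)) (PT.lf (nat_lit 4104) (nat_lit 6) (nat_lit 54) (nat_lit 4) (nat_lit 172) (nat_lit 306) (nat_lit 302)))) (PT.nd (nat_lit 156) (PT.nd (nat_lit 78) (PT.lf (nat_lit 4104) (nat_lit 6) (nat_lit 54) (nat_lit 2) (nat_lit 302) (nat_lit 306) (nat_lit 172)) (PT.lf (nat_lit 3952) (nat_lit 6) (nat_lit 52) (nat_lit 2) (nat_lit 303) (nat_lit 306) (nat_lit 171))) (PT.nd (nat_lit 78)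 (PT.lf (nat_lit 3724) (nat_lit 6) (nat_lit 49) (nat_lit 2) (nat_lit 304) (nat_lit 306) (nat_lit 170)) (PT.nd (nat_lit 78) (PT.lf (nat_lit 3572) (nat_lit 6) (nat_lit 47) (nat_lit 2) (nat_lit 305) (nat_lit 306) (nat_lit 169)) (PT.lf (nat_lit 3420) (nat_lit 3) (nat_lit 45) (nat_lit 0) (nat_lit 306) (nat_lit 306) (nat_lit 168))))))))
noncomputable def pc125 : PT := (PT.nd (nat_lit 81354) (PT.nd (nat_lit 70356) (PT.nd (nat_lit 70044) (PT.nd (nat_lit 156) (PT.nd (nat_lit 78) (PT.lf (nat_lit 3192) (nat_lit 6) (nat_lit 42) (nat_lit 0) (nat_lit 307) (nat_lit 306) (nat_lit 167)) (PT.lf (nat_lit 2964) (nat_lit 6) (nat_lit 39) (nat_lit 0) (nat_lit 308) (nat_lit 306) (nat_lit 166))) (PT.nd (nat_lit 69810) (PT.lf (nat_lit 2736) (nat_lit 6) (nat_lit 36) (nat_lit 0) (nat_lit 309) (nat_lit 306) (nat_lit 165)) (PT.lf (nat_lit 2356) (nat_lit 6) (nat_lit 31) (nat_lit 5) (nat_lit 163) (nat_lit 307) (nat_lit 310)))) (PT.nd (nat_lit 156) (PT.nd (nat_lit 78) (PT.lf (nat_lit 2584)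 (nat_lit 6) (nat_lit 34) (nat_lit 5) (nat_lit 164) (nat_lit 307) (nat_lit 309)) (PT.lf (nat_lit 2812) (nat_lit 6) (nat_lit 37) (nat_lit 5) (nat_lit 165) (nat_lit 307) (nat_lit 308))) (PT.nd (nat_lit 78) (PT.lf (nat_lit 3040) (nat_lit 3) (nat_lit 40) (nat_lit 4) (nat_lit 166) (nat_lit 307) (nat_lit 307)) (PT.lf (nat_lit 3192) (nat_lit 6) (nat_lit 42) (nat_lit 4) (nat_lit 167) (nat_lit 307) (nat_lit 306))))) (PT.nd (nat_lit 10608) (PT.nd (nat_lit 156) (PT.nd (nat_lit 78) (PT.lf (nat_lit 3344) (nat_lit 6) (nat_lit 44) (nat_lit 4) (nat_lit 168) (nat_lit 307) (nat_lit 305)) (PT.lf (nat_lit 3496) (nat_lit 6) (nat_lit 46) (nat_lit 4) (nat_lit 169) (nat_lit 307) (nat_lit 304))) (PT.nd (nat_lit 10374) (PT.lf (nat_lit 3648) (nat_lit 6) (nat_lit 48) (nat_lit 4) (nat_lit 170) (nat_lit 307) (nat_lit 303)) (PT.lf (nat_lit 3648) (nat_lit 6) (nat_lit 48) (nat_lit 2) (nat_lit 303) (nat_lit 307) (nat_lit 170)))) (PT.nd (nat_lit 156) (PT.nd (nat_lit 78) (PT.lf (nat_lit 3496)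 (nat_lit 6) (nat_lit 46) (nat_lit 2) (nat_lit 304) (nat_lit 307) (nat_lit 169)) (PT.lf (nat_lit 3344) (nat_lit 6) (nat_lit 44) (nat_lit 2) (nat_lit 305) (nat_lit 307) (nat_lit 168))) (PT.nd (nat_lit 78) (PT.lf (nat_lit 3192) (nat_lit 6) (nat_lit 42) (nat_lit 2) (nat_lit 306) (nat_lit 307) (nat_lit 167)) (PT.nd (nat_lit 78) (PT.lf (nat_lit 3040) (nat_lit 3) (nat_lit 40) (nat_lit 0) (nat_lit 307) (nat_lit 307) (nat_lit 166)) (PT.lf (nat_lit 2812) (nat_lit 6) (nat_lit 37) (nat_lit 0) (nat_lit 308) (nat_lit 307) (nat_lit 165))))))) (PT.nd (nat_lit 70122) (PT.nd (nat_lit 69810) (PT.nd (nat_lit 69654) (PT.nd (nat_lit 78) (PT.lf (nat_lit 2584) (nat_lit 6) (nat_lit 34) (nat_lit 0) (nat_lit 309) (nat_lit 307) (nat_lit 164)) (PT.lf (nat_lit 2356) (nat_lit 6) (nat_lit 31) (nat_lit 0) (nat_lit 310) (nat_lit 307) (nat_lit 163))) (PT.nd (nat_lit 78) (PT.lf (nat_lit 2052) (nat_lit 6) (nat_lit 27) (nat_lit 5) (nat_lit 161) (nat_lit 308) (nat_lit 311)) (PT.lf (nat_lit 2204)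 (nat_lit 6) (nat_lit 29) (nat_lit 5) (nat_lit 162) (nat_lit 308) (nat_lit 310)))) (PT.nd (nat_lit 156) (PT.nd (nat_lit 78) (PT.lf (nat_lit 2432) (nat_lit 6) (nat_lit 32) (nat_lit 5) (nat_lit 163) (nat_lit 308) (nat_lit 309)) (PT.lf (nat_lit 2660) (nat_lit 3) (nat_lit 35) (nat_lit 4) (nat_lit 164) (nat_lit 308) (nat_lit 308))) (PT.nd (nat_lit 78) (PT.lf (nat_lit 2812) (nat_lit 6) (nat_lit 37) (nat_lit 4) (nat_lit 165) (nat_lit 308) (nat_lit 307)) (PT.lf (nat_lit 2964) (nat_lit 6) (nat_lit 39) (nat_lit 4) (nat_lit 166) (nat_lit 308) (nat_lit 306))))) (PT.nd (nat_lit 10842) (PT.nd (nat_lit 10686) (PT.nd (nat_lit 78) (PT.lf (nat_lit 3116) (nat_lit 6) (nat_lit 41) (nat_lit 4) (nat_lit 167) (nat_lit 308) (nat_lit 305)) (PT.lf (nat_lit 3268) (nat_lit 6) (nat_lit 43) (nat_lit 4) (nat_lit 168) (nat_lit 308) (nat_lit 304))) (PT.nd (nat_lit 78) (PT.lf (nat_lit 3268) (nat_lit 6) (nat_lit 43) (nat_lit 2) (nat_lit 304) (nat_lit 308) (nat_lit 168)) (PT.lf (nat_lit 3116)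 (nat_lit 6) (nat_lit 41) (nat_lit 2) (nat_lit 305) (nat_lit 308) (nat_lit 167)))) (PT.nd (nat_lit 156) (PT.nd (nat_lit 78) (PT.lf (nat_lit 2964) (nat_lit 6) (nat_lit 39) (nat_lit 2) (nat_lit 306) (nat_lit 308) (nat_lit 166)) (PT.lf (nat_lit 2812) (nat_lit 6) (nat_lit 37) (nat_lit 2) (nat_lit 307) (nat_lit 308) (nat_lit 165))) (PT.nd (nat_lit 78) (PT.lf (nat_lit 2660) (nat_lit 3) (nat_lit 35) (nat_lit 0) (nat_lit 308) (nat_lit 308) (nat_lit 164)) (PT.nd (nat_lit 78) (PT.lf (nat_lit 2432) (nat_lit 6) (nat_lit 32) (nat_lit 0) (nat_lit 309) (nat_lit 308) (nat_lit 163)) (PT.lf (nat_lit 2204) (nat_lit 6) (nat_lit 29) (nat_lit 0) (nat_lit 310) (nat_lit 308) (nat_lit 162))))))))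
noncomputable def pc126 : PT := (PT.nd (nat_lit 150618) (PT.nd (nat_lit 80808) (PT.nd (nat_lit 69576) (PT.nd (nat_lit 69420) (PT.nd (nat_lit 69342) (PT.lf (nat_lit 2052) (nat_lit 6) (nat_lit 27) (nat_lit 0) (nat_lit 311) (nat_lit 308) (nat_lit 161)) (PT.lf (nat_lit 1748) (nat_lit 6) (nat_lit 23) (nat_lit 5) (nat_lit 159) (nat_lit 309) (nat_lit 312))) (PT.nd (nat_lit 78) (PT.lf (nat_lit 1900) (nat_lit 6) (nat_lit 25) (nat_lit 5) (nat_lit 160) (nat_lit 309) (nat_lit 311)) (PT.lf (nat_lit 2128) (nat_lit 6) (nat_lit 28) (nat_lit 5) (nat_lit 161) (nat_lit 309) (nat_lit 310)))) (PT.nd (nat_lit 156) (PT.nd (nat_lit 78) (PT.lf (nat_lit 2280) (nat_lit 3) (nat_lit 30) (nat_lit 4) (nat_lit 162) (nat_lit 309) (nat_lit 309)) (PT.lf (nat_lit 2432) (nat_lit 6) (nat_lit 32) (nat_lit 4) (nat_lit 163) (nat_lit 309) (nat_lit 308))) (PT.nd (nat_lit 78) (PT.lf (nat_lit 2584) (nat_lit 6) (nat_lit 34) (nat_lit 4) (nat_lit 164) (nat_lit 309) (nat_lit 307)) (PT.lf (nat_lit 2736) (nat_lit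 6) (nat_lit 36) (nat_lit 4) (nat_lit 165) (nat_lit 309) (nat_lit 306))))) (PT.nd (nat_lit 312) (PT.nd (nat_lit 156) (PT.nd (nat_lit 78) (PT.lf (nat_lit 2736) (nat_lit 6) (nat_lit 36) (nat_lit 2) (nat_lit 306) (nat_lit 309) (nat_lit 165)) (PT.lf (nat_lit 2584) (nat_lit 6) (nat_lit 34) (nat_lit 2) (nat_lit 307) (nat_lit 309) (nat_lit 164))) (PT.nd (nat_lit 78) (PT.lf (nat_lit 2432) (nat_lit 6) (nat_lit 32) (nat_lit 2) (nat_lit 308) (nat_lit 309) (nat_lit 163)) (PT.lf (nat_lit 2280) (nat_lit 3) (nat_lit 30) (nat_lit 0) (nat_lit 309) (nat_lit 309) (nat_lit 162)))) (PT.nd (nat_lit 156) (PT.nd (nat_lit 78) (PT.lf (nat_lit 2128) (nat_lit 6) (nat_lit 28) (nat_lit 0) (nat_lit 310) (nat_lit 309) (nat_lit 161)) (PT.lf (nat_lit 1900) (nat_lit 6) (nat_lit 25) (nat_lit 0) (nat_lit 311) (nat_lit 309) (nat_lit 160))) (PT.nd (nat_lit 69186) (PT.lf (nat_lit 1748) (nat_lit 6) (nat_lit 23) (nat_lit 0) (nat_lit 312) (nat_lit 309) (nat_lit 159)) (PT.nd (nat_lit 78) (PT.lf (nat_lit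 1596) (nat_lit 6) (nat_lit 21) (nat_lit 5) (nat_lit 158) (nat_lit 310) (nat_lit 312)) (PT.lf (nat_lit 1824) (nat_lit 6) (nat_lit 24) (nat_lit 5) (nat_lit 159) (nat_lit 310) (nat_lit 311))))))) (PT.nd (nat_lit 11778) (PT.nd (nat_lit 11466) (PT.nd (nat_lit 156) (PT.nd (nat_lit 78) (PT.lf (nat_lit 1976) (nat_lit 3) (nat_lit 26) (nat_lit 4) (nat_lit 160) (nat_lit 310) (nat_lit 310)) (PT.lf (nat_lit 2128) (nat_lit 6) (nat_lit 28) (nat_lit 4) (nat_lit 161) (nat_lit 310) (nat_lit 309))) (PT.nd (nat_lit 78) (PT.lf (nat_lit 2204) (nat_lit 6) (nat_lit 29) (nat_lit 4) (nat_lit 162) (nat_lit 310) (nat_lit 308)) (PT.lf (nat_lit 2356) (nat_lit 6) (nat_lit 31) (nat_lit 4) (nat_lit 163) (nat_lit 310) (nat_lit 307)))) (PT.nd (nat_lit 156) (PT.nd (nat_lit 78) (PT.lf (nat_lit 2356) (nat_lit 6) (nat_lit 31) (nat_lit 2) (nat_lit 307) (nat_lit 310) (nat_lit 163)) (PT.lf (nat_lit 2204) (nat_lit 6) (nat_lit 29) (nat_lit 2) (nat_lit 308) (nat_lit 310) (nat_lit 162))) (PT.nd (nat_lit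 78) (PT.lf (nat_lit 2128) (nat_lit 6) (nat_lit 28) (nat_lit 2) (nat_lit 309) (nat_lit 310) (nat_lit 161)) (PT.lf (nat_lit 1976) (nat_lit 3) (nat_lit 26) (nat_lit 0) (nat_lit 310) (nat_lit 310) (nat_lit 160))))) (PT.nd (nat_lit 69264) (PT.nd (nat_lit 69108) (PT.nd (nat_lit 78) (PT.lf (nat_lit 1824) (nat_lit 6) (nat_lit 24) (nat_lit 0) (nat_lit 311) (nat_lit 310) (nat_lit 159)) (PT.lf (nat_lit 1596) (nat_lit 6) (nat_lit 21) (nat_lit 0) (nat_lit 312) (nat_lit 310) (nat_lit 158))) (PT.nd (nat_lit 78) (PT.lf (nat_lit 1292) (nat_lit 6) (nat_lit 17) (nat_lit 5) (nat_lit 156) (nat_lit 311) (nat_lit 313)) (PT.lf (nat_lit 1520) (nat_lit 6) (nat_lit 20) (nat_lit 5) (nat_lit 157) (nat_lit 311) (nat_lit 312)))) (PT.nd (nat_lit 156) (PT.nd (nat_lit 78) (PT.lf (nat_lit 1672) (nat_lit 3) (nat_lit 22) (nat_lit 4) (nat_lit 158) (nat_lit 311) (nat_lit 311)) (PT.lf (nat_lit 1824) (nat_lit 6) (nat_lit 24) (nat_lit 4) (nat_lit 159) (nat_lit 311) (nat_lit 310))) (PT.nd (nat_lit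 78) (PT.lf (nat_lit 1900) (nat_lit 6) (nat_lit 25) (nat_lit 4) (nat_lit 160) (nat_lit 311) (nat_lit 309)) (PT.nd (nat_lit 11466) (PT.lf (nat_lit 2052) (nat_lit 6) (nat_lit 27) (nat_lit 4) (nat_lit 161) (nat_lit 311) (nat_lit 308)) (PT.lf (nat_lit 2052) (nat_lit 6) (nat_lit 27) (nat_lit 2) (nat_lit 308) (nat_lit 311) (nat_lit 161))))))))
noncomputable def pc127 : PT := (PT.nd (nat_lit 150228) (PT.nd (nat_lit 69342) (PT.nd (nat_lit 312) (PT.nd (nat_lit 156) (PT.nd (nat_lit 78) (PT.lf (nat_lit 1900) (nat_lit 6) (nat_lit 25) (nat_lit 2) (nat_lit 309) (nat_lit 311) (nat_lit 160)) (PT.lf (nat_lit 1824) (nat_lit 6) (nat_lit 24) (nat_lit 2) (nat_lit 310) (nat_lit 311) (nat_lit 159))) (PT.nd (nat_lit 78) (PT.lf (nat_lit 1672) (nat_lit 3) (nat_lit 22) (nat_lit 0) (nat_lit 311) (nat_lit 311) (nat_lit 158)) (PT.lf (nat_lit 1520) (nat_lit 6) (nat_lit 20) (nat_lit 0) (nat_lit 312) (nat_lit 311) (nat_lit 157)))) (PT.nd (nat_lit 68874) (PT.nd (nat_lit 68796) (PT.lf (nat_lit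 1292) (nat_lit 6) (nat_lit 17) (nat_lit 0) (nat_lit 313) (nat_lit 311) (nat_lit 156)) (PT.lf (nat_lit 988) (nat_lit 6) (nat_lit 13) (nat_lit 5) (nat_lit 154) (nat_lit 312) (nat_lit 314))) (PT.nd (nat_lit 78) (PT.lf (nat_lit 1216) (nat_lit 6) (nat_lit 16) (nat_lit 5) (nat_lit 155) (nat_lit 312) (nat_lit 313)) (PT.lf (nat_lit 1368) (nat_lit 3) (nat_lit 18) (nat_lit 4) (nat_lit 156) (nat_lit 312) (nat_lit 312))))) (PT.nd (nat_lit 11934) (PT.nd (nat_lit 156) (PT.nd (nat_lit 78) (PT.lf (nat_lit 1520) (nat_lit 6) (nat_lit 20) (nat_lit 4) (nat_lit 157) (nat_lit 312) (nat_lit 311)) (PT.lf (nat_lit 1596) (nat_lit 6) (nat_lit 21) (nat_lit 4) (nat_lit 158) (nat_lit 312) (nat_lit 310))) (PT.nd (nat_lit 11700) (PT.lf (nat_lit 1748) (nat_lit 6) (nat_lit 23) (nat_lit 4) (nat_lit 159) (nat_lit 312) (nat_lit 309)) (PT.lf (nat_lit 1748) (nat_lit 6) (nat_lit 23) (nat_lit 2) (nat_lit 309) (nat_lit 312) (nat_lit 159)))) (PT.nd (nat_lit 156) (PT.nd (nat_lit 78) (PT.lf (nat_lit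 1596) (nat_lit 6) (nat_lit 21) (nat_lit 2) (nat_lit 310) (nat_lit 312) (nat_lit 158)) (PT.lf (nat_lit 1520) (nat_lit 6) (nat_lit 20) (nat_lit 2) (nat_lit 311) (nat_lit 312) (nat_lit 157))) (PT.nd (nat_lit 78) (PT.lf (nat_lit 1368) (nat_lit 3) (nat_lit 18) (nat_lit 0) (nat_lit 312) (nat_lit 312) (nat_lit 156)) (PT.nd (nat_lit 78) (PT.lf (nat_lit 1216) (nat_lit 6) (nat_lit 16) (nat_lit 0) (nat_lit 313) (nat_lit 312) (nat_lit 155)) (PT.lf (nat_lit 988) (nat_lit 6) (nat_lit 13) (nat_lit 0) (nat_lit 314) (nat_lit 312) (nat_lit 154))))))) (PT.nd (nat_lit 81276) (PT.nd (nat_lit 12324) (PT.nd (nat_lit 156) (PT.nd (nat_lit 78) (PT.lf (nat_lit 912) (nat_lit 6) (nat_lit 12) (nat_lit 5) (nat_lit 153) (nat_lit 313) (nat_lit 314)) (PT.lf (nat_lit 1064) (nat_lit 3) (nat_lit 14) (nat_lit 4) (nat_lit 154) (nat_lit 313) (nat_lit 313))) (PT.nd (nat_lit 78) (PT.lf (nat_lit 1216) (nat_lit 6) (nat_lit 16) (nat_lit 4) (nat_lit 155) (nat_lit 313) (nat_lit 312)) (PT.lf (nat_lit 1292)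 (nat_lit 6) (nat_lit 17) (nat_lit 4) (nat_lit 156) (nat_lit 313) (nat_lit 311)))) (PT.nd (nat_lit 156) (PT.nd (nat_lit 78) (PT.lf (nat_lit 1292) (nat_lit 6) (nat_lit 17) (nat_lit 2) (nat_lit 311) (nat_lit 313) (nat_lit 156)) (PT.lf (nat_lit 1216) (nat_lit 6) (nat_lit 16) (nat_lit 2) (nat_lit 312) (nat_lit 313) (nat_lit 155))) (PT.nd (nat_lit 78) (PT.lf (nat_lit 1064) (nat_lit 3) (nat_lit 14) (nat_lit 0) (nat_lit 313) (nat_lit 313) (nat_lit 154)) (PT.nd (nat_lit 68640) (PT.lf (nat_lit 912) (nat_lit 6) (nat_lit 12) (nat_lit 0) (nat_lit 314) (nat_lit 313) (nat_lit 153)) (PT.lf (nat_lit 912) (nat_lit 6) (nat_lit 12) (nat_lit 4) (nat_lit 153) (nat_lit 314) (nat_lit 313)))))) (PT.nd (nat_lit 3101046) (PT.nd (nat_lit 12402) (PT.nd (nat_lit 12324) (PT.lf (nat_lit 988) (nat_lit 6) (nat_lit 13) (nat_lit 4) (nat_lit 154) (nat_lit 314) (nat_lit 312)) (PT.lf (nat_lit 988) (nat_lit 6) (nat_lit 13) (nat_lit 2) (nat_lit 312) (nat_lit 314) (nat_lit 154))) (PT.nd (nat_lit 3066960)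 (PT.lf (nat_lit 912) (nat_lit 6) (nat_lit 12) (nat_lit 2) (nat_lit 313) (nat_lit 314) (nat_lit 153)) (PT.lf (nat_lit 152) (nat_lit 6) (nat_lit 2) (nat_lit 5) (nat_lit 75) (nat_lit 352) (nat_lit 353)))) (PT.nd (nat_lit 59514) (PT.nd (nat_lit 59436) (PT.lf (nat_lit 152) (nat_lit 6) (nat_lit 2) (nat_lit 0) (nat_lit 353) (nat_lit 352) (nat_lit 75)) (PT.lf (nat_lit 76) (nat_lit 3) (nat_lit 1) (nat_lit 4) (nat_lit 74) (nat_lit 353) (nat_lit 353))) (PT.nd (nat_lit 21606) (PT.lf (nat_lit 152) (nat_lit 6) (nat_lit 2) (nat_lit 4) (nat_lit 75) (nat_lit 353) (nat_lit 352)) (PT.nd (nat_lit 78) (PT.lf (nat_lit 152) (nat_lit 6) (nat_lit 2) (nat_lit 2) (nat_lit 352) (nat_lit 353) (nat_lit 75)) (PT.lf (nat_lit 76) (nat_lit 3) (nat_lit 1) (nat_lit 0) (nat_lit 353) (nat_lit 353) (nat_lit 74))))))))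
noncomputable def xc0 : XT := (XT.nd (nat_lit 405210) (nat_lit 0) (nat_lit 0) (XT.nd (nat_lit 243360) (nat_lit 0) (nat_lit 0) (XT.nd (nat_lit 162240) (nat_lit 0) (nat_lit 0) (XT.nd (nat_lit 81198) (nat_lit 0) (nat_lit 0) (XT.nd (nat_lit 81042) (nat_lit 0) (nat_lit 152) (XT.lf (nat_lit 0) (nat_lit 3012690371) (nat_lit 152) (nat_lit 6396441327) (nat_lit 152) (nat_lit 6086993639) (nat_lit 14) (nat_lit 4) (nat_lit 16) (nat_lit 5) (nat_lit 16) (nat_lit 4) (nat_lit 651) (nat_lit 455) (nat_lit 454)) (XT.nd (nat_lit 78) (nat_lit 152) (nat_lit 0) (XT.lf (nat_lit 0) (nat_lit 6231448217) (nat_lit 152) (nat_lit 4634522937) (nat_lit 152) (nat_lit 4312573563) (nat_lit 18) (nat_lit 4) (nat_lit 20) (nat_lit 5) (nat_lit 20) (nat_lit 4) (nat_lit 649) (nat_lit 456) (nat_lit 455)) (XT.lf (nat_lit 0) (nat_lit 2610368691) (nat_lit 152) (nat_lit 10741488505) (nat_lit 0) (nat_lit 1985284363) (nat_lit 16) (nat_lit 5) (nat_lit 18) (nat_lit 4) (nat_lit 16) (nat_lit 4) (nat_lit 650)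 (nat_lit 456) (nat_lit 454)))) (XT.nd (nat_lit 80886) (nat_lit 0) (nat_lit 456) (XT.nd (nat_lit 80808) (nat_lit 0) (nat_lit 760) (XT.lf (nat_lit 0) (nat_lit 2830018383) (nat_lit 152) (nat_lit 6798251165) (nat_lit 152) (nat_lit 5869786751) (nat_lit 14) (nat_lit 4) (nat_lit 16) (nat_lit 5) (nat_lit 16) (nat_lit 4) (nat_lit 651) (nat_lit 456) (nat_lit 453)) (XT.lf (nat_lit 0) (nat_lit 2657271821) (nat_lit 152) (nat_lit 2044449367) (nat_lit 0) (nat_lit 2657271821) (nat_lit 24) (nat_lit 5) (nat_lit 26) (nat_lit 4) (nat_lit 24) (nat_lit 4) (nat_lit 646) (nat_lit 457) (nat_lit 457))) (XT.nd (nat_lit 78) (nat_lit 152) (nat_lit 0) (XT.lf (nat_lit 0) (nat_lit 9211407049) (nat_lit 152) (nat_lit 2996617975) (nat_lit 152) (nat_lit 2661661847) (nat_lit 22) (nat_lit 4) (nat_lit 24) (nat_lit 5) (nat_lit 24) (nat_lit 4) (nat_lit 647) (nat_lit 457) (nat_lit 456)) (XT.lf (nat_lit 0) (nat_lit 4166606647) (nat_lit 152) (nat_lit 7340861257) (nat_lit 0) (nat_lit 3516268912) (nat_lit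 20) (nat_lit 5) (nat_lit 22) (nat_lit 4) (nat_lit 20) (nat_lit 4) (nat_lit 648) (nat_lit 457) (nat_lit 455))))) (XT.nd (nat_lit 80808) (nat_lit 0) (nat_lit 608) (XT.nd (nat_lit 78) (nat_lit 304) (nat_lit 0) (XT.lf (nat_lit 0) (nat_lit 6052606795) (nat_lit 152) (nat_lit 5046905138) (nat_lit 152) (nat_lit 4080930762) (nat_lit 18) (nat_lit 4) (nat_lit 20) (nat_lit 5) (nat_lit 20) (nat_lit 4) (nat_lit 649) (nat_lit 457) (nat_lit 454)) (XT.nd (nat_lit 78) (nat_lit 152) (nat_lit 0) (XT.lf (nat_lit 0) (nat_lit 2787914510) (nat_lit 152) (nat_lit 11014615891) (nat_lit 0) (nat_lit 1537500723) (nat_lit 16) (nat_lit 5) (nat_lit 18) (nat_lit 4) (nat_lit 16) (nat_lit 4) (nat_lit 650) (nat_lit 457) (nat_lit 453)) (XT.lf (nat_lit 0) (nat_lit 2464602771) (nat_lit 152) (nat_lit 7292580727) (nat_lit 152) (nat_lit 5744735483) (nat_lit 14) (nat_lit 4) (nat_lit 16) (nat_lit 5) (nat_lit 16) (nat_lit 4) (nat_lit 651) (nat_lit 457) (nat_lit 452)))) (XT.nd (nat_lit 156) (nat_lit 304)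 (nat_lit 0) (XT.nd (nat_lit 78) (nat_lit 152) (nat_lit 0) (XT.lf (nat_lit 0) (nat_lit 3320006565) (nat_lit 152) (nat_lit 570722636) (nat_lit 0) (nat_lit 3320006565) (nat_lit 28) (nat_lit 5) (nat_lit 30) (nat_lit 4) (nat_lit 28) (nat_lit 4) (nat_lit 644) (nat_lit 458) (nat_lit 458)) (XT.lf (nat_lit 0) (nat_lit 11973615501) (nat_lit 152) (nat_lit 1472061065) (nat_lit 152) (nat_lit 1123572709) (nat_lit 26) (nat_lit 4) (nat_lit 28) (nat_lit 5) (nat_lit 28) (nat_lit 4) (nat_lit 645) (nat_lit 458) (nat_lit 457))) (XT.nd (nat_lit 78) (nat_lit 152) (nat_lit 0) (XT.lf (nat_lit 0) (nat_lit 5609692056) (nat_lit 152) (nat_lit 4176143962) (nat_lit 0) (nat_lit 4933080677) (nat_lit 24) (nat_lit 5) (nat_lit 26) (nat_lit 4) (nat_lit 24) (nat_lit 4) (nat_lit 646) (nat_lit 458) (nat_lit 456)) (XT.lf (nat_lit 0) (nat_lit 9036331133) (nat_lit 152) (nat_lit 3420110658) (nat_lit 152) (nat_lit 2415110917) (nat_lit 22) (nat_lit 4) (nat_lit 24) (nat_lit 5) (nat_lit 24) (nat_lit 4)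 (nat_lit 647) (nat_lit 458) (nat_lit 455)))))) (XT.nd (nat_lit 80964) (nat_lit 0) (nat_lit 0) (XT.nd (nat_lit 234) (nat_lit 152) (nat_lit 0) (XT.nd (nat_lit 78) (nat_lit 304) (nat_lit 0) (XT.lf (nat_lit 0) (nat_lit 4359623204) (nat_lit 152) (nat_lit 7608261259) (nat_lit 0) (nat_lit 3058692700) (nat_lit 20) (nat_lit 5) (nat_lit 22) (nat_lit 4) (nat_lit 20) (nat_lit 4) (nat_lit 648) (nat_lit 458) (nat_lit 454)) (XT.nd (nat_lit 78) (nat_lit 152) (nat_lit 0) (XT.lf (nat_lit 0) (nat_lit 5694853817) (nat_lit 152) (nat_lit 5549881885) (nat_lit 152) (nat_lit 3939503693) (nat_lit 18) (nat_lit 4) (nat_lit 20) (nat_lit 5) (nat_lit 20) (nat_lit 4) (nat_lit 649) (nat_lit 458) (nat_lit 453)) (XT.lf (nat_lit 0) (nat_lit 2875567361) (nat_lit 152) (nat_lit 11469947208) (nat_lit 0) (nat_lit 999333756) (nat_lit 16) (nat_lit 5) (nat_lit 18) (nat_lit 4) (nat_lit 16) (nat_lit 4) (nat_lit 650) (nat_lit 458) (nat_lit 452)))) (XT.nd (nat_lit 80574) (nat_lit 0) (nat_lit 1064) (XT.nd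 (nat_lit 80496) (nat_lit 0) (nat_lit 1216) (XT.lf (nat_lit 0) (nat_lit 1916300234) (nat_lit 152) (nat_lit 7879623867) (nat_lit 152) (nat_lit 5711790795) (nat_lit 14) (nat_lit 4) (nat_lit 16) (nat_lit 5) (nat_lit 16) (nat_lit 4) (nat_lit 651) (nat_lit 458) (nat_lit 451)) (XT.lf (nat_lit 0) (nat_lit 815506145) (nat_lit 152) (nat_lit 3125436467) (nat_lit 152) (nat_lit 3125436467) (nat_lit 30) (nat_lit 4) (nat_lit 32) (nat_lit 5) (nat_lit 32) (nat_lit 4) (nat_lit 642) (nat_lit 459) (nat_lit 459))) (XT.nd (nat_lit 78) (nat_lit 0) (nat_lit 0) (XT.lf (nat_lit 0) (nat_lit 262049786) (nat_lit 76) (nat_lit 47166585) (nat_lit 152) (nat_lit 13967656852) (nat_lit 28) (nat_lit 5) (nat_lit 29) (nat_lit 5) (nat_lit 30) (nat_lit 4) (nat_lit 643) (nat_lit 459) (nat_lit 458)) (XT.lf (nat_lit 0) (nat_lit 6949743749) (nat_lit 152) (nat_lit 1226845626) (nat_lit 0) (nat_lit 6245797270) (nat_lit 28) (nat_lit 5) (nat_lit 30) (nat_lit 4) (nat_lit 28) (nat_lit 4) (nat_lit 644) (nat_lit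 459) (nat_lit 457))))) (XT.nd (nat_lit 312) (nat_lit 456) (nat_lit 0) (XT.nd (nat_lit 156) (nat_lit 304) (nat_lit 0) (XT.nd (nat_lit 78) (nat_lit 152) (nat_lit 0) (XT.lf (nat_lit 0) (nat_lit 11802241715) (nat_lit 152) (nat_lit 1907221911) (nat_lit 152) (nat_lit 861620181) (nat_lit 26) (nat_lit 4) (nat_lit 28) (nat_lit 5) (nat_lit 28) (nat_lit 4) (nat_lit 645) (nat_lit 459) (nat_lit 456)) (XT.lf (nat_lit 0) (nat_lit 5818641664) (nat_lit 152) (nat_lit 4437913857) (nat_lit 0) (nat_lit 4465153567) (nat_lit 24) (nat_lit 5) (nat_lit 26) (nat_lit 4) (nat_lit 24) (nat_lit 4) (nat_lit 646) (nat_lit 459) (nat_lit 455))) (XT.nd (nat_lit 78) (nat_lit 152) (nat_lit 0) (XT.lf (nat_lit 0) (nat_lit 8686110646) (nat_lit 152) (nat_lit 3932305970) (nat_lit 152) (nat_lit 2256868499) (nat_lit 22) (nat_lit 4) (nat_lit 24) (nat_lit 5) (nat_lit 24) (nat_lit 4) (nat_lit 647) (nat_lit 459) (nat_lit 454)) (XT.lf (nat_lit 0) (nat_lit 4464650655) (nat_lit 152) (nat_lit 8054044443) (nat_lit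 0) (nat_lit 2512617213) (nat_lit 20) (nat_lit 5) (nat_lit 22) (nat_lit 4) (nat_lit 20) (nat_lit 4) (nat_lit 648) (nat_lit 459) (nat_lit 453)))) (XT.nd (nat_lit 156) (nat_lit 152) (nat_lit 0) (XT.nd (nat_lit 78) (nat_lit 152) (nat_lit 0) (XT.lf (nat_lit 0) (nat_lit 5158048988) (nat_lit 152) (nat_lit 6143650423) (nat_lit 152) (nat_lit 3888236895) (nat_lit 18) (nat_lit 4) (nat_lit 20) (nat_lit 5) (nat_lit 20) (nat_lit 4) (nat_lit 649) (nat_lit 459) (nat_lit 452)) (XT.lf (nat_lit 0) (nat_lit 2873361617) (nat_lit 152) (nat_lit 12107661019) (nat_lit 0) (nat_lit 370572416) (nat_lit 16) (nat_lit 5) (nat_lit 18) (nat_lit 4) (nat_lit 16) (nat_lit 4) (nat_lit 650) (nat_lit 459) (nat_lit 451))) (XT.nd (nat_lit 80340) (nat_lit 0) (nat_lit 1596) (XT.lf (nat_lit 0) (nat_lit 1184895753) (nat_lit 152) (nat_lit 8559610799) (nat_lit 152) (nat_lit 5770939768) (nat_lit 14) (nat_lit 4) (nat_lit 16) (nat_lit 5) (nat_lit 16) (nat_lit 4) (nat_lit 651) (nat_lit 459) (nat_lit 450))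 (XT.lf (nat_lit 0) (nat_lit 2118752105) (nat_lit 152) (nat_lit 2403541672) (nat_lit 152) (nat_lit 2403541672) (nat_lit 35) (nat_lit 4) (nat_lit 37) (nat_lit 5) (nat_lit 37) (nat_lit 4) (nat_lit 640) (nat_lit 460) (nat_lit 460))))))) (XT.nd (nat_lit 81198) (nat_lit 0) (nat_lit 152) (XT.nd (nat_lit 546) (nat_lit 608) (nat_lit 0) (XT.nd (nat_lit 234) (nat_lit 456) (nat_lit 0) (XT.nd (nat_lit 78) (nat_lit 304) (nat_lit 0) (XT.lf (nat_lit 0) (nat_lit 1659052340) (nat_lit 228) (nat_lit 11043460772) (nat_lit 0) (nat_lit 1289233709) (nat_lit 32) (nat_lit 5) (nat_lit 35) (nat_lit 4) (nat_lit 32) (nat_lit 4) (nat_lit 641) (nat_lit 460) (nat_lit 459)) (XT.nd (nat_lit 78) (nat_lit 152) (nat_lit 0) (XT.lf (nat_lit 0) (nat_lit 1546315243) (nat_lit 152) (nat_lit 6659869897) (nat_lit 152) (nat_lit 5927483980) (nat_lit 30) (nat_lit 4) (nat_lit 32) (nat_lit 5) (nat_lit 32) (nat_lit 4) (nat_lit 642) (nat_lit 460) (nat_lit 458)) (XT.lf (nat_lit 0) (nat_lit 88431210) (nat_lit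 76) (nat_lit 493883269) (nat_lit 152) (nat_lit 13696349260) (nat_lit 28) (nat_lit 5) (nat_lit 29) (nat_lit 5) (nat_lit 30) (nat_lit 4) (nat_lit 643) (nat_lit 460) (nat_lit 457)))) (XT.nd (nat_lit 156) (nat_lit 304) (nat_lit 0) (XT.nd (nat_lit 78) (nat_lit 152) (nat_lit 0) (XT.lf (nat_lit 0) (nat_lit 7175110590) (nat_lit 152) (nat_lit 1483080173) (nat_lit 0) (nat_lit 5766941574) (nat_lit 28) (nat_lit 5) (nat_lit 30) (nat_lit 4) (nat_lit 28) (nat_lit 4) (nat_lit 644) (nat_lit 460) (nat_lit 456)) (XT.lf (nat_lit 0) (nat_lit 11459426937) (nat_lit 152) (nat_lit 2429225899) (nat_lit 152) (nat_lit 686100754) (nat_lit 26) (nat_lit 4) (nat_lit 28) (nat_lit 5) (nat_lit 28) (nat_lit 4) (nat_lit 645) (nat_lit 460) (nat_lit 455))) (XT.nd (nat_lit 78) (nat_lit 152) (nat_lit 0) (XT.lf (nat_lit 0) (nat_lit 5941474406) (nat_lit 152) (nat_lit 4874311074) (nat_lit 0) (nat_lit 3910578812) (nat_lit 24) (nat_lit 5) (nat_lit 26) (nat_lit 4) (nat_lit 24) (nat_lit 4) (nat_lit 646)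 (nat_lit 460) (nat_lit 454)) (XT.lf (nat_lit 0) (nat_lit 8160608244) (nat_lit 152) (nat_lit 4533404773) (nat_lit 152) (nat_lit 2186872538) (nat_lit 22) (nat_lit 4) (nat_lit 24) (nat_lit 5) (nat_lit 24) (nat_lit 4) (nat_lit 647) (nat_lit 460) (nat_lit 453))))) (XT.nd (nat_lit 234) (nat_lit 152) (nat_lit 0) (XT.nd (nat_lit 78) (nat_lit 304) (nat_lit 0) (XT.lf (nat_lit 0) (nat_lit 4481730189) (nat_lit 152) (nat_lit 8678385625) (nat_lit 0) (nat_lit 1877828304) (nat_lit 20) (nat_lit 5) (nat_lit 22) (nat_lit 4) (nat_lit 20) (nat_lit 4) (nat_lit 648) (nat_lit 460) (nat_lit 452)) (XT.nd (nat_lit 78) (nat_lit 152) (nat_lit 0) (XT.lf (nat_lit 0) (nat_lit 4441981795) (nat_lit 152) (nat_lit 6828443604) (nat_lit 152) (nat_lit 3927110263) (nat_lit 18) (nat_lit 4) (nat_lit 20) (nat_lit 5) (nat_lit 20) (nat_lit 4) (nat_lit 649) (nat_lit 460) (nat_lit 451)) (XT.lf (nat_lit 0) (nat_lit 2429924369) (nat_lit 76) (nat_lit 353668292) (nat_lit 152) (nat_lit 12576635364) (nat_lit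 16) (nat_lit 5) (nat_lit 17) (nat_lit 5) (nat_lit 18) (nat_lit 4) (nat_lit 650) (nat_lit 460) (nat_lit 450)))) (XT.nd (nat_lit 80262) (nat_lit 0) (nat_lit 1596) (XT.nd (nat_lit 80184) (nat_lit 0) (nat_lit 1976) (XT.lf (nat_lit 0) (nat_lit 270102502) (nat_lit 152) (nat_lit 9332808183) (nat_lit 152) (nat_lit 5922205597) (nat_lit 14) (nat_lit 4) (nat_lit 16) (nat_lit 5) (nat_lit 16) (nat_lit 4) (nat_lit 651) (nat_lit 460) (nat_lit 449)) (XT.lf (nat_lit 0) (nat_lit 3339720892) (nat_lit 152) (nat_lit 1724667857) (nat_lit 152) (nat_lit 1724667857) (nat_lit 40) (nat_lit 4) (nat_lit 42) (nat_lit 5) (nat_lit 42) (nat_lit 4) (nat_lit 638) (nat_lit 461) (nat_lit 461))) (XT.nd (nat_lit 78) (nat_lit 152) (nat_lit 0) (XT.lf (nat_lit 0) (nat_lit 2923429092) (nat_lit 228) (nat_lit 8252178073) (nat_lit 0) (nat_lit 2538669788) (nat_lit 37) (nat_lit 5) (nat_lit 40) (nat_lit 4) (nat_lit 37) (nat_lit 4) (nat_lit 639) (nat_lit 461) (nat_lit 460)) (XT.lf (nat_lit 0) (nat_lit 4154615065)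 (nat_lit 152) (nat_lit 5229963063) (nat_lit 152) (nat_lit 4467988755) (nat_lit 35) (nat_lit 4) (nat_lit 37) (nat_lit 5) (nat_lit 37) (nat_lit 4) (nat_lit 640) (nat_lit 461) (nat_lit 459)))))) (XT.nd (nat_lit 546) (nat_lit 456) (nat_lit 0) (XT.nd (nat_lit 234) (nat_lit 532) (nat_lit 0) (XT.nd (nat_lit 78) (nat_lit 228) (nat_lit 0) (XT.lf (nat_lit 0) (nat_lit 1945430351) (nat_lit 228) (nat_lit 11212304959) (nat_lit 0) (nat_lit 835829430) (nat_lit 32) (nat_lit 5) (nat_lit 35) (nat_lit 4) (nat_lit 32) (nat_lit 4) (nat_lit 641) (nat_lit 461) (nat_lit 458)) (XT.nd (nat_lit 78) (nat_lit 76) (nat_lit 0) (XT.lf (nat_lit 0) (nat_lit 1292190885) (nat_lit 152) (nat_lit 7154635255) (nat_lit 152) (nat_lit 5689576211) (nat_lit 30) (nat_lit 4) (nat_lit 32) (nat_lit 5) (nat_lit 32) (nat_lit 4) (nat_lit 642) (nat_lit 461) (nat_lit 457)) (XT.lf (nat_lit 0) (nat_lit 772486425) (nat_lit 228) (nat_lit 253124820) (nat_lit 76) (nat_lit 13256647695) (nat_lit 29) (nat_lit 5) (nat_lit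 32) (nat_lit 5) (nat_lit 30) (nat_lit 4) (nat_lit 643) (nat_lit 461) (nat_lit 456)))) (XT.nd (nat_lit 156) (nat_lit 304) (nat_lit 0) (XT.nd (nat_lit 78) (nat_lit 152) (nat_lit 0) (XT.lf (nat_lit 0) (nat_lit 7316202031) (nat_lit 152) (nat_lit 1910249400) (nat_lit 0) (nat_lit 5203258256) (nat_lit 28) (nat_lit 5) (nat_lit 30) (nat_lit 4) (nat_lit 28) (nat_lit 4) (nat_lit 644) (nat_lit 461) (nat_lit 455)) (XT.lf (nat_lit 0) (nat_lit 10945036731) (nat_lit 152) (nat_lit 3038277735) (nat_lit 152) (nat_lit 596945598) (nat_lit 26) (nat_lit 4) (nat_lit 28) (nat_lit 5) (nat_lit 28) (nat_lit 4) (nat_lit 645) (nat_lit 461) (nat_lit 454))) (XT.nd (nat_lit 78) (nat_lit 152) (nat_lit 0) (XT.lf (nat_lit 0) (nat_lit 5978238452) (nat_lit 152) (nat_lit 5485506750) (nat_lit 0) (nat_lit 3269138932) (nat_lit 24) (nat_lit 5) (nat_lit 26) (nat_lit 4) (nat_lit 24) (nat_lit 4) (nat_lit 646) (nat_lit 461) (nat_lit 453)) (XT.lf (nat_lit 0) (nat_lit 7459617849) (nat_lit 152) (nat_lit 5223642791)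 (nat_lit 152) (nat_lit 2205095583) (nat_lit 22) (nat_lit 4) (nat_lit 24) (nat_lit 5) (nat_lit 24) (nat_lit 4) (nat_lit 647) (nat_lit 461) (nat_lit 452))))) (XT.nd (nat_lit 80262) (nat_lit 0) (nat_lit 1596) (XT.nd (nat_lit 156) (nat_lit 152) (nat_lit 0) (XT.nd (nat_lit 78) (nat_lit 152) (nat_lit 0) (XT.lf (nat_lit 0) (nat_lit 4410868502) (nat_lit 152) (nat_lit 9481529644) (nat_lit 0) (nat_lit 1154077038) (nat_lit 20) (nat_lit 5) (nat_lit 22) (nat_lit 4) (nat_lit 20) (nat_lit 4) (nat_lit 648) (nat_lit 461) (nat_lit 451)) (XT.lf (nat_lit 0) (nat_lit 3546371430) (nat_lit 152) (nat_lit 7604529973) (nat_lit 152) (nat_lit 4056139042) (nat_lit 18) (nat_lit 4) (nat_lit 20) (nat_lit 5) (nat_lit 20) (nat_lit 4) (nat_lit 649) (nat_lit 461) (nat_lit 450))) (XT.nd (nat_lit 78) (nat_lit 0) (nat_lit 0) (XT.lf (nat_lit 0) (nat_lit 1431797778) (nat_lit 76) (nat_lit 1175167835) (nat_lit 152) (nat_lit 12763770211) (nat_lit 16) (nat_lit 5) (nat_lit 17) (nat_lit 5) (nat_lit 18)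 (nat_lit 4) (nat_lit 650) (nat_lit 461) (nat_lit 449)) (XT.lf (nat_lit 0) (nat_lit 9376459744) (nat_lit 152) (nat_lit 817573144) (nat_lit 0) (nat_lit 5342588112) (nat_lit 16) (nat_lit 5) (nat_lit 18) (nat_lit 4) (nat_lit 16) (nat_lit 4) (nat_lit 651) (nat_lit 461) (nat_lit 448)))) (XT.nd (nat_lit 156) (nat_lit 380) (nat_lit 0) (XT.nd (nat_lit 78) (nat_lit 228) (nat_lit 0) (XT.lf (nat_lit 0) (nat_lit 4486112724) (nat_lit 152) (nat_lit 1084906908) (nat_lit 152) (nat_lit 1084906908) (nat_lit 45) (nat_lit 4) (nat_lit 47) (nat_lit 5) (nat_lit 47) (nat_lit 4) (nat_lit 636) (nat_lit 462) (nat_lit 462)) (XT.lf (nat_lit 0) (nat_lit 4110014573) (nat_lit 228) (nat_lit 5624503873) (nat_lit 0) (nat_lit 3709710993) (nat_lit 42) (nat_lit 5) (nat_lit 45) (nat_lit 4) (nat_lit 42) (nat_lit 4) (nat_lit 637) (nat_lit 462) (nat_lit 461))) (XT.nd (nat_lit 78) (nat_lit 228) (nat_lit 0) (XT.lf (nat_lit 0) (nat_lit 6598331038) (nat_lit 152) (nat_lit 3886710831) (nat_lit 152) (nat_lit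 3093952761) (nat_lit 40) (nat_lit 4) (nat_lit 42) (nat_lit 5) (nat_lit 42) (nat_lit 4) (nat_lit 638) (nat_lit 462) (nat_lit 460)) (XT.lf (nat_lit 0) (nat_lit 3226537849) (nat_lit 228) (nat_lit 8417418194) (nat_lit 0) (nat_lit 2072109051) (nat_lit 37) (nat_lit 5) (nat_lit 40) (nat_lit 4) (nat_lit 37) (nat_lit 4) (nat_lit 639) (nat_lit 462) (nat_lit 459))))))))
noncomputable def xc1 : XT := (XT.nd (nat_lit 82056) (nat_lit 0) (nat_lit 0) (XT.nd (nat_lit 80886) (nat_lit 0) (nat_lit 76) (XT.nd (nat_lit 546) (nat_lit 608) (nat_lit 0) (XT.nd (nat_lit 234) (nat_lit 456) (nat_lit 0) (XT.nd (nat_lit 78) (nat_lit 380) (nat_lit 0) (XT.lf (nat_lit 0) (nat_lit 3905915121) (nat_lit 152) (nat_lit 5736793744) (nat_lit 152) (nat_lit 4212546314) (nat_lit 35) (nat_lit 4) (nat_lit 37) (nat_lit 5) (nat_lit 37) (nat_lit 4) (nat_lit 640) (nat_lit 462) (nat_lit 458)) (XT.nd (nat_lit 78) (nat_lit 152) (nat_lit 0) (XT.lf (nat_lit 0) (nat_lit 2148480047) (nat_lit 228) (nat_lit 11550059544)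 (nat_lit 0) (nat_lit 298661699) (nat_lit 32) (nat_lit 5) (nat_lit 35) (nat_lit 4) (nat_lit 32) (nat_lit 4) (nat_lit 641) (nat_lit 462) (nat_lit 457)) (XT.lf (nat_lit 0) (nat_lit 868539560) (nat_lit 152) (nat_lit 7735363035) (nat_lit 152) (nat_lit 5537056331) (nat_lit 30) (nat_lit 4) (nat_lit 32) (nat_lit 5) (nat_lit 32) (nat_lit 4) (nat_lit 642) (nat_lit 462) (nat_lit 456)))) (XT.nd (nat_lit 156) (nat_lit 304) (nat_lit 0) (XT.nd (nat_lit 78) (nat_lit 76) (nat_lit 0) (XT.lf (nat_lit 0) (nat_lit 879828070) (nat_lit 228) (nat_lit 762709252) (nat_lit 76) (nat_lit 12645122487) (nat_lit 29) (nat_lit 5) (nat_lit 32) (nat_lit 5) (nat_lit 30) (nat_lit 4) (nat_lit 643) (nat_lit 462) (nat_lit 455)) (XT.lf (nat_lit 0) (nat_lit 7373073403) (nat_lit 152) (nat_lit 2508520823) (nat_lit 0) (nat_lit 4554526263) (nat_lit 28) (nat_lit 5) (nat_lit 30) (nat_lit 4) (nat_lit 28) (nat_lit 4) (nat_lit 644) (nat_lit 462) (nat_lit 454))) (XT.nd (nat_lit 78) (nat_lit 152) (nat_lit 0)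 (XT.lf (nat_lit 0) (nat_lit 10258869375) (nat_lit 152) (nat_lit 3734616265) (nat_lit 152) (nat_lit 594119750) (nat_lit 26) (nat_lit 4) (nat_lit 28) (nat_lit 5) (nat_lit 28) (nat_lit 4) (nat_lit 645) (nat_lit 462) (nat_lit 453)) (XT.lf (nat_lit 0) (nat_lit 5928948220) (nat_lit 152) (nat_lit 6271740569) (nat_lit 0) (nat_lit 2540582381) (nat_lit 24) (nat_lit 5) (nat_lit 26) (nat_lit 4) (nat_lit 24) (nat_lit 4) (nat_lit 646) (nat_lit 462) (nat_lit 452))))) (XT.nd (nat_lit 234) (nat_lit 152) (nat_lit 0) (XT.nd (nat_lit 78) (nat_lit 304) (nat_lit 0) (XT.lf (nat_lit 0) (nat_lit 6582864562) (nat_lit 152) (nat_lit 6003290706) (nat_lit 152) (nat_lit 2311544782) (nat_lit 22) (nat_lit 4) (nat_lit 24) (nat_lit 5) (nat_lit 24) (nat_lit 4) (nat_lit 647) (nat_lit 462) (nat_lit 451)) (XT.nd (nat_lit 78) (nat_lit 152) (nat_lit 0) (XT.lf (nat_lit 0) (nat_lit 4252037806) (nat_lit 152) (nat_lit 10463791460) (nat_lit 0) (nat_lit 341079590) (nat_lit 20) (nat_lit 5) (nat_lit 22)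 (nat_lit 4) (nat_lit 20) (nat_lit 4) (nat_lit 648) (nat_lit 462) (nat_lit 450)) (XT.lf (nat_lit 0) (nat_lit 2470866671) (nat_lit 152) (nat_lit 8472213878) (nat_lit 152) (nat_lit 4275373831) (nat_lit 18) (nat_lit 4) (nat_lit 20) (nat_lit 5) (nat_lit 20) (nat_lit 4) (nat_lit 649) (nat_lit 462) (nat_lit 449)))) (XT.nd (nat_lit 79950) (nat_lit 0) (nat_lit 2356) (XT.nd (nat_lit 78) (nat_lit 0) (nat_lit 0) (XT.lf (nat_lit 0) (nat_lit 251649572) (nat_lit 76) (nat_lit 2089323656) (nat_lit 152) (nat_lit 13042198098) (nat_lit 16) (nat_lit 5) (nat_lit 17) (nat_lit 5) (nat_lit 18) (nat_lit 4) (nat_lit 650) (nat_lit 462) (nat_lit 448)) (XT.lf (nat_lit 0) (nat_lit 9062633537) (nat_lit 152) (nat_lit 2083469129) (nat_lit 0) (nat_lit 4403910947) (nat_lit 16) (nat_lit 5) (nat_lit 18) (nat_lit 4) (nat_lit 16) (nat_lit 4) (nat_lit 651) (nat_lit 462) (nat_lit 447))) (XT.nd (nat_lit 78) (nat_lit 228) (nat_lit 0) (XT.lf (nat_lit 0) (nat_lit 5565084680) (nat_lit 228) (nat_lit 480625723)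 (nat_lit 228) (nat_lit 480625723) (nat_lit 50) (nat_lit 4) (nat_lit 53) (nat_lit 5) (nat_lit 53) (nat_lit 4) (nat_lit 634) (nat_lit 463) (nat_lit 463)) (XT.lf (nat_lit 0) (nat_lit 5226219202) (nat_lit 228) (nat_lit 3145415721) (nat_lit 0) (nat_lit 4809743357) (nat_lit 47) (nat_lit 5) (nat_lit 50) (nat_lit 4) (nat_lit 47) (nat_lit 4) (nat_lit 635) (nat_lit 463) (nat_lit 462)))))) (XT.nd (nat_lit 546) (nat_lit 988) (nat_lit 0) (XT.nd (nat_lit 234) (nat_lit 760) (nat_lit 0) (XT.nd (nat_lit 78) (nat_lit 380) (nat_lit 0) (XT.lf (nat_lit 0) (nat_lit 8892864415) (nat_lit 152) (nat_lit 2622320709) (nat_lit 152) (nat_lit 1797535213) (nat_lit 45) (nat_lit 4) (nat_lit 47) (nat_lit 5) (nat_lit 47) (nat_lit 4) (nat_lit 636) (nat_lit 463) (nat_lit 461)) (XT.nd (nat_lit 78) (nat_lit 152) (nat_lit 0) (XT.lf (nat_lit 0) (nat_lit 4430428801) (nat_lit 228) (nat_lit 5786198743) (nat_lit 0) (nat_lit 3229361079) (nat_lit 42) (nat_lit 5) (nat_lit 45) (nat_lit 4) (nat_lit 42) (nat_lit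 4) (nat_lit 637) (nat_lit 463) (nat_lit 460)) (XT.lf (nat_lit 0) (nat_lit 6354966986) (nat_lit 152) (nat_lit 4406249631) (nat_lit 152) (nat_lit 2820422606) (nat_lit 40) (nat_lit 4) (nat_lit 42) (nat_lit 5) (nat_lit 42) (nat_lit 4) (nat_lit 638) (nat_lit 463) (nat_lit 459)))) (XT.nd (nat_lit 156) (nat_lit 380) (nat_lit 0) (XT.nd (nat_lit 78) (nat_lit 152) (nat_lit 0) (XT.lf (nat_lit 0) (nat_lit 3448114926) (nat_lit 228) (nat_lit 8747963236) (nat_lit 0) (nat_lit 1523563916) (nat_lit 37) (nat_lit 5) (nat_lit 40) (nat_lit 4) (nat_lit 37) (nat_lit 4) (nat_lit 639) (nat_lit 463) (nat_lit 458)) (XT.lf (nat_lit 0) (nat_lit 3491306850) (nat_lit 152) (nat_lit 6327774145) (nat_lit 152) (nat_lit 4040655850) (nat_lit 35) (nat_lit 4) (nat_lit 37) (nat_lit 5) (nat_lit 37) (nat_lit 4) (nat_lit 640) (nat_lit 463) (nat_lit 457))) (XT.nd (nat_lit 78) (nat_lit 152) (nat_lit 0) (XT.lf (nat_lit 0) (nat_lit 1943636906) (nat_lit 152) (nat_lit 326765729) (nat_lit 228) (nat_lit 11732212832)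 (nat_lit 32) (nat_lit 5) (nat_lit 34) (nat_lit 5) (nat_lit 35) (nat_lit 4) (nat_lit 641) (nat_lit 463) (nat_lit 456)) (XT.lf (nat_lit 0) (nat_lit 275195131) (nat_lit 152) (nat_lit 8402280974) (nat_lit 152) (nat_lit 5469864529) (nat_lit 30) (nat_lit 4) (nat_lit 32) (nat_lit 5) (nat_lit 32) (nat_lit 4) (nat_lit 642) (nat_lit 463) (nat_lit 455))))) (XT.nd (nat_lit 312) (nat_lit 532) (nat_lit 0) (XT.nd (nat_lit 156) (nat_lit 304) (nat_lit 0) (XT.nd (nat_lit 78) (nat_lit 76) (nat_lit 0) (XT.lf (nat_lit 0) (nat_lit 903807357) (nat_lit 228) (nat_lit 1441681712) (nat_lit 76) (nat_lit 11949390877) (nat_lit 29) (nat_lit 5) (nat_lit 32) (nat_lit 5) (nat_lit 30) (nat_lit 4) (nat_lit 643) (nat_lit 463) (nat_lit 454)) (XT.lf (nat_lit 0) (nat_lit 7345747009) (nat_lit 152) (nat_lit 3278129059) (nat_lit 0) (nat_lit 3820491190) (nat_lit 28) (nat_lit 5) (nat_lit 30) (nat_lit 4) (nat_lit 28) (nat_lit 4) (nat_lit 644) (nat_lit 463) (nat_lit 453))) (XT.nd (nat_lit 78) (nat_lit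 152) (nat_lit 0) (XT.lf (nat_lit 0) (nat_lit 9400655783) (nat_lit 152) (nat_lit 4518514561) (nat_lit 152) (nat_lit 677622101) (nat_lit 26) (nat_lit 4) (nat_lit 28) (nat_lit 5) (nat_lit 28) (nat_lit 4) (nat_lit 645) (nat_lit 463) (nat_lit 452)) (XT.lf (nat_lit 0) (nat_lit 5793584379) (nat_lit 152) (nat_lit 7233320859) (nat_lit 0) (nat_lit 1724623451) (nat_lit 24) (nat_lit 5) (nat_lit 26) (nat_lit 4) (nat_lit 24) (nat_lit 4) (nat_lit 646) (nat_lit 463) (nat_lit 451)))) (XT.nd (nat_lit 156) (nat_lit 228) (nat_lit 0) (XT.nd (nat_lit 78) (nat_lit 152) (nat_lit 0) (XT.lf (nat_lit 0) (nat_lit 5530004559) (nat_lit 152) (nat_lit 6872654263) (nat_lit 152) (nat_lit 2506261878) (nat_lit 22) (nat_lit 4) (nat_lit 24) (nat_lit 5) (nat_lit 24) (nat_lit 4) (nat_lit 647) (nat_lit 463) (nat_lit 450)) (XT.lf (nat_lit 0) (nat_lit 3439925106) (nat_lit 76) (nat_lit 568944674) (nat_lit 152) (nat_lit 11060305564) (nat_lit 20) (nat_lit 5) (nat_lit 21) (nat_lit 5) (nat_lit 22) (nat_lit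 4) (nat_lit 648) (nat_lit 463) (nat_lit 449))) (XT.nd (nat_lit 78) (nat_lit 76) (nat_lit 0) (XT.lf (nat_lit 0) (nat_lit 1215045751) (nat_lit 152) (nat_lit 9431835587) (nat_lit 152) (nat_lit 4584900604) (nat_lit 18) (nat_lit 4) (nat_lit 20) (nat_lit 5) (nat_lit 20) (nat_lit 4) (nat_lit 649) (nat_lit 463) (nat_lit 448)) (XT.lf (nat_lit 0) (nat_lit 1992724438) (nat_lit 228) (nat_lit 1096412306) (nat_lit 76) (nat_lit 12308258403) (nat_lit 17) (nat_lit 5) (nat_lit 20) (nat_lit 5) (nat_lit 18) (nat_lit 4) (nat_lit 650) (nat_lit 463) (nat_lit 447))))))) (XT.nd (nat_lit 80808) (nat_lit 0) (nat_lit 0) (XT.nd (nat_lit 80184) (nat_lit 0) (nat_lit 760) (XT.nd (nat_lit 79872) (nat_lit 0) (nat_lit 1976) (XT.nd (nat_lit 79716) (nat_lit 0) (nat_lit 2812) (XT.lf (nat_lit 0) (nat_lit 8659555309) (nat_lit 152) (nat_lit 3531624326) (nat_lit 0) (nat_lit 3374154813) (nat_lit 16) (nat_lit 5) (nat_lit 18) (nat_lit 4) (nat_lit 16) (nat_lit 4) (nat_lit 651) (nat_lit 463) (nat_lit 446))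 (XT.nd (nat_lit 78) (nat_lit 0) (nat_lit 0) (XT.lf (nat_lit 0) (nat_lit 92162028) (nat_lit 228) (nat_lit 6215810614) (nat_lit 0) (nat_lit 92162028) (nat_lit 53) (nat_lit 5) (nat_lit 56) (nat_lit 4) (nat_lit 53) (nat_lit 4) (nat_lit 632) (nat_lit 464) (nat_lit 464)) (XT.lf (nat_lit 0) (nat_lit 6278934615) (nat_lit 228) (nat_lit 800943122) (nat_lit 0) (nat_lit 5845633146) (nat_lit 53) (nat_lit 5) (nat_lit 56) (nat_lit 4) (nat_lit 53) (nat_lit 4) (nat_lit 633) (nat_lit 464) (nat_lit 463)))) (XT.nd (nat_lit 156) (nat_lit 380) (nat_lit 0) (XT.nd (nat_lit 78) (nat_lit 228) (nat_lit 0) (XT.lf (nat_lit 0) (nat_lit 11052530169) (nat_lit 228) (nat_lit 1429551208) (nat_lit 228) (nat_lit 571444378) (nat_lit 50) (nat_lit 4) (nat_lit 53) (nat_lit 5) (nat_lit 53) (nat_lit 4) (nat_lit 634) (nat_lit 464) (nat_lit 462)) (XT.lf (nat_lit 0) (nat_lit 5564538828) (nat_lit 228) (nat_lit 3303622524) (nat_lit 0) (nat_lit 4314947970) (nat_lit 47) (nat_lit 5) (nat_lit 50) (nat_lit 4)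 (nat_lit 47) (nat_lit 4) (nat_lit 635) (nat_lit 464) (nat_lit 461))) (XT.nd (nat_lit 78) (nat_lit 228) (nat_lit 0) (XT.lf (nat_lit 0) (nat_lit 8654750192) (nat_lit 152) (nat_lit 3155233347) (nat_lit 152) (nat_lit 1505338909) (nat_lit 45) (nat_lit 4) (nat_lit 47) (nat_lit 5) (nat_lit 47) (nat_lit 4) (nat_lit 636) (nat_lit 464) (nat_lit 460)) (XT.lf (nat_lit 0) (nat_lit 4671079329) (nat_lit 228) (nat_lit 6109651895) (nat_lit 0) (nat_lit 2668776459) (nat_lit 42) (nat_lit 5) (nat_lit 45) (nat_lit 4) (nat_lit 42) (nat_lit 4) (nat_lit 637) (nat_lit 464) (nat_lit 459))))) (XT.nd (nat_lit 312) (nat_lit 456) (nat_lit 0) (XT.nd (nat_lit 156) (nat_lit 380) (nat_lit 0) (XT.nd (nat_lit 78) (nat_lit 228) (nat_lit 0) (XT.lf (nat_lit 0) (nat_lit 5949254194) (nat_lit 152) (nat_lit 5008155855) (nat_lit 152) (nat_lit 2628637981) (nat_lit 40) (nat_lit 4) (nat_lit 42) (nat_lit 5) (nat_lit 42) (nat_lit 4) (nat_lit 638) (nat_lit 464) (nat_lit 458)) (XT.lf (nat_lit 0) (nat_lit 3588247214)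 (nat_lit 228) (nat_lit 9243942825) (nat_lit 0) (nat_lit 892819268) (nat_lit 37) (nat_lit 5) (nat_lit 40) (nat_lit 4) (nat_lit 37) (nat_lit 4) (nat_lit 639) (nat_lit 464) (nat_lit 457))) (XT.nd (nat_lit 78) (nat_lit 228) (nat_lit 0) (XT.lf (nat_lit 0) (nat_lit 2910627660) (nat_lit 152) (nat_lit 7003136024) (nat_lit 152) (nat_lit 3952249954) (nat_lit 35) (nat_lit 4) (nat_lit 37) (nat_lit 5) (nat_lit 37) (nat_lit 4) (nat_lit 640) (nat_lit 464) (nat_lit 456)) (XT.lf (nat_lit 0) (nat_lit 1270143344) (nat_lit 152) (nat_lit 1041499116) (nat_lit 228) (nat_lit 11698159003) (nat_lit 32) (nat_lit 5) (nat_lit 34) (nat_lit 5) (nat_lit 35) (nat_lit 4) (nat_lit 641) (nat_lit 464) (nat_lit 455)))) (XT.nd (nat_lit 156) (nat_lit 228) (nat_lit 0) (XT.nd (nat_lit 78) (nat_lit 228) (nat_lit 0) (XT.lf (nat_lit 0) (nat_lit 8670744430) (nat_lit 228) (nat_lit 481673892) (nat_lit 0) (nat_lit 5003068276) (nat_lit 32) (nat_lit 5) (nat_lit 35) (nat_lit 4) (nat_lit 32) (nat_lit 4) (nat_lit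 642) (nat_lit 464) (nat_lit 454)) (XT.lf (nat_lit 0) (nat_lit 844433688) (nat_lit 228) (nat_lit 2290308464) (nat_lit 76) (nat_lit 11169180032) (nat_lit 29) (nat_lit 5) (nat_lit 32) (nat_lit 5) (nat_lit 30) (nat_lit 4) (nat_lit 643) (nat_lit 464) (nat_lit 453))) (XT.nd (nat_lit 78) (nat_lit 152) (nat_lit 0) (XT.lf (nat_lit 0) (nat_lit 7234212131) (nat_lit 152) (nat_lit 4219375915) (nat_lit 0) (nat_lit 3000865182) (nat_lit 28) (nat_lit 5) (nat_lit 30) (nat_lit 4) (nat_lit 28) (nat_lit 4) (nat_lit 644) (nat_lit 464) (nat_lit 452)) (XT.lf (nat_lit 0) (nat_lit 8370059401) (nat_lit 152) (nat_lit 5390280034) (nat_lit 152) (nat_lit 847485398) (nat_lit 26) (nat_lit 4) (nat_lit 28) (nat_lit 5) (nat_lit 28) (nat_lit 4) (nat_lit 645) (nat_lit 464) (nat_lit 451)))))) (XT.nd (nat_lit 80028) (nat_lit 0) (nat_lit 1824) (XT.nd (nat_lit 234) (nat_lit 304) (nat_lit 0) (XT.nd (nat_lit 78) (nat_lit 304) (nat_lit 0) (XT.lf (nat_lit 0) (nat_lit 5572093847) (nat_lit 152) (nat_lit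 8370624710) (nat_lit 0) (nat_lit 820942158) (nat_lit 24) (nat_lit 5) (nat_lit 26) (nat_lit 4) (nat_lit 24) (nat_lit 4) (nat_lit 646) (nat_lit 464) (nat_lit 450)) (XT.nd (nat_lit 78) (nat_lit 152) (nat_lit 0) (XT.lf (nat_lit 0) (nat_lit 4300624954) (nat_lit 152) (nat_lit 7832074388) (nat_lit 152) (nat_lit 2789323232) (nat_lit 22) (nat_lit 4) (nat_lit 24) (nat_lit 5) (nat_lit 24) (nat_lit 4) (nat_lit 647) (nat_lit 464) (nat_lit 449)) (XT.lf (nat_lit 0) (nat_lit 2105793534) (nat_lit 76) (nat_lit 1574615634) (nat_lit 152) (nat_lit 11402887491) (nat_lit 20) (nat_lit 5) (nat_lit 21) (nat_lit 5) (nat_lit 22) (nat_lit 4) (nat_lit 648) (nat_lit 464) (nat_lit 448)))) (XT.nd (nat_lit 156) (nat_lit 76) (nat_lit 0) (XT.nd (nat_lit 78) (nat_lit 228) (nat_lit 0) (XT.lf (nat_lit 0) (nat_lit 10263626285) (nat_lit 152) (nat_lit 218677694) (nat_lit 0) (nat_lit 4764695609) (nat_lit 20) (nat_lit 5) (nat_lit 22) (nat_lit 4) (nat_lit 20) (nat_lit 4) (nat_lit 649) (nat_lit 464) (nat_lit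 447)) (XT.lf (nat_lit 0) (nat_lit 1557688760) (nat_lit 228) (nat_lit 2621792215) (nat_lit 76) (nat_lit 11234019767) (nat_lit 17) (nat_lit 5) (nat_lit 20) (nat_lit 5) (nat_lit 18) (nat_lit 4) (nat_lit 650) (nat_lit 464) (nat_lit 446))) (XT.nd (nat_lit 79560) (nat_lit 0) (nat_lit 3268) (XT.lf (nat_lit 0) (nat_lit 8167066992) (nat_lit 152) (nat_lit 5162606637) (nat_lit 0) (nat_lit 2252915882) (nat_lit 16) (nat_lit 5) (nat_lit 18) (nat_lit 4) (nat_lit 16) (nat_lit 4) (nat_lit 651) (nat_lit 464) (nat_lit 445)) (XT.lf (nat_lit 0) (nat_lit 638988417) (nat_lit 228) (nat_lit 4999059813) (nat_lit 0) (nat_lit 638988417) (nat_lit 59) (nat_lit 5) (nat_lit 62) (nat_lit 4) (nat_lit 59) (nat_lit 4) (nat_lit 630) (nat_lit 465) (nat_lit 465))))) (XT.nd (nat_lit 312) (nat_lit 760) (nat_lit 0) (XT.nd (nat_lit 156) (nat_lit 228) (nat_lit 0) (XT.nd (nat_lit 78) (nat_lit 228) (nat_lit 0) (XT.lf (nat_lit 0) (nat_lit 1440813041) (nat_lit 228) (nat_lit 5843116971) (nat_lit 228) (nat_lit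 5392310123) (nat_lit 56) (nat_lit 4) (nat_lit 59) (nat_lit 5) (nat_lit 59) (nat_lit 4) (nat_lit 631) (nat_lit 465) (nat_lit 464)) (XT.lf (nat_lit 0) (nat_lit 289395858) (nat_lit 152) (nat_lit 295836916) (nat_lit 228) (nat_lit 12215858442) (nat_lit 53) (nat_lit 5) (nat_lit 55) (nat_lit 5) (nat_lit 56) (nat_lit 4) (nat_lit 632) (nat_lit 465) (nat_lit 463))) (XT.nd (nat_lit 78) (nat_lit 228) (nat_lit 0) (XT.lf (nat_lit 0) (nat_lit 6635785749) (nat_lit 228) (nat_lit 955717421) (nat_lit 0) (nat_lit 5335711421) (nat_lit 53) (nat_lit 5) (nat_lit 56) (nat_lit 4) (nat_lit 53) (nat_lit 4) (nat_lit 633) (nat_lit 465) (nat_lit 462)) (XT.lf (nat_lit 0) (nat_lit 10819582146) (nat_lit 228) (nat_lit 1976527311) (nat_lit 228) (nat_lit 259977138) (nat_lit 50) (nat_lit 4) (nat_lit 53) (nat_lit 5) (nat_lit 53) (nat_lit 4) (nat_lit 634) (nat_lit 465) (nat_lit 461)))) (XT.nd (nat_lit 156) (nat_lit 380) (nat_lit 0) (XT.nd (nat_lit 78) (nat_lit 152) (nat_lit 0) (XT.lf (nat_lit 0)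 (nat_lit 5824834910) (nat_lit 228) (nat_lit 3620098172) (nat_lit 0) (nat_lit 3741639004) (nat_lit 47) (nat_lit 5) (nat_lit 50) (nat_lit 4) (nat_lit 47) (nat_lit 4) (nat_lit 635) (nat_lit 465) (nat_lit 460)) (XT.lf (nat_lit 0) (nat_lit 8257789401) (nat_lit 152) (nat_lit 3768760714) (nat_lit 152) (nat_lit 1293110318) (nat_lit 45) (nat_lit 4) (nat_lit 47) (nat_lit 5) (nat_lit 47) (nat_lit 4) (nat_lit 636) (nat_lit 465) (nat_lit 459))) (XT.nd (nat_lit 78) (nat_lit 152) (nat_lit 0) (XT.lf (nat_lit 0) (nat_lit 4832060530) (nat_lit 228) (nat_lit 6594990171) (nat_lit 0) (nat_lit 2027737295) (nat_lit 42) (nat_lit 5) (nat_lit 45) (nat_lit 4) (nat_lit 42) (nat_lit 4) (nat_lit 637) (nat_lit 465) (nat_lit 458)) (XT.lf (nat_lit 0) (nat_lit 5381033559) (nat_lit 152) (nat_lit 5692665545) (nat_lit 152) (nat_lit 2518523678) (nat_lit 40) (nat_lit 4) (nat_lit 42) (nat_lit 5) (nat_lit 42) (nat_lit 4) (nat_lit 638) (nat_lit 465) (nat_lit 457))))))))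
noncomputable def xc2 : XT := (XT.nd (nat_lit 81588) (nat_lit 0) (nat_lit 0) (XT.nd (nat_lit 80418) (nat_lit 0) (nat_lit 988) (XT.nd (nat_lit 546) (nat_lit 760) (nat_lit 0) (XT.nd (nat_lit 234) (nat_lit 456) (nat_lit 0) (XT.nd (nat_lit 78) (nat_lit 380) (nat_lit 0) (XT.lf (nat_lit 0) (nat_lit 3646989669) (nat_lit 228) (nat_lit 9905551462) (nat_lit 0) (nat_lit 179627755) (nat_lit 37) (nat_lit 5) (nat_lit 40) (nat_lit 4) (nat_lit 37) (nat_lit 4) (nat_lit 639) (nat_lit 465) (nat_lit 456)) (XT.nd (nat_lit 78) (nat_lit 228) (nat_lit 0) (XT.lf (nat_lit 0) (nat_lit 2163649833) (nat_lit 152) (nat_lit 7763144228) (nat_lit 152) (nat_lit 3947293958) (nat_lit 35) (nat_lit 4) (nat_lit 37) (nat_lit 5) (nat_lit 37) (nat_lit 4) (nat_lit 640) (nat_lit 465) (nat_lit 455)) (XT.lf (nat_lit 0) (nat_lit 428401122) (nat_lit 152) (nat_lit 1841849691) (nat_lit 228) (nat_lit 11748550579) (nat_lit 32) (nat_lit 5) (nat_lit 34) (nat_lit 5) (nat_lit 35) (nat_lit 4) (nat_lit 641) (nat_lit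 465) (nat_lit 454)))) (XT.nd (nat_lit 156) (nat_lit 228) (nat_lit 0) (XT.nd (nat_lit 78) (nat_lit 228) (nat_lit 0) (XT.lf (nat_lit 0) (nat_lit 8583426742) (nat_lit 228) (nat_lit 1402926261) (nat_lit 0) (nat_lit 4179052575) (nat_lit 32) (nat_lit 5) (nat_lit 35) (nat_lit 4) (nat_lit 32) (nat_lit 4) (nat_lit 642) (nat_lit 465) (nat_lit 453)) (XT.lf (nat_lit 0) (nat_lit 701683780) (nat_lit 228) (nat_lit 3308922303) (nat_lit 76) (nat_lit 10304183984) (nat_lit 29) (nat_lit 5) (nat_lit 32) (nat_lit 5) (nat_lit 30) (nat_lit 4) (nat_lit 643) (nat_lit 465) (nat_lit 452))) (XT.nd (nat_lit 78) (nat_lit 152) (nat_lit 0) (XT.lf (nat_lit 0) (nat_lit 7038425032) (nat_lit 152) (nat_lit 5332630507) (nat_lit 0) (nat_lit 2095326815) (nat_lit 28) (nat_lit 5) (nat_lit 30) (nat_lit 4) (nat_lit 28) (nat_lit 4) (nat_lit 644) (nat_lit 465) (nat_lit 451)) (XT.lf (nat_lit 0) (nat_lit 7166676074) (nat_lit 152) (nat_lit 6350254555) (nat_lit 152) (nat_lit 1103776253) (nat_lit 26) (nat_lit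 4) (nat_lit 28) (nat_lit 5) (nat_lit 28) (nat_lit 4) (nat_lit 645) (nat_lit 465) (nat_lit 450))))) (XT.nd (nat_lit 234) (nat_lit 304) (nat_lit 0) (XT.nd (nat_lit 78) (nat_lit 304) (nat_lit 0) (XT.lf (nat_lit 0) (nat_lit 5092427617) (nat_lit 76) (nat_lit 173085935) (nat_lit 152) (nat_lit 9512135976) (nat_lit 24) (nat_lit 5) (nat_lit 25) (nat_lit 5) (nat_lit 26) (nat_lit 4) (nat_lit 646) (nat_lit 465) (nat_lit 449)) (XT.nd (nat_lit 78) (nat_lit 152) (nat_lit 0) (XT.lf (nat_lit 0) (nat_lit 2894243636) (nat_lit 152) (nat_lit 8881927324) (nat_lit 152) (nat_lit 3160839848) (nat_lit 22) (nat_lit 4) (nat_lit 24) (nat_lit 5) (nat_lit 24) (nat_lit 4) (nat_lit 647) (nat_lit 465) (nat_lit 448)) (XT.lf (nat_lit 0) (nat_lit 592488315) (nat_lit 76) (nat_lit 2671794900) (nat_lit 152) (nat_lit 11835040000) (nat_lit 20) (nat_lit 5) (nat_lit 21) (nat_lit 5) (nat_lit 22) (nat_lit 4) (nat_lit 648) (nat_lit 465) (nat_lit 447)))) (XT.nd (nat_lit 156) (nat_lit 76) (nat_lit 0) (XT.nd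 (nat_lit 78) (nat_lit 228) (nat_lit 0) (XT.lf (nat_lit 0) (nat_lit 9800792330) (nat_lit 152) (nat_lit 1815458893) (nat_lit 0) (nat_lit 3647709515) (nat_lit 20) (nat_lit 5) (nat_lit 22) (nat_lit 4) (nat_lit 20) (nat_lit 4) (nat_lit 649) (nat_lit 465) (nat_lit 446)) (XT.lf (nat_lit 0) (nat_lit 1034061715) (nat_lit 228) (nat_lit 4328388769) (nat_lit 76) (nat_lit 10069076617) (nat_lit 17) (nat_lit 5) (nat_lit 20) (nat_lit 5) (nat_lit 18) (nat_lit 4) (nat_lit 650) (nat_lit 465) (nat_lit 445))) (XT.nd (nat_lit 79404) (nat_lit 0) (nat_lit 3724) (XT.lf (nat_lit 0) (nat_lit 7584975452) (nat_lit 152) (nat_lit 6977055664) (nat_lit 0) (nat_lit 1039754454) (nat_lit 16) (nat_lit 5) (nat_lit 18) (nat_lit 4) (nat_lit 16) (nat_lit 4) (nat_lit 651) (nat_lit 465) (nat_lit 444)) (XT.lf (nat_lit 0) (nat_lit 1159623068) (nat_lit 228) (nat_lit 3837955617) (nat_lit 0) (nat_lit 1159623068) (nat_lit 65) (nat_lit 5) (nat_lit 68) (nat_lit 4) (nat_lit 65) (nat_lit 4) (nat_lit 628) (nat_lit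 466) (nat_lit 466)))))) (XT.nd (nat_lit 546) (nat_lit 1368) (nat_lit 0) (XT.nd (nat_lit 234) (nat_lit 684) (nat_lit 0) (XT.nd (nat_lit 78) (nat_lit 456) (nat_lit 0) (XT.lf (nat_lit 0) (nat_lit 3582257661) (nat_lit 228) (nat_lit 4660117860) (nat_lit 228) (nat_lit 4191098415) (nat_lit 62) (nat_lit 4) (nat_lit 65) (nat_lit 5) (nat_lit 65) (nat_lit 4) (nat_lit 629) (nat_lit 466) (nat_lit 465)) (XT.nd (nat_lit 78) (nat_lit 228) (nat_lit 0) (XT.lf (nat_lit 0) (nat_lit 1695491518) (nat_lit 228) (nat_lit 10074566986) (nat_lit 0) (nat_lit 784861685) (nat_lit 59) (nat_lit 5) (nat_lit 62) (nat_lit 4) (nat_lit 59) (nat_lit 4) (nat_lit 630) (nat_lit 466) (nat_lit 464)) (XT.lf (nat_lit 0) (nat_lit 1287405321) (nat_lit 228) (nat_lit 6371564621) (nat_lit 228) (nat_lit 5018967290) (nat_lit 56) (nat_lit 4) (nat_lit 59) (nat_lit 5) (nat_lit 59) (nat_lit 4) (nat_lit 631) (nat_lit 466) (nat_lit 463)))) (XT.nd (nat_lit 156) (nat_lit 456) (nat_lit 0) (XT.nd (nat_lit 78) (nat_lit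 0) (nat_lit 0) (XT.lf (nat_lit 0) (nat_lit 53770309) (nat_lit 152) (nat_lit 856956972) (nat_lit 228) (nat_lit 11892872274) (nat_lit 53) (nat_lit 5) (nat_lit 55) (nat_lit 5) (nat_lit 56) (nat_lit 4) (nat_lit 632) (nat_lit 466) (nat_lit 462)) (XT.lf (nat_lit 0) (nat_lit 6916326491) (nat_lit 228) (nat_lit 1265326714) (nat_lit 0) (nat_lit 4748969471) (nat_lit 53) (nat_lit 5) (nat_lit 56) (nat_lit 4) (nat_lit 53) (nat_lit 4) (nat_lit 633) (nat_lit 466) (nat_lit 461))) (XT.nd (nat_lit 78) (nat_lit 228) (nat_lit 0) (XT.lf (nat_lit 0) (nat_lit 10431233941) (nat_lit 228) (nat_lit 2602394254) (nat_lit 228) (nat_lit 26727582) (nat_lit 50) (nat_lit 4) (nat_lit 53) (nat_lit 5) (nat_lit 53) (nat_lit 4) (nat_lit 634) (nat_lit 466) (nat_lit 460)) (XT.lf (nat_lit 0) (nat_lit 6007209525) (nat_lit 228) (nat_lit 4094966773) (nat_lit 0) (nat_lit 3089591630) (nat_lit 47) (nat_lit 5) (nat_lit 50) (nat_lit 4) (nat_lit 47) (nat_lit 4) (nat_lit 635) (nat_lit 466) (nat_lit 459)))))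 (XT.nd (nat_lit 312) (nat_lit 608) (nat_lit 0) (XT.nd (nat_lit 156) (nat_lit 380) (nat_lit 0) (XT.nd (nat_lit 78) (nat_lit 228) (nat_lit 0) (XT.lf (nat_lit 0) (nat_lit 7701826371) (nat_lit 152) (nat_lit 4463143411) (nat_lit 152) (nat_lit 1160766212) (nat_lit 45) (nat_lit 4) (nat_lit 47) (nat_lit 5) (nat_lit 47) (nat_lit 4) (nat_lit 636) (nat_lit 466) (nat_lit 458)) (XT.lf (nat_lit 0) (nat_lit 4913435535) (nat_lit 228) (nat_lit 7242403900) (nat_lit 0) (nat_lit 1305992199) (nat_lit 42) (nat_lit 5) (nat_lit 45) (nat_lit 4) (nat_lit 42) (nat_lit 4) (nat_lit 637) (nat_lit 466) (nat_lit 457))) (XT.nd (nat_lit 78) (nat_lit 228) (nat_lit 0) (XT.lf (nat_lit 0) (nat_lit 4650082248) (nat_lit 152) (nat_lit 6460047136) (nat_lit 152) (nat_lit 2490036515) (nat_lit 40) (nat_lit 4) (nat_lit 42) (nat_lit 5) (nat_lit 42) (nat_lit 4) (nat_lit 638) (nat_lit 466) (nat_lit 456)) (XT.lf (nat_lit 0) (nat_lit 3003939389) (nat_lit 152) (nat_lit 624480478) (nat_lit 228) (nat_lit 10112622664)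 (nat_lit 37) (nat_lit 5) (nat_lit 39) (nat_lit 5) (nat_lit 40) (nat_lit 4) (nat_lit 639) (nat_lit 466) (nat_lit 455)))) (XT.nd (nat_lit 156) (nat_lit 380) (nat_lit 0) (XT.nd (nat_lit 78) (nat_lit 76) (nat_lit 0) (XT.lf (nat_lit 0) (nat_lit 1250080439) (nat_lit 152) (nat_lit 8608096799) (nat_lit 152) (nat_lit 4025785917) (nat_lit 35) (nat_lit 4) (nat_lit 37) (nat_lit 5) (nat_lit 37) (nat_lit 4) (nat_lit 640) (nat_lit 466) (nat_lit 454)) (XT.lf (nat_lit 0) (nat_lit 2149989674) (nat_lit 228) (nat_lit 574287868) (nat_lit 76) (nat_lit 11305265679) (nat_lit 34) (nat_lit 5) (nat_lit 37) (nat_lit 5) (nat_lit 35) (nat_lit 4) (nat_lit 641) (nat_lit 466) (nat_lit 453))) (XT.nd (nat_lit 78) (nat_lit 228) (nat_lit 0) (XT.lf (nat_lit 0) (nat_lit 8413702049) (nat_lit 228) (nat_lit 2492532482) (nat_lit 0) (nat_lit 3270902665) (nat_lit 32) (nat_lit 5) (nat_lit 35) (nat_lit 4) (nat_lit 32) (nat_lit 4) (nat_lit 642) (nat_lit 466) (nat_lit 452)) (XT.lf (nat_lit 0) (nat_lit 475501653)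 (nat_lit 228) (nat_lit 4497922686) (nat_lit 76) (nat_lit 9354063521) (nat_lit 29) (nat_lit 5) (nat_lit 32) (nat_lit 5) (nat_lit 30) (nat_lit 4) (nat_lit 643) (nat_lit 466) (nat_lit 451))))))) (XT.nd (nat_lit 80262) (nat_lit 0) (nat_lit 608) (XT.nd (nat_lit 546) (nat_lit 76) (nat_lit 0) (XT.nd (nat_lit 234) (nat_lit 532) (nat_lit 0) (XT.nd (nat_lit 78) (nat_lit 304) (nat_lit 0) (XT.lf (nat_lit 0) (nat_lit 6758308931) (nat_lit 152) (nat_lit 6618329406) (nat_lit 0) (nat_lit 1103520977) (nat_lit 28) (nat_lit 5) (nat_lit 30) (nat_lit 4) (nat_lit 28) (nat_lit 4) (nat_lit 644) (nat_lit 466) (nat_lit 450)) (XT.nd (nat_lit 78) (nat_lit 152) (nat_lit 0) (XT.lf (nat_lit 0) (nat_lit 5790033887) (nat_lit 152) (nat_lit 7398814583) (nat_lit 152) (nat_lit 1446595172) (nat_lit 26) (nat_lit 4) (nat_lit 28) (nat_lit 5) (nat_lit 28) (nat_lit 4) (nat_lit 645) (nat_lit 466) (nat_lit 449)) (XT.lf (nat_lit 0) (nat_lit 3610916731) (nat_lit 76) (nat_lit 1267665252) (nat_lit 152) (nat_lit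 9914821455) (nat_lit 24) (nat_lit 5) (nat_lit 25) (nat_lit 5) (nat_lit 26) (nat_lit 4) (nat_lit 646) (nat_lit 466) (nat_lit 448)))) (XT.nd (nat_lit 156) (nat_lit 304) (nat_lit 0) (XT.nd (nat_lit 78) (nat_lit 76) (nat_lit 0) (XT.lf (nat_lit 0) (nat_lit 1310309084) (nat_lit 152) (nat_lit 10022624779) (nat_lit 152) (nat_lit 3620957419) (nat_lit 22) (nat_lit 4) (nat_lit 24) (nat_lit 5) (nat_lit 24) (nat_lit 4) (nat_lit 647) (nat_lit 466) (nat_lit 447)) (XT.lf (nat_lit 0) (nat_lit 2767474457) (nat_lit 228) (nat_lit 1086149647) (nat_lit 76) (nat_lit 11263494281) (nat_lit 21) (nat_lit 5) (nat_lit 24) (nat_lit 5) (nat_lit 22) (nat_lit 4) (nat_lit 648) (nat_lit 466) (nat_lit 446))) (XT.nd (nat_lit 78) (nat_lit 228) (nat_lit 0) (XT.lf (nat_lit 0) (nat_lit 9250309086) (nat_lit 152) (nat_lit 3591859577) (nat_lit 0) (nat_lit 2440661160) (nat_lit 20) (nat_lit 5) (nat_lit 22) (nat_lit 4) (nat_lit 20) (nat_lit 4) (nat_lit 649) (nat_lit 466) (nat_lit 445)) (XT.lf (nat_lit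 0) (nat_lit 421637961) (nat_lit 228) (nat_lit 6216871224) (nat_lit 76) (nat_lit 8812972113) (nat_lit 17) (nat_lit 5) (nat_lit 20) (nat_lit 5) (nat_lit 18) (nat_lit 4) (nat_lit 650) (nat_lit 466) (nat_lit 444))))) (XT.nd (nat_lit 79404) (nat_lit 0) (nat_lit 3040) (XT.nd (nat_lit 79248) (nat_lit 0) (nat_lit 3952) (XT.lf (nat_lit 0) (nat_lit 6645463505) (nat_lit 76) (nat_lit 269337631) (nat_lit 152) (nat_lit 8708094043) (nat_lit 16) (nat_lit 5) (nat_lit 17) (nat_lit 5) (nat_lit 18) (nat_lit 4) (nat_lit 651) (nat_lit 466) (nat_lit 443)) (XT.nd (nat_lit 78) (nat_lit 228) (nat_lit 0) (XT.lf (nat_lit 0) (nat_lit 1656820603) (nat_lit 304) (nat_lit 2726901790) (nat_lit 0) (nat_lit 1656820603) (nat_lit 71) (nat_lit 5) (nat_lit 75) (nat_lit 4) (nat_lit 71) (nat_lit 4) (nat_lit 626) (nat_lit 467) (nat_lit 467)) (XT.lf (nat_lit 0) (nat_lit 5624191185) (nat_lit 228) (nat_lit 3530457863) (nat_lit 228) (nat_lit 3042490033) (nat_lit 68) (nat_lit 4) (nat_lit 71) (nat_lit 5)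 (nat_lit 71) (nat_lit 4) (nat_lit 627) (nat_lit 467) (nat_lit 466)))) (XT.nd (nat_lit 156) (nat_lit 456) (nat_lit 0) (XT.nd (nat_lit 78) (nat_lit 228) (nat_lit 0) (XT.lf (nat_lit 0) (nat_lit 2755988825) (nat_lit 228) (nat_lit 7750679032) (nat_lit 0) (nat_lit 1808569547) (nat_lit 65) (nat_lit 5) (nat_lit 68) (nat_lit 4) (nat_lit 65) (nat_lit 4) (nat_lit 628) (nat_lit 467) (nat_lit 465)) (XT.lf (nat_lit 0) (nat_lit 3432220336) (nat_lit 228) (nat_lit 5205083396) (nat_lit 228) (nat_lit 3797841133) (nat_lit 62) (nat_lit 4) (nat_lit 65) (nat_lit 5) (nat_lit 65) (nat_lit 4) (nat_lit 629) (nat_lit 467) (nat_lit 464))) (XT.nd (nat_lit 78) (nat_lit 228) (nat_lit 0) (XT.lf (nat_lit 0) (nat_lit 2037569465) (nat_lit 228) (nat_lit 10303939042) (nat_lit 0) (nat_lit 215952690) (nat_lit 59) (nat_lit 5) (nat_lit 62) (nat_lit 4) (nat_lit 59) (nat_lit 4) (nat_lit 630) (nat_lit 467) (nat_lit 463)) (XT.lf (nat_lit 0) (nat_lit 980529722) (nat_lit 228) (nat_lit 6977860308) (nat_lit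 228) (nat_lit 4722942064) (nat_lit 56) (nat_lit 4) (nat_lit 59) (nat_lit 5) (nat_lit 59) (nat_lit 4) (nat_lit 631) (nat_lit 467) (nat_lit 462)))))) (XT.nd (nat_lit 546) (nat_lit 1216) (nat_lit 0) (XT.nd (nat_lit 234) (nat_lit 684) (nat_lit 0) (XT.nd (nat_lit 78) (nat_lit 456) (nat_lit 0) (XT.lf (nat_lit 0) (nat_lit 1161911138) (nat_lit 304) (nat_lit 332663105) (nat_lit 76) (nat_lit 11313201582) (nat_lit 55) (nat_lit 5) (nat_lit 59) (nat_lit 5) (nat_lit 56) (nat_lit 4) (nat_lit 632) (nat_lit 467) (nat_lit 461)) (XT.nd (nat_lit 78) (nat_lit 304) (nat_lit 0) (XT.lf (nat_lit 0) (nat_lit 7120666857) (nat_lit 228) (nat_lit 1729892417) (nat_lit 0) (nat_lit 4085177200) (nat_lit 53) (nat_lit 5) (nat_lit 56) (nat_lit 4) (nat_lit 53) (nat_lit 4) (nat_lit 633) (nat_lit 467) (nat_lit 460)) (XT.lf (nat_lit 0) (nat_lit 126711826) (nat_lit 304) (nat_lit 3179835348) (nat_lit 76) (nat_lit 9759771130) (nat_lit 49) (nat_lit 5) (nat_lit 53) (nat_lit 5) (nat_lit 50) (nat_lit 4)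 (nat_lit 634) (nat_lit 467) (nat_lit 459)))) (XT.nd (nat_lit 156) (nat_lit 380) (nat_lit 0) (XT.nd (nat_lit 78) (nat_lit 152) (nat_lit 0) (XT.lf (nat_lit 0) (nat_lit 6111734192) (nat_lit 228) (nat_lit 4728414550) (nat_lit 0) (nat_lit 2358550145) (nat_lit 47) (nat_lit 5) (nat_lit 50) (nat_lit 4) (nat_lit 47) (nat_lit 4) (nat_lit 635) (nat_lit 467) (nat_lit 458)) (XT.lf (nat_lit 0) (nat_lit 6986643078) (nat_lit 152) (nat_lit 5238653742) (nat_lit 152) (nat_lit 1108254692) (nat_lit 45) (nat_lit 4) (nat_lit 47) (nat_lit 5) (nat_lit 47) (nat_lit 4) (nat_lit 636) (nat_lit 467) (nat_lit 457))) (XT.nd (nat_lit 78) (nat_lit 152) (nat_lit 0) (XT.lf (nat_lit 0) (nat_lit 4915236254) (nat_lit 228) (nat_lit 8052146971) (nat_lit 0) (nat_lit 503258135) (nat_lit 42) (nat_lit 5) (nat_lit 45) (nat_lit 4) (nat_lit 42) (nat_lit 4) (nat_lit 637) (nat_lit 467) (nat_lit 456)) (XT.lf (nat_lit 0) (nat_lit 3756113615) (nat_lit 152) (nat_lit 7310601562) (nat_lit 152) (nat_lit 2543165319)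 (nat_lit 40) (nat_lit 4) (nat_lit 42) (nat_lit 5) (nat_lit 42) (nat_lit 4) (nat_lit 638) (nat_lit 467) (nat_lit 455))))) (XT.nd (nat_lit 312) (nat_lit 608) (nat_lit 0) (XT.nd (nat_lit 156) (nat_lit 228) (nat_lit 0) (XT.nd (nat_lit 78) (nat_lit 152) (nat_lit 0) (XT.lf (nat_lit 0) (nat_lit 2015084381) (nat_lit 152) (nat_lit 1515118083) (nat_lit 228) (nat_lit 10221477820) (nat_lit 37) (nat_lit 5) (nat_lit 39) (nat_lit 5) (nat_lit 40) (nat_lit 4) (nat_lit 639) (nat_lit 467) (nat_lit 454)) (XT.lf (nat_lit 0) (nat_lit 169561213) (nat_lit 152) (nat_lit 9538325092) (nat_lit 152) (nat_lit 4187756613) (nat_lit 35) (nat_lit 4) (nat_lit 37) (nat_lit 5) (nat_lit 37) (nat_lit 4) (nat_lit 640) (nat_lit 467) (nat_lit 453))) (XT.nd (nat_lit 78) (nat_lit 152) (nat_lit 0) (XT.lf (nat_lit 0) (nat_lit 1950910751) (nat_lit 228) (nat_lit 1738117123) (nat_lit 76) (nat_lit 10353001311) (nat_lit 34) (nat_lit 5) (nat_lit 37) (nat_lit 5) (nat_lit 35) (nat_lit 4) (nat_lit 641) (nat_lit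 467) (nat_lit 452)) (XT.lf (nat_lit 0) (nat_lit 8161503795) (nat_lit 228) (nat_lit 3750919853) (nat_lit 0) (nat_lit 2278262408) (nat_lit 32) (nat_lit 5) (nat_lit 35) (nat_lit 4) (nat_lit 32) (nat_lit 4) (nat_lit 642) (nat_lit 467) (nat_lit 451)))) (XT.nd (nat_lit 156) (nat_lit 304) (nat_lit 0) (XT.nd (nat_lit 78) (nat_lit 76) (nat_lit 0) (XT.lf (nat_lit 0) (nat_lit 165798607) (nat_lit 228) (nat_lit 5857775886) (nat_lit 76) (nat_lit 8318446046) (nat_lit 29) (nat_lit 5) (nat_lit 32) (nat_lit 5) (nat_lit 30) (nat_lit 4) (nat_lit 643) (nat_lit 467) (nat_lit 450)) (XT.lf (nat_lit 0) (nat_lit 6393753979) (nat_lit 152) (nat_lit 8076976808) (nat_lit 0) (nat_lit 25058724) (nat_lit 28) (nat_lit 5) (nat_lit 30) (nat_lit 4) (nat_lit 28) (nat_lit 4) (nat_lit 644) (nat_lit 467) (nat_lit 449))) (XT.nd (nat_lit 78) (nat_lit 152) (nat_lit 0) (XT.lf (nat_lit 0) (nat_lit 4239592979) (nat_lit 152) (nat_lit 8536371317) (nat_lit 152) (nat_lit 1876076596) (nat_lit 26) (nat_lit 4)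 (nat_lit 28) (nat_lit 5) (nat_lit 28) (nat_lit 4) (nat_lit 645) (nat_lit 467) (nat_lit 448)) (XT.lf (nat_lit 0) (nat_lit 1953431318) (nat_lit 76) (nat_lit 2452315151) (nat_lit 152) (nat_lit 10405290177) (nat_lit 24) (nat_lit 5) (nat_lit 25) (nat_lit 5) (nat_lit 26) (nat_lit 4) (nat_lit 646) (nat_lit 467) (nat_lit 447))))))))
noncomputable def xc3 : XT := (XT.nd (nat_lit 81276) (nat_lit 0) (nat_lit 0) (XT.nd (nat_lit 80106) (nat_lit 0) (nat_lit 608) (XT.nd (nat_lit 79560) (nat_lit 0) (nat_lit 2964) (XT.nd (nat_lit 234) (nat_lit 304) (nat_lit 0) (XT.nd (nat_lit 78) (nat_lit 304) (nat_lit 0) (XT.lf (nat_lit 0) (nat_lit 10805747617) (nat_lit 152) (nat_lit 445874416) (nat_lit 0) (nat_lit 3720989914) (nat_lit 24) (nat_lit 5) (nat_lit 26) (nat_lit 4) (nat_lit 24) (nat_lit 4) (nat_lit 647) (nat_lit 467) (nat_lit 446)) (XT.nd (nat_lit 78) (nat_lit 76) (nat_lit 0) (XT.lf (nat_lit 0) (nat_lit 2187657847) (nat_lit 228) (nat_lit 2935081683) (nat_lit 76) (nat_lit 10013992219)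 (nat_lit 21) (nat_lit 5) (nat_lit 24) (nat_lit 5) (nat_lit 22) (nat_lit 4) (nat_lit 648) (nat_lit 467) (nat_lit 445)) (XT.lf (nat_lit 0) (nat_lit 8611960677) (nat_lit 152) (nat_lit 5548576373) (nat_lit 0) (nat_lit 1143077190) (nat_lit 20) (nat_lit 5) (nat_lit 22) (nat_lit 4) (nat_lit 20) (nat_lit 4) (nat_lit 649) (nat_lit 467) (nat_lit 444)))) (XT.nd (nat_lit 79170) (nat_lit 0) (nat_lit 4484) (XT.nd (nat_lit 78) (nat_lit 152) (nat_lit 0) (XT.lf (nat_lit 0) (nat_lit 7183513239) (nat_lit 152) (nat_lit 8006279735) (nat_lit 152) (nat_lit 283541363) (nat_lit 18) (nat_lit 4) (nat_lit 20) (nat_lit 5) (nat_lit 20) (nat_lit 4) (nat_lit 650) (nat_lit 467) (nat_lit 443)) (XT.lf (nat_lit 0) (nat_lit 4475591103) (nat_lit 76) (nat_lit 1686392467) (nat_lit 152) (nat_lit 9483828999) (nat_lit 16) (nat_lit 5) (nat_lit 17) (nat_lit 5) (nat_lit 18) (nat_lit 4) (nat_lit 651) (nat_lit 467) (nat_lit 442))) (XT.nd (nat_lit 78) (nat_lit 228) (nat_lit 0) (XT.lf (nat_lit 0) (nat_lit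 2133153914) (nat_lit 304) (nat_lit 1660670708) (nat_lit 0) (nat_lit 2133153914) (nat_lit 78) (nat_lit 5) (nat_lit 82) (nat_lit 4) (nat_lit 78) (nat_lit 4) (nat_lit 624) (nat_lit 468) (nat_lit 468)) (XT.lf (nat_lit 0) (nat_lit 7577296868) (nat_lit 228) (nat_lit 2448726188) (nat_lit 228) (nat_lit 1941044458) (nat_lit 75) (nat_lit 4) (nat_lit 78) (nat_lit 5) (nat_lit 78) (nat_lit 4) (nat_lit 625) (nat_lit 468) (nat_lit 467))))) (XT.nd (nat_lit 234) (nat_lit 760) (nat_lit 0) (XT.nd (nat_lit 78) (nat_lit 456) (nat_lit 0) (XT.lf (nat_lit 0) (nat_lit 3770342432) (nat_lit 304) (nat_lit 5526917452) (nat_lit 0) (nat_lit 2784647415) (nat_lit 71) (nat_lit 5) (nat_lit 75) (nat_lit 4) (nat_lit 71) (nat_lit 4) (nat_lit 626) (nat_lit 468) (nat_lit 466)) (XT.nd (nat_lit 78) (nat_lit 228) (nat_lit 0) (XT.lf (nat_lit 0) (nat_lit 5477472808) (nat_lit 228) (nat_lit 4092703340) (nat_lit 228) (nat_lit 2628608490) (nat_lit 68) (nat_lit 4) (nat_lit 71) (nat_lit 5) (nat_lit 71) (nat_lit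 4) (nat_lit 627) (nat_lit 468) (nat_lit 465)) (XT.lf (nat_lit 0) (nat_lit 3118968887) (nat_lit 228) (nat_lit 7975011744) (nat_lit 0) (nat_lit 1223758794) (nat_lit 65) (nat_lit 5) (nat_lit 68) (nat_lit 4) (nat_lit 65) (nat_lit 4) (nat_lit 628) (nat_lit 468) (nat_lit 464)))) (XT.nd (nat_lit 156) (nat_lit 304) (nat_lit 0) (XT.nd (nat_lit 78) (nat_lit 228) (nat_lit 0) (XT.lf (nat_lit 0) (nat_lit 3132086846) (nat_lit 228) (nat_lit 5826208735) (nat_lit 228) (nat_lit 3480191794) (nat_lit 62) (nat_lit 4) (nat_lit 65) (nat_lit 5) (nat_lit 65) (nat_lit 4) (nat_lit 629) (nat_lit 468) (nat_lit 463)) (XT.lf (nat_lit 0) (nat_lit 1872492936) (nat_lit 152) (nat_lit 434674081) (nat_lit 228) (nat_lit 10254473856) (nat_lit 59) (nat_lit 5) (nat_lit 61) (nat_lit 5) (nat_lit 62) (nat_lit 4) (nat_lit 630) (nat_lit 468) (nat_lit 462))) (XT.nd (nat_lit 78) (nat_lit 76) (nat_lit 0) (XT.lf (nat_lit 0) (nat_lit 520065900) (nat_lit 228) (nat_lit 7662241795) (nat_lit 228) (nat_lit 4504118356)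 (nat_lit 56) (nat_lit 4) (nat_lit 59) (nat_lit 5) (nat_lit 59) (nat_lit 4) (nat_lit 631) (nat_lit 468) (nat_lit 461)) (XT.lf (nat_lit 0) (nat_lit 1338051372) (nat_lit 304) (nat_lit 871735510) (nat_lit 76) (nat_lit 10603851413) (nat_lit 55) (nat_lit 5) (nat_lit 59) (nat_lit 5) (nat_lit 56) (nat_lit 4) (nat_lit 632) (nat_lit 468) (nat_lit 460)))))) (XT.nd (nat_lit 546) (nat_lit 988) (nat_lit 0) (XT.nd (nat_lit 234) (nat_lit 760) (nat_lit 0) (XT.nd (nat_lit 78) (nat_lit 456) (nat_lit 0) (XT.lf (nat_lit 0) (nat_lit 7248886980) (nat_lit 228) (nat_lit 2349596713) (nat_lit 0) (nat_lit 3344074298) (nat_lit 53) (nat_lit 5) (nat_lit 56) (nat_lit 4) (nat_lit 53) (nat_lit 4) (nat_lit 633) (nat_lit 468) (nat_lit 459)) (XT.nd (nat_lit 78) (nat_lit 152) (nat_lit 0) (XT.lf (nat_lit 0) (nat_lit 202759158) (nat_lit 304) (nat_lit 3887693672) (nat_lit 76) (nat_lit 8983547029) (nat_lit 49) (nat_lit 5) (nat_lit 53) (nat_lit 5) (nat_lit 50) (nat_lit 4) (nat_lit 634) (nat_lit 468)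 (nat_lit 458)) (XT.lf (nat_lit 0) (nat_lit 6138449901) (nat_lit 228) (nat_lit 5520689914) (nat_lit 0) (nat_lit 1548227866) (nat_lit 47) (nat_lit 5) (nat_lit 50) (nat_lit 4) (nat_lit 47) (nat_lit 4) (nat_lit 635) (nat_lit 468) (nat_lit 457)))) (XT.nd (nat_lit 156) (nat_lit 380) (nat_lit 0) (XT.nd (nat_lit 78) (nat_lit 228) (nat_lit 0) (XT.lf (nat_lit 0) (nat_lit 6111959058) (nat_lit 152) (nat_lit 6095595832) (nat_lit 152) (nat_lit 1135555165) (nat_lit 45) (nat_lit 4) (nat_lit 47) (nat_lit 5) (nat_lit 47) (nat_lit 4) (nat_lit 636) (nat_lit 468) (nat_lit 456)) (XT.lf (nat_lit 0) (nat_lit 4454128467) (nat_lit 152) (nat_lit 385840056) (nat_lit 228) (nat_lit 8641202002) (nat_lit 42) (nat_lit 5) (nat_lit 44) (nat_lit 5) (nat_lit 45) (nat_lit 4) (nat_lit 637) (nat_lit 468) (nat_lit 455))) (XT.nd (nat_lit 78) (nat_lit 228) (nat_lit 0) (XT.lf (nat_lit 0) (nat_lit 2698777083) (nat_lit 152) (nat_lit 8244662373) (nat_lit 152) (nat_lit 2677930926) (nat_lit 40) (nat_lit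 4) (nat_lit 42) (nat_lit 5) (nat_lit 42) (nat_lit 4) (nat_lit 638) (nat_lit 468) (nat_lit 454)) (XT.lf (nat_lit 0) (nat_lit 860870011) (nat_lit 152) (nat_lit 2490247171) (nat_lit 228) (nat_lit 10412992771) (nat_lit 37) (nat_lit 5) (nat_lit 39) (nat_lit 5) (nat_lit 40) (nat_lit 4) (nat_lit 639) (nat_lit 468) (nat_lit 453))))) (XT.nd (nat_lit 312) (nat_lit 456) (nat_lit 0) (XT.nd (nat_lit 156) (nat_lit 304) (nat_lit 0) (XT.nd (nat_lit 78) (nat_lit 228) (nat_lit 0) (XT.lf (nat_lit 0) (nat_lit 9482863570) (nat_lit 228) (nat_lit 1064189063) (nat_lit 0) (nat_lit 3361939231) (nat_lit 37) (nat_lit 5) (nat_lit 40) (nat_lit 4) (nat_lit 37) (nat_lit 4) (nat_lit 640) (nat_lit 468) (nat_lit 452)) (XT.lf (nat_lit 0) (nat_lit 1670154509) (nat_lit 228) (nat_lit 3069161603) (nat_lit 76) (nat_lit 9317003697) (nat_lit 34) (nat_lit 5) (nat_lit 37) (nat_lit 5) (nat_lit 35) (nat_lit 4) (nat_lit 641) (nat_lit 468) (nat_lit 451))) (XT.nd (nat_lit 78) (nat_lit 152) (nat_lit 0) (XT.lf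 (nat_lit 0) (nat_lit 7826733076) (nat_lit 228) (nat_lit 5178581858) (nat_lit 0) (nat_lit 1200742533) (nat_lit 32) (nat_lit 5) (nat_lit 35) (nat_lit 4) (nat_lit 32) (nat_lit 4) (nat_lit 642) (nat_lit 468) (nat_lit 450)) (XT.lf (nat_lit 0) (nat_lit 6967851668) (nat_lit 152) (nat_lit 7159941414) (nat_lit 152) (nat_lit 230570785) (nat_lit 30) (nat_lit 4) (nat_lit 32) (nat_lit 5) (nat_lit 32) (nat_lit 4) (nat_lit 643) (nat_lit 468) (nat_lit 449)))) (XT.nd (nat_lit 156) (nat_lit 152) (nat_lit 0) (XT.nd (nat_lit 78) (nat_lit 152) (nat_lit 0) (XT.lf (nat_lit 0) (nat_lit 4796481104) (nat_lit 76) (nat_lit 1155639286) (nat_lit 152) (nat_lit 8561008621) (nat_lit 28) (nat_lit 5) (nat_lit 29) (nat_lit 5) (nat_lit 30) (nat_lit 4) (nat_lit 644) (nat_lit 468) (nat_lit 448)) (XT.lf (nat_lit 0) (nat_lit 2514745336) (nat_lit 152) (nat_lit 9763370860) (nat_lit 152) (nat_lit 2392388947) (nat_lit 26) (nat_lit 4) (nat_lit 28) (nat_lit 5) (nat_lit 28) (nat_lit 4) (nat_lit 645) (nat_lit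 468) (nat_lit 447))) (XT.nd (nat_lit 78) (nat_lit 0) (nat_lit 0) (XT.lf (nat_lit 0) (nat_lit 119321383) (nat_lit 76) (nat_lit 3727500201) (nat_lit 152) (nat_lit 10983734482) (nat_lit 24) (nat_lit 5) (nat_lit 25) (nat_lit 5) (nat_lit 26) (nat_lit 4) (nat_lit 646) (nat_lit 468) (nat_lit 446)) (XT.lf (nat_lit 0) (nat_lit 10201139654) (nat_lit 152) (nat_lit 2361392533) (nat_lit 0) (nat_lit 2430513273) (nat_lit 24) (nat_lit 5) (nat_lit 26) (nat_lit 4) (nat_lit 24) (nat_lit 4) (nat_lit 647) (nat_lit 468) (nat_lit 445))))))) (XT.nd (nat_lit 80028) (nat_lit 0) (nat_lit 608) (XT.nd (nat_lit 79404) (nat_lit 0) (nat_lit 2964) (XT.nd (nat_lit 234) (nat_lit 152) (nat_lit 0) (XT.nd (nat_lit 78) (nat_lit 228) (nat_lit 0) (XT.lf (nat_lit 0) (nat_lit 1520759181) (nat_lit 228) (nat_lit 4962803455) (nat_lit 76) (nat_lit 8674685302) (nat_lit 21) (nat_lit 5) (nat_lit 24) (nat_lit 5) (nat_lit 22) (nat_lit 4) (nat_lit 648) (nat_lit 468) (nat_lit 444)) (XT.nd (nat_lit 78) (nat_lit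 152) (nat_lit 0) (XT.lf (nat_lit 0) (nat_lit 7638297743) (nat_lit 76) (nat_lit 248814498) (nat_lit 152) (nat_lit 7439177593) (nat_lit 20) (nat_lit 5) (nat_lit 21) (nat_lit 5) (nat_lit 22) (nat_lit 4) (nat_lit 649) (nat_lit 468) (nat_lit 443)) (XT.lf (nat_lit 0) (nat_lit 4947493225) (nat_lit 152) (nat_lit 9464748264) (nat_lit 152) (nat_lit 1084822903) (nat_lit 18) (nat_lit 4) (nat_lit 20) (nat_lit 5) (nat_lit 20) (nat_lit 4) (nat_lit 650) (nat_lit 468) (nat_lit 442)))) (XT.nd (nat_lit 79014) (nat_lit 0) (nat_lit 4712) (XT.nd (nat_lit 78936) (nat_lit 0) (nat_lit 5244) (XT.lf (nat_lit 0) (nat_lit 2121239070) (nat_lit 76) (nat_lit 3198147969) (nat_lit 152) (nat_lit 10351296497) (nat_lit 16) (nat_lit 5) (nat_lit 17) (nat_lit 5) (nat_lit 18) (nat_lit 4) (nat_lit 651) (nat_lit 468) (nat_lit 441)) (XT.lf (nat_lit 0) (nat_lit 2591029180) (nat_lit 304) (nat_lit 634373013) (nat_lit 0) (nat_lit 2591029180) (nat_lit 85) (nat_lit 5) (nat_lit 89) (nat_lit 4) (nat_lit 85)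 (nat_lit 4) (nat_lit 622) (nat_lit 469) (nat_lit 469))) (XT.nd (nat_lit 78) (nat_lit 304) (nat_lit 0) (XT.lf (nat_lit 0) (nat_lit 9451559303) (nat_lit 228) (nat_lit 1409866944) (nat_lit 228) (nat_lit 881674872) (nat_lit 82) (nat_lit 4) (nat_lit 85) (nat_lit 5) (nat_lit 85) (nat_lit 4) (nat_lit 623) (nat_lit 469) (nat_lit 468)) (XT.lf (nat_lit 0) (nat_lit 4743728539) (nat_lit 304) (nat_lit 3392826202) (nat_lit 0) (nat_lit 3718211443) (nat_lit 78) (nat_lit 5) (nat_lit 82) (nat_lit 4) (nat_lit 78) (nat_lit 4) (nat_lit 624) (nat_lit 469) (nat_lit 467))))) (XT.nd (nat_lit 312) (nat_lit 760) (nat_lit 0) (XT.nd (nat_lit 156) (nat_lit 456) (nat_lit 0) (XT.nd (nat_lit 78) (nat_lit 304) (nat_lit 0) (XT.lf (nat_lit 0) (nat_lit 7433847595) (nat_lit 228) (nat_lit 3029042592) (nat_lit 228) (nat_lit 1505798310) (nat_lit 75) (nat_lit 4) (nat_lit 78) (nat_lit 5) (nat_lit 78) (nat_lit 4) (nat_lit 625) (nat_lit 469) (nat_lit 466)) (XT.lf (nat_lit 0) (nat_lit 4154930188) (nat_lit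 304) (nat_lit 5746287741) (nat_lit 0) (nat_lit 2183153607) (nat_lit 71) (nat_lit 5) (nat_lit 75) (nat_lit 4) (nat_lit 71) (nat_lit 4) (nat_lit 626) (nat_lit 469) (nat_lit 465))) (XT.nd (nat_lit 78) (nat_lit 228) (nat_lit 0) (XT.lf (nat_lit 0) (nat_lit 5183978518) (nat_lit 228) (nat_lit 4729446953) (nat_lit 228) (nat_lit 2288650927) (nat_lit 68) (nat_lit 4) (nat_lit 71) (nat_lit 5) (nat_lit 71) (nat_lit 4) (nat_lit 627) (nat_lit 469) (nat_lit 464)) (XT.lf (nat_lit 0) (nat_lit 3408328666) (nat_lit 228) (nat_lit 8348997345) (nat_lit 0) (nat_lit 564584538) (nat_lit 65) (nat_lit 5) (nat_lit 68) (nat_lit 4) (nat_lit 65) (nat_lit 4) (nat_lit 628) (nat_lit 469) (nat_lit 463)))) (XT.nd (nat_lit 156) (nat_lit 304) (nat_lit 0) (XT.nd (nat_lit 78) (nat_lit 228) (nat_lit 0) (XT.lf (nat_lit 0) (nat_lit 2681739494) (nat_lit 228) (nat_lit 6523737456) (nat_lit 228) (nat_lit 3238025829) (nat_lit 62) (nat_lit 4) (nat_lit 65) (nat_lit 5) (nat_lit 65) (nat_lit 4) (nat_lit 629)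 (nat_lit 469) (nat_lit 462)) (XT.lf (nat_lit 0) (nat_lit 1338034920) (nat_lit 152) (nat_lit 1165454196) (nat_lit 228) (nat_lit 10063989755) (nat_lit 59) (nat_lit 5) (nat_lit 61) (nat_lit 5) (nat_lit 62) (nat_lit 4) (nat_lit 630) (nat_lit 469) (nat_lit 461))) (XT.nd (nat_lit 78) (nat_lit 304) (nat_lit 0) (XT.lf (nat_lit 0) (nat_lit 8331422141) (nat_lit 228) (nat_lit 92931705) (nat_lit 0) (nat_lit 4268855027) (nat_lit 59) (nat_lit 5) (nat_lit 62) (nat_lit 4) (nat_lit 59) (nat_lit 4) (nat_lit 631) (nat_lit 469) (nat_lit 460)) (XT.lf (nat_lit 0) (nat_lit 1438867946) (nat_lit 304) (nat_lit 1564363513) (nat_lit 76) (nat_lit 9817964787) (nat_lit 55) (nat_lit 5) (nat_lit 59) (nat_lit 5) (nat_lit 56) (nat_lit 4) (nat_lit 632) (nat_lit 469) (nat_lit 459)))))) (XT.nd (nat_lit 546) (nat_lit 1140) (nat_lit 0) (XT.nd (nat_lit 234) (nat_lit 608) (nat_lit 0) (XT.nd (nat_lit 78) (nat_lit 456) (nat_lit 0) (XT.lf (nat_lit 0) (nat_lit 7301037142) (nat_lit 228) (nat_lit 3124682622)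 (nat_lit 0) (nat_lit 2525370137) (nat_lit 53) (nat_lit 5) (nat_lit 56) (nat_lit 4) (nat_lit 53) (nat_lit 4) (nat_lit 633) (nat_lit 469) (nat_lit 458)) (XT.nd (nat_lit 78) (nat_lit 152) (nat_lit 0) (XT.lf (nat_lit 0) (nat_lit 201794773) (nat_lit 304) (nat_lit 4752800867) (nat_lit 76) (nat_lit 8128811284) (nat_lit 49) (nat_lit 5) (nat_lit 53) (nat_lit 5) (nat_lit 50) (nat_lit 4) (nat_lit 634) (nat_lit 469) (nat_lit 457)) (XT.lf (nat_lit 0) (nat_lit 6087367130) (nat_lit 228) (nat_lit 6472103562) (nat_lit 0) (nat_lit 658307018) (nat_lit 47) (nat_lit 5) (nat_lit 50) (nat_lit 4) (nat_lit 47) (nat_lit 4) (nat_lit 635) (nat_lit 469) (nat_lit 456)))) (XT.nd (nat_lit 156) (nat_lit 228) (nat_lit 0) (XT.nd (nat_lit 78) (nat_lit 228) (nat_lit 0) (XT.lf (nat_lit 0) (nat_lit 5077431297) (nat_lit 152) (nat_lit 7034305734) (nat_lit 152) (nat_lit 1242678337) (nat_lit 45) (nat_lit 4) (nat_lit 47) (nat_lit 5) (nat_lit 47) (nat_lit 4) (nat_lit 636) (nat_lit 469) (nat_lit 455))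 (XT.lf (nat_lit 0) (nat_lit 3324582974) (nat_lit 152) (nat_lit 1364361824) (nat_lit 228) (nat_lit 8804451622) (nat_lit 42) (nat_lit 5) (nat_lit 44) (nat_lit 5) (nat_lit 45) (nat_lit 4) (nat_lit 637) (nat_lit 469) (nat_lit 454))) (XT.nd (nat_lit 78) (nat_lit 76) (nat_lit 0) (XT.lf (nat_lit 0) (nat_lit 1477658011) (nat_lit 152) (nat_lit 9262595868) (nat_lit 152) (nat_lit 2894386185) (nat_lit 40) (nat_lit 4) (nat_lit 42) (nat_lit 5) (nat_lit 42) (nat_lit 4) (nat_lit 638) (nat_lit 469) (nat_lit 453)) (XT.lf (nat_lit 0) (nat_lit 3094074938) (nat_lit 228) (nat_lit 453134434) (nat_lit 76) (nat_lit 10231067415) (nat_lit 39) (nat_lit 5) (nat_lit 42) (nat_lit 5) (nat_lit 40) (nat_lit 4) (nat_lit 639) (nat_lit 469) (nat_lit 452))))) (XT.nd (nat_lit 312) (nat_lit 456) (nat_lit 0) (XT.nd (nat_lit 156) (nat_lit 304) (nat_lit 0) (XT.nd (nat_lit 78) (nat_lit 228) (nat_lit 0) (XT.lf (nat_lit 0) (nat_lit 9178207578) (nat_lit 228) (nat_lit 2461376896) (nat_lit 0) (nat_lit 2284527017)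 (nat_lit 37) (nat_lit 5) (nat_lit 40) (nat_lit 4) (nat_lit 37) (nat_lit 4) (nat_lit 640) (nat_lit 469) (nat_lit 451)) (XT.lf (nat_lit 0) (nat_lit 1307610848) (nat_lit 228) (nat_lit 4567943287) (nat_lit 76) (nat_lit 8196866563) (nat_lit 34) (nat_lit 5) (nat_lit 37) (nat_lit 5) (nat_lit 35) (nat_lit 4) (nat_lit 641) (nat_lit 469) (nat_lit 450))) (XT.nd (nat_lit 78) (nat_lit 152) (nat_lit 0) (XT.lf (nat_lit 0) (nat_lit 7409258611) (nat_lit 228) (nat_lit 6776078364) (nat_lit 0) (nat_lit 37920485) (nat_lit 32) (nat_lit 5) (nat_lit 35) (nat_lit 4) (nat_lit 32) (nat_lit 4) (nat_lit 642) (nat_lit 469) (nat_lit 449)) (XT.lf (nat_lit 0) (nat_lit 5279644194) (nat_lit 152) (nat_lit 8382823374) (nat_lit 152) (nat_lit 714053791) (nat_lit 30) (nat_lit 4) (nat_lit 32) (nat_lit 5) (nat_lit 32) (nat_lit 4) (nat_lit 643) (nat_lit 469) (nat_lit 448)))) (XT.nd (nat_lit 156) (nat_lit 152) (nat_lit 0) (XT.nd (nat_lit 78) (nat_lit 152) (nat_lit 0) (XT.lf (nat_lit 0) (nat_lit 3001099570)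 (nat_lit 76) (nat_lit 2425370043) (nat_lit 152) (nat_lit 9105850307) (nat_lit 28) (nat_lit 5) (nat_lit 29) (nat_lit 5) (nat_lit 30) (nat_lit 4) (nat_lit 644) (nat_lit 469) (nat_lit 447)) (XT.lf (nat_lit 0) (nat_lit 614814546) (nat_lit 152) (nat_lit 11080294387) (nat_lit 152) (nat_lit 2995734701) (nat_lit 26) (nat_lit 4) (nat_lit 28) (nat_lit 5) (nat_lit 28) (nat_lit 4) (nat_lit 645) (nat_lit 469) (nat_lit 446))) (XT.nd (nat_lit 78) (nat_lit 76) (nat_lit 0) (XT.lf (nat_lit 0) (nat_lit 3213873119) (nat_lit 228) (nat_lit 1867316675) (nat_lit 76) (nat_lit 9770533856) (nat_lit 25) (nat_lit 5) (nat_lit 28) (nat_lit 5) (nat_lit 26) (nat_lit 4) (nat_lit 646) (nat_lit 469) (nat_lit 445)) (XT.lf (nat_lit 0) (nat_lit 9510365479) (nat_lit 152) (nat_lit 4454181391) (nat_lit 0) (nat_lit 1050823115) (nat_lit 24) (nat_lit 5) (nat_lit 26) (nat_lit 4) (nat_lit 24) (nat_lit 4) (nat_lit 647) (nat_lit 469) (nat_lit 444))))))))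
noncomputable def xc4 : XT := (XT.nd (nat_lit 80964) (nat_lit 0) (nat_lit 0) (XT.nd (nat_lit 79794) (nat_lit 0) (nat_lit 836) (XT.nd (nat_lit 79248) (nat_lit 0) (nat_lit 3420) (XT.nd (nat_lit 234) (nat_lit 76) (nat_lit 0) (XT.nd (nat_lit 78) (nat_lit 228) (nat_lit 0) (XT.lf (nat_lit 0) (nat_lit 766516929) (nat_lit 228) (nat_lit 7170110148) (nat_lit 76) (nat_lit 7245048312) (nat_lit 21) (nat_lit 5) (nat_lit 24) (nat_lit 5) (nat_lit 22) (nat_lit 4) (nat_lit 648) (nat_lit 469) (nat_lit 443)) (XT.nd (nat_lit 78) (nat_lit 152) (nat_lit 0) (XT.lf (nat_lit 0) (nat_lit 5333282941) (nat_lit 76) (nat_lit 1748703281) (nat_lit 152) (nat_lit 8268749136) (nat_lit 20) (nat_lit 5) (nat_lit 21) (nat_lit 5) (nat_lit 22) (nat_lit 4) (nat_lit 649) (nat_lit 469) (nat_lit 442)) (XT.lf (nat_lit 0) (nat_lit 2528502574) (nat_lit 152) (nat_lit 11017316133) (nat_lit 152) (nat_lit 1976917539) (nat_lit 18) (nat_lit 4) (nat_lit 20) (nat_lit 5) (nat_lit 20) (nat_lit 4) (nat_lit 650) (nat_lit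 469) (nat_lit 441)))) (XT.nd (nat_lit 78858) (nat_lit 0) (nat_lit 5168) (XT.nd (nat_lit 78780) (nat_lit 0) (nat_lit 5472) (XT.lf (nat_lit 0) (nat_lit 4389398397) (nat_lit 228) (nat_lit 413026958) (nat_lit 76) (nat_lit 10895038133) (nat_lit 17) (nat_lit 5) (nat_lit 20) (nat_lit 5) (nat_lit 18) (nat_lit 4) (nat_lit 651) (nat_lit 469) (nat_lit 440)) (XT.lf (nat_lit 0) (nat_lit 361309143) (nat_lit 228) (nat_lit 2673736513) (nat_lit 228) (nat_lit 2673736513) (nat_lit 89) (nat_lit 4) (nat_lit 92) (nat_lit 5) (nat_lit 92) (nat_lit 4) (nat_lit 620) (nat_lit 470) (nat_lit 470))) (XT.nd (nat_lit 78) (nat_lit 228) (nat_lit 0) (XT.lf (nat_lit 0) (nat_lit 138540052) (nat_lit 304) (nat_lit 269680126) (nat_lit 76) (nat_lit 11116852750) (nat_lit 88) (nat_lit 5) (nat_lit 92) (nat_lit 5) (nat_lit 89) (nat_lit 4) (nat_lit 621) (nat_lit 470) (nat_lit 469)) (XT.lf (nat_lit 0) (nat_lit 5680991137) (nat_lit 304) (nat_lit 1338625773) (nat_lit 0) (nat_lit 4614043151) (nat_lit 85)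 (nat_lit 5) (nat_lit 89) (nat_lit 4) (nat_lit 85) (nat_lit 4) (nat_lit 622) (nat_lit 470) (nat_lit 468))))) (XT.nd (nat_lit 234) (nat_lit 988) (nat_lit 0) (XT.nd (nat_lit 78) (nat_lit 532) (nat_lit 0) (XT.lf (nat_lit 0) (nat_lit 9311330881) (nat_lit 228) (nat_lit 2009075395) (nat_lit 228) (nat_lit 424292043) (nat_lit 82) (nat_lit 4) (nat_lit 85) (nat_lit 5) (nat_lit 85) (nat_lit 4) (nat_lit 623) (nat_lit 470) (nat_lit 467)) (XT.nd (nat_lit 78) (nat_lit 228) (nat_lit 0) (XT.lf (nat_lit 0) (nat_lit 5150660797) (nat_lit 304) (nat_lit 3607308594) (nat_lit 0) (nat_lit 3099224442) (nat_lit 78) (nat_lit 5) (nat_lit 82) (nat_lit 4) (nat_lit 78) (nat_lit 4) (nat_lit 624) (nat_lit 470) (nat_lit 466)) (XT.lf (nat_lit 0) (nat_lit 7146892794) (nat_lit 228) (nat_lit 3682221245) (nat_lit 228) (nat_lit 1142817059) (nat_lit 75) (nat_lit 4) (nat_lit 78) (nat_lit 5) (nat_lit 78) (nat_lit 4) (nat_lit 625) (nat_lit 470) (nat_lit 465)))) (XT.nd (nat_lit 156) (nat_lit 456) (nat_lit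 0) (XT.nd (nat_lit 78) (nat_lit 228) (nat_lit 0) (XT.lf (nat_lit 0) (nat_lit 4467555294) (nat_lit 304) (nat_lit 6112000473) (nat_lit 0) (nat_lit 1508923903) (nat_lit 71) (nat_lit 5) (nat_lit 75) (nat_lit 4) (nat_lit 71) (nat_lit 4) (nat_lit 626) (nat_lit 470) (nat_lit 464)) (XT.lf (nat_lit 0) (nat_lit 4743593219) (nat_lit 228) (nat_lit 5440938404) (nat_lit 228) (nat_lit 2022484028) (nat_lit 68) (nat_lit 4) (nat_lit 71) (nat_lit 5) (nat_lit 71) (nat_lit 4) (nat_lit 627) (nat_lit 470) (nat_lit 463))) (XT.nd (nat_lit 78) (nat_lit 228) (nat_lit 0) (XT.lf (nat_lit 0) (nat_lit 3453834419) (nat_lit 152) (nat_lit 171460453) (nat_lit 228) (nat_lit 8702435277) (nat_lit 65) (nat_lit 5) (nat_lit 67) (nat_lit 5) (nat_lit 68) (nat_lit 4) (nat_lit 628) (nat_lit 470) (nat_lit 462)) (XT.lf (nat_lit 0) (nat_lit 2081001671) (nat_lit 228) (nat_lit 7297943099) (nat_lit 228) (nat_lit 3071248273) (nat_lit 62) (nat_lit 4) (nat_lit 65) (nat_lit 5) (nat_lit 65) (nat_lit 4) (nat_lit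 629) (nat_lit 470) (nat_lit 461)))))) (XT.nd (nat_lit 546) (nat_lit 1292) (nat_lit 0) (XT.nd (nat_lit 234) (nat_lit 760) (nat_lit 0) (XT.nd (nat_lit 78) (nat_lit 304) (nat_lit 0) (XT.lf (nat_lit 0) (nat_lit 651387672) (nat_lit 152) (nat_lit 1973804337) (nat_lit 228) (nat_lit 9949813887) (nat_lit 59) (nat_lit 5) (nat_lit 61) (nat_lit 5) (nat_lit 62) (nat_lit 4) (nat_lit 630) (nat_lit 470) (nat_lit 460)) (XT.nd (nat_lit 78) (nat_lit 304) (nat_lit 0) (XT.lf (nat_lit 0) (nat_lit 8409556756) (nat_lit 228) (nat_lit 851098360) (nat_lit 0) (nat_lit 3440952804) (nat_lit 59) (nat_lit 5) (nat_lit 62) (nat_lit 4) (nat_lit 59) (nat_lit 4) (nat_lit 631) (nat_lit 470) (nat_lit 459)) (XT.lf (nat_lit 0) (nat_lit 1464400395) (nat_lit 304) (nat_lit 2410818733) (nat_lit 76) (nat_lit 8955233514) (nat_lit 55) (nat_lit 5) (nat_lit 59) (nat_lit 5) (nat_lit 56) (nat_lit 4) (nat_lit 632) (nat_lit 470) (nat_lit 458)))) (XT.nd (nat_lit 156) (nat_lit 304) (nat_lit 0) (XT.nd (nat_lit 78)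 (nat_lit 304) (nat_lit 0) (XT.lf (nat_lit 0) (nat_lit 7277137795) (nat_lit 228) (nat_lit 4055454101) (nat_lit 0) (nat_lit 1628743655) (nat_lit 53) (nat_lit 5) (nat_lit 56) (nat_lit 4) (nat_lit 53) (nat_lit 4) (nat_lit 633) (nat_lit 470) (nat_lit 457)) (XT.lf (nat_lit 0) (nat_lit 123818292) (nat_lit 304) (nat_lit 5775496192) (nat_lit 76) (nat_lit 7195228705) (nat_lit 49) (nat_lit 5) (nat_lit 53) (nat_lit 5) (nat_lit 50) (nat_lit 4) (nat_lit 634) (nat_lit 470) (nat_lit 456))) (XT.nd (nat_lit 78) (nat_lit 152) (nat_lit 0) (XT.lf (nat_lit 0) (nat_lit 5644813719) (nat_lit 152) (nat_lit 315701871) (nat_lit 228) (nat_lit 7269376470) (nat_lit 47) (nat_lit 5) (nat_lit 49) (nat_lit 5) (nat_lit 50) (nat_lit 4) (nat_lit 635) (nat_lit 470) (nat_lit 455)) (XT.lf (nat_lit 0) (nat_lit 3882654099) (nat_lit 152) (nat_lit 8055151571) (nat_lit 152) (nat_lit 1429666217) (nat_lit 45) (nat_lit 4) (nat_lit 47) (nat_lit 5) (nat_lit 47) (nat_lit 4) (nat_lit 636) (nat_lit 470) (nat_lit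 454))))) (XT.nd (nat_lit 312) (nat_lit 684) (nat_lit 0) (XT.nd (nat_lit 156) (nat_lit 228) (nat_lit 0) (XT.nd (nat_lit 78) (nat_lit 152) (nat_lit 0) (XT.lf (nat_lit 0) (nat_lit 2032792079) (nat_lit 152) (nat_lit 2426002865) (nat_lit 228) (nat_lit 9048595113) (nat_lit 42) (nat_lit 5) (nat_lit 44) (nat_lit 5) (nat_lit 45) (nat_lit 4) (nat_lit 637) (nat_lit 470) (nat_lit 453)) (XT.lf (nat_lit 0) (nat_lit 92277527) (nat_lit 152) (nat_lit 10364801236) (nat_lit 152) (nat_lit 3192615981) (nat_lit 40) (nat_lit 4) (nat_lit 42) (nat_lit 5) (nat_lit 42) (nat_lit 4) (nat_lit 638) (nat_lit 470) (nat_lit 452))) (XT.nd (nat_lit 78) (nat_lit 152) (nat_lit 0) (XT.lf (nat_lit 0) (nat_lit 2762661877) (nat_lit 228) (nat_lit 1919996623) (nat_lit 76) (nat_lit 9111454104) (nat_lit 39) (nat_lit 5) (nat_lit 42) (nat_lit 5) (nat_lit 40) (nat_lit 4) (nat_lit 639) (nat_lit 470) (nat_lit 451)) (XT.lf (nat_lit 0) (nat_lit 8792697954) (nat_lit 228) (nat_lit 4024774027) (nat_lit 0) (nat_lit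 1123557767) (nat_lit 37) (nat_lit 5) (nat_lit 40) (nat_lit 4) (nat_lit 37) (nat_lit 4) (nat_lit 640) (nat_lit 470) (nat_lit 450)))) (XT.nd (nat_lit 156) (nat_lit 304) (nat_lit 0) (XT.nd (nat_lit 78) (nat_lit 152) (nat_lit 0) (XT.lf (nat_lit 0) (nat_lit 863137595) (nat_lit 228) (nat_lit 6235049930) (nat_lit 76) (nat_lit 6992150640) (nat_lit 34) (nat_lit 5) (nat_lit 37) (nat_lit 5) (nat_lit 35) (nat_lit 4) (nat_lit 641) (nat_lit 470) (nat_lit 449)) (XT.lf (nat_lit 0) (nat_lit 5690132774) (nat_lit 152) (nat_lit 1226748777) (nat_lit 228) (nat_lit 7325251932) (nat_lit 32) (nat_lit 5) (nat_lit 34) (nat_lit 5) (nat_lit 35) (nat_lit 4) (nat_lit 642) (nat_lit 470) (nat_lit 448))) (XT.nd (nat_lit 78) (nat_lit 152) (nat_lit 0) (XT.lf (nat_lit 0) (nat_lit 3420072786) (nat_lit 152) (nat_lit 9693812533) (nat_lit 152) (nat_lit 1282636635) (nat_lit 30) (nat_lit 4) (nat_lit 32) (nat_lit 5) (nat_lit 32) (nat_lit 4) (nat_lit 643) (nat_lit 470) (nat_lit 447)) (XT.lf (nat_lit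 0) (nat_lit 1032132188) (nat_lit 76) (nat_lit 3784298463) (nat_lit 152) (nat_lit 9736942412) (nat_lit 28) (nat_lit 5) (nat_lit 29) (nat_lit 5) (nat_lit 30) (nat_lit 4) (nat_lit 644) (nat_lit 470) (nat_lit 446))))))) (XT.nd (nat_lit 79638) (nat_lit 0) (nat_lit 1672) (XT.nd (nat_lit 79092) (nat_lit 0) (nat_lit 4636) (XT.nd (nat_lit 234) (nat_lit 532) (nat_lit 0) (XT.nd (nat_lit 78) (nat_lit 304) (nat_lit 0) (XT.lf (nat_lit 0) (nat_lit 11036199297) (nat_lit 152) (nat_lit 1441783912) (nat_lit 0) (nat_lit 2234891422) (nat_lit 28) (nat_lit 5) (nat_lit 30) (nat_lit 4) (nat_lit 28) (nat_lit 4) (nat_lit 645) (nat_lit 470) (nat_lit 445)) (XT.nd (nat_lit 78) (nat_lit 76) (nat_lit 0) (XT.lf (nat_lit 0) (nat_lit 2496294331) (nat_lit 228) (nat_lit 4028186159) (nat_lit 76) (nat_lit 8350274382) (nat_lit 25) (nat_lit 5) (nat_lit 28) (nat_lit 5) (nat_lit 26) (nat_lit 4) (nat_lit 646) (nat_lit 470) (nat_lit 444)) (XT.lf (nat_lit 0) (nat_lit 8311723413) (nat_lit 76) (nat_lit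 424184875) (nat_lit 152) (nat_lit 6303630904) (nat_lit 24) (nat_lit 5) (nat_lit 25) (nat_lit 5) (nat_lit 26) (nat_lit 4) (nat_lit 647) (nat_lit 470) (nat_lit 443)))) (XT.nd (nat_lit 156) (nat_lit 228) (nat_lit 0) (XT.nd (nat_lit 78) (nat_lit 152) (nat_lit 0) (XT.lf (nat_lit 0) (nat_lit 5648650178) (nat_lit 152) (nat_lit 9481996945) (nat_lit 152) (nat_lit 76366247) (nat_lit 22) (nat_lit 4) (nat_lit 24) (nat_lit 5) (nat_lit 24) (nat_lit 4) (nat_lit 648) (nat_lit 470) (nat_lit 442)) (XT.lf (nat_lit 0) (nat_lit 2846760186) (nat_lit 76) (nat_lit 3341986458) (nat_lit 152) (nat_lit 9188364166) (nat_lit 20) (nat_lit 5) (nat_lit 21) (nat_lit 5) (nat_lit 22) (nat_lit 4) (nat_lit 649) (nat_lit 470) (nat_lit 441))) (XT.nd (nat_lit 78) (nat_lit 228) (nat_lit 0) (XT.lf (nat_lit 0) (nat_lit 12590667959) (nat_lit 152) (nat_lit 73431470) (nat_lit 0) (nat_lit 2886250876) (nat_lit 20) (nat_lit 5) (nat_lit 22) (nat_lit 4) (nat_lit 20) (nat_lit 4) (nat_lit 650) (nat_lit 470) (nat_lit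 440)) (XT.lf (nat_lit 0) (nat_lit 3383917310) (nat_lit 228) (nat_lit 3103426789) (nat_lit 76) (nat_lit 9238573542) (nat_lit 17) (nat_lit 5) (nat_lit 20) (nat_lit 5) (nat_lit 18) (nat_lit 4) (nat_lit 651) (nat_lit 470) (nat_lit 439))))) (XT.nd (nat_lit 234) (nat_lit 836) (nat_lit 0) (XT.nd (nat_lit 78) (nat_lit 532) (nat_lit 0) (XT.lf (nat_lit 0) (nat_lit 1333950010) (nat_lit 304) (nat_lit 2134990176) (nat_lit 304) (nat_lit 2134990176) (nat_lit 96) (nat_lit 4) (nat_lit 100) (nat_lit 5) (nat_lit 100) (nat_lit 4) (nat_lit 618) (nat_lit 471) (nat_lit 471)) (XT.nd (nat_lit 78) (nat_lit 228) (nat_lit 0) (XT.lf (nat_lit 0) (nat_lit 1129571324) (nat_lit 304) (nat_lit 9613834127) (nat_lit 0) (nat_lit 569049671) (nat_lit 92) (nat_lit 5) (nat_lit 96) (nat_lit 4) (nat_lit 92) (nat_lit 4) (nat_lit 619) (nat_lit 471) (nat_lit 470)) (XT.lf (nat_lit 0) (nat_lit 653412681) (nat_lit 228) (nat_lit 5937499620) (nat_lit 228) (nat_lit 4827446935) (nat_lit 89) (nat_lit 4) (nat_lit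 92) (nat_lit 5) (nat_lit 92) (nat_lit 4) (nat_lit 620) (nat_lit 471) (nat_lit 469)))) (XT.nd (nat_lit 156) (nat_lit 532) (nat_lit 0) (XT.nd (nat_lit 78) (nat_lit 228) (nat_lit 0) (XT.lf (nat_lit 0) (nat_lit 612565070) (nat_lit 304) (nat_lit 411427156) (nat_lit 76) (nat_lit 10502592539) (nat_lit 88) (nat_lit 5) (nat_lit 92) (nat_lit 5) (nat_lit 89) (nat_lit 4) (nat_lit 621) (nat_lit 471) (nat_lit 468)) (XT.lf (nat_lit 0) (nat_lit 6111037141) (nat_lit 304) (nat_lit 1548292414) (nat_lit 0) (nat_lit 3976722757) (nat_lit 85) (nat_lit 5) (nat_lit 89) (nat_lit 4) (nat_lit 85) (nat_lit 4) (nat_lit 622) (nat_lit 471) (nat_lit 467))) (XT.nd (nat_lit 78) (nat_lit 304) (nat_lit 0) (XT.lf (nat_lit 0) (nat_lit 9030819047) (nat_lit 228) (nat_lit 2679535208) (nat_lit 228) (nat_lit 37539094) (nat_lit 82) (nat_lit 4) (nat_lit 85) (nat_lit 5) (nat_lit 85) (nat_lit 4) (nat_lit 623) (nat_lit 471) (nat_lit 466)) (XT.lf (nat_lit 0) (nat_lit 5487264184) (nat_lit 304) (nat_lit 3964872702)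 (nat_lit 0) (nat_lit 2409104085) (nat_lit 78) (nat_lit 5) (nat_lit 82) (nat_lit 4) (nat_lit 78) (nat_lit 4) (nat_lit 624) (nat_lit 471) (nat_lit 465)))))) (XT.nd (nat_lit 546) (nat_lit 1520) (nat_lit 0) (XT.nd (nat_lit 234) (nat_lit 684) (nat_lit 0) (XT.nd (nat_lit 78) (nat_lit 532) (nat_lit 0) (XT.lf (nat_lit 0) (nat_lit 6716319935) (nat_lit 228) (nat_lit 4408518294) (nat_lit 228) (nat_lit 851958361) (nat_lit 75) (nat_lit 4) (nat_lit 78) (nat_lit 5) (nat_lit 78) (nat_lit 4) (nat_lit 625) (nat_lit 471) (nat_lit 464)) (XT.nd (nat_lit 78) (nat_lit 228) (nat_lit 0) (XT.lf (nat_lit 0) (nat_lit 4708340348) (nat_lit 304) (nat_lit 6624199066) (nat_lit 0) (nat_lit 761693899) (nat_lit 71) (nat_lit 5) (nat_lit 75) (nat_lit 4) (nat_lit 71) (nat_lit 4) (nat_lit 626) (nat_lit 471) (nat_lit 463)) (XT.lf (nat_lit 0) (nat_lit 4156144210) (nat_lit 228) (nat_lit 6227456711) (nat_lit 228) (nat_lit 1830003414) (nat_lit 68) (nat_lit 4) (nat_lit 71) (nat_lit 5) (nat_lit 71) (nat_lit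 4) (nat_lit 627) (nat_lit 471) (nat_lit 462)))) (XT.nd (nat_lit 156) (nat_lit 228) (nat_lit 0) (XT.nd (nat_lit 78) (nat_lit 228) (nat_lit 0) (XT.lf (nat_lit 0) (nat_lit 2782132364) (nat_lit 152) (nat_lit 990913753) (nat_lit 228) (nat_lit 8562092517) (nat_lit 65) (nat_lit 5) (nat_lit 67) (nat_lit 5) (nat_lit 68) (nat_lit 4) (nat_lit 628) (nat_lit 471) (nat_lit 461)) (XT.lf (nat_lit 0) (nat_lit 1329637796) (nat_lit 228) (nat_lit 8149129274) (nat_lit 228) (nat_lit 2979793722) (nat_lit 62) (nat_lit 4) (nat_lit 65) (nat_lit 5) (nat_lit 65) (nat_lit 4) (nat_lit 629) (nat_lit 471) (nat_lit 460))) (XT.nd (nat_lit 78) (nat_lit 152) (nat_lit 0) (XT.lf (nat_lit 0) (nat_lit 2673542214) (nat_lit 304) (nat_lit 185256123) (nat_lit 76) (nat_lit 9725402187) (nat_lit 61) (nat_lit 5) (nat_lit 65) (nat_lit 5) (nat_lit 62) (nat_lit 4) (nat_lit 630) (nat_lit 471) (nat_lit 459)) (XT.lf (nat_lit 0) (nat_lit 8413365570) (nat_lit 228) (nat_lit 1761552144) (nat_lit 0) (nat_lit 2536776307)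 (nat_lit 59) (nat_lit 5) (nat_lit 62) (nat_lit 4) (nat_lit 59) (nat_lit 4) (nat_lit 631) (nat_lit 471) (nat_lit 458))))) (XT.nd (nat_lit 312) (nat_lit 608) (nat_lit 0) (XT.nd (nat_lit 156) (nat_lit 456) (nat_lit 0) (XT.nd (nat_lit 78) (nat_lit 152) (nat_lit 0) (XT.lf (nat_lit 0) (nat_lit 1414658732) (nat_lit 304) (nat_lit 3411433112) (nat_lit 76) (nat_lit 8015319266) (nat_lit 55) (nat_lit 5) (nat_lit 59) (nat_lit 5) (nat_lit 56) (nat_lit 4) (nat_lit 632) (nat_lit 471) (nat_lit 457)) (XT.lf (nat_lit 0) (nat_lit 7177179566) (nat_lit 228) (nat_lit 5142276158) (nat_lit 0) (nat_lit 653843236) (nat_lit 53) (nat_lit 5) (nat_lit 56) (nat_lit 4) (nat_lit 53) (nat_lit 4) (nat_lit 633) (nat_lit 471) (nat_lit 456))) (XT.nd (nat_lit 78) (nat_lit 228) (nat_lit 0) (XT.lf (nat_lit 0) (nat_lit 6151022945) (nat_lit 228) (nat_lit 6924770466) (nat_lit 228) (nat_lit 31615504) (nat_lit 50) (nat_lit 4) (nat_lit 53) (nat_lit 5) (nat_lit 53) (nat_lit 4) (nat_lit 634) (nat_lit 471)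 (nat_lit 455)) (XT.lf (nat_lit 0) (nat_lit 4380799700) (nat_lit 152) (nat_lit 1379854729) (nat_lit 228) (nat_lit 7483004876) (nat_lit 47) (nat_lit 5) (nat_lit 49) (nat_lit 5) (nat_lit 50) (nat_lit 4) (nat_lit 635) (nat_lit 471) (nat_lit 454)))) (XT.nd (nat_lit 156) (nat_lit 228) (nat_lit 0) (XT.nd (nat_lit 78) (nat_lit 228) (nat_lit 0) (XT.lf (nat_lit 0) (nat_lit 2527158922) (nat_lit 152) (nat_lit 9158533674) (nat_lit 152) (nat_lit 1696592134) (nat_lit 45) (nat_lit 4) (nat_lit 47) (nat_lit 5) (nat_lit 47) (nat_lit 4) (nat_lit 636) (nat_lit 471) (nat_lit 453)) (XT.lf (nat_lit 0) (nat_lit 578249196) (nat_lit 152) (nat_lit 3571179510) (nat_lit 228) (nat_lit 9373728218) (nat_lit 42) (nat_lit 5) (nat_lit 44) (nat_lit 5) (nat_lit 45) (nat_lit 4) (nat_lit 637) (nat_lit 471) (nat_lit 452))) (XT.nd (nat_lit 78) (nat_lit 228) (nat_lit 0) (XT.lf (nat_lit 0) (nat_lit 10103268767) (nat_lit 228) (nat_lit 1438786931) (nat_lit 0) (nat_lit 2124295317) (nat_lit 42) (nat_lit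 5) (nat_lit 45) (nat_lit 4) (nat_lit 42) (nat_lit 4) (nat_lit 638) (nat_lit 471) (nat_lit 451)) (XT.lf (nat_lit 0) (nat_lit 2351158693) (nat_lit 228) (nat_lit 3551582262) (nat_lit 76) (nat_lit 7908994446) (nat_lit 39) (nat_lit 5) (nat_lit 42) (nat_lit 5) (nat_lit 40) (nat_lit 4) (nat_lit 639) (nat_lit 471) (nat_lit 450))))))))
noncomputable def xc5 : XT := (XT.nd (nat_lit 80652) (nat_lit 0) (nat_lit 0) (XT.nd (nat_lit 79482) (nat_lit 0) (nat_lit 2888) (XT.nd (nat_lit 546) (nat_lit 608) (nat_lit 0) (XT.nd (nat_lit 234) (nat_lit 532) (nat_lit 0) (XT.nd (nat_lit 78) (nat_lit 380) (nat_lit 0) (XT.lf (nat_lit 0) (nat_lit 8203944899) (nat_lit 152) (nat_lit 123037459) (nat_lit 228) (nat_lit 5632754934) (nat_lit 37) (nat_lit 5) (nat_lit 39) (nat_lit 5) (nat_lit 40) (nat_lit 4) (nat_lit 640) (nat_lit 471) (nat_lit 449)) (XT.nd (nat_lit 78) (nat_lit 152) (nat_lit 0) (XT.lf (nat_lit 0) (nat_lit 336560446) (nat_lit 228) (nat_lit 8071135302) (nat_lit 76) (nat_lit 5702383490)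 (nat_lit 34) (nat_lit 5) (nat_lit 37) (nat_lit 5) (nat_lit 35) (nat_lit 4) (nat_lit 641) (nat_lit 471) (nat_lit 448)) (XT.lf (nat_lit 0) (nat_lit 3762941720) (nat_lit 152) (nat_lit 2579315993) (nat_lit 228) (nat_lit 7920578246) (nat_lit 32) (nat_lit 5) (nat_lit 34) (nat_lit 5) (nat_lit 35) (nat_lit 4) (nat_lit 642) (nat_lit 471) (nat_lit 447)))) (XT.nd (nat_lit 156) (nat_lit 304) (nat_lit 0) (XT.nd (nat_lit 78) (nat_lit 76) (nat_lit 0) (XT.lf (nat_lit 0) (nat_lit 1388408202) (nat_lit 152) (nat_lit 11093423004) (nat_lit 152) (nat_lit 1936542291) (nat_lit 30) (nat_lit 4) (nat_lit 32) (nat_lit 5) (nat_lit 32) (nat_lit 4) (nat_lit 643) (nat_lit 471) (nat_lit 446)) (XT.lf (nat_lit 0) (nat_lit 4128978875) (nat_lit 228) (nat_lit 1096619688) (nat_lit 76) (nat_lit 9350553839) (nat_lit 29) (nat_lit 5) (nat_lit 32) (nat_lit 5) (nat_lit 30) (nat_lit 4) (nat_lit 644) (nat_lit 471) (nat_lit 445))) (XT.nd (nat_lit 78) (nat_lit 228) (nat_lit 0) (XT.lf (nat_lit 0) (nat_lit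 10296778415) (nat_lit 152) (nat_lit 3664644514) (nat_lit 0) (nat_lit 775270858) (nat_lit 28) (nat_lit 5) (nat_lit 30) (nat_lit 4) (nat_lit 28) (nat_lit 4) (nat_lit 645) (nat_lit 471) (nat_lit 444)) (XT.lf (nat_lit 0) (nat_lit 1693029104) (nat_lit 228) (nat_lit 6365699387) (nat_lit 76) (nat_lit 6840945767) (nat_lit 25) (nat_lit 5) (nat_lit 28) (nat_lit 5) (nat_lit 26) (nat_lit 4) (nat_lit 646) (nat_lit 471) (nat_lit 443))))) (XT.nd (nat_lit 234) (nat_lit 228) (nat_lit 0) (XT.nd (nat_lit 78) (nat_lit 304) (nat_lit 0) (XT.lf (nat_lit 0) (nat_lit 5877527769) (nat_lit 76) (nat_lit 2004689027) (nat_lit 152) (nat_lit 7183250715) (nat_lit 24) (nat_lit 5) (nat_lit 25) (nat_lit 5) (nat_lit 26) (nat_lit 4) (nat_lit 647) (nat_lit 471) (nat_lit 442)) (XT.nd (nat_lit 78) (nat_lit 152) (nat_lit 0) (XT.lf (nat_lit 0) (nat_lit 3100544545) (nat_lit 152) (nat_lit 11115050149) (nat_lit 152) (nat_lit 1018574616) (nat_lit 22) (nat_lit 4) (nat_lit 24) (nat_lit 5) (nat_lit 24) (nat_lit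 4) (nat_lit 648) (nat_lit 471) (nat_lit 441)) (XT.lf (nat_lit 0) (nat_lit 177754370) (nat_lit 76) (nat_lit 5029288844) (nat_lit 152) (nat_lit 10198383315) (nat_lit 20) (nat_lit 5) (nat_lit 21) (nat_lit 5) (nat_lit 22) (nat_lit 4) (nat_lit 649) (nat_lit 471) (nat_lit 440)))) (XT.nd (nat_lit 78546) (nat_lit 0) (nat_lit 6308) (XT.nd (nat_lit 78) (nat_lit 228) (nat_lit 0) (XT.lf (nat_lit 0) (nat_lit 11563548852) (nat_lit 152) (nat_lit 2824718237) (nat_lit 0) (nat_lit 1191307626) (nat_lit 20) (nat_lit 5) (nat_lit 22) (nat_lit 4) (nat_lit 20) (nat_lit 4) (nat_lit 650) (nat_lit 471) (nat_lit 439)) (XT.lf (nat_lit 0) (nat_lit 2288776981) (nat_lit 228) (nat_lit 5978835913) (nat_lit 76) (nat_lit 7488719709) (nat_lit 17) (nat_lit 5) (nat_lit 20) (nat_lit 5) (nat_lit 18) (nat_lit 4) (nat_lit 651) (nat_lit 471) (nat_lit 438))) (XT.nd (nat_lit 78) (nat_lit 304) (nat_lit 0) (XT.lf (nat_lit 0) (nat_lit 2279208026) (nat_lit 304) (nat_lit 1611343433) (nat_lit 304) (nat_lit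 1611343433) (nat_lit 104) (nat_lit 4) (nat_lit 108) (nat_lit 5) (nat_lit 108) (nat_lit 4) (nat_lit 616) (nat_lit 472) (nat_lit 472)) (XT.lf (nat_lit 0) (nat_lit 2096182549) (nat_lit 304) (nat_lit 7496250538) (nat_lit 0) (nat_lit 1513015822) (nat_lit 100) (nat_lit 5) (nat_lit 104) (nat_lit 4) (nat_lit 100) (nat_lit 4) (nat_lit 617) (nat_lit 472) (nat_lit 471)))))) (XT.nd (nat_lit 546) (nat_lit 1748) (nat_lit 0) (XT.nd (nat_lit 234) (nat_lit 836) (nat_lit 0) (XT.nd (nat_lit 78) (nat_lit 532) (nat_lit 0) (XT.lf (nat_lit 0) (nat_lit 2600274458) (nat_lit 304) (nat_lit 4881634383) (nat_lit 304) (nat_lit 3726735569) (nat_lit 96) (nat_lit 4) (nat_lit 100) (nat_lit 5) (nat_lit 100) (nat_lit 4) (nat_lit 618) (nat_lit 472) (nat_lit 470)) (XT.nd (nat_lit 78) (nat_lit 228) (nat_lit 0) (XT.lf (nat_lit 0) (nat_lit 1561845575) (nat_lit 228) (nat_lit 60563356) (nat_lit 304) (nat_lit 9691625868) (nat_lit 92) (nat_lit 5) (nat_lit 95) (nat_lit 5) (nat_lit 96) (nat_lit 4) (nat_lit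 619) (nat_lit 472) (nat_lit 469)) (XT.lf (nat_lit 0) (nat_lit 445768730) (nat_lit 228) (nat_lit 6597758099) (nat_lit 228) (nat_lit 4377217414) (nat_lit 89) (nat_lit 4) (nat_lit 92) (nat_lit 5) (nat_lit 92) (nat_lit 4) (nat_lit 620) (nat_lit 472) (nat_lit 468)))) (XT.nd (nat_lit 156) (nat_lit 532) (nat_lit 0) (XT.nd (nat_lit 78) (nat_lit 228) (nat_lit 0) (XT.lf (nat_lit 0) (nat_lit 1018477164) (nat_lit 304) (nat_lit 691408885) (nat_lit 76) (nat_lit 9819794343) (nat_lit 88) (nat_lit 5) (nat_lit 92) (nat_lit 5) (nat_lit 89) (nat_lit 4) (nat_lit 621) (nat_lit 472) (nat_lit 467)) (XT.lf (nat_lit 0) (nat_lit 6472365018) (nat_lit 304) (nat_lit 1897828173) (nat_lit 0) (nat_lit 3269847250) (nat_lit 85) (nat_lit 5) (nat_lit 89) (nat_lit 4) (nat_lit 85) (nat_lit 4) (nat_lit 622) (nat_lit 472) (nat_lit 466))) (XT.nd (nat_lit 78) (nat_lit 228) (nat_lit 0) (XT.lf (nat_lit 0) (nat_lit 275079976) (nat_lit 304) (nat_lit 3144583401) (nat_lit 76) (nat_lit 8332987887) (nat_lit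 81) (nat_lit 5) (nat_lit 85) (nat_lit 5) (nat_lit 82) (nat_lit 4) (nat_lit 623) (nat_lit 472) (nat_lit 465)) (XT.lf (nat_lit 0) (nat_lit 5753670701) (nat_lit 304) (nat_lit 4465658748) (nat_lit 0) (nat_lit 1647579736) (nat_lit 78) (nat_lit 5) (nat_lit 82) (nat_lit 4) (nat_lit 78) (nat_lit 4) (nat_lit 624) (nat_lit 472) (nat_lit 464))))) (XT.nd (nat_lit 312) (nat_lit 760) (nat_lit 0) (XT.nd (nat_lit 156) (nat_lit 456) (nat_lit 0) (XT.nd (nat_lit 78) (nat_lit 304) (nat_lit 0) (XT.lf (nat_lit 0) (nat_lit 6141960165) (nat_lit 228) (nat_lit 5208218563) (nat_lit 228) (nat_lit 633108153) (nat_lit 75) (nat_lit 4) (nat_lit 78) (nat_lit 5) (nat_lit 78) (nat_lit 4) (nat_lit 625) (nat_lit 472) (nat_lit 463)) (XT.lf (nat_lit 0) (nat_lit 4818155563) (nat_lit 228) (nat_lit 59611247) (nat_lit 304) (nat_lit 7223860170) (nat_lit 71) (nat_lit 5) (nat_lit 74) (nat_lit 5) (nat_lit 75) (nat_lit 4) (nat_lit 626) (nat_lit 472) (nat_lit 462))) (XT.nd (nat_lit 78) (nat_lit 228) (nat_lit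 0) (XT.lf (nat_lit 0) (nat_lit 3421401120) (nat_lit 228) (nat_lit 7089310311) (nat_lit 228) (nat_lit 1711133602) (nat_lit 68) (nat_lit 4) (nat_lit 71) (nat_lit 5) (nat_lit 71) (nat_lit 4) (nat_lit 627) (nat_lit 472) (nat_lit 461)) (XT.lf (nat_lit 0) (nat_lit 1961332288) (nat_lit 152) (nat_lit 1886593684) (nat_lit 228) (nat_lit 8496287228) (nat_lit 65) (nat_lit 5) (nat_lit 67) (nat_lit 5) (nat_lit 68) (nat_lit 4) (nat_lit 628) (nat_lit 472) (nat_lit 460)))) (XT.nd (nat_lit 156) (nat_lit 456) (nat_lit 0) (XT.nd (nat_lit 78) (nat_lit 76) (nat_lit 0) (XT.lf (nat_lit 0) (nat_lit 427353214) (nat_lit 228) (nat_lit 9077629781) (nat_lit 228) (nat_lit 2963626312) (nat_lit 62) (nat_lit 4) (nat_lit 65) (nat_lit 5) (nat_lit 65) (nat_lit 4) (nat_lit 629) (nat_lit 472) (nat_lit 459)) (XT.lf (nat_lit 0) (nat_lit 2652560662) (nat_lit 304) (nat_lit 1164140582) (nat_lit 76) (nat_lit 8778285078) (nat_lit 61) (nat_lit 5) (nat_lit 65) (nat_lit 5) (nat_lit 62) (nat_lit 4) (nat_lit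 630) (nat_lit 472) (nat_lit 458))) (XT.nd (nat_lit 78) (nat_lit 304) (nat_lit 0) (XT.lf (nat_lit 0) (nat_lit 8342850075) (nat_lit 228) (nat_lit 2824650097) (nat_lit 0) (nat_lit 1555970957) (nat_lit 59) (nat_lit 5) (nat_lit 62) (nat_lit 4) (nat_lit 59) (nat_lit 4) (nat_lit 631) (nat_lit 472) (nat_lit 457)) (XT.lf (nat_lit 0) (nat_lit 1289623451) (nat_lit 304) (nat_lit 4566599050) (nat_lit 76) (nat_lit 6997853450) (nat_lit 55) (nat_lit 5) (nat_lit 59) (nat_lit 5) (nat_lit 56) (nat_lit 4) (nat_lit 632) (nat_lit 472) (nat_lit 456))))))) (XT.nd (nat_lit 1170) (nat_lit 532) (nat_lit 0) (XT.nd (nat_lit 546) (nat_lit 1140) (nat_lit 0) (XT.nd (nat_lit 234) (nat_lit 608) (nat_lit 0) (XT.nd (nat_lit 78) (nat_lit 456) (nat_lit 0) (XT.lf (nat_lit 0) (nat_lit 6598727533) (nat_lit 152) (nat_lit 405025417) (nat_lit 228) (nat_lit 5983179273) (nat_lit 53) (nat_lit 5) (nat_lit 55) (nat_lit 5) (nat_lit 56) (nat_lit 4) (nat_lit 633) (nat_lit 472) (nat_lit 455)) (XT.nd (nat_lit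 78) (nat_lit 228) (nat_lit 0) (XT.lf (nat_lit 0) (nat_lit 4824937017) (nat_lit 228) (nat_lit 8030226890) (nat_lit 228) (nat_lit 266822912) (nat_lit 50) (nat_lit 4) (nat_lit 53) (nat_lit 5) (nat_lit 53) (nat_lit 4) (nat_lit 634) (nat_lit 472) (nat_lit 454)) (XT.lf (nat_lit 0) (nat_lit 2957553987) (nat_lit 152) (nat_lit 2525820313) (nat_lit 228) (nat_lit 7775797162) (nat_lit 47) (nat_lit 5) (nat_lit 49) (nat_lit 5) (nat_lit 50) (nat_lit 4) (nat_lit 635) (nat_lit 472) (nat_lit 453)))) (XT.nd (nat_lit 156) (nat_lit 380) (nat_lit 0) (XT.nd (nat_lit 78) (nat_lit 76) (nat_lit 0) (XT.lf (nat_lit 0) (nat_lit 1010414201) (nat_lit 152) (nat_lit 10344884743) (nat_lit 152) (nat_lit 2043560765) (nat_lit 45) (nat_lit 4) (nat_lit 47) (nat_lit 5) (nat_lit 47) (nat_lit 4) (nat_lit 636) (nat_lit 472) (nat_lit 452)) (XT.lf (nat_lit 0) (nat_lit 3767474641) (nat_lit 228) (nat_lit 1025981330) (nat_lit 76) (nat_lit 8747112234) (nat_lit 44) (nat_lit 5) (nat_lit 47) (nat_lit 5) (nat_lit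 45) (nat_lit 4) (nat_lit 637) (nat_lit 472) (nat_lit 451))) (XT.nd (nat_lit 78) (nat_lit 228) (nat_lit 0) (XT.lf (nat_lit 0) (nat_lit 9670888818) (nat_lit 228) (nat_lit 3131884350) (nat_lit 0) (nat_lit 881998164) (nat_lit 42) (nat_lit 5) (nat_lit 45) (nat_lit 4) (nat_lit 42) (nat_lit 4) (nat_lit 638) (nat_lit 472) (nat_lit 450)) (XT.lf (nat_lit 0) (nat_lit 1859404013) (nat_lit 228) (nat_lit 5348531187) (nat_lit 76) (nat_lit 6623216890) (nat_lit 39) (nat_lit 5) (nat_lit 42) (nat_lit 5) (nat_lit 40) (nat_lit 4) (nat_lit 639) (nat_lit 472) (nat_lit 449))))) (XT.nd (nat_lit 312) (nat_lit 608) (nat_lit 0) (XT.nd (nat_lit 156) (nat_lit 228) (nat_lit 0) (XT.nd (nat_lit 78) (nat_lit 152) (nat_lit 0) (XT.lf (nat_lit 0) (nat_lit 6317839063) (nat_lit 152) (nat_lit 1470187691) (nat_lit 228) (nat_lit 6192071732) (nat_lit 37) (nat_lit 5) (nat_lit 39) (nat_lit 5) (nat_lit 40) (nat_lit 4) (nat_lit 640) (nat_lit 472) (nat_lit 448)) (XT.lf (nat_lit 0) (nat_lit 4052904764) (nat_lit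 152) (nat_lit 9802764877) (nat_lit 152) (nat_lit 275946183) (nat_lit 35) (nat_lit 4) (nat_lit 37) (nat_lit 5) (nat_lit 37) (nat_lit 4) (nat_lit 641) (nat_lit 472) (nat_lit 447))) (XT.nd (nat_lit 78) (nat_lit 0) (nat_lit 0) (XT.lf (nat_lit 0) (nat_lit 1665104640) (nat_lit 152) (nat_lit 4019807637) (nat_lit 228) (nat_lit 8600465718) (nat_lit 32) (nat_lit 5) (nat_lit 34) (nat_lit 5) (nat_lit 35) (nat_lit 4) (nat_lit 642) (nat_lit 472) (nat_lit 446)) (XT.lf (nat_lit 0) (nat_lit 11771356325) (nat_lit 228) (nat_lit 805442385) (nat_lit 0) (nat_lit 1865179863) (nat_lit 32) (nat_lit 5) (nat_lit 35) (nat_lit 4) (nat_lit 32) (nat_lit 4) (nat_lit 643) (nat_lit 472) (nat_lit 445)))) (XT.nd (nat_lit 156) (nat_lit 304) (nat_lit 0) (XT.nd (nat_lit 78) (nat_lit 76) (nat_lit 0) (XT.lf (nat_lit 0) (nat_lit 3364466056) (nat_lit 228) (nat_lit 3384735717) (nat_lit 76) (nat_lit 7851452671) (nat_lit 29) (nat_lit 5) (nat_lit 32) (nat_lit 5) (nat_lit 30) (nat_lit 4) (nat_lit 644) (nat_lit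 472) (nat_lit 444)) (XT.lf (nat_lit 0) (nat_lit 8694501496) (nat_lit 76) (nat_lit 783147752) (nat_lit 152) (nat_lit 5284639334) (nat_lit 28) (nat_lit 5) (nat_lit 29) (nat_lit 5) (nat_lit 30) (nat_lit 4) (nat_lit 645) (nat_lit 472) (nat_lit 443))) (XT.nd (nat_lit 78) (nat_lit 76) (nat_lit 0) (XT.lf (nat_lit 0) (nat_lit 803762431) (nat_lit 228) (nat_lit 8880773032) (nat_lit 76) (nat_lit 5241956116) (nat_lit 25) (nat_lit 5) (nat_lit 28) (nat_lit 5) (nat_lit 26) (nat_lit 4) (nat_lit 646) (nat_lit 472) (nat_lit 442)) (XT.lf (nat_lit 0) (nat_lit 3264698654) (nat_lit 76) (nat_lit 3677344258) (nat_lit 152) (nat_lit 8151260466) (nat_lit 24) (nat_lit 5) (nat_lit 25) (nat_lit 5) (nat_lit 26) (nat_lit 4) (nat_lit 647) (nat_lit 472) (nat_lit 441)))))) (XT.nd (nat_lit 78780) (nat_lit 0) (nat_lit 4636) (XT.nd (nat_lit 234) (nat_lit 228) (nat_lit 0) (XT.nd (nat_lit 78) (nat_lit 152) (nat_lit 0) (XT.lf (nat_lit 0) (nat_lit 371392814) (nat_lit 152) (nat_lit 12841570835) (nat_lit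 152) (nat_lit 2050291063) (nat_lit 22) (nat_lit 4) (nat_lit 24) (nat_lit 5) (nat_lit 24) (nat_lit 4) (nat_lit 648) (nat_lit 472) (nat_lit 440)) (XT.nd (nat_lit 78) (nat_lit 76) (nat_lit 0) (XT.lf (nat_lit 0) (nat_lit 4153857404) (nat_lit 228) (nat_lit 2639700940) (nat_lit 76) (nat_lit 8641787946) (nat_lit 21) (nat_lit 5) (nat_lit 24) (nat_lit 5) (nat_lit 22) (nat_lit 4) (nat_lit 649) (nat_lit 472) (nat_lit 439)) (XT.lf (nat_lit 0) (nat_lit 9847148075) (nat_lit 76) (nat_lit 604418086) (nat_lit 152) (nat_lit 5159104624) (nat_lit 20) (nat_lit 5) (nat_lit 21) (nat_lit 5) (nat_lit 22) (nat_lit 4) (nat_lit 650) (nat_lit 472) (nat_lit 438)))) (XT.nd (nat_lit 78390) (nat_lit 0) (nat_lit 6612) (XT.nd (nat_lit 78312) (nat_lit 0) (nat_lit 7220) (XT.lf (nat_lit 0) (nat_lit 1103547942) (nat_lit 228) (nat_lit 9040381941) (nat_lit 76) (nat_lit 5644790417) (nat_lit 17) (nat_lit 5) (nat_lit 20) (nat_lit 5) (nat_lit 18) (nat_lit 4) (nat_lit 651) (nat_lit 472) (nat_lit 437))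 (XT.lf (nat_lit 0) (nat_lit 3200931547) (nat_lit 304) (nat_lit 1100841800) (nat_lit 304) (nat_lit 1100841800) (nat_lit 112) (nat_lit 4) (nat_lit 116) (nat_lit 5) (nat_lit 116) (nat_lit 4) (nat_lit 614) (nat_lit 473) (nat_lit 473))) (XT.nd (nat_lit 78) (nat_lit 304) (nat_lit 0) (XT.lf (nat_lit 0) (nat_lit 3037907791) (nat_lit 304) (nat_lit 5434928485) (nat_lit 0) (nat_lit 2431181128) (nat_lit 108) (nat_lit 5) (nat_lit 112) (nat_lit 4) (nat_lit 108) (nat_lit 4) (nat_lit 615) (nat_lit 473) (nat_lit 472)) (XT.lf (nat_lit 0) (nat_lit 4492348561) (nat_lit 304) (nat_lit 3856885410) (nat_lit 304) (nat_lit 2655328684) (nat_lit 104) (nat_lit 4) (nat_lit 108) (nat_lit 5) (nat_lit 108) (nat_lit 4) (nat_lit 616) (nat_lit 473) (nat_lit 471))))) (XT.nd (nat_lit 312) (nat_lit 836) (nat_lit 0) (XT.nd (nat_lit 156) (nat_lit 532) (nat_lit 0) (XT.nd (nat_lit 78) (nat_lit 304) (nat_lit 0) (XT.lf (nat_lit 0) (nat_lit 2612840249) (nat_lit 304) (nat_lit 7631062594) (nat_lit 0) (nat_lit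 863111373) (nat_lit 100) (nat_lit 5) (nat_lit 104) (nat_lit 4) (nat_lit 100) (nat_lit 4) (nat_lit 617) (nat_lit 473) (nat_lit 470)) (XT.lf (nat_lit 0) (nat_lit 2397371249) (nat_lit 304) (nat_lit 5561937527) (nat_lit 304) (nat_lit 3251686998) (nat_lit 96) (nat_lit 4) (nat_lit 100) (nat_lit 5) (nat_lit 100) (nat_lit 4) (nat_lit 618) (nat_lit 473) (nat_lit 469))) (XT.nd (nat_lit 78) (nat_lit 228) (nat_lit 0) (XT.lf (nat_lit 0) (nat_lit 1284363748) (nat_lit 228) (nat_lit 767193335) (nat_lit 304) (nat_lit 9265561661) (nat_lit 92) (nat_lit 5) (nat_lit 95) (nat_lit 5) (nat_lit 96) (nat_lit 4) (nat_lit 619) (nat_lit 473) (nat_lit 468)) (XT.lf (nat_lit 0) (nat_lit 99605001) (nat_lit 228) (nat_lit 7328507387) (nat_lit 228) (nat_lit 3996607902) (nat_lit 89) (nat_lit 4) (nat_lit 92) (nat_lit 5) (nat_lit 92) (nat_lit 4) (nat_lit 620) (nat_lit 473) (nat_lit 467)))) (XT.nd (nat_lit 156) (nat_lit 532) (nat_lit 0) (XT.nd (nat_lit 78) (nat_lit 228) (nat_lit 0) (XT.lf (nat_lit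 0) (nat_lit 1356435515) (nat_lit 304) (nat_lit 1109735108) (nat_lit 76) (nat_lit 9068190398) (nat_lit 88) (nat_lit 5) (nat_lit 92) (nat_lit 5) (nat_lit 89) (nat_lit 4) (nat_lit 621) (nat_lit 473) (nat_lit 466)) (XT.lf (nat_lit 0) (nat_lit 6765116464) (nat_lit 304) (nat_lit 2387370122) (nat_lit 0) (nat_lit 2493139424) (nat_lit 85) (nat_lit 5) (nat_lit 89) (nat_lit 4) (nat_lit 85) (nat_lit 4) (nat_lit 622) (nat_lit 473) (nat_lit 465))) (XT.nd (nat_lit 78) (nat_lit 228) (nat_lit 0) (XT.lf (nat_lit 0) (nat_lit 517775241) (nat_lit 304) (nat_lit 3714038881) (nat_lit 76) (nat_lit 7527200279) (nat_lit 81) (nat_lit 5) (nat_lit 85) (nat_lit 5) (nat_lit 82) (nat_lit 4) (nat_lit 623) (nat_lit 473) (nat_lit 464)) (XT.lf (nat_lit 0) (nat_lit 5949984823) (nat_lit 304) (nat_lit 5109863118) (nat_lit 0) (nat_lit 814352760) (nat_lit 78) (nat_lit 5) (nat_lit 82) (nat_lit 4) (nat_lit 78) (nat_lit 4) (nat_lit 624) (nat_lit 473) (nat_lit 463))))))))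
noncomputable def xc6 : XT := (XT.nd (nat_lit 80340) (nat_lit 0) (nat_lit 1216) (XT.nd (nat_lit 1092) (nat_lit 1824) (nat_lit 0) (XT.nd (nat_lit 546) (nat_lit 1292) (nat_lit 0) (XT.nd (nat_lit 234) (nat_lit 684) (nat_lit 0) (XT.nd (nat_lit 78) (nat_lit 532) (nat_lit 0) (XT.lf (nat_lit 0) (nat_lit 5423588244) (nat_lit 228) (nat_lit 6081635659) (nat_lit 228) (nat_lit 486180611) (nat_lit 75) (nat_lit 4) (nat_lit 78) (nat_lit 5) (nat_lit 78) (nat_lit 4) (nat_lit 625) (nat_lit 473) (nat_lit 462)) (XT.nd (nat_lit 78) (nat_lit 228) (nat_lit 0) (XT.lf (nat_lit 0) (nat_lit 4015377075) (nat_lit 228) (nat_lit 965632316) (nat_lit 304) (nat_lit 7129552016) (nat_lit 71) (nat_lit 5) (nat_lit 74) (nat_lit 5) (nat_lit 75) (nat_lit 4) (nat_lit 626) (nat_lit 473) (nat_lit 461)) (XT.lf (nat_lit 0) (nat_lit 2539075814) (nat_lit 228) (nat_lit 8026837186) (nat_lit 228) (nat_lit 1665827976) (nat_lit 68) (nat_lit 4) (nat_lit 71) (nat_lit 5) (nat_lit 71) (nat_lit 4) (nat_lit 627) (nat_lit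 473) (nat_lit 460)))) (XT.nd (nat_lit 156) (nat_lit 456) (nat_lit 0) (XT.nd (nat_lit 78) (nat_lit 0) (nat_lit 0) (XT.lf (nat_lit 0) (nat_lit 991112308) (nat_lit 152) (nat_lit 2858851493) (nat_lit 228) (nat_lit 8504993602) (nat_lit 65) (nat_lit 5) (nat_lit 67) (nat_lit 5) (nat_lit 68) (nat_lit 4) (nat_lit 628) (nat_lit 473) (nat_lit 459)) (XT.lf (nat_lit 0) (nat_lit 9461668570) (nat_lit 228) (nat_lit 617993107) (nat_lit 0) (nat_lit 2400599535) (nat_lit 65) (nat_lit 5) (nat_lit 68) (nat_lit 4) (nat_lit 65) (nat_lit 4) (nat_lit 629) (nat_lit 473) (nat_lit 458))) (XT.nd (nat_lit 78) (nat_lit 152) (nat_lit 0) (XT.lf (nat_lit 0) (nat_lit 2558009884) (nat_lit 304) (nat_lit 2294192647) (nat_lit 76) (nat_lit 7755249572) (nat_lit 61) (nat_lit 5) (nat_lit 65) (nat_lit 5) (nat_lit 62) (nat_lit 4) (nat_lit 630) (nat_lit 473) (nat_lit 457)) (XT.lf (nat_lit 0) (nat_lit 8197982619) (nat_lit 228) (nat_lit 4040809120) (nat_lit 0) (nat_lit 498152124) (nat_lit 59) (nat_lit 5)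 (nat_lit 62) (nat_lit 4) (nat_lit 59) (nat_lit 4) (nat_lit 631) (nat_lit 473) (nat_lit 456))))) (XT.nd (nat_lit 234) (nat_lit 608) (nat_lit 0) (XT.nd (nat_lit 78) (nat_lit 380) (nat_lit 0) (XT.lf (nat_lit 0) (nat_lit 1089245518) (nat_lit 304) (nat_lit 5876769551) (nat_lit 76) (nat_lit 5902437061) (nat_lit 55) (nat_lit 5) (nat_lit 59) (nat_lit 5) (nat_lit 56) (nat_lit 4) (nat_lit 632) (nat_lit 473) (nat_lit 455)) (XT.nd (nat_lit 78) (nat_lit 228) (nat_lit 0) (XT.lf (nat_lit 0) (nat_lit 5206277499) (nat_lit 152) (nat_lit 1552703505) (nat_lit 228) (nat_lit 6243215861) (nat_lit 53) (nat_lit 5) (nat_lit 55) (nat_lit 5) (nat_lit 56) (nat_lit 4) (nat_lit 633) (nat_lit 473) (nat_lit 454)) (XT.lf (nat_lit 0) (nat_lit 3341100064) (nat_lit 228) (nat_lit 9216948156) (nat_lit 228) (nat_lit 580250689) (nat_lit 50) (nat_lit 4) (nat_lit 53) (nat_lit 5) (nat_lit 53) (nat_lit 4) (nat_lit 634) (nat_lit 473) (nat_lit 453)))) (XT.nd (nat_lit 156) (nat_lit 380) (nat_lit 0) (XT.nd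 (nat_lit 78) (nat_lit 0) (nat_lit 0) (XT.lf (nat_lit 0) (nat_lit 1374518444) (nat_lit 152) (nat_lit 3754048024) (nat_lit 228) (nat_lit 8147868148) (nat_lit 47) (nat_lit 5) (nat_lit 49) (nat_lit 5) (nat_lit 50) (nat_lit 4) (nat_lit 635) (nat_lit 473) (nat_lit 452)) (XT.lf (nat_lit 0) (nat_lit 10950833381) (nat_lit 228) (nat_lit 659411632) (nat_lit 0) (nat_lit 1806871544) (nat_lit 47) (nat_lit 5) (nat_lit 50) (nat_lit 4) (nat_lit 47) (nat_lit 4) (nat_lit 636) (nat_lit 473) (nat_lit 451))) (XT.nd (nat_lit 78) (nat_lit 152) (nat_lit 0) (XT.lf (nat_lit 0) (nat_lit 3310849332) (nat_lit 228) (nat_lit 2784434545) (nat_lit 76) (nat_lit 7464385524) (nat_lit 44) (nat_lit 5) (nat_lit 47) (nat_lit 5) (nat_lit 45) (nat_lit 4) (nat_lit 637) (nat_lit 473) (nat_lit 450)) (XT.lf (nat_lit 0) (nat_lit 8713112648) (nat_lit 152) (nat_lit 448972608) (nat_lit 228) (nat_lit 4542831345) (nat_lit 42) (nat_lit 5) (nat_lit 44) (nat_lit 5) (nat_lit 45) (nat_lit 4) (nat_lit 638) (nat_lit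 473) (nat_lit 449)))))) (XT.nd (nat_lit 546) (nat_lit 760) (nat_lit 0) (XT.nd (nat_lit 234) (nat_lit 532) (nat_lit 0) (XT.nd (nat_lit 78) (nat_lit 304) (nat_lit 0) (XT.lf (nat_lit 0) (nat_lit 1287204992) (nat_lit 228) (nat_lit 7311548084) (nat_lit 76) (nat_lit 5253617207) (nat_lit 39) (nat_lit 5) (nat_lit 42) (nat_lit 5) (nat_lit 40) (nat_lit 4) (nat_lit 639) (nat_lit 473) (nat_lit 448)) (XT.nd (nat_lit 78) (nat_lit 152) (nat_lit 0) (XT.lf (nat_lit 0) (nat_lit 4264738228) (nat_lit 152) (nat_lit 2903489733) (nat_lit 228) (nat_lit 6834041193) (nat_lit 37) (nat_lit 5) (nat_lit 39) (nat_lit 5) (nat_lit 40) (nat_lit 4) (nat_lit 640) (nat_lit 473) (nat_lit 447)) (XT.lf (nat_lit 0) (nat_lit 1895407609) (nat_lit 152) (nat_lit 11282957727) (nat_lit 152) (nat_lit 976571736) (nat_lit 35) (nat_lit 4) (nat_lit 37) (nat_lit 5) (nat_lit 37) (nat_lit 4) (nat_lit 641) (nat_lit 473) (nat_lit 446)))) (XT.nd (nat_lit 156) (nat_lit 304) (nat_lit 0) (XT.nd (nat_lit 78) (nat_lit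 152) (nat_lit 0) (XT.lf (nat_lit 0) (nat_lit 4948510337) (nat_lit 228) (nat_lit 596276939) (nat_lit 76) (nat_lit 8764902699) (nat_lit 34) (nat_lit 5) (nat_lit 37) (nat_lit 5) (nat_lit 35) (nat_lit 4) (nat_lit 642) (nat_lit 473) (nat_lit 445)) (XT.lf (nat_lit 0) (nat_lit 10987023615) (nat_lit 228) (nat_lit 3152559369) (nat_lit 0) (nat_lit 327666628) (nat_lit 32) (nat_lit 5) (nat_lit 35) (nat_lit 4) (nat_lit 32) (nat_lit 4) (nat_lit 643) (nat_lit 473) (nat_lit 444))) (XT.nd (nat_lit 78) (nat_lit 76) (nat_lit 0) (XT.lf (nat_lit 0) (nat_lit 2515891099) (nat_lit 228) (nat_lit 5846649800) (nat_lit 76) (nat_lit 6264481926) (nat_lit 29) (nat_lit 5) (nat_lit 32) (nat_lit 5) (nat_lit 30) (nat_lit 4) (nat_lit 644) (nat_lit 473) (nat_lit 443)) (XT.lf (nat_lit 0) (nat_lit 6136902845) (nat_lit 76) (nat_lit 2442187890) (nat_lit 152) (nat_lit 6210566314) (nat_lit 28) (nat_lit 5) (nat_lit 29) (nat_lit 5) (nat_lit 30) (nat_lit 4) (nat_lit 645) (nat_lit 473) (nat_lit 442)))))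 (XT.nd (nat_lit 312) (nat_lit 228) (nat_lit 0) (XT.nd (nat_lit 156) (nat_lit 228) (nat_lit 0) (XT.nd (nat_lit 78) (nat_lit 152) (nat_lit 0) (XT.lf (nat_lit 0) (nat_lit 3379670723) (nat_lit 152) (nat_lit 11401385746) (nat_lit 152) (nat_lit 174138272) (nat_lit 26) (nat_lit 4) (nat_lit 28) (nat_lit 5) (nat_lit 28) (nat_lit 4) (nat_lit 646) (nat_lit 473) (nat_lit 441)) (XT.lf (nat_lit 0) (nat_lit 472211428) (nat_lit 76) (nat_lit 5442806511) (nat_lit 152) (nat_lit 9208039767) (nat_lit 24) (nat_lit 5) (nat_lit 25) (nat_lit 5) (nat_lit 26) (nat_lit 4) (nat_lit 647) (nat_lit 473) (nat_lit 440))) (XT.nd (nat_lit 78) (nat_lit 228) (nat_lit 0) (XT.lf (nat_lit 0) (nat_lit 12138851355) (nat_lit 152) (nat_lit 2506564347) (nat_lit 0) (nat_lit 648535472) (nat_lit 24) (nat_lit 5) (nat_lit 26) (nat_lit 4) (nat_lit 24) (nat_lit 4) (nat_lit 648) (nat_lit 473) (nat_lit 439)) (XT.lf (nat_lit 0) (nat_lit 3013755896) (nat_lit 228) (nat_lit 5637051644) (nat_lit 76) (nat_lit 6816374694)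 (nat_lit 21) (nat_lit 5) (nat_lit 24) (nat_lit 5) (nat_lit 22) (nat_lit 4) (nat_lit 649) (nat_lit 473) (nat_lit 438)))) (XT.nd (nat_lit 78234) (nat_lit 0) (nat_lit 7448) (XT.nd (nat_lit 78) (nat_lit 152) (nat_lit 0) (XT.lf (nat_lit 0) (nat_lit 6748035570) (nat_lit 76) (nat_lit 2510775477) (nat_lit 152) (nat_lit 6384749117) (nat_lit 20) (nat_lit 5) (nat_lit 21) (nat_lit 5) (nat_lit 22) (nat_lit 4) (nat_lit 650) (nat_lit 473) (nat_lit 437)) (XT.lf (nat_lit 0) (nat_lit 3532672171) (nat_lit 152) (nat_lit 12115875094) (nat_lit 152) (nat_lit 174523507) (nat_lit 18) (nat_lit 4) (nat_lit 20) (nat_lit 5) (nat_lit 20) (nat_lit 4) (nat_lit 651) (nat_lit 473) (nat_lit 436))) (XT.nd (nat_lit 78) (nat_lit 304) (nat_lit 0) (XT.lf (nat_lit 0) (nat_lit 4102749504) (nat_lit 304) (nat_lit 601642366) (nat_lit 304) (nat_lit 601642366) (nat_lit 120) (nat_lit 4) (nat_lit 124) (nat_lit 5) (nat_lit 124) (nat_lit 4) (nat_lit 612) (nat_lit 474) (nat_lit 474)) (XT.lf (nat_lit 0) (nat_lit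 3958489198) (nat_lit 304) (nat_lit 3422302682) (nat_lit 0) (nat_lit 3327250777) (nat_lit 116) (nat_lit 5) (nat_lit 120) (nat_lit 4) (nat_lit 116) (nat_lit 4) (nat_lit 613) (nat_lit 474) (nat_lit 473))))))) (XT.nd (nat_lit 1092) (nat_lit 2584) (nat_lit 0) (XT.nd (nat_lit 546) (nat_lit 1824) (nat_lit 0) (XT.nd (nat_lit 234) (nat_lit 912) (nat_lit 0) (XT.nd (nat_lit 78) (nat_lit 608) (nat_lit 0) (XT.lf (nat_lit 0) (nat_lit 6337332500) (nat_lit 304) (nat_lit 2859379932) (nat_lit 304) (nat_lit 1609280314) (nat_lit 112) (nat_lit 4) (nat_lit 116) (nat_lit 5) (nat_lit 116) (nat_lit 4) (nat_lit 614) (nat_lit 474) (nat_lit 472)) (XT.nd (nat_lit 78) (nat_lit 304) (nat_lit 0) (XT.lf (nat_lit 0) (nat_lit 3579672340) (nat_lit 304) (nat_lit 5566634513) (nat_lit 0) (nat_lit 1759254418) (nat_lit 108) (nat_lit 5) (nat_lit 112) (nat_lit 4) (nat_lit 108) (nat_lit 4) (nat_lit 615) (nat_lit 474) (nat_lit 471)) (XT.lf (nat_lit 0) (nat_lit 4294120178) (nat_lit 304) (nat_lit 4558173019)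 (nat_lit 304) (nat_lit 2154588370) (nat_lit 104) (nat_lit 4) (nat_lit 108) (nat_lit 5) (nat_lit 108) (nat_lit 4) (nat_lit 616) (nat_lit 474) (nat_lit 470)))) (XT.nd (nat_lit 156) (nat_lit 304) (nat_lit 0) (XT.nd (nat_lit 78) (nat_lit 304) (nat_lit 0) (XT.lf (nat_lit 0) (nat_lit 3063191530) (nat_lit 304) (nat_lit 7900739574) (nat_lit 0) (nat_lit 146214338) (nat_lit 100) (nat_lit 5) (nat_lit 104) (nat_lit 4) (nat_lit 100) (nat_lit 4) (nat_lit 617) (nat_lit 474) (nat_lit 469)) (XT.lf (nat_lit 0) (nat_lit 2059110825) (nat_lit 304) (nat_lit 6311156569) (nat_lit 304) (nat_lit 2844648345) (nat_lit 96) (nat_lit 4) (nat_lit 100) (nat_lit 5) (nat_lit 100) (nat_lit 4) (nat_lit 618) (nat_lit 474) (nat_lit 468))) (XT.nd (nat_lit 78) (nat_lit 0) (nat_lit 0) (XT.lf (nat_lit 0) (nat_lit 869885322) (nat_lit 228) (nat_lit 1543555004) (nat_lit 304) (nat_lit 8908342718) (nat_lit 92) (nat_lit 5) (nat_lit 95) (nat_lit 5) (nat_lit 96) (nat_lit 4) (nat_lit 619) (nat_lit 474) (nat_lit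 467)) (XT.lf (nat_lit 0) (nat_lit 7747320866) (nat_lit 304) (nat_lit 380162099) (nat_lit 0) (nat_lit 3302755953) (nat_lit 92) (nat_lit 5) (nat_lit 96) (nat_lit 4) (nat_lit 92) (nat_lit 4) (nat_lit 620) (nat_lit 474) (nat_lit 466))))) (XT.nd (nat_lit 234) (nat_lit 988) (nat_lit 0) (XT.nd (nat_lit 78) (nat_lit 532) (nat_lit 0) (XT.lf (nat_lit 0) (nat_lit 1626572657) (nat_lit 304) (nat_lit 1666569875) (nat_lit 76) (nat_lit 8247485958) (nat_lit 88) (nat_lit 5) (nat_lit 92) (nat_lit 5) (nat_lit 89) (nat_lit 4) (nat_lit 621) (nat_lit 474) (nat_lit 465)) (XT.nd (nat_lit 78) (nat_lit 304) (nat_lit 0) (XT.lf (nat_lit 0) (nat_lit 6989406285) (nat_lit 304) (nat_lit 3017110238) (nat_lit 0) (nat_lit 1646294687) (nat_lit 85) (nat_lit 5) (nat_lit 89) (nat_lit 4) (nat_lit 85) (nat_lit 4) (nat_lit 622) (nat_lit 474) (nat_lit 464)) (XT.lf (nat_lit 0) (nat_lit 691134208) (nat_lit 304) (nat_lit 4425420330) (nat_lit 76) (nat_lit 6650435592) (nat_lit 81) (nat_lit 5) (nat_lit 85)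 (nat_lit 5) (nat_lit 82) (nat_lit 4) (nat_lit 623) (nat_lit 474) (nat_lit 463)))) (XT.nd (nat_lit 156) (nat_lit 532) (nat_lit 0) (XT.nd (nat_lit 78) (nat_lit 228) (nat_lit 0) (XT.lf (nat_lit 0) (nat_lit 5984769923) (nat_lit 228) (nat_lit 92111660) (nat_lit 304) (nat_lit 5806224831) (nat_lit 78) (nat_lit 5) (nat_lit 81) (nat_lit 5) (nat_lit 82) (nat_lit 4) (nat_lit 624) (nat_lit 474) (nat_lit 462)) (XT.lf (nat_lit 0) (nat_lit 4560922459) (nat_lit 228) (nat_lit 7029112099) (nat_lit 228) (nat_lit 411118117) (nat_lit 75) (nat_lit 4) (nat_lit 78) (nat_lit 5) (nat_lit 78) (nat_lit 4) (nat_lit 625) (nat_lit 474) (nat_lit 461))) (XT.nd (nat_lit 78) (nat_lit 228) (nat_lit 0) (XT.lf (nat_lit 0) (nat_lit 3066495333) (nat_lit 228) (nat_lit 1946602098) (nat_lit 304) (nat_lit 7108042886) (nat_lit 71) (nat_lit 5) (nat_lit 74) (nat_lit 5) (nat_lit 75) (nat_lit 4) (nat_lit 626) (nat_lit 474) (nat_lit 460)) (XT.lf (nat_lit 0) (nat_lit 1508822282) (nat_lit 228) (nat_lit 9040404994)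 (nat_lit 228) (nat_lit 1694068771) (nat_lit 68) (nat_lit 4) (nat_lit 71) (nat_lit 5) (nat_lit 71) (nat_lit 4) (nat_lit 627) (nat_lit 474) (nat_lit 459)))))) (XT.nd (nat_lit 546) (nat_lit 1216) (nat_lit 0) (XT.nd (nat_lit 234) (nat_lit 836) (nat_lit 0) (XT.nd (nat_lit 78) (nat_lit 456) (nat_lit 0) (XT.lf (nat_lit 0) (nat_lit 3779997359) (nat_lit 304) (nat_lit 127217401) (nat_lit 76) (nat_lit 8460143958) (nat_lit 67) (nat_lit 5) (nat_lit 71) (nat_lit 5) (nat_lit 68) (nat_lit 4) (nat_lit 628) (nat_lit 474) (nat_lit 458)) (XT.nd (nat_lit 78) (nat_lit 304) (nat_lit 0) (XT.lf (nat_lit 0) (nat_lit 9348498987) (nat_lit 228) (nat_lit 1807432906) (nat_lit 0) (nat_lit 1337595341) (nat_lit 65) (nat_lit 5) (nat_lit 68) (nat_lit 4) (nat_lit 65) (nat_lit 4) (nat_lit 629) (nat_lit 474) (nat_lit 457)) (XT.lf (nat_lit 0) (nat_lit 2389852802) (nat_lit 304) (nat_lit 3575855475) (nat_lit 76) (nat_lit 6655894480) (nat_lit 61) (nat_lit 5) (nat_lit 65) (nat_lit 5) (nat_lit 62) (nat_lit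 4) (nat_lit 630) (nat_lit 474) (nat_lit 456)))) (XT.nd (nat_lit 156) (nat_lit 380) (nat_lit 0) (XT.nd (nat_lit 78) (nat_lit 304) (nat_lit 0) (XT.lf (nat_lit 0) (nat_lit 7337336127) (nat_lit 152) (nat_lit 645561678) (nat_lit 228) (nat_lit 4769135874) (nat_lit 59) (nat_lit 5) (nat_lit 61) (nat_lit 5) (nat_lit 62) (nat_lit 4) (nat_lit 631) (nat_lit 474) (nat_lit 455)) (XT.lf (nat_lit 0) (nat_lit 813446354) (nat_lit 304) (nat_lit 7342458408) (nat_lit 76) (nat_lit 4728640523) (nat_lit 55) (nat_lit 5) (nat_lit 59) (nat_lit 5) (nat_lit 56) (nat_lit 4) (nat_lit 632) (nat_lit 474) (nat_lit 454))) (XT.nd (nat_lit 78) (nat_lit 228) (nat_lit 0) (XT.lf (nat_lit 0) (nat_lit 3657514274) (nat_lit 152) (nat_lit 2780951865) (nat_lit 228) (nat_lit 6580718766) (nat_lit 53) (nat_lit 5) (nat_lit 55) (nat_lit 5) (nat_lit 56) (nat_lit 4) (nat_lit 633) (nat_lit 474) (nat_lit 453)) (XT.lf (nat_lit 0) (nat_lit 1698930191) (nat_lit 228) (nat_lit 10485399643) (nat_lit 228) (nat_lit 972021748)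 (nat_lit 50) (nat_lit 4) (nat_lit 53) (nat_lit 5) (nat_lit 53) (nat_lit 4) (nat_lit 634) (nat_lit 474) (nat_lit 452))))) (XT.nd (nat_lit 312) (nat_lit 608) (nat_lit 0) (XT.nd (nat_lit 156) (nat_lit 380) (nat_lit 0) (XT.nd (nat_lit 78) (nat_lit 152) (nat_lit 0) (XT.lf (nat_lit 0) (nat_lit 4698487115) (nat_lit 304) (nat_lit 364089173) (nat_lit 76) (nat_lit 8232831341) (nat_lit 49) (nat_lit 5) (nat_lit 53) (nat_lit 5) (nat_lit 50) (nat_lit 4) (nat_lit 635) (nat_lit 474) (nat_lit 451)) (XT.lf (nat_lit 0) (nat_lit 10475412710) (nat_lit 228) (nat_lit 2476357068) (nat_lit 0) (nat_lit 485227147) (nat_lit 47) (nat_lit 5) (nat_lit 50) (nat_lit 4) (nat_lit 47) (nat_lit 4) (nat_lit 636) (nat_lit 474) (nat_lit 450))) (XT.nd (nat_lit 78) (nat_lit 152) (nat_lit 0) (XT.lf (nat_lit 0) (nat_lit 2775619335) (nat_lit 228) (nat_lit 4705383879) (nat_lit 76) (nat_lit 6099539879) (nat_lit 44) (nat_lit 5) (nat_lit 47) (nat_lit 5) (nat_lit 45) (nat_lit 4) (nat_lit 637) (nat_lit 474)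 (nat_lit 449)) (XT.lf (nat_lit 0) (nat_lit 6704016405) (nat_lit 152) (nat_lit 1876076655) (nat_lit 228) (nat_lit 5146632975) (nat_lit 42) (nat_lit 5) (nat_lit 44) (nat_lit 5) (nat_lit 45) (nat_lit 4) (nat_lit 638) (nat_lit 474) (nat_lit 448)))) (XT.nd (nat_lit 156) (nat_lit 228) (nat_lit 0) (XT.nd (nat_lit 78) (nat_lit 152) (nat_lit 0) (XT.lf (nat_lit 0) (nat_lit 634337238) (nat_lit 228) (nat_lit 9441402764) (nat_lit 76) (nat_lit 3799658301) (nat_lit 39) (nat_lit 5) (nat_lit 42) (nat_lit 5) (nat_lit 40) (nat_lit 4) (nat_lit 639) (nat_lit 474) (nat_lit 447)) (XT.lf (nat_lit 0) (nat_lit 2043837257) (nat_lit 152) (nat_lit 4423505662) (nat_lit 228) (nat_lit 7558915069) (nat_lit 37) (nat_lit 5) (nat_lit 39) (nat_lit 5) (nat_lit 40) (nat_lit 4) (nat_lit 640) (nat_lit 474) (nat_lit 446))) (XT.nd (nat_lit 78) (nat_lit 228) (nat_lit 0) (XT.lf (nat_lit 0) (nat_lit 12421783862) (nat_lit 228) (nat_lit 426467579) (nat_lit 0) (nat_lit 1331788854) (nat_lit 37) (nat_lit 5)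 (nat_lit 40) (nat_lit 4) (nat_lit 37) (nat_lit 4) (nat_lit 641) (nat_lit 474) (nat_lit 445)) (XT.lf (nat_lit 0) (nat_lit 4140768724) (nat_lit 228) (nat_lit 3005918490) (nat_lit 76) (nat_lit 7188934109) (nat_lit 34) (nat_lit 5) (nat_lit 37) (nat_lit 5) (nat_lit 35) (nat_lit 4) (nat_lit 642) (nat_lit 474) (nat_lit 444))))))))
noncomputable def xc7 : XT := (XT.nd (nat_lit 80184) (nat_lit 0) (nat_lit 152) (XT.nd (nat_lit 79014) (nat_lit 0) (nat_lit 3572) (XT.nd (nat_lit 546) (nat_lit 228) (nat_lit 0) (XT.nd (nat_lit 234) (nat_lit 532) (nat_lit 0) (XT.nd (nat_lit 78) (nat_lit 304) (nat_lit 0) (XT.lf (nat_lit 0) (nat_lit 8813599463) (nat_lit 152) (nat_lit 1314445817) (nat_lit 228) (nat_lit 4366160847) (nat_lit 32) (nat_lit 5) (nat_lit 34) (nat_lit 5) (nat_lit 35) (nat_lit 4) (nat_lit 643) (nat_lit 474) (nat_lit 443)) (XT.nd (nat_lit 78) (nat_lit 76) (nat_lit 0) (XT.lf (nat_lit 0) (nat_lit 1582921227) (nat_lit 228) (nat_lit 8483327391) (nat_lit 76) (nat_lit 4589019264)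 (nat_lit 29) (nat_lit 5) (nat_lit 32) (nat_lit 5) (nat_lit 30) (nat_lit 4) (nat_lit 644) (nat_lit 474) (nat_lit 442)) (XT.lf (nat_lit 0) (nat_lit 3403452818) (nat_lit 76) (nat_lit 4192197216) (nat_lit 152) (nat_lit 7223261897) (nat_lit 28) (nat_lit 5) (nat_lit 29) (nat_lit 5) (nat_lit 30) (nat_lit 4) (nat_lit 645) (nat_lit 474) (nat_lit 441)))) (XT.nd (nat_lit 156) (nat_lit 304) (nat_lit 0) (XT.nd (nat_lit 78) (nat_lit 76) (nat_lit 0) (XT.lf (nat_lit 0) (nat_lit 529963883) (nat_lit 152) (nat_lit 13205130606) (nat_lit 152) (nat_lit 1250605962) (nat_lit 26) (nat_lit 4) (nat_lit 28) (nat_lit 5) (nat_lit 28) (nat_lit 4) (nat_lit 646) (nat_lit 474) (nat_lit 440)) (XT.lf (nat_lit 0) (nat_lit 4816977464) (nat_lit 228) (nat_lit 2468227555) (nat_lit 76) (nat_lit 7869212382) (nat_lit 25) (nat_lit 5) (nat_lit 28) (nat_lit 5) (nat_lit 26) (nat_lit 4) (nat_lit 647) (nat_lit 474) (nat_lit 439))) (XT.nd (nat_lit 78) (nat_lit 228) (nat_lit 0) (XT.lf (nat_lit 0) (nat_lit 9757877435)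 (nat_lit 76) (nat_lit 1230049592) (nat_lit 152) (nat_lit 4338441894) (nat_lit 24) (nat_lit 5) (nat_lit 25) (nat_lit 5) (nat_lit 26) (nat_lit 4) (nat_lit 648) (nat_lit 474) (nat_lit 438)) (XT.lf (nat_lit 0) (nat_lit 1785137492) (nat_lit 228) (nat_lit 8817804455) (nat_lit 76) (nat_lit 4898027981) (nat_lit 21) (nat_lit 5) (nat_lit 24) (nat_lit 5) (nat_lit 22) (nat_lit 4) (nat_lit 649) (nat_lit 474) (nat_lit 437))))) (XT.nd (nat_lit 78156) (nat_lit 0) (nat_lit 7144) (XT.nd (nat_lit 78) (nat_lit 152) (nat_lit 0) (XT.lf (nat_lit 0) (nat_lit 3464297927) (nat_lit 76) (nat_lit 4512680285) (nat_lit 152) (nat_lit 7701434289) (nat_lit 20) (nat_lit 5) (nat_lit 21) (nat_lit 5) (nat_lit 22) (nat_lit 4) (nat_lit 650) (nat_lit 474) (nat_lit 436)) (XT.nd (nat_lit 78000) (nat_lit 0) (nat_lit 8436) (XT.lf (nat_lit 0) (nat_lit 122376909) (nat_lit 152) (nat_lit 14177361668) (nat_lit 152) (nat_lit 1559524397) (nat_lit 18) (nat_lit 4) (nat_lit 20) (nat_lit 5) (nat_lit 20) (nat_lit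 4) (nat_lit 651) (nat_lit 474) (nat_lit 435)) (XT.lf (nat_lit 0) (nat_lit 4988091036) (nat_lit 304) (nat_lit 112003886) (nat_lit 304) (nat_lit 112003886) (nat_lit 129) (nat_lit 4) (nat_lit 133) (nat_lit 5) (nat_lit 133) (nat_lit 4) (nat_lit 610) (nat_lit 475) (nat_lit 475)))) (XT.nd (nat_lit 156) (nat_lit 608) (nat_lit 0) (XT.nd (nat_lit 78) (nat_lit 304) (nat_lit 0) (XT.lf (nat_lit 0) (nat_lit 4861460937) (nat_lit 380) (nat_lit 1451232585) (nat_lit 0) (nat_lit 4204720484) (nat_lit 124) (nat_lit 5) (nat_lit 129) (nat_lit 4) (nat_lit 124) (nat_lit 4) (nat_lit 611) (nat_lit 475) (nat_lit 474)) (XT.lf (nat_lit 0) (nat_lit 8142484931) (nat_lit 304) (nat_lit 1885469805) (nat_lit 304) (nat_lit 584866163) (nat_lit 120) (nat_lit 4) (nat_lit 124) (nat_lit 5) (nat_lit 124) (nat_lit 4) (nat_lit 612) (nat_lit 475) (nat_lit 473))) (XT.nd (nat_lit 78) (nat_lit 304) (nat_lit 0) (XT.lf (nat_lit 0) (nat_lit 4526291896) (nat_lit 304) (nat_lit 3550944894) (nat_lit 0) (nat_lit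 2632329090) (nat_lit 116) (nat_lit 5) (nat_lit 120) (nat_lit 4) (nat_lit 116) (nat_lit 4) (nat_lit 613) (nat_lit 475) (nat_lit 472)) (XT.lf (nat_lit 0) (nat_lit 6143715413) (nat_lit 304) (nat_lit 3582627226) (nat_lit 304) (nat_lit 1081937756) (nat_lit 112) (nat_lit 4) (nat_lit 116) (nat_lit 5) (nat_lit 116) (nat_lit 4) (nat_lit 614) (nat_lit 475) (nat_lit 471)))))) (XT.nd (nat_lit 546) (nat_lit 1748) (nat_lit 0) (XT.nd (nat_lit 234) (nat_lit 912) (nat_lit 0) (XT.nd (nat_lit 78) (nat_lit 608) (nat_lit 0) (XT.lf (nat_lit 0) (nat_lit 4056687231) (nat_lit 304) (nat_lit 5830098219) (nat_lit 0) (nat_lit 1021864160) (nat_lit 108) (nat_lit 5) (nat_lit 112) (nat_lit 4) (nat_lit 108) (nat_lit 4) (nat_lit 615) (nat_lit 475) (nat_lit 470)) (XT.nd (nat_lit 78) (nat_lit 304) (nat_lit 0) (XT.lf (nat_lit 0) (nat_lit 3963653168) (nat_lit 304) (nat_lit 5326824710) (nat_lit 304) (nat_lit 1720269553) (nat_lit 104) (nat_lit 4) (nat_lit 108) (nat_lit 5) (nat_lit 108) (nat_lit 4)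 (nat_lit 616) (nat_lit 475) (nat_lit 469)) (XT.lf (nat_lit 0) (nat_lit 2805175561) (nat_lit 228) (nat_lit 646434523) (nat_lit 304) (nat_lit 7663149791) (nat_lit 100) (nat_lit 5) (nat_lit 103) (nat_lit 5) (nat_lit 104) (nat_lit 4) (nat_lit 617) (nat_lit 475) (nat_lit 468)))) (XT.nd (nat_lit 156) (nat_lit 304) (nat_lit 0) (XT.nd (nat_lit 78) (nat_lit 304) (nat_lit 0) (XT.lf (nat_lit 0) (nat_lit 1585360533) (nat_lit 304) (nat_lit 7129585321) (nat_lit 304) (nat_lit 2505459986) (nat_lit 96) (nat_lit 4) (nat_lit 100) (nat_lit 5) (nat_lit 100) (nat_lit 4) (nat_lit 618) (nat_lit 475) (nat_lit 467)) (XT.lf (nat_lit 0) (nat_lit 318247756) (nat_lit 228) (nat_lit 2389952819) (nat_lit 304) (nat_lit 8619828951) (nat_lit 92) (nat_lit 5) (nat_lit 95) (nat_lit 5) (nat_lit 96) (nat_lit 4) (nat_lit 619) (nat_lit 475) (nat_lit 466))) (XT.nd (nat_lit 78) (nat_lit 304) (nat_lit 0) (XT.lf (nat_lit 0) (nat_lit 8000323573) (nat_lit 304) (nat_lit 995647530) (nat_lit 0) (nat_lit 2441350266)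 (nat_lit 92) (nat_lit 5) (nat_lit 96) (nat_lit 4) (nat_lit 92) (nat_lit 4) (nat_lit 620) (nat_lit 475) (nat_lit 465)) (XT.lf (nat_lit 0) (nat_lit 1828994524) (nat_lit 304) (nat_lit 2362131553) (nat_lit 76) (nat_lit 7357359177) (nat_lit 88) (nat_lit 5) (nat_lit 92) (nat_lit 5) (nat_lit 89) (nat_lit 4) (nat_lit 621) (nat_lit 475) (nat_lit 464))))) (XT.nd (nat_lit 312) (nat_lit 760) (nat_lit 0) (XT.nd (nat_lit 156) (nat_lit 456) (nat_lit 0) (XT.nd (nat_lit 78) (nat_lit 304) (nat_lit 0) (XT.lf (nat_lit 0) (nat_lit 7145322437) (nat_lit 304) (nat_lit 3787295479) (nat_lit 0) (nat_lit 728980943) (nat_lit 85) (nat_lit 5) (nat_lit 89) (nat_lit 4) (nat_lit 85) (nat_lit 4) (nat_lit 622) (nat_lit 475) (nat_lit 463)) (XT.lf (nat_lit 0) (nat_lit 795224859) (nat_lit 304) (nat_lit 5279006722) (nat_lit 76) (nat_lit 5702349998) (nat_lit 81) (nat_lit 5) (nat_lit 85) (nat_lit 5) (nat_lit 82) (nat_lit 4) (nat_lit 623) (nat_lit 475) (nat_lit 462))) (XT.nd (nat_lit 78) (nat_lit 228)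 (nat_lit 0) (XT.lf (nat_lit 0) (nat_lit 5056901522) (nat_lit 228) (nat_lit 1082744737) (nat_lit 304) (nat_lit 5753878848) (nat_lit 78) (nat_lit 5) (nat_lit 81) (nat_lit 5) (nat_lit 82) (nat_lit 4) (nat_lit 624) (nat_lit 475) (nat_lit 461)) (XT.lf (nat_lit 0) (nat_lit 3553624510) (nat_lit 228) (nat_lit 8051019442) (nat_lit 228) (nat_lit 407891235) (nat_lit 75) (nat_lit 4) (nat_lit 78) (nat_lit 5) (nat_lit 78) (nat_lit 4) (nat_lit 625) (nat_lit 475) (nat_lit 460)))) (XT.nd (nat_lit 156) (nat_lit 228) (nat_lit 0) (XT.nd (nat_lit 78) (nat_lit 228) (nat_lit 0) (XT.lf (nat_lit 0) (nat_lit 1971138229) (nat_lit 228) (nat_lit 3002905288) (nat_lit 304) (nat_lit 7159324346) (nat_lit 71) (nat_lit 5) (nat_lit 74) (nat_lit 5) (nat_lit 75) (nat_lit 4) (nat_lit 626) (nat_lit 475) (nat_lit 459)) (XT.lf (nat_lit 0) (nat_lit 330236503) (nat_lit 228) (nat_lit 10130411213) (nat_lit 228) (nat_lit 1795867059) (nat_lit 68) (nat_lit 4) (nat_lit 71) (nat_lit 5) (nat_lit 71) (nat_lit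 4) (nat_lit 627) (nat_lit 475) (nat_lit 458))) (XT.nd (nat_lit 78) (nat_lit 152) (nat_lit 0) (XT.lf (nat_lit 0) (nat_lit 3644572338) (nat_lit 304) (nat_lit 1380817681) (nat_lit 76) (nat_lit 7355900528) (nat_lit 67) (nat_lit 5) (nat_lit 71) (nat_lit 5) (nat_lit 68) (nat_lit 4) (nat_lit 628) (nat_lit 475) (nat_lit 457)) (XT.lf (nat_lit 0) (nat_lit 9162655207) (nat_lit 228) (nat_lit 3147037445) (nat_lit 0) (nat_lit 198775417) (nat_lit 65) (nat_lit 5) (nat_lit 68) (nat_lit 4) (nat_lit 65) (nat_lit 4) (nat_lit 629) (nat_lit 475) (nat_lit 456))))))) (XT.nd (nat_lit 1170) (nat_lit 684) (nat_lit 0) (XT.nd (nat_lit 546) (nat_lit 1368) (nat_lit 0) (XT.nd (nat_lit 234) (nat_lit 608) (nat_lit 0) (XT.nd (nat_lit 78) (nat_lit 456) (nat_lit 0) (XT.lf (nat_lit 0) (nat_lit 2148023471) (nat_lit 304) (nat_lit 5009631680) (nat_lit 76) (nat_lit 5479788681) (nat_lit 61) (nat_lit 5) (nat_lit 65) (nat_lit 5) (nat_lit 62) (nat_lit 4) (nat_lit 630) (nat_lit 475) (nat_lit 455)) (XT.nd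 (nat_lit 78) (nat_lit 304) (nat_lit 0) (XT.lf (nat_lit 0) (nat_lit 5822303804) (nat_lit 152) (nat_lit 1874804067) (nat_lit 228) (nat_lit 5071646691) (nat_lit 59) (nat_lit 5) (nat_lit 61) (nat_lit 5) (nat_lit 62) (nat_lit 4) (nat_lit 631) (nat_lit 475) (nat_lit 454)) (XT.lf (nat_lit 0) (nat_lit 462117802) (nat_lit 304) (nat_lit 8964240401) (nat_lit 76) (nat_lit 3476003523) (nat_lit 55) (nat_lit 5) (nat_lit 59) (nat_lit 5) (nat_lit 56) (nat_lit 4) (nat_lit 632) (nat_lit 475) (nat_lit 453)))) (XT.nd (nat_lit 156) (nat_lit 456) (nat_lit 0) (XT.nd (nat_lit 78) (nat_lit 0) (nat_lit 0) (XT.lf (nat_lit 0) (nat_lit 1951830501) (nat_lit 152) (nat_lit 4090252165) (nat_lit 228) (nat_lit 6995820341) (nat_lit 53) (nat_lit 5) (nat_lit 55) (nat_lit 5) (nat_lit 56) (nat_lit 4) (nat_lit 633) (nat_lit 475) (nat_lit 452)) (XT.lf (nat_lit 0) (nat_lit 11734525851) (nat_lit 228) (nat_lit 100876001) (nat_lit 0) (nat_lit 1340736791) (nat_lit 53) (nat_lit 5) (nat_lit 56) (nat_lit 4)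 (nat_lit 53) (nat_lit 4) (nat_lit 634) (nat_lit 475) (nat_lit 451))) (XT.nd (nat_lit 78) (nat_lit 152) (nat_lit 0) (XT.lf (nat_lit 0) (nat_lit 4200541536) (nat_lit 304) (nat_lit 2243651285) (nat_lit 76) (nat_lit 6871753642) (nat_lit 49) (nat_lit 5) (nat_lit 53) (nat_lit 5) (nat_lit 50) (nat_lit 4) (nat_lit 635) (nat_lit 475) (nat_lit 450)) (XT.lf (nat_lit 0) (nat_lit 8998092909) (nat_lit 152) (nat_lit 930237021) (nat_lit 228) (nat_lit 3530189091) (nat_lit 47) (nat_lit 5) (nat_lit 49) (nat_lit 5) (nat_lit 50) (nat_lit 4) (nat_lit 636) (nat_lit 475) (nat_lit 449))))) (XT.nd (nat_lit 312) (nat_lit 760) (nat_lit 0) (XT.nd (nat_lit 156) (nat_lit 228) (nat_lit 0) (XT.nd (nat_lit 78) (nat_lit 152) (nat_lit 0) (XT.lf (nat_lit 0) (nat_lit 2161574754) (nat_lit 228) (nat_lit 6789582645) (nat_lit 76) (nat_lit 4652040064) (nat_lit 44) (nat_lit 5) (nat_lit 47) (nat_lit 5) (nat_lit 45) (nat_lit 4) (nat_lit 637) (nat_lit 475) (nat_lit 448)) (XT.lf (nat_lit 0) (nat_lit 4530729045)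 (nat_lit 152) (nat_lit 3388152332) (nat_lit 228) (nat_lit 5831442859) (nat_lit 42) (nat_lit 5) (nat_lit 44) (nat_lit 5) (nat_lit 45) (nat_lit 4) (nat_lit 638) (nat_lit 475) (nat_lit 447))) (XT.nd (nat_lit 78) (nat_lit 76) (nat_lit 0) (XT.lf (nat_lit 0) (nat_lit 2160647317) (nat_lit 152) (nat_lit 11638807791) (nat_lit 152) (nat_lit 100776984) (nat_lit 40) (nat_lit 4) (nat_lit 42) (nat_lit 5) (nat_lit 42) (nat_lit 4) (nat_lit 639) (nat_lit 475) (nat_lit 446)) (XT.lf (nat_lit 0) (nat_lit 5687341513) (nat_lit 228) (nat_lit 341200417) (nat_lit 76) (nat_lit 8023487573) (nat_lit 39) (nat_lit 5) (nat_lit 42) (nat_lit 5) (nat_lit 40) (nat_lit 4) (nat_lit 640) (nat_lit 475) (nat_lit 445)))) (XT.nd (nat_lit 156) (nat_lit 380) (nat_lit 0) (XT.nd (nat_lit 78) (nat_lit 228) (nat_lit 0) (XT.lf (nat_lit 0) (nat_lit 11312632363) (nat_lit 152) (nat_lit 285458957) (nat_lit 228) (nat_lit 2608594763) (nat_lit 37) (nat_lit 5) (nat_lit 39) (nat_lit 5) (nat_lit 40) (nat_lit 4) (nat_lit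 641) (nat_lit 475) (nat_lit 444)) (XT.lf (nat_lit 0) (nat_lit 3250559712) (nat_lit 228) (nat_lit 5586603114) (nat_lit 76) (nat_lit 5526235598) (nat_lit 34) (nat_lit 5) (nat_lit 37) (nat_lit 5) (nat_lit 35) (nat_lit 4) (nat_lit 642) (nat_lit 475) (nat_lit 443))) (XT.nd (nat_lit 78) (nat_lit 228) (nat_lit 0) (XT.lf (nat_lit 0) (nat_lit 6138202058) (nat_lit 152) (nat_lit 3050079439) (nat_lit 228) (nat_lit 5334693251) (nat_lit 32) (nat_lit 5) (nat_lit 34) (nat_lit 5) (nat_lit 35) (nat_lit 4) (nat_lit 643) (nat_lit 475) (nat_lit 442)) (XT.lf (nat_lit 0) (nat_lit 565190572) (nat_lit 228) (nat_lit 11295802483) (nat_lit 76) (nat_lit 2824407639) (nat_lit 29) (nat_lit 5) (nat_lit 32) (nat_lit 5) (nat_lit 30) (nat_lit 4) (nat_lit 644) (nat_lit 475) (nat_lit 441)))))) (XT.nd (nat_lit 78312) (nat_lit 0) (nat_lit 6688) (XT.nd (nat_lit 234) (nat_lit 380) (nat_lit 0) (XT.nd (nat_lit 78) (nat_lit 228) (nat_lit 0) (XT.lf (nat_lit 0) (nat_lit 493079474) (nat_lit 76) (nat_lit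 6033862010) (nat_lit 152) (nat_lit 8323123219) (nat_lit 28) (nat_lit 5) (nat_lit 29) (nat_lit 5) (nat_lit 30) (nat_lit 4) (nat_lit 645) (nat_lit 475) (nat_lit 440)) (XT.nd (nat_lit 78) (nat_lit 228) (nat_lit 0) (XT.lf (nat_lit 0) (nat_lit 12550999472) (nat_lit 76) (nat_lit 68415940) (nat_lit 152) (nat_lit 2398377612) (nat_lit 28) (nat_lit 5) (nat_lit 29) (nat_lit 5) (nat_lit 30) (nat_lit 4) (nat_lit 646) (nat_lit 475) (nat_lit 439)) (XT.lf (nat_lit 0) (nat_lit 3635493223) (nat_lit 228) (nat_lit 5582006680) (nat_lit 76) (nat_lit 5970134808) (nat_lit 25) (nat_lit 5) (nat_lit 28) (nat_lit 5) (nat_lit 26) (nat_lit 4) (nat_lit 647) (nat_lit 475) (nat_lit 438)))) (XT.nd (nat_lit 156) (nat_lit 76) (nat_lit 0) (XT.nd (nat_lit 78) (nat_lit 228) (nat_lit 0) (XT.lf (nat_lit 0) (nat_lit 6543285495) (nat_lit 76) (nat_lit 3210927950) (nat_lit 152) (nat_lit 5606417743) (nat_lit 24) (nat_lit 5) (nat_lit 25) (nat_lit 5) (nat_lit 26) (nat_lit 4) (nat_lit 648) (nat_lit 475)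 (nat_lit 437)) (XT.lf (nat_lit 0) (nat_lit 467520381) (nat_lit 228) (nat_lit 12183206727) (nat_lit 76) (nat_lit 2885995514) (nat_lit 21) (nat_lit 5) (nat_lit 24) (nat_lit 5) (nat_lit 22) (nat_lit 4) (nat_lit 649) (nat_lit 475) (nat_lit 436))) (XT.nd (nat_lit 78) (nat_lit 76) (nat_lit 0) (XT.lf (nat_lit 0) (nat_lit 6605599731) (nat_lit 228) (nat_lit 5282392) (nat_lit 76) (nat_lit 9104358648) (nat_lit 21) (nat_lit 5) (nat_lit 24) (nat_lit 5) (nat_lit 22) (nat_lit 4) (nat_lit 650) (nat_lit 475) (nat_lit 435)) (XT.lf (nat_lit 0) (nat_lit 12463324681) (nat_lit 76) (nat_lit 422111571) (nat_lit 152) (nat_lit 3011513811) (nat_lit 20) (nat_lit 5) (nat_lit 21) (nat_lit 5) (nat_lit 22) (nat_lit 4) (nat_lit 651) (nat_lit 475) (nat_lit 434))))) (XT.nd (nat_lit 312) (nat_lit 1216) (nat_lit 0) (XT.nd (nat_lit 156) (nat_lit 380) (nat_lit 0) (XT.nd (nat_lit 78) (nat_lit 304) (nat_lit 0) (XT.lf (nat_lit 0) (nat_lit 372170926) (nat_lit 380) (nat_lit 4376223075) (nat_lit 0) (nat_lit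 372170926) (nat_lit 133) (nat_lit 5) (nat_lit 138) (nat_lit 4) (nat_lit 133) (nat_lit 4) (nat_lit 608) (nat_lit 476) (nat_lit 476)) (XT.lf (nat_lit 0) (nat_lit 491481573) (nat_lit 304) (nat_lit 5261877549) (nat_lit 304) (nat_lit 4578604782) (nat_lit 129) (nat_lit 4) (nat_lit 133) (nat_lit 5) (nat_lit 133) (nat_lit 4) (nat_lit 609) (nat_lit 476) (nat_lit 475))) (XT.nd (nat_lit 78) (nat_lit 304) (nat_lit 0) (XT.lf (nat_lit 0) (nat_lit 415909057) (nat_lit 380) (nat_lit 513011732) (nat_lit 76) (nat_lit 9495964899) (nat_lit 128) (nat_lit 5) (nat_lit 133) (nat_lit 5) (nat_lit 129) (nat_lit 4) (nat_lit 610) (nat_lit 476) (nat_lit 474)) (XT.lf (nat_lit 0) (nat_lit 5456272336) (nat_lit 380) (nat_lit 1576851609) (nat_lit 0) (nat_lit 3485793432) (nat_lit 124) (nat_lit 5) (nat_lit 129) (nat_lit 4) (nat_lit 124) (nat_lit 4) (nat_lit 611) (nat_lit 476) (nat_lit 473)))) (XT.nd (nat_lit 156) (nat_lit 608) (nat_lit 0) (XT.nd (nat_lit 78) (nat_lit 304) (nat_lit 0) (XT.lf (nat_lit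 0) (nat_lit 7953417990) (nat_lit 304) (nat_lit 2631688903) (nat_lit 304) (nat_lit 29971579) (nat_lit 120) (nat_lit 4) (nat_lit 124) (nat_lit 5) (nat_lit 124) (nat_lit 4) (nat_lit 612) (nat_lit 476) (nat_lit 472)) (XT.lf (nat_lit 0) (nat_lit 5030881539) (nat_lit 304) (nat_lit 3808279766) (nat_lit 0) (nat_lit 1873451616) (nat_lit 116) (nat_lit 5) (nat_lit 120) (nat_lit 4) (nat_lit 116) (nat_lit 4) (nat_lit 613) (nat_lit 476) (nat_lit 471))) (XT.nd (nat_lit 78) (nat_lit 304) (nat_lit 0) (XT.lf (nat_lit 0) (nat_lit 5820935904) (nat_lit 304) (nat_lit 4371709110) (nat_lit 304) (nat_lit 619449125) (nat_lit 112) (nat_lit 4) (nat_lit 116) (nat_lit 5) (nat_lit 116) (nat_lit 4) (nat_lit 614) (nat_lit 476) (nat_lit 470)) (XT.lf (nat_lit 0) (nat_lit 4469139528) (nat_lit 304) (nat_lit 6225422922) (nat_lit 0) (nat_lit 218721183) (nat_lit 108) (nat_lit 5) (nat_lit 112) (nat_lit 4) (nat_lit 108) (nat_lit 4) (nat_lit 615) (nat_lit 476) (nat_lit 469))))))))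
noncomputable def xc8 : XT := (XT.nd (nat_lit 2262) (nat_lit 760) (nat_lit 0) (XT.nd (nat_lit 1092) (nat_lit 2660) (nat_lit 0) (XT.nd (nat_lit 546) (nat_lit 1520) (nat_lit 0) (XT.nd (nat_lit 234) (nat_lit 836) (nat_lit 0) (XT.nd (nat_lit 78) (nat_lit 608) (nat_lit 0) (XT.lf (nat_lit 0) (nat_lit 3500817935) (nat_lit 304) (nat_lit 6163141913) (nat_lit 304) (nat_lit 1352201915) (nat_lit 104) (nat_lit 4) (nat_lit 108) (nat_lit 5) (nat_lit 108) (nat_lit 4) (nat_lit 616) (nat_lit 476) (nat_lit 468)) (XT.nd (nat_lit 78) (nat_lit 304) (nat_lit 0) (XT.lf (nat_lit 0) (nat_lit 2265950198) (nat_lit 228) (nat_lit 1509505855) (nat_lit 304) (nat_lit 7345459114) (nat_lit 100) (nat_lit 5) (nat_lit 103) (nat_lit 5) (nat_lit 104) (nat_lit 4) (nat_lit 617) (nat_lit 476) (nat_lit 467)) (XT.lf (nat_lit 0) (nat_lit 975934590) (nat_lit 304) (nat_lit 8017544735) (nat_lit 304) (nat_lit 2233988907) (nat_lit 96) (nat_lit 4) (nat_lit 100) (nat_lit 5) (nat_lit 100) (nat_lit 4) (nat_lit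 618) (nat_lit 476) (nat_lit 466)))) (XT.nd (nat_lit 156) (nat_lit 532) (nat_lit 0) (XT.nd (nat_lit 78) (nat_lit 228) (nat_lit 0) (XT.lf (nat_lit 0) (nat_lit 2938360677) (nat_lit 380) (nat_lit 365902624) (nat_lit 76) (nat_lit 8031549195) (nat_lit 95) (nat_lit 5) (nat_lit 100) (nat_lit 5) (nat_lit 96) (nat_lit 4) (nat_lit 619) (nat_lit 476) (nat_lit 465)) (XT.lf (nat_lit 0) (nat_lit 8186573024) (nat_lit 304) (nat_lit 1748398994) (nat_lit 0) (nat_lit 1511011334) (nat_lit 92) (nat_lit 5) (nat_lit 96) (nat_lit 4) (nat_lit 92) (nat_lit 4) (nat_lit 620) (nat_lit 476) (nat_lit 464))) (XT.nd (nat_lit 78) (nat_lit 228) (nat_lit 0) (XT.lf (nat_lit 0) (nat_lit 1963780499) (nat_lit 304) (nat_lit 3196692911) (nat_lit 76) (nat_lit 6397460986) (nat_lit 88) (nat_lit 5) (nat_lit 92) (nat_lit 5) (nat_lit 89) (nat_lit 4) (nat_lit 621) (nat_lit 476) (nat_lit 463)) (XT.lf (nat_lit 0) (nat_lit 6972025415) (nat_lit 228) (nat_lit 262605658) (nat_lit 304) (nat_lit 4437327229) (nat_lit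 85) (nat_lit 5) (nat_lit 88) (nat_lit 5) (nat_lit 89) (nat_lit 4) (nat_lit 622) (nat_lit 476) (nat_lit 462))))) (XT.nd (nat_lit 234) (nat_lit 760) (nat_lit 0) (XT.nd (nat_lit 78) (nat_lit 456) (nat_lit 0) (XT.lf (nat_lit 0) (nat_lit 830088015) (nat_lit 304) (nat_lit 6275132795) (nat_lit 76) (nat_lit 4682571699) (nat_lit 81) (nat_lit 5) (nat_lit 85) (nat_lit 5) (nat_lit 82) (nat_lit 4) (nat_lit 623) (nat_lit 476) (nat_lit 461)) (XT.nd (nat_lit 78) (nat_lit 228) (nat_lit 0) (XT.lf (nat_lit 0) (nat_lit 3985833246) (nat_lit 228) (nat_lit 2147112635) (nat_lit 304) (nat_lit 5772622139) (nat_lit 78) (nat_lit 5) (nat_lit 81) (nat_lit 5) (nat_lit 82) (nat_lit 4) (nat_lit 624) (nat_lit 476) (nat_lit 460)) (XT.lf (nat_lit 0) (nat_lit 2401299376) (nat_lit 228) (nat_lit 9147758436) (nat_lit 228) (nat_lit 476498698) (nat_lit 75) (nat_lit 4) (nat_lit 78) (nat_lit 5) (nat_lit 78) (nat_lit 4) (nat_lit 625) (nat_lit 476) (nat_lit 459)))) (XT.nd (nat_lit 156) (nat_lit 456) (nat_lit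 0) (XT.nd (nat_lit 78) (nat_lit 0) (nat_lit 0) (XT.lf (nat_lit 0) (nat_lit 728876209) (nat_lit 228) (nat_lit 4134956121) (nat_lit 304) (nat_lit 7283416506) (nat_lit 71) (nat_lit 5) (nat_lit 74) (nat_lit 5) (nat_lit 75) (nat_lit 4) (nat_lit 626) (nat_lit 476) (nat_lit 458)) (XT.lf (nat_lit 0) (nat_lit 10306613702) (nat_lit 304) (nat_lit 984065993) (nat_lit 0) (nat_lit 980593168) (nat_lit 71) (nat_lit 5) (nat_lit 75) (nat_lit 4) (nat_lit 71) (nat_lit 4) (nat_lit 627) (nat_lit 476) (nat_lit 457))) (XT.nd (nat_lit 78) (nat_lit 152) (nat_lit 0) (XT.lf (nat_lit 0) (nat_lit 3437200671) (nat_lit 304) (nat_lit 2783178756) (nat_lit 76) (nat_lit 6176507623) (nat_lit 67) (nat_lit 5) (nat_lit 71) (nat_lit 5) (nat_lit 68) (nat_lit 4) (nat_lit 628) (nat_lit 476) (nat_lit 456)) (XT.lf (nat_lit 0) (nat_lit 7880937566) (nat_lit 152) (nat_lit 1029813012) (nat_lit 228) (nat_lit 3614205274) (nat_lit 65) (nat_lit 5) (nat_lit 67) (nat_lit 5) (nat_lit 68) (nat_lit 4) (nat_lit 629)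 (nat_lit 476) (nat_lit 455)))))) (XT.nd (nat_lit 546) (nat_lit 1292) (nat_lit 0) (XT.nd (nat_lit 234) (nat_lit 608) (nat_lit 0) (XT.nd (nat_lit 78) (nat_lit 456) (nat_lit 0) (XT.lf (nat_lit 0) (nat_lit 1832427057) (nat_lit 304) (nat_lit 6596083527) (nat_lit 76) (nat_lit 4226470959) (nat_lit 61) (nat_lit 5) (nat_lit 65) (nat_lit 5) (nat_lit 62) (nat_lit 4) (nat_lit 630) (nat_lit 476) (nat_lit 454)) (XT.nd (nat_lit 78) (nat_lit 304) (nat_lit 0) (XT.lf (nat_lit 0) (nat_lit 4153786507) (nat_lit 152) (nat_lit 3183436919) (nat_lit 228) (nat_lit 5449955190) (nat_lit 59) (nat_lit 5) (nat_lit 61) (nat_lit 5) (nat_lit 62) (nat_lit 4) (nat_lit 631) (nat_lit 476) (nat_lit 453)) (XT.lf (nat_lit 0) (nat_lit 35122085) (nat_lit 304) (nat_lit 10742751524) (nat_lit 76) (nat_lit 2144034832) (nat_lit 55) (nat_lit 5) (nat_lit 59) (nat_lit 5) (nat_lit 56) (nat_lit 4) (nat_lit 632) (nat_lit 476) (nat_lit 452)))) (XT.nd (nat_lit 156) (nat_lit 456) (nat_lit 0) (XT.nd (nat_lit 78)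 (nat_lit 0) (nat_lit 0) (XT.lf (nat_lit 0) (nat_lit 88557283) (nat_lit 152) (nat_lit 5481117853) (nat_lit 228) (nat_lit 7488683372) (nat_lit 53) (nat_lit 5) (nat_lit 55) (nat_lit 5) (nat_lit 56) (nat_lit 4) (nat_lit 633) (nat_lit 476) (nat_lit 451)) (XT.lf (nat_lit 0) (nat_lit 11161058417) (nat_lit 152) (nat_lit 59189187) (nat_lit 228) (nat_lit 1977184494) (nat_lit 53) (nat_lit 5) (nat_lit 55) (nat_lit 5) (nat_lit 56) (nat_lit 4) (nat_lit 634) (nat_lit 476) (nat_lit 450))) (XT.nd (nat_lit 78) (nat_lit 152) (nat_lit 0) (XT.lf (nat_lit 0) (nat_lit 3625610173) (nat_lit 304) (nat_lit 4282932032) (nat_lit 76) (nat_lit 5429695453) (nat_lit 49) (nat_lit 5) (nat_lit 53) (nat_lit 5) (nat_lit 50) (nat_lit 4) (nat_lit 635) (nat_lit 476) (nat_lit 449)) (XT.lf (nat_lit 0) (nat_lit 6871649846) (nat_lit 152) (nat_lit 2435411441) (nat_lit 228) (nat_lit 4174676182) (nat_lit 47) (nat_lit 5) (nat_lit 49) (nat_lit 5) (nat_lit 50) (nat_lit 4) (nat_lit 636) (nat_lit 476) (nat_lit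 448))))) (XT.nd (nat_lit 312) (nat_lit 684) (nat_lit 0) (XT.nd (nat_lit 156) (nat_lit 228) (nat_lit 0) (XT.nd (nat_lit 78) (nat_lit 152) (nat_lit 0) (XT.lf (nat_lit 0) (nat_lit 1468474789) (nat_lit 228) (nat_lit 9037848177) (nat_lit 76) (nat_lit 3121318432) (nat_lit 44) (nat_lit 5) (nat_lit 47) (nat_lit 5) (nat_lit 45) (nat_lit 4) (nat_lit 637) (nat_lit 476) (nat_lit 447)) (XT.lf (nat_lit 0) (nat_lit 2192398297) (nat_lit 152) (nat_lit 4985792610) (nat_lit 228) (nat_lit 6597529552) (nat_lit 42) (nat_lit 5) (nat_lit 44) (nat_lit 5) (nat_lit 45) (nat_lit 4) (nat_lit 638) (nat_lit 476) (nat_lit 446))) (XT.nd (nat_lit 78) (nat_lit 228) (nat_lit 0) (XT.lf (nat_lit 0) (nat_lit 13002032851) (nat_lit 228) (nat_lit 280520065) (nat_lit 0) (nat_lit 644210504) (nat_lit 42) (nat_lit 5) (nat_lit 45) (nat_lit 4) (nat_lit 42) (nat_lit 4) (nat_lit 639) (nat_lit 476) (nat_lit 445)) (XT.lf (nat_lit 0) (nat_lit 4840043393) (nat_lit 228) (nat_lit 2866816522) (nat_lit 76) (nat_lit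 6372491377) (nat_lit 39) (nat_lit 5) (nat_lit 42) (nat_lit 5) (nat_lit 40) (nat_lit 4) (nat_lit 640) (nat_lit 476) (nat_lit 444)))) (XT.nd (nat_lit 156) (nat_lit 304) (nat_lit 0) (XT.nd (nat_lit 78) (nat_lit 228) (nat_lit 0) (XT.lf (nat_lit 0) (nat_lit 8694329297) (nat_lit 152) (nat_lit 2007804256) (nat_lit 228) (nat_lit 3532847954) (nat_lit 37) (nat_lit 5) (nat_lit 39) (nat_lit 5) (nat_lit 40) (nat_lit 4) (nat_lit 641) (nat_lit 476) (nat_lit 443)) (XT.lf (nat_lit 0) (nat_lit 2277534201) (nat_lit 228) (nat_lit 8339342846) (nat_lit 76) (nat_lit 3776155125) (nat_lit 34) (nat_lit 5) (nat_lit 37) (nat_lit 5) (nat_lit 35) (nat_lit 4) (nat_lit 642) (nat_lit 476) (nat_lit 442))) (XT.nd (nat_lit 78) (nat_lit 152) (nat_lit 0) (XT.lf (nat_lit 0) (nat_lit 3289647668) (nat_lit 152) (nat_lit 4875560362) (nat_lit 228) (nat_lit 6388401842) (nat_lit 32) (nat_lit 5) (nat_lit 34) (nat_lit 5) (nat_lit 35) (nat_lit 4) (nat_lit 643) (nat_lit 476) (nat_lit 441)) (XT.lf (nat_lit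 0) (nat_lit 428646821) (nat_lit 152) (nat_lit 13743869781) (nat_lit 152) (nat_lit 544845725) (nat_lit 30) (nat_lit 4) (nat_lit 32) (nat_lit 5) (nat_lit 32) (nat_lit 4) (nat_lit 644) (nat_lit 476) (nat_lit 440))))))) (XT.nd (nat_lit 78702) (nat_lit 0) (nat_lit 3876) (XT.nd (nat_lit 78156) (nat_lit 0) (nat_lit 7524) (XT.nd (nat_lit 234) (nat_lit 380) (nat_lit 0) (XT.nd (nat_lit 78) (nat_lit 304) (nat_lit 0) (XT.lf (nat_lit 0) (nat_lit 5389396769) (nat_lit 228) (nat_lit 2561319917) (nat_lit 76) (nat_lit 6932073875) (nat_lit 29) (nat_lit 5) (nat_lit 32) (nat_lit 5) (nat_lit 30) (nat_lit 4) (nat_lit 645) (nat_lit 476) (nat_lit 439)) (XT.nd (nat_lit 78) (nat_lit 228) (nat_lit 0) (XT.lf (nat_lit 0) (nat_lit 9404389687) (nat_lit 76) (nat_lit 2029416485) (nat_lit 152) (nat_lit 3617674386) (nat_lit 28) (nat_lit 5) (nat_lit 29) (nat_lit 5) (nat_lit 30) (nat_lit 4) (nat_lit 646) (nat_lit 476) (nat_lit 438)) (XT.lf (nat_lit 0) (nat_lit 2367035979) (nat_lit 228) (nat_lit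 8876540172) (nat_lit 76) (nat_lit 3979207829) (nat_lit 25) (nat_lit 5) (nat_lit 28) (nat_lit 5) (nat_lit 26) (nat_lit 4) (nat_lit 647) (nat_lit 476) (nat_lit 437)))) (XT.nd (nat_lit 156) (nat_lit 304) (nat_lit 0) (XT.nd (nat_lit 78) (nat_lit 0) (nat_lit 0) (XT.lf (nat_lit 0) (nat_lit 3146702397) (nat_lit 76) (nat_lit 5286257720) (nat_lit 152) (nat_lit 6963876625) (nat_lit 24) (nat_lit 5) (nat_lit 25) (nat_lit 5) (nat_lit 26) (nat_lit 4) (nat_lit 648) (nat_lit 476) (nat_lit 436)) (XT.lf (nat_lit 0) (nat_lit 14623312168) (nat_lit 152) (nat_lit 164246433) (nat_lit 0) (nat_lit 786750488) (nat_lit 24) (nat_lit 5) (nat_lit 26) (nat_lit 4) (nat_lit 24) (nat_lit 4) (nat_lit 649) (nat_lit 476) (nat_lit 435))) (XT.nd (nat_lit 78) (nat_lit 76) (nat_lit 0) (XT.lf (nat_lit 0) (nat_lit 5167811463) (nat_lit 228) (nat_lit 3614245222) (nat_lit 76) (nat_lit 6971529255) (nat_lit 21) (nat_lit 5) (nat_lit 24) (nat_lit 5) (nat_lit 22) (nat_lit 4) (nat_lit 650) (nat_lit 476) (nat_lit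 434)) (XT.lf (nat_lit 0) (nat_lit 8749188193) (nat_lit 76) (nat_lit 2644290511) (nat_lit 152) (nat_lit 4542900249) (nat_lit 20) (nat_lit 5) (nat_lit 21) (nat_lit 5) (nat_lit 22) (nat_lit 4) (nat_lit 651) (nat_lit 476) (nat_lit 433))))) (XT.nd (nat_lit 234) (nat_lit 1064) (nat_lit 0) (XT.nd (nat_lit 78) (nat_lit 760) (nat_lit 0) (XT.lf (nat_lit 0) (nat_lit 850698206) (nat_lit 380) (nat_lit 3330127963) (nat_lit 0) (nat_lit 850698206) (nat_lit 143) (nat_lit 5) (nat_lit 148) (nat_lit 4) (nat_lit 143) (nat_lit 4) (nat_lit 606) (nat_lit 477) (nat_lit 477)) (XT.nd (nat_lit 78) (nat_lit 380) (nat_lit 0) (XT.lf (nat_lit 0) (nat_lit 2424705312) (nat_lit 380) (nat_lit 4218821763) (nat_lit 380) (nat_lit 3507944776) (nat_lit 138) (nat_lit 4) (nat_lit 143) (nat_lit 5) (nat_lit 143) (nat_lit 4) (nat_lit 607) (nat_lit 477) (nat_lit 476)) (XT.lf (nat_lit 0) (nat_lit 1403859828) (nat_lit 380) (nat_lit 8814370694) (nat_lit 0) (nat_lit 23648838) (nat_lit 133) (nat_lit 5) (nat_lit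 138) (nat_lit 4) (nat_lit 133) (nat_lit 4) (nat_lit 608) (nat_lit 477) (nat_lit 475)))) (XT.nd (nat_lit 156) (nat_lit 684) (nat_lit 0) (XT.nd (nat_lit 78) (nat_lit 76) (nat_lit 0) (XT.lf (nat_lit 0) (nat_lit 367216937) (nat_lit 304) (nat_lit 6008166834) (nat_lit 304) (nat_lit 3958080583) (nat_lit 129) (nat_lit 4) (nat_lit 133) (nat_lit 5) (nat_lit 133) (nat_lit 4) (nat_lit 609) (nat_lit 477) (nat_lit 474)) (XT.lf (nat_lit 0) (nat_lit 991694388) (nat_lit 380) (nat_lit 703604038) (nat_lit 76) (nat_lit 8731740182) (nat_lit 128) (nat_lit 5) (nat_lit 133) (nat_lit 5) (nat_lit 129) (nat_lit 4) (nat_lit 610) (nat_lit 477) (nat_lit 473))) (XT.nd (nat_lit 78) (nat_lit 380) (nat_lit 0) (XT.lf (nat_lit 0) (nat_lit 5989387940) (nat_lit 380) (nat_lit 1828138920) (nat_lit 0) (nat_lit 2704397849) (nat_lit 124) (nat_lit 5) (nat_lit 129) (nat_lit 4) (nat_lit 124) (nat_lit 4) (nat_lit 611) (nat_lit 477) (nat_lit 472)) (XT.lf (nat_lit 0) (nat_lit 455562441) (nat_lit 380) (nat_lit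 2983615157) (nat_lit 76) (nat_lit 7179604535) (nat_lit 119) (nat_lit 5) (nat_lit 124) (nat_lit 5) (nat_lit 120) (nat_lit 4) (nat_lit 612) (nat_lit 477) (nat_lit 471)))))) (XT.nd (nat_lit 546) (nat_lit 1824) (nat_lit 0) (XT.nd (nat_lit 234) (nat_lit 988) (nat_lit 0) (XT.nd (nat_lit 78) (nat_lit 608) (nat_lit 0) (XT.lf (nat_lit 0) (nat_lit 5472456005) (nat_lit 304) (nat_lit 4194408213) (nat_lit 0) (nat_lit 1050320758) (nat_lit 116) (nat_lit 5) (nat_lit 120) (nat_lit 4) (nat_lit 116) (nat_lit 4) (nat_lit 613) (nat_lit 477) (nat_lit 470)) (XT.nd (nat_lit 78) (nat_lit 304) (nat_lit 0) (XT.lf (nat_lit 0) (nat_lit 5368867393) (nat_lit 304) (nat_lit 5226935028) (nat_lit 304) (nat_lit 221633054) (nat_lit 112) (nat_lit 4) (nat_lit 116) (nat_lit 5) (nat_lit 116) (nat_lit 4) (nat_lit 614) (nat_lit 477) (nat_lit 469)) (XT.lf (nat_lit 0) (nat_lit 4162336380) (nat_lit 228) (nat_lit 659134134) (nat_lit 304) (nat_lit 6097909053) (nat_lit 108) (nat_lit 5) (nat_lit 111) (nat_lit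 5) (nat_lit 112) (nat_lit 4) (nat_lit 615) (nat_lit 477) (nat_lit 468)))) (XT.nd (nat_lit 156) (nat_lit 380) (nat_lit 0) (XT.nd (nat_lit 78) (nat_lit 304) (nat_lit 0) (XT.lf (nat_lit 0) (nat_lit 2905432975) (nat_lit 304) (nat_lit 7067452597) (nat_lit 304) (nat_lit 1050241114) (nat_lit 104) (nat_lit 4) (nat_lit 108) (nat_lit 5) (nat_lit 108) (nat_lit 4) (nat_lit 616) (nat_lit 477) (nat_lit 467)) (XT.lf (nat_lit 0) (nat_lit 1592499495) (nat_lit 228) (nat_lit 2441395006) (nat_lit 304) (nat_lit 7094738471) (nat_lit 100) (nat_lit 5) (nat_lit 103) (nat_lit 5) (nat_lit 104) (nat_lit 4) (nat_lit 617) (nat_lit 477) (nat_lit 466))) (XT.nd (nat_lit 78) (nat_lit 76) (nat_lit 0) (XT.lf (nat_lit 0) (nat_lit 230594005) (nat_lit 304) (nat_lit 8975383031) (nat_lit 304) (nat_lit 2030128649) (nat_lit 96) (nat_lit 4) (nat_lit 100) (nat_lit 5) (nat_lit 100) (nat_lit 4) (nat_lit 618) (nat_lit 477) (nat_lit 465)) (XT.lf (nat_lit 0) (nat_lit 3104562654) (nat_lit 380) (nat_lit 1181719551)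 (nat_lit 76) (nat_lit 7058841766) (nat_lit 95) (nat_lit 5) (nat_lit 100) (nat_lit 5) (nat_lit 96) (nat_lit 4) (nat_lit 619) (nat_lit 477) (nat_lit 464))))) (XT.nd (nat_lit 312) (nat_lit 760) (nat_lit 0) (XT.nd (nat_lit 156) (nat_lit 532) (nat_lit 0) (XT.nd (nat_lit 78) (nat_lit 304) (nat_lit 0) (XT.lf (nat_lit 0) (nat_lit 8306142260) (nat_lit 304) (nat_lit 2638711689) (nat_lit 0) (nat_lit 511374319) (nat_lit 92) (nat_lit 5) (nat_lit 96) (nat_lit 4) (nat_lit 92) (nat_lit 4) (nat_lit 620) (nat_lit 477) (nat_lit 463)) (XT.lf (nat_lit 0) (nat_lit 2030983439) (nat_lit 304) (nat_lit 4170581227) (nat_lit 76) (nat_lit 5367414955) (nat_lit 88) (nat_lit 5) (nat_lit 92) (nat_lit 5) (nat_lit 89) (nat_lit 4) (nat_lit 621) (nat_lit 477) (nat_lit 462))) (XT.nd (nat_lit 78) (nat_lit 304) (nat_lit 0) (XT.lf (nat_lit 0) (nat_lit 5924883290) (nat_lit 228) (nat_lit 1336042704) (nat_lit 304) (nat_lit 4422896434) (nat_lit 85) (nat_lit 5) (nat_lit 88) (nat_lit 5) (nat_lit 89) (nat_lit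 4) (nat_lit 622) (nat_lit 477) (nat_lit 461)) (XT.lf (nat_lit 0) (nat_lit 795737347) (nat_lit 304) (nat_lit 7414189188) (nat_lit 76) (nat_lit 3590700780) (nat_lit 81) (nat_lit 5) (nat_lit 85) (nat_lit 5) (nat_lit 82) (nat_lit 4) (nat_lit 623) (nat_lit 477) (nat_lit 460)))) (XT.nd (nat_lit 156) (nat_lit 304) (nat_lit 0) (XT.nd (nat_lit 78) (nat_lit 228) (nat_lit 0) (XT.lf (nat_lit 0) (nat_lit 2771145068) (nat_lit 228) (nat_lit 3285632752) (nat_lit 304) (nat_lit 5862462052) (nat_lit 78) (nat_lit 5) (nat_lit 81) (nat_lit 5) (nat_lit 82) (nat_lit 4) (nat_lit 624) (nat_lit 477) (nat_lit 459)) (XT.lf (nat_lit 0) (nat_lit 1103495167) (nat_lit 228) (nat_lit 10319759175) (nat_lit 228) (nat_lit 616967413) (nat_lit 75) (nat_lit 4) (nat_lit 78) (nat_lit 5) (nat_lit 78) (nat_lit 4) (nat_lit 625) (nat_lit 477) (nat_lit 458))) (XT.nd (nat_lit 78) (nat_lit 228) (nat_lit 0) (XT.lf (nat_lit 0) (nat_lit 4686710862) (nat_lit 304) (nat_lit 652111665) (nat_lit 76) (nat_lit 6823880352)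 (nat_lit 74) (nat_lit 5) (nat_lit 78) (nat_lit 5) (nat_lit 75) (nat_lit 4) (nat_lit 626) (nat_lit 477) (nat_lit 457)) (XT.lf (nat_lit 0) (nat_lit 9844655864) (nat_lit 228) (nat_lit 240608057) (nat_lit 304) (nat_lit 2202348194) (nat_lit 71) (nat_lit 5) (nat_lit 74) (nat_lit 5) (nat_lit 75) (nat_lit 4) (nat_lit 627) (nat_lit 477) (nat_lit 456))))))))
noncomputable def xc9 : XT := (XT.nd (nat_lit 79716) (nat_lit 0) (nat_lit 1824) (XT.nd (nat_lit 1092) (nat_lit 1292) (nat_lit 0) (XT.nd (nat_lit 546) (nat_lit 1216) (nat_lit 0) (XT.nd (nat_lit 234) (nat_lit 608) (nat_lit 0) (XT.nd (nat_lit 78) (nat_lit 456) (nat_lit 0) (XT.lf (nat_lit 0) (nat_lit 3157801036) (nat_lit 304) (nat_lit 4334850572) (nat_lit 76) (nat_lit 4921502739) (nat_lit 67) (nat_lit 5) (nat_lit 71) (nat_lit 5) (nat_lit 68) (nat_lit 4) (nat_lit 628) (nat_lit 477) (nat_lit 455)) (XT.nd (nat_lit 78) (nat_lit 304) (nat_lit 0) (XT.lf (nat_lit 0) (nat_lit 6249008348) (nat_lit 152) (nat_lit 2338801709) (nat_lit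 228) (nat_lit 3955284515) (nat_lit 65) (nat_lit 5) (nat_lit 67) (nat_lit 5) (nat_lit 68) (nat_lit 4) (nat_lit 629) (nat_lit 477) (nat_lit 454)) (XT.lf (nat_lit 0) (nat_lit 1442939796) (nat_lit 304) (nat_lit 8335833153) (nat_lit 76) (nat_lit 2895449815) (nat_lit 61) (nat_lit 5) (nat_lit 65) (nat_lit 5) (nat_lit 62) (nat_lit 4) (nat_lit 630) (nat_lit 477) (nat_lit 453)))) (XT.nd (nat_lit 156) (nat_lit 228) (nat_lit 0) (XT.nd (nat_lit 78) (nat_lit 228) (nat_lit 0) (XT.lf (nat_lit 0) (nat_lit 2331129916) (nat_lit 152) (nat_lit 4571973422) (nat_lit 228) (nat_lit 5904209728) (nat_lit 59) (nat_lit 5) (nat_lit 61) (nat_lit 5) (nat_lit 62) (nat_lit 4) (nat_lit 631) (nat_lit 477) (nat_lit 452)) (XT.lf (nat_lit 0) (nat_lit 261365297) (nat_lit 228) (nat_lit 12207842419) (nat_lit 228) (nat_lit 473923839) (nat_lit 56) (nat_lit 4) (nat_lit 59) (nat_lit 5) (nat_lit 59) (nat_lit 4) (nat_lit 632) (nat_lit 477) (nat_lit 451))) (XT.nd (nat_lit 78) (nat_lit 152) (nat_lit 0) (XT.lf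 (nat_lit 0) (nat_lit 5033608848) (nat_lit 304) (nat_lit 1907683957) (nat_lit 76) (nat_lit 6139015616) (nat_lit 55) (nat_lit 5) (nat_lit 59) (nat_lit 5) (nat_lit 56) (nat_lit 4) (nat_lit 633) (nat_lit 477) (nat_lit 450)) (XT.lf (nat_lit 0) (nat_lit 9080712062) (nat_lit 152) (nat_lit 1558516661) (nat_lit 228) (nat_lit 2581052869) (nat_lit 53) (nat_lit 5) (nat_lit 55) (nat_lit 5) (nat_lit 56) (nat_lit 4) (nat_lit 634) (nat_lit 477) (nat_lit 449))))) (XT.nd (nat_lit 234) (nat_lit 532) (nat_lit 0) (XT.nd (nat_lit 78) (nat_lit 380) (nat_lit 0) (XT.lf (nat_lit 0) (nat_lit 2973467562) (nat_lit 304) (nat_lit 6482731131) (nat_lit 76) (nat_lit 3906091261) (nat_lit 49) (nat_lit 5) (nat_lit 53) (nat_lit 5) (nat_lit 50) (nat_lit 4) (nat_lit 635) (nat_lit 477) (nat_lit 448)) (XT.nd (nat_lit 78) (nat_lit 228) (nat_lit 0) (XT.lf (nat_lit 0) (nat_lit 4583732900) (nat_lit 152) (nat_lit 4024437965) (nat_lit 228) (nat_lit 4898554355) (nat_lit 47) (nat_lit 5) (nat_lit 49) (nat_lit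 5) (nat_lit 50) (nat_lit 4) (nat_lit 636) (nat_lit 477) (nat_lit 447)) (XT.lf (nat_lit 0) (nat_lit 696047634) (nat_lit 228) (nat_lit 11451062147) (nat_lit 76) (nat_lit 1506774701) (nat_lit 44) (nat_lit 5) (nat_lit 47) (nat_lit 5) (nat_lit 45) (nat_lit 4) (nat_lit 637) (nat_lit 477) (nat_lit 446)))) (XT.nd (nat_lit 156) (nat_lit 380) (nat_lit 0) (XT.nd (nat_lit 78) (nat_lit 152) (nat_lit 0) (XT.lf (nat_lit 0) (nat_lit 6359756200) (nat_lit 228) (nat_lit 307802299) (nat_lit 76) (nat_lit 7135325664) (nat_lit 44) (nat_lit 5) (nat_lit 47) (nat_lit 5) (nat_lit 45) (nat_lit 4) (nat_lit 638) (nat_lit 477) (nat_lit 445)) (XT.lf (nat_lit 0) (nat_lit 11088425401) (nat_lit 152) (nat_lit 1057383852) (nat_lit 228) (nat_lit 1808874109) (nat_lit 42) (nat_lit 5) (nat_lit 44) (nat_lit 5) (nat_lit 45) (nat_lit 4) (nat_lit 639) (nat_lit 477) (nat_lit 444))) (XT.nd (nat_lit 78) (nat_lit 152) (nat_lit 0) (XT.lf (nat_lit 0) (nat_lit 3911846340) (nat_lit 228) (nat_lit 5560806787)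 (nat_lit 76) (nat_lit 4635846342) (nat_lit 39) (nat_lit 5) (nat_lit 42) (nat_lit 5) (nat_lit 40) (nat_lit 4) (nat_lit 640) (nat_lit 477) (nat_lit 443)) (XT.lf (nat_lit 0) (nat_lit 5906573739) (nat_lit 152) (nat_lit 3818223698) (nat_lit 228) (nat_lit 4540315463) (nat_lit 37) (nat_lit 5) (nat_lit 39) (nat_lit 5) (nat_lit 40) (nat_lit 4) (nat_lit 641) (nat_lit 477) (nat_lit 442)))))) (XT.nd (nat_lit 546) (nat_lit 380) (nat_lit 0) (XT.nd (nat_lit 234) (nat_lit 532) (nat_lit 0) (XT.nd (nat_lit 78) (nat_lit 152) (nat_lit 0) (XT.lf (nat_lit 0) (nat_lit 1221310611) (nat_lit 228) (nat_lit 11265217190) (nat_lit 76) (nat_lit 1938006386) (nat_lit 34) (nat_lit 5) (nat_lit 37) (nat_lit 5) (nat_lit 35) (nat_lit 4) (nat_lit 642) (nat_lit 477) (nat_lit 441)) (XT.nd (nat_lit 78) (nat_lit 0) (nat_lit 0) (XT.lf (nat_lit 0) (nat_lit 266819212) (nat_lit 152) (nat_lit 6791604461) (nat_lit 228) (nat_lit 7527699840) (nat_lit 32) (nat_lit 5) (nat_lit 34) (nat_lit 5) (nat_lit 35) (nat_lit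 4) (nat_lit 643) (nat_lit 477) (nat_lit 440)) (XT.lf (nat_lit 0) (nat_lit 12067196408) (nat_lit 152) (nat_lit 958668889) (nat_lit 228) (nat_lit 1724808410) (nat_lit 32) (nat_lit 5) (nat_lit 34) (nat_lit 5) (nat_lit 35) (nat_lit 4) (nat_lit 644) (nat_lit 477) (nat_lit 439)))) (XT.nd (nat_lit 156) (nat_lit 228) (nat_lit 0) (XT.nd (nat_lit 78) (nat_lit 76) (nat_lit 0) (XT.lf (nat_lit 0) (nat_lit 4170077774) (nat_lit 228) (nat_lit 5786177042) (nat_lit 76) (nat_lit 4961097367) (nat_lit 29) (nat_lit 5) (nat_lit 32) (nat_lit 5) (nat_lit 30) (nat_lit 4) (nat_lit 645) (nat_lit 477) (nat_lit 438)) (XT.lf (nat_lit 0) (nat_lit 6079644734) (nat_lit 76) (nat_lit 4083024576) (nat_lit 152) (nat_lit 4924409605) (nat_lit 28) (nat_lit 5) (nat_lit 29) (nat_lit 5) (nat_lit 30) (nat_lit 4) (nat_lit 646) (nat_lit 477) (nat_lit 437))) (XT.nd (nat_lit 78) (nat_lit 0) (nat_lit 0) (XT.lf (nat_lit 0) (nat_lit 1011108299) (nat_lit 228) (nat_lit 12353120006) (nat_lit 76) (nat_lit 1895650688)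 (nat_lit 25) (nat_lit 5) (nat_lit 28) (nat_lit 5) (nat_lit 26) (nat_lit 4) (nat_lit 647) (nat_lit 477) (nat_lit 436)) (XT.lf (nat_lit 0) (nat_lit 7026461553) (nat_lit 228) (nat_lit 427522305) (nat_lit 76) (nat_lit 7980959670) (nat_lit 25) (nat_lit 5) (nat_lit 28) (nat_lit 5) (nat_lit 26) (nat_lit 4) (nat_lit 648) (nat_lit 477) (nat_lit 435))))) (XT.nd (nat_lit 77766) (nat_lit 0) (nat_lit 8588) (XT.nd (nat_lit 156) (nat_lit 76) (nat_lit 0) (XT.nd (nat_lit 78) (nat_lit 228) (nat_lit 0) (XT.lf (nat_lit 0) (nat_lit 11779431505) (nat_lit 76) (nat_lit 1399480426) (nat_lit 152) (nat_lit 2434262327) (nat_lit 24) (nat_lit 5) (nat_lit 25) (nat_lit 5) (nat_lit 26) (nat_lit 4) (nat_lit 649) (nat_lit 477) (nat_lit 434)) (XT.lf (nat_lit 0) (nat_lit 3640557052) (nat_lit 228) (nat_lit 7409440731) (nat_lit 76) (nat_lit 4743915115) (nat_lit 21) (nat_lit 5) (nat_lit 24) (nat_lit 5) (nat_lit 22) (nat_lit 4) (nat_lit 650) (nat_lit 477) (nat_lit 433))) (XT.nd (nat_lit 77532) (nat_lit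 0) (nat_lit 10108) (XT.lf (nat_lit 0) (nat_lit 4847465905) (nat_lit 76) (nat_lit 4963960483) (nat_lit 152) (nat_lit 6166375809) (nat_lit 20) (nat_lit 5) (nat_lit 21) (nat_lit 5) (nat_lit 22) (nat_lit 4) (nat_lit 651) (nat_lit 477) (nat_lit 432)) (XT.lf (nat_lit 0) (nat_lit 1324335085) (nat_lit 380) (nat_lit 2296321294) (nat_lit 0) (nat_lit 1324335085) (nat_lit 153) (nat_lit 5) (nat_lit 158) (nat_lit 4) (nat_lit 153) (nat_lit 4) (nat_lit 604) (nat_lit 478) (nat_lit 478)))) (XT.nd (nat_lit 156) (nat_lit 760) (nat_lit 0) (XT.nd (nat_lit 78) (nat_lit 380) (nat_lit 0) (XT.lf (nat_lit 0) (nat_lit 4335317822) (nat_lit 380) (nat_lit 3190157909) (nat_lit 380) (nat_lit 2450561492) (nat_lit 148) (nat_lit 4) (nat_lit 153) (nat_lit 5) (nat_lit 153) (nat_lit 4) (nat_lit 605) (nat_lit 478) (nat_lit 477)) (XT.lf (nat_lit 0) (nat_lit 2389534002) (nat_lit 380) (nat_lit 6720692544) (nat_lit 0) (nat_lit 953562488) (nat_lit 143) (nat_lit 5) (nat_lit 148) (nat_lit 4) (nat_lit 143)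 (nat_lit 4) (nat_lit 606) (nat_lit 478) (nat_lit 476))) (XT.nd (nat_lit 78) (nat_lit 380) (nat_lit 0) (XT.lf (nat_lit 0) (nat_lit 2303426515) (nat_lit 380) (nat_lit 4991218436) (nat_lit 380) (nat_lit 2858308700) (nat_lit 138) (nat_lit 4) (nat_lit 143) (nat_lit 5) (nat_lit 143) (nat_lit 4) (nat_lit 607) (nat_lit 478) (nat_lit 475)) (XT.lf (nat_lit 0) (nat_lit 1238869610) (nat_lit 304) (nat_lit 768581930) (nat_lit 380) (nat_lit 8236576825) (nat_lit 133) (nat_lit 5) (nat_lit 137) (nat_lit 5) (nat_lit 138) (nat_lit 4) (nat_lit 608) (nat_lit 478) (nat_lit 474))))))) (XT.nd (nat_lit 1170) (nat_lit 2812) (nat_lit 0) (XT.nd (nat_lit 546) (nat_lit 2052) (nat_lit 0) (XT.nd (nat_lit 234) (nat_lit 1216) (nat_lit 0) (XT.nd (nat_lit 78) (nat_lit 380) (nat_lit 0) (XT.lf (nat_lit 0) (nat_lit 118638935) (nat_lit 304) (nat_lit 6817765299) (nat_lit 304) (nat_lit 3400061608) (nat_lit 129) (nat_lit 4) (nat_lit 133) (nat_lit 5) (nat_lit 133) (nat_lit 4) (nat_lit 609) (nat_lit 478)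 (nat_lit 473)) (XT.nd (nat_lit 78) (nat_lit 304) (nat_lit 0) (XT.lf (nat_lit 0) (nat_lit 1506511921) (nat_lit 380) (nat_lit 1018412799) (nat_lit 76) (nat_lit 7905761591) (nat_lit 128) (nat_lit 5) (nat_lit 133) (nat_lit 5) (nat_lit 129) (nat_lit 4) (nat_lit 610) (nat_lit 478) (nat_lit 472)) (XT.lf (nat_lit 0) (nat_lit 6461016815) (nat_lit 380) (nat_lit 2205193061) (nat_lit 0) (nat_lit 1860227304) (nat_lit 124) (nat_lit 5) (nat_lit 129) (nat_lit 4) (nat_lit 124) (nat_lit 4) (nat_lit 611) (nat_lit 478) (nat_lit 471)))) (XT.nd (nat_lit 156) (nat_lit 608) (nat_lit 0) (XT.nd (nat_lit 78) (nat_lit 228) (nat_lit 0) (XT.lf (nat_lit 0) (nat_lit 878417525) (nat_lit 380) (nat_lit 3433112773) (nat_lit 76) (nat_lit 6312467307) (nat_lit 119) (nat_lit 5) (nat_lit 124) (nat_lit 5) (nat_lit 120) (nat_lit 4) (nat_lit 612) (nat_lit 478) (nat_lit 470)) (XT.lf (nat_lit 0) (nat_lit 5851188461) (nat_lit 304) (nat_lit 4709481659) (nat_lit 0) (nat_lit 162613719) (nat_lit 116) (nat_lit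 5) (nat_lit 120) (nat_lit 4) (nat_lit 116) (nat_lit 4) (nat_lit 613) (nat_lit 478) (nat_lit 469))) (XT.nd (nat_lit 78) (nat_lit 228) (nat_lit 0) (XT.lf (nat_lit 0) (nat_lit 110201938) (nat_lit 380) (nat_lit 6037698911) (nat_lit 76) (nat_lit 4676391147) (nat_lit 111) (nat_lit 5) (nat_lit 116) (nat_lit 5) (nat_lit 112) (nat_lit 4) (nat_lit 614) (nat_lit 478) (nat_lit 468)) (XT.lf (nat_lit 0) (nat_lit 3504225776) (nat_lit 228) (nat_lit 1607187222) (nat_lit 304) (nat_lit 5815574911) (nat_lit 108) (nat_lit 5) (nat_lit 111) (nat_lit 5) (nat_lit 112) (nat_lit 4) (nat_lit 615) (nat_lit 478) (nat_lit 467))))) (XT.nd (nat_lit 312) (nat_lit 1064) (nat_lit 0) (XT.nd (nat_lit 156) (nat_lit 380) (nat_lit 0) (XT.nd (nat_lit 78) (nat_lit 304) (nat_lit 0) (XT.lf (nat_lit 0) (nat_lit 2177264805) (nat_lit 304) (nat_lit 8040111393) (nat_lit 304) (nat_lit 814268734) (nat_lit 104) (nat_lit 4) (nat_lit 108) (nat_lit 5) (nat_lit 108) (nat_lit 4) (nat_lit 616) (nat_lit 478) (nat_lit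 466)) (XT.lf (nat_lit 0) (nat_lit 784559352) (nat_lit 228) (nat_lit 3442467421) (nat_lit 304) (nat_lit 6910889541) (nat_lit 100) (nat_lit 5) (nat_lit 103) (nat_lit 5) (nat_lit 104) (nat_lit 4) (nat_lit 617) (nat_lit 478) (nat_lit 465))) (XT.nd (nat_lit 78) (nat_lit 380) (nat_lit 0) (XT.lf (nat_lit 0) (nat_lit 9356748742) (nat_lit 304) (nat_lit 642416139) (nat_lit 0) (nat_lit 1247072176) (nat_lit 100) (nat_lit 5) (nat_lit 104) (nat_lit 4) (nat_lit 100) (nat_lit 4) (nat_lit 618) (nat_lit 478) (nat_lit 464)) (XT.lf (nat_lit 0) (nat_lit 3204805408) (nat_lit 380) (nat_lit 2133696828) (nat_lit 76) (nat_lit 6017506691) (nat_lit 95) (nat_lit 5) (nat_lit 100) (nat_lit 5) (nat_lit 96) (nat_lit 4) (nat_lit 619) (nat_lit 478) (nat_lit 463)))) (XT.nd (nat_lit 156) (nat_lit 532) (nat_lit 0) (XT.nd (nat_lit 78) (nat_lit 304) (nat_lit 0) (XT.lf (nat_lit 0) (nat_lit 7797381218) (nat_lit 228) (nat_lit 565367692) (nat_lit 304) (nat_lit 3105237805) (nat_lit 92) (nat_lit 5) (nat_lit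 95) (nat_lit 5) (nat_lit 96) (nat_lit 4) (nat_lit 620) (nat_lit 478) (nat_lit 462)) (XT.lf (nat_lit 0) (nat_lit 2030629697) (nat_lit 304) (nat_lit 5284178420) (nat_lit 76) (nat_lit 4266817144) (nat_lit 88) (nat_lit 5) (nat_lit 92) (nat_lit 5) (nat_lit 89) (nat_lit 4) (nat_lit 621) (nat_lit 478) (nat_lit 461))) (XT.nd (nat_lit 78) (nat_lit 304) (nat_lit 0) (XT.lf (nat_lit 0) (nat_lit 4737358206) (nat_lit 228) (nat_lit 2482063377) (nat_lit 304) (nat_lit 4477870222) (nat_lit 85) (nat_lit 5) (nat_lit 88) (nat_lit 5) (nat_lit 89) (nat_lit 4) (nat_lit 622) (nat_lit 478) (nat_lit 460)) (XT.lf (nat_lit 0) (nat_lit 692159386) (nat_lit 304) (nat_lit 8696622590) (nat_lit 76) (nat_lit 2426309058) (nat_lit 81) (nat_lit 5) (nat_lit 85) (nat_lit 5) (nat_lit 82) (nat_lit 4) (nat_lit 623) (nat_lit 478) (nat_lit 459)))))) (XT.nd (nat_lit 546) (nat_lit 1292) (nat_lit 0) (XT.nd (nat_lit 234) (nat_lit 988) (nat_lit 0) (XT.nd (nat_lit 78) (nat_lit 304) (nat_lit 0) (XT.lf (nat_lit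 0) (nat_lit 1412360640) (nat_lit 228) (nat_lit 4498751567) (nat_lit 304) (nat_lit 6023433819) (nat_lit 78) (nat_lit 5) (nat_lit 81) (nat_lit 5) (nat_lit 82) (nat_lit 4) (nat_lit 624) (nat_lit 478) (nat_lit 458)) (XT.nd (nat_lit 78) (nat_lit 304) (nat_lit 0) (XT.lf (nat_lit 0) (nat_lit 11229393642) (nat_lit 304) (nat_lit 335834003) (nat_lit 0) (nat_lit 491264837) (nat_lit 78) (nat_lit 5) (nat_lit 82) (nat_lit 4) (nat_lit 78) (nat_lit 4) (nat_lit 625) (nat_lit 478) (nat_lit 457)) (XT.lf (nat_lit 0) (nat_lit 4444010613) (nat_lit 304) (nat_lit 2169537015) (nat_lit 76) (nat_lit 5566160402) (nat_lit 74) (nat_lit 5) (nat_lit 78) (nat_lit 5) (nat_lit 75) (nat_lit 4) (nat_lit 626) (nat_lit 478) (nat_lit 456)))) (XT.nd (nat_lit 156) (nat_lit 456) (nat_lit 0) (XT.nd (nat_lit 78) (nat_lit 304) (nat_lit 0) (XT.lf (nat_lit 0) (nat_lit 8248753743) (nat_lit 228) (nat_lit 1550996642) (nat_lit 304) (nat_lit 2505723781) (nat_lit 71) (nat_lit 5) (nat_lit 74) (nat_lit 5) (nat_lit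 75) (nat_lit 4) (nat_lit 627) (nat_lit 478) (nat_lit 455)) (XT.lf (nat_lit 0) (nat_lit 2806263864) (nat_lit 304) (nat_lit 6036441625) (nat_lit 76) (nat_lit 3590393716) (nat_lit 67) (nat_lit 5) (nat_lit 71) (nat_lit 5) (nat_lit 68) (nat_lit 4) (nat_lit 628) (nat_lit 478) (nat_lit 454))) (XT.nd (nat_lit 78) (nat_lit 304) (nat_lit 0) (XT.lf (nat_lit 0) (nat_lit 4466336887) (nat_lit 152) (nat_lit 3726062382) (nat_lit 228) (nat_lit 4370518231) (nat_lit 65) (nat_lit 5) (nat_lit 67) (nat_lit 5) (nat_lit 68) (nat_lit 4) (nat_lit 629) (nat_lit 478) (nat_lit 453)) (XT.lf (nat_lit 0) (nat_lit 979408949) (nat_lit 304) (nat_lit 10229562813) (nat_lit 76) (nat_lit 1486203280) (nat_lit 61) (nat_lit 5) (nat_lit 65) (nat_lit 5) (nat_lit 62) (nat_lit 4) (nat_lit 630) (nat_lit 478) (nat_lit 452))))) (XT.nd (nat_lit 312) (nat_lit 684) (nat_lit 0) (XT.nd (nat_lit 156) (nat_lit 456) (nat_lit 0) (XT.nd (nat_lit 78) (nat_lit 0) (nat_lit 0) (XT.lf (nat_lit 0) (nat_lit 353619264) (nat_lit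 152) (nat_lit 6040958100) (nat_lit 228) (nat_lit 6434588443) (nat_lit 59) (nat_lit 5) (nat_lit 61) (nat_lit 5) (nat_lit 62) (nat_lit 4) (nat_lit 631) (nat_lit 478) (nat_lit 451)) (XT.lf (nat_lit 0) (nat_lit 11171050057) (nat_lit 152) (nat_lit 751210055) (nat_lit 228) (nat_lit 1043493169) (nat_lit 59) (nat_lit 5) (nat_lit 61) (nat_lit 5) (nat_lit 62) (nat_lit 4) (nat_lit 632) (nat_lit 478) (nat_lit 450))) (XT.nd (nat_lit 78) (nat_lit 152) (nat_lit 0) (XT.lf (nat_lit 0) (nat_lit 4422726141) (nat_lit 304) (nat_lit 4059789881) (nat_lit 76) (nat_lit 4621464280) (nat_lit 55) (nat_lit 5) (nat_lit 59) (nat_lit 5) (nat_lit 56) (nat_lit 4) (nat_lit 633) (nat_lit 478) (nat_lit 449)) (XT.lf (nat_lit 0) (nat_lit 6842404805) (nat_lit 152) (nat_lit 3140015914) (nat_lit 228) (nat_lit 3262451778) (nat_lit 53) (nat_lit 5) (nat_lit 55) (nat_lit 5) (nat_lit 56) (nat_lit 4) (nat_lit 634) (nat_lit 478) (nat_lit 448)))) (XT.nd (nat_lit 156) (nat_lit 228) (nat_lit 0) (XT.nd (nat_lit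 78) (nat_lit 152) (nat_lit 0) (XT.lf (nat_lit 0) (nat_lit 2243857963) (nat_lit 304) (nat_lit 8843911249) (nat_lit 76) (nat_lit 2300343575) (nat_lit 49) (nat_lit 5) (nat_lit 53) (nat_lit 5) (nat_lit 50) (nat_lit 4) (nat_lit 635) (nat_lit 478) (nat_lit 447)) (XT.lf (nat_lit 0) (nat_lit 2133444849) (nat_lit 152) (nat_lit 5697939740) (nat_lit 228) (nat_lit 5702107485) (nat_lit 47) (nat_lit 5) (nat_lit 49) (nat_lit 5) (nat_lit 50) (nat_lit 4) (nat_lit 636) (nat_lit 478) (nat_lit 446))) (XT.nd (nat_lit 78) (nat_lit 228) (nat_lit 0) (XT.lf (nat_lit 0) (nat_lit 13335903372) (nat_lit 152) (nat_lit 191440924) (nat_lit 228) (nat_lit 154501968) (nat_lit 47) (nat_lit 5) (nat_lit 49) (nat_lit 5) (nat_lit 50) (nat_lit 4) (nat_lit 637) (nat_lit 478) (nat_lit 445)) (XT.lf (nat_lit 0) (nat_lit 5476548897) (nat_lit 228) (nat_lit 2944002173) (nat_lit 76) (nat_lit 5411009080) (nat_lit 44) (nat_lit 5) (nat_lit 47) (nat_lit 5) (nat_lit 45) (nat_lit 4) (nat_lit 638) (nat_lit 478)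 (nat_lit 444))))))))
noncomputable def xc10 : XT := (XT.nd (nat_lit 79560) (nat_lit 0) (nat_lit 684) (XT.nd (nat_lit 78390) (nat_lit 0) (nat_lit 6308) (XT.nd (nat_lit 546) (nat_lit 684) (nat_lit 0) (XT.nd (nat_lit 234) (nat_lit 608) (nat_lit 0) (XT.nd (nat_lit 78) (nat_lit 380) (nat_lit 0) (XT.lf (nat_lit 0) (nat_lit 8360476311) (nat_lit 152) (nat_lit 2853874721) (nat_lit 228) (nat_lit 2769973785) (nat_lit 42) (nat_lit 5) (nat_lit 44) (nat_lit 5) (nat_lit 45) (nat_lit 4) (nat_lit 639) (nat_lit 478) (nat_lit 443)) (XT.nd (nat_lit 78) (nat_lit 152) (nat_lit 0) (XT.lf (nat_lit 0) (nat_lit 2902386354) (nat_lit 228) (nat_lit 8424227681) (nat_lit 76) (nat_lit 2812871431) (nat_lit 39) (nat_lit 5) (nat_lit 42) (nat_lit 5) (nat_lit 40) (nat_lit 4) (nat_lit 640) (nat_lit 478) (nat_lit 442)) (XT.lf (nat_lit 0) (nat_lit 2948272449) (nat_lit 152) (nat_lit 5717427254) (nat_lit 228) (nat_lit 5631392374) (nat_lit 37) (nat_lit 5) (nat_lit 39) (nat_lit 5) (nat_lit 40) (nat_lit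 4) (nat_lit 641) (nat_lit 478) (nat_lit 441)))) (XT.nd (nat_lit 156) (nat_lit 380) (nat_lit 0) (XT.nd (nat_lit 78) (nat_lit 0) (nat_lit 0) (XT.lf (nat_lit 0) (nat_lit 81474738) (nat_lit 228) (nat_lit 14365373550) (nat_lit 76) (nat_lit 11068538) (nat_lit 34) (nat_lit 5) (nat_lit 37) (nat_lit 5) (nat_lit 35) (nat_lit 4) (nat_lit 642) (nat_lit 478) (nat_lit 440)) (XT.lf (nat_lit 0) (nat_lit 5886527432) (nat_lit 228) (nat_lit 2893021992) (nat_lit 76) (nat_lit 5840598335) (nat_lit 34) (nat_lit 5) (nat_lit 37) (nat_lit 5) (nat_lit 35) (nat_lit 4) (nat_lit 643) (nat_lit 478) (nat_lit 439))) (XT.nd (nat_lit 78) (nat_lit 228) (nat_lit 0) (XT.lf (nat_lit 0) (nat_lit 8813092642) (nat_lit 152) (nat_lit 2991747647) (nat_lit 228) (nat_lit 2980840632) (nat_lit 32) (nat_lit 5) (nat_lit 34) (nat_lit 5) (nat_lit 35) (nat_lit 4) (nat_lit 644) (nat_lit 478) (nat_lit 438)) (XT.lf (nat_lit 0) (nat_lit 2865304936) (nat_lit 228) (nat_lit 9189223375) (nat_lit 76) (nat_lit 2899298838)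 (nat_lit 29) (nat_lit 5) (nat_lit 32) (nat_lit 5) (nat_lit 30) (nat_lit 4) (nat_lit 645) (nat_lit 478) (nat_lit 437))))) (XT.nd (nat_lit 234) (nat_lit 380) (nat_lit 0) (XT.nd (nat_lit 78) (nat_lit 228) (nat_lit 0) (XT.lf (nat_lit 0) (nat_lit 2575460789) (nat_lit 76) (nat_lit 6230045551) (nat_lit 152) (nat_lit 6319095713) (nat_lit 28) (nat_lit 5) (nat_lit 29) (nat_lit 5) (nat_lit 30) (nat_lit 4) (nat_lit 646) (nat_lit 478) (nat_lit 436)) (XT.nd (nat_lit 78) (nat_lit 228) (nat_lit 0) (XT.lf (nat_lit 0) (nat_lit 14589271477) (nat_lit 76) (nat_lit 277489754) (nat_lit 152) (nat_lit 431986970) (nat_lit 28) (nat_lit 5) (nat_lit 29) (nat_lit 5) (nat_lit 30) (nat_lit 4) (nat_lit 647) (nat_lit 478) (nat_lit 435)) (XT.lf (nat_lit 0) (nat_lit 5552982283) (nat_lit 228) (nat_lit 4142781749) (nat_lit 76) (nat_lit 5778826139) (nat_lit 25) (nat_lit 5) (nat_lit 28) (nat_lit 5) (nat_lit 26) (nat_lit 4) (nat_lit 648) (nat_lit 478) (nat_lit 434)))) (XT.nd (nat_lit 156) (nat_lit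 76) (nat_lit 0) (XT.nd (nat_lit 78) (nat_lit 228) (nat_lit 0) (XT.lf (nat_lit 0) (nat_lit 7959891933) (nat_lit 76) (nat_lit 3691771727) (nat_lit 152) (nat_lit 4002232962) (nat_lit 24) (nat_lit 5) (nat_lit 25) (nat_lit 5) (nat_lit 26) (nat_lit 4) (nat_lit 649) (nat_lit 478) (nat_lit 433)) (XT.lf (nat_lit 0) (nat_lit 2023237574) (nat_lit 228) (nat_lit 11392357231) (nat_lit 76) (nat_lit 2420642653) (nat_lit 21) (nat_lit 5) (nat_lit 24) (nat_lit 5) (nat_lit 22) (nat_lit 4) (nat_lit 650) (nat_lit 478) (nat_lit 432))) (XT.nd (nat_lit 77376) (nat_lit 0) (nat_lit 10868) (XT.lf (nat_lit 0) (nat_lit 756627728) (nat_lit 76) (nat_lit 7382031162) (nat_lit 152) (nat_lit 7882577149) (nat_lit 20) (nat_lit 5) (nat_lit 21) (nat_lit 5) (nat_lit 22) (nat_lit 4) (nat_lit 651) (nat_lit 478) (nat_lit 431)) (XT.lf (nat_lit 0) (nat_lit 1794511537) (nat_lit 456) (nat_lit 1271901676) (nat_lit 0) (nat_lit 1794511537) (nat_lit 163) (nat_lit 5) (nat_lit 169) (nat_lit 4) (nat_lit 163) (nat_lit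 4) (nat_lit 602) (nat_lit 479) (nat_lit 479)))))) (XT.nd (nat_lit 546) (nat_lit 2280) (nat_lit 0) (XT.nd (nat_lit 234) (nat_lit 1140) (nat_lit 0) (XT.nd (nat_lit 78) (nat_lit 760) (nat_lit 0) (XT.lf (nat_lit 0) (nat_lit 6229193081) (nat_lit 380) (nat_lit 2172928789) (nat_lit 380) (nat_lit 1403452677) (nat_lit 158) (nat_lit 4) (nat_lit 163) (nat_lit 5) (nat_lit 163) (nat_lit 4) (nat_lit 603) (nat_lit 479) (nat_lit 478)) (XT.nd (nat_lit 78) (nat_lit 380) (nat_lit 0) (XT.lf (nat_lit 0) (nat_lit 3366544880) (nat_lit 380) (nat_lit 4651609397) (nat_lit 0) (nat_lit 1872560117) (nat_lit 153) (nat_lit 5) (nat_lit 158) (nat_lit 4) (nat_lit 153) (nat_lit 4) (nat_lit 604) (nat_lit 479) (nat_lit 477)) (XT.lf (nat_lit 0) (nat_lit 4216988508) (nat_lit 380) (nat_lit 3989795977) (nat_lit 380) (nat_lit 1770716688) (nat_lit 148) (nat_lit 4) (nat_lit 153) (nat_lit 5) (nat_lit 153) (nat_lit 4) (nat_lit 605) (nat_lit 479) (nat_lit 476)))) (XT.nd (nat_lit 156) (nat_lit 380) (nat_lit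 0) (XT.nd (nat_lit 78) (nat_lit 380) (nat_lit 0) (XT.lf (nat_lit 0) (nat_lit 3018245114) (nat_lit 380) (nat_lit 6902026098) (nat_lit 0) (nat_lit 145738961) (nat_lit 143) (nat_lit 5) (nat_lit 148) (nat_lit 4) (nat_lit 143) (nat_lit 4) (nat_lit 606) (nat_lit 479) (nat_lit 475)) (XT.lf (nat_lit 0) (nat_lit 2060821360) (nat_lit 380) (nat_lit 5825437695) (nat_lit 380) (nat_lit 2269658775) (nat_lit 138) (nat_lit 4) (nat_lit 143) (nat_lit 5) (nat_lit 143) (nat_lit 4) (nat_lit 607) (nat_lit 479) (nat_lit 474))) (XT.nd (nat_lit 78) (nat_lit 0) (nat_lit 0) (XT.lf (nat_lit 0) (nat_lit 927211336) (nat_lit 304) (nat_lit 1623712187) (nat_lit 380) (nat_lit 7696742794) (nat_lit 133) (nat_lit 5) (nat_lit 137) (nat_lit 5) (nat_lit 138) (nat_lit 4) (nat_lit 608) (nat_lit 479) (nat_lit 473)) (XT.lf (nat_lit 0) (nat_lit 7438291927) (nat_lit 380) (nat_lit 251014070) (nat_lit 0) (nat_lit 2651630520) (nat_lit 133) (nat_lit 5) (nat_lit 138) (nat_lit 4) (nat_lit 133) (nat_lit 4) (nat_lit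 609) (nat_lit 479) (nat_lit 472))))) (XT.nd (nat_lit 312) (nat_lit 988) (nat_lit 0) (XT.nd (nat_lit 156) (nat_lit 608) (nat_lit 0) (XT.nd (nat_lit 78) (nat_lit 304) (nat_lit 0) (XT.lf (nat_lit 0) (nat_lit 1960563543) (nat_lit 380) (nat_lit 1457561469) (nat_lit 76) (nat_lit 7017705212) (nat_lit 128) (nat_lit 5) (nat_lit 133) (nat_lit 5) (nat_lit 129) (nat_lit 4) (nat_lit 610) (nat_lit 479) (nat_lit 471)) (XT.lf (nat_lit 0) (nat_lit 6871343912) (nat_lit 380) (nat_lit 2708161897) (nat_lit 0) (nat_lit 952950751) (nat_lit 124) (nat_lit 5) (nat_lit 129) (nat_lit 4) (nat_lit 124) (nat_lit 4) (nat_lit 611) (nat_lit 479) (nat_lit 470))) (XT.nd (nat_lit 78) (nat_lit 228) (nat_lit 0) (XT.lf (nat_lit 0) (nat_lit 1239152581) (nat_lit 380) (nat_lit 4010135008) (nat_lit 76) (nat_lit 5381443235) (nat_lit 119) (nat_lit 5) (nat_lit 124) (nat_lit 5) (nat_lit 120) (nat_lit 4) (nat_lit 612) (nat_lit 479) (nat_lit 469)) (XT.lf (nat_lit 0) (nat_lit 5371908375) (nat_lit 228) (nat_lit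 800516538) (nat_lit 304) (nat_lit 4558383039) (nat_lit 116) (nat_lit 5) (nat_lit 119) (nat_lit 5) (nat_lit 120) (nat_lit 4) (nat_lit 613) (nat_lit 479) (nat_lit 468)))) (XT.nd (nat_lit 156) (nat_lit 380) (nat_lit 0) (XT.nd (nat_lit 78) (nat_lit 228) (nat_lit 0) (XT.lf (nat_lit 0) (nat_lit 375588757) (nat_lit 380) (nat_lit 6759077411) (nat_lit 76) (nat_lit 3697994310) (nat_lit 111) (nat_lit 5) (nat_lit 116) (nat_lit 5) (nat_lit 112) (nat_lit 4) (nat_lit 614) (nat_lit 479) (nat_lit 467)) (XT.lf (nat_lit 0) (nat_lit 2714738551) (nat_lit 228) (nat_lit 2622903174) (nat_lit 304) (nat_lit 5598498695) (nat_lit 108) (nat_lit 5) (nat_lit 111) (nat_lit 5) (nat_lit 112) (nat_lit 4) (nat_lit 615) (nat_lit 479) (nat_lit 466))) (XT.nd (nat_lit 78) (nat_lit 76) (nat_lit 0) (XT.lf (nat_lit 0) (nat_lit 1316027867) (nat_lit 304) (nat_lit 9081499736) (nat_lit 304) (nat_lit 644192237) (nat_lit 104) (nat_lit 4) (nat_lit 108) (nat_lit 5) (nat_lit 108) (nat_lit 4) (nat_lit 616) (nat_lit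 479) (nat_lit 465)) (XT.lf (nat_lit 0) (nat_lit 4355955667) (nat_lit 380) (nat_lit 156112415) (nat_lit 76) (nat_lit 6636680213) (nat_lit 103) (nat_lit 5) (nat_lit 108) (nat_lit 5) (nat_lit 104) (nat_lit 4) (nat_lit 617) (nat_lit 479) (nat_lit 464))))))) (XT.nd (nat_lit 1092) (nat_lit 2432) (nat_lit 0) (XT.nd (nat_lit 546) (nat_lit 1520) (nat_lit 0) (XT.nd (nat_lit 234) (nat_lit 836) (nat_lit 0) (XT.nd (nat_lit 78) (nat_lit 608) (nat_lit 0) (XT.lf (nat_lit 0) (nat_lit 9444009247) (nat_lit 304) (nat_lit 1647163727) (nat_lit 0) (nat_lit 166730233) (nat_lit 100) (nat_lit 5) (nat_lit 104) (nat_lit 4) (nat_lit 100) (nat_lit 4) (nat_lit 618) (nat_lit 479) (nat_lit 463)) (XT.nd (nat_lit 78) (nat_lit 228) (nat_lit 0) (XT.lf (nat_lit 0) (nat_lit 3239128250) (nat_lit 380) (nat_lit 3222207779) (nat_lit 76) (nat_lit 4907135603) (nat_lit 95) (nat_lit 5) (nat_lit 100) (nat_lit 5) (nat_lit 96) (nat_lit 4) (nat_lit 619) (nat_lit 479) (nat_lit 462)) (XT.lf (nat_lit 0) (nat_lit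 6636621786) (nat_lit 228) (nat_lit 1719946760) (nat_lit 304) (nat_lit 3124691694) (nat_lit 92) (nat_lit 5) (nat_lit 95) (nat_lit 5) (nat_lit 96) (nat_lit 4) (nat_lit 620) (nat_lit 479) (nat_lit 461)))) (XT.nd (nat_lit 156) (nat_lit 304) (nat_lit 0) (XT.nd (nat_lit 78) (nat_lit 228) (nat_lit 0) (XT.lf (nat_lit 0) (nat_lit 1962719135) (nat_lit 304) (nat_lit 6537921193) (nat_lit 76) (nat_lit 3095235946) (nat_lit 88) (nat_lit 5) (nat_lit 92) (nat_lit 5) (nat_lit 89) (nat_lit 4) (nat_lit 621) (nat_lit 479) (nat_lit 460)) (XT.lf (nat_lit 0) (nat_lit 3408984469) (nat_lit 228) (nat_lit 3701117096) (nat_lit 304) (nat_lit 4602270154) (nat_lit 85) (nat_lit 5) (nat_lit 88) (nat_lit 5) (nat_lit 89) (nat_lit 4) (nat_lit 622) (nat_lit 479) (nat_lit 459))) (XT.nd (nat_lit 78) (nat_lit 0) (nat_lit 0) (XT.lf (nat_lit 0) (nat_lit 519313511) (nat_lit 304) (nat_lit 10122935915) (nat_lit 76) (nat_lit 1188939908) (nat_lit 81) (nat_lit 5) (nat_lit 85) (nat_lit 5) (nat_lit 82) (nat_lit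 4) (nat_lit 623) (nat_lit 479) (nat_lit 458)) (XT.lf (nat_lit 0) (nat_lit 5696483094) (nat_lit 304) (nat_lit 89858719) (nat_lit 76) (nat_lit 6165138849) (nat_lit 81) (nat_lit 5) (nat_lit 85) (nat_lit 5) (nat_lit 82) (nat_lit 4) (nat_lit 624) (nat_lit 479) (nat_lit 457))))) (XT.nd (nat_lit 234) (nat_lit 760) (nat_lit 0) (XT.nd (nat_lit 78) (nat_lit 532) (nat_lit 0) (XT.lf (nat_lit 0) (nat_lit 10163536437) (nat_lit 228) (nat_lit 815061013) (nat_lit 304) (nat_lit 1095553666) (nat_lit 78) (nat_lit 5) (nat_lit 81) (nat_lit 5) (nat_lit 82) (nat_lit 4) (nat_lit 625) (nat_lit 479) (nat_lit 456)) (XT.nd (nat_lit 78) (nat_lit 228) (nat_lit 0) (XT.lf (nat_lit 0) (nat_lit 4130904060) (nat_lit 304) (nat_lit 3833554253) (nat_lit 76) (nat_lit 4233907295) (nat_lit 74) (nat_lit 5) (nat_lit 78) (nat_lit 5) (nat_lit 75) (nat_lit 4) (nat_lit 626) (nat_lit 479) (nat_lit 455)) (XT.lf (nat_lit 0) (nat_lit 6505454958) (nat_lit 228) (nat_lit 2938054895) (nat_lit 304) (nat_lit 2881485188)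 (nat_lit 71) (nat_lit 5) (nat_lit 74) (nat_lit 5) (nat_lit 75) (nat_lit 4) (nat_lit 627) (nat_lit 479) (nat_lit 454)))) (XT.nd (nat_lit 156) (nat_lit 304) (nat_lit 0) (XT.nd (nat_lit 78) (nat_lit 152) (nat_lit 0) (XT.lf (nat_lit 0) (nat_lit 2382451299) (nat_lit 304) (nat_lit 7888619209) (nat_lit 76) (nat_lit 2182658549) (nat_lit 67) (nat_lit 5) (nat_lit 71) (nat_lit 5) (nat_lit 68) (nat_lit 4) (nat_lit 628) (nat_lit 479) (nat_lit 453)) (XT.lf (nat_lit 0) (nat_lit 2532224095) (nat_lit 152) (nat_lit 5192139053) (nat_lit 228) (nat_lit 4860069258) (nat_lit 65) (nat_lit 5) (nat_lit 67) (nat_lit 5) (nat_lit 68) (nat_lit 4) (nat_lit 629) (nat_lit 479) (nat_lit 452))) (XT.nd (nat_lit 78) (nat_lit 0) (nat_lit 0) (XT.lf (nat_lit 0) (nat_lit 439819226) (nat_lit 228) (nat_lit 1845493) (nat_lit 304) (nat_lit 12276181635) (nat_lit 61) (nat_lit 5) (nat_lit 64) (nat_lit 5) (nat_lit 65) (nat_lit 5) (nat_lit 630) (nat_lit 479) (nat_lit 451)) (XT.lf (nat_lit 0) (nat_lit 5822999914)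 (nat_lit 304) (nat_lit 1756182206) (nat_lit 76) (nat_lit 5273332214) (nat_lit 61) (nat_lit 5) (nat_lit 65) (nat_lit 5) (nat_lit 62) (nat_lit 4) (nat_lit 631) (nat_lit 479) (nat_lit 450)))))) (XT.nd (nat_lit 546) (nat_lit 1140) (nat_lit 0) (XT.nd (nat_lit 234) (nat_lit 684) (nat_lit 0) (XT.nd (nat_lit 78) (nat_lit 456) (nat_lit 0) (XT.lf (nat_lit 0) (nat_lit 8981571593) (nat_lit 152) (nat_lit 2326284286) (nat_lit 228) (nat_lit 1682103002) (nat_lit 59) (nat_lit 5) (nat_lit 61) (nat_lit 5) (nat_lit 62) (nat_lit 4) (nat_lit 632) (nat_lit 479) (nat_lit 449)) (XT.nd (nat_lit 78) (nat_lit 152) (nat_lit 0) (XT.lf (nat_lit 0) (nat_lit 3736212482) (nat_lit 304) (nat_lit 6369765895) (nat_lit 76) (nat_lit 3023416556) (nat_lit 55) (nat_lit 5) (nat_lit 59) (nat_lit 5) (nat_lit 56) (nat_lit 4) (nat_lit 633) (nat_lit 479) (nat_lit 448)) (XT.lf (nat_lit 0) (nat_lit 4445258879) (nat_lit 152) (nat_lit 4804307142) (nat_lit 228) (nat_lit 4021648436) (nat_lit 53) (nat_lit 5) (nat_lit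 55) (nat_lit 5) (nat_lit 56) (nat_lit 4) (nat_lit 634) (nat_lit 479) (nat_lit 447)))) (XT.nd (nat_lit 156) (nat_lit 380) (nat_lit 0) (XT.nd (nat_lit 78) (nat_lit 0) (nat_lit 0) (XT.lf (nat_lit 0) (nat_lit 1436495253) (nat_lit 304) (nat_lit 11367398338) (nat_lit 76) (nat_lit 611822689) (nat_lit 49) (nat_lit 5) (nat_lit 53) (nat_lit 5) (nat_lit 50) (nat_lit 4) (nat_lit 635) (nat_lit 479) (nat_lit 446)) (XT.lf (nat_lit 0) (nat_lit 6979515452) (nat_lit 304) (nat_lit 473877620) (nat_lit 76) (nat_lit 6108593103) (nat_lit 49) (nat_lit 5) (nat_lit 53) (nat_lit 5) (nat_lit 50) (nat_lit 4) (nat_lit 636) (nat_lit 479) (nat_lit 445))) (XT.nd (nat_lit 78) (nat_lit 228) (nat_lit 0) (XT.lf (nat_lit 0) (nat_lit 10666795916) (nat_lit 152) (nat_lit 1975147751) (nat_lit 228) (nat_lit 1069067798) (nat_lit 47) (nat_lit 5) (nat_lit 49) (nat_lit 5) (nat_lit 50) (nat_lit 4) (nat_lit 637) (nat_lit 479) (nat_lit 444)) (XT.lf (nat_lit 0) (nat_lit 4513988136) (nat_lit 228) (nat_lit 5745988825)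 (nat_lit 76) (nat_lit 3602067392) (nat_lit 44) (nat_lit 5) (nat_lit 47) (nat_lit 5) (nat_lit 45) (nat_lit 4) (nat_lit 638) (nat_lit 479) (nat_lit 443))))) (XT.nd (nat_lit 312) (nat_lit 608) (nat_lit 0) (XT.nd (nat_lit 156) (nat_lit 152) (nat_lit 0) (XT.nd (nat_lit 78) (nat_lit 228) (nat_lit 0) (XT.lf (nat_lit 0) (nat_lit 5465649292) (nat_lit 152) (nat_lit 4737405389) (nat_lit 228) (nat_lit 3812729493) (nat_lit 42) (nat_lit 5) (nat_lit 44) (nat_lit 5) (nat_lit 45) (nat_lit 4) (nat_lit 639) (nat_lit 479) (nat_lit 442)) (XT.lf (nat_lit 0) (nat_lit 1811267570) (nat_lit 228) (nat_lit 11458202112) (nat_lit 76) (nat_lit 902851752) (nat_lit 39) (nat_lit 5) (nat_lit 42) (nat_lit 5) (nat_lit 40) (nat_lit 4) (nat_lit 640) (nat_lit 479) (nat_lit 441))) (XT.nd (nat_lit 78) (nat_lit 152) (nat_lit 0) (XT.lf (nat_lit 0) (nat_lit 7525604960) (nat_lit 228) (nat_lit 179351205) (nat_lit 76) (nat_lit 6625951815) (nat_lit 39) (nat_lit 5) (nat_lit 42) (nat_lit 5) (nat_lit 40) (nat_lit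 4) (nat_lit 641) (nat_lit 479) (nat_lit 440)) (XT.lf (nat_lit 0) (nat_lit 11365247868) (nat_lit 152) (nat_lit 2003689297) (nat_lit 228) (nat_lit 1123435757) (nat_lit 37) (nat_lit 5) (nat_lit 39) (nat_lit 5) (nat_lit 40) (nat_lit 4) (nat_lit 642) (nat_lit 479) (nat_lit 439)))) (XT.nd (nat_lit 156) (nat_lit 228) (nat_lit 0) (XT.nd (nat_lit 78) (nat_lit 152) (nat_lit 0) (XT.lf (nat_lit 0) (nat_lit 4632898948) (nat_lit 228) (nat_lit 6223759901) (nat_lit 76) (nat_lit 3799360322) (nat_lit 34) (nat_lit 5) (nat_lit 37) (nat_lit 5) (nat_lit 35) (nat_lit 4) (nat_lit 643) (nat_lit 479) (nat_lit 438)) (XT.lf (nat_lit 0) (nat_lit 5383369585) (nat_lit 152) (nat_lit 5116423855) (nat_lit 228) (nat_lit 4322787644) (nat_lit 32) (nat_lit 5) (nat_lit 34) (nat_lit 5) (nat_lit 35) (nat_lit 4) (nat_lit 644) (nat_lit 479) (nat_lit 437))) (XT.nd (nat_lit 78) (nat_lit 0) (nat_lit 0) (XT.lf (nat_lit 0) (nat_lit 1474566578) (nat_lit 228) (nat_lit 12771793445) (nat_lit 76) (nat_lit 745869740)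 (nat_lit 29) (nat_lit 5) (nat_lit 32) (nat_lit 5) (nat_lit 30) (nat_lit 4) (nat_lit 645) (nat_lit 479) (nat_lit 436)) (XT.lf (nat_lit 0) (nat_lit 7368988889) (nat_lit 228) (nat_lit 1094984567) (nat_lit 76) (nat_lit 6699947157) (nat_lit 29) (nat_lit 5) (nat_lit 32) (nat_lit 5) (nat_lit 30) (nat_lit 4) (nat_lit 646) (nat_lit 479) (nat_lit 435))))))))
noncomputable def xc11 : XT := (XT.nd (nat_lit 79404) (nat_lit 0) (nat_lit 0) (XT.nd (nat_lit 78234) (nat_lit 0) (nat_lit 4560) (XT.nd (nat_lit 77688) (nat_lit 0) (nat_lit 8512) (XT.nd (nat_lit 234) (nat_lit 228) (nat_lit 0) (XT.nd (nat_lit 78) (nat_lit 304) (nat_lit 0) (XT.lf (nat_lit 0) (nat_lit 10850532601) (nat_lit 76) (nat_lit 2543670664) (nat_lit 152) (nat_lit 1944584660) (nat_lit 28) (nat_lit 5) (nat_lit 29) (nat_lit 5) (nat_lit 30) (nat_lit 4) (nat_lit 647) (nat_lit 479) (nat_lit 434)) (XT.nd (nat_lit 78) (nat_lit 76) (nat_lit 0) (XT.lf (nat_lit 0) (nat_lit 3991513994) (nat_lit 228) (nat_lit 8041802465)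 (nat_lit 76) (nat_lit 3482884366) (nat_lit 25) (nat_lit 5) (nat_lit 28) (nat_lit 5) (nat_lit 26) (nat_lit 4) (nat_lit 648) (nat_lit 479) (nat_lit 433)) (XT.lf (nat_lit 0) (nat_lit 3955225592) (nat_lit 76) (nat_lit 6080566852) (nat_lit 152) (nat_lit 5660803227) (nat_lit 24) (nat_lit 5) (nat_lit 25) (nat_lit 5) (nat_lit 26) (nat_lit 4) (nat_lit 649) (nat_lit 479) (nat_lit 432)))) (XT.nd (nat_lit 77298) (nat_lit 0) (nat_lit 11248) (XT.nd (nat_lit 78) (nat_lit 0) (nat_lit 0) (XT.lf (nat_lit 0) (nat_lit 315218785) (nat_lit 228) (nat_lit 15564556649) (nat_lit 76) (nat_lit 800784) (nat_lit 21) (nat_lit 5) (nat_lit 24) (nat_lit 5) (nat_lit 22) (nat_lit 4) (nat_lit 650) (nat_lit 479) (nat_lit 431)) (XT.lf (nat_lit 0) (nat_lit 6397406412) (nat_lit 228) (nat_lit 3478700487) (nat_lit 76) (nat_lit 6190132891) (nat_lit 21) (nat_lit 5) (nat_lit 24) (nat_lit 5) (nat_lit 22) (nat_lit 4) (nat_lit 651) (nat_lit 479) (nat_lit 430))) (XT.nd (nat_lit 78) (nat_lit 380) (nat_lit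 0) (XT.lf (nat_lit 0) (nat_lit 2262595618) (nat_lit 456) (nat_lit 254094429) (nat_lit 0) (nat_lit 2262595618) (nat_lit 174) (nat_lit 5) (nat_lit 180) (nat_lit 4) (nat_lit 174) (nat_lit 4) (nat_lit 600) (nat_lit 480) (nat_lit 480)) (XT.lf (nat_lit 0) (nat_lit 8111942779) (nat_lit 380) (nat_lit 1164312186) (nat_lit 380) (nat_lit 363749239) (nat_lit 169) (nat_lit 4) (nat_lit 174) (nat_lit 5) (nat_lit 174) (nat_lit 4) (nat_lit 601) (nat_lit 480) (nat_lit 479))))) (XT.nd (nat_lit 234) (nat_lit 1520) (nat_lit 0) (XT.nd (nat_lit 78) (nat_lit 760) (nat_lit 0) (XT.lf (nat_lit 0) (nat_lit 4337798315) (nat_lit 456) (nat_lit 2601317666) (nat_lit 0) (nat_lit 2783456567) (nat_lit 163) (nat_lit 5) (nat_lit 169) (nat_lit 4) (nat_lit 163) (nat_lit 4) (nat_lit 602) (nat_lit 480) (nat_lit 478)) (XT.nd (nat_lit 78) (nat_lit 380) (nat_lit 0) (XT.lf (nat_lit 0) (nat_lit 6113778504) (nat_lit 380) (nat_lit 3000986519) (nat_lit 380) (nat_lit 692256426) (nat_lit 158) (nat_lit 4) (nat_lit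 163) (nat_lit 5) (nat_lit 163) (nat_lit 4) (nat_lit 603) (nat_lit 480) (nat_lit 477)) (XT.lf (nat_lit 0) (nat_lit 4026465764) (nat_lit 380) (nat_lit 4828532945) (nat_lit 0) (nat_lit 1037910362) (nat_lit 153) (nat_lit 5) (nat_lit 158) (nat_lit 4) (nat_lit 153) (nat_lit 4) (nat_lit 604) (nat_lit 480) (nat_lit 476)))) (XT.nd (nat_lit 156) (nat_lit 760) (nat_lit 0) (XT.nd (nat_lit 78) (nat_lit 380) (nat_lit 0) (XT.lf (nat_lit 0) (nat_lit 3980283476) (nat_lit 380) (nat_lit 4849789279) (nat_lit 380) (nat_lit 1150356890) (nat_lit 148) (nat_lit 4) (nat_lit 153) (nat_lit 5) (nat_lit 153) (nat_lit 4) (nat_lit 605) (nat_lit 480) (nat_lit 475)) (XT.lf (nat_lit 0) (nat_lit 2860537717) (nat_lit 304) (nat_lit 731991157) (nat_lit 380) (nat_lit 6477089114) (nat_lit 143) (nat_lit 5) (nat_lit 147) (nat_lit 5) (nat_lit 148) (nat_lit 4) (nat_lit 606) (nat_lit 480) (nat_lit 474))) (XT.nd (nat_lit 78) (nat_lit 380) (nat_lit 0) (XT.lf (nat_lit 0) (nat_lit 1696794709) (nat_lit 380)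 (nat_lit 6721806685) (nat_lit 380) (nat_lit 1741764158) (nat_lit 138) (nat_lit 4) (nat_lit 143) (nat_lit 5) (nat_lit 143) (nat_lit 4) (nat_lit 607) (nat_lit 480) (nat_lit 473)) (XT.lf (nat_lit 0) (nat_lit 492570322) (nat_lit 304) (nat_lit 2541762995) (nat_lit 380) (nat_lit 7218464438) (nat_lit 133) (nat_lit 5) (nat_lit 137) (nat_lit 5) (nat_lit 138) (nat_lit 4) (nat_lit 608) (nat_lit 480) (nat_lit 472)))))) (XT.nd (nat_lit 546) (nat_lit 2052) (nat_lit 0) (XT.nd (nat_lit 234) (nat_lit 1216) (nat_lit 0) (XT.nd (nat_lit 78) (nat_lit 684) (nat_lit 0) (XT.lf (nat_lit 0) (nat_lit 7881170602) (nat_lit 380) (nat_lit 742034633) (nat_lit 0) (nat_lit 1723674357) (nat_lit 133) (nat_lit 5) (nat_lit 138) (nat_lit 4) (nat_lit 133) (nat_lit 4) (nat_lit 609) (nat_lit 480) (nat_lit 471)) (XT.nd (nat_lit 78) (nat_lit 304) (nat_lit 0) (XT.lf (nat_lit 0) (nat_lit 2354027316) (nat_lit 380) (nat_lit 2021222262) (nat_lit 76) (nat_lit 6067222787) (nat_lit 128) (nat_lit 5) (nat_lit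 133) (nat_lit 5) (nat_lit 129) (nat_lit 4) (nat_lit 610) (nat_lit 480) (nat_lit 470)) (XT.lf (nat_lit 0) (nat_lit 7202623175) (nat_lit 304) (nat_lit 18023992) (nat_lit 380) (nat_lit 3319335701) (nat_lit 124) (nat_lit 5) (nat_lit 128) (nat_lit 5) (nat_lit 129) (nat_lit 4) (nat_lit 611) (nat_lit 480) (nat_lit 469)))) (XT.nd (nat_lit 156) (nat_lit 608) (nat_lit 0) (XT.nd (nat_lit 78) (nat_lit 228) (nat_lit 0) (XT.lf (nat_lit 0) (nat_lit 1537909074) (nat_lit 380) (nat_lit 4714908147) (nat_lit 76) (nat_lit 4386167212) (nat_lit 119) (nat_lit 5) (nat_lit 124) (nat_lit 5) (nat_lit 120) (nat_lit 4) (nat_lit 612) (nat_lit 480) (nat_lit 468)) (XT.lf (nat_lit 0) (nat_lit 4600617729) (nat_lit 228) (nat_lit 1831973504) (nat_lit 304) (nat_lit 4307243034) (nat_lit 116) (nat_lit 5) (nat_lit 119) (nat_lit 5) (nat_lit 120) (nat_lit 4) (nat_lit 613) (nat_lit 480) (nat_lit 467))) (XT.nd (nat_lit 78) (nat_lit 228) (nat_lit 0) (XT.lf (nat_lit 0) (nat_lit 577538235) (nat_lit 380)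 (nat_lit 7611547486) (nat_lit 76) (nat_lit 2653487264) (nat_lit 111) (nat_lit 5) (nat_lit 116) (nat_lit 5) (nat_lit 112) (nat_lit 4) (nat_lit 614) (nat_lit 480) (nat_lit 466)) (XT.lf (nat_lit 0) (nat_lit 1793565103) (nat_lit 228) (nat_lit 3706680311) (nat_lit 304) (nat_lit 5446595277) (nat_lit 108) (nat_lit 5) (nat_lit 111) (nat_lit 5) (nat_lit 112) (nat_lit 4) (nat_lit 615) (nat_lit 480) (nat_lit 465))))) (XT.nd (nat_lit 312) (nat_lit 1064) (nat_lit 0) (XT.nd (nat_lit 156) (nat_lit 608) (nat_lit 0) (XT.nd (nat_lit 78) (nat_lit 76) (nat_lit 0) (XT.lf (nat_lit 0) (nat_lit 321384422) (nat_lit 304) (nat_lit 10192026014) (nat_lit 304) (nat_lit 539944927) (nat_lit 104) (nat_lit 4) (nat_lit 108) (nat_lit 5) (nat_lit 108) (nat_lit 4) (nat_lit 616) (nat_lit 480) (nat_lit 464)) (XT.lf (nat_lit 0) (nat_lit 4425675813) (nat_lit 380) (nat_lit 1219897673) (nat_lit 76) (nat_lit 5515460795) (nat_lit 103) (nat_lit 5) (nat_lit 108) (nat_lit 5) (nat_lit 104) (nat_lit 4) (nat_lit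 617) (nat_lit 480) (nat_lit 463))) (XT.nd (nat_lit 78) (nat_lit 380) (nat_lit 0) (XT.lf (nat_lit 0) (nat_lit 8477480355) (nat_lit 228) (nat_lit 995277248) (nat_lit 304) (nat_lit 1798251811) (nat_lit 100) (nat_lit 5) (nat_lit 103) (nat_lit 5) (nat_lit 104) (nat_lit 4) (nat_lit 618) (nat_lit 480) (nat_lit 462)) (XT.lf (nat_lit 0) (nat_lit 3207544639) (nat_lit 380) (nat_lit 4447679272) (nat_lit 76) (nat_lit 3727293063) (nat_lit 95) (nat_lit 5) (nat_lit 100) (nat_lit 5) (nat_lit 96) (nat_lit 4) (nat_lit 619) (nat_lit 480) (nat_lit 461)))) (XT.nd (nat_lit 156) (nat_lit 532) (nat_lit 0) (XT.nd (nat_lit 78) (nat_lit 304) (nat_lit 0) (XT.lf (nat_lit 0) (nat_lit 5338214673) (nat_lit 228) (nat_lit 2946019763) (nat_lit 304) (nat_lit 3211886897) (nat_lit 92) (nat_lit 5) (nat_lit 95) (nat_lit 5) (nat_lit 96) (nat_lit 4) (nat_lit 620) (nat_lit 480) (nat_lit 460)) (XT.lf (nat_lit 0) (nat_lit 1827225121) (nat_lit 304) (nat_lit 7932301210) (nat_lit 76) (nat_lit 1852211917)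 (nat_lit 88) (nat_lit 5) (nat_lit 92) (nat_lit 5) (nat_lit 89) (nat_lit 4) (nat_lit 621) (nat_lit 480) (nat_lit 459))) (XT.nd (nat_lit 78) (nat_lit 304) (nat_lit 0) (XT.lf (nat_lit 0) (nat_lit 1939241148) (nat_lit 228) (nat_lit 4993681922) (nat_lit 304) (nat_lit 4796145012) (nat_lit 85) (nat_lit 5) (nat_lit 88) (nat_lit 5) (nat_lit 89) (nat_lit 4) (nat_lit 622) (nat_lit 480) (nat_lit 458)) (XT.lf (nat_lit 0) (nat_lit 154422070) (nat_lit 228) (nat_lit 123511791) (nat_lit 304) (nat_lit 11570978631) (nat_lit 81) (nat_lit 5) (nat_lit 84) (nat_lit 5) (nat_lit 85) (nat_lit 5) (nat_lit 623) (nat_lit 480) (nat_lit 457))))))) (XT.nd (nat_lit 1170) (nat_lit 1748) (nat_lit 0) (XT.nd (nat_lit 546) (nat_lit 1596) (nat_lit 0) (XT.nd (nat_lit 234) (nat_lit 684) (nat_lit 0) (XT.nd (nat_lit 78) (nat_lit 532) (nat_lit 0) (XT.lf (nat_lit 0) (nat_lit 5422327742) (nat_lit 304) (nat_lit 1716868826) (nat_lit 76) (nat_lit 4830663422) (nat_lit 81) (nat_lit 5) (nat_lit 85) (nat_lit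 5) (nat_lit 82) (nat_lit 4) (nat_lit 624) (nat_lit 480) (nat_lit 456)) (XT.nd (nat_lit 78) (nat_lit 304) (nat_lit 0) (XT.lf (nat_lit 0) (nat_lit 8459016816) (nat_lit 228) (nat_lit 2203011567) (nat_lit 304) (nat_lit 1431350981) (nat_lit 78) (nat_lit 5) (nat_lit 81) (nat_lit 5) (nat_lit 82) (nat_lit 4) (nat_lit 625) (nat_lit 480) (nat_lit 455)) (XT.lf (nat_lit 0) (nat_lit 3747268416) (nat_lit 304) (nat_lit 5644815933) (nat_lit 76) (nat_lit 2826598577) (nat_lit 74) (nat_lit 5) (nat_lit 78) (nat_lit 5) (nat_lit 75) (nat_lit 4) (nat_lit 626) (nat_lit 480) (nat_lit 454)))) (XT.nd (nat_lit 156) (nat_lit 152) (nat_lit 0) (XT.nd (nat_lit 78) (nat_lit 304) (nat_lit 0) (XT.lf (nat_lit 0) (nat_lit 4614075863) (nat_lit 228) (nat_lit 4402326761) (nat_lit 304) (nat_lit 3329779774) (nat_lit 71) (nat_lit 5) (nat_lit 74) (nat_lit 5) (nat_lit 75) (nat_lit 4) (nat_lit 627) (nat_lit 480) (nat_lit 453)) (XT.lf (nat_lit 0) (nat_lit 1886197138) (nat_lit 304) (nat_lit 9892109666)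 (nat_lit 76) (nat_lit 697745188) (nat_lit 67) (nat_lit 5) (nat_lit 71) (nat_lit 5) (nat_lit 68) (nat_lit 4) (nat_lit 628) (nat_lit 480) (nat_lit 452))) (XT.nd (nat_lit 78) (nat_lit 0) (nat_lit 0) (XT.lf (nat_lit 0) (nat_lit 445911497) (nat_lit 152) (nat_lit 6737606655) (nat_lit 228) (nat_lit 5424129577) (nat_lit 65) (nat_lit 5) (nat_lit 67) (nat_lit 5) (nat_lit 68) (nat_lit 4) (nat_lit 629) (nat_lit 480) (nat_lit 451)) (XT.lf (nat_lit 0) (nat_lit 11013491519) (nat_lit 152) (nat_lit 1577471259) (nat_lit 228) (nat_lit 150830192) (nat_lit 65) (nat_lit 5) (nat_lit 67) (nat_lit 5) (nat_lit 68) (nat_lit 4) (nat_lit 630) (nat_lit 480) (nat_lit 450))))) (XT.nd (nat_lit 312) (nat_lit 684) (nat_lit 0) (XT.nd (nat_lit 156) (nat_lit 456) (nat_lit 0) (XT.nd (nat_lit 78) (nat_lit 152) (nat_lit 0) (XT.lf (nat_lit 0) (nat_lit 5179900288) (nat_lit 304) (nat_lit 4015759897) (nat_lit 76) (nat_lit 3681872547) (nat_lit 61) (nat_lit 5) (nat_lit 65) (nat_lit 5) (nat_lit 62) (nat_lit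 4) (nat_lit 631) (nat_lit 480) (nat_lit 449)) (XT.lf (nat_lit 0) (nat_lit 6636731719) (nat_lit 152) (nat_lit 3982499136) (nat_lit 228) (nat_lit 2396657462) (nat_lit 59) (nat_lit 5) (nat_lit 61) (nat_lit 5) (nat_lit 62) (nat_lit 4) (nat_lit 632) (nat_lit 480) (nat_lit 448))) (XT.nd (nat_lit 78) (nat_lit 152) (nat_lit 0) (XT.lf (nat_lit 0) (nat_lit 2973798650) (nat_lit 304) (nat_lit 8838517872) (nat_lit 76) (nat_lit 1344245759) (nat_lit 55) (nat_lit 5) (nat_lit 59) (nat_lit 5) (nat_lit 56) (nat_lit 4) (nat_lit 633) (nat_lit 480) (nat_lit 447)) (XT.lf (nat_lit 0) (nat_lit 1888334226) (nat_lit 152) (nat_lit 6552043008) (nat_lit 228) (nat_lit 4858940568) (nat_lit 53) (nat_lit 5) (nat_lit 55) (nat_lit 5) (nat_lit 56) (nat_lit 4) (nat_lit 634) (nat_lit 480) (nat_lit 446)))) (XT.nd (nat_lit 156) (nat_lit 380) (nat_lit 0) (XT.nd (nat_lit 78) (nat_lit 228) (nat_lit 0) (XT.lf (nat_lit 0) (nat_lit 562700314) (nat_lit 228) (nat_lit 608765672) (nat_lit 76) (nat_lit 12273412525)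 (nat_lit 52) (nat_lit 5) (nat_lit 55) (nat_lit 5) (nat_lit 53) (nat_lit 5) (nat_lit 635) (nat_lit 480) (nat_lit 445)) (XT.lf (nat_lit 0) (nat_lit 6064029403) (nat_lit 304) (nat_lit 3215420959) (nat_lit 76) (nat_lit 4312532335) (nat_lit 49) (nat_lit 5) (nat_lit 53) (nat_lit 5) (nat_lit 50) (nat_lit 4) (nat_lit 636) (nat_lit 480) (nat_lit 444))) (XT.nd (nat_lit 78) (nat_lit 228) (nat_lit 0) (XT.lf (nat_lit 0) (nat_lit 7834419496) (nat_lit 152) (nat_lit 3844184125) (nat_lit 228) (nat_lit 2063361904) (nat_lit 47) (nat_lit 5) (nat_lit 49) (nat_lit 5) (nat_lit 50) (nat_lit 4) (nat_lit 637) (nat_lit 480) (nat_lit 443)) (XT.lf (nat_lit 0) (nat_lit 3471696445) (nat_lit 228) (nat_lit 8714861073) (nat_lit 76) (nat_lit 1707791209) (nat_lit 44) (nat_lit 5) (nat_lit 47) (nat_lit 5) (nat_lit 45) (nat_lit 4) (nat_lit 638) (nat_lit 480) (nat_lit 442)))))) (XT.nd (nat_lit 546) (nat_lit 760) (nat_lit 0) (XT.nd (nat_lit 234) (nat_lit 608) (nat_lit 0) (XT.nd (nat_lit 78) (nat_lit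 228) (nat_lit 0) (XT.lf (nat_lit 0) (nat_lit 2402809119) (nat_lit 152) (nat_lit 6708714496) (nat_lit 228) (nat_lit 4937550157) (nat_lit 42) (nat_lit 5) (nat_lit 44) (nat_lit 5) (nat_lit 45) (nat_lit 4) (nat_lit 639) (nat_lit 480) (nat_lit 441)) (XT.nd (nat_lit 78) (nat_lit 152) (nat_lit 0) (XT.lf (nat_lit 0) (nat_lit 648279994) (nat_lit 228) (nat_lit 458158706) (nat_lit 76) (nat_lit 13100377191) (nat_lit 41) (nat_lit 5) (nat_lit 44) (nat_lit 5) (nat_lit 42) (nat_lit 5) (nat_lit 640) (nat_lit 480) (nat_lit 440)) (XT.lf (nat_lit 0) (nat_lit 6323150645) (nat_lit 228) (nat_lit 3438972989) (nat_lit 76) (nat_lit 4604068547) (nat_lit 39) (nat_lit 5) (nat_lit 42) (nat_lit 5) (nat_lit 40) (nat_lit 4) (nat_lit 641) (nat_lit 480) (nat_lit 439)))) (XT.nd (nat_lit 156) (nat_lit 228) (nat_lit 0) (XT.nd (nat_lit 78) (nat_lit 228) (nat_lit 0) (XT.lf (nat_lit 0) (nat_lit 8008758038) (nat_lit 152) (nat_lit 4107256919) (nat_lit 228) (nat_lit 2412651924) (nat_lit 37) (nat_lit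 5) (nat_lit 39) (nat_lit 5) (nat_lit 40) (nat_lit 4) (nat_lit 642) (nat_lit 480) (nat_lit 438)) (XT.lf (nat_lit 0) (nat_lit 3295314232) (nat_lit 228) (nat_lit 9730200068) (nat_lit 76) (nat_lit 1668272160) (nat_lit 34) (nat_lit 5) (nat_lit 37) (nat_lit 5) (nat_lit 35) (nat_lit 4) (nat_lit 643) (nat_lit 480) (nat_lit 437))) (XT.nd (nat_lit 78) (nat_lit 76) (nat_lit 0) (XT.lf (nat_lit 0) (nat_lit 1776682248) (nat_lit 152) (nat_lit 7333530718) (nat_lit 228) (nat_lit 5751175701) (nat_lit 32) (nat_lit 5) (nat_lit 34) (nat_lit 5) (nat_lit 35) (nat_lit 4) (nat_lit 644) (nat_lit 480) (nat_lit 436)) (XT.lf (nat_lit 0) (nat_lit 17007953) (nat_lit 228) (nat_lit 1492942692) (nat_lit 76) (nat_lit 13522230627) (nat_lit 31) (nat_lit 5) (nat_lit 34) (nat_lit 5) (nat_lit 32) (nat_lit 5) (nat_lit 645) (nat_lit 480) (nat_lit 435))))) (XT.nd (nat_lit 312) (nat_lit 304) (nat_lit 0) (XT.nd (nat_lit 156) (nat_lit 228) (nat_lit 0) (XT.nd (nat_lit 78) (nat_lit 76) (nat_lit 0) (XT.lf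 (nat_lit 0) (nat_lit 5863251885) (nat_lit 228) (nat_lit 4911520220) (nat_lit 76) (nat_lit 4430063940) (nat_lit 29) (nat_lit 5) (nat_lit 32) (nat_lit 5) (nat_lit 30) (nat_lit 4) (nat_lit 646) (nat_lit 480) (nat_lit 434)) (XT.lf (nat_lit 0) (nat_lit 6930589208) (nat_lit 76) (nat_lit 4904497024) (nat_lit 152) (nat_lit 3545685075) (nat_lit 28) (nat_lit 5) (nat_lit 29) (nat_lit 5) (nat_lit 30) (nat_lit 4) (nat_lit 647) (nat_lit 480) (nat_lit 433))) (XT.nd (nat_lit 78) (nat_lit 0) (nat_lit 0) (XT.lf (nat_lit 0) (nat_lit 2341444345) (nat_lit 228) (nat_lit 12126113482) (nat_lit 76) (nat_lit 1092233983) (nat_lit 25) (nat_lit 5) (nat_lit 28) (nat_lit 5) (nat_lit 26) (nat_lit 4) (nat_lit 648) (nat_lit 480) (nat_lit 432)) (XT.lf (nat_lit 0) (nat_lit 8332197771) (nat_lit 228) (nat_lit 233040983) (nat_lit 76) (nat_lit 7176018730) (nat_lit 25) (nat_lit 5) (nat_lit 28) (nat_lit 5) (nat_lit 26) (nat_lit 4) (nat_lit 649) (nat_lit 480) (nat_lit 431)))) (XT.nd (nat_lit 77142)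 (nat_lit 0) (nat_lit 11628) (XT.nd (nat_lit 78) (nat_lit 228) (nat_lit 0) (XT.lf (nat_lit 0) (nat_lit 11951496072) (nat_lit 76) (nat_lit 2513723063) (nat_lit 152) (nat_lit 1460684929) (nat_lit 24) (nat_lit 5) (nat_lit 25) (nat_lit 5) (nat_lit 26) (nat_lit 4) (nat_lit 650) (nat_lit 480) (nat_lit 430)) (XT.lf (nat_lit 0) (nat_lit 4570252657) (nat_lit 228) (nat_lit 7893981225) (nat_lit 76) (nat_lit 3648931882) (nat_lit 21) (nat_lit 5) (nat_lit 24) (nat_lit 5) (nat_lit 22) (nat_lit 4) (nat_lit 651) (nat_lit 480) (nat_lit 429))) (XT.nd (nat_lit 78) (nat_lit 456) (nat_lit 0) (XT.lf (nat_lit 0) (nat_lit 769858413) (nat_lit 380) (nat_lit 1965040017) (nat_lit 380) (nat_lit 1965040017) (nat_lit 180) (nat_lit 4) (nat_lit 185) (nat_lit 5) (nat_lit 185) (nat_lit 4) (nat_lit 598) (nat_lit 481) (nat_lit 481)) (XT.lf (nat_lit 0) (nat_lit 512048305) (nat_lit 380) (nat_lit 153770504) (nat_lit 456) (nat_lit 8813279745) (nat_lit 174) (nat_lit 5) (nat_lit 179) (nat_lit 5) (nat_lit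 180) (nat_lit 4) (nat_lit 599) (nat_lit 481) (nat_lit 480))))))))
noncomputable def xc12 : XT := (XT.nd (nat_lit 2262) (nat_lit 3496) (nat_lit 0) (XT.nd (nat_lit 1092) (nat_lit 3724) (nat_lit 0) (XT.nd (nat_lit 546) (nat_lit 2052) (nat_lit 0) (XT.nd (nat_lit 234) (nat_lit 1520) (nat_lit 0) (XT.nd (nat_lit 78) (nat_lit 836) (nat_lit 0) (XT.lf (nat_lit 0) (nat_lit 5306078167) (nat_lit 456) (nat_lit 564267186) (nat_lit 0) (nat_lit 3688941013) (nat_lit 174) (nat_lit 5) (nat_lit 180) (nat_lit 4) (nat_lit 174) (nat_lit 4) (nat_lit 600) (nat_lit 481) (nat_lit 479)) (XT.nd (nat_lit 78) (nat_lit 380) (nat_lit 0) (XT.lf (nat_lit 0) (nat_lit 375005243) (nat_lit 456) (nat_lit 1644492196) (nat_lit 76) (nat_lit 7621888082) (nat_lit 168) (nat_lit 5) (nat_lit 174) (nat_lit 5) (nat_lit 169) (nat_lit 4) (nat_lit 601) (nat_lit 481) (nat_lit 478)) (XT.lf (nat_lit 0) (nat_lit 5030075926) (nat_lit 456) (nat_lit 2773883158) (nat_lit 0) (nat_lit 1920782886) (nat_lit 163) (nat_lit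 5) (nat_lit 169) (nat_lit 4) (nat_lit 163) (nat_lit 4) (nat_lit 602) (nat_lit 481) (nat_lit 477)))) (XT.nd (nat_lit 156) (nat_lit 760) (nat_lit 0) (XT.nd (nat_lit 78) (nat_lit 380) (nat_lit 0) (XT.lf (nat_lit 0) (nat_lit 5882904090) (nat_lit 380) (nat_lit 3887950594) (nat_lit 380) (nat_lit 39061137) (nat_lit 158) (nat_lit 4) (nat_lit 163) (nat_lit 5) (nat_lit 163) (nat_lit 4) (nat_lit 603) (nat_lit 481) (nat_lit 476)) (XT.lf (nat_lit 0) (nat_lit 4628691615) (nat_lit 380) (nat_lit 5123482614) (nat_lit 0) (nat_lit 144393592) (nat_lit 153) (nat_lit 5) (nat_lit 158) (nat_lit 4) (nat_lit 153) (nat_lit 4) (nat_lit 604) (nat_lit 481) (nat_lit 475))) (XT.nd (nat_lit 78) (nat_lit 380) (nat_lit 0) (XT.lf (nat_lit 0) (nat_lit 3625109902) (nat_lit 380) (nat_lit 5770475068) (nat_lit 380) (nat_lit 589238822) (nat_lit 148) (nat_lit 4) (nat_lit 153) (nat_lit 5) (nat_lit 153) (nat_lit 4) (nat_lit 605) (nat_lit 481) (nat_lit 474)) (XT.lf (nat_lit 0) (nat_lit 2436102984) (nat_lit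 304) (nat_lit 1673110875) (nat_lit 380) (nat_lit 5965467968) (nat_lit 143) (nat_lit 5) (nat_lit 147) (nat_lit 5) (nat_lit 148) (nat_lit 4) (nat_lit 606) (nat_lit 481) (nat_lit 473))))) (XT.nd (nat_lit 234) (nat_lit 1292) (nat_lit 0) (XT.nd (nat_lit 78) (nat_lit 380) (nat_lit 0) (XT.lf (nat_lit 0) (nat_lit 1211203805) (nat_lit 380) (nat_lit 7680676924) (nat_lit 380) (nat_lit 1274417831) (nat_lit 138) (nat_lit 4) (nat_lit 143) (nat_lit 5) (nat_lit 143) (nat_lit 4) (nat_lit 607) (nat_lit 481) (nat_lit 472)) (XT.nd (nat_lit 78) (nat_lit 304) (nat_lit 0) (XT.lf (nat_lit 0) (nat_lit 3458293973) (nat_lit 456) (nat_lit 64368456) (nat_lit 76) (nat_lit 6736753792) (nat_lit 137) (nat_lit 5) (nat_lit 143) (nat_lit 5) (nat_lit 138) (nat_lit 4) (nat_lit 608) (nat_lit 481) (nat_lit 471)) (XT.lf (nat_lit 0) (nat_lit 8264443654) (nat_lit 380) (nat_lit 1356171284) (nat_lit 0) (nat_lit 733697867) (nat_lit 133) (nat_lit 5) (nat_lit 138) (nat_lit 4) (nat_lit 133) (nat_lit 4) (nat_lit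 609) (nat_lit 481) (nat_lit 470)))) (XT.nd (nat_lit 156) (nat_lit 608) (nat_lit 0) (XT.nd (nat_lit 78) (nat_lit 304) (nat_lit 0) (XT.lf (nat_lit 0) (nat_lit 2687057537) (nat_lit 380) (nat_lit 2709616224) (nat_lit 76) (nat_lit 5053941580) (nat_lit 128) (nat_lit 5) (nat_lit 133) (nat_lit 5) (nat_lit 129) (nat_lit 4) (nat_lit 610) (nat_lit 481) (nat_lit 469)) (XT.lf (nat_lit 0) (nat_lit 6449282056) (nat_lit 304) (nat_lit 1066353868) (nat_lit 380) (nat_lit 3033251687) (nat_lit 124) (nat_lit 5) (nat_lit 128) (nat_lit 5) (nat_lit 129) (nat_lit 4) (nat_lit 611) (nat_lit 481) (nat_lit 468))) (XT.nd (nat_lit 78) (nat_lit 228) (nat_lit 0) (XT.lf (nat_lit 0) (nat_lit 1774804163) (nat_lit 380) (nat_lit 5547708570) (nat_lit 76) (nat_lit 3326248934) (nat_lit 119) (nat_lit 5) (nat_lit 124) (nat_lit 5) (nat_lit 120) (nat_lit 4) (nat_lit 612) (nat_lit 481) (nat_lit 467)) (XT.lf (nat_lit 0) (nat_lit 3700718999) (nat_lit 228) (nat_lit 2930000620) (nat_lit 304) (nat_lit 4119668100)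 (nat_lit 116) (nat_lit 5) (nat_lit 119) (nat_lit 5) (nat_lit 120) (nat_lit 4) (nat_lit 613) (nat_lit 481) (nat_lit 466)))))) (XT.nd (nat_lit 546) (nat_lit 1900) (nat_lit 0) (XT.nd (nat_lit 234) (nat_lit 1216) (nat_lit 0) (XT.nd (nat_lit 78) (nat_lit 228) (nat_lit 0) (XT.lf (nat_lit 0) (nat_lit 716129566) (nat_lit 380) (nat_lit 8595443438) (nat_lit 76) (nat_lit 1542460397) (nat_lit 111) (nat_lit 5) (nat_lit 116) (nat_lit 5) (nat_lit 112) (nat_lit 4) (nat_lit 614) (nat_lit 481) (nat_lit 465)) (XT.nd (nat_lit 78) (nat_lit 0) (nat_lit 0) (XT.lf (nat_lit 0) (nat_lit 740344188) (nat_lit 228) (nat_lit 4858943645) (nat_lit 304) (nat_lit 5359805088) (nat_lit 108) (nat_lit 5) (nat_lit 111) (nat_lit 5) (nat_lit 112) (nat_lit 4) (nat_lit 615) (nat_lit 481) (nat_lit 464)) (XT.lf (nat_lit 0) (nat_lit 10267964987) (nat_lit 228) (nat_lit 304320946) (nat_lit 304) (nat_lit 494125813) (nat_lit 108) (nat_lit 5) (nat_lit 111) (nat_lit 5) (nat_lit 112) (nat_lit 4) (nat_lit 616)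 (nat_lit 481) (nat_lit 463)))) (XT.nd (nat_lit 156) (nat_lit 608) (nat_lit 0) (XT.nd (nat_lit 78) (nat_lit 228) (nat_lit 0) (XT.lf (nat_lit 0) (nat_lit 4431120675) (nat_lit 380) (nat_lit 2417503226) (nat_lit 76) (nat_lit 4326257066) (nat_lit 103) (nat_lit 5) (nat_lit 108) (nat_lit 5) (nat_lit 104) (nat_lit 4) (nat_lit 617) (nat_lit 481) (nat_lit 462)) (XT.lf (nat_lit 0) (nat_lit 7208610658) (nat_lit 228) (nat_lit 2229481163) (nat_lit 304) (nat_lit 1847567262) (nat_lit 100) (nat_lit 5) (nat_lit 103) (nat_lit 5) (nat_lit 104) (nat_lit 4) (nat_lit 618) (nat_lit 481) (nat_lit 461))) (XT.nd (nat_lit 78) (nat_lit 228) (nat_lit 0) (XT.lf (nat_lit 0) (nat_lit 3110042192) (nat_lit 380) (nat_lit 5810591884) (nat_lit 76) (nat_lit 2477516387) (nat_lit 95) (nat_lit 5) (nat_lit 100) (nat_lit 5) (nat_lit 96) (nat_lit 4) (nat_lit 619) (nat_lit 481) (nat_lit 460)) (XT.lf (nat_lit 0) (nat_lit 3901650701) (nat_lit 228) (nat_lit 4244067515) (nat_lit 304) (nat_lit 3366857606)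 (nat_lit 92) (nat_lit 5) (nat_lit 95) (nat_lit 5) (nat_lit 96) (nat_lit 4) (nat_lit 620) (nat_lit 481) (nat_lit 459))))) (XT.nd (nat_lit 312) (nat_lit 1064) (nat_lit 0) (XT.nd (nat_lit 156) (nat_lit 304) (nat_lit 0) (XT.nd (nat_lit 78) (nat_lit 228) (nat_lit 0) (XT.lf (nat_lit 0) (nat_lit 1624094521) (nat_lit 304) (nat_lit 9467865288) (nat_lit 76) (nat_lit 537257597) (nat_lit 88) (nat_lit 5) (nat_lit 92) (nat_lit 5) (nat_lit 89) (nat_lit 4) (nat_lit 621) (nat_lit 481) (nat_lit 458)) (XT.lf (nat_lit 0) (nat_lit 327551871) (nat_lit 228) (nat_lit 6360264743) (nat_lit 304) (nat_lit 5059570826) (nat_lit 85) (nat_lit 5) (nat_lit 88) (nat_lit 5) (nat_lit 89) (nat_lit 4) (nat_lit 622) (nat_lit 481) (nat_lit 457))) (XT.nd (nat_lit 78) (nat_lit 304) (nat_lit 0) (XT.lf (nat_lit 0) (nat_lit 10336872575) (nat_lit 228) (nat_lit 1516352982) (nat_lit 304) (nat_lit 14688423) (nat_lit 85) (nat_lit 5) (nat_lit 88) (nat_lit 5) (nat_lit 89) (nat_lit 4) (nat_lit 623) (nat_lit 481)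 (nat_lit 456)) (XT.lf (nat_lit 0) (nat_lit 5079368659) (nat_lit 304) (nat_lit 3487831088) (nat_lit 76) (nat_lit 3422674873) (nat_lit 81) (nat_lit 5) (nat_lit 85) (nat_lit 5) (nat_lit 82) (nat_lit 4) (nat_lit 624) (nat_lit 481) (nat_lit 455)))) (XT.nd (nat_lit 156) (nat_lit 532) (nat_lit 0) (XT.nd (nat_lit 78) (nat_lit 304) (nat_lit 0) (XT.lf (nat_lit 0) (nat_lit 6609727823) (nat_lit 228) (nat_lit 3666602465) (nat_lit 304) (nat_lit 1837919117) (nat_lit 78) (nat_lit 5) (nat_lit 81) (nat_lit 5) (nat_lit 82) (nat_lit 4) (nat_lit 625) (nat_lit 481) (nat_lit 454)) (XT.lf (nat_lit 0) (nat_lit 3292953236) (nat_lit 304) (nat_lit 7604032355) (nat_lit 76) (nat_lit 1343682364) (nat_lit 74) (nat_lit 5) (nat_lit 78) (nat_lit 5) (nat_lit 75) (nat_lit 4) (nat_lit 626) (nat_lit 481) (nat_lit 453))) (XT.nd (nat_lit 78) (nat_lit 304) (nat_lit 0) (XT.lf (nat_lit 0) (nat_lit 2573874742) (nat_lit 228) (nat_lit 5944386465) (nat_lit 304) (nat_lit 3850783341) (nat_lit 71) (nat_lit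 5) (nat_lit 74) (nat_lit 5) (nat_lit 75) (nat_lit 4) (nat_lit 627) (nat_lit 481) (nat_lit 452)) (XT.lf (nat_lit 0) (nat_lit 446573958) (nat_lit 228) (nat_lit 876423134) (nat_lit 304) (nat_lit 11176965864) (nat_lit 67) (nat_lit 5) (nat_lit 70) (nat_lit 5) (nat_lit 71) (nat_lit 5) (nat_lit 628) (nat_lit 481) (nat_lit 451))))))) (XT.nd (nat_lit 1092) (nat_lit 1216) (nat_lit 0) (XT.nd (nat_lit 546) (nat_lit 1216) (nat_lit 0) (XT.nd (nat_lit 234) (nat_lit 608) (nat_lit 0) (XT.nd (nat_lit 78) (nat_lit 456) (nat_lit 0) (XT.lf (nat_lit 0) (nat_lit 6581296252) (nat_lit 304) (nat_lit 1769898053) (nat_lit 76) (nat_lit 4281145387) (nat_lit 67) (nat_lit 5) (nat_lit 71) (nat_lit 5) (nat_lit 68) (nat_lit 4) (nat_lit 629) (nat_lit 481) (nat_lit 450)) (XT.nd (nat_lit 78) (nat_lit 304) (nat_lit 0) (XT.lf (nat_lit 0) (nat_lit 8720146337) (nat_lit 152) (nat_lit 3226760185) (nat_lit 228) (nat_lit 820415648) (nat_lit 65) (nat_lit 5) (nat_lit 67) (nat_lit 5) (nat_lit 68) (nat_lit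 4) (nat_lit 630) (nat_lit 481) (nat_lit 449)) (XT.lf (nat_lit 0) (nat_lit 4462730362) (nat_lit 304) (nat_lit 6430637698) (nat_lit 76) (nat_lit 2010908674) (nat_lit 61) (nat_lit 5) (nat_lit 65) (nat_lit 5) (nat_lit 62) (nat_lit 4) (nat_lit 631) (nat_lit 481) (nat_lit 448)))) (XT.nd (nat_lit 156) (nat_lit 152) (nat_lit 0) (XT.nd (nat_lit 78) (nat_lit 304) (nat_lit 0) (XT.lf (nat_lit 0) (nat_lit 4135610890) (nat_lit 152) (nat_lit 5720504100) (nat_lit 228) (nat_lit 3187436764) (nat_lit 59) (nat_lit 5) (nat_lit 61) (nat_lit 5) (nat_lit 62) (nat_lit 4) (nat_lit 632) (nat_lit 481) (nat_lit 447)) (XT.lf (nat_lit 0) (nat_lit 1715682730) (nat_lit 228) (nat_lit 422244421) (nat_lit 304) (nat_lit 11047511020) (nat_lit 55) (nat_lit 5) (nat_lit 58) (nat_lit 5) (nat_lit 59) (nat_lit 5) (nat_lit 633) (nat_lit 481) (nat_lit 446))) (XT.nd (nat_lit 78) (nat_lit 152) (nat_lit 0) (XT.lf (nat_lit 0) (nat_lit 7559921863) (nat_lit 304) (nat_lit 818494507) (nat_lit 76) (nat_lit 4950669487)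 (nat_lit 55) (nat_lit 5) (nat_lit 59) (nat_lit 5) (nat_lit 56) (nat_lit 4) (nat_lit 634) (nat_lit 481) (nat_lit 445)) (XT.lf (nat_lit 0) (nat_lit 10068968359) (nat_lit 152) (nat_lit 3030974767) (nat_lit 228) (nat_lit 375472604) (nat_lit 53) (nat_lit 5) (nat_lit 55) (nat_lit 5) (nat_lit 56) (nat_lit 4) (nat_lit 635) (nat_lit 481) (nat_lit 444))))) (XT.nd (nat_lit 234) (nat_lit 532) (nat_lit 0) (XT.nd (nat_lit 78) (nat_lit 380) (nat_lit 0) (XT.lf (nat_lit 0) (nat_lit 5070715688) (nat_lit 304) (nat_lit 6120240793) (nat_lit 76) (nat_lit 2432813956) (nat_lit 49) (nat_lit 5) (nat_lit 53) (nat_lit 5) (nat_lit 50) (nat_lit 4) (nat_lit 636) (nat_lit 481) (nat_lit 443)) (XT.nd (nat_lit 78) (nat_lit 228) (nat_lit 0) (XT.lf (nat_lit 0) (nat_lit 4837663377) (nat_lit 152) (nat_lit 5799283004) (nat_lit 228) (nat_lit 3137774207) (nat_lit 47) (nat_lit 5) (nat_lit 49) (nat_lit 5) (nat_lit 50) (nat_lit 4) (nat_lit 637) (nat_lit 481) (nat_lit 442)) (XT.lf (nat_lit 0) (nat_lit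 2074873725) (nat_lit 152) (nat_lit 276184528) (nat_lit 228) (nat_lit 11577391826) (nat_lit 44) (nat_lit 5) (nat_lit 46) (nat_lit 5) (nat_lit 47) (nat_lit 5) (nat_lit 638) (nat_lit 481) (nat_lit 441)))) (XT.nd (nat_lit 156) (nat_lit 380) (nat_lit 0) (XT.nd (nat_lit 78) (nat_lit 152) (nat_lit 0) (XT.lf (nat_lit 0) (nat_lit 7944713791) (nat_lit 228) (nat_lit 818369621) (nat_lit 76) (nat_lit 5321015569) (nat_lit 44) (nat_lit 5) (nat_lit 47) (nat_lit 5) (nat_lit 45) (nat_lit 4) (nat_lit 639) (nat_lit 481) (nat_lit 440)) (XT.lf (nat_lit 0) (nat_lit 10468556681) (nat_lit 152) (nat_lit 3194492221) (nat_lit 228) (nat_lit 579556671) (nat_lit 42) (nat_lit 5) (nat_lit 44) (nat_lit 5) (nat_lit 45) (nat_lit 4) (nat_lit 640) (nat_lit 481) (nat_lit 439))) (XT.nd (nat_lit 78) (nat_lit 152) (nat_lit 0) (XT.lf (nat_lit 0) (nat_lit 5038723068) (nat_lit 228) (nat_lit 6870538307) (nat_lit 76) (nat_lit 2494079984) (nat_lit 39) (nat_lit 5) (nat_lit 42) (nat_lit 5) (nat_lit 40) (nat_lit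 4) (nat_lit 641) (nat_lit 481) (nat_lit 438)) (XT.lf (nat_lit 0) (nat_lit 4479089623) (nat_lit 152) (nat_lit 6301467736) (nat_lit 228) (nat_lit 3786279694) (nat_lit 37) (nat_lit 5) (nat_lit 39) (nat_lit 5) (nat_lit 40) (nat_lit 4) (nat_lit 642) (nat_lit 481) (nat_lit 437)))))) (XT.nd (nat_lit 546) (nat_lit 304) (nat_lit 0) (XT.nd (nat_lit 234) (nat_lit 532) (nat_lit 0) (XT.nd (nat_lit 78) (nat_lit 152) (nat_lit 0) (XT.lf (nat_lit 0) (nat_lit 1316032583) (nat_lit 152) (nat_lit 560857619) (nat_lit 228) (nat_lit 12856501409) (nat_lit 34) (nat_lit 5) (nat_lit 36) (nat_lit 5) (nat_lit 37) (nat_lit 5) (nat_lit 643) (nat_lit 481) (nat_lit 436)) (XT.nd (nat_lit 78) (nat_lit 152) (nat_lit 0) (XT.lf (nat_lit 0) (nat_lit 7648593694) (nat_lit 228) (nat_lit 1982043442) (nat_lit 76) (nat_lit 5271220957) (nat_lit 34) (nat_lit 5) (nat_lit 37) (nat_lit 5) (nat_lit 35) (nat_lit 4) (nat_lit 644) (nat_lit 481) (nat_lit 435)) (XT.lf (nat_lit 0) (nat_lit 9702721516) (nat_lit 152)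 (nat_lit 3844233142) (nat_lit 228) (nat_lit 1526515512) (nat_lit 32) (nat_lit 5) (nat_lit 34) (nat_lit 5) (nat_lit 35) (nat_lit 4) (nat_lit 645) (nat_lit 481) (nat_lit 434)))) (XT.nd (nat_lit 156) (nat_lit 228) (nat_lit 0) (XT.nd (nat_lit 78) (nat_lit 76) (nat_lit 0) (XT.lf (nat_lit 0) (nat_lit 4270983244) (nat_lit 228) (nat_lit 8909420481) (nat_lit 76) (nat_lit 2067295104) (nat_lit 29) (nat_lit 5) (nat_lit 32) (nat_lit 5) (nat_lit 30) (nat_lit 4) (nat_lit 646) (nat_lit 481) (nat_lit 433)) (XT.lf (nat_lit 0) (nat_lit 2827904064) (nat_lit 76) (nat_lit 7360894647) (nat_lit 152) (nat_lit 5235916099) (nat_lit 28) (nat_lit 5) (nat_lit 29) (nat_lit 5) (nat_lit 30) (nat_lit 4) (nat_lit 647) (nat_lit 481) (nat_lit 432))) (XT.nd (nat_lit 78) (nat_lit 152) (nat_lit 0) (XT.lf (nat_lit 0) (nat_lit 616500227) (nat_lit 152) (nat_lit 790782084) (nat_lit 76) (nat_lit 14197810428) (nat_lit 27) (nat_lit 5) (nat_lit 29) (nat_lit 5) (nat_lit 28) (nat_lit 5) (nat_lit 648) (nat_lit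 481) (nat_lit 431)) (XT.lf (nat_lit 0) (nat_lit 6565580582) (nat_lit 228) (nat_lit 4555304838) (nat_lit 76) (nat_lit 4666506777) (nat_lit 25) (nat_lit 5) (nat_lit 28) (nat_lit 5) (nat_lit 26) (nat_lit 4) (nat_lit 649) (nat_lit 481) (nat_lit 430))))) (XT.nd (nat_lit 77142) (nat_lit 0) (nat_lit 11172) (XT.nd (nat_lit 76986) (nat_lit 0) (nat_lit 12464) (XT.nd (nat_lit 78) (nat_lit 228) (nat_lit 0) (XT.lf (nat_lit 0) (nat_lit 7521066685) (nat_lit 76) (nat_lit 5122006158) (nat_lit 152) (nat_lit 3330076833) (nat_lit 24) (nat_lit 5) (nat_lit 25) (nat_lit 5) (nat_lit 26) (nat_lit 4) (nat_lit 650) (nat_lit 481) (nat_lit 429)) (XT.lf (nat_lit 0) (nat_lit 2651568568) (nat_lit 228) (nat_lit 12500869277) (nat_lit 76) (nat_lit 1009692773) (nat_lit 21) (nat_lit 5) (nat_lit 24) (nat_lit 5) (nat_lit 22) (nat_lit 4) (nat_lit 651) (nat_lit 481) (nat_lit 428))) (XT.nd (nat_lit 78) (nat_lit 456) (nat_lit 0) (XT.lf (nat_lit 0) (nat_lit 1795778208) (nat_lit 456) (nat_lit 1413569246)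 (nat_lit 456) (nat_lit 1413569246) (nat_lit 191) (nat_lit 4) (nat_lit 197) (nat_lit 5) (nat_lit 197) (nat_lit 4) (nat_lit 596) (nat_lit 482) (nat_lit 482)) (XT.lf (nat_lit 0) (nat_lit 1704255329) (nat_lit 456) (nat_lit 6763636377) (nat_lit 0) (nat_lit 854691525) (nat_lit 185) (nat_lit 5) (nat_lit 191) (nat_lit 4) (nat_lit 185) (nat_lit 4) (nat_lit 597) (nat_lit 482) (nat_lit 481)))) (XT.nd (nat_lit 156) (nat_lit 456) (nat_lit 0) (XT.nd (nat_lit 78) (nat_lit 456) (nat_lit 0) (XT.lf (nat_lit 0) (nat_lit 1484332403) (nat_lit 380) (nat_lit 4799364304) (nat_lit 380) (nat_lit 3116894809) (nat_lit 180) (nat_lit 4) (nat_lit 185) (nat_lit 5) (nat_lit 185) (nat_lit 4) (nat_lit 598) (nat_lit 482) (nat_lit 480)) (XT.lf (nat_lit 0) (nat_lit 394358503) (nat_lit 380) (nat_lit 1038018825) (nat_lit 456) (nat_lit 8048050773) (nat_lit 174) (nat_lit 5) (nat_lit 179) (nat_lit 5) (nat_lit 180) (nat_lit 4) (nat_lit 599) (nat_lit 482) (nat_lit 479))) (XT.nd (nat_lit 78) (nat_lit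 456) (nat_lit 0) (XT.lf (nat_lit 0) (nat_lit 6031908033) (nat_lit 456) (nat_lit 732524161) (nat_lit 0) (nat_lit 2796999554) (nat_lit 174) (nat_lit 5) (nat_lit 180) (nat_lit 4) (nat_lit 174) (nat_lit 4) (nat_lit 600) (nat_lit 482) (nat_lit 478)) (XT.lf (nat_lit 0) (nat_lit 1053197351) (nat_lit 456) (nat_lit 1876925941) (nat_lit 76) (nat_lit 6714034877) (nat_lit 168) (nat_lit 5) (nat_lit 174) (nat_lit 5) (nat_lit 169) (nat_lit 4) (nat_lit 601) (nat_lit 482) (nat_lit 477))))))))
noncomputable def xc13 : XT := (XT.nd (nat_lit 2262) (nat_lit 3116) (nat_lit 0) (XT.nd (nat_lit 1092) (nat_lit 3496) (nat_lit 0) (XT.nd (nat_lit 546) (nat_lit 1976) (nat_lit 0) (XT.nd (nat_lit 234) (nat_lit 1216) (nat_lit 0) (XT.nd (nat_lit 78) (nat_lit 760) (nat_lit 0) (XT.lf (nat_lit 0) (nat_lit 5666127391) (nat_lit 456) (nat_lit 3061567503) (nat_lit 0) (nat_lit 1000663727) (nat_lit 163) (nat_lit 5) (nat_lit 169) (nat_lit 4) (nat_lit 163) (nat_lit 4) (nat_lit 602) (nat_lit 482) (nat_lit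 476)) (XT.nd (nat_lit 78) (nat_lit 304) (nat_lit 0) (XT.lf (nat_lit 0) (nat_lit 549092199) (nat_lit 456) (nat_lit 4281391947) (nat_lit 76) (nat_lit 4983702404) (nat_lit 157) (nat_lit 5) (nat_lit 163) (nat_lit 5) (nat_lit 158) (nat_lit 4) (nat_lit 603) (nat_lit 482) (nat_lit 475)) (XT.lf (nat_lit 0) (nat_lit 4359693618) (nat_lit 304) (nat_lit 819083013) (nat_lit 380) (nat_lit 4722809089) (nat_lit 153) (nat_lit 5) (nat_lit 157) (nat_lit 5) (nat_lit 158) (nat_lit 4) (nat_lit 604) (nat_lit 482) (nat_lit 474)))) (XT.nd (nat_lit 156) (nat_lit 456) (nat_lit 0) (XT.nd (nat_lit 78) (nat_lit 380) (nat_lit 0) (XT.lf (nat_lit 0) (nat_lit 3151328500) (nat_lit 380) (nat_lit 6752214396) (nat_lit 380) (nat_lit 87142436) (nat_lit 148) (nat_lit 4) (nat_lit 153) (nat_lit 5) (nat_lit 153) (nat_lit 4) (nat_lit 605) (nat_lit 482) (nat_lit 473)) (XT.lf (nat_lit 0) (nat_lit 1891491416) (nat_lit 304) (nat_lit 2676052464) (nat_lit 380) (nat_lit 5513678972) (nat_lit 143) (nat_lit 5)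 (nat_lit 147) (nat_lit 5) (nat_lit 148) (nat_lit 4) (nat_lit 606) (nat_lit 482) (nat_lit 472))) (XT.nd (nat_lit 78) (nat_lit 76) (nat_lit 0) (XT.lf (nat_lit 0) (nat_lit 603858221) (nat_lit 380) (nat_lit 8702424439) (nat_lit 380) (nat_lit 867436523) (nat_lit 138) (nat_lit 4) (nat_lit 143) (nat_lit 5) (nat_lit 143) (nat_lit 4) (nat_lit 607) (nat_lit 482) (nat_lit 471)) (XT.lf (nat_lit 0) (nat_lit 3826547210) (nat_lit 456) (nat_lit 736600972) (nat_lit 76) (nat_lit 5704304618) (nat_lit 137) (nat_lit 5) (nat_lit 143) (nat_lit 5) (nat_lit 138) (nat_lit 4) (nat_lit 608) (nat_lit 482) (nat_lit 470))))) (XT.nd (nat_lit 234) (nat_lit 988) (nat_lit 0) (XT.nd (nat_lit 78) (nat_lit 684) (nat_lit 0) (XT.lf (nat_lit 0) (nat_lit 8267435655) (nat_lit 304) (nat_lit 322922359) (nat_lit 380) (nat_lit 1772839125) (nat_lit 133) (nat_lit 5) (nat_lit 137) (nat_lit 5) (nat_lit 138) (nat_lit 4) (nat_lit 609) (nat_lit 482) (nat_lit 469)) (XT.nd (nat_lit 78) (nat_lit 304) (nat_lit 0)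 (XT.lf (nat_lit 0) (nat_lit 2959784808) (nat_lit 380) (nat_lit 3523013311) (nat_lit 76) (nat_lit 3977464223) (nat_lit 128) (nat_lit 5) (nat_lit 133) (nat_lit 5) (nat_lit 129) (nat_lit 4) (nat_lit 610) (nat_lit 482) (nat_lit 468)) (XT.lf (nat_lit 0) (nat_lit 5570370679) (nat_lit 304) (nat_lit 2179785772) (nat_lit 380) (nat_lit 2809143218) (nat_lit 124) (nat_lit 5) (nat_lit 128) (nat_lit 5) (nat_lit 129) (nat_lit 4) (nat_lit 611) (nat_lit 482) (nat_lit 467)))) (XT.nd (nat_lit 156) (nat_lit 380) (nat_lit 0) (XT.nd (nat_lit 78) (nat_lit 228) (nat_lit 0) (XT.lf (nat_lit 0) (nat_lit 1949930748) (nat_lit 380) (nat_lit 6508862866) (nat_lit 76) (nat_lit 2201272746) (nat_lit 119) (nat_lit 5) (nat_lit 124) (nat_lit 5) (nat_lit 120) (nat_lit 4) (nat_lit 612) (nat_lit 482) (nat_lit 466)) (XT.lf (nat_lit 0) (nat_lit 2671859285) (nat_lit 228) (nat_lit 4095028485) (nat_lit 304) (nat_lit 3995584679) (nat_lit 116) (nat_lit 5) (nat_lit 119) (nat_lit 5) (nat_lit 120) (nat_lit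 4) (nat_lit 613) (nat_lit 482) (nat_lit 465))) (XT.nd (nat_lit 78) (nat_lit 0) (nat_lit 0) (XT.lf (nat_lit 0) (nat_lit 791417100) (nat_lit 380) (nat_lit 9711151108) (nat_lit 76) (nat_lit 364478013) (nat_lit 111) (nat_lit 5) (nat_lit 116) (nat_lit 5) (nat_lit 112) (nat_lit 4) (nat_lit 614) (nat_lit 482) (nat_lit 464)) (XT.lf (nat_lit 0) (nat_lit 5637699243) (nat_lit 380) (nat_lit 439496544) (nat_lit 76) (nat_lit 4895648292) (nat_lit 111) (nat_lit 5) (nat_lit 116) (nat_lit 5) (nat_lit 112) (nat_lit 4) (nat_lit 615) (nat_lit 482) (nat_lit 463)))))) (XT.nd (nat_lit 546) (nat_lit 1748) (nat_lit 0) (XT.nd (nat_lit 234) (nat_lit 912) (nat_lit 0) (XT.nd (nat_lit 78) (nat_lit 608) (nat_lit 0) (XT.lf (nat_lit 0) (nat_lit 9028218309) (nat_lit 228) (nat_lit 1547796075) (nat_lit 304) (nat_lit 504842984) (nat_lit 108) (nat_lit 5) (nat_lit 111) (nat_lit 5) (nat_lit 112) (nat_lit 4) (nat_lit 616) (nat_lit 482) (nat_lit 462)) (XT.nd (nat_lit 78) (nat_lit 228) (nat_lit 0) (XT.lf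 (nat_lit 0) (nat_lit 4372292387) (nat_lit 380) (nat_lit 3749398724) (nat_lit 76) (nat_lit 3068602671) (nat_lit 103) (nat_lit 5) (nat_lit 108) (nat_lit 5) (nat_lit 104) (nat_lit 4) (nat_lit 617) (nat_lit 482) (nat_lit 461)) (XT.lf (nat_lit 0) (nat_lit 5804751638) (nat_lit 228) (nat_lit 3534149757) (nat_lit 304) (nat_lit 1962978501) (nat_lit 100) (nat_lit 5) (nat_lit 103) (nat_lit 5) (nat_lit 104) (nat_lit 4) (nat_lit 618) (nat_lit 482) (nat_lit 460)))) (XT.nd (nat_lit 156) (nat_lit 304) (nat_lit 0) (XT.nd (nat_lit 78) (nat_lit 228) (nat_lit 0) (XT.lf (nat_lit 0) (nat_lit 2946582670) (nat_lit 380) (nat_lit 7311480090) (nat_lit 76) (nat_lit 1157315467) (nat_lit 95) (nat_lit 5) (nat_lit 100) (nat_lit 5) (nat_lit 96) (nat_lit 4) (nat_lit 619) (nat_lit 482) (nat_lit 459)) (XT.lf (nat_lit 0) (nat_lit 2326366511) (nat_lit 228) (nat_lit 5614599054) (nat_lit 304) (nat_lit 3589664595) (nat_lit 92) (nat_lit 5) (nat_lit 95) (nat_lit 5) (nat_lit 96) (nat_lit 4) (nat_lit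 620) (nat_lit 482) (nat_lit 458))) (XT.nd (nat_lit 78) (nat_lit 0) (nat_lit 0) (XT.lf (nat_lit 0) (nat_lit 497400087) (nat_lit 228) (nat_lit 861440631) (nat_lit 304) (nat_lit 10289368021) (nat_lit 88) (nat_lit 5) (nat_lit 91) (nat_lit 5) (nat_lit 92) (nat_lit 5) (nat_lit 621) (nat_lit 482) (nat_lit 457)) (XT.lf (nat_lit 0) (nat_lit 6383949261) (nat_lit 304) (nat_lit 1408003766) (nat_lit 76) (nat_lit 3975198688) (nat_lit 88) (nat_lit 5) (nat_lit 92) (nat_lit 5) (nat_lit 89) (nat_lit 4) (nat_lit 622) (nat_lit 482) (nat_lit 456))))) (XT.nd (nat_lit 312) (nat_lit 684) (nat_lit 0) (XT.nd (nat_lit 156) (nat_lit 532) (nat_lit 0) (XT.nd (nat_lit 78) (nat_lit 304) (nat_lit 0) (XT.lf (nat_lit 0) (nat_lit 8529050560) (nat_lit 228) (nat_lit 2980408686) (nat_lit 304) (nat_lit 379017646) (nat_lit 85) (nat_lit 5) (nat_lit 88) (nat_lit 5) (nat_lit 89) (nat_lit 4) (nat_lit 623) (nat_lit 482) (nat_lit 455)) (XT.lf (nat_lit 0) (nat_lit 4667471349) (nat_lit 304) (nat_lit 5403440000)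 (nat_lit 76) (nat_lit 1940621049) (nat_lit 81) (nat_lit 5) (nat_lit 85) (nat_lit 5) (nat_lit 82) (nat_lit 4) (nat_lit 624) (nat_lit 482) (nat_lit 454))) (XT.nd (nat_lit 78) (nat_lit 304) (nat_lit 0) (XT.lf (nat_lit 0) (nat_lit 4614944248) (nat_lit 228) (nat_lit 5206407665) (nat_lit 304) (nat_lit 2315417512) (nat_lit 78) (nat_lit 5) (nat_lit 81) (nat_lit 5) (nat_lit 82) (nat_lit 4) (nat_lit 625) (nat_lit 482) (nat_lit 453)) (XT.lf (nat_lit 0) (nat_lit 2550911875) (nat_lit 228) (nat_lit 218285736) (nat_lit 304) (nat_lit 9495103357) (nat_lit 74) (nat_lit 5) (nat_lit 77) (nat_lit 5) (nat_lit 78) (nat_lit 5) (nat_lit 626) (nat_lit 482) (nat_lit 452)))) (XT.nd (nat_lit 156) (nat_lit 380) (nat_lit 0) (XT.nd (nat_lit 78) (nat_lit 76) (nat_lit 0) (XT.lf (nat_lit 0) (nat_lit 384051514) (nat_lit 228) (nat_lit 7564838735) (nat_lit 304) (nat_lit 4444700202) (nat_lit 71) (nat_lit 5) (nat_lit 74) (nat_lit 5) (nat_lit 75) (nat_lit 4) (nat_lit 627) (nat_lit 482) (nat_lit 451))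 (XT.lf (nat_lit 0) (nat_lit 704037267) (nat_lit 304) (nat_lit 1823008378) (nat_lit 76) (nat_lit 9998197543) (nat_lit 70) (nat_lit 5) (nat_lit 74) (nat_lit 5) (nat_lit 71) (nat_lit 5) (nat_lit 628) (nat_lit 482) (nat_lit 450))) (XT.nd (nat_lit 78) (nat_lit 152) (nat_lit 0) (XT.lf (nat_lit 0) (nat_lit 5909706997) (nat_lit 304) (nat_lit 4131737157) (nat_lit 76) (nat_lit 2617228909) (nat_lit 67) (nat_lit 5) (nat_lit 71) (nat_lit 5) (nat_lit 68) (nat_lit 4) (nat_lit 629) (nat_lit 482) (nat_lit 449)) (XT.lf (nat_lit 0) (nat_lit 6273964129) (nat_lit 152) (nat_lit 4956216401) (nat_lit 228) (nat_lit 1564378286) (nat_lit 65) (nat_lit 5) (nat_lit 67) (nat_lit 5) (nat_lit 68) (nat_lit 4) (nat_lit 630) (nat_lit 482) (nat_lit 448))))))) (XT.nd (nat_lit 1170) (nat_lit 608) (nat_lit 0) (XT.nd (nat_lit 546) (nat_lit 1140) (nat_lit 0) (XT.nd (nat_lit 234) (nat_lit 836) (nat_lit 0) (XT.nd (nat_lit 78) (nat_lit 228) (nat_lit 0) (XT.lf (nat_lit 0) (nat_lit 3671208891) (nat_lit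 304) (nat_lit 9001762619) (nat_lit 76) (nat_lit 259785313) (nat_lit 61) (nat_lit 5) (nat_lit 65) (nat_lit 5) (nat_lit 62) (nat_lit 4) (nat_lit 631) (nat_lit 482) (nat_lit 447)) (XT.nd (nat_lit 78) (nat_lit 76) (nat_lit 0) (XT.lf (nat_lit 0) (nat_lit 1477228275) (nat_lit 152) (nat_lit 7540980749) (nat_lit 228) (nat_lit 4054751019) (nat_lit 59) (nat_lit 5) (nat_lit 61) (nat_lit 5) (nat_lit 62) (nat_lit 4) (nat_lit 632) (nat_lit 482) (nat_lit 446)) (XT.lf (nat_lit 0) (nat_lit 1241765330) (nat_lit 228) (nat_lit 1041413310) (nat_lit 76) (nat_lit 10932585382) (nat_lit 58) (nat_lit 5) (nat_lit 61) (nat_lit 5) (nat_lit 59) (nat_lit 5) (nat_lit 633) (nat_lit 482) (nat_lit 445)))) (XT.nd (nat_lit 156) (nat_lit 456) (nat_lit 0) (XT.nd (nat_lit 78) (nat_lit 152) (nat_lit 0) (XT.lf (nat_lit 0) (nat_lit 6615778824) (nat_lit 304) (nat_lit 3660281952) (nat_lit 76) (nat_lit 3084311035) (nat_lit 55) (nat_lit 5) (nat_lit 59) (nat_lit 5) (nat_lit 56) (nat_lit 4) (nat_lit 634)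 (nat_lit 482) (nat_lit 444)) (XT.lf (nat_lit 0) (nat_lit 7137244074) (nat_lit 152) (nat_lit 4971087959) (nat_lit 228) (nat_lit 1399319482) (nat_lit 53) (nat_lit 5) (nat_lit 55) (nat_lit 5) (nat_lit 56) (nat_lit 4) (nat_lit 635) (nat_lit 482) (nat_lit 443))) (XT.nd (nat_lit 78) (nat_lit 152) (nat_lit 0) (XT.lf (nat_lit 0) (nat_lit 3999184773) (nat_lit 304) (nat_lit 9189476269) (nat_lit 76) (nat_lit 468700821) (nat_lit 49) (nat_lit 5) (nat_lit 53) (nat_lit 5) (nat_lit 50) (nat_lit 4) (nat_lit 636) (nat_lit 482) (nat_lit 442)) (XT.lf (nat_lit 0) (nat_lit 1675352360) (nat_lit 152) (nat_lit 7841211093) (nat_lit 228) (nat_lit 4292726044) (nat_lit 47) (nat_lit 5) (nat_lit 49) (nat_lit 5) (nat_lit 50) (nat_lit 4) (nat_lit 637) (nat_lit 482) (nat_lit 441))))) (XT.nd (nat_lit 312) (nat_lit 532) (nat_lit 0) (XT.nd (nat_lit 156) (nat_lit 380) (nat_lit 0) (XT.nd (nat_lit 78) (nat_lit 152) (nat_lit 0) (XT.lf (nat_lit 0) (nat_lit 1169498135) (nat_lit 228) (nat_lit 1193357918)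 (nat_lit 76) (nat_lit 11601148447) (nat_lit 46) (nat_lit 5) (nat_lit 49) (nat_lit 5) (nat_lit 47) (nat_lit 5) (nat_lit 638) (nat_lit 482) (nat_lit 440)) (XT.lf (nat_lit 0) (nat_lit 6713489026) (nat_lit 228) (nat_lit 4176280930) (nat_lit 76) (nat_lit 3230877155) (nat_lit 44) (nat_lit 5) (nat_lit 47) (nat_lit 5) (nat_lit 45) (nat_lit 4) (nat_lit 639) (nat_lit 482) (nat_lit 439))) (XT.nd (nat_lit 78) (nat_lit 228) (nat_lit 0) (XT.lf (nat_lit 0) (nat_lit 7014651515) (nat_lit 152) (nat_lit 5367087228) (nat_lit 228) (nat_lit 1898417077) (nat_lit 42) (nat_lit 5) (nat_lit 44) (nat_lit 5) (nat_lit 45) (nat_lit 4) (nat_lit 640) (nat_lit 482) (nat_lit 438)) (XT.lf (nat_lit 0) (nat_lit 3671818531) (nat_lit 228) (nat_lit 10475392871) (nat_lit 76) (nat_lit 295158680) (nat_lit 39) (nat_lit 5) (nat_lit 42) (nat_lit 5) (nat_lit 40) (nat_lit 4) (nat_lit 641) (nat_lit 482) (nat_lit 437)))) (XT.nd (nat_lit 156) (nat_lit 304) (nat_lit 0) (XT.nd (nat_lit 78) (nat_lit 76) (nat_lit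 0) (XT.lf (nat_lit 0) (nat_lit 774858438) (nat_lit 152) (nat_lit 8587182221) (nat_lit 228) (nat_lit 5244857744) (nat_lit 37) (nat_lit 5) (nat_lit 39) (nat_lit 5) (nat_lit 40) (nat_lit 4) (nat_lit 642) (nat_lit 482) (nat_lit 436)) (XT.lf (nat_lit 0) (nat_lit 401366585) (nat_lit 228) (nat_lit 2486876920) (nat_lit 76) (nat_lit 11886120731) (nat_lit 36) (nat_lit 5) (nat_lit 39) (nat_lit 5) (nat_lit 37) (nat_lit 5) (nat_lit 643) (nat_lit 482) (nat_lit 435))) (XT.nd (nat_lit 78) (nat_lit 152) (nat_lit 0) (XT.lf (nat_lit 0) (nat_lit 6114020755) (nat_lit 228) (nat_lit 5894971697) (nat_lit 76) (nat_lit 2935019615) (nat_lit 34) (nat_lit 5) (nat_lit 37) (nat_lit 5) (nat_lit 35) (nat_lit 4) (nat_lit 644) (nat_lit 482) (nat_lit 434)) (XT.lf (nat_lit 0) (nat_lit 5687238395) (nat_lit 152) (nat_lit 6272141748) (nat_lit 228) (nat_lit 3157304387) (nat_lit 32) (nat_lit 5) (nat_lit 34) (nat_lit 5) (nat_lit 35) (nat_lit 4) (nat_lit 645) (nat_lit 482) (nat_lit 433)))))) (XT.nd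 (nat_lit 77298) (nat_lit 0) (nat_lit 10108) (XT.nd (nat_lit 234) (nat_lit 304) (nat_lit 0) (XT.nd (nat_lit 78) (nat_lit 76) (nat_lit 0) (XT.lf (nat_lit 0) (nat_lit 2199660305) (nat_lit 152) (nat_lit 394459333) (nat_lit 228) (nat_lit 12698354913) (nat_lit 29) (nat_lit 5) (nat_lit 31) (nat_lit 5) (nat_lit 32) (nat_lit 5) (nat_lit 646) (nat_lit 482) (nat_lit 432)) (XT.nd (nat_lit 78) (nat_lit 76) (nat_lit 0) (XT.lf (nat_lit 0) (nat_lit 8464168752) (nat_lit 228) (nat_lit 1439994950) (nat_lit 76) (nat_lit 5566282492) (nat_lit 29) (nat_lit 5) (nat_lit 32) (nat_lit 5) (nat_lit 30) (nat_lit 4) (nat_lit 647) (nat_lit 482) (nat_lit 431)) (XT.lf (nat_lit 0) (nat_lit 10481762836) (nat_lit 76) (nat_lit 3987359980) (nat_lit 152) (nat_lit 1182505040) (nat_lit 28) (nat_lit 5) (nat_lit 29) (nat_lit 5) (nat_lit 30) (nat_lit 4) (nat_lit 648) (nat_lit 482) (nat_lit 430)))) (XT.nd (nat_lit 76908) (nat_lit 0) (nat_lit 13148) (XT.nd (nat_lit 78) (nat_lit 76) (nat_lit 0) (XT.lf (nat_lit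 0) (nat_lit 4709568137) (nat_lit 228) (nat_lit 9065134473) (nat_lit 76) (nat_lit 2060828891) (nat_lit 25) (nat_lit 5) (nat_lit 28) (nat_lit 5) (nat_lit 26) (nat_lit 4) (nat_lit 649) (nat_lit 482) (nat_lit 429)) (XT.lf (nat_lit 0) (nat_lit 2901573473) (nat_lit 76) (nat_lit 7829255074) (nat_lit 152) (nat_lit 5291585379) (nat_lit 24) (nat_lit 5) (nat_lit 25) (nat_lit 5) (nat_lit 26) (nat_lit 4) (nat_lit 650) (nat_lit 482) (nat_lit 428))) (XT.nd (nat_lit 78) (nat_lit 456) (nat_lit 0) (XT.lf (nat_lit 0) (nat_lit 2822791191) (nat_lit 456) (nat_lit 862715908) (nat_lit 456) (nat_lit 862715908) (nat_lit 203) (nat_lit 4) (nat_lit 209) (nat_lit 5) (nat_lit 209) (nat_lit 4) (nat_lit 594) (nat_lit 483) (nat_lit 483)) (XT.lf (nat_lit 0) (nat_lit 2744211503) (nat_lit 456) (nat_lit 4566197709) (nat_lit 0) (nat_lit 1860325321) (nat_lit 197) (nat_lit 5) (nat_lit 203) (nat_lit 4) (nat_lit 197) (nat_lit 4) (nat_lit 595) (nat_lit 483) (nat_lit 482))))) (XT.nd (nat_lit 312) (nat_lit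 1292) (nat_lit 0) (XT.nd (nat_lit 156) (nat_lit 836) (nat_lit 0) (XT.nd (nat_lit 78) (nat_lit 456) (nat_lit 0) (XT.lf (nat_lit 0) (nat_lit 3537596060) (nat_lit 456) (nat_lit 3729692921) (nat_lit 456) (nat_lit 1979251659) (nat_lit 191) (nat_lit 4) (nat_lit 197) (nat_lit 5) (nat_lit 197) (nat_lit 4) (nat_lit 596) (nat_lit 483) (nat_lit 481)) (XT.lf (nat_lit 0) (nat_lit 2449634241) (nat_lit 380) (nat_lit 50187198) (nat_lit 456) (nat_lit 6824184281) (nat_lit 185) (nat_lit 5) (nat_lit 190) (nat_lit 5) (nat_lit 191) (nat_lit 4) (nat_lit 597) (nat_lit 483) (nat_lit 480))) (XT.nd (nat_lit 78) (nat_lit 456) (nat_lit 0) (XT.lf (nat_lit 0) (nat_lit 1318157416) (nat_lit 380) (nat_lit 5725088511) (nat_lit 380) (nat_lit 2359489730) (nat_lit 180) (nat_lit 4) (nat_lit 185) (nat_lit 5) (nat_lit 185) (nat_lit 4) (nat_lit 598) (nat_lit 483) (nat_lit 479)) (XT.lf (nat_lit 0) (nat_lit 164412388) (nat_lit 380) (nat_lit 1979436184) (nat_lit 456) (nat_lit 7339346587) (nat_lit 174)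 (nat_lit 5) (nat_lit 179) (nat_lit 5) (nat_lit 180) (nat_lit 4) (nat_lit 599) (nat_lit 483) (nat_lit 478)))) (XT.nd (nat_lit 156) (nat_lit 836) (nat_lit 0) (XT.nd (nat_lit 78) (nat_lit 456) (nat_lit 0) (XT.lf (nat_lit 0) (nat_lit 6702965476) (nat_lit 456) (nat_lit 1013025766) (nat_lit 0) (nat_lit 1849017080) (nat_lit 174) (nat_lit 5) (nat_lit 180) (nat_lit 4) (nat_lit 174) (nat_lit 4) (nat_lit 600) (nat_lit 483) (nat_lit 477)) (XT.lf (nat_lit 0) (nat_lit 1675863679) (nat_lit 456) (nat_lit 2223092109) (nat_lit 76) (nat_lit 5749414678) (nat_lit 168) (nat_lit 5) (nat_lit 174) (nat_lit 5) (nat_lit 169) (nat_lit 4) (nat_lit 601) (nat_lit 483) (nat_lit 476))) (XT.nd (nat_lit 78) (nat_lit 456) (nat_lit 0) (XT.lf (nat_lit 0) (nat_lit 6246202140) (nat_lit 456) (nat_lit 3464483518) (nat_lit 0) (nat_lit 22738259) (nat_lit 163) (nat_lit 5) (nat_lit 169) (nat_lit 4) (nat_lit 163) (nat_lit 4) (nat_lit 602) (nat_lit 483) (nat_lit 475)) (XT.lf (nat_lit 0) (nat_lit 1079976216)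 (nat_lit 456) (nat_lit 4752788909) (nat_lit 76) (nat_lit 3987144856) (nat_lit 157) (nat_lit 5) (nat_lit 163) (nat_lit 5) (nat_lit 158) (nat_lit 4) (nat_lit 603) (nat_lit 483) (nat_lit 474))))))))
noncomputable def xc14 : XT := (XT.nd (nat_lit 2262) (nat_lit 2736) (nat_lit 0) (XT.nd (nat_lit 1092) (nat_lit 3192) (nat_lit 0) (XT.nd (nat_lit 546) (nat_lit 1900) (nat_lit 0) (XT.nd (nat_lit 234) (nat_lit 1140) (nat_lit 0) (XT.nd (nat_lit 78) (nat_lit 760) (nat_lit 0) (XT.lf (nat_lit 0) (nat_lit 3828096918) (nat_lit 304) (nat_lit 1844861501) (nat_lit 380) (nat_lit 4235085877) (nat_lit 153) (nat_lit 5) (nat_lit 157) (nat_lit 5) (nat_lit 158) (nat_lit 4) (nat_lit 604) (nat_lit 483) (nat_lit 473)) (XT.nd (nat_lit 78) (nat_lit 304) (nat_lit 0) (XT.lf (nat_lit 0) (nat_lit 351458470) (nat_lit 456) (nat_lit 7441575318) (nat_lit 76) (nat_lit 2204936533) (nat_lit 147) (nat_lit 5) (nat_lit 153) (nat_lit 5) (nat_lit 148) (nat_lit 4) (nat_lit 605) (nat_lit 483) (nat_lit 472))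 (XT.lf (nat_lit 0) (nat_lit 1226489439) (nat_lit 304) (nat_lit 3741209234) (nat_lit 380) (nat_lit 5121544953) (nat_lit 143) (nat_lit 5) (nat_lit 147) (nat_lit 5) (nat_lit 148) (nat_lit 4) (nat_lit 606) (nat_lit 483) (nat_lit 471)))) (XT.nd (nat_lit 156) (nat_lit 684) (nat_lit 0) (XT.nd (nat_lit 78) (nat_lit 456) (nat_lit 0) (XT.lf (nat_lit 0) (nat_lit 9662784400) (nat_lit 380) (nat_lit 123834521) (nat_lit 0) (nat_lit 395995115) (nat_lit 143) (nat_lit 5) (nat_lit 148) (nat_lit 4) (nat_lit 143) (nat_lit 4) (nat_lit 607) (nat_lit 483) (nat_lit 470)) (XT.lf (nat_lit 0) (nat_lit 4136039349) (nat_lit 456) (nat_lit 1530850994) (nat_lit 76) (nat_lit 4610084263) (nat_lit 137) (nat_lit 5) (nat_lit 143) (nat_lit 5) (nat_lit 138) (nat_lit 4) (nat_lit 608) (nat_lit 483) (nat_lit 469))) (XT.nd (nat_lit 78) (nat_lit 380) (nat_lit 0) (XT.lf (nat_lit 0) (nat_lit 7409235140) (nat_lit 304) (nat_lit 1452949159) (nat_lit 380) (nat_lit 1511288922) (nat_lit 133) (nat_lit 5) (nat_lit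 137) (nat_lit 5) (nat_lit 138) (nat_lit 4) (nat_lit 609) (nat_lit 483) (nat_lit 468)) (XT.lf (nat_lit 0) (nat_lit 3172316081) (nat_lit 380) (nat_lit 4461732503) (nat_lit 76) (nat_lit 2837368571) (nat_lit 128) (nat_lit 5) (nat_lit 133) (nat_lit 5) (nat_lit 129) (nat_lit 4) (nat_lit 610) (nat_lit 483) (nat_lit 467))))) (XT.nd (nat_lit 234) (nat_lit 988) (nat_lit 0) (XT.nd (nat_lit 78) (nat_lit 608) (nat_lit 0) (XT.lf (nat_lit 0) (nat_lit 4565544372) (nat_lit 304) (nat_lit 3358756343) (nat_lit 380) (nat_lit 2646922408) (nat_lit 124) (nat_lit 5) (nat_lit 128) (nat_lit 5) (nat_lit 129) (nat_lit 4) (nat_lit 611) (nat_lit 483) (nat_lit 466)) (XT.nd (nat_lit 78) (nat_lit 228) (nat_lit 0) (XT.lf (nat_lit 0) (nat_lit 2063357507) (nat_lit 380) (nat_lit 7598747958) (nat_lit 76) (nat_lit 1010797482) (nat_lit 119) (nat_lit 5) (nat_lit 124) (nat_lit 5) (nat_lit 120) (nat_lit 4) (nat_lit 612) (nat_lit 483) (nat_lit 465)) (XT.lf (nat_lit 0) (nat_lit 1513635112) (nat_lit 228)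 (nat_lit 5327513971) (nat_lit 304) (nat_lit 3934944111) (nat_lit 116) (nat_lit 5) (nat_lit 119) (nat_lit 5) (nat_lit 120) (nat_lit 4) (nat_lit 613) (nat_lit 483) (nat_lit 464)))) (XT.nd (nat_lit 156) (nat_lit 608) (nat_lit 0) (XT.nd (nat_lit 78) (nat_lit 304) (nat_lit 0) (XT.lf (nat_lit 0) (nat_lit 809767408) (nat_lit 304) (nat_lit 82309083) (nat_lit 76) (nat_lit 9989413318) (nat_lit 115) (nat_lit 5) (nat_lit 119) (nat_lit 5) (nat_lit 116) (nat_lit 5) (nat_lit 614) (nat_lit 483) (nat_lit 463)) (XT.lf (nat_lit 0) (nat_lit 5618271997) (nat_lit 380) (nat_lit 1740809658) (nat_lit 76) (nat_lit 3628962365) (nat_lit 111) (nat_lit 5) (nat_lit 116) (nat_lit 5) (nat_lit 112) (nat_lit 4) (nat_lit 615) (nat_lit 483) (nat_lit 462))) (XT.nd (nat_lit 78) (nat_lit 380) (nat_lit 0) (XT.lf (nat_lit 0) (nat_lit 7656606265) (nat_lit 228) (nat_lit 2860251430) (nat_lit 304) (nat_lit 579994986) (nat_lit 108) (nat_lit 5) (nat_lit 111) (nat_lit 5) (nat_lit 112) (nat_lit 4) (nat_lit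 616) (nat_lit 483) (nat_lit 461)) (XT.lf (nat_lit 0) (nat_lit 4249167880) (nat_lit 380) (nat_lit 5216106480) (nat_lit 76) (nat_lit 1742004413) (nat_lit 103) (nat_lit 5) (nat_lit 108) (nat_lit 5) (nat_lit 104) (nat_lit 4) (nat_lit 617) (nat_lit 483) (nat_lit 460)))))) (XT.nd (nat_lit 546) (nat_lit 1520) (nat_lit 0) (XT.nd (nat_lit 234) (nat_lit 836) (nat_lit 0) (XT.nd (nat_lit 78) (nat_lit 608) (nat_lit 0) (XT.lf (nat_lit 0) (nat_lit 4265352765) (nat_lit 228) (nat_lit 4909794664) (nat_lit 304) (nat_lit 2144530787) (nat_lit 100) (nat_lit 5) (nat_lit 103) (nat_lit 5) (nat_lit 104) (nat_lit 4) (nat_lit 618) (nat_lit 483) (nat_lit 459)) (XT.nd (nat_lit 78) (nat_lit 228) (nat_lit 0) (XT.lf (nat_lit 0) (nat_lit 2481705445) (nat_lit 304) (nat_lit 236934865) (nat_lit 380) (nat_lit 8715535947) (nat_lit 95) (nat_lit 5) (nat_lit 99) (nat_lit 5) (nat_lit 100) (nat_lit 5) (nat_lit 619) (nat_lit 483) (nat_lit 458)) (XT.lf (nat_lit 0) (nat_lit 611744345) (nat_lit 228) (nat_lit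 7058151843) (nat_lit 304) (nat_lit 3880395240) (nat_lit 92) (nat_lit 5) (nat_lit 95) (nat_lit 5) (nat_lit 96) (nat_lit 4) (nat_lit 620) (nat_lit 483) (nat_lit 457)))) (XT.nd (nat_lit 156) (nat_lit 532) (nat_lit 0) (XT.nd (nat_lit 78) (nat_lit 228) (nat_lit 0) (XT.lf (nat_lit 0) (nat_lit 1038294109) (nat_lit 304) (nat_lit 1294259495) (nat_lit 76) (nat_lit 9336027404) (nat_lit 91) (nat_lit 5) (nat_lit 95) (nat_lit 5) (nat_lit 92) (nat_lit 5) (nat_lit 621) (nat_lit 483) (nat_lit 456)) (XT.lf (nat_lit 0) (nat_lit 6014991892) (nat_lit 304) (nat_lit 3280650481) (nat_lit 76) (nat_lit 2492850482) (nat_lit 88) (nat_lit 5) (nat_lit 92) (nat_lit 5) (nat_lit 89) (nat_lit 4) (nat_lit 622) (nat_lit 483) (nat_lit 455))) (XT.nd (nat_lit 78) (nat_lit 304) (nat_lit 0) (XT.lf (nat_lit 0) (nat_lit 6579012700) (nat_lit 228) (nat_lit 4519134060) (nat_lit 304) (nat_lit 812519020) (nat_lit 85) (nat_lit 5) (nat_lit 88) (nat_lit 5) (nat_lit 89) (nat_lit 4) (nat_lit 623) (nat_lit 483)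 (nat_lit 454)) (XT.lf (nat_lit 0) (nat_lit 4186474286) (nat_lit 304) (nat_lit 7464446781) (nat_lit 76) (nat_lit 383920754) (nat_lit 81) (nat_lit 5) (nat_lit 85) (nat_lit 5) (nat_lit 82) (nat_lit 4) (nat_lit 624) (nat_lit 483) (nat_lit 453))))) (XT.nd (nat_lit 312) (nat_lit 684) (nat_lit 0) (XT.nd (nat_lit 156) (nat_lit 304) (nat_lit 0) (XT.nd (nat_lit 78) (nat_lit 304) (nat_lit 0) (XT.lf (nat_lit 0) (nat_lit 2473883821) (nat_lit 228) (nat_lit 6823031012) (nat_lit 304) (nat_lit 2864033420) (nat_lit 78) (nat_lit 5) (nat_lit 81) (nat_lit 5) (nat_lit 82) (nat_lit 4) (nat_lit 625) (nat_lit 483) (nat_lit 452)) (XT.lf (nat_lit 0) (nat_lit 307791869) (nat_lit 228) (nat_lit 1875931751) (nat_lit 304) (nat_lit 10105709067) (nat_lit 74) (nat_lit 5) (nat_lit 77) (nat_lit 5) (nat_lit 78) (nat_lit 5) (nat_lit 626) (nat_lit 483) (nat_lit 451))) (XT.nd (nat_lit 78) (nat_lit 304) (nat_lit 0) (XT.lf (nat_lit 0) (nat_lit 7320767759) (nat_lit 304) (nat_lit 1930595968) (nat_lit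 76) (nat_lit 3168211984) (nat_lit 74) (nat_lit 5) (nat_lit 78) (nat_lit 5) (nat_lit 75) (nat_lit 4) (nat_lit 627) (nat_lit 483) (nat_lit 450)) (XT.lf (nat_lit 0) (nat_lit 16376937) (nat_lit 304) (nat_lit 4237389766) (nat_lit 76) (nat_lit 8298389862) (nat_lit 70) (nat_lit 5) (nat_lit 74) (nat_lit 5) (nat_lit 71) (nat_lit 5) (nat_lit 628) (nat_lit 483) (nat_lit 449)))) (XT.nd (nat_lit 156) (nat_lit 304) (nat_lit 0) (XT.nd (nat_lit 78) (nat_lit 152) (nat_lit 0) (XT.lf (nat_lit 0) (nat_lit 5165591867) (nat_lit 304) (nat_lit 6646380232) (nat_lit 76) (nat_lit 874743974) (nat_lit 67) (nat_lit 5) (nat_lit 71) (nat_lit 5) (nat_lit 68) (nat_lit 4) (nat_lit 629) (nat_lit 483) (nat_lit 448)) (XT.lf (nat_lit 0) (nat_lit 3673985607) (nat_lit 152) (nat_lit 6766518125) (nat_lit 228) (nat_lit 2383009855) (nat_lit 65) (nat_lit 5) (nat_lit 67) (nat_lit 5) (nat_lit 68) (nat_lit 4) (nat_lit 630) (nat_lit 483) (nat_lit 447))) (XT.nd (nat_lit 78) (nat_lit 0) (nat_lit 0) (XT.lf (nat_lit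 0) (nat_lit 1222291044) (nat_lit 228) (nat_lit 1593077749) (nat_lit 304) (nat_lit 10147408514) (nat_lit 61) (nat_lit 5) (nat_lit 64) (nat_lit 5) (nat_lit 65) (nat_lit 5) (nat_lit 631) (nat_lit 483) (nat_lit 446)) (XT.lf (nat_lit 0) (nat_lit 8113881019) (nat_lit 304) (nat_lit 1321891388) (nat_lit 76) (nat_lit 3668178374) (nat_lit 61) (nat_lit 5) (nat_lit 65) (nat_lit 5) (nat_lit 62) (nat_lit 4) (nat_lit 632) (nat_lit 483) (nat_lit 445))))))) (XT.nd (nat_lit 1170) (nat_lit 304) (nat_lit 0) (XT.nd (nat_lit 546) (nat_lit 1140) (nat_lit 0) (XT.nd (nat_lit 234) (nat_lit 684) (nat_lit 0) (XT.nd (nat_lit 78) (nat_lit 380) (nat_lit 0) (XT.lf (nat_lit 0) (nat_lit 281446274) (nat_lit 228) (nat_lit 3934541278) (nat_lit 76) (nat_lit 9031634486) (nat_lit 58) (nat_lit 5) (nat_lit 61) (nat_lit 5) (nat_lit 59) (nat_lit 5) (nat_lit 633) (nat_lit 483) (nat_lit 444)) (XT.nd (nat_lit 78) (nat_lit 152) (nat_lit 0) (XT.lf (nat_lit 0) (nat_lit 5595317547) (nat_lit 304) (nat_lit 6662908378)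 (nat_lit 76) (nat_lit 1135207216) (nat_lit 55) (nat_lit 5) (nat_lit 59) (nat_lit 5) (nat_lit 56) (nat_lit 4) (nat_lit 634) (nat_lit 483) (nat_lit 443)) (XT.lf (nat_lit 0) (nat_lit 4043566304) (nat_lit 152) (nat_lit 6996342406) (nat_lit 228) (nat_lit 2501763836) (nat_lit 53) (nat_lit 5) (nat_lit 55) (nat_lit 5) (nat_lit 56) (nat_lit 4) (nat_lit 635) (nat_lit 483) (nat_lit 442)))) (XT.nd (nat_lit 156) (nat_lit 380) (nat_lit 0) (XT.nd (nat_lit 78) (nat_lit 0) (nat_lit 0) (XT.lf (nat_lit 0) (nat_lit 1257832634) (nat_lit 228) (nat_lit 1601582350) (nat_lit 304) (nat_lit 10833147191) (nat_lit 49) (nat_lit 5) (nat_lit 52) (nat_lit 5) (nat_lit 53) (nat_lit 5) (nat_lit 636) (nat_lit 483) (nat_lit 441)) (XT.lf (nat_lit 0) (nat_lit 8327752736) (nat_lit 304) (nat_lit 1632064400) (nat_lit 76) (nat_lit 3885653925) (nat_lit 49) (nat_lit 5) (nat_lit 53) (nat_lit 5) (nat_lit 50) (nat_lit 4) (nat_lit 637) (nat_lit 483) (nat_lit 440))) (XT.nd (nat_lit 78) (nat_lit 228) (nat_lit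 0) (XT.lf (nat_lit 0) (nat_lit 9399131845) (nat_lit 152) (nat_lit 4522971920) (nat_lit 228) (nat_lit 79002288) (nat_lit 47) (nat_lit 5) (nat_lit 49) (nat_lit 5) (nat_lit 50) (nat_lit 4) (nat_lit 638) (nat_lit 483) (nat_lit 439)) (XT.lf (nat_lit 0) (nat_lit 5401765858) (nat_lit 228) (nat_lit 7703754910) (nat_lit 76) (nat_lit 1053523741) (nat_lit 44) (nat_lit 5) (nat_lit 47) (nat_lit 5) (nat_lit 45) (nat_lit 4) (nat_lit 639) (nat_lit 483) (nat_lit 438))))) (XT.nd (nat_lit 312) (nat_lit 608) (nat_lit 0) (XT.nd (nat_lit 156) (nat_lit 152) (nat_lit 0) (XT.nd (nat_lit 78) (nat_lit 228) (nat_lit 0) (XT.lf (nat_lit 0) (nat_lit 3389937515) (nat_lit 152) (nat_lit 7629426020) (nat_lit 228) (nat_lit 3300203123) (nat_lit 42) (nat_lit 5) (nat_lit 44) (nat_lit 5) (nat_lit 45) (nat_lit 4) (nat_lit 640) (nat_lit 483) (nat_lit 437)) (XT.lf (nat_lit 0) (nat_lit 214965484) (nat_lit 152) (nat_lit 2020051020) (nat_lit 228) (nat_lit 12248014840) (nat_lit 39) (nat_lit 5) (nat_lit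 41) (nat_lit 5) (nat_lit 42) (nat_lit 5) (nat_lit 641) (nat_lit 483) (nat_lit 436))) (XT.nd (nat_lit 78) (nat_lit 152) (nat_lit 0) (XT.lf (nat_lit 0) (nat_lit 7880070819) (nat_lit 228) (nat_lit 3064660430) (nat_lit 76) (nat_lit 3703732151) (nat_lit 39) (nat_lit 5) (nat_lit 42) (nat_lit 5) (nat_lit 40) (nat_lit 4) (nat_lit 642) (nat_lit 483) (nat_lit 435)) (XT.lf (nat_lit 0) (nat_lit 8360462746) (nat_lit 152) (nat_lit 5291709978) (nat_lit 228) (nat_lit 1164749189) (nat_lit 37) (nat_lit 5) (nat_lit 39) (nat_lit 5) (nat_lit 40) (nat_lit 4) (nat_lit 643) (nat_lit 483) (nat_lit 434)))) (XT.nd (nat_lit 156) (nat_lit 228) (nat_lit 0) (XT.nd (nat_lit 78) (nat_lit 152) (nat_lit 0) (XT.lf (nat_lit 0) (nat_lit 4494356956) (nat_lit 228) (nat_lit 9986938505) (nat_lit 76) (nat_lit 506802365) (nat_lit 34) (nat_lit 5) (nat_lit 37) (nat_lit 5) (nat_lit 35) (nat_lit 4) (nat_lit 644) (nat_lit 483) (nat_lit 433)) (XT.lf (nat_lit 0) (nat_lit 1491328649) (nat_lit 152) (nat_lit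 8794742716) (nat_lit 228) (nat_lit 4875772172) (nat_lit 32) (nat_lit 5) (nat_lit 34) (nat_lit 5) (nat_lit 35) (nat_lit 4) (nat_lit 645) (nat_lit 483) (nat_lit 432))) (XT.nd (nat_lit 78) (nat_lit 152) (nat_lit 0) (XT.lf (nat_lit 0) (nat_lit 857534224) (nat_lit 228) (nat_lit 2108041818) (nat_lit 76) (nat_lit 12373094112) (nat_lit 31) (nat_lit 5) (nat_lit 34) (nat_lit 5) (nat_lit 32) (nat_lit 5) (nat_lit 646) (nat_lit 483) (nat_lit 431)) (XT.lf (nat_lit 0) (nat_lit 6670611132) (nat_lit 228) (nat_lit 5854397492) (nat_lit 76) (nat_lit 2992772947) (nat_lit 29) (nat_lit 5) (nat_lit 32) (nat_lit 5) (nat_lit 30) (nat_lit 4) (nat_lit 647) (nat_lit 483) (nat_lit 430)))))) (XT.nd (nat_lit 77142) (nat_lit 0) (nat_lit 10032) (XT.nd (nat_lit 76830) (nat_lit 0) (nat_lit 13072) (XT.nd (nat_lit 78) (nat_lit 228) (nat_lit 0) (XT.lf (nat_lit 0) (nat_lit 5960019649) (nat_lit 76) (nat_lit 6660385167) (nat_lit 152) (nat_lit 3079661946) (nat_lit 28) (nat_lit 5) (nat_lit 29) (nat_lit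 5) (nat_lit 30) (nat_lit 4) (nat_lit 648) (nat_lit 483) (nat_lit 429)) (XT.nd (nat_lit 78) (nat_lit 0) (nat_lit 0) (XT.lf (nat_lit 0) (nat_lit 2117087422) (nat_lit 152) (nat_lit 650569094) (nat_lit 228) (nat_lit 13117953279) (nat_lit 25) (nat_lit 5) (nat_lit 27) (nat_lit 5) (nat_lit 28) (nat_lit 5) (nat_lit 649) (nat_lit 483) (nat_lit 428)) (XT.lf (nat_lit 0) (nat_lit 8740129514) (nat_lit 228) (nat_lit 1883760935) (nat_lit 76) (nat_lit 5449577822) (nat_lit 25) (nat_lit 5) (nat_lit 28) (nat_lit 5) (nat_lit 26) (nat_lit 4) (nat_lit 650) (nat_lit 483) (nat_lit 427)))) (XT.nd (nat_lit 156) (nat_lit 912) (nat_lit 0) (XT.nd (nat_lit 78) (nat_lit 532) (nat_lit 0) (XT.lf (nat_lit 0) (nat_lit 3853320434) (nat_lit 456) (nat_lit 311254303) (nat_lit 456) (nat_lit 311254303) (nat_lit 216) (nat_lit 4) (nat_lit 222) (nat_lit 5) (nat_lit 222) (nat_lit 4) (nat_lit 592) (nat_lit 484) (nat_lit 484)) (XT.lf (nat_lit 0) (nat_lit 3787169453) (nat_lit 532) (nat_lit 2368769223) (nat_lit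 0) (nat_lit 2867574269) (nat_lit 209) (nat_lit 5) (nat_lit 216) (nat_lit 4) (nat_lit 209) (nat_lit 4) (nat_lit 593) (nat_lit 484) (nat_lit 483))) (XT.nd (nat_lit 78) (nat_lit 456) (nat_lit 0) (XT.lf (nat_lit 0) (nat_lit 5593031829) (nat_lit 456) (nat_lit 2662636771) (nat_lit 456) (nat_lit 841477682) (nat_lit 203) (nat_lit 4) (nat_lit 209) (nat_lit 5) (nat_lit 209) (nat_lit 4) (nat_lit 594) (nat_lit 484) (nat_lit 482)) (XT.lf (nat_lit 0) (nat_lit 3575193045) (nat_lit 456) (nat_lit 4673768076) (nat_lit 0) (nat_lit 923187877) (nat_lit 197) (nat_lit 5) (nat_lit 203) (nat_lit 4) (nat_lit 197) (nat_lit 4) (nat_lit 595) (nat_lit 484) (nat_lit 481))))) (XT.nd (nat_lit 312) (nat_lit 1672) (nat_lit 0) (XT.nd (nat_lit 156) (nat_lit 456) (nat_lit 0) (XT.nd (nat_lit 78) (nat_lit 456) (nat_lit 0) (XT.lf (nat_lit 0) (nat_lit 3375693830) (nat_lit 456) (nat_lit 4687268886) (nat_lit 456) (nat_lit 1185699913) (nat_lit 191) (nat_lit 4) (nat_lit 197) (nat_lit 5) (nat_lit 197)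 (nat_lit 4) (nat_lit 596) (nat_lit 484) (nat_lit 480)) (XT.lf (nat_lit 0) (nat_lit 2225194056) (nat_lit 380) (nat_lit 1022166695) (nat_lit 456) (nat_lit 6079377323) (nat_lit 185) (nat_lit 5) (nat_lit 190) (nat_lit 5) (nat_lit 191) (nat_lit 4) (nat_lit 597) (nat_lit 484) (nat_lit 479))) (XT.nd (nat_lit 78) (nat_lit 76) (nat_lit 0) (XT.lf (nat_lit 0) (nat_lit 1041126696) (nat_lit 380) (nat_lit 6707615686) (nat_lit 380) (nat_lit 1657567775) (nat_lit 180) (nat_lit 4) (nat_lit 185) (nat_lit 5) (nat_lit 185) (nat_lit 4) (nat_lit 598) (nat_lit 484) (nat_lit 478)) (XT.lf (nat_lit 0) (nat_lit 2801666466) (nat_lit 456) (nat_lit 175547282) (nat_lit 76) (nat_lit 6510163968) (nat_lit 179) (nat_lit 5) (nat_lit 185) (nat_lit 5) (nat_lit 180) (nat_lit 4) (nat_lit 599) (nat_lit 484) (nat_lit 477)))) (XT.nd (nat_lit 156) (nat_lit 836) (nat_lit 0) (XT.nd (nat_lit 78) (nat_lit 456) (nat_lit 0) (XT.lf (nat_lit 0) (nat_lit 7319513653) (nat_lit 456) (nat_lit 1405882002) (nat_lit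 0) (nat_lit 844621832) (nat_lit 174) (nat_lit 5) (nat_lit 180) (nat_lit 4) (nat_lit 174) (nat_lit 4) (nat_lit 600) (nat_lit 484) (nat_lit 476)) (XT.lf (nat_lit 0) (nat_lit 2243248409) (nat_lit 456) (nat_lit 2683126450) (nat_lit 76) (nat_lit 4727649205) (nat_lit 168) (nat_lit 5) (nat_lit 174) (nat_lit 5) (nat_lit 169) (nat_lit 4) (nat_lit 601) (nat_lit 484) (nat_lit 475))) (XT.nd (nat_lit 78) (nat_lit 456) (nat_lit 0) (XT.lf (nat_lit 0) (nat_lit 5750350343) (nat_lit 380) (nat_lit 1026844265) (nat_lit 456) (nat_lit 2962611899) (nat_lit 163) (nat_lit 5) (nat_lit 168) (nat_lit 5) (nat_lit 169) (nat_lit 4) (nat_lit 602) (nat_lit 484) (nat_lit 474)) (XT.lf (nat_lit 0) (nat_lit 1554311398) (nat_lit 456) (nat_lit 5341133869) (nat_lit 76) (nat_lit 2931648168) (nat_lit 157) (nat_lit 5) (nat_lit 163) (nat_lit 5) (nat_lit 158) (nat_lit 4) (nat_lit 603) (nat_lit 484) (nat_lit 473))))))))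
noncomputable def xc15 : XT := (XT.nd (nat_lit 2262) (nat_lit 2736) (nat_lit 0) (XT.nd (nat_lit 1092) (nat_lit 3192) (nat_lit 0) (XT.nd (nat_lit 546) (nat_lit 1900) (nat_lit 0) (XT.nd (nat_lit 234) (nat_lit 1140) (nat_lit 0) (XT.nd (nat_lit 78) (nat_lit 760) (nat_lit 0) (XT.lf (nat_lit 0) (nat_lit 3179055595) (nat_lit 304) (nat_lit 2931425224) (nat_lit 380) (nat_lit 3805484264) (nat_lit 153) (nat_lit 5) (nat_lit 157) (nat_lit 5) (nat_lit 158) (nat_lit 4) (nat_lit 604) (nat_lit 484) (nat_lit 472)) (XT.nd (nat_lit 78) (nat_lit 304) (nat_lit 0) (XT.lf (nat_lit 0) (nat_lit 731034755) (nat_lit 456) (nat_lit 8164477365) (nat_lit 76) (nat_lit 1111212060) (nat_lit 147) (nat_lit 5) (nat_lit 153) (nat_lit 5) (nat_lit 148) (nat_lit 4) (nat_lit 605) (nat_lit 484) (nat_lit 471)) (XT.lf (nat_lit 0) (nat_lit 440836269) (nat_lit 304) (nat_lit 4868998893) (nat_lit 380) (nat_lit 4788912134) (nat_lit 143) (nat_lit 5) (nat_lit 147) (nat_lit 5) (nat_lit 148) (nat_lit 4) (nat_lit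 606) (nat_lit 484) (nat_lit 470)))) (XT.nd (nat_lit 156) (nat_lit 684) (nat_lit 0) (XT.nd (nat_lit 78) (nat_lit 456) (nat_lit 0) (XT.lf (nat_lit 0) (nat_lit 9223681587) (nat_lit 304) (nat_lit 746591070) (nat_lit 380) (nat_lit 222539010) (nat_lit 143) (nat_lit 5) (nat_lit 147) (nat_lit 5) (nat_lit 148) (nat_lit 4) (nat_lit 607) (nat_lit 484) (nat_lit 469)) (XT.lf (nat_lit 0) (nat_lit 4386891761) (nat_lit 456) (nat_lit 2447429993) (nat_lit 76) (nat_lit 3453663622) (nat_lit 137) (nat_lit 5) (nat_lit 143) (nat_lit 5) (nat_lit 138) (nat_lit 4) (nat_lit 608) (nat_lit 484) (nat_lit 468))) (XT.nd (nat_lit 78) (nat_lit 380) (nat_lit 0) (XT.lf (nat_lit 0) (nat_lit 6428126929) (nat_lit 304) (nat_lit 2647075220) (nat_lit 380) (nat_lit 1310039470) (nat_lit 133) (nat_lit 5) (nat_lit 137) (nat_lit 5) (nat_lit 138) (nat_lit 4) (nat_lit 609) (nat_lit 484) (nat_lit 467)) (XT.lf (nat_lit 0) (nat_lit 3324734700) (nat_lit 380) (nat_lit 5526141925) (nat_lit 76) (nat_lit 1633207525)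 (nat_lit 128) (nat_lit 5) (nat_lit 133) (nat_lit 5) (nat_lit 129) (nat_lit 4) (nat_lit 610) (nat_lit 484) (nat_lit 466))))) (XT.nd (nat_lit 234) (nat_lit 988) (nat_lit 0) (XT.nd (nat_lit 78) (nat_lit 608) (nat_lit 0) (XT.lf (nat_lit 0) (nat_lit 3434409086) (nat_lit 304) (nat_lit 4603727923) (nat_lit 380) (nat_lit 2546525641) (nat_lit 124) (nat_lit 5) (nat_lit 128) (nat_lit 5) (nat_lit 129) (nat_lit 4) (nat_lit 611) (nat_lit 484) (nat_lit 465)) (XT.nd (nat_lit 78) (nat_lit 228) (nat_lit 0) (XT.lf (nat_lit 0) (nat_lit 1867836809) (nat_lit 304) (nat_lit 248908187) (nat_lit 380) (nat_lit 8570499142) (nat_lit 119) (nat_lit 5) (nat_lit 123) (nat_lit 5) (nat_lit 124) (nat_lit 5) (nat_lit 612) (nat_lit 484) (nat_lit 464)) (XT.lf (nat_lit 0) (nat_lit 225592274) (nat_lit 228) (nat_lit 6627940408) (nat_lit 304) (nat_lit 3937722615) (nat_lit 116) (nat_lit 5) (nat_lit 119) (nat_lit 5) (nat_lit 120) (nat_lit 4) (nat_lit 613) (nat_lit 484) (nat_lit 463)))) (XT.nd (nat_lit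 156) (nat_lit 608) (nat_lit 0) (XT.nd (nat_lit 78) (nat_lit 304) (nat_lit 0) (XT.lf (nat_lit 0) (nat_lit 776068139) (nat_lit 304) (nat_lit 1437672013) (nat_lit 76) (nat_lit 8683532066) (nat_lit 115) (nat_lit 5) (nat_lit 119) (nat_lit 5) (nat_lit 116) (nat_lit 5) (nat_lit 614) (nat_lit 484) (nat_lit 462)) (XT.lf (nat_lit 0) (nat_lit 5536191670) (nat_lit 380) (nat_lit 3173815217) (nat_lit 76) (nat_lit 2294787948) (nat_lit 111) (nat_lit 5) (nat_lit 116) (nat_lit 5) (nat_lit 112) (nat_lit 4) (nat_lit 615) (nat_lit 484) (nat_lit 461))) (XT.nd (nat_lit 78) (nat_lit 380) (nat_lit 0) (XT.lf (nat_lit 0) (nat_lit 6152590968) (nat_lit 228) (nat_lit 4242201700) (nat_lit 304) (nat_lit 719611293) (nat_lit 108) (nat_lit 5) (nat_lit 111) (nat_lit 5) (nat_lit 112) (nat_lit 4) (nat_lit 616) (nat_lit 484) (nat_lit 460)) (XT.lf (nat_lit 0) (nat_lit 4061698868) (nat_lit 380) (nat_lit 6818201673) (nat_lit 76) (nat_lit 345942057) (nat_lit 103) (nat_lit 5) (nat_lit 108) (nat_lit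 5) (nat_lit 104) (nat_lit 4) (nat_lit 617) (nat_lit 484) (nat_lit 459)))))) (XT.nd (nat_lit 546) (nat_lit 1520) (nat_lit 0) (XT.nd (nat_lit 234) (nat_lit 1064) (nat_lit 0) (XT.nd (nat_lit 78) (nat_lit 380) (nat_lit 0) (XT.lf (nat_lit 0) (nat_lit 2589810351) (nat_lit 228) (nat_lit 6356955354) (nat_lit 304) (nat_lit 2392295317) (nat_lit 100) (nat_lit 5) (nat_lit 103) (nat_lit 5) (nat_lit 104) (nat_lit 4) (nat_lit 618) (nat_lit 484) (nat_lit 458)) (XT.nd (nat_lit 78) (nat_lit 0) (nat_lit 0) (XT.lf (nat_lit 0) (nat_lit 713668153) (nat_lit 304) (nat_lit 1719002859) (nat_lit 380) (nat_lit 9021750005) (nat_lit 95) (nat_lit 5) (nat_lit 99) (nat_lit 5) (nat_lit 100) (nat_lit 5) (nat_lit 619) (nat_lit 484) (nat_lit 457)) (XT.lf (nat_lit 0) (nat_lit 7340473439) (nat_lit 380) (nat_lit 1226587495) (nat_lit 76) (nat_lit 3004345008) (nat_lit 95) (nat_lit 5) (nat_lit 100) (nat_lit 5) (nat_lit 96) (nat_lit 4) (nat_lit 620) (nat_lit 484) (nat_lit 456)))) (XT.nd (nat_lit 156)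 (nat_lit 532) (nat_lit 0) (XT.nd (nat_lit 78) (nat_lit 228) (nat_lit 0) (XT.lf (nat_lit 0) (nat_lit 654427678) (nat_lit 304) (nat_lit 3219544735) (nat_lit 76) (nat_lit 7816527815) (nat_lit 91) (nat_lit 5) (nat_lit 95) (nat_lit 5) (nat_lit 92) (nat_lit 5) (nat_lit 621) (nat_lit 484) (nat_lit 455)) (XT.lf (nat_lit 0) (nat_lit 5578673136) (nat_lit 304) (nat_lit 5295418546) (nat_lit 76) (nat_lit 937370084) (nat_lit 88) (nat_lit 5) (nat_lit 92) (nat_lit 5) (nat_lit 89) (nat_lit 4) (nat_lit 622) (nat_lit 484) (nat_lit 454))) (XT.nd (nat_lit 78) (nat_lit 304) (nat_lit 0) (XT.lf (nat_lit 0) (nat_lit 4485994274) (nat_lit 228) (nat_lit 6133132526) (nat_lit 304) (nat_lit 1315362546) (nat_lit 85) (nat_lit 5) (nat_lit 88) (nat_lit 5) (nat_lit 89) (nat_lit 4) (nat_lit 623) (nat_lit 484) (nat_lit 453)) (XT.lf (nat_lit 0) (nat_lit 2379777376) (nat_lit 228) (nat_lit 1264622232) (nat_lit 304) (nat_lit 8415248203) (nat_lit 81) (nat_lit 5) (nat_lit 84) (nat_lit 5) (nat_lit 85)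 (nat_lit 5) (nat_lit 624) (nat_lit 484) (nat_lit 452))))) (XT.nd (nat_lit 312) (nat_lit 760) (nat_lit 0) (XT.nd (nat_lit 156) (nat_lit 456) (nat_lit 0) (XT.nd (nat_lit 78) (nat_lit 76) (nat_lit 0) (XT.lf (nat_lit 0) (nat_lit 185706912) (nat_lit 228) (nat_lit 8517106477) (nat_lit 304) (nat_lit 3483981986) (nat_lit 78) (nat_lit 5) (nat_lit 81) (nat_lit 5) (nat_lit 82) (nat_lit 4) (nat_lit 625) (nat_lit 484) (nat_lit 451)) (XT.lf (nat_lit 0) (nat_lit 1540996171) (nat_lit 304) (nat_lit 2057247521) (nat_lit 76) (nat_lit 8717735383) (nat_lit 77) (nat_lit 5) (nat_lit 81) (nat_lit 5) (nat_lit 78) (nat_lit 5) (nat_lit 626) (nat_lit 484) (nat_lit 450))) (XT.nd (nat_lit 78) (nat_lit 228) (nat_lit 0) (XT.lf (nat_lit 0) (nat_lit 6624417640) (nat_lit 304) (nat_lit 4389619553) (nat_lit 76) (nat_lit 1433157920) (nat_lit 74) (nat_lit 5) (nat_lit 78) (nat_lit 5) (nat_lit 75) (nat_lit 4) (nat_lit 627) (nat_lit 484) (nat_lit 449)) (XT.lf (nat_lit 0) (nat_lit 5772410760) (nat_lit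 228) (nat_lit 6055233944) (nat_lit 304) (nat_lit 753029136) (nat_lit 71) (nat_lit 5) (nat_lit 74) (nat_lit 5) (nat_lit 75) (nat_lit 4) (nat_lit 628) (nat_lit 484) (nat_lit 448)))) (XT.nd (nat_lit 156) (nat_lit 304) (nat_lit 0) (XT.nd (nat_lit 78) (nat_lit 152) (nat_lit 0) (XT.lf (nat_lit 0) (nat_lit 3395311484) (nat_lit 228) (nat_lit 959577783) (nat_lit 304) (nat_lit 8361465847) (nat_lit 67) (nat_lit 5) (nat_lit 70) (nat_lit 5) (nat_lit 71) (nat_lit 5) (nat_lit 629) (nat_lit 484) (nat_lit 447)) (XT.lf (nat_lit 0) (nat_lit 919191172) (nat_lit 152) (nat_lit 8658375280) (nat_lit 228) (nat_lit 3276631388) (nat_lit 65) (nat_lit 5) (nat_lit 67) (nat_lit 5) (nat_lit 68) (nat_lit 4) (nat_lit 630) (nat_lit 484) (nat_lit 446))) (XT.nd (nat_lit 78) (nat_lit 228) (nat_lit 0) (XT.lf (nat_lit 0) (nat_lit 1897454971) (nat_lit 228) (nat_lit 1623691001) (nat_lit 76) (nat_lit 9473152371) (nat_lit 64) (nat_lit 5) (nat_lit 67) (nat_lit 5) (nat_lit 65) (nat_lit 5) (nat_lit 631)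 (nat_lit 484) (nat_lit 445)) (XT.lf (nat_lit 0) (nat_lit 7144702407) (nat_lit 304) (nat_lit 4258955134) (nat_lit 76) (nat_lit 1732840061) (nat_lit 61) (nat_lit 5) (nat_lit 65) (nat_lit 5) (nat_lit 62) (nat_lit 4) (nat_lit 632) (nat_lit 484) (nat_lit 444))))))) (XT.nd (nat_lit 1170) (nat_lit 304) (nat_lit 0) (XT.nd (nat_lit 546) (nat_lit 1140) (nat_lit 0) (XT.nd (nat_lit 234) (nat_lit 684) (nat_lit 0) (XT.nd (nat_lit 78) (nat_lit 456) (nat_lit 0) (XT.lf (nat_lit 0) (nat_lit 6288846876) (nat_lit 152) (nat_lit 6227727855) (nat_lit 228) (nat_lit 764573483) (nat_lit 59) (nat_lit 5) (nat_lit 61) (nat_lit 5) (nat_lit 62) (nat_lit 4) (nat_lit 633) (nat_lit 484) (nat_lit 443)) (XT.nd (nat_lit 78) (nat_lit 152) (nat_lit 0) (XT.lf (nat_lit 0) (nat_lit 3594709457) (nat_lit 228) (nat_lit 909332382) (nat_lit 304) (nat_lit 8924122891) (nat_lit 55) (nat_lit 5) (nat_lit 58) (nat_lit 5) (nat_lit 59) (nat_lit 5) (nat_lit 634) (nat_lit 484) (nat_lit 442)) (XT.lf (nat_lit 0) (nat_lit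 786721841) (nat_lit 152) (nat_lit 9107532324) (nat_lit 228) (nat_lit 3683237998) (nat_lit 53) (nat_lit 5) (nat_lit 55) (nat_lit 5) (nat_lit 56) (nat_lit 4) (nat_lit 635) (nat_lit 484) (nat_lit 441)))) (XT.nd (nat_lit 156) (nat_lit 380) (nat_lit 0) (XT.nd (nat_lit 78) (nat_lit 228) (nat_lit 0) (XT.lf (nat_lit 0) (nat_lit 1657976818) (nat_lit 228) (nat_lit 2093182250) (nat_lit 76) (nat_lit 9978085761) (nat_lit 52) (nat_lit 5) (nat_lit 55) (nat_lit 5) (nat_lit 53) (nat_lit 5) (nat_lit 636) (nat_lit 484) (nat_lit 440)) (XT.lf (nat_lit 0) (nat_lit 7071275472) (nat_lit 304) (nat_lit 5083404496) (nat_lit 76) (nat_lit 1728574955) (nat_lit 49) (nat_lit 5) (nat_lit 53) (nat_lit 5) (nat_lit 50) (nat_lit 4) (nat_lit 637) (nat_lit 484) (nat_lit 439))) (XT.nd (nat_lit 78) (nat_lit 228) (nat_lit 0) (XT.lf (nat_lit 0) (nat_lit 5852654031) (nat_lit 152) (nat_lit 6763259633) (nat_lit 228) (nat_lit 1423970923) (nat_lit 47) (nat_lit 5) (nat_lit 49) (nat_lit 5) (nat_lit 50) (nat_lit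 4) (nat_lit 638) (nat_lit 484) (nat_lit 438)) (XT.lf (nat_lit 0) (nat_lit 2788998870) (nat_lit 152) (nat_lit 1228004029) (nat_lit 228) (nat_lit 10182143869) (nat_lit 44) (nat_lit 5) (nat_lit 46) (nat_lit 5) (nat_lit 47) (nat_lit 5) (nat_lit 639) (nat_lit 484) (nat_lit 437))))) (XT.nd (nat_lit 312) (nat_lit 608) (nat_lit 0) (XT.nd (nat_lit 156) (nat_lit 304) (nat_lit 0) (XT.nd (nat_lit 78) (nat_lit 228) (nat_lit 0) (XT.lf (nat_lit 0) (nat_lit 9578031573) (nat_lit 228) (nat_lit 401668807) (nat_lit 76) (nat_lit 4381100312) (nat_lit 44) (nat_lit 5) (nat_lit 47) (nat_lit 5) (nat_lit 45) (nat_lit 4) (nat_lit 640) (nat_lit 484) (nat_lit 436)) (XT.lf (nat_lit 0) (nat_lit 741284543) (nat_lit 228) (nat_lit 3665201109) (nat_lit 76) (nat_lit 10118584821) (nat_lit 41) (nat_lit 5) (nat_lit 44) (nat_lit 5) (nat_lit 42) (nat_lit 5) (nat_lit 641) (nat_lit 484) (nat_lit 435))) (XT.nd (nat_lit 78) (nat_lit 152) (nat_lit 0) (XT.lf (nat_lit 0) (nat_lit 6320080108) (nat_lit 228)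 (nat_lit 7069225535) (nat_lit 76) (nat_lit 1302522430) (nat_lit 39) (nat_lit 5) (nat_lit 42) (nat_lit 5) (nat_lit 40) (nat_lit 4) (nat_lit 642) (nat_lit 484) (nat_lit 434)) (XT.lf (nat_lit 0) (nat_lit 4254177747) (nat_lit 152) (nat_lit 7785371407) (nat_lit 228) (nat_lit 2821790453) (nat_lit 37) (nat_lit 5) (nat_lit 39) (nat_lit 5) (nat_lit 40) (nat_lit 4) (nat_lit 643) (nat_lit 484) (nat_lit 433)))) (XT.nd (nat_lit 156) (nat_lit 380) (nat_lit 0) (XT.nd (nat_lit 78) (nat_lit 0) (nat_lit 0) (XT.lf (nat_lit 0) (nat_lit 761066530) (nat_lit 152) (nat_lit 2041153124) (nat_lit 228) (nat_lit 12231647954) (nat_lit 34) (nat_lit 5) (nat_lit 36) (nat_lit 5) (nat_lit 37) (nat_lit 5) (nat_lit 644) (nat_lit 484) (nat_lit 432)) (XT.lf (nat_lit 0) (nat_lit 8545114194) (nat_lit 228) (nat_lit 2848794199) (nat_lit 76) (nat_lit 3814681667) (nat_lit 34) (nat_lit 5) (nat_lit 37) (nat_lit 5) (nat_lit 35) (nat_lit 4) (nat_lit 645) (nat_lit 484) (nat_lit 431))) (XT.nd (nat_lit 78)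 (nat_lit 228) (nat_lit 0) (XT.lf (nat_lit 0) (nat_lit 8810762752) (nat_lit 152) (nat_lit 5611564988) (nat_lit 228) (nat_lit 964090676) (nat_lit 32) (nat_lit 5) (nat_lit 34) (nat_lit 5) (nat_lit 35) (nat_lit 4) (nat_lit 646) (nat_lit 484) (nat_lit 430)) (XT.lf (nat_lit 0) (nat_lit 4789061869) (nat_lit 228) (nat_lit 10454123168) (nat_lit 76) (nat_lit 323921680) (nat_lit 29) (nat_lit 5) (nat_lit 32) (nat_lit 5) (nat_lit 30) (nat_lit 4) (nat_lit 647) (nat_lit 484) (nat_lit 429)))))) (XT.nd (nat_lit 76986) (nat_lit 0) (nat_lit 10868) (XT.nd (nat_lit 76674) (nat_lit 0) (nat_lit 13984) (XT.nd (nat_lit 78) (nat_lit 228) (nat_lit 0) (XT.lf (nat_lit 0) (nat_lit 1251444904) (nat_lit 76) (nat_lit 9431543160) (nat_lit 152) (nat_lit 5067521509) (nat_lit 28) (nat_lit 5) (nat_lit 29) (nat_lit 5) (nat_lit 30) (nat_lit 4) (nat_lit 648) (nat_lit 484) (nat_lit 428)) (XT.nd (nat_lit 78) (nat_lit 152) (nat_lit 0) (XT.lf (nat_lit 0) (nat_lit 766851941) (nat_lit 152) (nat_lit 2703911177)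 (nat_lit 76) (nat_lit 12466328243) (nat_lit 27) (nat_lit 5) (nat_lit 29) (nat_lit 5) (nat_lit 28) (nat_lit 5) (nat_lit 649) (nat_lit 484) (nat_lit 427)) (XT.lf (nat_lit 0) (nat_lit 6677887530) (nat_lit 228) (nat_lit 6821274390) (nat_lit 76) (nat_lit 2627016965) (nat_lit 25) (nat_lit 5) (nat_lit 28) (nat_lit 5) (nat_lit 26) (nat_lit 4) (nat_lit 650) (nat_lit 484) (nat_lit 426)))) (XT.nd (nat_lit 156) (nat_lit 988) (nat_lit 0) (XT.nd (nat_lit 78) (nat_lit 0) (nat_lit 0) (XT.lf (nat_lit 0) (nat_lit 243607893) (nat_lit 532) (nat_lit 3918366180) (nat_lit 0) (nat_lit 243607893) (nat_lit 222) (nat_lit 5) (nat_lit 229) (nat_lit 4) (nat_lit 222) (nat_lit 4) (nat_lit 590) (nat_lit 485) (nat_lit 485)) (XT.lf (nat_lit 0) (nat_lit 4835536298) (nat_lit 532) (nat_lit 166538202) (nat_lit 0) (nat_lit 3878789469) (nat_lit 222) (nat_lit 5) (nat_lit 229) (nat_lit 4) (nat_lit 222) (nat_lit 4) (nat_lit 591) (nat_lit 485) (nat_lit 484))) (XT.nd (nat_lit 78) (nat_lit 456) (nat_lit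 0) (XT.lf (nat_lit 0) (nat_lit 295013824) (nat_lit 532) (nat_lit 1298805990) (nat_lit 76) (nat_lit 7358493162) (nat_lit 215) (nat_lit 5) (nat_lit 222) (nat_lit 5) (nat_lit 216) (nat_lit 4) (nat_lit 592) (nat_lit 485) (nat_lit 483)) (XT.lf (nat_lit 0) (nat_lit 4655265369) (nat_lit 532) (nat_lit 2473529138) (nat_lit 0) (nat_lit 1896119193) (nat_lit 209) (nat_lit 5) (nat_lit 216) (nat_lit 4) (nat_lit 209) (nat_lit 4) (nat_lit 593) (nat_lit 485) (nat_lit 482))))) (XT.nd (nat_lit 312) (nat_lit 1292) (nat_lit 0) (XT.nd (nat_lit 156) (nat_lit 912) (nat_lit 0) (XT.nd (nat_lit 78) (nat_lit 456) (nat_lit 0) (XT.lf (nat_lit 0) (nat_lit 5435359560) (nat_lit 456) (nat_lit 3653460078) (nat_lit 456) (nat_lit 10427720) (nat_lit 203) (nat_lit 4) (nat_lit 209) (nat_lit 5) (nat_lit 209) (nat_lit 4) (nat_lit 594) (nat_lit 485) (nat_lit 481)) (XT.lf (nat_lit 0) (nat_lit 4285574071) (nat_lit 380) (nat_lit 68466280) (nat_lit 456) (nat_lit 4820929241) (nat_lit 197) (nat_lit 5) (nat_lit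 202) (nat_lit 5) (nat_lit 203) (nat_lit 4) (nat_lit 595) (nat_lit 485) (nat_lit 480))) (XT.nd (nat_lit 78) (nat_lit 456) (nat_lit 0) (XT.lf (nat_lit 0) (nat_lit 3105786235) (nat_lit 456) (nat_lit 5700241906) (nat_lit 456) (nat_lit 446172060) (nat_lit 191) (nat_lit 4) (nat_lit 197) (nat_lit 5) (nat_lit 197) (nat_lit 4) (nat_lit 596) (nat_lit 485) (nat_lit 479)) (XT.lf (nat_lit 0) (nat_lit 1891273714) (nat_lit 380) (nat_lit 2050269734) (nat_lit 456) (nat_lit 5389350379) (nat_lit 185) (nat_lit 5) (nat_lit 190) (nat_lit 5) (nat_lit 191) (nat_lit 4) (nat_lit 597) (nat_lit 485) (nat_lit 478)))) (XT.nd (nat_lit 156) (nat_lit 836) (nat_lit 0) (XT.nd (nat_lit 78) (nat_lit 76) (nat_lit 0) (XT.lf (nat_lit 0) (nat_lit 653131605) (nat_lit 380) (nat_lit 7747331133) (nat_lit 380) (nat_lit 1010853682) (nat_lit 180) (nat_lit 4) (nat_lit 185) (nat_lit 5) (nat_lit 185) (nat_lit 4) (nat_lit 598) (nat_lit 485) (nat_lit 477)) (XT.lf (nat_lit 0) (nat_lit 3406731382) (nat_lit 456)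 (nat_lit 624356170) (nat_lit 76) (nat_lit 5461877011) (nat_lit 179) (nat_lit 5) (nat_lit 185) (nat_lit 5) (nat_lit 180) (nat_lit 4) (nat_lit 599) (nat_lit 485) (nat_lit 476))) (XT.nd (nat_lit 78) (nat_lit 456) (nat_lit 0) (XT.lf (nat_lit 0) (nat_lit 7663760914) (nat_lit 380) (nat_lit 219458305) (nat_lit 456) (nat_lit 1693213494) (nat_lit 174) (nat_lit 5) (nat_lit 179) (nat_lit 5) (nat_lit 180) (nat_lit 4) (nat_lit 600) (nat_lit 485) (nat_lit 475)) (XT.lf (nat_lit 0) (nat_lit 2755574046) (nat_lit 456) (nat_lit 3257209372) (nat_lit 76) (nat_lit 3648337765) (nat_lit 168) (nat_lit 5) (nat_lit 174) (nat_lit 5) (nat_lit 169) (nat_lit 4) (nat_lit 601) (nat_lit 485) (nat_lit 474))))))))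
noncomputable def xc16 : XT := (XT.nd (nat_lit 2262) (nat_lit 3192) (nat_lit 0) (XT.nd (nat_lit 1092) (nat_lit 3344) (nat_lit 0) (XT.nd (nat_lit 546) (nat_lit 1976) (nat_lit 0) (XT.nd (nat_lit 234) (nat_lit 1216) (nat_lit 0) (XT.nd (nat_lit 78) (nat_lit 760) (nat_lit 0) (XT.lf (nat_lit 0) (nat_lit 5117074743) (nat_lit 380) (nat_lit 2136103809) (nat_lit 456) (nat_lit 2494453027) (nat_lit 163) (nat_lit 5) (nat_lit 168) (nat_lit 5) (nat_lit 169) (nat_lit 4) (nat_lit 602) (nat_lit 485) (nat_lit 473)) (XT.nd (nat_lit 78) (nat_lit 304) (nat_lit 0) (XT.lf (nat_lit 0) (nat_lit 1972283758) (nat_lit 456) (nat_lit 6046657549) (nat_lit 76) (nat_lit 1816798419) (nat_lit 157) (nat_lit 5) (nat_lit 163) (nat_lit 5) (nat_lit 158) (nat_lit 4) (nat_lit 603) (nat_lit 485) (nat_lit 472)) (XT.lf (nat_lit 0) (nat_lit 2412315122) (nat_lit 304) (nat_lit 4079200286) (nat_lit 380) (nat_lit 3433835778) (nat_lit 153) (nat_lit 5) (nat_lit 157) (nat_lit 5) (nat_lit 158) (nat_lit 4) (nat_lit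 604) (nat_lit 485) (nat_lit 471)))) (XT.nd (nat_lit 156) (nat_lit 760) (nat_lit 0) (XT.nd (nat_lit 78) (nat_lit 0) (nat_lit 0) (XT.lf (nat_lit 0) (nat_lit 1008887750) (nat_lit 380) (nat_lit 44277894) (nat_lit 456) (nat_lit 8963790263) (nat_lit 147) (nat_lit 5) (nat_lit 152) (nat_lit 5) (nat_lit 153) (nat_lit 5) (nat_lit 605) (nat_lit 485) (nat_lit 470)) (XT.lf (nat_lit 0) (nat_lit 5597111649) (nat_lit 456) (nat_lit 459667453) (nat_lit 76) (nat_lit 4052898006) (nat_lit 147) (nat_lit 5) (nat_lit 153) (nat_lit 5) (nat_lit 148) (nat_lit 4) (nat_lit 606) (nat_lit 485) (nat_lit 469))) (XT.nd (nat_lit 78) (nat_lit 380) (nat_lit 0) (XT.lf (nat_lit 0) (nat_lit 18434097) (nat_lit 380) (nat_lit 1938563867) (nat_lit 76) (nat_lit 8247430842) (nat_lit 142) (nat_lit 5) (nat_lit 147) (nat_lit 5) (nat_lit 143) (nat_lit 5) (nat_lit 607) (nat_lit 485) (nat_lit 468)) (XT.lf (nat_lit 0) (nat_lit 4579202817) (nat_lit 456) (nat_lit 3486697412) (nat_lit 76) (nat_lit 2234589195) (nat_lit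 137) (nat_lit 5) (nat_lit 143) (nat_lit 5) (nat_lit 138) (nat_lit 4) (nat_lit 608) (nat_lit 485) (nat_lit 467))))) (XT.nd (nat_lit 234) (nat_lit 988) (nat_lit 0) (XT.nd (nat_lit 78) (nat_lit 684) (nat_lit 0) (XT.lf (nat_lit 0) (nat_lit 5323726272) (nat_lit 304) (nat_lit 3905768828) (nat_lit 380) (nat_lit 1169011850) (nat_lit 133) (nat_lit 5) (nat_lit 137) (nat_lit 5) (nat_lit 138) (nat_lit 4) (nat_lit 609) (nat_lit 485) (nat_lit 466)) (XT.nd (nat_lit 78) (nat_lit 304) (nat_lit 0) (XT.lf (nat_lit 0) (nat_lit 3417100438) (nat_lit 380) (nat_lit 6716658994) (nat_lit 76) (nat_lit 364508867) (nat_lit 128) (nat_lit 5) (nat_lit 133) (nat_lit 5) (nat_lit 129) (nat_lit 4) (nat_lit 610) (nat_lit 485) (nat_lit 465)) (XT.lf (nat_lit 0) (nat_lit 2176521239) (nat_lit 304) (nat_lit 5915188736) (nat_lit 380) (nat_lit 2507913546) (nat_lit 124) (nat_lit 5) (nat_lit 128) (nat_lit 5) (nat_lit 129) (nat_lit 4) (nat_lit 611) (nat_lit 485) (nat_lit 464)))) (XT.nd (nat_lit 156) (nat_lit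 608) (nat_lit 0) (XT.nd (nat_lit 78) (nat_lit 0) (nat_lit 0) (XT.lf (nat_lit 0) (nat_lit 526195979) (nat_lit 304) (nat_lit 1589388676) (nat_lit 380) (nat_lit 8587401495) (nat_lit 119) (nat_lit 5) (nat_lit 123) (nat_lit 5) (nat_lit 124) (nat_lit 5) (nat_lit 612) (nat_lit 485) (nat_lit 463)) (XT.lf (nat_lit 0) (nat_lit 6811787705) (nat_lit 380) (nat_lit 1177130892) (nat_lit 76) (nat_lit 2818891221) (nat_lit 119) (nat_lit 5) (nat_lit 124) (nat_lit 5) (nat_lit 120) (nat_lit 4) (nat_lit 613) (nat_lit 485) (nat_lit 462))) (XT.nd (nat_lit 78) (nat_lit 304) (nat_lit 0) (XT.lf (nat_lit 0) (nat_lit 680387480) (nat_lit 304) (nat_lit 2923471201) (nat_lit 76) (nat_lit 7310739329) (nat_lit 115) (nat_lit 5) (nat_lit 119) (nat_lit 5) (nat_lit 116) (nat_lit 5) (nat_lit 614) (nat_lit 485) (nat_lit 461)) (XT.lf (nat_lit 0) (nat_lit 5391426075) (nat_lit 380) (nat_lit 4739075185) (nat_lit 76) (nat_lit 892601836) (nat_lit 111) (nat_lit 5) (nat_lit 116) (nat_lit 5) (nat_lit 112)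 (nat_lit 4) (nat_lit 615) (nat_lit 485) (nat_lit 460)))))) (XT.nd (nat_lit 546) (nat_lit 1596) (nat_lit 0) (XT.nd (nat_lit 234) (nat_lit 912) (nat_lit 0) (XT.nd (nat_lit 78) (nat_lit 608) (nat_lit 0) (XT.lf (nat_lit 0) (nat_lit 4515582610) (nat_lit 228) (nat_lit 5694188826) (nat_lit 304) (nat_lit 923746654) (nat_lit 108) (nat_lit 5) (nat_lit 111) (nat_lit 5) (nat_lit 112) (nat_lit 4) (nat_lit 616) (nat_lit 485) (nat_lit 459)) (XT.nd (nat_lit 78) (nat_lit 228) (nat_lit 0) (XT.lf (nat_lit 0) (nat_lit 2682163290) (nat_lit 304) (nat_lit 1135017834) (nat_lit 380) (nat_lit 7428664029) (nat_lit 103) (nat_lit 5) (nat_lit 107) (nat_lit 5) (nat_lit 108) (nat_lit 5) (nat_lit 617) (nat_lit 485) (nat_lit 458)) (XT.lf (nat_lit 0) (nat_lit 777467322) (nat_lit 228) (nat_lit 7876199339) (nat_lit 304) (nat_lit 2706369253) (nat_lit 100) (nat_lit 5) (nat_lit 103) (nat_lit 5) (nat_lit 104) (nat_lit 4) (nat_lit 618) (nat_lit 485) (nat_lit 457)))) (XT.nd (nat_lit 156) (nat_lit 532)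 (nat_lit 0) (XT.nd (nat_lit 78) (nat_lit 304) (nat_lit 0) (XT.lf (nat_lit 0) (nat_lit 2088695377) (nat_lit 304) (nat_lit 1177492632) (nat_lit 76) (nat_lit 8209929785) (nat_lit 99) (nat_lit 5) (nat_lit 103) (nat_lit 5) (nat_lit 100) (nat_lit 5) (nat_lit 619) (nat_lit 485) (nat_lit 456)) (XT.lf (nat_lit 0) (nat_lit 6949380923) (nat_lit 380) (nat_lit 3195788083) (nat_lit 76) (nat_lit 1448876719) (nat_lit 95) (nat_lit 5) (nat_lit 100) (nat_lit 5) (nat_lit 96) (nat_lit 4) (nat_lit 620) (nat_lit 485) (nat_lit 455))) (XT.nd (nat_lit 78) (nat_lit 228) (nat_lit 0) (XT.lf (nat_lit 0) (nat_lit 203861439) (nat_lit 304) (nat_lit 5285734137) (nat_lit 76) (nat_lit 6224444007) (nat_lit 91) (nat_lit 5) (nat_lit 95) (nat_lit 5) (nat_lit 92) (nat_lit 5) (nat_lit 621) (nat_lit 485) (nat_lit 454)) (XT.lf (nat_lit 0) (nat_lit 4378326692) (nat_lit 228) (nat_lit 701046855) (nat_lit 304) (nat_lit 6756602873) (nat_lit 88) (nat_lit 5) (nat_lit 91) (nat_lit 5) (nat_lit 92) (nat_lit 5)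 (nat_lit 622) (nat_lit 485) (nat_lit 453))))) (XT.nd (nat_lit 312) (nat_lit 760) (nat_lit 0) (XT.nd (nat_lit 156) (nat_lit 304) (nat_lit 0) (XT.nd (nat_lit 78) (nat_lit 304) (nat_lit 0) (XT.lf (nat_lit 0) (nat_lit 2249174492) (nat_lit 228) (nat_lit 7823037023) (nat_lit 304) (nat_lit 1887745418) (nat_lit 85) (nat_lit 5) (nat_lit 88) (nat_lit 5) (nat_lit 89) (nat_lit 4) (nat_lit 623) (nat_lit 485) (nat_lit 452)) (XT.lf (nat_lit 0) (nat_lit 40672989) (nat_lit 228) (nat_lit 2995172879) (nat_lit 304) (nat_lit 9050218007) (nat_lit 81) (nat_lit 5) (nat_lit 84) (nat_lit 5) (nat_lit 85) (nat_lit 5) (nat_lit 624) (nat_lit 485) (nat_lit 451))) (XT.nd (nat_lit 78) (nat_lit 304) (nat_lit 0) (XT.lf (nat_lit 0) (nat_lit 8053426232) (nat_lit 304) (nat_lit 2220968303) (nat_lit 76) (nat_lit 1939634156) (nat_lit 81) (nat_lit 5) (nat_lit 85) (nat_lit 5) (nat_lit 82) (nat_lit 4) (nat_lit 625) (nat_lit 485) (nat_lit 450)) (XT.lf (nat_lit 0) (nat_lit 830196952) (nat_lit 304) (nat_lit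 4566477610) (nat_lit 76) (nat_lit 6947487305) (nat_lit 77) (nat_lit 5) (nat_lit 81) (nat_lit 5) (nat_lit 78) (nat_lit 5) (nat_lit 626) (nat_lit 485) (nat_lit 449)))) (XT.nd (nat_lit 156) (nat_lit 304) (nat_lit 0) (XT.nd (nat_lit 78) (nat_lit 228) (nat_lit 0) (XT.lf (nat_lit 0) (nat_lit 5474941680) (nat_lit 228) (nat_lit 384628883) (nat_lit 304) (nat_lit 6616888850) (nat_lit 74) (nat_lit 5) (nat_lit 77) (nat_lit 5) (nat_lit 78) (nat_lit 5) (nat_lit 627) (nat_lit 485) (nat_lit 448)) (XT.lf (nat_lit 0) (nat_lit 3078564415) (nat_lit 228) (nat_lit 7936548553) (nat_lit 304) (nat_lit 1595779405) (nat_lit 71) (nat_lit 5) (nat_lit 74) (nat_lit 5) (nat_lit 75) (nat_lit 4) (nat_lit 628) (nat_lit 485) (nat_lit 447))) (XT.nd (nat_lit 78) (nat_lit 0) (nat_lit 0) (XT.lf (nat_lit 0) (nat_lit 590776276) (nat_lit 228) (nat_lit 2886553328) (nat_lit 304) (nat_lit 9270271240) (nat_lit 67) (nat_lit 5) (nat_lit 70) (nat_lit 5) (nat_lit 71) (nat_lit 5) (nat_lit 629) (nat_lit 485)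 (nat_lit 446)) (XT.lf (nat_lit 0) (nat_lit 8653960418) (nat_lit 304) (nat_lit 1965380612) (nat_lit 76) (nat_lit 2267023974) (nat_lit 67) (nat_lit 5) (nat_lit 71) (nat_lit 5) (nat_lit 68) (nat_lit 4) (nat_lit 630) (nat_lit 485) (nat_lit 445))))))) (XT.nd (nat_lit 1092) (nat_lit 836) (nat_lit 0) (XT.nd (nat_lit 546) (nat_lit 988) (nat_lit 0) (XT.nd (nat_lit 234) (nat_lit 760) (nat_lit 0) (XT.nd (nat_lit 78) (nat_lit 380) (nat_lit 0) (XT.lf (nat_lit 0) (nat_lit 913675290) (nat_lit 228) (nat_lit 4609805278) (nat_lit 76) (nat_lit 7503920370) (nat_lit 64) (nat_lit 5) (nat_lit 67) (nat_lit 5) (nat_lit 65) (nat_lit 5) (nat_lit 631) (nat_lit 485) (nat_lit 444)) (XT.nd (nat_lit 78) (nat_lit 152) (nat_lit 0) (XT.lf (nat_lit 0) (nat_lit 5814407847) (nat_lit 228) (nat_lit 288165082) (nat_lit 304) (nat_lit 7068194742) (nat_lit 61) (nat_lit 5) (nat_lit 64) (nat_lit 5) (nat_lit 65) (nat_lit 5) (nat_lit 632) (nat_lit 485) (nat_lit 443)) (XT.lf (nat_lit 0) (nat_lit 3103129288)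 (nat_lit 152) (nat_lit 8321854669) (nat_lit 228) (nat_lit 1891424024) (nat_lit 59) (nat_lit 5) (nat_lit 61) (nat_lit 5) (nat_lit 62) (nat_lit 4) (nat_lit 633) (nat_lit 485) (nat_lit 442)))) (XT.nd (nat_lit 156) (nat_lit 456) (nat_lit 0) (XT.nd (nat_lit 78) (nat_lit 0) (nat_lit 0) (XT.lf (nat_lit 0) (nat_lit 289255058) (nat_lit 228) (nat_lit 3054385506) (nat_lit 304) (nat_lit 10120897299) (nat_lit 55) (nat_lit 5) (nat_lit 58) (nat_lit 5) (nat_lit 59) (nat_lit 5) (nat_lit 634) (nat_lit 485) (nat_lit 441)) (XT.lf (nat_lit 0) (nat_lit 8688024478) (nat_lit 304) (nat_lit 2600013694) (nat_lit 76) (nat_lit 2326744135) (nat_lit 55) (nat_lit 5) (nat_lit 59) (nat_lit 5) (nat_lit 56) (nat_lit 4) (nat_lit 635) (nat_lit 485) (nat_lit 440))) (XT.nd (nat_lit 78) (nat_lit 228) (nat_lit 0) (XT.lf (nat_lit 0) (nat_lit 386789920) (nat_lit 228) (nat_lit 5592469753) (nat_lit 76) (nat_lit 7788316722) (nat_lit 52) (nat_lit 5) (nat_lit 55) (nat_lit 5) (nat_lit 53) (nat_lit 5) (nat_lit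 636) (nat_lit 485) (nat_lit 439)) (XT.lf (nat_lit 0) (nat_lit 5217424378) (nat_lit 228) (nat_lit 521724429) (nat_lit 304) (nat_lit 8183656892) (nat_lit 49) (nat_lit 5) (nat_lit 52) (nat_lit 5) (nat_lit 53) (nat_lit 5) (nat_lit 637) (nat_lit 485) (nat_lit 438))))) (XT.nd (nat_lit 234) (nat_lit 608) (nat_lit 0) (XT.nd (nat_lit 78) (nat_lit 228) (nat_lit 0) (XT.lf (nat_lit 0) (nat_lit 2137670314) (nat_lit 152) (nat_lit 9092445685) (nat_lit 228) (nat_lit 2850393194) (nat_lit 47) (nat_lit 5) (nat_lit 49) (nat_lit 5) (nat_lit 50) (nat_lit 4) (nat_lit 638) (nat_lit 485) (nat_lit 437)) (XT.nd (nat_lit 78) (nat_lit 152) (nat_lit 0) (XT.lf (nat_lit 0) (nat_lit 2565050130) (nat_lit 228) (nat_lit 1041632007) (nat_lit 76) (nat_lit 10634159621) (nat_lit 46) (nat_lit 5) (nat_lit 49) (nat_lit 5) (nat_lit 47) (nat_lit 5) (nat_lit 639) (nat_lit 485) (nat_lit 436)) (XT.lf (nat_lit 0) (nat_lit 8077671655) (nat_lit 228) (nat_lit 4320256419) (nat_lit 76) (nat_lit 2005536135) (nat_lit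 44) (nat_lit 5) (nat_lit 47) (nat_lit 5) (nat_lit 45) (nat_lit 4) (nat_lit 640) (nat_lit 485) (nat_lit 435)))) (XT.nd (nat_lit 156) (nat_lit 228) (nat_lit 0) (XT.nd (nat_lit 78) (nat_lit 228) (nat_lit 0) (XT.lf (nat_lit 0) (nat_lit 6846723196) (nat_lit 152) (nat_lit 6877578530) (nat_lit 228) (nat_lit 844563024) (nat_lit 42) (nat_lit 5) (nat_lit 44) (nat_lit 5) (nat_lit 45) (nat_lit 4) (nat_lit 641) (nat_lit 485) (nat_lit 434)) (XT.lf (nat_lit 0) (nat_lit 3478555589) (nat_lit 152) (nat_lit 1205698478) (nat_lit 228) (nat_lit 10052699417) (nat_lit 39) (nat_lit 5) (nat_lit 41) (nat_lit 5) (nat_lit 42) (nat_lit 5) (nat_lit 642) (nat_lit 485) (nat_lit 433))) (XT.nd (nat_lit 78) (nat_lit 228) (nat_lit 0) (XT.lf (nat_lit 0) (nat_lit 10342811098) (nat_lit 228) (nat_lit 29887418) (nat_lit 76) (nat_lit 4534985097) (nat_lit 39) (nat_lit 5) (nat_lit 42) (nat_lit 5) (nat_lit 40) (nat_lit 4) (nat_lit 643) (nat_lit 485) (nat_lit 432)) (XT.lf (nat_lit 0) (nat_lit 1051425199)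 (nat_lit 228) (nat_lit 3615363050) (nat_lit 76) (nat_lit 10414261517) (nat_lit 36) (nat_lit 5) (nat_lit 39) (nat_lit 5) (nat_lit 37) (nat_lit 5) (nat_lit 644) (nat_lit 485) (nat_lit 431)))))) (XT.nd (nat_lit 76830) (nat_lit 0) (nat_lit 12540) (XT.nd (nat_lit 234) (nat_lit 304) (nat_lit 0) (XT.nd (nat_lit 78) (nat_lit 380) (nat_lit 0) (XT.lf (nat_lit 0) (nat_lit 6727952458) (nat_lit 228) (nat_lit 7350736514) (nat_lit 76) (nat_lit 1178410927) (nat_lit 34) (nat_lit 5) (nat_lit 37) (nat_lit 5) (nat_lit 35) (nat_lit 4) (nat_lit 645) (nat_lit 485) (nat_lit 430)) (XT.nd (nat_lit 78) (nat_lit 228) (nat_lit 0) (XT.lf (nat_lit 0) (nat_lit 4202287810) (nat_lit 152) (nat_lit 8348077394) (nat_lit 228) (nat_lit 2885659395) (nat_lit 32) (nat_lit 5) (nat_lit 34) (nat_lit 5) (nat_lit 35) (nat_lit 4) (nat_lit 646) (nat_lit 485) (nat_lit 429)) (XT.lf (nat_lit 0) (nat_lit 361082653) (nat_lit 152) (nat_lit 2473761746) (nat_lit 228) (nat_lit 12783275348) (nat_lit 29) (nat_lit 5)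 (nat_lit 31) (nat_lit 5) (nat_lit 32) (nat_lit 5) (nat_lit 647) (nat_lit 485) (nat_lit 428)))) (XT.nd (nat_lit 156) (nat_lit 228) (nat_lit 0) (XT.nd (nat_lit 78) (nat_lit 76) (nat_lit 0) (XT.lf (nat_lit 0) (nat_lit 8679783792) (nat_lit 228) (nat_lit 3597992472) (nat_lit 76) (nat_lit 3524726386) (nat_lit 29) (nat_lit 5) (nat_lit 32) (nat_lit 5) (nat_lit 30) (nat_lit 4) (nat_lit 648) (nat_lit 485) (nat_lit 427)) (XT.lf (nat_lit 0) (nat_lit 8295205295) (nat_lit 76) (nat_lit 6367542875) (nat_lit 152) (nat_lit 1327403130) (nat_lit 28) (nat_lit 5) (nat_lit 29) (nat_lit 5) (nat_lit 30) (nat_lit 4) (nat_lit 649) (nat_lit 485) (nat_lit 426))) (XT.nd (nat_lit 76362) (nat_lit 0) (nat_lit 16036) (XT.lf (nat_lit 0) (nat_lit 4228009343) (nat_lit 152) (nat_lit 298382888) (nat_lit 228) (nat_lit 11654512238) (nat_lit 25) (nat_lit 5) (nat_lit 27) (nat_lit 5) (nat_lit 28) (nat_lit 5) (nat_lit 650) (nat_lit 485) (nat_lit 425)) (XT.lf (nat_lit 0) (nat_lit 803507322) (nat_lit 532)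 (nat_lit 2730405778) (nat_lit 0) (nat_lit 803507322) (nat_lit 236) (nat_lit 5) (nat_lit 243) (nat_lit 4) (nat_lit 236) (nat_lit 4) (nat_lit 588) (nat_lit 486) (nat_lit 486))))) (XT.nd (nat_lit 312) (nat_lit 1900) (nat_lit 0) (XT.nd (nat_lit 156) (nat_lit 532) (nat_lit 0) (XT.nd (nat_lit 78) (nat_lit 532) (nat_lit 0) (XT.lf (nat_lit 0) (nat_lit 2072353456) (nat_lit 532) (nat_lit 3832757399) (nat_lit 532) (nat_lit 2837357998) (nat_lit 229) (nat_lit 4) (nat_lit 236) (nat_lit 5) (nat_lit 236) (nat_lit 4) (nat_lit 589) (nat_lit 486) (nat_lit 485)) (XT.lf (nat_lit 0) (nat_lit 920254008) (nat_lit 456) (nat_lit 511199048) (nat_lit 532) (nat_lit 7380345309) (nat_lit 222) (nat_lit 5) (nat_lit 228) (nat_lit 5) (nat_lit 229) (nat_lit 4) (nat_lit 590) (nat_lit 486) (nat_lit 484))) (XT.nd (nat_lit 78) (nat_lit 532) (nat_lit 0) (XT.lf (nat_lit 0) (nat_lit 5742176545) (nat_lit 532) (nat_lit 268514442) (nat_lit 0) (nat_lit 2871560863) (nat_lit 222) (nat_lit 5) (nat_lit 229)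 (nat_lit 4) (nat_lit 222) (nat_lit 4) (nat_lit 591) (nat_lit 486) (nat_lit 483)) (XT.lf (nat_lit 0) (nat_lit 1153560654) (nat_lit 532) (nat_lit 1460018343) (nat_lit 76) (nat_lit 6340702421) (nat_lit 215) (nat_lit 5) (nat_lit 222) (nat_lit 5) (nat_lit 216) (nat_lit 4) (nat_lit 592) (nat_lit 486) (nat_lit 482)))) (XT.nd (nat_lit 156) (nat_lit 912) (nat_lit 0) (XT.nd (nat_lit 78) (nat_lit 532) (nat_lit 0) (XT.lf (nat_lit 0) (nat_lit 5472202449) (nat_lit 532) (nat_lit 2683090049) (nat_lit 0) (nat_lit 872423261) (nat_lit 209) (nat_lit 5) (nat_lit 216) (nat_lit 4) (nat_lit 209) (nat_lit 4) (nat_lit 593) (nat_lit 486) (nat_lit 481)) (XT.lf (nat_lit 0) (nat_lit 757970937) (nat_lit 532) (nat_lit 3935232974) (nat_lit 76) (nat_lit 4409446422) (nat_lit 202) (nat_lit 5) (nat_lit 209) (nat_lit 5) (nat_lit 203) (nat_lit 4) (nat_lit 594) (nat_lit 486) (nat_lit 480))) (XT.nd (nat_lit 78) (nat_lit 532) (nat_lit 0) (XT.lf (nat_lit 0) (nat_lit 3959928918) (nat_lit 380) (nat_lit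 1127114146) (nat_lit 456) (nat_lit 4092034673) (nat_lit 197) (nat_lit 5) (nat_lit 202) (nat_lit 5) (nat_lit 203) (nat_lit 4) (nat_lit 595) (nat_lit 486) (nat_lit 479)) (XT.lf (nat_lit 0) (nat_lit 236479227) (nat_lit 532) (nat_lit 6530943100) (nat_lit 76) (nat_lit 2489701301) (nat_lit 190) (nat_lit 5) (nat_lit 197) (nat_lit 5) (nat_lit 191) (nat_lit 4) (nat_lit 596) (nat_lit 486) (nat_lit 478))))))))
noncomputable def xc17 : XT := (XT.nd (nat_lit 2262) (nat_lit 4104) (nat_lit 0) (XT.nd (nat_lit 1092) (nat_lit 3572) (nat_lit 0) (XT.nd (nat_lit 546) (nat_lit 2204) (nat_lit 0) (XT.nd (nat_lit 234) (nat_lit 1672) (nat_lit 0) (XT.nd (nat_lit 78) (nat_lit 456) (nat_lit 0) (XT.lf (nat_lit 0) (nat_lit 1447742267) (nat_lit 380) (nat_lit 3134899492) (nat_lit 456) (nat_lit 4753832849) (nat_lit 185) (nat_lit 5) (nat_lit 190) (nat_lit 5) (nat_lit 191) (nat_lit 4) (nat_lit 597) (nat_lit 486) (nat_lit 477)) (XT.nd (nat_lit 78) (nat_lit 76) (nat_lit 0) (XT.lf (nat_lit 0) (nat_lit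 154019989) (nat_lit 380) (nat_lit 8844642584) (nat_lit 380) (nat_lit 419093837) (nat_lit 180) (nat_lit 4) (nat_lit 185) (nat_lit 5) (nat_lit 185) (nat_lit 4) (nat_lit 598) (nat_lit 486) (nat_lit 476)) (XT.lf (nat_lit 0) (nat_lit 3958213126) (nat_lit 456) (nat_lit 1184346577) (nat_lit 76) (nat_lit 4357419540) (nat_lit 179) (nat_lit 5) (nat_lit 185) (nat_lit 5) (nat_lit 180) (nat_lit 4) (nat_lit 599) (nat_lit 486) (nat_lit 475)))) (XT.nd (nat_lit 156) (nat_lit 836) (nat_lit 0) (XT.nd (nat_lit 78) (nat_lit 456) (nat_lit 0) (XT.lf (nat_lit 0) (nat_lit 7046064699) (nat_lit 380) (nat_lit 1352746295) (nat_lit 456) (nat_lit 1185355364) (nat_lit 174) (nat_lit 5) (nat_lit 179) (nat_lit 5) (nat_lit 180) (nat_lit 4) (nat_lit 600) (nat_lit 486) (nat_lit 474)) (XT.lf (nat_lit 0) (nat_lit 3213041502) (nat_lit 456) (nat_lit 3945566004) (nat_lit 76) (nat_lit 2511057098) (nat_lit 168) (nat_lit 5) (nat_lit 174) (nat_lit 5) (nat_lit 169) (nat_lit 4) (nat_lit 601) (nat_lit 486)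 (nat_lit 473))) (XT.nd (nat_lit 78) (nat_lit 456) (nat_lit 0) (XT.lf (nat_lit 0) (nat_lit 4369017844) (nat_lit 380) (nat_lit 3305173198) (nat_lit 456) (nat_lit 2082714158) (nat_lit 163) (nat_lit 5) (nat_lit 168) (nat_lit 5) (nat_lit 169) (nat_lit 4) (nat_lit 602) (nat_lit 486) (nat_lit 472)) (XT.lf (nat_lit 0) (nat_lit 2334057207) (nat_lit 456) (nat_lit 6869636626) (nat_lit 76) (nat_lit 642158412) (nat_lit 157) (nat_lit 5) (nat_lit 163) (nat_lit 5) (nat_lit 158) (nat_lit 4) (nat_lit 603) (nat_lit 486) (nat_lit 471))))) (XT.nd (nat_lit 234) (nat_lit 1444) (nat_lit 0) (XT.nd (nat_lit 78) (nat_lit 456) (nat_lit 0) (XT.lf (nat_lit 0) (nat_lit 1527574818) (nat_lit 304) (nat_lit 5288636793) (nat_lit 380) (nat_lit 3119994675) (nat_lit 153) (nat_lit 5) (nat_lit 157) (nat_lit 5) (nat_lit 158) (nat_lit 4) (nat_lit 604) (nat_lit 486) (nat_lit 470)) (XT.nd (nat_lit 78) (nat_lit 0) (nat_lit 0) (XT.lf (nat_lit 0) (nat_lit 48413905) (nat_lit 380) (nat_lit 1276992078) (nat_lit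 456) (nat_lit 8703114961) (nat_lit 147) (nat_lit 5) (nat_lit 152) (nat_lit 5) (nat_lit 153) (nat_lit 5) (nat_lit 605) (nat_lit 486) (nat_lit 469)) (XT.lf (nat_lit 0) (nat_lit 5830265332) (nat_lit 456) (nat_lit 1474113291) (nat_lit 76) (nat_lit 2817646232) (nat_lit 147) (nat_lit 5) (nat_lit 153) (nat_lit 5) (nat_lit 148) (nat_lit 4) (nat_lit 606) (nat_lit 486) (nat_lit 468)))) (XT.nd (nat_lit 156) (nat_lit 684) (nat_lit 0) (XT.nd (nat_lit 78) (nat_lit 380) (nat_lit 0) (XT.lf (nat_lit 0) (nat_lit 198622297) (nat_lit 380) (nat_lit 3030853669) (nat_lit 76) (nat_lit 6988027289) (nat_lit 142) (nat_lit 5) (nat_lit 147) (nat_lit 5) (nat_lit 143) (nat_lit 5) (nat_lit 607) (nat_lit 486) (nat_lit 467)) (XT.lf (nat_lit 0) (nat_lit 4713047935) (nat_lit 456) (nat_lit 4649060806) (nat_lit 76) (nat_lit 952382914) (nat_lit 137) (nat_lit 5) (nat_lit 143) (nat_lit 5) (nat_lit 138) (nat_lit 4) (nat_lit 608) (nat_lit 486) (nat_lit 466))) (XT.nd (nat_lit 78) (nat_lit 380) (nat_lit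 0) (XT.lf (nat_lit 0) (nat_lit 4095600071) (nat_lit 304) (nat_lit 5229523588) (nat_lit 380) (nat_lit 1088150756) (nat_lit 133) (nat_lit 5) (nat_lit 137) (nat_lit 5) (nat_lit 138) (nat_lit 4) (nat_lit 609) (nat_lit 486) (nat_lit 465)) (XT.lf (nat_lit 0) (nat_lit 2473720574) (nat_lit 304) (nat_lit 982105422) (nat_lit 380) (nat_lit 7058021635) (nat_lit 128) (nat_lit 5) (nat_lit 132) (nat_lit 5) (nat_lit 133) (nat_lit 5) (nat_lit 610) (nat_lit 486) (nat_lit 464)))))) (XT.nd (nat_lit 546) (nat_lit 1672) (nat_lit 0) (XT.nd (nat_lit 234) (nat_lit 1216) (nat_lit 0) (XT.nd (nat_lit 78) (nat_lit 380) (nat_lit 0) (XT.lf (nat_lit 0) (nat_lit 791387541) (nat_lit 304) (nat_lit 7293653081) (nat_lit 380) (nat_lit 2531070980) (nat_lit 124) (nat_lit 5) (nat_lit 128) (nat_lit 5) (nat_lit 129) (nat_lit 4) (nat_lit 611) (nat_lit 486) (nat_lit 463)) (XT.nd (nat_lit 78) (nat_lit 304) (nat_lit 0) (XT.lf (nat_lit 0) (nat_lit 2059358433) (nat_lit 380) (nat_lit 932123224) (nat_lit 76)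 (nat_lit 7728663847) (nat_lit 123) (nat_lit 5) (nat_lit 128) (nat_lit 5) (nat_lit 124) (nat_lit 5) (nat_lit 612) (nat_lit 486) (nat_lit 462)) (XT.lf (nat_lit 0) (nat_lit 6710464916) (nat_lit 380) (nat_lit 2706058863) (nat_lit 76) (nat_lit 1409348127) (nat_lit 119) (nat_lit 5) (nat_lit 124) (nat_lit 5) (nat_lit 120) (nat_lit 4) (nat_lit 613) (nat_lit 486) (nat_lit 461)))) (XT.nd (nat_lit 156) (nat_lit 608) (nat_lit 0) (XT.nd (nat_lit 78) (nat_lit 304) (nat_lit 0) (XT.lf (nat_lit 0) (nat_lit 522687907) (nat_lit 304) (nat_lit 4540289313) (nat_lit 76) (nat_lit 5870496759) (nat_lit 115) (nat_lit 5) (nat_lit 119) (nat_lit 5) (nat_lit 116) (nat_lit 5) (nat_lit 614) (nat_lit 486) (nat_lit 460)) (XT.lf (nat_lit 0) (nat_lit 4601892929) (nat_lit 304) (nat_lit 585829100) (nat_lit 380) (nat_lit 5855177881) (nat_lit 111) (nat_lit 5) (nat_lit 115) (nat_lit 5) (nat_lit 116) (nat_lit 5) (nat_lit 615) (nat_lit 486) (nat_lit 459))) (XT.nd (nat_lit 78) (nat_lit 380) (nat_lit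 0) (XT.lf (nat_lit 0) (nat_lit 2744939225) (nat_lit 228) (nat_lit 7216782214) (nat_lit 304) (nat_lit 1192481124) (nat_lit 108) (nat_lit 5) (nat_lit 111) (nat_lit 5) (nat_lit 112) (nat_lit 4) (nat_lit 616) (nat_lit 486) (nat_lit 458)) (XT.lf (nat_lit 0) (nat_lit 818787224) (nat_lit 304) (nat_lit 2692099676) (nat_lit 380) (nat_lit 7756500019) (nat_lit 103) (nat_lit 5) (nat_lit 107) (nat_lit 5) (nat_lit 108) (nat_lit 5) (nat_lit 617) (nat_lit 486) (nat_lit 457))))) (XT.nd (nat_lit 312) (nat_lit 836) (nat_lit 0) (XT.nd (nat_lit 156) (nat_lit 532) (nat_lit 0) (XT.nd (nat_lit 78) (nat_lit 304) (nat_lit 0) (XT.lf (nat_lit 0) (nat_lit 8303347271) (nat_lit 380) (nat_lit 1157010978) (nat_lit 76) (nat_lit 1922100631) (nat_lit 103) (nat_lit 5) (nat_lit 108) (nat_lit 5) (nat_lit 104) (nat_lit 4) (nat_lit 618) (nat_lit 486) (nat_lit 456)) (XT.lf (nat_lit 0) (nat_lit 1684368271) (nat_lit 304) (nat_lit 3196983227) (nat_lit 76) (nat_lit 6617967801) (nat_lit 99) (nat_lit 5)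 (nat_lit 103) (nat_lit 5) (nat_lit 100) (nat_lit 5) (nat_lit 619) (nat_lit 486) (nat_lit 455))) (XT.nd (nat_lit 78) (nat_lit 228) (nat_lit 0) (XT.lf (nat_lit 0) (nat_lit 6312446147) (nat_lit 304) (nat_lit 181223901) (nat_lit 380) (nat_lit 5124605516) (nat_lit 95) (nat_lit 5) (nat_lit 99) (nat_lit 5) (nat_lit 100) (nat_lit 5) (nat_lit 620) (nat_lit 486) (nat_lit 454)) (XT.lf (nat_lit 0) (nat_lit 4243466039) (nat_lit 228) (nat_lit 7177952375) (nat_lit 304) (nat_lit 317748631) (nat_lit 92) (nat_lit 5) (nat_lit 95) (nat_lit 5) (nat_lit 96) (nat_lit 4) (nat_lit 621) (nat_lit 486) (nat_lit 453)))) (XT.nd (nat_lit 156) (nat_lit 532) (nat_lit 0) (XT.nd (nat_lit 78) (nat_lit 0) (nat_lit 0) (XT.lf (nat_lit 0) (nat_lit 2091709603) (nat_lit 228) (nat_lit 2427290532) (nat_lit 304) (nat_lit 7343004241) (nat_lit 88) (nat_lit 5) (nat_lit 91) (nat_lit 5) (nat_lit 92) (nat_lit 5) (nat_lit 622) (nat_lit 486) (nat_lit 452)) (XT.lf (nat_lit 0) (nat_lit 9458045564) (nat_lit 304)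 (nat_lit 130588379) (nat_lit 76) (nat_lit 2398427403) (nat_lit 88) (nat_lit 5) (nat_lit 92) (nat_lit 5) (nat_lit 89) (nat_lit 4) (nat_lit 623) (nat_lit 486) (nat_lit 451))) (XT.nd (nat_lit 78) (nat_lit 228) (nat_lit 0) (XT.lf (nat_lit 0) (nat_lit 2373924867) (nat_lit 304) (nat_lit 2413189093) (nat_lit 76) (nat_lit 7326719403) (nat_lit 84) (nat_lit 5) (nat_lit 88) (nat_lit 5) (nat_lit 85) (nat_lit 5) (nat_lit 624) (nat_lit 486) (nat_lit 450)) (XT.lf (nat_lit 0) (nat_lit 7336054275) (nat_lit 304) (nat_lit 4772223358) (nat_lit 76) (nat_lit 134630136) (nat_lit 81) (nat_lit 5) (nat_lit 85) (nat_lit 5) (nat_lit 82) (nat_lit 4) (nat_lit 625) (nat_lit 486) (nat_lit 449))))))) (XT.nd (nat_lit 1170) (nat_lit 1292) (nat_lit 0) (XT.nd (nat_lit 546) (nat_lit 1292) (nat_lit 0) (XT.nd (nat_lit 234) (nat_lit 760) (nat_lit 0) (XT.nd (nat_lit 78) (nat_lit 456) (nat_lit 0) (XT.lf (nat_lit 0) (nat_lit 49048830) (nat_lit 304) (nat_lit 7224919155) (nat_lit 76) (nat_lit 5100064100)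 (nat_lit 77) (nat_lit 5) (nat_lit 81) (nat_lit 5) (nat_lit 78) (nat_lit 5) (nat_lit 626) (nat_lit 486) (nat_lit 448)) (XT.nd (nat_lit 78) (nat_lit 228) (nat_lit 0) (XT.lf (nat_lit 0) (nat_lit 2732470173) (nat_lit 228) (nat_lit 2300902626) (nat_lit 304) (nat_lit 7473858365) (nat_lit 74) (nat_lit 5) (nat_lit 77) (nat_lit 5) (nat_lit 78) (nat_lit 5) (nat_lit 627) (nat_lit 486) (nat_lit 447)) (XT.lf (nat_lit 0) (nat_lit 232281253) (nat_lit 228) (nat_lit 9898558197) (nat_lit 304) (nat_lit 2511986717) (nat_lit 71) (nat_lit 5) (nat_lit 74) (nat_lit 5) (nat_lit 75) (nat_lit 4) (nat_lit 628) (nat_lit 486) (nat_lit 446)))) (XT.nd (nat_lit 156) (nat_lit 456) (nat_lit 0) (XT.nd (nat_lit 78) (nat_lit 228) (nat_lit 0) (XT.lf (nat_lit 0) (nat_lit 2542191713) (nat_lit 304) (nat_lit 2337436310) (nat_lit 76) (nat_lit 7900645031) (nat_lit 70) (nat_lit 5) (nat_lit 74) (nat_lit 5) (nat_lit 71) (nat_lit 5) (nat_lit 629) (nat_lit 486) (nat_lit 445)) (XT.lf (nat_lit 0) (nat_lit 7663375817)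 (nat_lit 304) (nat_lit 4992875134) (nat_lit 76) (nat_lit 263895696) (nat_lit 67) (nat_lit 5) (nat_lit 71) (nat_lit 5) (nat_lit 68) (nat_lit 4) (nat_lit 630) (nat_lit 486) (nat_lit 444))) (XT.nd (nat_lit 78) (nat_lit 304) (nat_lit 0) (XT.lf (nat_lit 0) (nat_lit 5308035137) (nat_lit 152) (nat_lit 7607993135) (nat_lit 228) (nat_lit 146209534) (nat_lit 65) (nat_lit 5) (nat_lit 67) (nat_lit 5) (nat_lit 68) (nat_lit 4) (nat_lit 631) (nat_lit 486) (nat_lit 443)) (XT.lf (nat_lit 0) (nat_lit 2581180342) (nat_lit 228) (nat_lit 2415976077) (nat_lit 304) (nat_lit 8209416561) (nat_lit 61) (nat_lit 5) (nat_lit 64) (nat_lit 5) (nat_lit 65) (nat_lit 5) (nat_lit 632) (nat_lit 486) (nat_lit 442))))) (XT.nd (nat_lit 312) (nat_lit 684) (nat_lit 0) (XT.nd (nat_lit 156) (nat_lit 380) (nat_lit 0) (XT.nd (nat_lit 78) (nat_lit 228) (nat_lit 0) (XT.lf (nat_lit 0) (nat_lit 10259225745) (nat_lit 304) (nat_lit 240239990) (nat_lit 76) (nat_lit 2853954848) (nat_lit 61) (nat_lit 5) (nat_lit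 65) (nat_lit 5) (nat_lit 62) (nat_lit 4) (nat_lit 633) (nat_lit 486) (nat_lit 441)) (XT.lf (nat_lit 0) (nat_lit 2126833728) (nat_lit 228) (nat_lit 3137816915) (nat_lit 76) (nat_lit 8237652660) (nat_lit 58) (nat_lit 5) (nat_lit 61) (nat_lit 5) (nat_lit 59) (nat_lit 5) (nat_lit 634) (nat_lit 486) (nat_lit 440))) (XT.nd (nat_lit 78) (nat_lit 152) (nat_lit 0) (XT.lf (nat_lit 0) (nat_lit 7409818864) (nat_lit 304) (nat_lit 6140042491) (nat_lit 76) (nat_lit 103914801) (nat_lit 55) (nat_lit 5) (nat_lit 59) (nat_lit 5) (nat_lit 56) (nat_lit 4) (nat_lit 635) (nat_lit 486) (nat_lit 439)) (XT.lf (nat_lit 0) (nat_lit 4543375425) (nat_lit 152) (nat_lit 8288626979) (nat_lit 228) (nat_lit 975606148) (nat_lit 53) (nat_lit 5) (nat_lit 55) (nat_lit 5) (nat_lit 56) (nat_lit 4) (nat_lit 636) (nat_lit 486) (nat_lit 438)))) (XT.nd (nat_lit 156) (nat_lit 380) (nat_lit 0) (XT.nd (nat_lit 78) (nat_lit 0) (nat_lit 0) (XT.lf (nat_lit 0) (nat_lit 1455994932) (nat_lit 228) (nat_lit 2883412966)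 (nat_lit 304) (nat_lit 9624559854) (nat_lit 49) (nat_lit 5) (nat_lit 52) (nat_lit 5) (nat_lit 53) (nat_lit 5) (nat_lit 637) (nat_lit 486) (nat_lit 437)) (XT.lf (nat_lit 0) (nat_lit 9775511798) (nat_lit 304) (nat_lit 1724360320) (nat_lit 76) (nat_lit 2622896795) (nat_lit 49) (nat_lit 5) (nat_lit 53) (nat_lit 5) (nat_lit 50) (nat_lit 4) (nat_lit 638) (nat_lit 486) (nat_lit 436))) (XT.nd (nat_lit 78) (nat_lit 152) (nat_lit 0) (XT.lf (nat_lit 0) (nat_lit 1050780348) (nat_lit 228) (nat_lit 5006041538) (nat_lit 76) (nat_lit 8227215099) (nat_lit 46) (nat_lit 5) (nat_lit 49) (nat_lit 5) (nat_lit 47) (nat_lit 5) (nat_lit 639) (nat_lit 486) (nat_lit 435)) (XT.lf (nat_lit 0) (nat_lit 6033109037) (nat_lit 152) (nat_lit 465599628) (nat_lit 228) (nat_lit 7949245012) (nat_lit 44) (nat_lit 5) (nat_lit 46) (nat_lit 5) (nat_lit 47) (nat_lit 5) (nat_lit 640) (nat_lit 486) (nat_lit 434)))))) (XT.nd (nat_lit 546) (nat_lit 304) (nat_lit 0) (XT.nd (nat_lit 234) (nat_lit 608) (nat_lit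 0) (XT.nd (nat_lit 78) (nat_lit 228) (nat_lit 0) (XT.lf (nat_lit 0) (nat_lit 2654256736) (nat_lit 152) (nat_lit 9435785914) (nat_lit 228) (nat_lit 2524417861) (nat_lit 42) (nat_lit 5) (nat_lit 44) (nat_lit 5) (nat_lit 45) (nat_lit 4) (nat_lit 641) (nat_lit 486) (nat_lit 433)) (XT.nd (nat_lit 78) (nat_lit 152) (nat_lit 0) (XT.lf (nat_lit 0) (nat_lit 2978823002) (nat_lit 228) (nat_lit 840168862) (nat_lit 76) (nat_lit 10964728026) (nat_lit 41) (nat_lit 5) (nat_lit 44) (nat_lit 5) (nat_lit 42) (nat_lit 5) (nat_lit 642) (nat_lit 486) (nat_lit 432)) (XT.lf (nat_lit 0) (nat_lit 8589885163) (nat_lit 228) (nat_lit 4435656950) (nat_lit 76) (nat_lit 1929858154) (nat_lit 39) (nat_lit 5) (nat_lit 42) (nat_lit 5) (nat_lit 40) (nat_lit 4) (nat_lit 643) (nat_lit 486) (nat_lit 431)))) (XT.nd (nat_lit 156) (nat_lit 228) (nat_lit 0) (XT.nd (nat_lit 78) (nat_lit 228) (nat_lit 0) (XT.lf (nat_lit 0) (nat_lit 6962718556) (nat_lit 152) (nat_lit 7377185520) (nat_lit 228) (nat_lit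 790076155) (nat_lit 37) (nat_lit 5) (nat_lit 39) (nat_lit 5) (nat_lit 40) (nat_lit 4) (nat_lit 644) (nat_lit 486) (nat_lit 430)) (XT.lf (nat_lit 0) (nat_lit 3261345316) (nat_lit 152) (nat_lit 1573058875) (nat_lit 228) (nat_lit 10472977274) (nat_lit 34) (nat_lit 5) (nat_lit 36) (nat_lit 5) (nat_lit 37) (nat_lit 5) (nat_lit 645) (nat_lit 486) (nat_lit 429))) (XT.nd (nat_lit 78) (nat_lit 228) (nat_lit 0) (XT.lf (nat_lit 0) (nat_lit 10594927866) (nat_lit 228) (nat_lit 583100134) (nat_lit 76) (nat_lit 4309516268) (nat_lit 34) (nat_lit 5) (nat_lit 37) (nat_lit 5) (nat_lit 35) (nat_lit 4) (nat_lit 646) (nat_lit 486) (nat_lit 428)) (XT.lf (nat_lit 0) (nat_lit 823637527) (nat_lit 228) (nat_lit 4520545256) (nat_lit 76) (nat_lit 10326328982) (nat_lit 31) (nat_lit 5) (nat_lit 34) (nat_lit 5) (nat_lit 32) (nat_lit 5) (nat_lit 647) (nat_lit 486) (nat_lit 427))))) (XT.nd (nat_lit 76440) (nat_lit 0) (nat_lit 14820) (XT.nd (nat_lit 156) (nat_lit 76) (nat_lit 0) (XT.nd (nat_lit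 78) (nat_lit 76) (nat_lit 0) (XT.lf (nat_lit 0) (nat_lit 6595688844) (nat_lit 228) (nat_lit 8619115740) (nat_lit 76) (nat_lit 641548148) (nat_lit 29) (nat_lit 5) (nat_lit 32) (nat_lit 5) (nat_lit 30) (nat_lit 4) (nat_lit 648) (nat_lit 486) (nat_lit 426)) (XT.lf (nat_lit 0) (nat_lit 3162385249) (nat_lit 76) (nat_lit 9359105034) (nat_lit 152) (nat_lit 3523654656) (nat_lit 28) (nat_lit 5) (nat_lit 29) (nat_lit 5) (nat_lit 30) (nat_lit 4) (nat_lit 649) (nat_lit 486) (nat_lit 425))) (XT.nd (nat_lit 76206) (nat_lit 0) (nat_lit 16948) (XT.lf (nat_lit 0) (nat_lit 2307680837) (nat_lit 152) (nat_lit 1045399625) (nat_lit 76) (nat_lit 12884128406) (nat_lit 27) (nat_lit 5) (nat_lit 29) (nat_lit 5) (nat_lit 28) (nat_lit 5) (nat_lit 650) (nat_lit 486) (nat_lit 424)) (XT.lf (nat_lit 0) (nat_lit 1367522052) (nat_lit 608) (nat_lit 1536441842) (nat_lit 0) (nat_lit 1367522052) (nat_lit 250) (nat_lit 5) (nat_lit 258) (nat_lit 4) (nat_lit 250) (nat_lit 4) (nat_lit 586) (nat_lit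 487) (nat_lit 487)))) (XT.nd (nat_lit 156) (nat_lit 1064) (nat_lit 0) (XT.nd (nat_lit 78) (nat_lit 532) (nat_lit 0) (XT.lf (nat_lit 0) (nat_lit 4327690076) (nat_lit 532) (nat_lit 2658225740) (nat_lit 532) (nat_lit 1622612203) (nat_lit 243) (nat_lit 4) (nat_lit 250) (nat_lit 5) (nat_lit 250) (nat_lit 4) (nat_lit 587) (nat_lit 487) (nat_lit 486)) (XT.lf (nat_lit 0) (nat_lit 2587665400) (nat_lit 532) (nat_lit 5510911569) (nat_lit 0) (nat_lit 576958610) (nat_lit 236) (nat_lit 5) (nat_lit 243) (nat_lit 4) (nat_lit 236) (nat_lit 4) (nat_lit 588) (nat_lit 487) (nat_lit 485))) (XT.nd (nat_lit 78) (nat_lit 532) (nat_lit 0) (XT.lf (nat_lit 0) (nat_lit 1971817233) (nat_lit 532) (nat_lit 4879314539) (nat_lit 532) (nat_lit 1892725983) (nat_lit 229) (nat_lit 4) (nat_lit 236) (nat_lit 5) (nat_lit 236) (nat_lit 4) (nat_lit 589) (nat_lit 487) (nat_lit 484)) (XT.lf (nat_lit 0) (nat_lit 760859313) (nat_lit 456) (nat_lit 1567949942) (nat_lit 532) (nat_lit 6484954593) (nat_lit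 222) (nat_lit 5) (nat_lit 228) (nat_lit 5) (nat_lit 229) (nat_lit 4) (nat_lit 590) (nat_lit 487) (nat_lit 483))))))))
noncomputable def xc18 : XT := (XT.nd (nat_lit 2262) (nat_lit 5320) (nat_lit 0) (XT.nd (nat_lit 1092) (nat_lit 4104) (nat_lit 0) (XT.nd (nat_lit 546) (nat_lit 2432) (nat_lit 0) (XT.nd (nat_lit 234) (nat_lit 1824) (nat_lit 0) (XT.nd (nat_lit 78) (nat_lit 988) (nat_lit 0) (XT.lf (nat_lit 0) (nat_lit 6599065755) (nat_lit 532) (nat_lit 472506911) (nat_lit 0) (nat_lit 1813455488) (nat_lit 222) (nat_lit 5) (nat_lit 229) (nat_lit 4) (nat_lit 222) (nat_lit 4) (nat_lit 591) (nat_lit 487) (nat_lit 482)) (XT.nd (nat_lit 78) (nat_lit 456) (nat_lit 0) (XT.lf (nat_lit 0) (nat_lit 1961632880) (nat_lit 532) (nat_lit 1724675754) (nat_lit 76) (nat_lit 5271336379) (nat_lit 215) (nat_lit 5) (nat_lit 222) (nat_lit 5) (nat_lit 216) (nat_lit 4) (nat_lit 592) (nat_lit 487) (nat_lit 481)) (XT.lf (nat_lit 0) (nat_lit 6033017707) (nat_lit 456) (nat_lit 206624897) (nat_lit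 532) (nat_lit 2792250786) (nat_lit 209) (nat_lit 5) (nat_lit 215) (nat_lit 5) (nat_lit 216) (nat_lit 4) (nat_lit 593) (nat_lit 487) (nat_lit 480)))) (XT.nd (nat_lit 156) (nat_lit 912) (nat_lit 0) (XT.nd (nat_lit 78) (nat_lit 380) (nat_lit 0) (XT.lf (nat_lit 0) (nat_lit 1474645416) (nat_lit 532) (nat_lit 4312996096) (nat_lit 76) (nat_lit 3319820235) (nat_lit 202) (nat_lit 5) (nat_lit 209) (nat_lit 5) (nat_lit 203) (nat_lit 4) (nat_lit 594) (nat_lit 487) (nat_lit 479)) (XT.lf (nat_lit 0) (nat_lit 3527512837) (nat_lit 380) (nat_lit 2240902195) (nat_lit 456) (nat_lit 3416181484) (nat_lit 197) (nat_lit 5) (nat_lit 202) (nat_lit 5) (nat_lit 203) (nat_lit 4) (nat_lit 595) (nat_lit 487) (nat_lit 478))) (XT.nd (nat_lit 78) (nat_lit 380) (nat_lit 0) (XT.lf (nat_lit 0) (nat_lit 860515148) (nat_lit 532) (nat_lit 7027700316) (nat_lit 76) (nat_lit 1375199511) (nat_lit 190) (nat_lit 5) (nat_lit 197) (nat_lit 5) (nat_lit 191) (nat_lit 4) (nat_lit 596) (nat_lit 487) (nat_lit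 477)) (XT.lf (nat_lit 0) (nat_lit 894425780) (nat_lit 380) (nat_lit 4276481314) (nat_lit 456) (nat_lit 4172575511) (nat_lit 185) (nat_lit 5) (nat_lit 190) (nat_lit 5) (nat_lit 191) (nat_lit 4) (nat_lit 597) (nat_lit 487) (nat_lit 476))))) (XT.nd (nat_lit 234) (nat_lit 1596) (nat_lit 0) (XT.nd (nat_lit 78) (nat_lit 760) (nat_lit 0) (XT.lf (nat_lit 0) (nat_lit 123163872) (nat_lit 456) (nat_lit 454987461) (nat_lit 76) (nat_lit 8847330663) (nat_lit 184) (nat_lit 5) (nat_lit 190) (nat_lit 5) (nat_lit 185) (nat_lit 5) (nat_lit 598) (nat_lit 487) (nat_lit 475)) (XT.nd (nat_lit 78) (nat_lit 380) (nat_lit 0) (XT.lf (nat_lit 0) (nat_lit 4456327965) (nat_lit 456) (nat_lit 1855738106) (nat_lit 76) (nat_lit 3196358432) (nat_lit 179) (nat_lit 5) (nat_lit 185) (nat_lit 5) (nat_lit 180) (nat_lit 4) (nat_lit 599) (nat_lit 487) (nat_lit 474)) (XT.lf (nat_lit 0) (nat_lit 6316472465) (nat_lit 380) (nat_lit 2544461984) (nat_lit 456) (nat_lit 732398141) (nat_lit 174) (nat_lit 5)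 (nat_lit 179) (nat_lit 5) (nat_lit 180) (nat_lit 4) (nat_lit 600) (nat_lit 487) (nat_lit 473)))) (XT.nd (nat_lit 156) (nat_lit 760) (nat_lit 0) (XT.nd (nat_lit 78) (nat_lit 380) (nat_lit 0) (XT.lf (nat_lit 0) (nat_lit 3615830176) (nat_lit 456) (nat_lit 4748466290) (nat_lit 76) (nat_lit 1315361212) (nat_lit 168) (nat_lit 5) (nat_lit 174) (nat_lit 5) (nat_lit 169) (nat_lit 4) (nat_lit 601) (nat_lit 487) (nat_lit 472)) (XT.lf (nat_lit 0) (nat_lit 3505886288) (nat_lit 380) (nat_lit 4534510890) (nat_lit 456) (nat_lit 1727233824) (nat_lit 163) (nat_lit 5) (nat_lit 168) (nat_lit 5) (nat_lit 169) (nat_lit 4) (nat_lit 602) (nat_lit 487) (nat_lit 471))) (XT.nd (nat_lit 78) (nat_lit 304) (nat_lit 0) (XT.lf (nat_lit 0) (nat_lit 2043063576) (nat_lit 380) (nat_lit 600609597) (nat_lit 456) (nat_lit 7213683794) (nat_lit 157) (nat_lit 5) (nat_lit 162) (nat_lit 5) (nat_lit 163) (nat_lit 5) (nat_lit 603) (nat_lit 487) (nat_lit 470)) (XT.lf (nat_lit 0) (nat_lit 524487726) (nat_lit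 304) (nat_lit 6560209035) (nat_lit 380) (nat_lit 2863837880) (nat_lit 153) (nat_lit 5) (nat_lit 157) (nat_lit 5) (nat_lit 158) (nat_lit 4) (nat_lit 604) (nat_lit 487) (nat_lit 469)))))) (XT.nd (nat_lit 546) (nat_lit 2204) (nat_lit 0) (XT.nd (nat_lit 234) (nat_lit 1064) (nat_lit 0) (XT.nd (nat_lit 78) (nat_lit 760) (nat_lit 0) (XT.lf (nat_lit 0) (nat_lit 1547252972) (nat_lit 380) (nat_lit 1018558450) (nat_lit 76) (nat_lit 7475624595) (nat_lit 152) (nat_lit 5) (nat_lit 157) (nat_lit 5) (nat_lit 153) (nat_lit 5) (nat_lit 605) (nat_lit 487) (nat_lit 468)) (XT.nd (nat_lit 78) (nat_lit 380) (nat_lit 0) (XT.lf (nat_lit 0) (nat_lit 6006525444) (nat_lit 456) (nat_lit 2608680711) (nat_lit 76) (nat_lit 1520646469) (nat_lit 147) (nat_lit 5) (nat_lit 153) (nat_lit 5) (nat_lit 148) (nat_lit 4) (nat_lit 606) (nat_lit 487) (nat_lit 467)) (XT.lf (nat_lit 0) (nat_lit 321014891) (nat_lit 380) (nat_lit 4244982963) (nat_lit 76) (nat_lit 5666071186) (nat_lit 142) (nat_lit 5) (nat_lit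 147) (nat_lit 5) (nat_lit 143) (nat_lit 5) (nat_lit 607) (nat_lit 487) (nat_lit 466)))) (XT.nd (nat_lit 156) (nat_lit 380) (nat_lit 0) (XT.nd (nat_lit 78) (nat_lit 304) (nat_lit 0) (XT.lf (nat_lit 0) (nat_lit 4392381247) (nat_lit 380) (nat_lit 398686895) (nat_lit 456) (nat_lit 5538877649) (nat_lit 137) (nat_lit 5) (nat_lit 142) (nat_lit 5) (nat_lit 143) (nat_lit 5) (nat_lit 608) (nat_lit 487) (nat_lit 465)) (XT.lf (nat_lit 0) (nat_lit 2743266708) (nat_lit 304) (nat_lit 6618858620) (nat_lit 380) (nat_lit 1067424478) (nat_lit 133) (nat_lit 5) (nat_lit 137) (nat_lit 5) (nat_lit 138) (nat_lit 4) (nat_lit 609) (nat_lit 487) (nat_lit 464))) (XT.nd (nat_lit 78) (nat_lit 0) (nat_lit 0) (XT.lf (nat_lit 0) (nat_lit 1037383719) (nat_lit 304) (nat_lit 2399993250) (nat_lit 380) (nat_lit 7093522280) (nat_lit 128) (nat_lit 5) (nat_lit 132) (nat_lit 5) (nat_lit 133) (nat_lit 5) (nat_lit 610) (nat_lit 487) (nat_lit 463)) (XT.lf (nat_lit 0) (nat_lit 8022811020) (nat_lit 380)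 (nat_lit 712072132) (nat_lit 76) (nat_lit 1899156514) (nat_lit 128) (nat_lit 5) (nat_lit 133) (nat_lit 5) (nat_lit 129) (nat_lit 4) (nat_lit 611) (nat_lit 487) (nat_lit 462))))) (XT.nd (nat_lit 312) (nat_lit 912) (nat_lit 0) (XT.nd (nat_lit 156) (nat_lit 608) (nat_lit 0) (XT.nd (nat_lit 78) (nat_lit 304) (nat_lit 0) (XT.lf (nat_lit 0) (nat_lit 1946167625) (nat_lit 380) (nat_lit 2511483537) (nat_lit 76) (nat_lit 6281115305) (nat_lit 123) (nat_lit 5) (nat_lit 128) (nat_lit 5) (nat_lit 124) (nat_lit 5) (nat_lit 612) (nat_lit 487) (nat_lit 461)) (XT.lf (nat_lit 0) (nat_lit 6480276206) (nat_lit 304) (nat_lit 68226652) (nat_lit 380) (nat_lit 4296966220) (nat_lit 119) (nat_lit 5) (nat_lit 123) (nat_lit 5) (nat_lit 124) (nat_lit 5) (nat_lit 613) (nat_lit 487) (nat_lit 460))) (XT.nd (nat_lit 78) (nat_lit 304) (nat_lit 0) (XT.lf (nat_lit 0) (nat_lit 302907579) (nat_lit 304) (nat_lit 6288760396) (nat_lit 76) (nat_lit 4362239554) (nat_lit 115) (nat_lit 5) (nat_lit 119)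 (nat_lit 5) (nat_lit 116) (nat_lit 5) (nat_lit 614) (nat_lit 487) (nat_lit 459)) (XT.lf (nat_lit 0) (nat_lit 2781342414) (nat_lit 304) (nat_lit 2146179394) (nat_lit 380) (nat_lit 6136620790) (nat_lit 111) (nat_lit 5) (nat_lit 115) (nat_lit 5) (nat_lit 116) (nat_lit 5) (nat_lit 615) (nat_lit 487) (nat_lit 458)))) (XT.nd (nat_lit 156) (nat_lit 608) (nat_lit 0) (XT.nd (nat_lit 78) (nat_lit 76) (nat_lit 0) (XT.lf (nat_lit 0) (nat_lit 839966443) (nat_lit 228) (nat_lit 8810578961) (nat_lit 304) (nat_lit 1525920087) (nat_lit 108) (nat_lit 5) (nat_lit 111) (nat_lit 5) (nat_lit 112) (nat_lit 4) (nat_lit 616) (nat_lit 487) (nat_lit 457)) (XT.lf (nat_lit 0) (nat_lit 3148087310) (nat_lit 304) (nat_lit 1165408883) (nat_lit 76) (nat_lit 6976872326) (nat_lit 107) (nat_lit 5) (nat_lit 111) (nat_lit 5) (nat_lit 108) (nat_lit 5) (nat_lit 617) (nat_lit 487) (nat_lit 456))) (XT.nd (nat_lit 78) (nat_lit 304) (nat_lit 0) (XT.lf (nat_lit 0) (nat_lit 7894000868) (nat_lit 380) (nat_lit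 3217755128) (nat_lit 76) (nat_lit 294616103) (nat_lit 103) (nat_lit 5) (nat_lit 108) (nat_lit 5) (nat_lit 104) (nat_lit 4) (nat_lit 618) (nat_lit 487) (nat_lit 455)) (XT.lf (nat_lit 0) (nat_lit 1214897528) (nat_lit 304) (nat_lit 5354955476) (nat_lit 76) (nat_lit 4954274301) (nat_lit 99) (nat_lit 5) (nat_lit 103) (nat_lit 5) (nat_lit 100) (nat_lit 5) (nat_lit 619) (nat_lit 487) (nat_lit 454))))))) (XT.nd (nat_lit 1092) (nat_lit 2432) (nat_lit 0) (XT.nd (nat_lit 546) (nat_lit 1292) (nat_lit 0) (XT.nd (nat_lit 234) (nat_lit 988) (nat_lit 0) (XT.nd (nat_lit 78) (nat_lit 304) (nat_lit 0) (XT.lf (nat_lit 0) (nat_lit 4077554742) (nat_lit 304) (nat_lit 1904441924) (nat_lit 380) (nat_lit 5661931600) (nat_lit 95) (nat_lit 5) (nat_lit 99) (nat_lit 5) (nat_lit 100) (nat_lit 5) (nat_lit 620) (nat_lit 487) (nat_lit 453)) (XT.nd (nat_lit 78) (nat_lit 76) (nat_lit 0) (XT.lf (nat_lit 0) (nat_lit 1915867436) (nat_lit 228) (nat_lit 8939991875) (nat_lit 304) (nat_lit 910038782)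 (nat_lit 92) (nat_lit 5) (nat_lit 95) (nat_lit 5) (nat_lit 96) (nat_lit 4) (nat_lit 621) (nat_lit 487) (nat_lit 452)) (XT.lf (nat_lit 0) (nat_lit 3893363447) (nat_lit 304) (nat_lit 333976146) (nat_lit 76) (nat_lit 7662295639) (nat_lit 91) (nat_lit 5) (nat_lit 95) (nat_lit 5) (nat_lit 92) (nat_lit 5) (nat_lit 622) (nat_lit 487) (nat_lit 451)))) (XT.nd (nat_lit 156) (nat_lit 456) (nat_lit 0) (XT.nd (nat_lit 78) (nat_lit 304) (nat_lit 0) (XT.lf (nat_lit 0) (nat_lit 8791077170) (nat_lit 304) (nat_lit 2624555652) (nat_lit 76) (nat_lit 599886610) (nat_lit 88) (nat_lit 5) (nat_lit 92) (nat_lit 5) (nat_lit 89) (nat_lit 4) (nat_lit 623) (nat_lit 487) (nat_lit 450)) (XT.lf (nat_lit 0) (nat_lit 1643718266) (nat_lit 304) (nat_lit 5012381869) (nat_lit 76) (nat_lit 5487160204) (nat_lit 84) (nat_lit 5) (nat_lit 88) (nat_lit 5) (nat_lit 85) (nat_lit 5) (nat_lit 624) (nat_lit 487) (nat_lit 449))) (XT.nd (nat_lit 78) (nat_lit 228) (nat_lit 0) (XT.lf (nat_lit 0) (nat_lit 4790248850)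 (nat_lit 228) (nat_lit 1770456593) (nat_lit 304) (nat_lit 5712532709) (nat_lit 81) (nat_lit 5) (nat_lit 84) (nat_lit 5) (nat_lit 85) (nat_lit 5) (nat_lit 625) (nat_lit 487) (nat_lit 448)) (XT.lf (nat_lit 0) (nat_lit 2366599856) (nat_lit 228) (nat_lit 9225473250) (nat_lit 304) (nat_lit 813422711) (nat_lit 78) (nat_lit 5) (nat_lit 81) (nat_lit 5) (nat_lit 82) (nat_lit 4) (nat_lit 626) (nat_lit 487) (nat_lit 447))))) (XT.nd (nat_lit 234) (nat_lit 684) (nat_lit 0) (XT.nd (nat_lit 78) (nat_lit 532) (nat_lit 0) (XT.lf (nat_lit 0) (nat_lit 4137118924) (nat_lit 304) (nat_lit 159181755) (nat_lit 76) (nat_lit 8243389380) (nat_lit 77) (nat_lit 5) (nat_lit 81) (nat_lit 5) (nat_lit 78) (nat_lit 5) (nat_lit 627) (nat_lit 487) (nat_lit 446)) (XT.nd (nat_lit 78) (nat_lit 304) (nat_lit 0) (XT.lf (nat_lit 0) (nat_lit 9192446177) (nat_lit 304) (nat_lit 2731257936) (nat_lit 76) (nat_lit 752424256) (nat_lit 74) (nat_lit 5) (nat_lit 78) (nat_lit 5) (nat_lit 75) (nat_lit 4) (nat_lit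 628) (nat_lit 487) (nat_lit 445)) (XT.lf (nat_lit 0) (nat_lit 1538572896) (nat_lit 304) (nat_lit 5411757265) (nat_lit 76) (nat_lit 5864265116) (nat_lit 70) (nat_lit 5) (nat_lit 74) (nat_lit 5) (nat_lit 71) (nat_lit 5) (nat_lit 629) (nat_lit 487) (nat_lit 444)))) (XT.nd (nat_lit 156) (nat_lit 304) (nat_lit 0) (XT.nd (nat_lit 78) (nat_lit 152) (nat_lit 0) (XT.lf (nat_lit 0) (nat_lit 4766925096) (nat_lit 228) (nat_lit 1844506851) (nat_lit 304) (nat_lit 6344003914) (nat_lit 67) (nat_lit 5) (nat_lit 70) (nat_lit 5) (nat_lit 71) (nat_lit 5) (nat_lit 630) (nat_lit 487) (nat_lit 443)) (XT.lf (nat_lit 0) (nat_lit 2035043130) (nat_lit 152) (nat_lit 9769837917) (nat_lit 228) (nat_lit 1293830520) (nat_lit 65) (nat_lit 5) (nat_lit 67) (nat_lit 5) (nat_lit 68) (nat_lit 4) (nat_lit 631) (nat_lit 487) (nat_lit 442))) (XT.nd (nat_lit 78) (nat_lit 228) (nat_lit 0) (XT.lf (nat_lit 0) (nat_lit 3821889728) (nat_lit 228) (nat_lit 801133072) (nat_lit 76) (nat_lit 8621027361) (nat_lit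 64) (nat_lit 5) (nat_lit 67) (nat_lit 5) (nat_lit 65) (nat_lit 5) (nat_lit 632) (nat_lit 487) (nat_lit 441)) (XT.lf (nat_lit 0) (nat_lit 9038462191) (nat_lit 304) (nat_lit 3702941185) (nat_lit 76) (nat_lit 650404776) (nat_lit 61) (nat_lit 5) (nat_lit 65) (nat_lit 5) (nat_lit 62) (nat_lit 4) (nat_lit 633) (nat_lit 487) (nat_lit 440)))))) (XT.nd (nat_lit 546) (nat_lit 1140) (nat_lit 0) (XT.nd (nat_lit 234) (nat_lit 684) (nat_lit 0) (XT.nd (nat_lit 78) (nat_lit 380) (nat_lit 0) (XT.lf (nat_lit 0) (nat_lit 835439755) (nat_lit 228) (nat_lit 6723613291) (nat_lit 76) (nat_lit 5982776902) (nat_lit 58) (nat_lit 5) (nat_lit 61) (nat_lit 5) (nat_lit 59) (nat_lit 5) (nat_lit 634) (nat_lit 487) (nat_lit 439)) (XT.nd (nat_lit 78) (nat_lit 152) (nat_lit 0) (XT.lf (nat_lit 0) (nat_lit 3834726958) (nat_lit 228) (nat_lit 2233804529) (nat_lit 304) (nat_lit 7625769608) (nat_lit 55) (nat_lit 5) (nat_lit 58) (nat_lit 5) (nat_lit 59) (nat_lit 5) (nat_lit 635) (nat_lit 487) (nat_lit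 438)) (XT.lf (nat_lit 0) (nat_lit 742782906) (nat_lit 152) (nat_lit 10683504807) (nat_lit 228) (nat_lit 2423134740) (nat_lit 53) (nat_lit 5) (nat_lit 55) (nat_lit 5) (nat_lit 56) (nat_lit 4) (nat_lit 636) (nat_lit 487) (nat_lit 437)))) (XT.nd (nat_lit 156) (nat_lit 380) (nat_lit 0) (XT.nd (nat_lit 78) (nat_lit 228) (nat_lit 0) (XT.lf (nat_lit 0) (nat_lit 2876196507) (nat_lit 228) (nat_lit 2441862267) (nat_lit 76) (nat_lit 8688604595) (nat_lit 52) (nat_lit 5) (nat_lit 55) (nat_lit 5) (nat_lit 53) (nat_lit 5) (nat_lit 637) (nat_lit 487) (nat_lit 436)) (XT.lf (nat_lit 0) (nat_lit 8255174276) (nat_lit 304) (nat_lit 5727592218) (nat_lit 76) (nat_lit 183840950) (nat_lit 49) (nat_lit 5) (nat_lit 53) (nat_lit 5) (nat_lit 50) (nat_lit 4) (nat_lit 638) (nat_lit 487) (nat_lit 435))) (XT.nd (nat_lit 78) (nat_lit 228) (nat_lit 0) (XT.lf (nat_lit 0) (nat_lit 5183094998) (nat_lit 152) (nat_lit 8594200370) (nat_lit 228) (nat_lit 551744536) (nat_lit 47) (nat_lit 5) (nat_lit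 49) (nat_lit 5) (nat_lit 50) (nat_lit 4) (nat_lit 639) (nat_lit 487) (nat_lit 434)) (XT.lf (nat_lit 0) (nat_lit 1796266951) (nat_lit 152) (nat_lit 3055021549) (nat_lit 228) (nat_lit 9642782743) (nat_lit 44) (nat_lit 5) (nat_lit 46) (nat_lit 5) (nat_lit 47) (nat_lit 5) (nat_lit 640) (nat_lit 487) (nat_lit 433))))) (XT.nd (nat_lit 312) (nat_lit 608) (nat_lit 0) (XT.nd (nat_lit 156) (nat_lit 304) (nat_lit 0) (XT.nd (nat_lit 78) (nat_lit 228) (nat_lit 0) (XT.lf (nat_lit 0) (nat_lit 10384015443) (nat_lit 228) (nat_lit 1691717672) (nat_lit 76) (nat_lit 2586017462) (nat_lit 44) (nat_lit 5) (nat_lit 47) (nat_lit 5) (nat_lit 45) (nat_lit 4) (nat_lit 641) (nat_lit 487) (nat_lit 432)) (XT.lf (nat_lit 0) (nat_lit 1212765277) (nat_lit 228) (nat_lit 5289726723) (nat_lit 76) (nat_lit 8329460692) (nat_lit 41) (nat_lit 5) (nat_lit 44) (nat_lit 5) (nat_lit 42) (nat_lit 5) (nat_lit 642) (nat_lit 487) (nat_lit 431))) (XT.nd (nat_lit 78) (nat_lit 152) (nat_lit 0) (XT.lf (nat_lit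 0) (nat_lit 5979253736) (nat_lit 152) (nat_lit 778262239) (nat_lit 228) (nat_lit 8247443663) (nat_lit 39) (nat_lit 5) (nat_lit 41) (nat_lit 5) (nat_lit 42) (nat_lit 5) (nat_lit 643) (nat_lit 487) (nat_lit 430)) (XT.lf (nat_lit 0) (nat_lit 2271982682) (nat_lit 152) (nat_lit 10176049607) (nat_lit 228) (nat_lit 2732697701) (nat_lit 37) (nat_lit 5) (nat_lit 39) (nat_lit 5) (nat_lit 40) (nat_lit 4) (nat_lit 644) (nat_lit 487) (nat_lit 429)))) (XT.nd (nat_lit 156) (nat_lit 380) (nat_lit 0) (XT.nd (nat_lit 78) (nat_lit 152) (nat_lit 0) (XT.lf (nat_lit 0) (nat_lit 2872118680) (nat_lit 228) (nat_lit 1554548639) (nat_lit 76) (nat_lit 10932619318) (nat_lit 36) (nat_lit 5) (nat_lit 39) (nat_lit 5) (nat_lit 37) (nat_lit 5) (nat_lit 645) (nat_lit 487) (nat_lit 428)) (XT.lf (nat_lit 0) (nat_lit 8579906391) (nat_lit 228) (nat_lit 5497469547) (nat_lit 76) (nat_lit 1463128538) (nat_lit 34) (nat_lit 5) (nat_lit 37) (nat_lit 5) (nat_lit 35) (nat_lit 4) (nat_lit 646) (nat_lit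 487) (nat_lit 427))) (XT.nd (nat_lit 78) (nat_lit 228) (nat_lit 0) (XT.lf (nat_lit 0) (nat_lit 6131804360) (nat_lit 152) (nat_lit 8302315886) (nat_lit 228) (nat_lit 1290581642) (nat_lit 32) (nat_lit 5) (nat_lit 34) (nat_lit 5) (nat_lit 35) (nat_lit 4) (nat_lit 647) (nat_lit 487) (nat_lit 426)) (XT.lf (nat_lit 0) (nat_lit 2066235100) (nat_lit 152) (nat_lit 2370919198) (nat_lit 228) (nat_lit 11474781274) (nat_lit 29) (nat_lit 5) (nat_lit 31) (nat_lit 5) (nat_lit 32) (nat_lit 5) (nat_lit 648) (nat_lit 487) (nat_lit 425))))))))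
noncomputable def xc19 : XT := (XT.nd (nat_lit 78234) (nat_lit 0) (nat_lit 1444) (XT.nd (nat_lit 77064) (nat_lit 0) (nat_lit 7980) (XT.nd (nat_lit 76518) (nat_lit 0) (nat_lit 12920) (XT.nd (nat_lit 76206) (nat_lit 0) (nat_lit 15884) (XT.nd (nat_lit 78) (nat_lit 152) (nat_lit 0) (XT.lf (nat_lit 0) (nat_lit 10303659987) (nat_lit 228) (nat_lit 2133789898) (nat_lit 76) (nat_lit 3664464101) (nat_lit 29) (nat_lit 5) (nat_lit 32) (nat_lit 5) (nat_lit 30) (nat_lit 4) (nat_lit 649) (nat_lit 487) (nat_lit 424)) (XT.nd (nat_lit 76050) (nat_lit 0) (nat_lit 18088) (XT.lf (nat_lit 0) (nat_lit 25436075) (nat_lit 152) (nat_lit 6455653392) (nat_lit 76) (nat_lit 9813933635) (nat_lit 27) (nat_lit 5) (nat_lit 29) (nat_lit 5) (nat_lit 28) (nat_lit 5) (nat_lit 650) (nat_lit 487) (nat_lit 423)) (XT.lf (nat_lit 0) (nat_lit 1936769030) (nat_lit 608) (nat_lit 334221037) (nat_lit 0) (nat_lit 1936769030) (nat_lit 265) (nat_lit 5) (nat_lit 273) (nat_lit 4) (nat_lit 265) (nat_lit 4) (nat_lit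 584) (nat_lit 488) (nat_lit 488)))) (XT.nd (nat_lit 156) (nat_lit 1064) (nat_lit 0) (XT.nd (nat_lit 78) (nat_lit 608) (nat_lit 0) (XT.lf (nat_lit 0) (nat_lit 6601784279) (nat_lit 532) (nat_lit 1477345271) (nat_lit 532) (nat_lit 399892947) (nat_lit 258) (nat_lit 4) (nat_lit 265) (nat_lit 5) (nat_lit 265) (nat_lit 4) (nat_lit 585) (nat_lit 488) (nat_lit 487)) (XT.lf (nat_lit 0) (nat_lit 3756998870) (nat_lit 608) (nat_lit 3121602587) (nat_lit 0) (nat_lit 1665059526) (nat_lit 250) (nat_lit 5) (nat_lit 258) (nat_lit 4) (nat_lit 250) (nat_lit 4) (nat_lit 586) (nat_lit 488) (nat_lit 486))) (XT.nd (nat_lit 78) (nat_lit 532) (nat_lit 0) (XT.lf (nat_lit 0) (nat_lit 4229925344) (nat_lit 532) (nat_lit 3743613384) (nat_lit 532) (nat_lit 636366650) (nat_lit 243) (nat_lit 4) (nat_lit 250) (nat_lit 5) (nat_lit 250) (nat_lit 4) (nat_lit 587) (nat_lit 488) (nat_lit 485)) (XT.lf (nat_lit 0) (nat_lit 3013014034) (nat_lit 456) (nat_lit 509590009) (nat_lit 532) (nat_lit 5154949841)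 (nat_lit 236) (nat_lit 5) (nat_lit 242) (nat_lit 5) (nat_lit 243) (nat_lit 4) (nat_lit 588) (nat_lit 488) (nat_lit 484))))) (XT.nd (nat_lit 234) (nat_lit 1900) (nat_lit 0) (XT.nd (nat_lit 78) (nat_lit 532) (nat_lit 0) (XT.lf (nat_lit 0) (nat_lit 1770705360) (nat_lit 532) (nat_lit 5977439833) (nat_lit 532) (nat_lit 998490911) (nat_lit 229) (nat_lit 4) (nat_lit 236) (nat_lit 5) (nat_lit 236) (nat_lit 4) (nat_lit 589) (nat_lit 488) (nat_lit 483)) (XT.nd (nat_lit 78) (nat_lit 0) (nat_lit 0) (XT.lf (nat_lit 0) (nat_lit 499454457) (nat_lit 456) (nat_lit 2676976466) (nat_lit 532) (nat_lit 5640694344) (nat_lit 222) (nat_lit 5) (nat_lit 228) (nat_lit 5) (nat_lit 229) (nat_lit 4) (nat_lit 590) (nat_lit 488) (nat_lit 482)) (XT.lf (nat_lit 0) (nat_lit 7406539962) (nat_lit 532) (nat_lit 778595609) (nat_lit 0) (nat_lit 704058401) (nat_lit 222) (nat_lit 5) (nat_lit 229) (nat_lit 4) (nat_lit 222) (nat_lit 4) (nat_lit 591) (nat_lit 488) (nat_lit 481)))) (XT.nd (nat_lit 156)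 (nat_lit 912) (nat_lit 0) (XT.nd (nat_lit 78) (nat_lit 456) (nat_lit 0) (XT.lf (nat_lit 0) (nat_lit 2719547392) (nat_lit 532) (nat_lit 2092882011) (nat_lit 76) (nat_lit 4149975677) (nat_lit 215) (nat_lit 5) (nat_lit 222) (nat_lit 5) (nat_lit 216) (nat_lit 4) (nat_lit 592) (nat_lit 488) (nat_lit 480)) (XT.lf (nat_lit 0) (nat_lit 5611596758) (nat_lit 456) (nat_lit 1351036698) (nat_lit 532) (nat_lit 2074719843) (nat_lit 209) (nat_lit 5) (nat_lit 215) (nat_lit 5) (nat_lit 216) (nat_lit 4) (nat_lit 593) (nat_lit 488) (nat_lit 479))) (XT.nd (nat_lit 78) (nat_lit 380) (nat_lit 0) (XT.lf (nat_lit 0) (nat_lit 2140013527) (nat_lit 532) (nat_lit 4797257605) (nat_lit 76) (nat_lit 2176413710) (nat_lit 202) (nat_lit 5) (nat_lit 209) (nat_lit 5) (nat_lit 203) (nat_lit 4) (nat_lit 594) (nat_lit 488) (nat_lit 478)) (XT.lf (nat_lit 0) (nat_lit 2988156252) (nat_lit 380) (nat_lit 3410267207) (nat_lit 456) (nat_lit 2793104634) (nat_lit 197) (nat_lit 5) (nat_lit 202) (nat_lit 5)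 (nat_lit 203) (nat_lit 4) (nat_lit 595) (nat_lit 488) (nat_lit 477)))))) (XT.nd (nat_lit 546) (nat_lit 2356) (nat_lit 0) (XT.nd (nat_lit 234) (nat_lit 1596) (nat_lit 0) (XT.nd (nat_lit 78) (nat_lit 456) (nat_lit 0) (XT.lf (nat_lit 0) (nat_lit 1432032049) (nat_lit 532) (nat_lit 7633983576) (nat_lit 76) (nat_lit 205119021) (nat_lit 190) (nat_lit 5) (nat_lit 197) (nat_lit 5) (nat_lit 191) (nat_lit 4) (nat_lit 596) (nat_lit 488) (nat_lit 476)) (XT.nd (nat_lit 78) (nat_lit 76) (nat_lit 0) (XT.lf (nat_lit 0) (nat_lit 231107267) (nat_lit 380) (nat_lit 5475462879) (nat_lit 456) (nat_lit 3645350421) (nat_lit 185) (nat_lit 5) (nat_lit 190) (nat_lit 5) (nat_lit 191) (nat_lit 4) (nat_lit 597) (nat_lit 488) (nat_lit 475)) (XT.lf (nat_lit 0) (nat_lit 612025908) (nat_lit 456) (nat_lit 1178603845) (nat_lit 76) (nat_lit 7643851878) (nat_lit 184) (nat_lit 5) (nat_lit 190) (nat_lit 5) (nat_lit 185) (nat_lit 5) (nat_lit 598) (nat_lit 488) (nat_lit 474)))) (XT.nd (nat_lit 156)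 (nat_lit 836) (nat_lit 0) (XT.nd (nat_lit 78) (nat_lit 380) (nat_lit 0) (XT.lf (nat_lit 0) (nat_lit 4901271239) (nat_lit 456) (nat_lit 2638794048) (nat_lit 76) (nat_lit 1978238371) (nat_lit 179) (nat_lit 5) (nat_lit 185) (nat_lit 5) (nat_lit 180) (nat_lit 4) (nat_lit 599) (nat_lit 488) (nat_lit 473)) (XT.lf (nat_lit 0) (nat_lit 5474698097) (nat_lit 380) (nat_lit 3795072713) (nat_lit 456) (nat_lit 334164195) (nat_lit 174) (nat_lit 5) (nat_lit 179) (nat_lit 5) (nat_lit 180) (nat_lit 4) (nat_lit 600) (nat_lit 488) (nat_lit 472))) (XT.nd (nat_lit 78) (nat_lit 380) (nat_lit 0) (XT.lf (nat_lit 0) (nat_lit 3964098023) (nat_lit 456) (nat_lit 5666225093) (nat_lit 76) (nat_lit 60781206) (nat_lit 168) (nat_lit 5) (nat_lit 174) (nat_lit 5) (nat_lit 169) (nat_lit 4) (nat_lit 601) (nat_lit 488) (nat_lit 471)) (XT.lf (nat_lit 0) (nat_lit 2527341593) (nat_lit 380) (nat_lit 5824598978) (nat_lit 456) (nat_lit 1427872622) (nat_lit 163) (nat_lit 5) (nat_lit 168) (nat_lit 5) (nat_lit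 169) (nat_lit 4) (nat_lit 602) (nat_lit 488) (nat_lit 470))))) (XT.nd (nat_lit 312) (nat_lit 1140) (nat_lit 0) (XT.nd (nat_lit 156) (nat_lit 760) (nat_lit 0) (XT.nd (nat_lit 78) (nat_lit 0) (nat_lit 0) (XT.lf (nat_lit 0) (nat_lit 988522424) (nat_lit 380) (nat_lit 1913453864) (nat_lit 456) (nat_lit 6968267651) (nat_lit 157) (nat_lit 5) (nat_lit 162) (nat_lit 5) (nat_lit 163) (nat_lit 5) (nat_lit 603) (nat_lit 488) (nat_lit 469)) (XT.lf (nat_lit 0) (nat_lit 7300954470) (nat_lit 456) (nat_lit 589505306) (nat_lit 76) (nat_lit 2071803742) (nat_lit 157) (nat_lit 5) (nat_lit 163) (nat_lit 5) (nat_lit 158) (nat_lit 4) (nat_lit 604) (nat_lit 488) (nat_lit 468))) (XT.nd (nat_lit 78) (nat_lit 380) (nat_lit 0) (XT.lf (nat_lit 0) (nat_lit 1713186368) (nat_lit 380) (nat_lit 2203774362) (nat_lit 76) (nat_lit 6138857607) (nat_lit 152) (nat_lit 5) (nat_lit 157) (nat_lit 5) (nat_lit 153) (nat_lit 5) (nat_lit 605) (nat_lit 488) (nat_lit 467)) (XT.lf (nat_lit 0) (nat_lit 6125961105)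 (nat_lit 456) (nat_lit 3863814642) (nat_lit 76) (nat_lit 161390089) (nat_lit 147) (nat_lit 5) (nat_lit 153) (nat_lit 5) (nat_lit 148) (nat_lit 4) (nat_lit 606) (nat_lit 488) (nat_lit 466)))) (XT.nd (nat_lit 156) (nat_lit 380) (nat_lit 0) (XT.nd (nat_lit 78) (nat_lit 380) (nat_lit 0) (XT.lf (nat_lit 0) (nat_lit 385659876) (nat_lit 380) (nat_lit 5581427879) (nat_lit 76) (nat_lit 4281044117) (nat_lit 142) (nat_lit 5) (nat_lit 147) (nat_lit 5) (nat_lit 143) (nat_lit 5) (nat_lit 607) (nat_lit 488) (nat_lit 465)) (XT.lf (nat_lit 0) (nat_lit 2989963760) (nat_lit 380) (nat_lit 1827428518) (nat_lit 456) (nat_lit 5529383646) (nat_lit 137) (nat_lit 5) (nat_lit 142) (nat_lit 5) (nat_lit 143) (nat_lit 5) (nat_lit 608) (nat_lit 488) (nat_lit 464))) (XT.nd (nat_lit 78) (nat_lit 76) (nat_lit 0) (XT.lf (nat_lit 0) (nat_lit 1266195856) (nat_lit 304) (nat_lit 8074318760) (nat_lit 380) (nat_lit 1106824887) (nat_lit 133) (nat_lit 5) (nat_lit 137) (nat_lit 5) (nat_lit 138) (nat_lit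 4) (nat_lit 609) (nat_lit 488) (nat_lit 463)) (XT.lf (nat_lit 0) (nat_lit 3362760054) (nat_lit 380) (nat_lit 518626212) (nat_lit 76) (nat_lit 6668023296) (nat_lit 132) (nat_lit 5) (nat_lit 137) (nat_lit 5) (nat_lit 133) (nat_lit 5) (nat_lit 610) (nat_lit 488) (nat_lit 462))))))) (XT.nd (nat_lit 1170) (nat_lit 2660) (nat_lit 0) (XT.nd (nat_lit 546) (nat_lit 1976) (nat_lit 0) (XT.nd (nat_lit 234) (nat_lit 912) (nat_lit 0) (XT.nd (nat_lit 78) (nat_lit 684) (nat_lit 0) (XT.lf (nat_lit 0) (nat_lit 7906281998) (nat_lit 380) (nat_lit 2331851202) (nat_lit 76) (nat_lit 415255838) (nat_lit 128) (nat_lit 5) (nat_lit 133) (nat_lit 5) (nat_lit 129) (nat_lit 4) (nat_lit 611) (nat_lit 488) (nat_lit 461)) (XT.nd (nat_lit 78) (nat_lit 304) (nat_lit 0) (XT.lf (nat_lit 0) (nat_lit 1772551430) (nat_lit 380) (nat_lit 4219405470) (nat_lit 76) (nat_lit 4766967766) (nat_lit 123) (nat_lit 5) (nat_lit 128) (nat_lit 5) (nat_lit 124) (nat_lit 5) (nat_lit 612) (nat_lit 488) (nat_lit 460))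 (XT.lf (nat_lit 0) (nat_lit 4701965590) (nat_lit 304) (nat_lit 1633146809) (nat_lit 380) (nat_lit 4531311134) (nat_lit 119) (nat_lit 5) (nat_lit 123) (nat_lit 5) (nat_lit 124) (nat_lit 5) (nat_lit 613) (nat_lit 488) (nat_lit 459)))) (XT.nd (nat_lit 156) (nat_lit 304) (nat_lit 0) (XT.nd (nat_lit 78) (nat_lit 304) (nat_lit 0) (XT.lf (nat_lit 0) (nat_lit 20960307) (nat_lit 304) (nat_lit 8169570123) (nat_lit 76) (nat_lit 2785376241) (nat_lit 115) (nat_lit 5) (nat_lit 119) (nat_lit 5) (nat_lit 116) (nat_lit 5) (nat_lit 614) (nat_lit 488) (nat_lit 458)) (XT.lf (nat_lit 0) (nat_lit 827652251) (nat_lit 304) (nat_lit 3777198738) (nat_lit 380) (nat_lit 6482105947) (nat_lit 111) (nat_lit 5) (nat_lit 115) (nat_lit 5) (nat_lit 116) (nat_lit 5) (nat_lit 615) (nat_lit 488) (nat_lit 457))) (XT.nd (nat_lit 78) (nat_lit 304) (nat_lit 0) (XT.lf (nat_lit 0) (nat_lit 9283913035) (nat_lit 380) (nat_lit 1184343480) (nat_lit 76) (nat_lit 731903257) (nat_lit 111) (nat_lit 5) (nat_lit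 116) (nat_lit 5) (nat_lit 112) (nat_lit 4) (nat_lit 616) (nat_lit 488) (nat_lit 456)) (XT.lf (nat_lit 0) (nat_lit 2727176109) (nat_lit 304) (nat_lit 3274160367) (nat_lit 76) (nat_lit 5313491768) (nat_lit 107) (nat_lit 5) (nat_lit 111) (nat_lit 5) (nat_lit 108) (nat_lit 5) (nat_lit 617) (nat_lit 488) (nat_lit 455))))) (XT.nd (nat_lit 312) (nat_lit 1064) (nat_lit 0) (XT.nd (nat_lit 156) (nat_lit 304) (nat_lit 0) (XT.nd (nat_lit 78) (nat_lit 304) (nat_lit 0) (XT.lf (nat_lit 0) (nat_lit 6006692408) (nat_lit 304) (nat_lit 1422965518) (nat_lit 380) (nat_lit 4002043203) (nat_lit 103) (nat_lit 5) (nat_lit 107) (nat_lit 5) (nat_lit 108) (nat_lit 5) (nat_lit 618) (nat_lit 488) (nat_lit 454)) (XT.lf (nat_lit 0) (nat_lit 680099041) (nat_lit 304) (nat_lit 7652255641) (nat_lit 76) (nat_lit 3218196855) (nat_lit 99) (nat_lit 5) (nat_lit 103) (nat_lit 5) (nat_lit 100) (nat_lit 5) (nat_lit 619) (nat_lit 488) (nat_lit 453))) (XT.nd (nat_lit 78) (nat_lit 0) (nat_lit 0) (XT.lf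 (nat_lit 0) (nat_lit 1702429724) (nat_lit 304) (nat_lit 3702198312) (nat_lit 380) (nat_lit 6266576498) (nat_lit 95) (nat_lit 5) (nat_lit 99) (nat_lit 5) (nat_lit 100) (nat_lit 5) (nat_lit 620) (nat_lit 488) (nat_lit 452)) (XT.lf (nat_lit 0) (nat_lit 10227335125) (nat_lit 380) (nat_lit 546768857) (nat_lit 76) (nat_lit 1020094109) (nat_lit 95) (nat_lit 5) (nat_lit 100) (nat_lit 5) (nat_lit 96) (nat_lit 4) (nat_lit 621) (nat_lit 488) (nat_lit 451)))) (XT.nd (nat_lit 156) (nat_lit 532) (nat_lit 0) (XT.nd (nat_lit 78) (nat_lit 228) (nat_lit 0) (XT.lf (nat_lit 0) (nat_lit 3214538759) (nat_lit 304) (nat_lit 2874794147) (nat_lit 76) (nat_lit 5829300509) (nat_lit 91) (nat_lit 5) (nat_lit 95) (nat_lit 5) (nat_lit 92) (nat_lit 5) (nat_lit 622) (nat_lit 488) (nat_lit 450)) (XT.lf (nat_lit 0) (nat_lit 6773881451) (nat_lit 228) (nat_lit 1290941843) (nat_lit 304) (nat_lit 3980643487) (nat_lit 88) (nat_lit 5) (nat_lit 91) (nat_lit 5) (nat_lit 92) (nat_lit 5) (nat_lit 623)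 (nat_lit 488) (nat_lit 449))) (XT.nd (nat_lit 78) (nat_lit 228) (nat_lit 0) (XT.lf (nat_lit 0) (nat_lit 844675633) (nat_lit 304) (nat_lit 7758458063) (nat_lit 76) (nat_lit 3571227930) (nat_lit 84) (nat_lit 5) (nat_lit 88) (nat_lit 5) (nat_lit 85) (nat_lit 5) (nat_lit 624) (nat_lit 488) (nat_lit 448)) (XT.lf (nat_lit 0) (nat_lit 1961007846) (nat_lit 228) (nat_lit 3755964601) (nat_lit 304) (nat_lit 6588261349) (nat_lit 81) (nat_lit 5) (nat_lit 84) (nat_lit 5) (nat_lit 85) (nat_lit 5) (nat_lit 625) (nat_lit 488) (nat_lit 447)))))) (XT.nd (nat_lit 546) (nat_lit 1368) (nat_lit 0) (XT.nd (nat_lit 234) (nat_lit 760) (nat_lit 0) (XT.nd (nat_lit 78) (nat_lit 532) (nat_lit 0) (XT.lf (nat_lit 0) (nat_lit 10693853704) (nat_lit 304) (nat_lit 558934700) (nat_lit 76) (nat_lit 1185793325) (nat_lit 81) (nat_lit 5) (nat_lit 85) (nat_lit 5) (nat_lit 82) (nat_lit 4) (nat_lit 626) (nat_lit 488) (nat_lit 446)) (XT.nd (nat_lit 78) (nat_lit 228) (nat_lit 0) (XT.lf (nat_lit 0) (nat_lit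 3188140497) (nat_lit 304) (nat_lit 3165428365) (nat_lit 76) (nat_lit 6219926308) (nat_lit 77) (nat_lit 5) (nat_lit 81) (nat_lit 5) (nat_lit 78) (nat_lit 5) (nat_lit 627) (nat_lit 488) (nat_lit 445)) (XT.lf (nat_lit 0) (nat_lit 6857829819) (nat_lit 228) (nat_lit 1334939527) (nat_lit 304) (nat_lit 4518178609) (nat_lit 74) (nat_lit 5) (nat_lit 77) (nat_lit 5) (nat_lit 78) (nat_lit 5) (nat_lit 628) (nat_lit 488) (nat_lit 444)))) (XT.nd (nat_lit 156) (nat_lit 228) (nat_lit 0) (XT.nd (nat_lit 78) (nat_lit 228) (nat_lit 0) (XT.lf (nat_lit 0) (nat_lit 462243868) (nat_lit 304) (nat_lit 8641140341) (nat_lit 76) (nat_lit 3747273481) (nat_lit 70) (nat_lit 5) (nat_lit 74) (nat_lit 5) (nat_lit 71) (nat_lit 5) (nat_lit 629) (nat_lit 488) (nat_lit 443)) (XT.lf (nat_lit 0) (nat_lit 1448605381) (nat_lit 228) (nat_lit 4039405418) (nat_lit 304) (nat_lit 7504429795) (nat_lit 67) (nat_lit 5) (nat_lit 70) (nat_lit 5) (nat_lit 71) (nat_lit 5) (nat_lit 630) (nat_lit 488) (nat_lit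 442))) (XT.nd (nat_lit 78) (nat_lit 228) (nat_lit 0) (XT.lf (nat_lit 0) (nat_lit 10628528509) (nat_lit 304) (nat_lit 1378216870) (nat_lit 76) (nat_lit 1130030018) (nat_lit 67) (nat_lit 5) (nat_lit 71) (nat_lit 5) (nat_lit 68) (nat_lit 4) (nat_lit 631) (nat_lit 488) (nat_lit 441)) (XT.lf (nat_lit 0) (nat_lit 2588843750) (nat_lit 228) (nat_lit 4308544592) (nat_lit 76) (nat_lit 6385574934) (nat_lit 64) (nat_lit 5) (nat_lit 67) (nat_lit 5) (nat_lit 65) (nat_lit 5) (nat_lit 632) (nat_lit 488) (nat_lit 440))))) (XT.nd (nat_lit 312) (nat_lit 684) (nat_lit 0) (XT.nd (nat_lit 156) (nat_lit 304) (nat_lit 0) (XT.nd (nat_lit 78) (nat_lit 152) (nat_lit 0) (XT.lf (nat_lit 0) (nat_lit 6093972516) (nat_lit 228) (nat_lit 1658864927) (nat_lit 304) (nat_lit 5678935843) (nat_lit 61) (nat_lit 5) (nat_lit 64) (nat_lit 5) (nat_lit 65) (nat_lit 5) (nat_lit 633) (nat_lit 488) (nat_lit 439)) (XT.lf (nat_lit 0) (nat_lit 3106260750) (nat_lit 152) (nat_lit 9936831865) (nat_lit 228) (nat_lit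 540008122) (nat_lit 59) (nat_lit 5) (nat_lit 61) (nat_lit 5) (nat_lit 62) (nat_lit 4) (nat_lit 634) (nat_lit 488) (nat_lit 438))) (XT.nd (nat_lit 78) (nat_lit 228) (nat_lit 0) (XT.lf (nat_lit 0) (nat_lit 4650446093) (nat_lit 228) (nat_lit 10039402) (nat_lit 76) (nat_lit 9076151325) (nat_lit 58) (nat_lit 5) (nat_lit 61) (nat_lit 5) (nat_lit 59) (nat_lit 5) (nat_lit 635) (nat_lit 488) (nat_lit 437)) (XT.lf (nat_lit 0) (nat_lit 9962804624) (nat_lit 304) (nat_lit 3183261902) (nat_lit 76) (nat_lit 746600013) (nat_lit 55) (nat_lit 5) (nat_lit 59) (nat_lit 5) (nat_lit 56) (nat_lit 4) (nat_lit 636) (nat_lit 488) (nat_lit 436)))) (XT.nd (nat_lit 156) (nat_lit 228) (nat_lit 0) (XT.nd (nat_lit 78) (nat_lit 228) (nat_lit 0) (XT.lf (nat_lit 0) (nat_lit 1343429405) (nat_lit 228) (nat_lit 6488808858) (nat_lit 76) (nat_lit 6218781257) (nat_lit 52) (nat_lit 5) (nat_lit 55) (nat_lit 5) (nat_lit 53) (nat_lit 5) (nat_lit 637) (nat_lit 488) (nat_lit 435)) (XT.lf (nat_lit 0) (nat_lit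 4294959288) (nat_lit 228) (nat_lit 2375089417) (nat_lit 304) (nat_lit 7541962445) (nat_lit 49) (nat_lit 5) (nat_lit 52) (nat_lit 5) (nat_lit 53) (nat_lit 5) (nat_lit 638) (nat_lit 488) (nat_lit 434))) (XT.nd (nat_lit 78) (nat_lit 76) (nat_lit 0) (XT.lf (nat_lit 0) (nat_lit 908958763) (nat_lit 152) (nat_lit 11215868840) (nat_lit 228) (nat_lit 2250963228) (nat_lit 47) (nat_lit 5) (nat_lit 49) (nat_lit 5) (nat_lit 50) (nat_lit 4) (nat_lit 639) (nat_lit 488) (nat_lit 433)) (XT.lf (nat_lit 0) (nat_lit 3138552494) (nat_lit 228) (nat_lit 2581218733) (nat_lit 76) (nat_lit 8821988011) (nat_lit 46) (nat_lit 5) (nat_lit 49) (nat_lit 5) (nat_lit 47) (nat_lit 5) (nat_lit 640) (nat_lit 488) (nat_lit 432))))))))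
noncomputable def xc20 : XT := (XT.nd (nat_lit 78078) (nat_lit 0) (nat_lit 3268) (XT.nd (nat_lit 76908) (nat_lit 0) (nat_lit 11020) (XT.nd (nat_lit 546) (nat_lit 304) (nat_lit 0) (XT.nd (nat_lit 234) (nat_lit 532) (nat_lit 0) (XT.nd (nat_lit 78) (nat_lit 380) (nat_lit 0) (XT.lf (nat_lit 0) (nat_lit 8531815060) (nat_lit 152) (nat_lit 81518161) (nat_lit 228) (nat_lit 6097264633) (nat_lit 44) (nat_lit 5) (nat_lit 46) (nat_lit 5) (nat_lit 47) (nat_lit 5) (nat_lit 641) (nat_lit 488) (nat_lit 431)) (XT.nd (nat_lit 78) (nat_lit 228) (nat_lit 0) (XT.lf (nat_lit 0) (nat_lit 4960361777) (nat_lit 152) (nat_lit 9276012103) (nat_lit 228) (nat_lit 645664780) (nat_lit 42) (nat_lit 5) (nat_lit 44) (nat_lit 5) (nat_lit 45) (nat_lit 4) (nat_lit 642) (nat_lit 488) (nat_lit 430)) (XT.lf (nat_lit 0) (nat_lit 1246122836) (nat_lit 152) (nat_lit 3607120983) (nat_lit 228) (nat_lit 10202972168) (nat_lit 39) (nat_lit 5) (nat_lit 41) (nat_lit 5) (nat_lit 42) (nat_lit 5) (nat_lit 643)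 (nat_lit 488) (nat_lit 429)))) (XT.nd (nat_lit 156) (nat_lit 304) (nat_lit 0) (XT.nd (nat_lit 78) (nat_lit 228) (nat_lit 0) (XT.lf (nat_lit 0) (nat_lit 10487118324) (nat_lit 228) (nat_lit 2567188211) (nat_lit 76) (nat_lit 2178812967) (nat_lit 39) (nat_lit 5) (nat_lit 42) (nat_lit 5) (nat_lit 40) (nat_lit 4) (nat_lit 644) (nat_lit 488) (nat_lit 428)) (XT.lf (nat_lit 0) (nat_lit 844721754) (nat_lit 228) (nat_lit 6510760235) (nat_lit 76) (nat_lit 8057265876) (nat_lit 36) (nat_lit 5) (nat_lit 39) (nat_lit 5) (nat_lit 37) (nat_lit 5) (nat_lit 645) (nat_lit 488) (nat_lit 427))) (XT.nd (nat_lit 78) (nat_lit 152) (nat_lit 0) (XT.lf (nat_lit 0) (nat_lit 4987681277) (nat_lit 152) (nat_lit 1499279574) (nat_lit 228) (nat_lit 9108316135) (nat_lit 34) (nat_lit 5) (nat_lit 36) (nat_lit 5) (nat_lit 37) (nat_lit 5) (nat_lit 646) (nat_lit 488) (nat_lit 426)) (XT.lf (nat_lit 0) (nat_lit 920483546) (nat_lit 152) (nat_lit 11354136659) (nat_lit 228) (nat_lit 3506185588) (nat_lit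 32) (nat_lit 5) (nat_lit 34) (nat_lit 5) (nat_lit 35) (nat_lit 4) (nat_lit 647) (nat_lit 488) (nat_lit 425))))) (XT.nd (nat_lit 76050) (nat_lit 0) (nat_lit 17404) (XT.nd (nat_lit 78) (nat_lit 228) (nat_lit 0) (XT.lf (nat_lit 0) (nat_lit 2214232882) (nat_lit 228) (nat_lit 3256510329) (nat_lit 76) (nat_lit 10498311770) (nat_lit 31) (nat_lit 5) (nat_lit 34) (nat_lit 5) (nat_lit 32) (nat_lit 5) (nat_lit 648) (nat_lit 488) (nat_lit 424)) (XT.nd (nat_lit 78) (nat_lit 76) (nat_lit 0) (XT.lf (nat_lit 0) (nat_lit 8016134527) (nat_lit 228) (nat_lit 7579748170) (nat_lit 76) (nat_lit 564443065) (nat_lit 29) (nat_lit 5) (nat_lit 32) (nat_lit 5) (nat_lit 30) (nat_lit 4) (nat_lit 649) (nat_lit 488) (nat_lit 423)) (XT.lf (nat_lit 0) (nat_lit 4278833206) (nat_lit 76) (nat_lit 9695875704) (nat_lit 152) (nat_lit 2379900920) (nat_lit 28) (nat_lit 5) (nat_lit 29) (nat_lit 5) (nat_lit 30) (nat_lit 4) (nat_lit 650) (nat_lit 488) (nat_lit 422)))) (XT.nd (nat_lit 156) (nat_lit 608)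 (nat_lit 0) (XT.nd (nat_lit 78) (nat_lit 608) (nat_lit 0) (XT.lf (nat_lit 0) (nat_lit 890145572) (nat_lit 608) (nat_lit 1627980759) (nat_lit 608) (nat_lit 1627980759) (nat_lit 273) (nat_lit 4) (nat_lit 281) (nat_lit 5) (nat_lit 281) (nat_lit 4) (nat_lit 582) (nat_lit 489) (nat_lit 489)) (XT.lf (nat_lit 0) (nat_lit 546928588) (nat_lit 532) (nat_lit 278769424) (nat_lit 608) (nat_lit 7528038745) (nat_lit 265) (nat_lit 5) (nat_lit 272) (nat_lit 5) (nat_lit 273) (nat_lit 4) (nat_lit 583) (nat_lit 489) (nat_lit 488))) (XT.nd (nat_lit 78) (nat_lit 608) (nat_lit 0) (XT.lf (nat_lit 0) (nat_lit 4938432463) (nat_lit 608) (nat_lit 715790835) (nat_lit 0) (nat_lit 2761978769) (nat_lit 265) (nat_lit 5) (nat_lit 273) (nat_lit 4) (nat_lit 265) (nat_lit 4) (nat_lit 584) (nat_lit 489) (nat_lit 487)) (XT.lf (nat_lit 0) (nat_lit 621322624) (nat_lit 608) (nat_lit 1977707800) (nat_lit 76) (nat_lit 5881276997) (nat_lit 257) (nat_lit 5) (nat_lit 265) (nat_lit 5) (nat_lit 258) (nat_lit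 4) (nat_lit 585) (nat_lit 489) (nat_lit 486)))))) (XT.nd (nat_lit 546) (nat_lit 3192) (nat_lit 0) (XT.nd (nat_lit 234) (nat_lit 1596) (nat_lit 0) (XT.nd (nat_lit 78) (nat_lit 1064) (nat_lit 0) (XT.lf (nat_lit 0) (nat_lit 4731324589) (nat_lit 608) (nat_lit 3267778396) (nat_lit 0) (nat_lit 546625531) (nat_lit 250) (nat_lit 5) (nat_lit 258) (nat_lit 4) (nat_lit 250) (nat_lit 4) (nat_lit 586) (nat_lit 489) (nat_lit 485)) (XT.nd (nat_lit 78) (nat_lit 456) (nat_lit 0) (XT.lf (nat_lit 0) (nat_lit 296951353) (nat_lit 608) (nat_lit 4580256724) (nat_lit 76) (nat_lit 3735413487) (nat_lit 242) (nat_lit 5) (nat_lit 250) (nat_lit 5) (nat_lit 243) (nat_lit 4) (nat_lit 587) (nat_lit 489) (nat_lit 484)) (XT.lf (nat_lit 0) (nat_lit 2758307212) (nat_lit 456) (nat_lit 1654706370) (nat_lit 532) (nat_lit 4267866643) (nat_lit 236) (nat_lit 5) (nat_lit 242) (nat_lit 5) (nat_lit 243) (nat_lit 4) (nat_lit 588) (nat_lit 489) (nat_lit 483)))) (XT.nd (nat_lit 156) (nat_lit 532) (nat_lit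 0) (XT.nd (nat_lit 78) (nat_lit 532) (nat_lit 0) (XT.lf (nat_lit 0) (nat_lit 1468938972) (nat_lit 532) (nat_lit 7127563918) (nat_lit 532) (nat_lit 154302102) (nat_lit 229) (nat_lit 4) (nat_lit 236) (nat_lit 5) (nat_lit 236) (nat_lit 4) (nat_lit 589) (nat_lit 489) (nat_lit 482)) (XT.lf (nat_lit 0) (nat_lit 135936928) (nat_lit 456) (nat_lit 3838713531) (nat_lit 532) (nat_lit 4847233477) (nat_lit 222) (nat_lit 5) (nat_lit 228) (nat_lit 5) (nat_lit 229) (nat_lit 4) (nat_lit 590) (nat_lit 489) (nat_lit 481))) (XT.nd (nat_lit 78) (nat_lit 532) (nat_lit 0) (XT.lf (nat_lit 0) (nat_lit 7704783219) (nat_lit 456) (nat_lit 463139614) (nat_lit 532) (nat_lit 726767963) (nat_lit 222) (nat_lit 5) (nat_lit 228) (nat_lit 5) (nat_lit 229) (nat_lit 4) (nat_lit 591) (nat_lit 489) (nat_lit 480)) (XT.lf (nat_lit 0) (nat_lit 3427601411) (nat_lit 532) (nat_lit 2564781509) (nat_lit 76) (nat_lit 2976180567) (nat_lit 215) (nat_lit 5) (nat_lit 222) (nat_lit 5) (nat_lit 216) (nat_lit 4)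 (nat_lit 592) (nat_lit 489) (nat_lit 479))))) (XT.nd (nat_lit 312) (nat_lit 1292) (nat_lit 0) (XT.nd (nat_lit 156) (nat_lit 912) (nat_lit 0) (XT.nd (nat_lit 78) (nat_lit 532) (nat_lit 0) (XT.lf (nat_lit 0) (nat_lit 5086052018) (nat_lit 456) (nat_lit 2549666884) (nat_lit 532) (nat_lit 1408493516) (nat_lit 209) (nat_lit 5) (nat_lit 215) (nat_lit 5) (nat_lit 216) (nat_lit 4) (nat_lit 593) (nat_lit 489) (nat_lit 478)) (XT.lf (nat_lit 0) (nat_lit 2754336197) (nat_lit 532) (nat_lit 5388207405) (nat_lit 76) (nat_lit 978778455) (nat_lit 202) (nat_lit 5) (nat_lit 209) (nat_lit 5) (nat_lit 203) (nat_lit 4) (nat_lit 594) (nat_lit 489) (nat_lit 477))) (XT.nd (nat_lit 78) (nat_lit 532) (nat_lit 0) (XT.lf (nat_lit 0) (nat_lit 2341647652) (nat_lit 380) (nat_lit 4635667756) (nat_lit 456) (nat_lit 2222559779) (nat_lit 197) (nat_lit 5) (nat_lit 202) (nat_lit 5) (nat_lit 203) (nat_lit 4) (nat_lit 595) (nat_lit 489) (nat_lit 476)) (XT.lf (nat_lit 0) (nat_lit 923403589) (nat_lit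 456) (nat_lit 1034567564) (nat_lit 532) (nat_lit 7322180172) (nat_lit 190) (nat_lit 5) (nat_lit 196) (nat_lit 5) (nat_lit 197) (nat_lit 5) (nat_lit 596) (nat_lit 489) (nat_lit 475)))) (XT.nd (nat_lit 156) (nat_lit 836) (nat_lit 0) (XT.nd (nat_lit 78) (nat_lit 456) (nat_lit 0) (XT.lf (nat_lit 0) (nat_lit 6193363076) (nat_lit 532) (nat_lit 535358760) (nat_lit 76) (nat_lit 2632999524) (nat_lit 190) (nat_lit 5) (nat_lit 197) (nat_lit 5) (nat_lit 191) (nat_lit 4) (nat_lit 597) (nat_lit 489) (nat_lit 474)) (XT.lf (nat_lit 0) (nat_lit 1048385019) (nat_lit 456) (nat_lit 2012616441) (nat_lit 76) (nat_lit 6383907714) (nat_lit 184) (nat_lit 5) (nat_lit 190) (nat_lit 5) (nat_lit 185) (nat_lit 5) (nat_lit 598) (nat_lit 489) (nat_lit 473))) (XT.nd (nat_lit 78) (nat_lit 456) (nat_lit 0) (XT.lf (nat_lit 0) (nat_lit 5293217435) (nat_lit 456) (nat_lit 3533821485) (nat_lit 76) (nat_lit 702581661) (nat_lit 179) (nat_lit 5) (nat_lit 185) (nat_lit 5) (nat_lit 180) (nat_lit 4) (nat_lit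 599) (nat_lit 489) (nat_lit 472)) (XT.lf (nat_lit 0) (nat_lit 9378013) (nat_lit 456) (nat_lit 5095627971) (nat_lit 76) (nat_lit 4510970542) (nat_lit 173) (nat_lit 5) (nat_lit 179) (nat_lit 5) (nat_lit 174) (nat_lit 5) (nat_lit 600) (nat_lit 489) (nat_lit 471))))))) (XT.nd (nat_lit 1092) (nat_lit 3420) (nat_lit 0) (XT.nd (nat_lit 546) (nat_lit 1976) (nat_lit 0) (XT.nd (nat_lit 234) (nat_lit 1520) (nat_lit 0) (XT.nd (nat_lit 78) (nat_lit 456) (nat_lit 0) (XT.lf (nat_lit 0) (nat_lit 2996397246) (nat_lit 380) (nat_lit 1269828945) (nat_lit 456) (nat_lit 5437617945) (nat_lit 168) (nat_lit 5) (nat_lit 173) (nat_lit 5) (nat_lit 174) (nat_lit 5) (nat_lit 601) (nat_lit 489) (nat_lit 470)) (XT.nd (nat_lit 78) (nat_lit 76) (nat_lit 0) (XT.lf (nat_lit 0) (nat_lit 1433000016) (nat_lit 380) (nat_lit 7175943379) (nat_lit 456) (nat_lit 1184513155) (nat_lit 163) (nat_lit 5) (nat_lit 168) (nat_lit 5) (nat_lit 169) (nat_lit 4) (nat_lit 602) (nat_lit 489) (nat_lit 469)) (XT.lf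 (nat_lit 0) (nat_lit 3106034605) (nat_lit 456) (nat_lit 181105363) (nat_lit 76) (nat_lit 6597438912) (nat_lit 162) (nat_lit 5) (nat_lit 168) (nat_lit 5) (nat_lit 163) (nat_lit 5) (nat_lit 603) (nat_lit 489) (nat_lit 468)))) (XT.nd (nat_lit 156) (nat_lit 760) (nat_lit 0) (XT.nd (nat_lit 78) (nat_lit 380) (nat_lit 0) (XT.lf (nat_lit 0) (nat_lit 7465368817) (nat_lit 456) (nat_lit 1814236609) (nat_lit 76) (nat_lit 697786889) (nat_lit 157) (nat_lit 5) (nat_lit 163) (nat_lit 5) (nat_lit 158) (nat_lit 4) (nat_lit 604) (nat_lit 489) (nat_lit 467)) (XT.lf (nat_lit 0) (nat_lit 1822956909) (nat_lit 380) (nat_lit 3508333578) (nat_lit 76) (nat_lit 4740389342) (nat_lit 152) (nat_lit 5) (nat_lit 157) (nat_lit 5) (nat_lit 153) (nat_lit 5) (nat_lit 605) (nat_lit 489) (nat_lit 466))) (XT.nd (nat_lit 78) (nat_lit 380) (nat_lit 0) (XT.lf (nat_lit 0) (nat_lit 4919503540) (nat_lit 380) (nat_lit 1277409403) (nat_lit 456) (nat_lit 3970891681) (nat_lit 147) (nat_lit 5) (nat_lit 152)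 (nat_lit 5) (nat_lit 153) (nat_lit 5) (nat_lit 606) (nat_lit 489) (nat_lit 465)) (XT.lf (nat_lit 0) (nat_lit 392582604) (nat_lit 380) (nat_lit 7040712513) (nat_lit 76) (nat_lit 2832402934) (nat_lit 142) (nat_lit 5) (nat_lit 147) (nat_lit 5) (nat_lit 143) (nat_lit 5) (nat_lit 607) (nat_lit 489) (nat_lit 464))))) (XT.nd (nat_lit 234) (nat_lit 1216) (nat_lit 0) (XT.nd (nat_lit 78) (nat_lit 380) (nat_lit 0) (XT.lf (nat_lit 0) (nat_lit 1464019411) (nat_lit 380) (nat_lit 3321745578) (nat_lit 456) (nat_lit 5579348981) (nat_lit 137) (nat_lit 5) (nat_lit 142) (nat_lit 5) (nat_lit 143) (nat_lit 5) (nat_lit 608) (nat_lit 489) (nat_lit 463)) (XT.nd (nat_lit 78) (nat_lit 380) (nat_lit 0) (XT.lf (nat_lit 0) (nat_lit 9262465829) (nat_lit 456) (nat_lit 331782512) (nat_lit 76) (nat_lit 872358488) (nat_lit 137) (nat_lit 5) (nat_lit 143) (nat_lit 5) (nat_lit 138) (nat_lit 4) (nat_lit 609) (nat_lit 489) (nat_lit 462)) (XT.lf (nat_lit 0) (nat_lit 3236093742) (nat_lit 380) (nat_lit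 2186540955) (nat_lit 76) (nat_lit 5146668176) (nat_lit 132) (nat_lit 5) (nat_lit 137) (nat_lit 5) (nat_lit 133) (nat_lit 5) (nat_lit 610) (nat_lit 489) (nat_lit 461)))) (XT.nd (nat_lit 156) (nat_lit 532) (nat_lit 0) (XT.nd (nat_lit 78) (nat_lit 380) (nat_lit 0) (XT.lf (nat_lit 0) (nat_lit 6587689802) (nat_lit 304) (nat_lit 1150046709) (nat_lit 380) (nat_lit 2936384222) (nat_lit 128) (nat_lit 5) (nat_lit 132) (nat_lit 5) (nat_lit 133) (nat_lit 5) (nat_lit 611) (nat_lit 489) (nat_lit 460)) (XT.lf (nat_lit 0) (nat_lit 1538441761) (nat_lit 380) (nat_lit 6056558797) (nat_lit 76) (nat_lit 3185627449) (nat_lit 123) (nat_lit 5) (nat_lit 128) (nat_lit 5) (nat_lit 124) (nat_lit 5) (nat_lit 612) (nat_lit 489) (nat_lit 459))) (XT.nd (nat_lit 78) (nat_lit 228) (nat_lit 0) (XT.lf (nat_lit 0) (nat_lit 2793641286) (nat_lit 304) (nat_lit 3267296542) (nat_lit 380) (nat_lit 4827991099) (nat_lit 119) (nat_lit 5) (nat_lit 123) (nat_lit 5) (nat_lit 124) (nat_lit 5) (nat_lit 613)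 (nat_lit 489) (nat_lit 458)) (XT.lf (nat_lit 0) (nat_lit 813854689) (nat_lit 228) (nat_lit 9858022317) (nat_lit 304) (nat_lit 327560491) (nat_lit 116) (nat_lit 5) (nat_lit 119) (nat_lit 5) (nat_lit 120) (nat_lit 4) (nat_lit 614) (nat_lit 489) (nat_lit 457)))))) (XT.nd (nat_lit 546) (nat_lit 1824) (nat_lit 0) (XT.nd (nat_lit 234) (nat_lit 912) (nat_lit 0) (XT.nd (nat_lit 78) (nat_lit 608) (nat_lit 0) (XT.lf (nat_lit 0) (nat_lit 4227763426) (nat_lit 304) (nat_lit 1243419323) (nat_lit 76) (nat_lit 5640005516) (nat_lit 115) (nat_lit 5) (nat_lit 119) (nat_lit 5) (nat_lit 116) (nat_lit 5) (nat_lit 615) (nat_lit 489) (nat_lit 456)) (XT.nd (nat_lit 78) (nat_lit 304) (nat_lit 0) (XT.lf (nat_lit 0) (nat_lit 7887105773) (nat_lit 304) (nat_lit 979475213) (nat_lit 380) (nat_lit 2358615702) (nat_lit 111) (nat_lit 5) (nat_lit 115) (nat_lit 5) (nat_lit 116) (nat_lit 5) (nat_lit 616) (nat_lit 489) (nat_lit 455)) (XT.lf (nat_lit 0) (nat_lit 2242672124) (nat_lit 304) (nat_lit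 5519032730) (nat_lit 76) (nat_lit 3579177154) (nat_lit 107) (nat_lit 5) (nat_lit 111) (nat_lit 5) (nat_lit 108) (nat_lit 5) (nat_lit 617) (nat_lit 489) (nat_lit 454)))) (XT.nd (nat_lit 156) (nat_lit 304) (nat_lit 0) (XT.nd (nat_lit 78) (nat_lit 304) (nat_lit 0) (XT.lf (nat_lit 0) (nat_lit 3685784999) (nat_lit 304) (nat_lit 3217521505) (nat_lit 380) (nat_lit 4555285996) (nat_lit 103) (nat_lit 5) (nat_lit 107) (nat_lit 5) (nat_lit 108) (nat_lit 5) (nat_lit 618) (nat_lit 489) (nat_lit 453)) (XT.lf (nat_lit 0) (nat_lit 79763086) (nat_lit 304) (nat_lit 10089784625) (nat_lit 76) (nat_lit 1409054650) (nat_lit 99) (nat_lit 5) (nat_lit 103) (nat_lit 5) (nat_lit 100) (nat_lit 5) (nat_lit 619) (nat_lit 489) (nat_lit 452))) (XT.nd (nat_lit 78) (nat_lit 304) (nat_lit 0) (XT.lf (nat_lit 0) (nat_lit 4766621860) (nat_lit 304) (nat_lit 803186403) (nat_lit 76) (nat_lit 6130201119) (nat_lit 99) (nat_lit 5) (nat_lit 103) (nat_lit 5) (nat_lit 100) (nat_lit 5) (nat_lit 620) (nat_lit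 489) (nat_lit 451)) (XT.lf (nat_lit 0) (nat_lit 8692526128) (nat_lit 304) (nat_lit 858417390) (nat_lit 380) (nat_lit 2272827737) (nat_lit 95) (nat_lit 5) (nat_lit 99) (nat_lit 5) (nat_lit 100) (nat_lit 5) (nat_lit 621) (nat_lit 489) (nat_lit 450))))) (XT.nd (nat_lit 312) (nat_lit 988) (nat_lit 0) (XT.nd (nat_lit 156) (nat_lit 304) (nat_lit 0) (XT.nd (nat_lit 78) (nat_lit 228) (nat_lit 0) (XT.lf (nat_lit 0) (nat_lit 2468679098) (nat_lit 304) (nat_lit 5559173944) (nat_lit 76) (nat_lit 3921428865) (nat_lit 91) (nat_lit 5) (nat_lit 95) (nat_lit 5) (nat_lit 92) (nat_lit 5) (nat_lit 622) (nat_lit 489) (nat_lit 449)) (XT.lf (nat_lit 0) (nat_lit 4008216139) (nat_lit 228) (nat_lit 3266845282) (nat_lit 304) (nat_lit 4801932471) (nat_lit 88) (nat_lit 5) (nat_lit 91) (nat_lit 5) (nat_lit 92) (nat_lit 5) (nat_lit 623) (nat_lit 489) (nat_lit 448))) (XT.nd (nat_lit 78) (nat_lit 76) (nat_lit 0) (XT.lf (nat_lit 0) (nat_lit 1554497047) (nat_lit 228) (nat_lit 10628820381) (nat_lit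 304) (nat_lit 23828900) (nat_lit 85) (nat_lit 5) (nat_lit 88) (nat_lit 5) (nat_lit 89) (nat_lit 4) (nat_lit 624) (nat_lit 489) (nat_lit 447)) (XT.lf (nat_lit 0) (nat_lit 4810243316) (nat_lit 304) (nat_lit 1003903319) (nat_lit 76) (nat_lit 6524646238) (nat_lit 84) (nat_lit 5) (nat_lit 88) (nat_lit 5) (nat_lit 85) (nat_lit 5) (nat_lit 625) (nat_lit 489) (nat_lit 446)))) (XT.nd (nat_lit 156) (nat_lit 456) (nat_lit 0) (XT.nd (nat_lit 78) (nat_lit 304) (nat_lit 0) (XT.lf (nat_lit 0) (nat_lit 8864493199) (nat_lit 228) (nat_lit 882635247) (nat_lit 304) (nat_lit 2725812811) (nat_lit 81) (nat_lit 5) (nat_lit 84) (nat_lit 5) (nat_lit 85) (nat_lit 5) (nat_lit 626) (nat_lit 489) (nat_lit 445)) (XT.lf (nat_lit 0) (nat_lit 2168324363) (nat_lit 304) (nat_lit 6323285413) (nat_lit 76) (nat_lit 4117404796) (nat_lit 77) (nat_lit 5) (nat_lit 81) (nat_lit 5) (nat_lit 78) (nat_lit 5) (nat_lit 627) (nat_lit 489) (nat_lit 444))) (XT.nd (nat_lit 78) (nat_lit 228) (nat_lit 0) (XT.lf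 (nat_lit 0) (nat_lit 3613014618) (nat_lit 228) (nat_lit 3513702134) (nat_lit 304) (nat_lit 5620675832) (nat_lit 74) (nat_lit 5) (nat_lit 77) (nat_lit 5) (nat_lit 78) (nat_lit 5) (nat_lit 628) (nat_lit 489) (nat_lit 443)) (XT.lf (nat_lit 0) (nat_lit 857010878) (nat_lit 228) (nat_lit 11335022910) (nat_lit 304) (nat_lit 696350220) (nat_lit 71) (nat_lit 5) (nat_lit 74) (nat_lit 5) (nat_lit 75) (nat_lit 4) (nat_lit 629) (nat_lit 489) (nat_lit 442))))))))
noncomputable def xc21 : XT := (XT.nd (nat_lit 77922) (nat_lit 0) (nat_lit 5928) (XT.nd (nat_lit 1092) (nat_lit 912) (nat_lit 0) (XT.nd (nat_lit 546) (nat_lit 1064) (nat_lit 0) (XT.nd (nat_lit 234) (nat_lit 684) (nat_lit 0) (XT.nd (nat_lit 78) (nat_lit 456) (nat_lit 0) (XT.lf (nat_lit 0) (nat_lit 4304097704) (nat_lit 304) (nat_lit 2000630724) (nat_lit 76) (nat_lit 6726218412) (nat_lit 70) (nat_lit 5) (nat_lit 74) (nat_lit 5) (nat_lit 71) (nat_lit 5) (nat_lit 630) (nat_lit 489) (nat_lit 441)) (XT.nd (nat_lit 78)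 (nat_lit 228) (nat_lit 0) (XT.lf (nat_lit 0) (nat_lit 8246085356) (nat_lit 228) (nat_lit 1153091065) (nat_lit 304) (nat_lit 3777014461) (nat_lit 67) (nat_lit 5) (nat_lit 70) (nat_lit 5) (nat_lit 71) (nat_lit 5) (nat_lit 631) (nat_lit 489) (nat_lit 440)) (XT.lf (nat_lit 0) (nat_lit 1280776204) (nat_lit 228) (nat_lit 7976282316) (nat_lit 76) (nat_lit 4066604241) (nat_lit 64) (nat_lit 5) (nat_lit 67) (nat_lit 5) (nat_lit 65) (nat_lit 5) (nat_lit 632) (nat_lit 489) (nat_lit 439)))) (XT.nd (nat_lit 156) (nat_lit 456) (nat_lit 0) (XT.nd (nat_lit 78) (nat_lit 0) (nat_lit 0) (XT.lf (nat_lit 0) (nat_lit 2333143628) (nat_lit 228) (nat_lit 4062766302) (nat_lit 304) (nat_lit 7077540472) (nat_lit 61) (nat_lit 5) (nat_lit 64) (nat_lit 5) (nat_lit 65) (nat_lit 5) (nat_lit 633) (nat_lit 489) (nat_lit 438)) (XT.lf (nat_lit 0) (nat_lit 11626019387) (nat_lit 304) (nat_lit 765216423) (nat_lit 76) (nat_lit 1234745385) (nat_lit 61) (nat_lit 5) (nat_lit 65) (nat_lit 5) (nat_lit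 62) (nat_lit 4) (nat_lit 634) (nat_lit 489) (nat_lit 437))) (XT.nd (nat_lit 78) (nat_lit 228) (nat_lit 0) (XT.lf (nat_lit 0) (nat_lit 3180236785) (nat_lit 228) (nat_lit 3969029834) (nat_lit 76) (nat_lit 6631028709) (nat_lit 58) (nat_lit 5) (nat_lit 61) (nat_lit 5) (nat_lit 59) (nat_lit 5) (nat_lit 635) (nat_lit 489) (nat_lit 436)) (XT.lf (nat_lit 0) (nat_lit 6659224919) (nat_lit 228) (nat_lit 1778271221) (nat_lit 304) (nat_lit 5499931292) (nat_lit 55) (nat_lit 5) (nat_lit 58) (nat_lit 5) (nat_lit 59) (nat_lit 5) (nat_lit 636) (nat_lit 489) (nat_lit 435))))) (XT.nd (nat_lit 234) (nat_lit 608) (nat_lit 0) (XT.nd (nat_lit 78) (nat_lit 304) (nat_lit 0) (XT.lf (nat_lit 0) (nat_lit 3389910374) (nat_lit 152) (nat_lit 10434774955) (nat_lit 228) (nat_lit 272521950) (nat_lit 53) (nat_lit 5) (nat_lit 55) (nat_lit 5) (nat_lit 56) (nat_lit 4) (nat_lit 637) (nat_lit 489) (nat_lit 434)) (XT.nd (nat_lit 78) (nat_lit 228) (nat_lit 0) (XT.lf (nat_lit 0) (nat_lit 5006025978)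 (nat_lit 228) (nat_lit 21203037) (nat_lit 76) (nat_lit 9232038570) (nat_lit 52) (nat_lit 5) (nat_lit 55) (nat_lit 5) (nat_lit 53) (nat_lit 5) (nat_lit 638) (nat_lit 489) (nat_lit 433)) (XT.lf (nat_lit 0) (nat_lit 10413846374) (nat_lit 304) (nat_lit 3492622979) (nat_lit 76) (nat_lit 517517453) (nat_lit 49) (nat_lit 5) (nat_lit 53) (nat_lit 5) (nat_lit 50) (nat_lit 4) (nat_lit 639) (nat_lit 489) (nat_lit 432)))) (XT.nd (nat_lit 156) (nat_lit 228) (nat_lit 0) (XT.nd (nat_lit 78) (nat_lit 152) (nat_lit 0) (XT.lf (nat_lit 0) (nat_lit 1355650287) (nat_lit 228) (nat_lit 7109505656) (nat_lit 76) (nat_lit 6125964001) (nat_lit 46) (nat_lit 5) (nat_lit 49) (nat_lit 5) (nat_lit 47) (nat_lit 5) (nat_lit 640) (nat_lit 489) (nat_lit 431)) (XT.lf (nat_lit 0) (nat_lit 3900425411) (nat_lit 152) (nat_lit 2876732632) (nat_lit 228) (nat_lit 7983866324) (nat_lit 44) (nat_lit 5) (nat_lit 46) (nat_lit 5) (nat_lit 47) (nat_lit 5) (nat_lit 641) (nat_lit 489) (nat_lit 430))) (XT.nd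 (nat_lit 78) (nat_lit 76) (nat_lit 0) (XT.lf (nat_lit 0) (nat_lit 191733044) (nat_lit 152) (nat_lit 12136211226) (nat_lit 228) (nat_lit 2605966334) (nat_lit 42) (nat_lit 5) (nat_lit 44) (nat_lit 5) (nat_lit 45) (nat_lit 4) (nat_lit 642) (nat_lit 489) (nat_lit 429)) (XT.lf (nat_lit 0) (nat_lit 2887444176) (nat_lit 228) (nat_lit 3620441388) (nat_lit 76) (nat_lit 8601081402) (nat_lit 41) (nat_lit 5) (nat_lit 44) (nat_lit 5) (nat_lit 42) (nat_lit 5) (nat_lit 643) (nat_lit 489) (nat_lit 428)))))) (XT.nd (nat_lit 76206) (nat_lit 0) (nat_lit 16188) (XT.nd (nat_lit 234) (nat_lit 532) (nat_lit 0) (XT.nd (nat_lit 78) (nat_lit 228) (nat_lit 0) (XT.lf (nat_lit 0) (nat_lit 7723705550) (nat_lit 152) (nat_lit 736522491) (nat_lit 228) (nat_lit 6826864576) (nat_lit 39) (nat_lit 5) (nat_lit 41) (nat_lit 5) (nat_lit 42) (nat_lit 5) (nat_lit 644) (nat_lit 489) (nat_lit 427)) (XT.nd (nat_lit 78) (nat_lit 76) (nat_lit 0) (XT.lf (nat_lit 0) (nat_lit 3807682664) (nat_lit 152) (nat_lit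 10373729020) (nat_lit 228) (nat_lit 1286630854) (nat_lit 37) (nat_lit 5) (nat_lit 39) (nat_lit 5) (nat_lit 40) (nat_lit 4) (nat_lit 645) (nat_lit 489) (nat_lit 426)) (XT.lf (nat_lit 0) (nat_lit 4317514682) (nat_lit 228) (nat_lit 260674898) (nat_lit 76) (nat_lit 11073648814) (nat_lit 36) (nat_lit 5) (nat_lit 39) (nat_lit 5) (nat_lit 37) (nat_lit 5) (nat_lit 646) (nat_lit 489) (nat_lit 425)))) (XT.nd (nat_lit 156) (nat_lit 228) (nat_lit 0) (XT.nd (nat_lit 78) (nat_lit 152) (nat_lit 0) (XT.lf (nat_lit 0) (nat_lit 10054946846) (nat_lit 228) (nat_lit 4421749819) (nat_lit 76) (nat_lit 1361675378) (nat_lit 34) (nat_lit 5) (nat_lit 37) (nat_lit 5) (nat_lit 35) (nat_lit 4) (nat_lit 647) (nat_lit 489) (nat_lit 424)) (XT.lf (nat_lit 0) (nat_lit 7284935250) (nat_lit 152) (nat_lit 8656944564) (nat_lit 228) (nat_lit 86062096) (nat_lit 32) (nat_lit 5) (nat_lit 34) (nat_lit 5) (nat_lit 35) (nat_lit 4) (nat_lit 648) (nat_lit 489) (nat_lit 423))) (XT.nd (nat_lit 78) (nat_lit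 0) (nat_lit 0) (XT.lf (nat_lit 0) (nat_lit 2984025923) (nat_lit 152) (nat_lit 2670799210) (nat_lit 228) (nat_lit 10565641876) (nat_lit 29) (nat_lit 5) (nat_lit 31) (nat_lit 5) (nat_lit 32) (nat_lit 5) (nat_lit 649) (nat_lit 489) (nat_lit 422)) (XT.lf (nat_lit 0) (nat_lit 11546255944) (nat_lit 228) (nat_lit 1457636039) (nat_lit 76) (nat_lit 3412202241) (nat_lit 29) (nat_lit 5) (nat_lit 32) (nat_lit 5) (nat_lit 30) (nat_lit 4) (nat_lit 650) (nat_lit 489) (nat_lit 421))))) (XT.nd (nat_lit 312) (nat_lit 1748) (nat_lit 0) (XT.nd (nat_lit 156) (nat_lit 1216) (nat_lit 0) (XT.nd (nat_lit 78) (nat_lit 684) (nat_lit 0) (XT.lf (nat_lit 0) (nat_lit 2131776923) (nat_lit 608) (nat_lit 977403991) (nat_lit 608) (nat_lit 977403991) (nat_lit 290) (nat_lit 4) (nat_lit 298) (nat_lit 5) (nat_lit 298) (nat_lit 4) (nat_lit 580) (nat_lit 490) (nat_lit 490)) (XT.lf (nat_lit 0) (nat_lit 2076994046) (nat_lit 684) (nat_lit 5221804964) (nat_lit 0) (nat_lit 933593021) (nat_lit 281) (nat_lit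 5) (nat_lit 290) (nat_lit 4) (nat_lit 281) (nat_lit 4) (nat_lit 581) (nat_lit 490) (nat_lit 489))) (XT.nd (nat_lit 78) (nat_lit 608) (nat_lit 0) (XT.lf (nat_lit 0) (nat_lit 1733691254) (nat_lit 608) (nat_lit 4411795250) (nat_lit 608) (nat_lit 2147412826) (nat_lit 273) (nat_lit 4) (nat_lit 281) (nat_lit 5) (nat_lit 281) (nat_lit 4) (nat_lit 582) (nat_lit 490) (nat_lit 488)) (XT.lf (nat_lit 0) (nat_lit 444972915) (nat_lit 532) (nat_lit 1440352187) (nat_lit 608) (nat_lit 6469642244) (nat_lit 265) (nat_lit 5) (nat_lit 272) (nat_lit 5) (nat_lit 273) (nat_lit 4) (nat_lit 583) (nat_lit 490) (nat_lit 487)))) (XT.nd (nat_lit 156) (nat_lit 1140) (nat_lit 0) (XT.nd (nat_lit 78) (nat_lit 608) (nat_lit 0) (XT.lf (nat_lit 0) (nat_lit 5957079585) (nat_lit 608) (nat_lit 857855685) (nat_lit 0) (nat_lit 1603318686) (nat_lit 265) (nat_lit 5) (nat_lit 273) (nat_lit 4) (nat_lit 265) (nat_lit 4) (nat_lit 584) (nat_lit 490) (nat_lit 486)) (XT.lf (nat_lit 0) (nat_lit 1590341509)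 (nat_lit 608) (nat_lit 2176884586) (nat_lit 76) (nat_lit 4715687711) (nat_lit 257) (nat_lit 5) (nat_lit 265) (nat_lit 5) (nat_lit 258) (nat_lit 4) (nat_lit 585) (nat_lit 490) (nat_lit 485))) (XT.nd (nat_lit 78) (nat_lit 608) (nat_lit 0) (XT.lf (nat_lit 0) (nat_lit 5033541670) (nat_lit 532) (nat_lit 628945208) (nat_lit 608) (nat_lit 2886606758) (nat_lit 250) (nat_lit 5) (nat_lit 257) (nat_lit 5) (nat_lit 258) (nat_lit 4) (nat_lit 586) (nat_lit 490) (nat_lit 484)) (XT.lf (nat_lit 0) (nat_lit 1173947205) (nat_lit 608) (nat_lit 4883608239) (nat_lit 76) (nat_lit 2559084964) (nat_lit 242) (nat_lit 5) (nat_lit 250) (nat_lit 5) (nat_lit 243) (nat_lit 4) (nat_lit 587) (nat_lit 490) (nat_lit 483))))))) (XT.nd (nat_lit 1170) (nat_lit 4256) (nat_lit 0) (XT.nd (nat_lit 546) (nat_lit 2964) (nat_lit 0) (XT.nd (nat_lit 234) (nat_lit 1976) (nat_lit 0) (XT.nd (nat_lit 78) (nat_lit 608) (nat_lit 0) (XT.lf (nat_lit 0) (nat_lit 2404275354) (nat_lit 456) (nat_lit 2851172060) (nat_lit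 532) (nat_lit 3430144405) (nat_lit 236) (nat_lit 5) (nat_lit 242) (nat_lit 5) (nat_lit 243) (nat_lit 4) (nat_lit 588) (nat_lit 490) (nat_lit 482)) (XT.nd (nat_lit 78) (nat_lit 0) (nat_lit 0) (XT.lf (nat_lit 0) (nat_lit 631775535) (nat_lit 608) (nat_lit 7694122742) (nat_lit 76) (nat_lit 430384644) (nat_lit 228) (nat_lit 5) (nat_lit 236) (nat_lit 5) (nat_lit 229) (nat_lit 4) (nat_lit 589) (nat_lit 490) (nat_lit 481)) (XT.lf (nat_lit 0) (nat_lit 4725922403) (nat_lit 608) (nat_lit 325509974) (nat_lit 76) (nat_lit 3776566514) (nat_lit 228) (nat_lit 5) (nat_lit 236) (nat_lit 5) (nat_lit 229) (nat_lit 4) (nat_lit 590) (nat_lit 490) (nat_lit 480)))) (XT.nd (nat_lit 156) (nat_lit 988) (nat_lit 0) (XT.nd (nat_lit 78) (nat_lit 532) (nat_lit 0) (XT.lf (nat_lit 0) (nat_lit 7192910248) (nat_lit 456) (nat_lit 1692569781) (nat_lit 532) (nat_lit 16001413) (nat_lit 222) (nat_lit 5) (nat_lit 228) (nat_lit 5) (nat_lit 229) (nat_lit 4) (nat_lit 591) (nat_lit 490) (nat_lit 479))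 (XT.lf (nat_lit 0) (nat_lit 4086072607) (nat_lit 532) (nat_lit 3140559305) (nat_lit 76) (nat_lit 1749490736) (nat_lit 215) (nat_lit 5) (nat_lit 222) (nat_lit 5) (nat_lit 216) (nat_lit 4) (nat_lit 592) (nat_lit 490) (nat_lit 478))) (XT.nd (nat_lit 78) (nat_lit 532) (nat_lit 0) (XT.lf (nat_lit 0) (nat_lit 4456177392) (nat_lit 456) (nat_lit 3802985506) (nat_lit 532) (nat_lit 793310539) (nat_lit 209) (nat_lit 5) (nat_lit 215) (nat_lit 5) (nat_lit 216) (nat_lit 4) (nat_lit 593) (nat_lit 490) (nat_lit 477)) (XT.lf (nat_lit 0) (nat_lit 3042463447) (nat_lit 456) (nat_lit 277190597) (nat_lit 532) (nat_lit 5810686351) (nat_lit 202) (nat_lit 5) (nat_lit 208) (nat_lit 5) (nat_lit 209) (nat_lit 5) (nat_lit 594) (nat_lit 490) (nat_lit 476))))) (XT.nd (nat_lit 312) (nat_lit 1596) (nat_lit 0) (XT.nd (nat_lit 156) (nat_lit 456) (nat_lit 0) (XT.nd (nat_lit 78) (nat_lit 532) (nat_lit 0) (XT.lf (nat_lit 0) (nat_lit 1587733502) (nat_lit 380) (nat_lit 5917584391) (nat_lit 456)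 (nat_lit 1704323176) (nat_lit 197) (nat_lit 5) (nat_lit 202) (nat_lit 5) (nat_lit 203) (nat_lit 4) (nat_lit 595) (nat_lit 490) (nat_lit 475)) (XT.lf (nat_lit 0) (nat_lit 99290717) (nat_lit 456) (nat_lit 2334249560) (nat_lit 532) (nat_lit 6857028242) (nat_lit 190) (nat_lit 5) (nat_lit 196) (nat_lit 5) (nat_lit 197) (nat_lit 5) (nat_lit 596) (nat_lit 490) (nat_lit 474))) (XT.nd (nat_lit 78) (nat_lit 456) (nat_lit 0) (XT.lf (nat_lit 0) (nat_lit 6630171671) (nat_lit 532) (nat_lit 1407909205) (nat_lit 76) (nat_lit 1334834056) (nat_lit 190) (nat_lit 5) (nat_lit 197) (nat_lit 5) (nat_lit 191) (nat_lit 4) (nat_lit 597) (nat_lit 490) (nat_lit 473)) (XT.lf (nat_lit 0) (nat_lit 1432412323) (nat_lit 456) (nat_lit 2957352314) (nat_lit 76) (nat_lit 5067004076) (nat_lit 184) (nat_lit 5) (nat_lit 190) (nat_lit 5) (nat_lit 185) (nat_lit 5) (nat_lit 598) (nat_lit 490) (nat_lit 472)))) (XT.nd (nat_lit 156) (nat_lit 760) (nat_lit 0) (XT.nd (nat_lit 78) (nat_lit 456) (nat_lit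 0) (XT.lf (nat_lit 0) (nat_lit 4996973210) (nat_lit 380) (nat_lit 639499099) (nat_lit 456) (nat_lit 3905824359) (nat_lit 179) (nat_lit 5) (nat_lit 184) (nat_lit 5) (nat_lit 185) (nat_lit 5) (nat_lit 599) (nat_lit 490) (nat_lit 471)) (XT.lf (nat_lit 0) (nat_lit 294819153) (nat_lit 456) (nat_lit 6178166772) (nat_lit 76) (nat_lit 3156440859) (nat_lit 173) (nat_lit 5) (nat_lit 179) (nat_lit 5) (nat_lit 174) (nat_lit 5) (nat_lit 600) (nat_lit 490) (nat_lit 470))) (XT.nd (nat_lit 78) (nat_lit 380) (nat_lit 0) (XT.lf (nat_lit 0) (nat_lit 1852945096) (nat_lit 380) (nat_lit 2661934160) (nat_lit 456) (nat_lit 5203151936) (nat_lit 168) (nat_lit 5) (nat_lit 173) (nat_lit 5) (nat_lit 174) (nat_lit 5) (nat_lit 601) (nat_lit 490) (nat_lit 469)) (XT.lf (nat_lit 0) (nat_lit 222432404) (nat_lit 380) (nat_lit 8589074032) (nat_lit 456) (nat_lit 997059987) (nat_lit 163) (nat_lit 5) (nat_lit 168) (nat_lit 5) (nat_lit 169) (nat_lit 4) (nat_lit 602) (nat_lit 490) (nat_lit 468))))))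 (XT.nd (nat_lit 546) (nat_lit 2280) (nat_lit 0) (XT.nd (nat_lit 234) (nat_lit 1140) (nat_lit 0) (XT.nd (nat_lit 78) (nat_lit 760) (nat_lit 0) (XT.lf (nat_lit 0) (nat_lit 3261920169) (nat_lit 456) (nat_lit 1454174581) (nat_lit 76) (nat_lit 5184152822) (nat_lit 162) (nat_lit 5) (nat_lit 168) (nat_lit 5) (nat_lit 163) (nat_lit 5) (nat_lit 603) (nat_lit 490) (nat_lit 467)) (XT.nd (nat_lit 78) (nat_lit 380) (nat_lit 0) (XT.lf (nat_lit 0) (nat_lit 6831979707) (nat_lit 380) (nat_lit 747472337) (nat_lit 456) (nat_lit 2414445968) (nat_lit 157) (nat_lit 5) (nat_lit 162) (nat_lit 5) (nat_lit 163) (nat_lit 5) (nat_lit 604) (nat_lit 490) (nat_lit 466)) (XT.lf (nat_lit 0) (nat_lit 1876607643) (nat_lit 380) (nat_lit 4932747689) (nat_lit 76) (nat_lit 3279671384) (nat_lit 152) (nat_lit 5) (nat_lit 157) (nat_lit 5) (nat_lit 153) (nat_lit 5) (nat_lit 605) (nat_lit 490) (nat_lit 465)))) (XT.nd (nat_lit 156) (nat_lit 380) (nat_lit 0) (XT.nd (nat_lit 78) (nat_lit 380) (nat_lit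 0) (XT.lf (nat_lit 0) (nat_lit 3430047415) (nat_lit 380) (nat_lit 2782542861) (nat_lit 456) (nat_lit 3973321604) (nat_lit 147) (nat_lit 5) (nat_lit 152) (nat_lit 5) (nat_lit 153) (nat_lit 5) (nat_lit 606) (nat_lit 490) (nat_lit 464)) (XT.lf (nat_lit 0) (nat_lit 341785789) (nat_lit 380) (nat_lit 8623409133) (nat_lit 76) (nat_lit 1319579544) (nat_lit 142) (nat_lit 5) (nat_lit 147) (nat_lit 5) (nat_lit 143) (nat_lit 5) (nat_lit 607) (nat_lit 490) (nat_lit 463))) (XT.nd (nat_lit 78) (nat_lit 380) (nat_lit 0) (XT.lf (nat_lit 0) (nat_lit 4697381835) (nat_lit 380) (nat_lit 183610125) (nat_lit 76) (nat_lit 5503951002) (nat_lit 142) (nat_lit 5) (nat_lit 147) (nat_lit 5) (nat_lit 143) (nat_lit 5) (nat_lit 608) (nat_lit 490) (nat_lit 462)) (XT.lf (nat_lit 0) (nat_lit 8445177513) (nat_lit 380) (nat_lit 694132683) (nat_lit 456) (nat_lit 1347821908) (nat_lit 137) (nat_lit 5) (nat_lit 142) (nat_lit 5) (nat_lit 143) (nat_lit 5) (nat_lit 609) (nat_lit 490) (nat_lit 461)))))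 (XT.nd (nat_lit 312) (nat_lit 912) (nat_lit 0) (XT.nd (nat_lit 156) (nat_lit 684) (nat_lit 0) (XT.nd (nat_lit 78) (nat_lit 304) (nat_lit 0) (XT.lf (nat_lit 0) (nat_lit 3050592979) (nat_lit 380) (nat_lit 3980620067) (nat_lit 76) (nat_lit 3559508645) (nat_lit 132) (nat_lit 5) (nat_lit 137) (nat_lit 5) (nat_lit 133) (nat_lit 5) (nat_lit 610) (nat_lit 490) (nat_lit 460)) (XT.lf (nat_lit 0) (nat_lit 4724126983) (nat_lit 304) (nat_lit 2788683942) (nat_lit 380) (nat_lit 3183517909) (nat_lit 128) (nat_lit 5) (nat_lit 132) (nat_lit 5) (nat_lit 133) (nat_lit 5) (nat_lit 611) (nat_lit 490) (nat_lit 459))) (XT.nd (nat_lit 78) (nat_lit 304) (nat_lit 0) (XT.lf (nat_lit 0) (nat_lit 1243746813) (nat_lit 380) (nat_lit 8023663970) (nat_lit 76) (nat_lit 1536474220) (nat_lit 123) (nat_lit 5) (nat_lit 128) (nat_lit 5) (nat_lit 124) (nat_lit 5) (nat_lit 612) (nat_lit 490) (nat_lit 458)) (XT.lf (nat_lit 0) (nat_lit 754554933) (nat_lit 304) (nat_lit 4971316694) (nat_lit 380) (nat_lit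 5187122462) (nat_lit 119) (nat_lit 5) (nat_lit 123) (nat_lit 5) (nat_lit 124) (nat_lit 5) (nat_lit 613) (nat_lit 490) (nat_lit 457)))) (XT.nd (nat_lit 156) (nat_lit 608) (nat_lit 0) (XT.nd (nat_lit 78) (nat_lit 304) (nat_lit 0) (XT.lf (nat_lit 0) (nat_lit 9726321127) (nat_lit 304) (nat_lit 570839113) (nat_lit 380) (nat_lit 727136155) (nat_lit 119) (nat_lit 5) (nat_lit 123) (nat_lit 5) (nat_lit 124) (nat_lit 5) (nat_lit 614) (nat_lit 490) (nat_lit 456)) (XT.lf (nat_lit 0) (nat_lit 3794176030) (nat_lit 304) (nat_lit 3436593619) (nat_lit 76) (nat_lit 3906115142) (nat_lit 115) (nat_lit 5) (nat_lit 119) (nat_lit 5) (nat_lit 116) (nat_lit 5) (nat_lit 615) (nat_lit 490) (nat_lit 455))) (XT.nd (nat_lit 78) (nat_lit 304) (nat_lit 0) (XT.lf (nat_lit 0) (nat_lit 5619661804) (nat_lit 304) (nat_lit 2772188361) (nat_lit 380) (nat_lit 2859866602) (nat_lit 111) (nat_lit 5) (nat_lit 115) (nat_lit 5) (nat_lit 116) (nat_lit 5) (nat_lit 616) (nat_lit 490) (nat_lit 454)) (XT.lf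 (nat_lit 0) (nat_lit 1694385354) (nat_lit 304) (nat_lit 7900906315) (nat_lit 76) (nat_lit 1773248362) (nat_lit 107) (nat_lit 5) (nat_lit 111) (nat_lit 5) (nat_lit 108) (nat_lit 5) (nat_lit 617) (nat_lit 490) (nat_lit 453))))))))
noncomputable def xc22 : XT := (XT.nd (nat_lit 2262) (nat_lit 532) (nat_lit 0) (XT.nd (nat_lit 1092) (nat_lit 2356) (nat_lit 0) (XT.nd (nat_lit 546) (nat_lit 1596) (nat_lit 0) (XT.nd (nat_lit 234) (nat_lit 836) (nat_lit 0) (XT.nd (nat_lit 78) (nat_lit 304) (nat_lit 0) (XT.lf (nat_lit 0) (nat_lit 1226961615) (nat_lit 304) (nat_lit 5085840311) (nat_lit 380) (nat_lit 5174293598) (nat_lit 103) (nat_lit 5) (nat_lit 107) (nat_lit 5) (nat_lit 108) (nat_lit 5) (nat_lit 618) (nat_lit 490) (nat_lit 452)) (XT.nd (nat_lit 78) (nat_lit 304) (nat_lit 0) (XT.lf (nat_lit 0) (nat_lit 10554782015) (nat_lit 304) (nat_lit 469249417) (nat_lit 380) (nat_lit 583983077) (nat_lit 103) (nat_lit 5) (nat_lit 107) (nat_lit 5) (nat_lit 108) (nat_lit 5) (nat_lit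 619) (nat_lit 490) (nat_lit 451)) (XT.lf (nat_lit 0) (nat_lit 4074417993) (nat_lit 304) (nat_lit 3426762326) (nat_lit 76) (nat_lit 4229039984) (nat_lit 99) (nat_lit 5) (nat_lit 103) (nat_lit 5) (nat_lit 100) (nat_lit 5) (nat_lit 620) (nat_lit 490) (nat_lit 450)))) (XT.nd (nat_lit 156) (nat_lit 228) (nat_lit 0) (XT.nd (nat_lit 78) (nat_lit 304) (nat_lit 0) (XT.lf (nat_lit 0) (nat_lit 5989517180) (nat_lit 304) (nat_lit 2826089393) (nat_lit 380) (nat_lit 3039238861) (nat_lit 95) (nat_lit 5) (nat_lit 99) (nat_lit 5) (nat_lit 100) (nat_lit 5) (nat_lit 621) (nat_lit 490) (nat_lit 449)) (XT.lf (nat_lit 0) (nat_lit 1655491972) (nat_lit 304) (nat_lit 8388168238) (nat_lit 76) (nat_lit 1937932523) (nat_lit 91) (nat_lit 5) (nat_lit 95) (nat_lit 5) (nat_lit 92) (nat_lit 5) (nat_lit 622) (nat_lit 490) (nat_lit 448))) (XT.nd (nat_lit 78) (nat_lit 0) (nat_lit 0) (XT.lf (nat_lit 0) (nat_lit 1096908824) (nat_lit 228) (nat_lit 5320626391) (nat_lit 304) (nat_lit 5692656844) (nat_lit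 88) (nat_lit 5) (nat_lit 91) (nat_lit 5) (nat_lit 92) (nat_lit 5) (nat_lit 623) (nat_lit 490) (nat_lit 447)) (XT.lf (nat_lit 0) (nat_lit 10796833710) (nat_lit 228) (nat_lit 483324545) (nat_lit 304) (nat_lit 961099449) (nat_lit 88) (nat_lit 5) (nat_lit 91) (nat_lit 5) (nat_lit 92) (nat_lit 5) (nat_lit 624) (nat_lit 490) (nat_lit 446))))) (XT.nd (nat_lit 234) (nat_lit 760) (nat_lit 0) (XT.nd (nat_lit 78) (nat_lit 532) (nat_lit 0) (XT.lf (nat_lit 0) (nat_lit 3847262478) (nat_lit 304) (nat_lit 4091305336) (nat_lit 76) (nat_lit 4435218727) (nat_lit 84) (nat_lit 5) (nat_lit 88) (nat_lit 5) (nat_lit 85) (nat_lit 5) (nat_lit 625) (nat_lit 490) (nat_lit 445)) (XT.nd (nat_lit 78) (nat_lit 304) (nat_lit 0) (XT.lf (nat_lit 0) (nat_lit 5692082200) (nat_lit 228) (nat_lit 3046665094) (nat_lit 304) (nat_lit 3770096155) (nat_lit 81) (nat_lit 5) (nat_lit 84) (nat_lit 5) (nat_lit 85) (nat_lit 5) (nat_lit 626) (nat_lit 490) (nat_lit 444)) (XT.lf (nat_lit 0) (nat_lit 1077270591)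 (nat_lit 304) (nat_lit 9633991274) (nat_lit 76) (nat_lit 1935000328) (nat_lit 77) (nat_lit 5) (nat_lit 81) (nat_lit 5) (nat_lit 78) (nat_lit 5) (nat_lit 627) (nat_lit 490) (nat_lit 443)))) (XT.nd (nat_lit 156) (nat_lit 532) (nat_lit 0) (XT.nd (nat_lit 78) (nat_lit 0) (nat_lit 0) (XT.lf (nat_lit 0) (nat_lit 214201518) (nat_lit 228) (nat_lit 5774718656) (nat_lit 304) (nat_lit 6796655377) (nat_lit 74) (nat_lit 5) (nat_lit 77) (nat_lit 5) (nat_lit 78) (nat_lit 5) (nat_lit 628) (nat_lit 490) (nat_lit 442)) (XT.lf (nat_lit 0) (nat_lit 10302594947) (nat_lit 228) (nat_lit 711422706) (nat_lit 304) (nat_lit 1913354191) (nat_lit 74) (nat_lit 5) (nat_lit 77) (nat_lit 5) (nat_lit 78) (nat_lit 5) (nat_lit 629) (nat_lit 490) (nat_lit 441))) (XT.nd (nat_lit 78) (nat_lit 228) (nat_lit 0) (XT.lf (nat_lit 0) (nat_lit 3056497952) (nat_lit 304) (nat_lit 5587651332) (nat_lit 76) (nat_lit 4426875025) (nat_lit 70) (nat_lit 5) (nat_lit 74) (nat_lit 5) (nat_lit 71) (nat_lit 5) (nat_lit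 630) (nat_lit 490) (nat_lit 440)) (XT.lf (nat_lit 0) (nat_lit 4568029612) (nat_lit 228) (nat_lit 3535592807) (nat_lit 304) (nat_lit 5113605469) (nat_lit 67) (nat_lit 5) (nat_lit 70) (nat_lit 5) (nat_lit 71) (nat_lit 5) (nat_lit 631) (nat_lit 490) (nat_lit 439)))))) (XT.nd (nat_lit 546) (nat_lit 1216) (nat_lit 0) (XT.nd (nat_lit 234) (nat_lit 684) (nat_lit 0) (XT.nd (nat_lit 78) (nat_lit 304) (nat_lit 0) (XT.lf (nat_lit 0) (nat_lit 1559689987) (nat_lit 152) (nat_lit 11702268678) (nat_lit 228) (nat_lit 104192379) (nat_lit 65) (nat_lit 5) (nat_lit 67) (nat_lit 5) (nat_lit 68) (nat_lit 4) (nat_lit 632) (nat_lit 490) (nat_lit 438)) (XT.nd (nat_lit 78) (nat_lit 228) (nat_lit 0) (XT.lf (nat_lit 0) (nat_lit 4973196620) (nat_lit 228) (nat_lit 1569867261) (nat_lit 76) (nat_lit 6973670985) (nat_lit 64) (nat_lit 5) (nat_lit 67) (nat_lit 5) (nat_lit 65) (nat_lit 5) (nat_lit 633) (nat_lit 490) (nat_lit 437)) (XT.lf (nat_lit 0) (nat_lit 8902550223) (nat_lit 228) (nat_lit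 1258534640) (nat_lit 304) (nat_lit 3509025635) (nat_lit 61) (nat_lit 5) (nat_lit 64) (nat_lit 5) (nat_lit 65) (nat_lit 5) (nat_lit 634) (nat_lit 490) (nat_lit 436)))) (XT.nd (nat_lit 156) (nat_lit 228) (nat_lit 0) (XT.nd (nat_lit 78) (nat_lit 228) (nat_lit 0) (XT.lf (nat_lit 0) (nat_lit 1632429419) (nat_lit 228) (nat_lit 8094090017) (nat_lit 76) (nat_lit 4099272256) (nat_lit 58) (nat_lit 5) (nat_lit 61) (nat_lit 5) (nat_lit 59) (nat_lit 5) (nat_lit 635) (nat_lit 490) (nat_lit 435)) (XT.lf (nat_lit 0) (nat_lit 2436613027) (nat_lit 228) (nat_lit 4402269209) (nat_lit 304) (nat_lit 7145058085) (nat_lit 55) (nat_lit 5) (nat_lit 58) (nat_lit 5) (nat_lit 59) (nat_lit 5) (nat_lit 636) (nat_lit 490) (nat_lit 434))) (XT.nd (nat_lit 78) (nat_lit 228) (nat_lit 0) (XT.lf (nat_lit 0) (nat_lit 12163699889) (nat_lit 304) (nat_lit 948874021) (nat_lit 76) (nat_lit 1032394073) (nat_lit 55) (nat_lit 5) (nat_lit 59) (nat_lit 5) (nat_lit 56) (nat_lit 4) (nat_lit 637) (nat_lit 490)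 (nat_lit 433)) (XT.lf (nat_lit 0) (nat_lit 3290112469) (nat_lit 228) (nat_lit 4451616496) (nat_lit 76) (nat_lit 6566113139) (nat_lit 52) (nat_lit 5) (nat_lit 55) (nat_lit 5) (nat_lit 53) (nat_lit 5) (nat_lit 638) (nat_lit 490) (nat_lit 432))))) (XT.nd (nat_lit 312) (nat_lit 608) (nat_lit 0) (XT.nd (nat_lit 156) (nat_lit 228) (nat_lit 0) (XT.nd (nat_lit 78) (nat_lit 152) (nat_lit 0) (XT.lf (nat_lit 0) (nat_lit 6403554281) (nat_lit 228) (nat_lit 2238716573) (nat_lit 304) (nat_lit 5831404073) (nat_lit 49) (nat_lit 5) (nat_lit 52) (nat_lit 5) (nat_lit 53) (nat_lit 5) (nat_lit 639) (nat_lit 490) (nat_lit 431)) (XT.lf (nat_lit 0) (nat_lit 2825057095) (nat_lit 152) (nat_lit 11300727231) (nat_lit 228) (nat_lit 516554563) (nat_lit 47) (nat_lit 5) (nat_lit 49) (nat_lit 5) (nat_lit 50) (nat_lit 4) (nat_lit 640) (nat_lit 490) (nat_lit 430))) (XT.nd (nat_lit 78) (nat_lit 152) (nat_lit 0) (XT.lf (nat_lit 0) (nat_lit 4863655793) (nat_lit 228) (nat_lit 896682300) (nat_lit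 76) (nat_lit 9052934081) (nat_lit 46) (nat_lit 5) (nat_lit 49) (nat_lit 5) (nat_lit 47) (nat_lit 5) (nat_lit 641) (nat_lit 490) (nat_lit 429)) (XT.lf (nat_lit 0) (nat_lit 10291638089) (nat_lit 152) (nat_lit 74692330) (nat_lit 228) (nat_lit 4620790558) (nat_lit 44) (nat_lit 5) (nat_lit 46) (nat_lit 5) (nat_lit 47) (nat_lit 5) (nat_lit 642) (nat_lit 490) (nat_lit 428)))) (XT.nd (nat_lit 156) (nat_lit 228) (nat_lit 0) (XT.nd (nat_lit 78) (nat_lit 152) (nat_lit 0) (XT.lf (nat_lit 0) (nat_lit 844800006) (nat_lit 228) (nat_lit 8651730599) (nat_lit 76) (nat_lit 5666993583) (nat_lit 41) (nat_lit 5) (nat_lit 44) (nat_lit 5) (nat_lit 42) (nat_lit 5) (nat_lit 643) (nat_lit 490) (nat_lit 427)) (XT.lf (nat_lit 0) (nat_lit 2584211255) (nat_lit 152) (nat_lit 3777784135) (nat_lit 228) (nat_lit 8980766533) (nat_lit 39) (nat_lit 5) (nat_lit 41) (nat_lit 5) (nat_lit 42) (nat_lit 5) (nat_lit 644) (nat_lit 490) (nat_lit 426))) (XT.nd (nat_lit 78) (nat_lit 228) (nat_lit 0) (XT.lf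 (nat_lit 0) (nat_lit 12016544178) (nat_lit 228) (nat_lit 1458526003) (nat_lit 76) (nat_lit 2049974670) (nat_lit 39) (nat_lit 5) (nat_lit 42) (nat_lit 5) (nat_lit 40) (nat_lit 4) (nat_lit 645) (nat_lit 490) (nat_lit 425)) (XT.lf (nat_lit 0) (nat_lit 2092984189) (nat_lit 228) (nat_lit 5629849728) (nat_lit 76) (nat_lit 7986931623) (nat_lit 36) (nat_lit 5) (nat_lit 39) (nat_lit 5) (nat_lit 37) (nat_lit 5) (nat_lit 646) (nat_lit 490) (nat_lit 424))))))) (XT.nd (nat_lit 76674) (nat_lit 0) (nat_lit 10108) (XT.nd (nat_lit 76050) (nat_lit 0) (nat_lit 15732) (XT.nd (nat_lit 234) (nat_lit 152) (nat_lit 0) (XT.nd (nat_lit 78) (nat_lit 228) (nat_lit 0) (XT.lf (nat_lit 0) (nat_lit 5944622087) (nat_lit 152) (nat_lit 1819541061) (nat_lit 228) (nat_lit 8133461396) (nat_lit 34) (nat_lit 5) (nat_lit 36) (nat_lit 5) (nat_lit 37) (nat_lit 5) (nat_lit 647) (nat_lit 490) (nat_lit 423)) (XT.nd (nat_lit 78) (nat_lit 76) (nat_lit 0) (XT.lf (nat_lit 0) (nat_lit 1651487037) (nat_lit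 152) (nat_lit 11929560207) (nat_lit 228) (nat_lit 2507548431) (nat_lit 32) (nat_lit 5) (nat_lit 34) (nat_lit 5) (nat_lit 35) (nat_lit 4) (nat_lit 648) (nat_lit 490) (nat_lit 422)) (XT.lf (nat_lit 0) (nat_lit 3224086894) (nat_lit 228) (nat_lit 2773639569) (nat_lit 76) (nat_lit 10284529226) (nat_lit 31) (nat_lit 5) (nat_lit 34) (nat_lit 5) (nat_lit 32) (nat_lit 5) (nat_lit 649) (nat_lit 490) (nat_lit 421)))) (XT.nd (nat_lit 75660) (nat_lit 0) (nat_lit 19836) (XT.nd (nat_lit 75582) (nat_lit 0) (nat_lit 21128) (XT.lf (nat_lit 0) (nat_lit 9053958465) (nat_lit 228) (nat_lit 7332789267) (nat_lit 76) (nat_lit 92366626) (nat_lit 29) (nat_lit 5) (nat_lit 32) (nat_lit 5) (nat_lit 30) (nat_lit 4) (nat_lit 650) (nat_lit 490) (nat_lit 420)) (XT.lf (nat_lit 0) (nat_lit 3388420169) (nat_lit 684) (nat_lit 320401638) (nat_lit 684) (nat_lit 320401638) (nat_lit 307) (nat_lit 4) (nat_lit 316) (nat_lit 5) (nat_lit 316) (nat_lit 4) (nat_lit 578) (nat_lit 491) (nat_lit 491))) (XT.nd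 (nat_lit 78) (nat_lit 608) (nat_lit 0) (XT.lf (nat_lit 0) (nat_lit 3344873089) (nat_lit 684) (nat_lit 2615191769) (nat_lit 0) (nat_lit 2155278662) (nat_lit 298) (nat_lit 5) (nat_lit 307) (nat_lit 4) (nat_lit 298) (nat_lit 4) (nat_lit 579) (nat_lit 491) (nat_lit 490)) (XT.lf (nat_lit 0) (nat_lit 4218322713) (nat_lit 608) (nat_lit 3155695603) (nat_lit 608) (nat_lit 799832130) (nat_lit 290) (nat_lit 4) (nat_lit 298) (nat_lit 5) (nat_lit 298) (nat_lit 4) (nat_lit 580) (nat_lit 491) (nat_lit 489))))) (XT.nd (nat_lit 312) (nat_lit 2204) (nat_lit 0) (XT.nd (nat_lit 156) (nat_lit 608) (nat_lit 0) (XT.nd (nat_lit 78) (nat_lit 608) (nat_lit 0) (XT.lf (nat_lit 0) (nat_lit 2917345101) (nat_lit 608) (nat_lit 259194304) (nat_lit 684) (nat_lit 5057190745) (nat_lit 281) (nat_lit 5) (nat_lit 289) (nat_lit 5) (nat_lit 290) (nat_lit 4) (nat_lit 581) (nat_lit 491) (nat_lit 488)) (XT.lf (nat_lit 0) (nat_lit 1593873308) (nat_lit 608) (nat_lit 5615367287) (nat_lit 608) (nat_lit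 1085714448) (nat_lit 273) (nat_lit 4) (nat_lit 281) (nat_lit 5) (nat_lit 281) (nat_lit 4) (nat_lit 582) (nat_lit 491) (nat_lit 487))) (XT.nd (nat_lit 78) (nat_lit 0) (nat_lit 0) (XT.lf (nat_lit 0) (nat_lit 248396465) (nat_lit 532) (nat_lit 2650366717) (nat_lit 608) (nat_lit 5458810432) (nat_lit 265) (nat_lit 5) (nat_lit 272) (nat_lit 5) (nat_lit 273) (nat_lit 4) (nat_lit 583) (nat_lit 491) (nat_lit 486)) (XT.lf (nat_lit 0) (nat_lit 6929878896) (nat_lit 608) (nat_lit 1094692335) (nat_lit 0) (nat_lit 397103434) (nat_lit 265) (nat_lit 5) (nat_lit 273) (nat_lit 4) (nat_lit 265) (nat_lit 4) (nat_lit 584) (nat_lit 491) (nat_lit 485)))) (XT.nd (nat_lit 156) (nat_lit 1064) (nat_lit 0) (XT.nd (nat_lit 78) (nat_lit 532) (nat_lit 0) (XT.lf (nat_lit 0) (nat_lit 2512788384) (nat_lit 608) (nat_lit 2472250314) (nat_lit 76) (nat_lit 3501855906) (nat_lit 257) (nat_lit 5) (nat_lit 265) (nat_lit 5) (nat_lit 258) (nat_lit 4) (nat_lit 585) (nat_lit 491) (nat_lit 484)) (XT.lf (nat_lit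 0) (nat_lit 4688904749) (nat_lit 532) (nat_lit 1861781884) (nat_lit 608) (nat_lit 2003074314) (nat_lit 250) (nat_lit 5) (nat_lit 257) (nat_lit 5) (nat_lit 258) (nat_lit 4) (nat_lit 586) (nat_lit 491) (nat_lit 483))) (XT.nd (nat_lit 78) (nat_lit 456) (nat_lit 0) (XT.lf (nat_lit 0) (nat_lit 2003310886) (nat_lit 608) (nat_lit 5286021829) (nat_lit 76) (nat_lit 1332713405) (nat_lit 242) (nat_lit 5) (nat_lit 250) (nat_lit 5) (nat_lit 243) (nat_lit 4) (nat_lit 587) (nat_lit 491) (nat_lit 482)) (XT.lf (nat_lit 0) (nat_lit 1950779626) (nat_lit 456) (nat_lit 4099456281) (nat_lit 532) (nat_lit 2641454608) (nat_lit 236) (nat_lit 5) (nat_lit 242) (nat_lit 5) (nat_lit 243) (nat_lit 4) (nat_lit 588) (nat_lit 491) (nat_lit 481)))))) (XT.nd (nat_lit 546) (nat_lit 2660) (nat_lit 0) (XT.nd (nat_lit 234) (nat_lit 1824) (nat_lit 0) (XT.nd (nat_lit 78) (nat_lit 532) (nat_lit 0) (XT.lf (nat_lit 0) (nat_lit 548298191) (nat_lit 532) (nat_lit 824126344) (nat_lit 608) (nat_lit 7390610031)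 (nat_lit 228) (nat_lit 5) (nat_lit 235) (nat_lit 5) (nat_lit 236) (nat_lit 5) (nat_lit 589) (nat_lit 491) (nat_lit 480)) (XT.nd (nat_lit 78) (nat_lit 532) (nat_lit 0) (XT.lf (nat_lit 0) (nat_lit 5429946707) (nat_lit 608) (nat_lit 886268433) (nat_lit 76) (nat_lit 2519269286) (nat_lit 228) (nat_lit 5) (nat_lit 236) (nat_lit 5) (nat_lit 229) (nat_lit 4) (nat_lit 590) (nat_lit 491) (nat_lit 479)) (XT.lf (nat_lit 0) (nat_lit 636737856) (nat_lit 532) (nat_lit 2334346960) (nat_lit 76) (nat_lit 5938492614) (nat_lit 221) (nat_lit 5) (nat_lit 228) (nat_lit 5) (nat_lit 222) (nat_lit 5) (nat_lit 591) (nat_lit 491) (nat_lit 478)))) (XT.nd (nat_lit 156) (nat_lit 912) (nat_lit 0) (XT.nd (nat_lit 78) (nat_lit 456) (nat_lit 0) (XT.lf (nat_lit 0) (nat_lit 4695219202) (nat_lit 532) (nat_lit 3820441197) (nat_lit 76) (nat_lit 469425129) (nat_lit 215) (nat_lit 5) (nat_lit 222) (nat_lit 5) (nat_lit 216) (nat_lit 4) (nat_lit 592) (nat_lit 491) (nat_lit 477)) (XT.lf (nat_lit 0) (nat_lit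 3721725871) (nat_lit 456) (nat_lit 5111484061) (nat_lit 532) (nat_lit 228929665) (nat_lit 209) (nat_lit 5) (nat_lit 215) (nat_lit 5) (nat_lit 216) (nat_lit 4) (nat_lit 593) (nat_lit 491) (nat_lit 476))) (XT.nd (nat_lit 78) (nat_lit 380) (nat_lit 0) (XT.lf (nat_lit 0) (nat_lit 2239100727) (nat_lit 456) (nat_lit 1602090043) (nat_lit 532) (nat_lit 5299452580) (nat_lit 202) (nat_lit 5) (nat_lit 208) (nat_lit 5) (nat_lit 209) (nat_lit 5) (nat_lit 594) (nat_lit 491) (nat_lit 475)) (XT.lf (nat_lit 0) (nat_lit 726118152) (nat_lit 380) (nat_lit 7256519825) (nat_lit 456) (nat_lit 1238191595) (nat_lit 197) (nat_lit 5) (nat_lit 202) (nat_lit 5) (nat_lit 203) (nat_lit 4) (nat_lit 595) (nat_lit 491) (nat_lit 474))))) (XT.nd (nat_lit 312) (nat_lit 1292) (nat_lit 0) (XT.nd (nat_lit 156) (nat_lit 836) (nat_lit 0) (XT.nd (nat_lit 78) (nat_lit 456) (nat_lit 0) (XT.lf (nat_lit 0) (nat_lit 2862992204) (nat_lit 456) (nat_lit 823194449) (nat_lit 76) (nat_lit 5616122332) (nat_lit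 196) (nat_lit 5) (nat_lit 202) (nat_lit 5) (nat_lit 197) (nat_lit 5) (nat_lit 596) (nat_lit 491) (nat_lit 473)) (XT.lf (nat_lit 0) (nat_lit 6995483890) (nat_lit 456) (nat_lit 20314733) (nat_lit 532) (nat_lit 2369734419) (nat_lit 190) (nat_lit 5) (nat_lit 196) (nat_lit 5) (nat_lit 197) (nat_lit 5) (nat_lit 597) (nat_lit 491) (nat_lit 472))) (XT.nd (nat_lit 78) (nat_lit 380) (nat_lit 0) (XT.lf (nat_lit 0) (nat_lit 1764258422) (nat_lit 456) (nat_lit 4013181948) (nat_lit 76) (nat_lit 3692624531) (nat_lit 184) (nat_lit 5) (nat_lit 190) (nat_lit 5) (nat_lit 185) (nat_lit 5) (nat_lit 598) (nat_lit 491) (nat_lit 471)) (XT.lf (nat_lit 0) (nat_lit 3881769349) (nat_lit 380) (nat_lit 2050254955) (nat_lit 456) (nat_lit 3624295513) (nat_lit 179) (nat_lit 5) (nat_lit 184) (nat_lit 5) (nat_lit 185) (nat_lit 5) (nat_lit 599) (nat_lit 491) (nat_lit 470)))) (XT.nd (nat_lit 156) (nat_lit 456) (nat_lit 0) (XT.nd (nat_lit 78) (nat_lit 380) (nat_lit 0) (XT.lf (nat_lit 0) (nat_lit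 526653786) (nat_lit 456) (nat_lit 7375108222) (nat_lit 76) (nat_lit 1742572442) (nat_lit 173) (nat_lit 5) (nat_lit 179) (nat_lit 5) (nat_lit 174) (nat_lit 5) (nat_lit 600) (nat_lit 491) (nat_lit 469)) (XT.lf (nat_lit 0) (nat_lit 594482240) (nat_lit 380) (nat_lit 4115272613) (nat_lit 456) (nat_lit 5023924201) (nat_lit 168) (nat_lit 5) (nat_lit 173) (nat_lit 5) (nat_lit 174) (nat_lit 5) (nat_lit 601) (nat_lit 491) (nat_lit 468))) (XT.nd (nat_lit 78) (nat_lit 456) (nat_lit 0) (XT.lf (nat_lit 0) (nat_lit 8733101082) (nat_lit 380) (nat_lit 235309160) (nat_lit 456) (nat_lit 856564476) (nat_lit 168) (nat_lit 5) (nat_lit 173) (nat_lit 5) (nat_lit 174) (nat_lit 5) (nat_lit 602) (nat_lit 491) (nat_lit 467)) (XT.lf (nat_lit 0) (nat_lit 3363275968) (nat_lit 456) (nat_lit 2844149119) (nat_lit 76) (nat_lit 3709959434) (nat_lit 162) (nat_lit 5) (nat_lit 168) (nat_lit 5) (nat_lit 163) (nat_lit 5) (nat_lit 603) (nat_lit 491) (nat_lit 466))))))))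
noncomputable def xc23 : XT := (XT.nd (nat_lit 2262) (nat_lit 2888) (nat_lit 0) (XT.nd (nat_lit 1092) (nat_lit 3040) (nat_lit 0) (XT.nd (nat_lit 546) (nat_lit 1900) (nat_lit 0) (XT.nd (nat_lit 234) (nat_lit 1140) (nat_lit 0) (XT.nd (nat_lit 78) (nat_lit 760) (nat_lit 0) (XT.lf (nat_lit 0) (nat_lit 5378561687) (nat_lit 380) (nat_lit 2264830822) (nat_lit 456) (nat_lit 2368391696) (nat_lit 157) (nat_lit 5) (nat_lit 162) (nat_lit 5) (nat_lit 163) (nat_lit 5) (nat_lit 604) (nat_lit 491) (nat_lit 465)) (XT.nd (nat_lit 78) (nat_lit 380) (nat_lit 0) (XT.lf (nat_lit 0) (nat_lit 1874159607) (nat_lit 380) (nat_lit 6477575290) (nat_lit 76) (nat_lit 1756130900) (nat_lit 152) (nat_lit 5) (nat_lit 157) (nat_lit 5) (nat_lit 153) (nat_lit 5) (nat_lit 605) (nat_lit 491) (nat_lit 464)) (XT.lf (nat_lit 0) (nat_lit 1819481732) (nat_lit 380) (nat_lit 4352455743) (nat_lit 456) (nat_lit 4033578466) (nat_lit 147) (nat_lit 5) (nat_lit 152) (nat_lit 5) (nat_lit 153) (nat_lit 5) (nat_lit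 606) (nat_lit 491) (nat_lit 463)))) (XT.nd (nat_lit 156) (nat_lit 760) (nat_lit 0) (XT.nd (nat_lit 78) (nat_lit 304) (nat_lit 0) (XT.lf (nat_lit 0) (nat_lit 235119069) (nat_lit 456) (nat_lit 26153684) (nat_lit 76) (nat_lit 10044058452) (nat_lit 146) (nat_lit 5) (nat_lit 152) (nat_lit 5) (nat_lit 147) (nat_lit 5) (nat_lit 607) (nat_lit 491) (nat_lit 462)) (XT.lf (nat_lit 0) (nat_lit 4561315210) (nat_lit 380) (nat_lit 1935174729) (nat_lit 76) (nat_lit 3909598594) (nat_lit 142) (nat_lit 5) (nat_lit 147) (nat_lit 5) (nat_lit 143) (nat_lit 5) (nat_lit 608) (nat_lit 491) (nat_lit 461))) (XT.nd (nat_lit 78) (nat_lit 380) (nat_lit 0) (XT.lf (nat_lit 0) (nat_lit 6625795174) (nat_lit 380) (nat_lit 2338645223) (nat_lit 456) (nat_lit 1544614159) (nat_lit 137) (nat_lit 5) (nat_lit 142) (nat_lit 5) (nat_lit 143) (nat_lit 5) (nat_lit 609) (nat_lit 491) (nat_lit 460)) (XT.lf (nat_lit 0) (nat_lit 2806185019) (nat_lit 380) (nat_lit 5901567108) (nat_lit 76) (nat_lit 1905922289)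 (nat_lit 132) (nat_lit 5) (nat_lit 137) (nat_lit 5) (nat_lit 133) (nat_lit 5) (nat_lit 610) (nat_lit 491) (nat_lit 459))))) (XT.nd (nat_lit 234) (nat_lit 1216) (nat_lit 0) (XT.nd (nat_lit 78) (nat_lit 380) (nat_lit 0) (XT.lf (nat_lit 0) (nat_lit 2732905155) (nat_lit 304) (nat_lit 4495779930) (nat_lit 380) (nat_lit 3491391601) (nat_lit 128) (nat_lit 5) (nat_lit 132) (nat_lit 5) (nat_lit 133) (nat_lit 5) (nat_lit 611) (nat_lit 491) (nat_lit 458)) (XT.nd (nat_lit 78) (nat_lit 0) (nat_lit 0) (XT.lf (nat_lit 0) (nat_lit 705996835) (nat_lit 304) (nat_lit 183545885) (nat_lit 380) (nat_lit 9939138219) (nat_lit 123) (nat_lit 5) (nat_lit 127) (nat_lit 5) (nat_lit 128) (nat_lit 5) (nat_lit 612) (nat_lit 491) (nat_lit 457)) (XT.lf (nat_lit 0) (nat_lit 5338976612) (nat_lit 380) (nat_lit 1397520795) (nat_lit 76) (nat_lit 4201947161) (nat_lit 123) (nat_lit 5) (nat_lit 128) (nat_lit 5) (nat_lit 124) (nat_lit 5) (nat_lit 613) (nat_lit 491) (nat_lit 456)))) (XT.nd (nat_lit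 156) (nat_lit 608) (nat_lit 0) (XT.nd (nat_lit 78) (nat_lit 304) (nat_lit 0) (XT.lf (nat_lit 0) (nat_lit 7511613694) (nat_lit 304) (nat_lit 2363092674) (nat_lit 380) (nat_lit 1175752395) (nat_lit 119) (nat_lit 5) (nat_lit 123) (nat_lit 5) (nat_lit 124) (nat_lit 5) (nat_lit 614) (nat_lit 491) (nat_lit 455)) (XT.lf (nat_lit 0) (nat_lit 3298545100) (nat_lit 304) (nat_lit 5763585513) (nat_lit 76) (nat_lit 2102033452) (nat_lit 115) (nat_lit 5) (nat_lit 119) (nat_lit 5) (nat_lit 116) (nat_lit 5) (nat_lit 615) (nat_lit 491) (nat_lit 454))) (XT.nd (nat_lit 78) (nat_lit 304) (nat_lit 0) (XT.lf (nat_lit 0) (nat_lit 3217506646) (nat_lit 304) (nat_lit 4637212601) (nat_lit 380) (nat_lit 3425107464) (nat_lit 111) (nat_lit 5) (nat_lit 115) (nat_lit 5) (nat_lit 116) (nat_lit 5) (nat_lit 616) (nat_lit 491) (nat_lit 453)) (XT.lf (nat_lit 0) (nat_lit 976393344) (nat_lit 228) (nat_lit 106398249) (nat_lit 304) (nat_lit 10315007747) (nat_lit 107) (nat_lit 5) (nat_lit 110) (nat_lit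 5) (nat_lit 111) (nat_lit 5) (nat_lit 617) (nat_lit 491) (nat_lit 452)))))) (XT.nd (nat_lit 546) (nat_lit 1596) (nat_lit 0) (XT.nd (nat_lit 234) (nat_lit 836) (nat_lit 0) (XT.nd (nat_lit 78) (nat_lit 608) (nat_lit 0) (XT.lf (nat_lit 0) (nat_lit 5666812386) (nat_lit 304) (nat_lit 1352764462) (nat_lit 76) (nat_lit 4497466532) (nat_lit 107) (nat_lit 5) (nat_lit 111) (nat_lit 5) (nat_lit 108) (nat_lit 5) (nat_lit 618) (nat_lit 491) (nat_lit 451)) (XT.nd (nat_lit 78) (nat_lit 304) (nat_lit 0) (XT.lf (nat_lit 0) (nat_lit 7913541352) (nat_lit 304) (nat_lit 2430084061) (nat_lit 380) (nat_lit 1295025902) (nat_lit 103) (nat_lit 5) (nat_lit 107) (nat_lit 5) (nat_lit 108) (nat_lit 5) (nat_lit 619) (nat_lit 491) (nat_lit 450)) (XT.lf (nat_lit 0) (nat_lit 3316691680) (nat_lit 304) (nat_lit 6191654571) (nat_lit 76) (nat_lit 2253723963) (nat_lit 99) (nat_lit 5) (nat_lit 103) (nat_lit 5) (nat_lit 100) (nat_lit 5) (nat_lit 620) (nat_lit 491) (nat_lit 449)))) (XT.nd (nat_lit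 156) (nat_lit 228) (nat_lit 0) (XT.nd (nat_lit 78) (nat_lit 304) (nat_lit 0) (XT.lf (nat_lit 0) (nat_lit 3144187756) (nat_lit 304) (nat_lit 4870137021) (nat_lit 380) (nat_lit 3873242260) (nat_lit 95) (nat_lit 5) (nat_lit 99) (nat_lit 5) (nat_lit 100) (nat_lit 5) (nat_lit 621) (nat_lit 491) (nat_lit 448)) (XT.lf (nat_lit 0) (nat_lit 651873666) (nat_lit 228) (nat_lit 123587227) (nat_lit 304) (nat_lit 11240101619) (nat_lit 91) (nat_lit 5) (nat_lit 94) (nat_lit 5) (nat_lit 95) (nat_lit 5) (nat_lit 622) (nat_lit 491) (nat_lit 447))) (XT.nd (nat_lit 78) (nat_lit 228) (nat_lit 0) (XT.lf (nat_lit 0) (nat_lit 5504641690) (nat_lit 304) (nat_lit 1935460924) (nat_lit 76) (nat_lit 4704717023) (nat_lit 91) (nat_lit 5) (nat_lit 95) (nat_lit 5) (nat_lit 92) (nat_lit 5) (nat_lit 623) (nat_lit 491) (nat_lit 446)) (XT.lf (nat_lit 0) (nat_lit 7695761951) (nat_lit 228) (nat_lit 2634041230) (nat_lit 304) (nat_lit 1946831871) (nat_lit 88) (nat_lit 5) (nat_lit 91) (nat_lit 5) (nat_lit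 92) (nat_lit 5) (nat_lit 624) (nat_lit 491) (nat_lit 445))))) (XT.nd (nat_lit 312) (nat_lit 760) (nat_lit 0) (XT.nd (nat_lit 156) (nat_lit 304) (nat_lit 0) (XT.nd (nat_lit 78) (nat_lit 228) (nat_lit 0) (XT.lf (nat_lit 0) (nat_lit 2814920132) (nat_lit 304) (nat_lit 7328127921) (nat_lit 76) (nat_lit 2267435115) (nat_lit 84) (nat_lit 5) (nat_lit 88) (nat_lit 5) (nat_lit 85) (nat_lit 5) (nat_lit 625) (nat_lit 491) (nat_lit 444)) (XT.lf (nat_lit 0) (nat_lit 2369127247) (nat_lit 228) (nat_lit 5291386288) (nat_lit 304) (nat_lit 4885944877) (nat_lit 81) (nat_lit 5) (nat_lit 84) (nat_lit 5) (nat_lit 85) (nat_lit 5) (nat_lit 626) (nat_lit 491) (nat_lit 443))) (XT.nd (nat_lit 78) (nat_lit 304) (nat_lit 0) (XT.lf (nat_lit 0) (nat_lit 12274274248) (nat_lit 228) (nat_lit 329209384) (nat_lit 304) (nat_lit 81661238) (nat_lit 81) (nat_lit 5) (nat_lit 84) (nat_lit 5) (nat_lit 85) (nat_lit 5) (nat_lit 627) (nat_lit 491) (nat_lit 442)) (XT.lf (nat_lit 0) (nat_lit 4800618539)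 (nat_lit 304) (nat_lit 3296138405) (nat_lit 76) (nat_lit 4728321183) (nat_lit 77) (nat_lit 5) (nat_lit 81) (nat_lit 5) (nat_lit 78) (nat_lit 5) (nat_lit 628) (nat_lit 491) (nat_lit 441)))) (XT.nd (nat_lit 156) (nat_lit 228) (nat_lit 0) (XT.nd (nat_lit 78) (nat_lit 304) (nat_lit 0) (XT.lf (nat_lit 0) (nat_lit 6706054211) (nat_lit 228) (nat_lit 3073984137) (nat_lit 304) (nat_lit 3187750095) (nat_lit 74) (nat_lit 5) (nat_lit 77) (nat_lit 5) (nat_lit 78) (nat_lit 5) (nat_lit 629) (nat_lit 491) (nat_lit 440)) (XT.lf (nat_lit 0) (nat_lit 1735316981) (nat_lit 304) (nat_lit 9332861836) (nat_lit 76) (nat_lit 2044698006) (nat_lit 70) (nat_lit 5) (nat_lit 74) (nat_lit 5) (nat_lit 71) (nat_lit 5) (nat_lit 630) (nat_lit 491) (nat_lit 439))) (XT.nd (nat_lit 78) (nat_lit 0) (nat_lit 0) (XT.lf (nat_lit 0) (nat_lit 730532014) (nat_lit 228) (nat_lit 6003392016) (nat_lit 304) (nat_lit 6526127161) (nat_lit 67) (nat_lit 5) (nat_lit 70) (nat_lit 5) (nat_lit 71) (nat_lit 5) (nat_lit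 631) (nat_lit 491) (nat_lit 438)) (XT.lf (nat_lit 0) (nat_lit 11037506339) (nat_lit 228) (nat_lit 810337744) (nat_lit 304) (nat_lit 1562019023) (nat_lit 67) (nat_lit 5) (nat_lit 70) (nat_lit 5) (nat_lit 71) (nat_lit 5) (nat_lit 632) (nat_lit 491) (nat_lit 437))))))) (XT.nd (nat_lit 1170) (nat_lit 380) (nat_lit 0) (XT.nd (nat_lit 546) (nat_lit 1140) (nat_lit 0) (XT.nd (nat_lit 234) (nat_lit 684) (nat_lit 0) (XT.nd (nat_lit 78) (nat_lit 456) (nat_lit 0) (XT.lf (nat_lit 0) (nat_lit 3490024360) (nat_lit 228) (nat_lit 5604703498) (nat_lit 76) (nat_lit 4466798095) (nat_lit 64) (nat_lit 5) (nat_lit 67) (nat_lit 5) (nat_lit 65) (nat_lit 5) (nat_lit 633) (nat_lit 491) (nat_lit 436)) (XT.nd (nat_lit 78) (nat_lit 228) (nat_lit 0) (XT.lf (nat_lit 0) (nat_lit 4772302216) (nat_lit 228) (nat_lit 3855761675) (nat_lit 304) (nat_lit 5087835078) (nat_lit 61) (nat_lit 5) (nat_lit 64) (nat_lit 5) (nat_lit 65) (nat_lit 5) (nat_lit 634) (nat_lit 491) (nat_lit 435)) (XT.lf (nat_lit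 0) (nat_lit 6417014) (nat_lit 228) (nat_lit 12386837621) (nat_lit 76) (nat_lit 1479889121) (nat_lit 58) (nat_lit 5) (nat_lit 61) (nat_lit 5) (nat_lit 59) (nat_lit 5) (nat_lit 635) (nat_lit 491) (nat_lit 434)))) (XT.nd (nat_lit 156) (nat_lit 456) (nat_lit 0) (XT.nd (nat_lit 78) (nat_lit 228) (nat_lit 0) (XT.lf (nat_lit 0) (nat_lit 5174117820) (nat_lit 228) (nat_lit 1929435699) (nat_lit 76) (nat_lit 6928514291) (nat_lit 58) (nat_lit 5) (nat_lit 61) (nat_lit 5) (nat_lit 59) (nat_lit 5) (nat_lit 636) (nat_lit 491) (nat_lit 433)) (XT.lf (nat_lit 0) (nat_lit 8770259457) (nat_lit 228) (nat_lit 1686441365) (nat_lit 304) (nat_lit 3737239721) (nat_lit 55) (nat_lit 5) (nat_lit 58) (nat_lit 5) (nat_lit 59) (nat_lit 5) (nat_lit 637) (nat_lit 491) (nat_lit 432))) (XT.nd (nat_lit 78) (nat_lit 228) (nat_lit 0) (XT.lf (nat_lit 0) (nat_lit 1493749547) (nat_lit 228) (nat_lit 9054347669) (nat_lit 76) (nat_lit 3810214252) (nat_lit 52) (nat_lit 5) (nat_lit 55) (nat_lit 5) (nat_lit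 53) (nat_lit 5) (nat_lit 638) (nat_lit 491) (nat_lit 431)) (XT.lf (nat_lit 0) (nat_lit 1698487548) (nat_lit 228) (nat_lit 5094482559) (nat_lit 304) (nat_lit 7732233297) (nat_lit 49) (nat_lit 5) (nat_lit 52) (nat_lit 5) (nat_lit 53) (nat_lit 5) (nat_lit 639) (nat_lit 491) (nat_lit 430))))) (XT.nd (nat_lit 312) (nat_lit 608) (nat_lit 0) (XT.nd (nat_lit 156) (nat_lit 304) (nat_lit 0) (XT.nd (nat_lit 78) (nat_lit 228) (nat_lit 0) (XT.lf (nat_lit 0) (nat_lit 12217269629) (nat_lit 304) (nat_lit 1990734963) (nat_lit 76) (nat_lit 487047401) (nat_lit 49) (nat_lit 5) (nat_lit 53) (nat_lit 5) (nat_lit 50) (nat_lit 4) (nat_lit 640) (nat_lit 491) (nat_lit 429)) (XT.lf (nat_lit 0) (nat_lit 2892664251) (nat_lit 228) (nat_lit 5819801177) (nat_lit 76) (nat_lit 6154484568) (nat_lit 46) (nat_lit 5) (nat_lit 49) (nat_lit 5) (nat_lit 47) (nat_lit 5) (nat_lit 641) (nat_lit 491) (nat_lit 428))) (XT.nd (nat_lit 78) (nat_lit 152) (nat_lit 0) (XT.lf (nat_lit 0) (nat_lit 5262645142)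 (nat_lit 152) (nat_lit 3078177551) (nat_lit 228) (nat_lit 6701066759) (nat_lit 44) (nat_lit 5) (nat_lit 46) (nat_lit 5) (nat_lit 47) (nat_lit 5) (nat_lit 642) (nat_lit 491) (nat_lit 427)) (XT.lf (nat_lit 0) (nat_lit 1345396384) (nat_lit 152) (nat_lit 12573867088) (nat_lit 228) (nat_lit 1300638493) (nat_lit 42) (nat_lit 5) (nat_lit 44) (nat_lit 5) (nat_lit 45) (nat_lit 4) (nat_lit 643) (nat_lit 491) (nat_lit 426)))) (XT.nd (nat_lit 156) (nat_lit 380) (nat_lit 0) (XT.nd (nat_lit 78) (nat_lit 152) (nat_lit 0) (XT.lf (nat_lit 0) (nat_lit 4195052787) (nat_lit 228) (nat_lit 2704011214) (nat_lit 76) (nat_lit 8501016146) (nat_lit 41) (nat_lit 5) (nat_lit 44) (nat_lit 5) (nat_lit 42) (nat_lit 5) (nat_lit 644) (nat_lit 491) (nat_lit 425)) (XT.lf (nat_lit 0) (nat_lit 8716381358) (nat_lit 152) (nat_lit 1080329332) (nat_lit 228) (nat_lit 5786710506) (nat_lit 39) (nat_lit 5) (nat_lit 41) (nat_lit 5) (nat_lit 42) (nat_lit 5) (nat_lit 645) (nat_lit 491) (nat_lit 424))) (XT.nd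 (nat_lit 78) (nat_lit 228) (nat_lit 0) (XT.lf (nat_lit 0) (nat_lit 4580890146) (nat_lit 152) (nat_lit 10966001225) (nat_lit 228) (nat_lit 222808503) (nat_lit 37) (nat_lit 5) (nat_lit 39) (nat_lit 5) (nat_lit 40) (nat_lit 4) (nat_lit 646) (nat_lit 491) (nat_lit 423)) (XT.lf (nat_lit 0) (nat_lit 273439182) (nat_lit 152) (nat_lit 5119750374) (nat_lit 228) (nat_lit 10565560602) (nat_lit 34) (nat_lit 5) (nat_lit 36) (nat_lit 5) (nat_lit 37) (nat_lit 5) (nat_lit 647) (nat_lit 491) (nat_lit 422)))))) (XT.nd (nat_lit 75894) (nat_lit 0) (nat_lit 16188) (XT.nd (nat_lit 75582) (nat_lit 0) (nat_lit 20444) (XT.nd (nat_lit 78) (nat_lit 380) (nat_lit 0) (XT.lf (nat_lit 0) (nat_lit 11156689522) (nat_lit 228) (nat_lit 4120392660) (nat_lit 76) (nat_lit 873707070) (nat_lit 34) (nat_lit 5) (nat_lit 37) (nat_lit 5) (nat_lit 35) (nat_lit 4) (nat_lit 648) (nat_lit 491) (nat_lit 421)) (XT.nd (nat_lit 78) (nat_lit 152) (nat_lit 0) (XT.lf (nat_lit 0) (nat_lit 721648168) (nat_lit 228)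 (nat_lit 8686051121) (nat_lit 76) (nat_lit 6938043114) (nat_lit 31) (nat_lit 5) (nat_lit 34) (nat_lit 5) (nat_lit 32) (nat_lit 5) (nat_lit 649) (nat_lit 491) (nat_lit 420)) (XT.lf (nat_lit 0) (nat_lit 3116857361) (nat_lit 152) (nat_lit 3374107664) (nat_lit 228) (nat_lit 10052847406) (nat_lit 29) (nat_lit 5) (nat_lit 31) (nat_lit 5) (nat_lit 32) (nat_lit 5) (nat_lit 650) (nat_lit 491) (nat_lit 419)))) (XT.nd (nat_lit 156) (nat_lit 684) (nat_lit 0) (XT.nd (nat_lit 78) (nat_lit 684) (nat_lit 0) (XT.lf (nat_lit 0) (nat_lit 346396771) (nat_lit 684) (nat_lit 3281037743) (nat_lit 0) (nat_lit 346396771) (nat_lit 316) (nat_lit 5) (nat_lit 325) (nat_lit 4) (nat_lit 316) (nat_lit 4) (nat_lit 576) (nat_lit 492) (nat_lit 492)) (XT.lf (nat_lit 0) (nat_lit 19465806) (nat_lit 684) (nat_lit 4610394442) (nat_lit 684) (nat_lit 3372740400) (nat_lit 307) (nat_lit 4) (nat_lit 316) (nat_lit 5) (nat_lit 316) (nat_lit 4) (nat_lit 577) (nat_lit 492) (nat_lit 491))) (XT.nd (nat_lit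 78) (nat_lit 608) (nat_lit 0) (XT.lf (nat_lit 0) (nat_lit 555066655) (nat_lit 760) (nat_lit 1329805712) (nat_lit 76) (nat_lit 6174178063) (nat_lit 306) (nat_lit 5) (nat_lit 316) (nat_lit 5) (nat_lit 307) (nat_lit 4) (nat_lit 578) (nat_lit 492) (nat_lit 490)) (XT.lf (nat_lit 0) (nat_lit 4490297983) (nat_lit 684) (nat_lit 2705360364) (nat_lit 0) (nat_lit 921048194) (nat_lit 298) (nat_lit 5) (nat_lit 307) (nat_lit 4) (nat_lit 298) (nat_lit 4) (nat_lit 579) (nat_lit 492) (nat_lit 489))))) (XT.nd (nat_lit 312) (nat_lit 2280) (nat_lit 0) (XT.nd (nat_lit 156) (nat_lit 684) (nat_lit 0) (XT.nd (nat_lit 78) (nat_lit 608) (nat_lit 0) (XT.lf (nat_lit 0) (nat_lit 305623311) (nat_lit 684) (nat_lit 4095291724) (nat_lit 76) (nat_lit 3774937372) (nat_lit 289) (nat_lit 5) (nat_lit 298) (nat_lit 5) (nat_lit 290) (nat_lit 4) (nat_lit 580) (nat_lit 492) (nat_lit 488)) (XT.lf (nat_lit 0) (nat_lit 2725965167) (nat_lit 608) (nat_lit 1511459277) (nat_lit 684) (nat_lit 3998887184)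 (nat_lit 281) (nat_lit 5) (nat_lit 289) (nat_lit 5) (nat_lit 290) (nat_lit 4) (nat_lit 581) (nat_lit 492) (nat_lit 487))) (XT.nd (nat_lit 78) (nat_lit 76) (nat_lit 0) (XT.lf (nat_lit 0) (nat_lit 1360782475) (nat_lit 608) (nat_lit 6867149621) (nat_lit 608) (nat_lit 70450031) (nat_lit 273) (nat_lit 4) (nat_lit 281) (nat_lit 5) (nat_lit 281) (nat_lit 4) (nat_lit 582) (nat_lit 492) (nat_lit 486)) (XT.lf (nat_lit 0) (nat_lit 3866688067) (nat_lit 684) (nat_lit 42315500) (nat_lit 76) (nat_lit 4452547444) (nat_lit 272) (nat_lit 5) (nat_lit 281) (nat_lit 5) (nat_lit 273) (nat_lit 4) (nat_lit 583) (nat_lit 492) (nat_lit 485)))) (XT.nd (nat_lit 156) (nat_lit 1140) (nat_lit 0) (XT.nd (nat_lit 78) (nat_lit 608) (nat_lit 0) (XT.lf (nat_lit 0) (nat_lit 6994320012) (nat_lit 532) (nat_lit 868530951) (nat_lit 608) (nat_lit 563501792) (nat_lit 265) (nat_lit 5) (nat_lit 272) (nat_lit 5) (nat_lit 273) (nat_lit 4) (nat_lit 584) (nat_lit 492) (nat_lit 484)) (XT.lf (nat_lit 0) (nat_lit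 3389024990) (nat_lit 608) (nat_lit 2863920815) (nat_lit 76) (nat_lit 2239305569) (nat_lit 257) (nat_lit 5) (nat_lit 265) (nat_lit 5) (nat_lit 258) (nat_lit 4) (nat_lit 585) (nat_lit 492) (nat_lit 483))) (XT.nd (nat_lit 78) (nat_lit 608) (nat_lit 0) (XT.lf (nat_lit 0) (nat_lit 4247572352) (nat_lit 532) (nat_lit 3145103595) (nat_lit 608) (nat_lit 1167128256) (nat_lit 250) (nat_lit 5) (nat_lit 257) (nat_lit 5) (nat_lit 258) (nat_lit 4) (nat_lit 586) (nat_lit 492) (nat_lit 482)) (XT.lf (nat_lit 0) (nat_lit 2785367639) (nat_lit 608) (nat_lit 5787655301) (nat_lit 76) (nat_lit 55817881) (nat_lit 242) (nat_lit 5) (nat_lit 250) (nat_lit 5) (nat_lit 243) (nat_lit 4) (nat_lit 587) (nat_lit 492) (nat_lit 481))))))))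
noncomputable def xc24 : XT := (XT.nd (nat_lit 2262) (nat_lit 5472) (nat_lit 0) (XT.nd (nat_lit 1092) (nat_lit 4712) (nat_lit 0) (XT.nd (nat_lit 546) (nat_lit 2204) (nat_lit 0) (XT.nd (nat_lit 234) (nat_lit 1976) (nat_lit 0) (XT.nd (nat_lit 78) (nat_lit 608) (nat_lit 0) (XT.lf (nat_lit 0) (nat_lit 1397642186) (nat_lit 456) (nat_lit 5400048558) (nat_lit 532) (nat_lit 1901487963) (nat_lit 236) (nat_lit 5) (nat_lit 242) (nat_lit 5) (nat_lit 243) (nat_lit 4) (nat_lit 588) (nat_lit 492) (nat_lit 480)) (XT.nd (nat_lit 78) (nat_lit 532) (nat_lit 0) (XT.lf (nat_lit 0) (nat_lit 2068233897) (nat_lit 532) (nat_lit 68693120) (nat_lit 76) (nat_lit 6634190098) (nat_lit 235) (nat_lit 5) (nat_lit 242) (nat_lit 5) (nat_lit 236) (nat_lit 5) (nat_lit 589) (nat_lit 492) (nat_lit 479)) (XT.lf (nat_lit 0) (nat_lit 6086116865) (nat_lit 608) (nat_lit 1548341191) (nat_lit 76) (nat_lit 1209903069) (nat_lit 228) (nat_lit 5) (nat_lit 236) (nat_lit 5) (nat_lit 229) (nat_lit 4) (nat_lit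 590) (nat_lit 492) (nat_lit 478)))) (XT.nd (nat_lit 156) (nat_lit 988) (nat_lit 0) (XT.nd (nat_lit 78) (nat_lit 456) (nat_lit 0) (XT.lf (nat_lit 0) (nat_lit 1240607850) (nat_lit 532) (nat_lit 3063073330) (nat_lit 76) (nat_lit 4615388892) (nat_lit 221) (nat_lit 5) (nat_lit 228) (nat_lit 5) (nat_lit 222) (nat_lit 5) (nat_lit 591) (nat_lit 492) (nat_lit 477)) (XT.lf (nat_lit 0) (nat_lit 4384960468) (nat_lit 456) (nat_lit 876007231) (nat_lit 532) (nat_lit 3734374191) (nat_lit 215) (nat_lit 5) (nat_lit 221) (nat_lit 5) (nat_lit 222) (nat_lit 5) (nat_lit 592) (nat_lit 492) (nat_lit 476))) (XT.nd (nat_lit 78) (nat_lit 456) (nat_lit 0) (XT.lf (nat_lit 0) (nat_lit 281134304) (nat_lit 532) (nat_lit 6192654824) (nat_lit 76) (nat_lit 2599388569) (nat_lit 208) (nat_lit 5) (nat_lit 215) (nat_lit 5) (nat_lit 209) (nat_lit 5) (nat_lit 593) (nat_lit 492) (nat_lit 475)) (XT.lf (nat_lit 0) (nat_lit 1329279567) (nat_lit 456) (nat_lit 2983432001) (nat_lit 532) (nat_lit 4839652183)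 (nat_lit 202) (nat_lit 5) (nat_lit 208) (nat_lit 5) (nat_lit 209) (nat_lit 5) (nat_lit 594) (nat_lit 492) (nat_lit 474))))) (XT.nd (nat_lit 234) (nat_lit 1292) (nat_lit 0) (XT.nd (nat_lit 78) (nat_lit 912) (nat_lit 0) (XT.lf (nat_lit 0) (nat_lit 8411044043) (nat_lit 532) (nat_lit 240342265) (nat_lit 76) (nat_lit 582027150) (nat_lit 202) (nat_lit 5) (nat_lit 209) (nat_lit 5) (nat_lit 203) (nat_lit 4) (nat_lit 595) (nat_lit 492) (nat_lit 473)) (XT.nd (nat_lit 78) (nat_lit 456) (nat_lit 0) (XT.lf (nat_lit 0) (nat_lit 3242434234) (nat_lit 456) (nat_lit 1852617115) (nat_lit 76) (nat_lit 4220407202) (nat_lit 196) (nat_lit 5) (nat_lit 202) (nat_lit 5) (nat_lit 197) (nat_lit 5) (nat_lit 596) (nat_lit 492) (nat_lit 472)) (XT.lf (nat_lit 0) (nat_lit 5908209866) (nat_lit 456) (nat_lit 1451211781) (nat_lit 532) (nat_lit 2039978463) (nat_lit 190) (nat_lit 5) (nat_lit 196) (nat_lit 5) (nat_lit 197) (nat_lit 5) (nat_lit 597) (nat_lit 492) (nat_lit 471)))) (XT.nd (nat_lit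 156) (nat_lit 456) (nat_lit 0) (XT.nd (nat_lit 78) (nat_lit 380) (nat_lit 0) (XT.lf (nat_lit 0) (nat_lit 2044053449) (nat_lit 456) (nat_lit 5180519394) (nat_lit 76) (nat_lit 2260230106) (nat_lit 184) (nat_lit 5) (nat_lit 190) (nat_lit 5) (nat_lit 185) (nat_lit 5) (nat_lit 598) (nat_lit 492) (nat_lit 470)) (XT.lf (nat_lit 0) (nat_lit 2654464870) (nat_lit 380) (nat_lit 3520902201) (nat_lit 456) (nat_lit 3396420897) (nat_lit 179) (nat_lit 5) (nat_lit 184) (nat_lit 5) (nat_lit 185) (nat_lit 5) (nat_lit 599) (nat_lit 492) (nat_lit 469))) (XT.nd (nat_lit 78) (nat_lit 0) (nat_lit 0) (XT.lf (nat_lit 0) (nat_lit 704972825) (nat_lit 456) (nat_lit 8686921708) (nat_lit 76) (nat_lit 268810832) (nat_lit 173) (nat_lit 5) (nat_lit 179) (nat_lit 5) (nat_lit 174) (nat_lit 5) (nat_lit 600) (nat_lit 492) (nat_lit 468)) (XT.lf (nat_lit 0) (nat_lit 4855990336) (nat_lit 456) (nat_lit 769261752) (nat_lit 76) (nat_lit 4125440550) (nat_lit 173) (nat_lit 5) (nat_lit 179) (nat_lit 5)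 (nat_lit 174) (nat_lit 5) (nat_lit 601) (nat_lit 492) (nat_lit 467)))))) (XT.nd (nat_lit 546) (nat_lit 2356) (nat_lit 0) (XT.nd (nat_lit 234) (nat_lit 1140) (nat_lit 0) (XT.nd (nat_lit 78) (nat_lit 836) (nat_lit 0) (XT.lf (nat_lit 0) (nat_lit 7315290594) (nat_lit 380) (nat_lit 1766339160) (nat_lit 456) (nat_lit 761019843) (nat_lit 168) (nat_lit 5) (nat_lit 173) (nat_lit 5) (nat_lit 174) (nat_lit 5) (nat_lit 602) (nat_lit 492) (nat_lit 466)) (XT.nd (nat_lit 78) (nat_lit 380) (nat_lit 0) (XT.lf (nat_lit 0) (nat_lit 3410141749) (nat_lit 456) (nat_lit 4351574066) (nat_lit 76) (nat_lit 2174280632) (nat_lit 162) (nat_lit 5) (nat_lit 168) (nat_lit 5) (nat_lit 163) (nat_lit 5) (nat_lit 603) (nat_lit 492) (nat_lit 465)) (XT.lf (nat_lit 0) (nat_lit 3807014198) (nat_lit 380) (nat_lit 3845610389) (nat_lit 456) (nat_lit 2378525139) (nat_lit 157) (nat_lit 5) (nat_lit 162) (nat_lit 5) (nat_lit 163) (nat_lit 5) (nat_lit 604) (nat_lit 492) (nat_lit 464)))) (XT.nd (nat_lit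 156) (nat_lit 380) (nat_lit 0) (XT.nd (nat_lit 78) (nat_lit 380) (nat_lit 0) (XT.lf (nat_lit 0) (nat_lit 1815611844) (nat_lit 380) (nat_lit 8143422195) (nat_lit 76) (nat_lit 169170425) (nat_lit 152) (nat_lit 5) (nat_lit 157) (nat_lit 5) (nat_lit 153) (nat_lit 5) (nat_lit 605) (nat_lit 492) (nat_lit 463)) (XT.lf (nat_lit 0) (nat_lit 87174896) (nat_lit 380) (nat_lit 5987763702) (nat_lit 456) (nat_lit 4151685898) (nat_lit 147) (nat_lit 5) (nat_lit 152) (nat_lit 5) (nat_lit 153) (nat_lit 5) (nat_lit 606) (nat_lit 492) (nat_lit 462))) (XT.nd (nat_lit 78) (nat_lit 304) (nat_lit 0) (XT.lf (nat_lit 0) (nat_lit 91428761) (nat_lit 456) (nat_lit 1822616295) (nat_lit 76) (nat_lit 8412953512) (nat_lit 146) (nat_lit 5) (nat_lit 152) (nat_lit 5) (nat_lit 147) (nat_lit 5) (nat_lit 607) (nat_lit 492) (nat_lit 461)) (XT.lf (nat_lit 0) (nat_lit 4368006368) (nat_lit 380) (nat_lit 3810562166) (nat_lit 76) (nat_lit 2250180550) (nat_lit 142) (nat_lit 5) (nat_lit 147) (nat_lit 5)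 (nat_lit 143) (nat_lit 5) (nat_lit 608) (nat_lit 492) (nat_lit 460))))) (XT.nd (nat_lit 312) (nat_lit 1216) (nat_lit 0) (XT.nd (nat_lit 156) (nat_lit 380) (nat_lit 0) (XT.nd (nat_lit 78) (nat_lit 380) (nat_lit 0) (XT.lf (nat_lit 0) (nat_lit 4681817802) (nat_lit 380) (nat_lit 4050230853) (nat_lit 456) (nat_lit 1800448911) (nat_lit 137) (nat_lit 5) (nat_lit 142) (nat_lit 5) (nat_lit 143) (nat_lit 5) (nat_lit 609) (nat_lit 492) (nat_lit 459)) (XT.lf (nat_lit 0) (nat_lit 2502774016) (nat_lit 380) (nat_lit 7950135390) (nat_lit 76) (nat_lit 185260643) (nat_lit 132) (nat_lit 5) (nat_lit 137) (nat_lit 5) (nat_lit 133) (nat_lit 5) (nat_lit 610) (nat_lit 492) (nat_lit 458))) (XT.nd (nat_lit 78) (nat_lit 76) (nat_lit 0) (XT.lf (nat_lit 0) (nat_lit 613243447) (nat_lit 304) (nat_lit 6272004124) (nat_lit 380) (nat_lit 3860126033) (nat_lit 128) (nat_lit 5) (nat_lit 132) (nat_lit 5) (nat_lit 133) (nat_lit 5) (nat_lit 611) (nat_lit 492) (nat_lit 457)) (XT.lf (nat_lit 0) (nat_lit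 494858884) (nat_lit 380) (nat_lit 1489184783) (nat_lit 76) (nat_lit 8870598505) (nat_lit 127) (nat_lit 5) (nat_lit 132) (nat_lit 5) (nat_lit 128) (nat_lit 5) (nat_lit 612) (nat_lit 492) (nat_lit 456)))) (XT.nd (nat_lit 156) (nat_lit 608) (nat_lit 0) (XT.nd (nat_lit 78) (nat_lit 304) (nat_lit 0) (XT.lf (nat_lit 0) (nat_lit 4896662021) (nat_lit 380) (nat_lit 3670376707) (nat_lit 76) (nat_lit 2398320399) (nat_lit 123) (nat_lit 5) (nat_lit 128) (nat_lit 5) (nat_lit 124) (nat_lit 5) (nat_lit 613) (nat_lit 492) (nat_lit 455)) (XT.lf (nat_lit 0) (nat_lit 5165357243) (nat_lit 304) (nat_lit 4226233848) (nat_lit 380) (nat_lit 1686598943) (nat_lit 119) (nat_lit 5) (nat_lit 123) (nat_lit 5) (nat_lit 124) (nat_lit 5) (nat_lit 614) (nat_lit 492) (nat_lit 454))) (XT.nd (nat_lit 78) (nat_lit 304) (nat_lit 0) (XT.lf (nat_lit 0) (nat_lit 2740676271) (nat_lit 304) (nat_lit 8225307550) (nat_lit 76) (nat_lit 227052962) (nat_lit 115) (nat_lit 5) (nat_lit 119) (nat_lit 5) (nat_lit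 116) (nat_lit 5) (nat_lit 615) (nat_lit 492) (nat_lit 453)) (XT.lf (nat_lit 0) (nat_lit 679698278) (nat_lit 304) (nat_lit 6575279314) (nat_lit 380) (nat_lit 4054559951) (nat_lit 111) (nat_lit 5) (nat_lit 115) (nat_lit 5) (nat_lit 116) (nat_lit 5) (nat_lit 616) (nat_lit 492) (nat_lit 452))))))) (XT.nd (nat_lit 1092) (nat_lit 2584) (nat_lit 0) (XT.nd (nat_lit 546) (nat_lit 1368) (nat_lit 0) (XT.nd (nat_lit 234) (nat_lit 912) (nat_lit 0) (XT.nd (nat_lit 78) (nat_lit 532) (nat_lit 0) (XT.lf (nat_lit 0) (nat_lit 429913936) (nat_lit 380) (nat_lit 1642702930) (nat_lit 76) (nat_lit 9355609285) (nat_lit 110) (nat_lit 5) (nat_lit 115) (nat_lit 5) (nat_lit 111) (nat_lit 5) (nat_lit 617) (nat_lit 492) (nat_lit 451)) (XT.nd (nat_lit 78) (nat_lit 304) (nat_lit 0) (XT.lf (nat_lit 0) (nat_lit 4965055864) (nat_lit 304) (nat_lit 4054462846) (nat_lit 76) (nat_lit 2528929678) (nat_lit 107) (nat_lit 5) (nat_lit 111) (nat_lit 5) (nat_lit 108) (nat_lit 5) (nat_lit 618) (nat_lit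 492) (nat_lit 450)) (XT.lf (nat_lit 0) (nat_lit 5133255430) (nat_lit 304) (nat_lit 4465822745) (nat_lit 380) (nat_lit 2071834570) (nat_lit 103) (nat_lit 5) (nat_lit 107) (nat_lit 5) (nat_lit 108) (nat_lit 5) (nat_lit 619) (nat_lit 492) (nat_lit 449)))) (XT.nd (nat_lit 156) (nat_lit 304) (nat_lit 0) (XT.nd (nat_lit 78) (nat_lit 304) (nat_lit 0) (XT.lf (nat_lit 0) (nat_lit 2493145773) (nat_lit 304) (nat_lit 9098947408) (nat_lit 76) (nat_lit 203478422) (nat_lit 99) (nat_lit 5) (nat_lit 103) (nat_lit 5) (nat_lit 100) (nat_lit 5) (nat_lit 620) (nat_lit 492) (nat_lit 448)) (XT.lf (nat_lit 0) (nat_lit 155422040) (nat_lit 304) (nat_lit 6991361862) (nat_lit 380) (nat_lit 4775164995) (nat_lit 95) (nat_lit 5) (nat_lit 99) (nat_lit 5) (nat_lit 100) (nat_lit 5) (nat_lit 621) (nat_lit 492) (nat_lit 447))) (XT.nd (nat_lit 78) (nat_lit 304) (nat_lit 0) (XT.lf (nat_lit 0) (nat_lit 9633384463) (nat_lit 304) (nat_lit 2271920584) (nat_lit 380) (nat_lit 145313619) (nat_lit 95)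 (nat_lit 5) (nat_lit 99) (nat_lit 5) (nat_lit 100) (nat_lit 5) (nat_lit 622) (nat_lit 492) (nat_lit 446)) (XT.lf (nat_lit 0) (nat_lit 4531367219) (nat_lit 304) (nat_lit 5099486637) (nat_lit 76) (nat_lit 2550129460) (nat_lit 91) (nat_lit 5) (nat_lit 95) (nat_lit 5) (nat_lit 92) (nat_lit 5) (nat_lit 623) (nat_lit 492) (nat_lit 445))))) (XT.nd (nat_lit 234) (nat_lit 836) (nat_lit 0) (XT.nd (nat_lit 78) (nat_lit 304) (nat_lit 0) (XT.lf (nat_lit 0) (nat_lit 4447550008) (nat_lit 228) (nat_lit 4863919359) (nat_lit 304) (nat_lit 3002231080) (nat_lit 88) (nat_lit 5) (nat_lit 91) (nat_lit 5) (nat_lit 92) (nat_lit 5) (nat_lit 624) (nat_lit 492) (nat_lit 444)) (XT.nd (nat_lit 78) (nat_lit 0) (nat_lit 0) (XT.lf (nat_lit 0) (nat_lit 1712811436) (nat_lit 304) (nat_lit 10715640414) (nat_lit 76) (nat_lit 20445292) (nat_lit 84) (nat_lit 5) (nat_lit 88) (nat_lit 5) (nat_lit 85) (nat_lit 5) (nat_lit 625) (nat_lit 492) (nat_lit 443)) (XT.lf (nat_lit 0) (nat_lit 6519183105) (nat_lit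 304) (nat_lit 1091173654) (nat_lit 76) (nat_lit 4975300560) (nat_lit 84) (nat_lit 5) (nat_lit 88) (nat_lit 5) (nat_lit 85) (nat_lit 5) (nat_lit 626) (nat_lit 492) (nat_lit 442)))) (XT.nd (nat_lit 156) (nat_lit 304) (nat_lit 0) (XT.nd (nat_lit 78) (nat_lit 304) (nat_lit 0) (XT.lf (nat_lit 0) (nat_lit 8758029796) (nat_lit 228) (nat_lit 2673303217) (nat_lit 304) (nat_lit 1293627657) (nat_lit 81) (nat_lit 5) (nat_lit 84) (nat_lit 5) (nat_lit 85) (nat_lit 5) (nat_lit 627) (nat_lit 492) (nat_lit 441)) (XT.lf (nat_lit 0) (nat_lit 3542060518) (nat_lit 304) (nat_lit 6958338117) (nat_lit 76) (nat_lit 2365902874) (nat_lit 77) (nat_lit 5) (nat_lit 81) (nat_lit 5) (nat_lit 78) (nat_lit 5) (nat_lit 628) (nat_lit 492) (nat_lit 440))) (XT.nd (nat_lit 78) (nat_lit 76) (nat_lit 0) (XT.lf (nat_lit 0) (nat_lit 2953620237) (nat_lit 228) (nat_lit 5520244565) (nat_lit 304) (nat_lit 4536099794) (nat_lit 74) (nat_lit 5) (nat_lit 77) (nat_lit 5) (nat_lit 78) (nat_lit 5) (nat_lit 629)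 (nat_lit 492) (nat_lit 439)) (XT.lf (nat_lit 0) (nat_lit 343353664) (nat_lit 304) (nat_lit 82934779) (nat_lit 76) (nat_lit 12730166012) (nat_lit 73) (nat_lit 5) (nat_lit 77) (nat_lit 5) (nat_lit 74) (nat_lit 5) (nat_lit 630) (nat_lit 492) (nat_lit 438)))))) (XT.nd (nat_lit 546) (nat_lit 1216) (nat_lit 0) (XT.nd (nat_lit 234) (nat_lit 684) (nat_lit 0) (XT.nd (nat_lit 78) (nat_lit 456) (nat_lit 0) (XT.lf (nat_lit 0) (nat_lit 5310761577) (nat_lit 304) (nat_lit 3225053078) (nat_lit 76) (nat_lit 4768438586) (nat_lit 70) (nat_lit 5) (nat_lit 74) (nat_lit 5) (nat_lit 71) (nat_lit 5) (nat_lit 631) (nat_lit 492) (nat_lit 437)) (XT.nd (nat_lit 78) (nat_lit 228) (nat_lit 0) (XT.lf (nat_lit 0) (nat_lit 6998197690) (nat_lit 228) (nat_lit 3382315819) (nat_lit 304) (nat_lit 3074435434) (nat_lit 67) (nat_lit 5) (nat_lit 70) (nat_lit 5) (nat_lit 71) (nat_lit 5) (nat_lit 632) (nat_lit 492) (nat_lit 436)) (XT.lf (nat_lit 0) (nat_lit 1930663201) (nat_lit 228) (nat_lit 9803546967)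 (nat_lit 76) (nat_lit 1873934029) (nat_lit 64) (nat_lit 5) (nat_lit 67) (nat_lit 5) (nat_lit 65) (nat_lit 5) (nat_lit 633) (nat_lit 492) (nat_lit 435)))) (XT.nd (nat_lit 156) (nat_lit 456) (nat_lit 0) (XT.nd (nat_lit 78) (nat_lit 0) (nat_lit 0) (XT.lf (nat_lit 0) (nat_lit 476686835) (nat_lit 228) (nat_lit 6541545125) (nat_lit 304) (nat_lit 6745295070) (nat_lit 61) (nat_lit 5) (nat_lit 64) (nat_lit 5) (nat_lit 65) (nat_lit 5) (nat_lit 634) (nat_lit 492) (nat_lit 434)) (XT.lf (nat_lit 0) (nat_lit 11014275352) (nat_lit 228) (nat_lit 1213818074) (nat_lit 304) (nat_lit 1693514058) (nat_lit 61) (nat_lit 5) (nat_lit 64) (nat_lit 5) (nat_lit 65) (nat_lit 5) (nat_lit 635) (nat_lit 492) (nat_lit 433))) (XT.nd (nat_lit 78) (nat_lit 228) (nat_lit 0) (XT.lf (nat_lit 0) (nat_lit 3446780464) (nat_lit 228) (nat_lit 6432087983) (nat_lit 76) (nat_lit 4202875717) (nat_lit 58) (nat_lit 5) (nat_lit 61) (nat_lit 5) (nat_lit 59) (nat_lit 5) (nat_lit 636) (nat_lit 492) (nat_lit 432))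 (XT.lf (nat_lit 0) (nat_lit 4167502136) (nat_lit 228) (nat_lit 4509935748) (nat_lit 304) (nat_lit 5567217896) (nat_lit 55) (nat_lit 5) (nat_lit 58) (nat_lit 5) (nat_lit 59) (nat_lit 5) (nat_lit 637) (nat_lit 492) (nat_lit 431))))) (XT.nd (nat_lit 312) (nat_lit 532) (nat_lit 0) (XT.nd (nat_lit 156) (nat_lit 456) (nat_lit 0) (XT.nd (nat_lit 78) (nat_lit 76) (nat_lit 0) (XT.lf (nat_lit 0) (nat_lit 576918643) (nat_lit 152) (nat_lit 13444859025) (nat_lit 228) (nat_lit 388867307) (nat_lit 53) (nat_lit 5) (nat_lit 55) (nat_lit 5) (nat_lit 56) (nat_lit 4) (nat_lit 638) (nat_lit 492) (nat_lit 430)) (XT.lf (nat_lit 0) (nat_lit 4882475207) (nat_lit 228) (nat_lit 3140473440) (nat_lit 76) (nat_lit 6555298671) (nat_lit 52) (nat_lit 5) (nat_lit 55) (nat_lit 5) (nat_lit 53) (nat_lit 5) (nat_lit 639) (nat_lit 492) (nat_lit 429))) (XT.nd (nat_lit 78) (nat_lit 228) (nat_lit 0) (XT.lf (nat_lit 0) (nat_lit 7787320052) (nat_lit 228) (nat_lit 2473812494) (nat_lit 304) (nat_lit 4487876545)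 (nat_lit 49) (nat_lit 5) (nat_lit 52) (nat_lit 5) (nat_lit 53) (nat_lit 5) (nat_lit 640) (nat_lit 492) (nat_lit 428)) (XT.lf (nat_lit 0) (nat_lit 838086333) (nat_lit 228) (nat_lit 10922016636) (nat_lit 76) (nat_lit 3162482402) (nat_lit 46) (nat_lit 5) (nat_lit 49) (nat_lit 5) (nat_lit 47) (nat_lit 5) (nat_lit 641) (nat_lit 492) (nat_lit 427)))) (XT.nd (nat_lit 156) (nat_lit 380) (nat_lit 0) (XT.nd (nat_lit 78) (nat_lit 0) (nat_lit 0) (XT.lf (nat_lit 0) (nat_lit 52968620) (nat_lit 152) (nat_lit 6178015571) (nat_lit 228) (nat_lit 8867646170) (nat_lit 44) (nat_lit 5) (nat_lit 46) (nat_lit 5) (nat_lit 47) (nat_lit 5) (nat_lit 642) (nat_lit 492) (nat_lit 426)) (XT.lf (nat_lit 0) (nat_lit 11316971337) (nat_lit 152) (nat_lit 445099755) (nat_lit 228) (nat_lit 3515519176) (nat_lit 44) (nat_lit 5) (nat_lit 46) (nat_lit 5) (nat_lit 47) (nat_lit 5) (nat_lit 643) (nat_lit 492) (nat_lit 425))) (XT.nd (nat_lit 78) (nat_lit 152) (nat_lit 0) (XT.lf (nat_lit 0) (nat_lit 1958744851)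 (nat_lit 228) (nat_lit 8142642981) (nat_lit 76) (nat_lit 5357678047) (nat_lit 41) (nat_lit 5) (nat_lit 44) (nat_lit 5) (nat_lit 42) (nat_lit 5) (nat_lit 644) (nat_lit 492) (nat_lit 424)) (XT.lf (nat_lit 0) (nat_lit 3166515642) (nat_lit 152) (nat_lit 4336915796) (nat_lit 228) (nat_lit 8140115214) (nat_lit 39) (nat_lit 5) (nat_lit 41) (nat_lit 5) (nat_lit 42) (nat_lit 5) (nat_lit 645) (nat_lit 492) (nat_lit 423))))))))
noncomputable def xc25 : XT := (XT.nd (nat_lit 77454) (nat_lit 0) (nat_lit 3800) (XT.nd (nat_lit 76284) (nat_lit 0) (nat_lit 12084) (XT.nd (nat_lit 75738) (nat_lit 0) (nat_lit 18316) (XT.nd (nat_lit 234) (nat_lit 228) (nat_lit 0) (XT.nd (nat_lit 78) (nat_lit 380) (nat_lit 0) (XT.lf (nat_lit 0) (nat_lit 13181837595) (nat_lit 228) (nat_lit 1106532537) (nat_lit 76) (nat_lit 1542890980) (nat_lit 39) (nat_lit 5) (nat_lit 42) (nat_lit 5) (nat_lit 40) (nat_lit 4) (nat_lit 646) (nat_lit 492) (nat_lit 422)) (XT.nd (nat_lit 78) (nat_lit 152) (nat_lit 0)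 (XT.lf (nat_lit 0) (nat_lit 2968431958) (nat_lit 228) (nat_lit 5516698898) (nat_lit 76) (nat_lit 7536095285) (nat_lit 36) (nat_lit 5) (nat_lit 39) (nat_lit 5) (nat_lit 37) (nat_lit 5) (nat_lit 647) (nat_lit 492) (nat_lit 421)) (XT.lf (nat_lit 0) (nat_lit 6134540415) (nat_lit 152) (nat_lit 2534645323) (nat_lit 228) (nat_lit 7545334697) (nat_lit 34) (nat_lit 5) (nat_lit 36) (nat_lit 5) (nat_lit 37) (nat_lit 5) (nat_lit 648) (nat_lit 492) (nat_lit 420)))) (XT.nd (nat_lit 75348) (nat_lit 0) (nat_lit 22344) (XT.nd (nat_lit 78) (nat_lit 76) (nat_lit 0) (XT.lf (nat_lit 0) (nat_lit 1604108384) (nat_lit 152) (nat_lit 12909248907) (nat_lit 228) (nat_lit 1897735813) (nat_lit 32) (nat_lit 5) (nat_lit 34) (nat_lit 5) (nat_lit 35) (nat_lit 4) (nat_lit 649) (nat_lit 492) (nat_lit 419)) (XT.lf (nat_lit 0) (nat_lit 3855845532) (nat_lit 228) (nat_lit 3070466675) (nat_lit 76) (nat_lit 9683910105) (nat_lit 31) (nat_lit 5) (nat_lit 34) (nat_lit 5) (nat_lit 32) (nat_lit 5) (nat_lit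 650) (nat_lit 492) (nat_lit 418))) (XT.nd (nat_lit 78) (nat_lit 684) (nat_lit 0) (XT.lf (nat_lit 0) (nat_lit 1023976778) (nat_lit 760) (nat_lit 1872454036) (nat_lit 0) (nat_lit 1023976778) (nat_lit 334) (nat_lit 5) (nat_lit 344) (nat_lit 4) (nat_lit 334) (nat_lit 4) (nat_lit 574) (nat_lit 493) (nat_lit 493)) (XT.lf (nat_lit 0) (nat_lit 2721432669) (nat_lit 684) (nat_lit 3230010134) (nat_lit 684) (nat_lit 1942354869) (nat_lit 325) (nat_lit 4) (nat_lit 334) (nat_lit 5) (nat_lit 334) (nat_lit 4) (nat_lit 575) (nat_lit 493) (nat_lit 492))))) (XT.nd (nat_lit 234) (nat_lit 2584) (nat_lit 0) (XT.nd (nat_lit 78) (nat_lit 760) (nat_lit 0) (XT.lf (nat_lit 0) (nat_lit 1338224783) (nat_lit 608) (nat_lit 586669855) (nat_lit 684) (nat_lit 6023376045) (nat_lit 316) (nat_lit 5) (nat_lit 324) (nat_lit 5) (nat_lit 325) (nat_lit 4) (nat_lit 576) (nat_lit 493) (nat_lit 491)) (XT.nd (nat_lit 78) (nat_lit 760) (nat_lit 0) (XT.lf (nat_lit 0) (nat_lit 5824579757) (nat_lit 684) (nat_lit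 68246312) (nat_lit 0) (nat_lit 2111132277) (nat_lit 316) (nat_lit 5) (nat_lit 325) (nat_lit 4) (nat_lit 316) (nat_lit 4) (nat_lit 577) (nat_lit 493) (nat_lit 490)) (XT.lf (nat_lit 0) (nat_lit 1699034856) (nat_lit 760) (nat_lit 1470991497) (nat_lit 76) (nat_lit 4890903539) (nat_lit 306) (nat_lit 5) (nat_lit 316) (nat_lit 5) (nat_lit 307) (nat_lit 4) (nat_lit 578) (nat_lit 493) (nat_lit 489)))) (XT.nd (nat_lit 156) (nat_lit 1292) (nat_lit 0) (XT.nd (nat_lit 78) (nat_lit 684) (nat_lit 0) (XT.lf (nat_lit 0) (nat_lit 5231295806) (nat_lit 608) (nat_lit 363063975) (nat_lit 684) (nat_lit 2525026191) (nat_lit 298) (nat_lit 5) (nat_lit 306) (nat_lit 5) (nat_lit 307) (nat_lit 4) (nat_lit 579) (nat_lit 493) (nat_lit 488)) (XT.lf (nat_lit 0) (nat_lit 1356155573) (nat_lit 684) (nat_lit 4331851995) (nat_lit 76) (nat_lit 2491111127) (nat_lit 289) (nat_lit 5) (nat_lit 298) (nat_lit 5) (nat_lit 290) (nat_lit 4) (nat_lit 580) (nat_lit 493) (nat_lit 487))) (XT.nd (nat_lit 78)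 (nat_lit 684) (nat_lit 0) (XT.lf (nat_lit 0) (nat_lit 2442637115) (nat_lit 608) (nat_lit 2811286022) (nat_lit 684) (nat_lit 2986337184) (nat_lit 281) (nat_lit 5) (nat_lit 289) (nat_lit 5) (nat_lit 290) (nat_lit 4) (nat_lit 581) (nat_lit 493) (nat_lit 486)) (XT.lf (nat_lit 0) (nat_lit 886990924) (nat_lit 684) (nat_lit 7274690045) (nat_lit 76) (nat_lit 141384248) (nat_lit 272) (nat_lit 5) (nat_lit 281) (nat_lit 5) (nat_lit 273) (nat_lit 4) (nat_lit 582) (nat_lit 493) (nat_lit 485)))))) (XT.nd (nat_lit 546) (nat_lit 3420) (nat_lit 0) (XT.nd (nat_lit 234) (nat_lit 1672) (nat_lit 0) (XT.nd (nat_lit 78) (nat_lit 1140) (nat_lit 0) (XT.lf (nat_lit 0) (nat_lit 4791429174) (nat_lit 684) (nat_lit 423338316) (nat_lit 76) (nat_lit 3152094615) (nat_lit 272) (nat_lit 5) (nat_lit 281) (nat_lit 5) (nat_lit 273) (nat_lit 4) (nat_lit 583) (nat_lit 493) (nat_lit 484)) (XT.nd (nat_lit 78) (nat_lit 532) (nat_lit 0) (XT.lf (nat_lit 0) (nat_lit 317093841) (nat_lit 608) (nat_lit 1869385786)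 (nat_lit 76) (nat_lit 6245822901) (nat_lit 264) (nat_lit 5) (nat_lit 272) (nat_lit 5) (nat_lit 265) (nat_lit 5) (nat_lit 584) (nat_lit 493) (nat_lit 483)) (XT.lf (nat_lit 0) (nat_lit 4219394952) (nat_lit 608) (nat_lit 3352049685) (nat_lit 76) (nat_lit 927541581) (nat_lit 257) (nat_lit 5) (nat_lit 265) (nat_lit 5) (nat_lit 258) (nat_lit 4) (nat_lit 585) (nat_lit 493) (nat_lit 482)))) (XT.nd (nat_lit 156) (nat_lit 532) (nat_lit 0) (XT.nd (nat_lit 78) (nat_lit 608) (nat_lit 0) (XT.lf (nat_lit 0) (nat_lit 3709371407) (nat_lit 532) (nat_lit 4479413605) (nat_lit 608) (nat_lit 378440764) (nat_lit 250) (nat_lit 5) (nat_lit 257) (nat_lit 5) (nat_lit 258) (nat_lit 4) (nat_lit 586) (nat_lit 493) (nat_lit 481)) (XT.lf (nat_lit 0) (nat_lit 2239785325) (nat_lit 532) (nat_lit 1289007921) (nat_lit 608) (nat_lit 5108066548) (nat_lit 242) (nat_lit 5) (nat_lit 249) (nat_lit 5) (nat_lit 250) (nat_lit 5) (nat_lit 587) (nat_lit 493) (nat_lit 480))) (XT.nd (nat_lit 78) (nat_lit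 76) (nat_lit 0) (XT.lf (nat_lit 0) (nat_lit 744646116) (nat_lit 456) (nat_lit 6753458925) (nat_lit 532) (nat_lit 1209954286) (nat_lit 236) (nat_lit 5) (nat_lit 242) (nat_lit 5) (nat_lit 243) (nat_lit 4) (nat_lit 588) (nat_lit 493) (nat_lit 479)) (XT.lf (nat_lit 0) (nat_lit 2720411149) (nat_lit 532) (nat_lit 778559997) (nat_lit 76) (nat_lit 5281543896) (nat_lit 235) (nat_lit 5) (nat_lit 242) (nat_lit 5) (nat_lit 236) (nat_lit 5) (nat_lit 589) (nat_lit 493) (nat_lit 478))))) (XT.nd (nat_lit 312) (nat_lit 1368) (nat_lit 0) (XT.nd (nat_lit 156) (nat_lit 988) (nat_lit 0) (XT.nd (nat_lit 78) (nat_lit 532) (nat_lit 0) (XT.lf (nat_lit 0) (nat_lit 6541624281) (nat_lit 532) (nat_lit 154066218) (nat_lit 608) (nat_lit 2158921967) (nat_lit 228) (nat_lit 5) (nat_lit 235) (nat_lit 5) (nat_lit 236) (nat_lit 5) (nat_lit 590) (nat_lit 493) (nat_lit 477)) (XT.lf (nat_lit 0) (nat_lit 1796055240) (nat_lit 532) (nat_lit 3894932190) (nat_lit 76) (nat_lit 3238977740) (nat_lit 221)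 (nat_lit 5) (nat_lit 228) (nat_lit 5) (nat_lit 222) (nat_lit 5) (nat_lit 591) (nat_lit 493) (nat_lit 476))) (XT.nd (nat_lit 78) (nat_lit 532) (nat_lit 0) (XT.lf (nat_lit 0) (nat_lit 3498494491) (nat_lit 456) (nat_lit 2282801841) (nat_lit 532) (nat_lit 3225644296) (nat_lit 215) (nat_lit 5) (nat_lit 221) (nat_lit 5) (nat_lit 222) (nat_lit 5) (nat_lit 592) (nat_lit 493) (nat_lit 475)) (XT.lf (nat_lit 0) (nat_lit 738477267) (nat_lit 532) (nat_lit 7152662521) (nat_lit 76) (nat_lit 1194466097) (nat_lit 208) (nat_lit 5) (nat_lit 215) (nat_lit 5) (nat_lit 209) (nat_lit 5) (nat_lit 593) (nat_lit 493) (nat_lit 474)))) (XT.nd (nat_lit 156) (nat_lit 912) (nat_lit 0) (XT.nd (nat_lit 78) (nat_lit 0) (nat_lit 0) (XT.lf (nat_lit 0) (nat_lit 312643174) (nat_lit 456) (nat_lit 4421758173) (nat_lit 532) (nat_lit 4431104846) (nat_lit 202) (nat_lit 5) (nat_lit 208) (nat_lit 5) (nat_lit 209) (nat_lit 5) (nat_lit 594) (nat_lit 493) (nat_lit 473)) (XT.lf (nat_lit 0) (nat_lit 7937330022)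 (nat_lit 456) (nat_lit 862812572) (nat_lit 532) (nat_lit 447066298) (nat_lit 202) (nat_lit 5) (nat_lit 208) (nat_lit 5) (nat_lit 209) (nat_lit 5) (nat_lit 595) (nat_lit 493) (nat_lit 472))) (XT.nd (nat_lit 78) (nat_lit 456) (nat_lit 0) (XT.lf (nat_lit 0) (nat_lit 3571370506) (nat_lit 456) (nat_lit 2990683192) (nat_lit 76) (nat_lit 2767981568) (nat_lit 196) (nat_lit 5) (nat_lit 202) (nat_lit 5) (nat_lit 197) (nat_lit 5) (nat_lit 596) (nat_lit 493) (nat_lit 471)) (XT.lf (nat_lit 0) (nat_lit 4711714714) (nat_lit 456) (nat_lit 2940678979) (nat_lit 532) (nat_lit 1762303517) (nat_lit 190) (nat_lit 5) (nat_lit 196) (nat_lit 5) (nat_lit 197) (nat_lit 5) (nat_lit 597) (nat_lit 493) (nat_lit 470))))))) (XT.nd (nat_lit 1170) (nat_lit 3496) (nat_lit 0) (XT.nd (nat_lit 546) (nat_lit 2280) (nat_lit 0) (XT.nd (nat_lit 234) (nat_lit 1596) (nat_lit 0) (XT.nd (nat_lit 78) (nat_lit 456) (nat_lit 0) (XT.lf (nat_lit 0) (nat_lit 2271907130) (nat_lit 456) (nat_lit 6459822431) (nat_lit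 76) (nat_lit 769259078) (nat_lit 184) (nat_lit 5) (nat_lit 190) (nat_lit 5) (nat_lit 185) (nat_lit 5) (nat_lit 598) (nat_lit 493) (nat_lit 469)) (XT.nd (nat_lit 78) (nat_lit 76) (nat_lit 0) (XT.lf (nat_lit 0) (nat_lit 1314578477) (nat_lit 380) (nat_lit 5052017562) (nat_lit 456) (nat_lit 3222111148) (nat_lit 179) (nat_lit 5) (nat_lit 184) (nat_lit 5) (nat_lit 185) (nat_lit 5) (nat_lit 599) (nat_lit 493) (nat_lit 468)) (XT.lf (nat_lit 0) (nat_lit 841054526) (nat_lit 456) (nat_lit 438243339) (nat_lit 76) (nat_lit 8399023922) (nat_lit 178) (nat_lit 5) (nat_lit 184) (nat_lit 5) (nat_lit 179) (nat_lit 5) (nat_lit 600) (nat_lit 493) (nat_lit 467)))) (XT.nd (nat_lit 156) (nat_lit 836) (nat_lit 0) (XT.nd (nat_lit 78) (nat_lit 380) (nat_lit 0) (XT.lf (nat_lit 0) (nat_lit 4953193335) (nat_lit 456) (nat_lit 2239730109) (nat_lit 76) (nat_lit 2576164165) (nat_lit 173) (nat_lit 5) (nat_lit 179) (nat_lit 5) (nat_lit 174) (nat_lit 5) (nat_lit 601) (nat_lit 493) (nat_lit 466))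 (XT.lf (nat_lit 0) (nat_lit 5782296751) (nat_lit 380) (nat_lit 3359454969) (nat_lit 456) (nat_lit 720035426) (nat_lit 168) (nat_lit 5) (nat_lit 173) (nat_lit 5) (nat_lit 174) (nat_lit 5) (nat_lit 602) (nat_lit 493) (nat_lit 465))) (XT.nd (nat_lit 78) (nat_lit 380) (nat_lit 0) (XT.lf (nat_lit 0) (nat_lit 3402535892) (nat_lit 456) (nat_lit 5977040569) (nat_lit 76) (nat_lit 576514190) (nat_lit 162) (nat_lit 5) (nat_lit 168) (nat_lit 5) (nat_lit 163) (nat_lit 5) (nat_lit 603) (nat_lit 493) (nat_lit 464)) (XT.lf (nat_lit 0) (nat_lit 2116720945) (nat_lit 380) (nat_lit 5490430950) (nat_lit 456) (nat_lit 2444850272) (nat_lit 157) (nat_lit 5) (nat_lit 162) (nat_lit 5) (nat_lit 163) (nat_lit 5) (nat_lit 604) (nat_lit 493) (nat_lit 463))))) (XT.nd (nat_lit 312) (nat_lit 1140) (nat_lit 0) (XT.nd (nat_lit 156) (nat_lit 760) (nat_lit 0) (XT.nd (nat_lit 78) (nat_lit 0) (nat_lit 0) (XT.lf (nat_lit 0) (nat_lit 209165137) (nat_lit 304) (nat_lit 1501525152) (nat_lit 380) (nat_lit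 8439165423) (nat_lit 152) (nat_lit 5) (nat_lit 156) (nat_lit 5) (nat_lit 157) (nat_lit 5) (nat_lit 605) (nat_lit 493) (nat_lit 462)) (XT.lf (nat_lit 0) (nat_lit 5933031730) (nat_lit 380) (nat_lit 1744370660) (nat_lit 76) (nat_lit 2571613911) (nat_lit 152) (nat_lit 5) (nat_lit 157) (nat_lit 5) (nat_lit 153) (nat_lit 5) (nat_lit 606) (nat_lit 493) (nat_lit 461))) (XT.nd (nat_lit 78) (nat_lit 380) (nat_lit 0) (XT.lf (nat_lit 0) (nat_lit 6607667847) (nat_lit 380) (nat_lit 3632179499) (nat_lit 456) (nat_lit 110313893) (nat_lit 147) (nat_lit 5) (nat_lit 152) (nat_lit 5) (nat_lit 153) (nat_lit 5) (nat_lit 607) (nat_lit 493) (nat_lit 460)) (XT.lf (nat_lit 0) (nat_lit 4117379503) (nat_lit 380) (nat_lit 5810507882) (nat_lit 76) (nat_lit 525046116) (nat_lit 142) (nat_lit 5) (nat_lit 147) (nat_lit 5) (nat_lit 143) (nat_lit 5) (nat_lit 608) (nat_lit 493) (nat_lit 459)))) (XT.nd (nat_lit 156) (nat_lit 380) (nat_lit 0) (XT.nd (nat_lit 78) (nat_lit 380) (nat_lit 0) (XT.lf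 (nat_lit 0) (nat_lit 2612483053) (nat_lit 380) (nat_lit 5829560782) (nat_lit 456) (nat_lit 2115426493) (nat_lit 137) (nat_lit 5) (nat_lit 142) (nat_lit 5) (nat_lit 143) (nat_lit 5) (nat_lit 609) (nat_lit 493) (nat_lit 458)) (XT.lf (nat_lit 0) (nat_lit 526331934) (nat_lit 304) (nat_lit 1624456096) (nat_lit 380) (nat_lit 8513219224) (nat_lit 132) (nat_lit 5) (nat_lit 136) (nat_lit 5) (nat_lit 137) (nat_lit 5) (nat_lit 610) (nat_lit 493) (nat_lit 457))) (XT.nd (nat_lit 78) (nat_lit 380) (nat_lit 0) (XT.lf (nat_lit 0) (nat_lit 6492983681) (nat_lit 380) (nat_lit 1614237020) (nat_lit 76) (nat_lit 2664796407) (nat_lit 132) (nat_lit 5) (nat_lit 137) (nat_lit 5) (nat_lit 133) (nat_lit 5) (nat_lit 611) (nat_lit 493) (nat_lit 456)) (XT.lf (nat_lit 0) (nat_lit 45067359) (nat_lit 380) (nat_lit 3804690991) (nat_lit 76) (nat_lit 7032309996) (nat_lit 127) (nat_lit 5) (nat_lit 132) (nat_lit 5) (nat_lit 128) (nat_lit 5) (nat_lit 612) (nat_lit 493) (nat_lit 455)))))) (XT.nd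 (nat_lit 546) (nat_lit 1672) (nat_lit 0) (XT.nd (nat_lit 234) (nat_lit 912) (nat_lit 0) (XT.nd (nat_lit 78) (nat_lit 608) (nat_lit 0) (XT.lf (nat_lit 0) (nat_lit 4393855328) (nat_lit 380) (nat_lit 6074800242) (nat_lit 76) (nat_lit 525190733) (nat_lit 123) (nat_lit 5) (nat_lit 128) (nat_lit 5) (nat_lit 124) (nat_lit 5) (nat_lit 613) (nat_lit 493) (nat_lit 454)) (XT.nd (nat_lit 78) (nat_lit 304) (nat_lit 0) (XT.lf (nat_lit 0) (nat_lit 2686631676) (nat_lit 304) (nat_lit 6160993276) (nat_lit 380) (nat_lit 2259876130) (nat_lit 119) (nat_lit 5) (nat_lit 123) (nat_lit 5) (nat_lit 124) (nat_lit 5) (nat_lit 614) (nat_lit 493) (nat_lit 453)) (XT.lf (nat_lit 0) (nat_lit 389249994) (nat_lit 228) (nat_lit 1742413682) (nat_lit 304) (nat_lit 9091624335) (nat_lit 115) (nat_lit 5) (nat_lit 118) (nat_lit 5) (nat_lit 119) (nat_lit 5) (nat_lit 615) (nat_lit 493) (nat_lit 452)))) (XT.nd (nat_lit 156) (nat_lit 608) (nat_lit 0) (XT.nd (nat_lit 78) (nat_lit 304) (nat_lit 0) (XT.lf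 (nat_lit 0) (nat_lit 6605341305) (nat_lit 304) (nat_lit 1968596900) (nat_lit 76) (nat_lit 2766663685) (nat_lit 115) (nat_lit 5) (nat_lit 119) (nat_lit 5) (nat_lit 116) (nat_lit 5) (nat_lit 616) (nat_lit 493) (nat_lit 451)) (XT.lf (nat_lit 0) (nat_lit 7072264197) (nat_lit 304) (nat_lit 4104378001) (nat_lit 380) (nat_lit 283458130) (nat_lit 111) (nat_lit 5) (nat_lit 115) (nat_lit 5) (nat_lit 116) (nat_lit 5) (nat_lit 617) (nat_lit 493) (nat_lit 450))) (XT.nd (nat_lit 78) (nat_lit 304) (nat_lit 0) (XT.lf (nat_lit 0) (nat_lit 4199290914) (nat_lit 304) (nat_lit 6895284847) (nat_lit 76) (nat_lit 486906428) (nat_lit 107) (nat_lit 5) (nat_lit 111) (nat_lit 5) (nat_lit 108) (nat_lit 5) (nat_lit 618) (nat_lit 493) (nat_lit 449)) (XT.lf (nat_lit 0) (nat_lit 2212833939) (nat_lit 304) (nat_lit 6577263799) (nat_lit 380) (nat_lit 2914713713) (nat_lit 103) (nat_lit 5) (nat_lit 107) (nat_lit 5) (nat_lit 108) (nat_lit 5) (nat_lit 619) (nat_lit 493) (nat_lit 448))))) (XT.nd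 (nat_lit 312) (nat_lit 760) (nat_lit 0) (XT.nd (nat_lit 156) (nat_lit 608) (nat_lit 0) (XT.nd (nat_lit 78) (nat_lit 228) (nat_lit 0) (XT.lf (nat_lit 0) (nat_lit 1618260547) (nat_lit 380) (nat_lit 327590824) (nat_lit 76) (nat_lit 9884590173) (nat_lit 102) (nat_lit 5) (nat_lit 107) (nat_lit 5) (nat_lit 103) (nat_lit 5) (nat_lit 620) (nat_lit 493) (nat_lit 447)) (XT.lf (nat_lit 0) (nat_lit 6231978577) (nat_lit 304) (nat_lit 2938895655) (nat_lit 76) (nat_lit 2786743570) (nat_lit 99) (nat_lit 5) (nat_lit 103) (nat_lit 5) (nat_lit 100) (nat_lit 5) (nat_lit 621) (nat_lit 493) (nat_lit 446))) (XT.nd (nat_lit 78) (nat_lit 304) (nat_lit 0) (XT.lf (nat_lit 0) (nat_lit 6458837297) (nat_lit 304) (nat_lit 4488425201) (nat_lit 380) (nat_lit 1139890367) (nat_lit 95) (nat_lit 5) (nat_lit 99) (nat_lit 5) (nat_lit 100) (nat_lit 5) (nat_lit 622) (nat_lit 493) (nat_lit 445)) (XT.lf (nat_lit 0) (nat_lit 3490208269) (nat_lit 304) (nat_lit 8410795263) (nat_lit 76) (nat_lit 317836185)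 (nat_lit 91) (nat_lit 5) (nat_lit 95) (nat_lit 5) (nat_lit 92) (nat_lit 5) (nat_lit 623) (nat_lit 493) (nat_lit 444)))) (XT.nd (nat_lit 156) (nat_lit 456) (nat_lit 0) (XT.nd (nat_lit 78) (nat_lit 76) (nat_lit 0) (XT.lf (nat_lit 0) (nat_lit 1050924073) (nat_lit 228) (nat_lit 7173833393) (nat_lit 304) (nat_lit 4127710959) (nat_lit 88) (nat_lit 5) (nat_lit 91) (nat_lit 5) (nat_lit 92) (nat_lit 5) (nat_lit 624) (nat_lit 493) (nat_lit 443)) (XT.lf (nat_lit 0) (nat_lit 567246773) (nat_lit 304) (nat_lit 1758240346) (nat_lit 76) (nat_lit 10163021560) (nat_lit 87) (nat_lit 5) (nat_lit 91) (nat_lit 5) (nat_lit 88) (nat_lit 5) (nat_lit 625) (nat_lit 493) (nat_lit 442))) (XT.nd (nat_lit 78) (nat_lit 228) (nat_lit 0) (XT.lf (nat_lit 0) (nat_lit 5323503519) (nat_lit 304) (nat_lit 4671603394) (nat_lit 76) (nat_lit 2631164730) (nat_lit 84) (nat_lit 5) (nat_lit 88) (nat_lit 5) (nat_lit 85) (nat_lit 5) (nat_lit 626) (nat_lit 493) (nat_lit 441)) (XT.lf (nat_lit 0) (nat_lit 5089388200)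 (nat_lit 228) (nat_lit 5099531911) (nat_lit 304) (nat_lit 2577590027) (nat_lit 81) (nat_lit 5) (nat_lit 84) (nat_lit 5) (nat_lit 85) (nat_lit 5) (nat_lit 627) (nat_lit 493) (nat_lit 440))))))))
noncomputable def xc26 : XT := (XT.nd (nat_lit 77298) (nat_lit 0) (nat_lit 9196) (XT.nd (nat_lit 1092) (nat_lit 1368) (nat_lit 0) (XT.nd (nat_lit 546) (nat_lit 1140) (nat_lit 0) (XT.nd (nat_lit 234) (nat_lit 760) (nat_lit 0) (XT.nd (nat_lit 78) (nat_lit 228) (nat_lit 0) (XT.lf (nat_lit 0) (nat_lit 2132118394) (nat_lit 228) (nat_lit 79761290) (nat_lit 304) (nat_lit 10697399637) (nat_lit 77) (nat_lit 5) (nat_lit 80) (nat_lit 5) (nat_lit 81) (nat_lit 5) (nat_lit 628) (nat_lit 493) (nat_lit 439)) (XT.nd (nat_lit 78) (nat_lit 228) (nat_lit 0) (XT.lf (nat_lit 0) (nat_lit 7101192936) (nat_lit 304) (nat_lit 943638065) (nat_lit 76) (nat_lit 5008961679) (nat_lit 77) (nat_lit 5) (nat_lit 81) (nat_lit 5) (nat_lit 78) (nat_lit 5) (nat_lit 629) (nat_lit 493) (nat_lit 438)) (XT.lf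 (nat_lit 0) (nat_lit 9126073490) (nat_lit 228) (nat_lit 2976854072) (nat_lit 304) (nat_lit 1097976935) (nat_lit 74) (nat_lit 5) (nat_lit 77) (nat_lit 5) (nat_lit 78) (nat_lit 5) (nat_lit 630) (nat_lit 493) (nat_lit 437)))) (XT.nd (nat_lit 156) (nat_lit 228) (nat_lit 0) (XT.nd (nat_lit 78) (nat_lit 228) (nat_lit 0) (XT.lf (nat_lit 0) (nat_lit 3818149430) (nat_lit 304) (nat_lit 7331440472) (nat_lit 76) (nat_lit 2200570015) (nat_lit 70) (nat_lit 5) (nat_lit 74) (nat_lit 5) (nat_lit 71) (nat_lit 5) (nat_lit 631) (nat_lit 493) (nat_lit 436)) (XT.lf (nat_lit 0) (nat_lit 2797175529) (nat_lit 228) (nat_lit 6041209472) (nat_lit 304) (nat_lit 4663461362) (nat_lit 67) (nat_lit 5) (nat_lit 70) (nat_lit 5) (nat_lit 71) (nat_lit 5) (nat_lit 632) (nat_lit 493) (nat_lit 435))) (XT.nd (nat_lit 78) (nat_lit 152) (nat_lit 0) (XT.lf (nat_lit 0) (nat_lit 303159549) (nat_lit 304) (nat_lit 510066151) (nat_lit 76) (nat_lit 12843209020) (nat_lit 66) (nat_lit 5) (nat_lit 70) (nat_lit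 5) (nat_lit 67) (nat_lit 5) (nat_lit 633) (nat_lit 493) (nat_lit 434)) (XT.lf (nat_lit 0) (nat_lit 5356837392) (nat_lit 228) (nat_lit 3933703622) (nat_lit 76) (nat_lit 4521954750) (nat_lit 64) (nat_lit 5) (nat_lit 67) (nat_lit 5) (nat_lit 65) (nat_lit 5) (nat_lit 634) (nat_lit 493) (nat_lit 433))))) (XT.nd (nat_lit 234) (nat_lit 684) (nat_lit 0) (XT.nd (nat_lit 78) (nat_lit 228) (nat_lit 0) (XT.lf (nat_lit 0) (nat_lit 6512227525) (nat_lit 228) (nat_lit 4006632072) (nat_lit 304) (nat_lit 3452673793) (nat_lit 61) (nat_lit 5) (nat_lit 64) (nat_lit 5) (nat_lit 65) (nat_lit 5) (nat_lit 635) (nat_lit 493) (nat_lit 432)) (XT.nd (nat_lit 78) (nat_lit 0) (nat_lit 0) (XT.lf (nat_lit 0) (nat_lit 1640372673) (nat_lit 228) (nat_lit 11105066189) (nat_lit 76) (nat_lit 1387866405) (nat_lit 58) (nat_lit 5) (nat_lit 61) (nat_lit 5) (nat_lit 59) (nat_lit 5) (nat_lit 636) (nat_lit 493) (nat_lit 431)) (XT.lf (nat_lit 0) (nat_lit 6822362661) (nat_lit 228) (nat_lit 599093459) (nat_lit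 76) (nat_lit 6875734474) (nat_lit 58) (nat_lit 5) (nat_lit 61) (nat_lit 5) (nat_lit 59) (nat_lit 5) (nat_lit 637) (nat_lit 493) (nat_lit 430)))) (XT.nd (nat_lit 156) (nat_lit 228) (nat_lit 0) (XT.nd (nat_lit 78) (nat_lit 228) (nat_lit 0) (XT.lf (nat_lit 0) (nat_lit 10173267171) (nat_lit 228) (nat_lit 1957982096) (nat_lit 304) (nat_lit 2332639941) (nat_lit 55) (nat_lit 5) (nat_lit 58) (nat_lit 5) (nat_lit 59) (nat_lit 5) (nat_lit 638) (nat_lit 493) (nat_lit 429)) (XT.lf (nat_lit 0) (nat_lit 2901548263) (nat_lit 228) (nat_lit 8132373440) (nat_lit 76) (nat_lit 3599075540) (nat_lit 52) (nat_lit 5) (nat_lit 55) (nat_lit 5) (nat_lit 53) (nat_lit 5) (nat_lit 639) (nat_lit 493) (nat_lit 428))) (XT.nd (nat_lit 78) (nat_lit 0) (nat_lit 0) (XT.lf (nat_lit 0) (nat_lit 2690287100) (nat_lit 228) (nat_lit 5535727142) (nat_lit 304) (nat_lit 6578828938) (nat_lit 49) (nat_lit 5) (nat_lit 52) (nat_lit 5) (nat_lit 53) (nat_lit 5) (nat_lit 640) (nat_lit 493) (nat_lit 427)) (XT.lf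 (nat_lit 0) (nat_lit 13669868240) (nat_lit 304) (nat_lit 1217676760) (nat_lit 76) (nat_lit 92323725) (nat_lit 49) (nat_lit 5) (nat_lit 53) (nat_lit 5) (nat_lit 50) (nat_lit 4) (nat_lit 641) (nat_lit 493) (nat_lit 426)))))) (XT.nd (nat_lit 546) (nat_lit 228) (nat_lit 0) (XT.nd (nat_lit 234) (nat_lit 608) (nat_lit 0) (XT.nd (nat_lit 78) (nat_lit 304) (nat_lit 0) (XT.lf (nat_lit 0) (nat_lit 4070654675) (nat_lit 228) (nat_lit 5269406843) (nat_lit 76) (nat_lit 5816611093) (nat_lit 46) (nat_lit 5) (nat_lit 49) (nat_lit 5) (nat_lit 47) (nat_lit 5) (nat_lit 642) (nat_lit 493) (nat_lit 425)) (XT.nd (nat_lit 78) (nat_lit 152) (nat_lit 0) (XT.lf (nat_lit 0) (nat_lit 5886452788) (nat_lit 152) (nat_lit 3659770640) (nat_lit 228) (nat_lit 5790519762) (nat_lit 44) (nat_lit 5) (nat_lit 46) (nat_lit 5) (nat_lit 47) (nat_lit 5) (nat_lit 643) (nat_lit 493) (nat_lit 424)) (XT.lf (nat_lit 0) (nat_lit 1749922032) (nat_lit 152) (nat_lit 13400678872) (nat_lit 228) (nat_lit 369428942)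 (nat_lit 42) (nat_lit 5) (nat_lit 44) (nat_lit 5) (nat_lit 45) (nat_lit 4) (nat_lit 644) (nat_lit 493) (nat_lit 423)))) (XT.nd (nat_lit 156) (nat_lit 380) (nat_lit 0) (XT.nd (nat_lit 78) (nat_lit 152) (nat_lit 0) (XT.lf (nat_lit 0) (nat_lit 5139016292) (nat_lit 228) (nat_lit 2537772645) (nat_lit 76) (nat_lit 8028591674) (nat_lit 41) (nat_lit 5) (nat_lit 44) (nat_lit 5) (nat_lit 42) (nat_lit 5) (nat_lit 645) (nat_lit 493) (nat_lit 422)) (XT.lf (nat_lit 0) (nat_lit 8959623603) (nat_lit 152) (nat_lit 1810584397) (nat_lit 228) (nat_lit 5123831647) (nat_lit 39) (nat_lit 5) (nat_lit 41) (nat_lit 5) (nat_lit 42) (nat_lit 5) (nat_lit 646) (nat_lit 493) (nat_lit 421))) (XT.nd (nat_lit 78) (nat_lit 152) (nat_lit 0) (XT.lf (nat_lit 0) (nat_lit 455669780) (nat_lit 228) (nat_lit 11495267568) (nat_lit 76) (nat_lit 4134805040) (nat_lit 36) (nat_lit 5) (nat_lit 39) (nat_lit 5) (nat_lit 37) (nat_lit 5) (nat_lit 647) (nat_lit 493) (nat_lit 420)) (XT.lf (nat_lit 0) (nat_lit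 39002945) (nat_lit 152) (nat_lit 6057789847) (nat_lit 228) (nat_lit 10183436775) (nat_lit 34) (nat_lit 5) (nat_lit 36) (nat_lit 5) (nat_lit 37) (nat_lit 5) (nat_lit 648) (nat_lit 493) (nat_lit 419))))) (XT.nd (nat_lit 75348) (nat_lit 0) (nat_lit 21660) (XT.nd (nat_lit 75192) (nat_lit 0) (nat_lit 23788) (XT.nd (nat_lit 78) (nat_lit 228) (nat_lit 0) (XT.lf (nat_lit 0) (nat_lit 11885482329) (nat_lit 152) (nat_lit 2197073) (nat_lit 228) (nat_lit 4590188798) (nat_lit 34) (nat_lit 5) (nat_lit 36) (nat_lit 5) (nat_lit 37) (nat_lit 5) (nat_lit 649) (nat_lit 493) (nat_lit 418)) (XT.lf (nat_lit 0) (nat_lit 1148288947) (nat_lit 228) (nat_lit 9414766954) (nat_lit 76) (nat_lit 6115299696) (nat_lit 31) (nat_lit 5) (nat_lit 34) (nat_lit 5) (nat_lit 32) (nat_lit 5) (nat_lit 650) (nat_lit 493) (nat_lit 417))) (XT.nd (nat_lit 78) (nat_lit 760) (nat_lit 0) (XT.lf (nat_lit 0) (nat_lit 1711306707) (nat_lit 760) (nat_lit 446499846) (nat_lit 0) (nat_lit 1711306707) (nat_lit 354)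 (nat_lit 5) (nat_lit 364) (nat_lit 4) (nat_lit 354) (nat_lit 4) (nat_lit 572) (nat_lit 494) (nat_lit 494)) (XT.lf (nat_lit 0) (nat_lit 5460333513) (nat_lit 760) (nat_lit 1834302745) (nat_lit 760) (nat_lit 494626207) (nat_lit 344) (nat_lit 4) (nat_lit 354) (nat_lit 5) (nat_lit 354) (nat_lit 4) (nat_lit 573) (nat_lit 494) (nat_lit 493)))) (XT.nd (nat_lit 156) (nat_lit 684) (nat_lit 0) (XT.nd (nat_lit 78) (nat_lit 684) (nat_lit 0) (XT.lf (nat_lit 0) (nat_lit 3327425946) (nat_lit 760) (nat_lit 3787707722) (nat_lit 0) (nat_lit 726362310) (nat_lit 334) (nat_lit 5) (nat_lit 344) (nat_lit 4) (nat_lit 334) (nat_lit 4) (nat_lit 574) (nat_lit 494) (nat_lit 492)) (XT.lf (nat_lit 0) (nat_lit 2635546160) (nat_lit 684) (nat_lit 4561540829) (nat_lit 684) (nat_lit 698070070) (nat_lit 325) (nat_lit 4) (nat_lit 334) (nat_lit 5) (nat_lit 334) (nat_lit 4) (nat_lit 575) (nat_lit 494) (nat_lit 491))) (XT.nd (nat_lit 78) (nat_lit 0) (nat_lit 0) (XT.lf (nat_lit 0) (nat_lit 1198947177)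 (nat_lit 608) (nat_lit 1919900335) (nat_lit 684) (nat_lit 4831303195) (nat_lit 316) (nat_lit 5) (nat_lit 324) (nat_lit 5) (nat_lit 325) (nat_lit 4) (nat_lit 576) (nat_lit 494) (nat_lit 490)) (XT.lf (nat_lit 0) (nat_lit 6977086069) (nat_lit 684) (nat_lit 243194251) (nat_lit 0) (nat_lit 786388897) (nat_lit 316) (nat_lit 5) (nat_lit 325) (nat_lit 4) (nat_lit 316) (nat_lit 4) (nat_lit 577) (nat_lit 494) (nat_lit 489))))))) (XT.nd (nat_lit 1092) (nat_lit 5244) (nat_lit 0) (XT.nd (nat_lit 546) (nat_lit 3268) (nat_lit 0) (XT.nd (nat_lit 234) (nat_lit 1900) (nat_lit 0) (XT.nd (nat_lit 78) (nat_lit 1292) (nat_lit 0) (XT.lf (nat_lit 0) (nat_lit 2799954188) (nat_lit 760) (nat_lit 1701058756) (nat_lit 76) (nat_lit 3563156281) (nat_lit 306) (nat_lit 5) (nat_lit 316) (nat_lit 5) (nat_lit 307) (nat_lit 4) (nat_lit 578) (nat_lit 494) (nat_lit 488)) (XT.nd (nat_lit 78) (nat_lit 684) (nat_lit 0) (XT.lf (nat_lit 0) (nat_lit 4955848505) (nat_lit 608) (nat_lit 1705644439) (nat_lit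 684) (nat_lit 1461809889) (nat_lit 298) (nat_lit 5) (nat_lit 306) (nat_lit 5) (nat_lit 307) (nat_lit 4) (nat_lit 579) (nat_lit 494) (nat_lit 487)) (XT.lf (nat_lit 0) (nat_lit 2362666570) (nat_lit 684) (nat_lit 4660108273) (nat_lit 76) (nat_lit 1160979606) (nat_lit 289) (nat_lit 5) (nat_lit 298) (nat_lit 5) (nat_lit 290) (nat_lit 4) (nat_lit 580) (nat_lit 494) (nat_lit 486)))) (XT.nd (nat_lit 156) (nat_lit 608) (nat_lit 0) (XT.nd (nat_lit 78) (nat_lit 684) (nat_lit 0) (XT.lf (nat_lit 0) (nat_lit 2067249837) (nat_lit 608) (nat_lit 4159184275) (nat_lit 684) (nat_lit 2019143665) (nat_lit 281) (nat_lit 5) (nat_lit 289) (nat_lit 5) (nat_lit 290) (nat_lit 4) (nat_lit 581) (nat_lit 494) (nat_lit 485)) (XT.lf (nat_lit 0) (nat_lit 594284627) (nat_lit 608) (nat_lit 1212035682) (nat_lit 684) (nat_lit 6502641989) (nat_lit 272) (nat_lit 5) (nat_lit 280) (nat_lit 5) (nat_lit 281) (nat_lit 5) (nat_lit 582) (nat_lit 494) (nat_lit 484))) (XT.nd (nat_lit 78) (nat_lit 608) (nat_lit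 0) (XT.lf (nat_lit 0) (nat_lit 5671736393) (nat_lit 684) (nat_lit 898079167) (nat_lit 76) (nat_lit 1803725673) (nat_lit 272) (nat_lit 5) (nat_lit 281) (nat_lit 5) (nat_lit 273) (nat_lit 4) (nat_lit 583) (nat_lit 494) (nat_lit 483)) (XT.lf (nat_lit 0) (nat_lit 1145097627) (nat_lit 608) (nat_lit 2405584738) (nat_lit 76) (nat_lit 4888870715) (nat_lit 264) (nat_lit 5) (nat_lit 272) (nat_lit 5) (nat_lit 265) (nat_lit 5) (nat_lit 584) (nat_lit 494) (nat_lit 482))))) (XT.nd (nat_lit 234) (nat_lit 1596) (nat_lit 0) (XT.nd (nat_lit 78) (nat_lit 1140) (nat_lit 0) (XT.lf (nat_lit 0) (nat_lit 4567361396) (nat_lit 532) (nat_lit 439717445) (nat_lit 608) (nat_lit 3499965839) (nat_lit 257) (nat_lit 5) (nat_lit 264) (nat_lit 5) (nat_lit 265) (nat_lit 5) (nat_lit 585) (nat_lit 494) (nat_lit 481)) (XT.nd (nat_lit 78) (nat_lit 532) (nat_lit 0) (XT.lf (nat_lit 0) (nat_lit 358532741) (nat_lit 608) (nat_lit 5504296488) (nat_lit 76) (nat_lit 2713152171) (nat_lit 249) (nat_lit 5)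 (nat_lit 257) (nat_lit 5) (nat_lit 250) (nat_lit 5) (nat_lit 586) (nat_lit 494) (nat_lit 480)) (XT.lf (nat_lit 0) (nat_lit 1539407220) (nat_lit 532) (nat_lit 2686805989) (nat_lit 608) (nat_lit 4420046294) (nat_lit 242) (nat_lit 5) (nat_lit 249) (nat_lit 5) (nat_lit 250) (nat_lit 5) (nat_lit 587) (nat_lit 494) (nat_lit 479)))) (XT.nd (nat_lit 156) (nat_lit 1064) (nat_lit 0) (XT.nd (nat_lit 78) (nat_lit 532) (nat_lit 0) (XT.lf (nat_lit 0) (nat_lit 8151808433) (nat_lit 608) (nat_lit 8353643) (nat_lit 76) (nat_lit 558172687) (nat_lit 242) (nat_lit 5) (nat_lit 250) (nat_lit 5) (nat_lit 243) (nat_lit 4) (nat_lit 588) (nat_lit 494) (nat_lit 478)) (XT.lf (nat_lit 0) (nat_lit 3325652132) (nat_lit 532) (nat_lit 1588771849) (nat_lit 76) (nat_lit 3876879252) (nat_lit 235) (nat_lit 5) (nat_lit 242) (nat_lit 5) (nat_lit 236) (nat_lit 5) (nat_lit 589) (nat_lit 494) (nat_lit 477))) (XT.nd (nat_lit 78) (nat_lit 532) (nat_lit 0) (XT.lf (nat_lit 0) (nat_lit 5678278370) (nat_lit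 532) (nat_lit 1587936936) (nat_lit 608) (nat_lit 1599880988) (nat_lit 228) (nat_lit 5) (nat_lit 235) (nat_lit 5) (nat_lit 236) (nat_lit 5) (nat_lit 590) (nat_lit 494) (nat_lit 476)) (XT.lf (nat_lit 0) (nat_lit 2303297849) (nat_lit 532) (nat_lit 4830249759) (nat_lit 76) (nat_lit 1808719390) (nat_lit 221) (nat_lit 5) (nat_lit 228) (nat_lit 5) (nat_lit 222) (nat_lit 5) (nat_lit 591) (nat_lit 494) (nat_lit 475)))))) (XT.nd (nat_lit 546) (nat_lit 2432) (nat_lit 0) (XT.nd (nat_lit 234) (nat_lit 1824) (nat_lit 0) (XT.nd (nat_lit 78) (nat_lit 532) (nat_lit 0) (XT.lf (nat_lit 0) (nat_lit 2508048857) (nat_lit 456) (nat_lit 3745271971) (nat_lit 532) (nat_lit 2766627227) (nat_lit 215) (nat_lit 5) (nat_lit 221) (nat_lit 5) (nat_lit 222) (nat_lit 5) (nat_lit 592) (nat_lit 494) (nat_lit 474)) (XT.nd (nat_lit 78) (nat_lit 0) (nat_lit 0) (XT.lf (nat_lit 0) (nat_lit 878345832) (nat_lit 456) (nat_lit 269686177) (nat_lit 532) (nat_lit 7951391735) (nat_lit 208) (nat_lit 5) (nat_lit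 214) (nat_lit 5) (nat_lit 215) (nat_lit 5) (nat_lit 593) (nat_lit 494) (nat_lit 473)) (XT.lf (nat_lit 0) (nat_lit 5111692372) (nat_lit 532) (nat_lit 800568003) (nat_lit 76) (nat_lit 3267710118) (nat_lit 208) (nat_lit 5) (nat_lit 215) (nat_lit 5) (nat_lit 209) (nat_lit 5) (nat_lit 594) (nat_lit 494) (nat_lit 472)))) (XT.nd (nat_lit 156) (nat_lit 912) (nat_lit 0) (XT.nd (nat_lit 78) (nat_lit 456) (nat_lit 0) (XT.lf (nat_lit 0) (nat_lit 6771312571) (nat_lit 456) (nat_lit 2372656014) (nat_lit 532) (nat_lit 118375052) (nat_lit 202) (nat_lit 5) (nat_lit 208) (nat_lit 5) (nat_lit 209) (nat_lit 5) (nat_lit 595) (nat_lit 494) (nat_lit 471)) (XT.lf (nat_lit 0) (nat_lit 3849930016) (nat_lit 456) (nat_lit 4237838980) (nat_lit 76) (nat_lit 1258275851) (nat_lit 196) (nat_lit 5) (nat_lit 202) (nat_lit 5) (nat_lit 197) (nat_lit 5) (nat_lit 596) (nat_lit 494) (nat_lit 470))) (XT.nd (nat_lit 78) (nat_lit 456) (nat_lit 0) (XT.lf (nat_lit 0) (nat_lit 3405529219) (nat_lit 456)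 (nat_lit 4489300434) (nat_lit 532) (nat_lit 1536600687) (nat_lit 190) (nat_lit 5) (nat_lit 196) (nat_lit 5) (nat_lit 197) (nat_lit 5) (nat_lit 597) (nat_lit 494) (nat_lit 469)) (XT.lf (nat_lit 0) (nat_lit 1661795500) (nat_lit 380) (nat_lit 791250641) (nat_lit 456) (nat_lit 7065479430) (nat_lit 184) (nat_lit 5) (nat_lit 189) (nat_lit 5) (nat_lit 190) (nat_lit 5) (nat_lit 598) (nat_lit 494) (nat_lit 468))))) (XT.nd (nat_lit 312) (nat_lit 1216) (nat_lit 0) (XT.nd (nat_lit 156) (nat_lit 760) (nat_lit 0) (XT.nd (nat_lit 78) (nat_lit 456) (nat_lit 0) (XT.lf (nat_lit 0) (nat_lit 6506684886) (nat_lit 456) (nat_lit 136599932) (nat_lit 76) (nat_lit 2963781321) (nat_lit 184) (nat_lit 5) (nat_lit 190) (nat_lit 5) (nat_lit 185) (nat_lit 5) (nat_lit 599) (nat_lit 494) (nat_lit 467)) (XT.lf (nat_lit 0) (nat_lit 932989853) (nat_lit 456) (nat_lit 1952651852) (nat_lit 76) (nat_lit 6811588163) (nat_lit 178) (nat_lit 5) (nat_lit 184) (nat_lit 5) (nat_lit 179) (nat_lit 5) (nat_lit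 600) (nat_lit 494) (nat_lit 466))) (XT.nd (nat_lit 78) (nat_lit 380) (nat_lit 0) (XT.lf (nat_lit 0) (nat_lit 4997542198) (nat_lit 456) (nat_lit 3825296226) (nat_lit 76) (nat_lit 966109954) (nat_lit 173) (nat_lit 5) (nat_lit 179) (nat_lit 5) (nat_lit 174) (nat_lit 5) (nat_lit 601) (nat_lit 494) (nat_lit 465)) (XT.lf (nat_lit 0) (nat_lit 4133518376) (nat_lit 380) (nat_lit 5015281341) (nat_lit 456) (nat_lit 733595154) (nat_lit 168) (nat_lit 5) (nat_lit 173) (nat_lit 5) (nat_lit 174) (nat_lit 5) (nat_lit 602) (nat_lit 494) (nat_lit 464)))) (XT.nd (nat_lit 156) (nat_lit 380) (nat_lit 0) (XT.nd (nat_lit 78) (nat_lit 380) (nat_lit 0) (XT.lf (nat_lit 0) (nat_lit 2249214960) (nat_lit 380) (nat_lit 1098371812) (nat_lit 456) (nat_lit 6629945612) (nat_lit 162) (nat_lit 5) (nat_lit 167) (nat_lit 5) (nat_lit 168) (nat_lit 5) (nat_lit 603) (nat_lit 494) (nat_lit 463)) (XT.lf (nat_lit 0) (nat_lit 307019070) (nat_lit 380) (nat_lit 7199937534) (nat_lit 456) (nat_lit 2567393105)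 (nat_lit 157) (nat_lit 5) (nat_lit 162) (nat_lit 5) (nat_lit 163) (nat_lit 5) (nat_lit 604) (nat_lit 494) (nat_lit 462))) (XT.nd (nat_lit 78) (nat_lit 304) (nat_lit 0) (XT.lf (nat_lit 0) (nat_lit 1562104952) (nat_lit 456) (nat_lit 1666728809) (nat_lit 76) (nat_lit 6943939247) (nat_lit 156) (nat_lit 5) (nat_lit 162) (nat_lit 5) (nat_lit 157) (nat_lit 5) (nat_lit 605) (nat_lit 494) (nat_lit 461)) (XT.lf (nat_lit 0) (nat_lit 5736046150) (nat_lit 380) (nat_lit 3696305630) (nat_lit 76) (nat_lit 840550657) (nat_lit 152) (nat_lit 5) (nat_lit 157) (nat_lit 5) (nat_lit 153) (nat_lit 5) (nat_lit 606) (nat_lit 494) (nat_lit 460))))))))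
noncomputable def xc27 : XT := (XT.nd (nat_lit 2262) (nat_lit 2204) (nat_lit 0) (XT.nd (nat_lit 1092) (nat_lit 3116) (nat_lit 0) (XT.nd (nat_lit 546) (nat_lit 1596) (nat_lit 0) (XT.nd (nat_lit 234) (nat_lit 1064) (nat_lit 0) (XT.nd (nat_lit 78) (nat_lit 760) (nat_lit 0) (XT.lf (nat_lit 0) (nat_lit 4588027359) (nat_lit 380) (nat_lit 5416086787) (nat_lit 456) (nat_lit 370708999) (nat_lit 147) (nat_lit 5) (nat_lit 152) (nat_lit 5) (nat_lit 153) (nat_lit 5) (nat_lit 607) (nat_lit 494) (nat_lit 459)) (XT.nd (nat_lit 78) (nat_lit 380) (nat_lit 0) (XT.lf (nat_lit 0) (nat_lit 2534356343) (nat_lit 304) (nat_lit 1283312099) (nat_lit 380) (nat_lit 6660816184) (nat_lit 142) (nat_lit 5) (nat_lit 146) (nat_lit 5) (nat_lit 147) (nat_lit 5) (nat_lit 608) (nat_lit 494) (nat_lit 458)) (XT.lf (nat_lit 0) (nat_lit 416979423) (nat_lit 380) (nat_lit 7677332787) (nat_lit 456) (nat_lit 2489670424) (nat_lit 137) (nat_lit 5) (nat_lit 142) (nat_lit 5) (nat_lit 143) (nat_lit 5) (nat_lit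 609) (nat_lit 494) (nat_lit 457)))) (XT.nd (nat_lit 156) (nat_lit 684) (nat_lit 0) (XT.nd (nat_lit 78) (nat_lit 304) (nat_lit 0) (XT.lf (nat_lit 0) (nat_lit 1752665187) (nat_lit 456) (nat_lit 1741643403) (nat_lit 76) (nat_lit 7196836052) (nat_lit 136) (nat_lit 5) (nat_lit 142) (nat_lit 5) (nat_lit 137) (nat_lit 5) (nat_lit 610) (nat_lit 494) (nat_lit 456)) (XT.lf (nat_lit 0) (nat_lit 6045942063) (nat_lit 380) (nat_lit 3962120763) (nat_lit 76) (nat_lit 792070769) (nat_lit 132) (nat_lit 5) (nat_lit 137) (nat_lit 5) (nat_lit 133) (nat_lit 5) (nat_lit 611) (nat_lit 494) (nat_lit 455))) (XT.nd (nat_lit 78) (nat_lit 380) (nat_lit 0) (XT.lf (nat_lit 0) (nat_lit 4657255131) (nat_lit 304) (nat_lit 5782979407) (nat_lit 380) (nat_lit 470766226) (nat_lit 128) (nat_lit 5) (nat_lit 132) (nat_lit 5) (nat_lit 133) (nat_lit 5) (nat_lit 612) (nat_lit 494) (nat_lit 454)) (XT.lf (nat_lit 0) (nat_lit 2402666246) (nat_lit 304) (nat_lit 1437023214) (nat_lit 380) (nat_lit 7184041205)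 (nat_lit 123) (nat_lit 5) (nat_lit 127) (nat_lit 5) (nat_lit 128) (nat_lit 5) (nat_lit 613) (nat_lit 494) (nat_lit 453))))) (XT.nd (nat_lit 234) (nat_lit 988) (nat_lit 0) (XT.nd (nat_lit 78) (nat_lit 304) (nat_lit 0) (XT.lf (nat_lit 0) (nat_lit 74464942) (nat_lit 304) (nat_lit 8168129689) (nat_lit 380) (nat_lit 2895808772) (nat_lit 119) (nat_lit 5) (nat_lit 123) (nat_lit 5) (nat_lit 124) (nat_lit 5) (nat_lit 614) (nat_lit 494) (nat_lit 452)) (XT.nd (nat_lit 78) (nat_lit 228) (nat_lit 0) (XT.lf (nat_lit 0) (nat_lit 1477025332) (nat_lit 380) (nat_lit 2295825798) (nat_lit 76) (nat_lit 7481963347) (nat_lit 118) (nat_lit 5) (nat_lit 123) (nat_lit 5) (nat_lit 119) (nat_lit 5) (nat_lit 615) (nat_lit 494) (nat_lit 451)) (XT.lf (nat_lit 0) (nat_lit 5897906324) (nat_lit 304) (nat_lit 4743869026) (nat_lit 76) (nat_lit 731409569) (nat_lit 115) (nat_lit 5) (nat_lit 119) (nat_lit 5) (nat_lit 116) (nat_lit 5) (nat_lit 616) (nat_lit 494) (nat_lit 450)))) (XT.nd (nat_lit 156)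 (nat_lit 380) (nat_lit 0) (XT.nd (nat_lit 78) (nat_lit 304) (nat_lit 0) (XT.lf (nat_lit 0) (nat_lit 4219240383) (nat_lit 304) (nat_lit 6207512185) (nat_lit 380) (nat_lit 1066780501) (nat_lit 111) (nat_lit 5) (nat_lit 115) (nat_lit 5) (nat_lit 116) (nat_lit 5) (nat_lit 617) (nat_lit 494) (nat_lit 449)) (XT.lf (nat_lit 0) (nat_lit 1728879065) (nat_lit 228) (nat_lit 1651057933) (nat_lit 304) (nat_lit 8236006344) (nat_lit 107) (nat_lit 5) (nat_lit 110) (nat_lit 5) (nat_lit 111) (nat_lit 5) (nat_lit 618) (nat_lit 494) (nat_lit 448))) (XT.nd (nat_lit 78) (nat_lit 380) (nat_lit 0) (XT.lf (nat_lit 0) (nat_lit 7921878272) (nat_lit 304) (nat_lit 837735321) (nat_lit 76) (nat_lit 2980636904) (nat_lit 107) (nat_lit 5) (nat_lit 111) (nat_lit 5) (nat_lit 108) (nat_lit 5) (nat_lit 619) (nat_lit 494) (nat_lit 447)) (XT.lf (nat_lit 0) (nat_lit 697175582) (nat_lit 380) (nat_lit 3459476207) (nat_lit 76) (nat_lit 7709932269) (nat_lit 102) (nat_lit 5) (nat_lit 107) (nat_lit 5)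 (nat_lit 103) (nat_lit 5) (nat_lit 620) (nat_lit 494) (nat_lit 446)))))) (XT.nd (nat_lit 546) (nat_lit 1520) (nat_lit 0) (XT.nd (nat_lit 234) (nat_lit 760) (nat_lit 0) (XT.nd (nat_lit 78) (nat_lit 608) (nat_lit 0) (XT.lf (nat_lit 0) (nat_lit 5252163605) (nat_lit 304) (nat_lit 6175099413) (nat_lit 76) (nat_lit 567672446) (nat_lit 99) (nat_lit 5) (nat_lit 103) (nat_lit 5) (nat_lit 100) (nat_lit 5) (nat_lit 621) (nat_lit 494) (nat_lit 445)) (XT.nd (nat_lit 78) (nat_lit 304) (nat_lit 0) (XT.lf (nat_lit 0) (nat_lit 3139260315) (nat_lit 304) (nat_lit 6783462686) (nat_lit 380) (nat_lit 2202642557) (nat_lit 95) (nat_lit 5) (nat_lit 99) (nat_lit 5) (nat_lit 100) (nat_lit 5) (nat_lit 622) (nat_lit 494) (nat_lit 444)) (XT.lf (nat_lit 0) (nat_lit 374343993) (nat_lit 228) (nat_lit 2019524641) (nat_lit 304) (nat_lit 9864272809) (nat_lit 91) (nat_lit 5) (nat_lit 94) (nat_lit 5) (nat_lit 95) (nat_lit 5) (nat_lit 623) (nat_lit 494) (nat_lit 443)))) (XT.nd (nat_lit 156) (nat_lit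 532) (nat_lit 0) (XT.nd (nat_lit 78) (nat_lit 228) (nat_lit 0) (XT.lf (nat_lit 0) (nat_lit 7085443421) (nat_lit 304) (nat_lit 2462719614) (nat_lit 76) (nat_lit 2844467111) (nat_lit 91) (nat_lit 5) (nat_lit 95) (nat_lit 5) (nat_lit 92) (nat_lit 5) (nat_lit 624) (nat_lit 494) (nat_lit 442)) (XT.lf (nat_lit 0) (nat_lit 7147995349) (nat_lit 228) (nat_lit 4737011921) (nat_lit 304) (nat_lit 644519210) (nat_lit 88) (nat_lit 5) (nat_lit 91) (nat_lit 5) (nat_lit 92) (nat_lit 5) (nat_lit 625) (nat_lit 494) (nat_lit 441))) (XT.nd (nat_lit 78) (nat_lit 228) (nat_lit 0) (XT.lf (nat_lit 0) (nat_lit 4057623937) (nat_lit 304) (nat_lit 8404637591) (nat_lit 76) (nat_lit 206363420) (nat_lit 84) (nat_lit 5) (nat_lit 88) (nat_lit 5) (nat_lit 85) (nat_lit 5) (nat_lit 626) (nat_lit 494) (nat_lit 440)) (XT.lf (nat_lit 0) (nat_lit 1266910778) (nat_lit 228) (nat_lit 7608846927) (nat_lit 304) (nat_lit 3934051865) (nat_lit 81) (nat_lit 5) (nat_lit 84) (nat_lit 5) (nat_lit 85) (nat_lit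 5) (nat_lit 627) (nat_lit 494) (nat_lit 439))))) (XT.nd (nat_lit 312) (nat_lit 684) (nat_lit 0) (XT.nd (nat_lit 156) (nat_lit 532) (nat_lit 0) (XT.nd (nat_lit 78) (nat_lit 228) (nat_lit 0) (XT.lf (nat_lit 0) (nat_lit 836939139) (nat_lit 304) (nat_lit 1792165127) (nat_lit 76) (nat_lit 10324376457) (nat_lit 80) (nat_lit 5) (nat_lit 84) (nat_lit 5) (nat_lit 81) (nat_lit 5) (nat_lit 628) (nat_lit 494) (nat_lit 438)) (XT.lf (nat_lit 0) (nat_lit 5675482399) (nat_lit 304) (nat_lit 4958973166) (nat_lit 76) (nat_lit 2464554359) (nat_lit 77) (nat_lit 5) (nat_lit 81) (nat_lit 5) (nat_lit 78) (nat_lit 5) (nat_lit 629) (nat_lit 494) (nat_lit 437))) (XT.nd (nat_lit 78) (nat_lit 304) (nat_lit 0) (XT.lf (nat_lit 0) (nat_lit 5018208546) (nat_lit 228) (nat_lit 5610426394) (nat_lit 304) (nat_lit 2618458876) (nat_lit 74) (nat_lit 5) (nat_lit 77) (nat_lit 5) (nat_lit 78) (nat_lit 5) (nat_lit 630) (nat_lit 494) (nat_lit 436)) (XT.lf (nat_lit 0) (nat_lit 1795024680) (nat_lit 228)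 (nat_lit 458712741) (nat_lit 304) (nat_lit 11144087102) (nat_lit 70) (nat_lit 5) (nat_lit 73) (nat_lit 5) (nat_lit 74) (nat_lit 5) (nat_lit 631) (nat_lit 494) (nat_lit 435)))) (XT.nd (nat_lit 156) (nat_lit 456) (nat_lit 0) (XT.nd (nat_lit 78) (nat_lit 228) (nat_lit 0) (XT.lf (nat_lit 0) (nat_lit 7231029159) (nat_lit 304) (nat_lit 1546653390) (nat_lit 76) (nat_lit 4772687705) (nat_lit 70) (nat_lit 5) (nat_lit 74) (nat_lit 5) (nat_lit 71) (nat_lit 5) (nat_lit 632) (nat_lit 494) (nat_lit 434)) (XT.lf (nat_lit 0) (nat_lit 8745512458) (nat_lit 228) (nat_lit 3578992413) (nat_lit 304) (nat_lit 1381130076) (nat_lit 67) (nat_lit 5) (nat_lit 70) (nat_lit 5) (nat_lit 71) (nat_lit 5) (nat_lit 633) (nat_lit 494) (nat_lit 433))) (XT.nd (nat_lit 78) (nat_lit 228) (nat_lit 0) (XT.lf (nat_lit 0) (nat_lit 3621529823) (nat_lit 228) (nat_lit 8504430372) (nat_lit 76) (nat_lit 1737298158) (nat_lit 64) (nat_lit 5) (nat_lit 67) (nat_lit 5) (nat_lit 65) (nat_lit 5) (nat_lit 634) (nat_lit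 494) (nat_lit 432)) (XT.lf (nat_lit 0) (nat_lit 1842149871) (nat_lit 228) (nat_lit 6889802535) (nat_lit 304) (nat_lit 5291375943) (nat_lit 61) (nat_lit 5) (nat_lit 64) (nat_lit 5) (nat_lit 65) (nat_lit 5) (nat_lit 635) (nat_lit 494) (nat_lit 431))))))) (XT.nd (nat_lit 76050) (nat_lit 0) (nat_lit 17632) (XT.nd (nat_lit 546) (nat_lit 1064) (nat_lit 0) (XT.nd (nat_lit 234) (nat_lit 684) (nat_lit 0) (XT.nd (nat_lit 78) (nat_lit 456) (nat_lit 0) (XT.lf (nat_lit 0) (nat_lit 12434481834) (nat_lit 228) (nat_lit 1524534844) (nat_lit 304) (nat_lit 227295148) (nat_lit 61) (nat_lit 5) (nat_lit 64) (nat_lit 5) (nat_lit 65) (nat_lit 5) (nat_lit 636) (nat_lit 494) (nat_lit 430)) (XT.nd (nat_lit 78) (nat_lit 228) (nat_lit 0) (XT.lf (nat_lit 0) (nat_lit 4914990507) (nat_lit 228) (nat_lit 5482426057) (nat_lit 76) (nat_lit 3953664167) (nat_lit 58) (nat_lit 5) (nat_lit 61) (nat_lit 5) (nat_lit 59) (nat_lit 5) (nat_lit 637) (nat_lit 494) (nat_lit 429)) (XT.lf (nat_lit 0) (nat_lit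 5187093010) (nat_lit 228) (nat_lit 4983640422) (nat_lit 304) (nat_lit 4348109136) (nat_lit 55) (nat_lit 5) (nat_lit 58) (nat_lit 5) (nat_lit 59) (nat_lit 5) (nat_lit 638) (nat_lit 494) (nat_lit 428)))) (XT.nd (nat_lit 156) (nat_lit 456) (nat_lit 0) (XT.nd (nat_lit 78) (nat_lit 0) (nat_lit 0) (XT.lf (nat_lit 0) (nat_lit 838384736) (nat_lit 228) (nat_lit 13301446026) (nat_lit 76) (nat_lit 549864443) (nat_lit 52) (nat_lit 5) (nat_lit 55) (nat_lit 5) (nat_lit 53) (nat_lit 5) (nat_lit 639) (nat_lit 494) (nat_lit 427)) (XT.lf (nat_lit 0) (nat_lit 6124699232) (nat_lit 228) (nat_lit 2551602858) (nat_lit 76) (nat_lit 6186002410) (nat_lit 52) (nat_lit 5) (nat_lit 55) (nat_lit 5) (nat_lit 53) (nat_lit 5) (nat_lit 640) (nat_lit 494) (nat_lit 426))) (XT.nd (nat_lit 78) (nat_lit 228) (nat_lit 0) (XT.lf (nat_lit 0) (nat_lit 8449725247) (nat_lit 228) (nat_lit 3080912857) (nat_lit 304) (nat_lit 3507450565) (nat_lit 49) (nat_lit 5) (nat_lit 52) (nat_lit 5) (nat_lit 53) (nat_lit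 5) (nat_lit 641) (nat_lit 494) (nat_lit 425)) (XT.lf (nat_lit 0) (nat_lit 1825850230) (nat_lit 228) (nat_lit 10773504640) (nat_lit 76) (nat_lit 2617346827) (nat_lit 46) (nat_lit 5) (nat_lit 49) (nat_lit 5) (nat_lit 47) (nat_lit 5) (nat_lit 642) (nat_lit 494) (nat_lit 424))))) (XT.nd (nat_lit 312) (nat_lit 532) (nat_lit 0) (XT.nd (nat_lit 156) (nat_lit 380) (nat_lit 0) (XT.nd (nat_lit 78) (nat_lit 0) (nat_lit 0) (XT.lf (nat_lit 0) (nat_lit 271840349) (nat_lit 152) (nat_lit 6972925312) (nat_lit 228) (nat_lit 8153139986) (nat_lit 44) (nat_lit 5) (nat_lit 46) (nat_lit 5) (nat_lit 47) (nat_lit 5) (nat_lit 643) (nat_lit 494) (nat_lit 423)) (XT.lf (nat_lit 0) (nat_lit 11610126477) (nat_lit 152) (nat_lit 1193745327) (nat_lit 228) (nat_lit 2778226224) (nat_lit 44) (nat_lit 5) (nat_lit 46) (nat_lit 5) (nat_lit 47) (nat_lit 5) (nat_lit 644) (nat_lit 494) (nat_lit 422))) (XT.nd (nat_lit 78) (nat_lit 152) (nat_lit 0) (XT.lf (nat_lit 0) (nat_lit 2707630924) (nat_lit 228)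 (nat_lit 8388432838) (nat_lit 76) (nat_lit 4672781705) (nat_lit 41) (nat_lit 5) (nat_lit 44) (nat_lit 5) (nat_lit 42) (nat_lit 5) (nat_lit 645) (nat_lit 494) (nat_lit 421)) (XT.lf (nat_lit 0) (nat_lit 2994500791) (nat_lit 152) (nat_lit 5285862049) (nat_lit 228) (nat_lit 7678311139) (nat_lit 39) (nat_lit 5) (nat_lit 41) (nat_lit 5) (nat_lit 42) (nat_lit 5) (nat_lit 646) (nat_lit 494) (nat_lit 420)))) (XT.nd (nat_lit 156) (nat_lit 304) (nat_lit 0) (XT.nd (nat_lit 78) (nat_lit 228) (nat_lit 0) (XT.lf (nat_lit 0) (nat_lit 13985610880) (nat_lit 228) (nat_lit 1510181596) (nat_lit 76) (nat_lit 656085911) (nat_lit 39) (nat_lit 5) (nat_lit 42) (nat_lit 5) (nat_lit 40) (nat_lit 4) (nat_lit 647) (nat_lit 494) (nat_lit 419)) (XT.lf (nat_lit 0) (nat_lit 3473350785) (nat_lit 228) (nat_lit 6170737340) (nat_lit 76) (nat_lit 6703157314) (nat_lit 36) (nat_lit 5) (nat_lit 39) (nat_lit 5) (nat_lit 37) (nat_lit 5) (nat_lit 648) (nat_lit 494) (nat_lit 418))) (XT.nd (nat_lit 78)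 (nat_lit 152) (nat_lit 0) (XT.lf (nat_lit 0) (nat_lit 5557676243) (nat_lit 152) (nat_lit 3646454315) (nat_lit 228) (nat_lit 7341955910) (nat_lit 34) (nat_lit 5) (nat_lit 36) (nat_lit 5) (nat_lit 37) (nat_lit 5) (nat_lit 649) (nat_lit 494) (nat_lit 417)) (XT.lf (nat_lit 0) (nat_lit 778141640) (nat_lit 152) (nat_lit 14295313838) (nat_lit 228) (nat_lit 1674970761) (nat_lit 32) (nat_lit 5) (nat_lit 34) (nat_lit 5) (nat_lit 35) (nat_lit 4) (nat_lit 650) (nat_lit 494) (nat_lit 416)))))) (XT.nd (nat_lit 546) (nat_lit 3952) (nat_lit 0) (XT.nd (nat_lit 234) (nat_lit 2888) (nat_lit 0) (XT.nd (nat_lit 78) (nat_lit 760) (nat_lit 0) (XT.lf (nat_lit 0) (nat_lit 1012287752) (nat_lit 760) (nat_lit 1403762009) (nat_lit 760) (nat_lit 1403762009) (nat_lit 364) (nat_lit 4) (nat_lit 374) (nat_lit 5) (nat_lit 374) (nat_lit 4) (nat_lit 570) (nat_lit 495) (nat_lit 495)) (XT.nd (nat_lit 78) (nat_lit 0) (nat_lit 0) (XT.lf (nat_lit 0) (nat_lit 552491163) (nat_lit 684) (nat_lit 411019050)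 (nat_lit 760) (nat_lit 6725274792) (nat_lit 354) (nat_lit 5) (nat_lit 363) (nat_lit 5) (nat_lit 364) (nat_lit 4) (nat_lit 571) (nat_lit 495) (nat_lit 494)) (XT.lf (nat_lit 0) (nat_lit 4755303296) (nat_lit 760) (nat_lit 934444298) (nat_lit 0) (nat_lit 2049156690) (nat_lit 354) (nat_lit 5) (nat_lit 364) (nat_lit 4) (nat_lit 354) (nat_lit 4) (nat_lit 572) (nat_lit 495) (nat_lit 493)))) (XT.nd (nat_lit 156) (nat_lit 1368) (nat_lit 0) (XT.nd (nat_lit 78) (nat_lit 684) (nat_lit 0) (XT.lf (nat_lit 0) (nat_lit 792520651) (nat_lit 836) (nat_lit 2418663260) (nat_lit 76) (nat_lit 4579327306) (nat_lit 343) (nat_lit 5) (nat_lit 354) (nat_lit 5) (nat_lit 344) (nat_lit 4) (nat_lit 573) (nat_lit 495) (nat_lit 492)) (XT.lf (nat_lit 0) (nat_lit 3923134749) (nat_lit 684) (nat_lit 646342969) (nat_lit 760) (nat_lit 3273976975) (nat_lit 334) (nat_lit 5) (nat_lit 343) (nat_lit 5) (nat_lit 344) (nat_lit 4) (nat_lit 574) (nat_lit 495) (nat_lit 491))) (XT.nd (nat_lit 78) (nat_lit 608)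 (nat_lit 0) (XT.lf (nat_lit 0) (nat_lit 496730922) (nat_lit 760) (nat_lit 5437404874) (nat_lit 76) (nat_lit 1963675214) (nat_lit 324) (nat_lit 5) (nat_lit 334) (nat_lit 5) (nat_lit 325) (nat_lit 4) (nat_lit 575) (nat_lit 495) (nat_lit 490)) (XT.lf (nat_lit 0) (nat_lit 972348660) (nat_lit 608) (nat_lit 3298213871) (nat_lit 684) (nat_lit 3682832009) (nat_lit 316) (nat_lit 5) (nat_lit 324) (nat_lit 5) (nat_lit 325) (nat_lit 4) (nat_lit 576) (nat_lit 495) (nat_lit 489))))) (XT.nd (nat_lit 312) (nat_lit 1900) (nat_lit 0) (XT.nd (nat_lit 156) (nat_lit 1292) (nat_lit 0) (XT.nd (nat_lit 78) (nat_lit 684) (nat_lit 0) (XT.lf (nat_lit 0) (nat_lit 79817201) (nat_lit 684) (nat_lit 510060383) (nat_lit 76) (nat_lit 7420772099) (nat_lit 315) (nat_lit 5) (nat_lit 324) (nat_lit 5) (nat_lit 316) (nat_lit 5) (nat_lit 577) (nat_lit 495) (nat_lit 488)) (XT.lf (nat_lit 0) (nat_lit 3858256386) (nat_lit 760) (nat_lit 2020097712) (nat_lit 76) (nat_lit 2190415603) (nat_lit 306) (nat_lit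 5) (nat_lit 316) (nat_lit 5) (nat_lit 307) (nat_lit 4) (nat_lit 578) (nat_lit 495) (nat_lit 487))) (XT.nd (nat_lit 78) (nat_lit 684) (nat_lit 0) (XT.lf (nat_lit 0) (nat_lit 4591076975) (nat_lit 608) (nat_lit 3094979454) (nat_lit 684) (nat_lit 442523424) (nat_lit 298) (nat_lit 5) (nat_lit 306) (nat_lit 5) (nat_lit 307) (nat_lit 4) (nat_lit 579) (nat_lit 495) (nat_lit 486)) (XT.lf (nat_lit 0) (nat_lit 3108122870) (nat_lit 608) (nat_lit 218849056) (nat_lit 684) (nat_lit 4862761145) (nat_lit 289) (nat_lit 5) (nat_lit 297) (nat_lit 5) (nat_lit 298) (nat_lit 5) (nat_lit 580) (nat_lit 495) (nat_lit 485)))) (XT.nd (nat_lit 156) (nat_lit 608) (nat_lit 0) (XT.nd (nat_lit 78) (nat_lit 684) (nat_lit 0) (XT.lf (nat_lit 0) (nat_lit 1599656122) (nat_lit 608) (nat_lit 5555682622) (nat_lit 684) (nat_lit 1096927335) (nat_lit 281) (nat_lit 5) (nat_lit 289) (nat_lit 5) (nat_lit 290) (nat_lit 4) (nat_lit 581) (nat_lit 495) (nat_lit 484)) (XT.lf (nat_lit 0) (nat_lit 65561756) (nat_lit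 608) (nat_lit 2616638702) (nat_lit 684) (nat_lit 5634016815) (nat_lit 272) (nat_lit 5) (nat_lit 280) (nat_lit 5) (nat_lit 281) (nat_lit 5) (nat_lit 582) (nat_lit 495) (nat_lit 483))) (XT.nd (nat_lit 78) (nat_lit 608) (nat_lit 0) (XT.lf (nat_lit 0) (nat_lit 6507954940) (nat_lit 684) (nat_lit 1466724225) (nat_lit 76) (nat_lit 406911845) (nat_lit 272) (nat_lit 5) (nat_lit 281) (nat_lit 5) (nat_lit 273) (nat_lit 4) (nat_lit 583) (nat_lit 495) (nat_lit 482)) (XT.lf (nat_lit 0) (nat_lit 1928224701) (nat_lit 608) (nat_lit 3037181248) (nat_lit 76) (nat_lit 3482774481) (nat_lit 264) (nat_lit 5) (nat_lit 272) (nat_lit 5) (nat_lit 265) (nat_lit 5) (nat_lit 584) (nat_lit 495) (nat_lit 481))))))))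
noncomputable def xc28 : XT := (XT.nd (nat_lit 2262) (nat_lit 5928) (nat_lit 0) (XT.nd (nat_lit 1092) (nat_lit 4332) (nat_lit 0) (XT.nd (nat_lit 546) (nat_lit 2812) (nat_lit 0) (XT.nd (nat_lit 234) (nat_lit 1596) (nat_lit 0) (XT.nd (nat_lit 78) (nat_lit 1140) (nat_lit 0) (XT.lf (nat_lit 0) (nat_lit 3885729461) (nat_lit 532) (nat_lit 1870232953) (nat_lit 608) (nat_lit 2760395966) (nat_lit 257) (nat_lit 5) (nat_lit 264) (nat_lit 5) (nat_lit 265) (nat_lit 5) (nat_lit 585) (nat_lit 495) (nat_lit 480)) (XT.nd (nat_lit 78) (nat_lit 532) (nat_lit 0) (XT.lf (nat_lit 0) (nat_lit 1044496463) (nat_lit 608) (nat_lit 6251606172) (nat_lit 76) (nat_lit 1289975983) (nat_lit 249) (nat_lit 5) (nat_lit 257) (nat_lit 5) (nat_lit 250) (nat_lit 5) (nat_lit 586) (nat_lit 495) (nat_lit 479)) (XT.lf (nat_lit 0) (nat_lit 740151115) (nat_lit 532) (nat_lit 4137382686) (nat_lit 608) (nat_lit 3779517177) (nat_lit 242) (nat_lit 5) (nat_lit 249) (nat_lit 5) (nat_lit 250) (nat_lit 5) (nat_lit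 587) (nat_lit 495) (nat_lit 478)))) (XT.nd (nat_lit 156) (nat_lit 1064) (nat_lit 0) (XT.nd (nat_lit 78) (nat_lit 456) (nat_lit 0) (XT.lf (nat_lit 0) (nat_lit 39997620) (nat_lit 608) (nat_lit 856767663) (nat_lit 76) (nat_lit 7833013378) (nat_lit 241) (nat_lit 5) (nat_lit 249) (nat_lit 5) (nat_lit 242) (nat_lit 5) (nat_lit 588) (nat_lit 495) (nat_lit 477)) (XT.lf (nat_lit 0) (nat_lit 3884194195) (nat_lit 532) (nat_lit 2499646404) (nat_lit 76) (nat_lit 2419645317) (nat_lit 235) (nat_lit 5) (nat_lit 242) (nat_lit 5) (nat_lit 236) (nat_lit 5) (nat_lit 589) (nat_lit 495) (nat_lit 476))) (XT.nd (nat_lit 78) (nat_lit 532) (nat_lit 0) (XT.lf (nat_lit 0) (nat_lit 4713762722) (nat_lit 532) (nat_lit 3076192409) (nat_lit 608) (nat_lit 1089021180) (nat_lit 228) (nat_lit 5) (nat_lit 235) (nat_lit 5) (nat_lit 236) (nat_lit 5) (nat_lit 590) (nat_lit 495) (nat_lit 475)) (XT.lf (nat_lit 0) (nat_lit 2762534596) (nat_lit 532) (nat_lit 5869392828) (nat_lit 76) (nat_lit 324052955)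 (nat_lit 221) (nat_lit 5) (nat_lit 228) (nat_lit 5) (nat_lit 222) (nat_lit 5) (nat_lit 591) (nat_lit 495) (nat_lit 474))))) (XT.nd (nat_lit 234) (nat_lit 1824) (nat_lit 0) (XT.nd (nat_lit 78) (nat_lit 532) (nat_lit 0) (XT.lf (nat_lit 0) (nat_lit 1413235157) (nat_lit 456) (nat_lit 5263991139) (nat_lit 532) (nat_lit 2357142979) (nat_lit 215) (nat_lit 5) (nat_lit 221) (nat_lit 5) (nat_lit 222) (nat_lit 5) (nat_lit 592) (nat_lit 495) (nat_lit 473)) (XT.nd (nat_lit 78) (nat_lit 456) (nat_lit 0) (XT.lf (nat_lit 0) (nat_lit 1518320722) (nat_lit 532) (nat_lit 286482456) (nat_lit 76) (nat_lit 7309666281) (nat_lit 214) (nat_lit 5) (nat_lit 221) (nat_lit 5) (nat_lit 215) (nat_lit 5) (nat_lit 593) (nat_lit 495) (nat_lit 472)) (XT.lf (nat_lit 0) (nat_lit 5442192491) (nat_lit 532) (nat_lit 2015921539) (nat_lit 76) (nat_lit 1737699095) (nat_lit 208) (nat_lit 5) (nat_lit 215) (nat_lit 5) (nat_lit 209) (nat_lit 5) (nat_lit 594) (nat_lit 495) (nat_lit 471)))) (XT.nd (nat_lit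 156) (nat_lit 912) (nat_lit 0) (XT.nd (nat_lit 78) (nat_lit 380) (nat_lit 0) (XT.lf (nat_lit 0) (nat_lit 157830033) (nat_lit 532) (nat_lit 3781471279) (nat_lit 76) (nat_lit 5339578132) (nat_lit 201) (nat_lit 5) (nat_lit 208) (nat_lit 5) (nat_lit 202) (nat_lit 5) (nat_lit 595) (nat_lit 495) (nat_lit 470)) (XT.lf (nat_lit 0) (nat_lit 3766844434) (nat_lit 380) (nat_lit 313412449) (nat_lit 456) (nat_lit 5283195991) (nat_lit 196) (nat_lit 5) (nat_lit 201) (nat_lit 5) (nat_lit 202) (nat_lit 5) (nat_lit 596) (nat_lit 495) (nat_lit 469))) (XT.nd (nat_lit 78) (nat_lit 456) (nat_lit 0) (XT.lf (nat_lit 0) (nat_lit 1989141152) (nat_lit 456) (nat_lit 6097683447) (nat_lit 532) (nat_lit 1362781464) (nat_lit 190) (nat_lit 5) (nat_lit 196) (nat_lit 5) (nat_lit 197) (nat_lit 5) (nat_lit 597) (nat_lit 495) (nat_lit 468)) (XT.lf (nat_lit 0) (nat_lit 165309411) (nat_lit 380) (nat_lit 2422546903) (nat_lit 456) (nat_lit 6949558013) (nat_lit 184) (nat_lit 5) (nat_lit 189) (nat_lit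 5) (nat_lit 190) (nat_lit 5) (nat_lit 598) (nat_lit 495) (nat_lit 467)))))) (XT.nd (nat_lit 546) (nat_lit 2204) (nat_lit 0) (XT.nd (nat_lit 234) (nat_lit 1292) (nat_lit 0) (XT.nd (nat_lit 78) (nat_lit 836) (nat_lit 0) (XT.lf (nat_lit 0) (nat_lit 6604062694) (nat_lit 456) (nat_lit 1682723673) (nat_lit 76) (nat_lit 1339918171) (nat_lit 184) (nat_lit 5) (nat_lit 190) (nat_lit 5) (nat_lit 185) (nat_lit 5) (nat_lit 599) (nat_lit 495) (nat_lit 466)) (XT.nd (nat_lit 78) (nat_lit 380) (nat_lit 0) (XT.lf (nat_lit 0) (nat_lit 972712208) (nat_lit 456) (nat_lit 3581026911) (nat_lit 76) (nat_lit 5163859961) (nat_lit 178) (nat_lit 5) (nat_lit 184) (nat_lit 5) (nat_lit 179) (nat_lit 5) (nat_lit 600) (nat_lit 495) (nat_lit 465)) (XT.lf (nat_lit 0) (nat_lit 4278967546) (nat_lit 380) (nat_lit 714727251) (nat_lit 456) (nat_lit 4816495126) (nat_lit 173) (nat_lit 5) (nat_lit 178) (nat_lit 5) (nat_lit 179) (nat_lit 5) (nat_lit 601) (nat_lit 495) (nat_lit 464)))) (XT.nd (nat_lit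 156) (nat_lit 456) (nat_lit 0) (XT.nd (nat_lit 78) (nat_lit 456) (nat_lit 0) (XT.lf (nat_lit 0) (nat_lit 2368308892) (nat_lit 380) (nat_lit 6734467617) (nat_lit 456) (nat_lit 801704344) (nat_lit 168) (nat_lit 5) (nat_lit 173) (nat_lit 5) (nat_lit 174) (nat_lit 5) (nat_lit 602) (nat_lit 495) (nat_lit 463)) (XT.lf (nat_lit 0) (nat_lit 397221557) (nat_lit 380) (nat_lit 2845126861) (nat_lit 456) (nat_lit 6758040124) (nat_lit 162) (nat_lit 5) (nat_lit 167) (nat_lit 5) (nat_lit 168) (nat_lit 5) (nat_lit 603) (nat_lit 495) (nat_lit 462))) (XT.nd (nat_lit 78) (nat_lit 456) (nat_lit 0) (XT.lf (nat_lit 0) (nat_lit 7362535721) (nat_lit 456) (nat_lit 1601517786) (nat_lit 76) (nat_lit 1133936879) (nat_lit 162) (nat_lit 5) (nat_lit 168) (nat_lit 5) (nat_lit 163) (nat_lit 5) (nat_lit 604) (nat_lit 495) (nat_lit 461)) (XT.lf (nat_lit 0) (nat_lit 1359865356) (nat_lit 456) (nat_lit 3660314867) (nat_lit 76) (nat_lit 5176983762) (nat_lit 156) (nat_lit 5) (nat_lit 162) (nat_lit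 5) (nat_lit 157) (nat_lit 5) (nat_lit 605) (nat_lit 495) (nat_lit 460))))) (XT.nd (nat_lit 312) (nat_lit 1140) (nat_lit 0) (XT.nd (nat_lit 156) (nat_lit 380) (nat_lit 0) (XT.nd (nat_lit 78) (nat_lit 380) (nat_lit 0) (XT.lf (nat_lit 0) (nat_lit 4521352396) (nat_lit 304) (nat_lit 968272886) (nat_lit 380) (nat_lit 4808552574) (nat_lit 152) (nat_lit 5) (nat_lit 156) (nat_lit 5) (nat_lit 157) (nat_lit 5) (nat_lit 606) (nat_lit 495) (nat_lit 459)) (XT.lf (nat_lit 0) (nat_lit 2445282328) (nat_lit 380) (nat_lit 7267080026) (nat_lit 456) (nat_lit 688643630) (nat_lit 147) (nat_lit 5) (nat_lit 152) (nat_lit 5) (nat_lit 153) (nat_lit 5) (nat_lit 607) (nat_lit 495) (nat_lit 458))) (XT.nd (nat_lit 78) (nat_lit 0) (nat_lit 0) (XT.lf (nat_lit 0) (nat_lit 297680903) (nat_lit 304) (nat_lit 3166635038) (nat_lit 380) (nat_lit 7041185333) (nat_lit 142) (nat_lit 5) (nat_lit 146) (nat_lit 5) (nat_lit 147) (nat_lit 5) (nat_lit 608) (nat_lit 495) (nat_lit 457)) (XT.lf (nat_lit 0)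 (nat_lit 7701089537) (nat_lit 380) (nat_lit 1880562384) (nat_lit 76) (nat_lit 1030145519) (nat_lit 142) (nat_lit 5) (nat_lit 147) (nat_lit 5) (nat_lit 143) (nat_lit 5) (nat_lit 609) (nat_lit 495) (nat_lit 456)))) (XT.nd (nat_lit 156) (nat_lit 380) (nat_lit 0) (XT.nd (nat_lit 78) (nat_lit 304) (nat_lit 0) (XT.lf (nat_lit 0) (nat_lit 1299823189) (nat_lit 456) (nat_lit 4130096401) (nat_lit 76) (nat_lit 5289841786) (nat_lit 136) (nat_lit 5) (nat_lit 142) (nat_lit 5) (nat_lit 137) (nat_lit 5) (nat_lit 610) (nat_lit 495) (nat_lit 455)) (XT.lf (nat_lit 0) (nat_lit 4382728501) (nat_lit 304) (nat_lit 1164799978) (nat_lit 380) (nat_lit 5282133994) (nat_lit 132) (nat_lit 5) (nat_lit 136) (nat_lit 5) (nat_lit 137) (nat_lit 5) (nat_lit 611) (nat_lit 495) (nat_lit 454))) (XT.nd (nat_lit 78) (nat_lit 76) (nat_lit 0) (XT.lf (nat_lit 0) (nat_lit 2106555015) (nat_lit 304) (nat_lit 7786878331) (nat_lit 380) (nat_lit 1048064746) (nat_lit 128) (nat_lit 5) (nat_lit 132) (nat_lit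 5) (nat_lit 133) (nat_lit 5) (nat_lit 612) (nat_lit 495) (nat_lit 453)) (XT.lf (nat_lit 0) (nat_lit 3230156362) (nat_lit 380) (nat_lit 246350283) (nat_lit 76) (nat_lit 7578593100) (nat_lit 127) (nat_lit 5) (nat_lit 132) (nat_lit 5) (nat_lit 128) (nat_lit 5) (nat_lit 613) (nat_lit 495) (nat_lit 452))))))) (XT.nd (nat_lit 1092) (nat_lit 2660) (nat_lit 0) (XT.nd (nat_lit 546) (nat_lit 1444) (nat_lit 0) (XT.nd (nat_lit 234) (nat_lit 912) (nat_lit 0) (XT.nd (nat_lit 78) (nat_lit 608) (nat_lit 0) (XT.lf (nat_lit 0) (nat_lit 7593612345) (nat_lit 380) (nat_lit 2637121380) (nat_lit 76) (nat_lit 939828400) (nat_lit 123) (nat_lit 5) (nat_lit 128) (nat_lit 5) (nat_lit 124) (nat_lit 5) (nat_lit 614) (nat_lit 495) (nat_lit 451)) (XT.nd (nat_lit 78) (nat_lit 228) (nat_lit 0) (XT.lf (nat_lit 0) (nat_lit 763315186) (nat_lit 380) (nat_lit 5110652503) (nat_lit 76) (nat_lit 5413924639) (nat_lit 118) (nat_lit 5) (nat_lit 123) (nat_lit 5) (nat_lit 119) (nat_lit 5) (nat_lit 615)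 (nat_lit 495) (nat_lit 450)) (XT.lf (nat_lit 0) (nat_lit 3742028381) (nat_lit 228) (nat_lit 1395011129) (nat_lit 304) (nat_lit 6270167012) (nat_lit 115) (nat_lit 5) (nat_lit 118) (nat_lit 5) (nat_lit 119) (nat_lit 5) (nat_lit 616) (nat_lit 495) (nat_lit 449)))) (XT.nd (nat_lit 156) (nat_lit 532) (nat_lit 0) (XT.nd (nat_lit 78) (nat_lit 76) (nat_lit 0) (XT.lf (nat_lit 0) (nat_lit 1228217898) (nat_lit 304) (nat_lit 8385729125) (nat_lit 380) (nat_lit 1914647032) (nat_lit 111) (nat_lit 5) (nat_lit 115) (nat_lit 5) (nat_lit 116) (nat_lit 5) (nat_lit 617) (nat_lit 495) (nat_lit 448)) (XT.lf (nat_lit 0) (nat_lit 2508554046) (nat_lit 380) (nat_lit 1353968520) (nat_lit 76) (nat_lit 7789285170) (nat_lit 110) (nat_lit 5) (nat_lit 115) (nat_lit 5) (nat_lit 111) (nat_lit 5) (nat_lit 618) (nat_lit 495) (nat_lit 447))) (XT.nd (nat_lit 78) (nat_lit 304) (nat_lit 0) (XT.lf (nat_lit 0) (nat_lit 7003857991) (nat_lit 304) (nat_lit 3999895696) (nat_lit 76) (nat_lit 773294523)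 (nat_lit 107) (nat_lit 5) (nat_lit 111) (nat_lit 5) (nat_lit 108) (nat_lit 5) (nat_lit 619) (nat_lit 495) (nat_lit 446)) (XT.lf (nat_lit 0) (nat_lit 5168169591) (nat_lit 304) (nat_lit 6443011639) (nat_lit 380) (nat_lit 293171134) (nat_lit 103) (nat_lit 5) (nat_lit 107) (nat_lit 5) (nat_lit 108) (nat_lit 5) (nat_lit 620) (nat_lit 495) (nat_lit 445))))) (XT.nd (nat_lit 234) (nat_lit 760) (nat_lit 0) (XT.nd (nat_lit 78) (nat_lit 380) (nat_lit 0) (XT.lf (nat_lit 0) (nat_lit 2465840800) (nat_lit 228) (nat_lit 1751476591) (nat_lit 304) (nat_lit 7816391879) (nat_lit 99) (nat_lit 5) (nat_lit 102) (nat_lit 5) (nat_lit 103) (nat_lit 5) (nat_lit 621) (nat_lit 495) (nat_lit 444)) (XT.nd (nat_lit 78) (nat_lit 380) (nat_lit 0) (XT.lf (nat_lit 0) (nat_lit 8833405595) (nat_lit 304) (nat_lit 322364225) (nat_lit 76) (nat_lit 3009459494) (nat_lit 99) (nat_lit 5) (nat_lit 103) (nat_lit 5) (nat_lit 100) (nat_lit 5) (nat_lit 622) (nat_lit 495) (nat_lit 443)) (XT.lf (nat_lit 0)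 (nat_lit 1252258107) (nat_lit 380) (nat_lit 3168135074) (nat_lit 76) (nat_lit 7878303930) (nat_lit 94) (nat_lit 5) (nat_lit 99) (nat_lit 5) (nat_lit 95) (nat_lit 5) (nat_lit 623) (nat_lit 495) (nat_lit 442)))) (XT.nd (nat_lit 156) (nat_lit 304) (nat_lit 0) (XT.nd (nat_lit 78) (nat_lit 228) (nat_lit 0) (XT.lf (nat_lit 0) (nat_lit 5884676561) (nat_lit 304) (nat_lit 6111734795) (nat_lit 76) (nat_lit 437958084) (nat_lit 91) (nat_lit 5) (nat_lit 95) (nat_lit 5) (nat_lit 92) (nat_lit 5) (nat_lit 624) (nat_lit 495) (nat_lit 441)) (XT.lf (nat_lit 0) (nat_lit 3411557684) (nat_lit 228) (nat_lit 7226278906) (nat_lit 304) (nat_lit 1934357748) (nat_lit 88) (nat_lit 5) (nat_lit 91) (nat_lit 5) (nat_lit 92) (nat_lit 5) (nat_lit 625) (nat_lit 495) (nat_lit 440))) (XT.nd (nat_lit 78) (nat_lit 0) (nat_lit 0) (XT.lf (nat_lit 0) (nat_lit 405559089) (nat_lit 228) (nat_lit 2330620783) (nat_lit 304) (nat_lit 9976251333) (nat_lit 84) (nat_lit 5) (nat_lit 87) (nat_lit 5) (nat_lit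 88) (nat_lit 5) (nat_lit 626) (nat_lit 495) (nat_lit 439)) (XT.lf (nat_lit 0) (nat_lit 7508931798) (nat_lit 304) (nat_lit 2675347522) (nat_lit 76) (nat_lit 2670244603) (nat_lit 84) (nat_lit 5) (nat_lit 88) (nat_lit 5) (nat_lit 85) (nat_lit 5) (nat_lit 627) (nat_lit 495) (nat_lit 438)))))) (XT.nd (nat_lit 546) (nat_lit 1140) (nat_lit 0) (XT.nd (nat_lit 234) (nat_lit 760) (nat_lit 0) (XT.nd (nat_lit 78) (nat_lit 532) (nat_lit 0) (XT.lf (nat_lit 0) (nat_lit 7150833243) (nat_lit 228) (nat_lit 5244551336) (nat_lit 304) (nat_lit 603709913) (nat_lit 81) (nat_lit 5) (nat_lit 84) (nat_lit 5) (nat_lit 85) (nat_lit 5) (nat_lit 628) (nat_lit 495) (nat_lit 437)) (XT.nd (nat_lit 78) (nat_lit 228) (nat_lit 0) (XT.lf (nat_lit 0) (nat_lit 4012222273) (nat_lit 228) (nat_lit 165851774) (nat_lit 304) (nat_lit 8967922014) (nat_lit 77) (nat_lit 5) (nat_lit 80) (nat_lit 5) (nat_lit 81) (nat_lit 5) (nat_lit 629) (nat_lit 495) (nat_lit 436)) (XT.lf (nat_lit 0) (nat_lit 750618002)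 (nat_lit 228) (nat_lit 8330342268) (nat_lit 304) (nat_lit 4214125435) (nat_lit 74) (nat_lit 5) (nat_lit 77) (nat_lit 5) (nat_lit 78) (nat_lit 5) (nat_lit 630) (nat_lit 495) (nat_lit 435)))) (XT.nd (nat_lit 156) (nat_lit 456) (nat_lit 0) (XT.nd (nat_lit 78) (nat_lit 228) (nat_lit 0) (XT.lf (nat_lit 0) (nat_lit 645897627) (nat_lit 304) (nat_lit 2571672320) (nat_lit 76) (nat_lit 10229116089) (nat_lit 73) (nat_lit 5) (nat_lit 77) (nat_lit 5) (nat_lit 74) (nat_lit 5) (nat_lit 631) (nat_lit 495) (nat_lit 434)) (XT.lf (nat_lit 0) (nat_lit 5566869180) (nat_lit 304) (nat_lit 6016704388) (nat_lit 76) (nat_lit 2016785003) (nat_lit 70) (nat_lit 5) (nat_lit 74) (nat_lit 5) (nat_lit 71) (nat_lit 5) (nat_lit 632) (nat_lit 495) (nat_lit 433))) (XT.nd (nat_lit 78) (nat_lit 228) (nat_lit 0) (XT.lf (nat_lit 0) (nat_lit 4178304540) (nat_lit 228) (nat_lit 6431429254) (nat_lit 304) (nat_lit 3146902085) (nat_lit 67) (nat_lit 5) (nat_lit 70) (nat_lit 5) (nat_lit 71) (nat_lit 5) (nat_lit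 633) (nat_lit 495) (nat_lit 432)) (XT.lf (nat_lit 0) (nat_lit 664734584) (nat_lit 152) (nat_lit 1151274024) (nat_lit 228) (nat_lit 12099738499) (nat_lit 64) (nat_lit 5) (nat_lit 66) (nat_lit 5) (nat_lit 67) (nat_lit 5) (nat_lit 634) (nat_lit 495) (nat_lit 431))))) (XT.nd (nat_lit 312) (nat_lit 456) (nat_lit 0) (XT.nd (nat_lit 156) (nat_lit 456) (nat_lit 0) (XT.nd (nat_lit 78) (nat_lit 228) (nat_lit 0) (XT.lf (nat_lit 0) (nat_lit 6886134741) (nat_lit 228) (nat_lit 2958472470) (nat_lit 76) (nat_lit 4232016191) (nat_lit 64) (nat_lit 5) (nat_lit 67) (nat_lit 5) (nat_lit 65) (nat_lit 5) (nat_lit 635) (nat_lit 495) (nat_lit 430)) (XT.lf (nat_lit 0) (nat_lit 7557433808) (nat_lit 228) (nat_lit 4515608518) (nat_lit 304) (nat_lit 2167368050) (nat_lit 61) (nat_lit 5) (nat_lit 64) (nat_lit 5) (nat_lit 65) (nat_lit 5) (nat_lit 636) (nat_lit 495) (nat_lit 429))) (XT.nd (nat_lit 78) (nat_lit 228) (nat_lit 0) (XT.lf (nat_lit 0) (nat_lit 2927515245) (nat_lit 228) (nat_lit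 10539068231) (nat_lit 76) (nat_lit 940305013) (nat_lit 58) (nat_lit 5) (nat_lit 61) (nat_lit 5) (nat_lit 59) (nat_lit 5) (nat_lit 637) (nat_lit 495) (nat_lit 428)) (XT.lf (nat_lit 0) (nat_lit 26050093) (nat_lit 228) (nat_lit 8103336289) (nat_lit 304) (nat_lit 6446341722) (nat_lit 55) (nat_lit 5) (nat_lit 58) (nat_lit 5) (nat_lit 59) (nat_lit 5) (nat_lit 638) (nat_lit 495) (nat_lit 427)))) (XT.nd (nat_lit 156) (nat_lit 228) (nat_lit 0) (XT.nd (nat_lit 78) (nat_lit 228) (nat_lit 0) (XT.lf (nat_lit 0) (nat_lit 10871658793) (nat_lit 228) (nat_lit 2593554044) (nat_lit 304) (nat_lit 1282133995) (nat_lit 55) (nat_lit 5) (nat_lit 58) (nat_lit 5) (nat_lit 59) (nat_lit 5) (nat_lit 639) (nat_lit 495) (nat_lit 426)) (XT.lf (nat_lit 0) (nat_lit 3958211258) (nat_lit 228) (nat_lit 7936672937) (nat_lit 76) (nat_lit 3026494436) (nat_lit 52) (nat_lit 5) (nat_lit 55) (nat_lit 5) (nat_lit 53) (nat_lit 5) (nat_lit 640) (nat_lit 495) (nat_lit 425))) (XT.nd (nat_lit 78) (nat_lit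 0) (nat_lit 0) (XT.lf (nat_lit 0) (nat_lit 2956534695) (nat_lit 228) (nat_lit 6352068842) (nat_lit 304) (nat_lit 5789670511) (nat_lit 49) (nat_lit 5) (nat_lit 52) (nat_lit 5) (nat_lit 53) (nat_lit 5) (nat_lit 641) (nat_lit 495) (nat_lit 424)) (XT.lf (nat_lit 0) (nat_lit 14102795497) (nat_lit 228) (nat_lit 676624898) (nat_lit 304) (nat_lit 499019270) (nat_lit 49) (nat_lit 5) (nat_lit 52) (nat_lit 5) (nat_lit 53) (nat_lit 5) (nat_lit 642) (nat_lit 495) (nat_lit 423))))))))
noncomputable def xc29 : XT := (XT.nd (nat_lit 76986) (nat_lit 0) (nat_lit 5776) (XT.nd (nat_lit 75816) (nat_lit 0) (nat_lit 15732) (XT.nd (nat_lit 546) (nat_lit 152) (nat_lit 0) (XT.nd (nat_lit 234) (nat_lit 380) (nat_lit 0) (XT.nd (nat_lit 78) (nat_lit 380) (nat_lit 0) (XT.lf (nat_lit 0) (nat_lit 4892693632) (nat_lit 228) (nat_lit 5456553072) (nat_lit 76) (nat_lit 5111136952) (nat_lit 46) (nat_lit 5) (nat_lit 49) (nat_lit 5) (nat_lit 47) (nat_lit 5) (nat_lit 643) (nat_lit 495) (nat_lit 422))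 (XT.nd (nat_lit 78) (nat_lit 228) (nat_lit 0) (XT.lf (nat_lit 0) (nat_lit 5773301305) (nat_lit 152) (nat_lit 4622951734) (nat_lit 228) (nat_lit 5249434224) (nat_lit 44) (nat_lit 5) (nat_lit 46) (nat_lit 5) (nat_lit 47) (nat_lit 5) (nat_lit 644) (nat_lit 495) (nat_lit 421)) (XT.lf (nat_lit 0) (nat_lit 187762729) (nat_lit 228) (nat_lit 14429288734) (nat_lit 76) (nat_lit 1217325826) (nat_lit 41) (nat_lit 5) (nat_lit 44) (nat_lit 5) (nat_lit 42) (nat_lit 5) (nat_lit 645) (nat_lit 495) (nat_lit 420)))) (XT.nd (nat_lit 156) (nat_lit 228) (nat_lit 0) (XT.nd (nat_lit 78) (nat_lit 152) (nat_lit 0) (XT.lf (nat_lit 0) (nat_lit 5721708971) (nat_lit 228) (nat_lit 3121147108) (nat_lit 76) (nat_lit 7182125709) (nat_lit 41) (nat_lit 5) (nat_lit 44) (nat_lit 5) (nat_lit 42) (nat_lit 5) (nat_lit 646) (nat_lit 495) (nat_lit 419)) (XT.lf (nat_lit 0) (nat_lit 8453688257) (nat_lit 152) (nat_lit 2929225336) (nat_lit 228) (nat_lit 4836153742) (nat_lit 39) (nat_lit 5) (nat_lit 41)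 (nat_lit 5) (nat_lit 42) (nat_lit 5) (nat_lit 647) (nat_lit 495) (nat_lit 418))) (XT.nd (nat_lit 78) (nat_lit 0) (nat_lit 0) (XT.lf (nat_lit 0) (nat_lit 758761210) (nat_lit 228) (nat_lit 12576036441) (nat_lit 76) (nat_lit 3081578077) (nat_lit 36) (nat_lit 5) (nat_lit 39) (nat_lit 5) (nat_lit 37) (nat_lit 5) (nat_lit 648) (nat_lit 495) (nat_lit 417)) (XT.lf (nat_lit 0) (nat_lit 6434559063) (nat_lit 228) (nat_lit 955402011) (nat_lit 76) (nat_lit 9226355575) (nat_lit 36) (nat_lit 5) (nat_lit 39) (nat_lit 5) (nat_lit 37) (nat_lit 5) (nat_lit 649) (nat_lit 495) (nat_lit 416))))) (XT.nd (nat_lit 74958) (nat_lit 0) (nat_lit 23484) (XT.nd (nat_lit 74802) (nat_lit 0) (nat_lit 25840) (XT.lf (nat_lit 0) (nat_lit 10972456489) (nat_lit 152) (nat_lit 1285231796) (nat_lit 228) (nat_lit 4561892298) (nat_lit 34) (nat_lit 5) (nat_lit 36) (nat_lit 5) (nat_lit 37) (nat_lit 5) (nat_lit 650) (nat_lit 495) (nat_lit 415)) (XT.nd (nat_lit 78) (nat_lit 836) (nat_lit 0) (XT.lf (nat_lit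 0) (nat_lit 2499046979) (nat_lit 836) (nat_lit 636761510) (nat_lit 836) (nat_lit 636761510) (nat_lit 385) (nat_lit 4) (nat_lit 396) (nat_lit 5) (nat_lit 396) (nat_lit 4) (nat_lit 568) (nat_lit 496) (nat_lit 496)) (XT.lf (nat_lit 0) (nat_lit 2459086636) (nat_lit 836) (nat_lit 4095542778) (nat_lit 0) (nat_lit 1037411177) (nat_lit 374) (nat_lit 5) (nat_lit 385) (nat_lit 4) (nat_lit 374) (nat_lit 4) (nat_lit 569) (nat_lit 496) (nat_lit 495)))) (XT.nd (nat_lit 156) (nat_lit 836) (nat_lit 0) (XT.nd (nat_lit 78) (nat_lit 760) (nat_lit 0) (XT.lf (nat_lit 0) (nat_lit 1983947370) (nat_lit 760) (nat_lit 4235915790) (nat_lit 760) (nat_lit 1420440861) (nat_lit 364) (nat_lit 4) (nat_lit 374) (nat_lit 5) (nat_lit 374) (nat_lit 4) (nat_lit 570) (nat_lit 496) (nat_lit 494)) (XT.lf (nat_lit 0) (nat_lit 460694303) (nat_lit 684) (nat_lit 1837641984) (nat_lit 760) (nat_lit 5391632543) (nat_lit 354) (nat_lit 5) (nat_lit 363) (nat_lit 5) (nat_lit 364) (nat_lit 4) (nat_lit 571) (nat_lit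 496) (nat_lit 493))) (XT.nd (nat_lit 78) (nat_lit 836) (nat_lit 0) (XT.lf (nat_lit 0) (nat_lit 6047748956) (nat_lit 760) (nat_lit 1058794366) (nat_lit 0) (nat_lit 634394509) (nat_lit 354) (nat_lit 5) (nat_lit 364) (nat_lit 4) (nat_lit 354) (nat_lit 4) (nat_lit 572) (nat_lit 496) (nat_lit 492)) (XT.lf (nat_lit 0) (nat_lit 2032235927) (nat_lit 836) (nat_lit 2595893138) (nat_lit 76) (nat_lit 3164925623) (nat_lit 343) (nat_lit 5) (nat_lit 354) (nat_lit 5) (nat_lit 344) (nat_lit 4) (nat_lit 573) (nat_lit 496) (nat_lit 491)))))) (XT.nd (nat_lit 546) (nat_lit 3648) (nat_lit 0) (XT.nd (nat_lit 234) (nat_lit 2052) (nat_lit 0) (XT.nd (nat_lit 78) (nat_lit 1368) (nat_lit 0) (XT.lf (nat_lit 0) (nat_lit 3703013469) (nat_lit 684) (nat_lit 2072447077) (nat_lit 760) (nat_lit 2071214259) (nat_lit 334) (nat_lit 5) (nat_lit 343) (nat_lit 5) (nat_lit 344) (nat_lit 4) (nat_lit 574) (nat_lit 496) (nat_lit 490)) (XT.nd (nat_lit 78) (nat_lit 608) (nat_lit 0) (XT.lf (nat_lit 0) (nat_lit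 1640521459) (nat_lit 760) (nat_lit 5706804372) (nat_lit 76) (nat_lit 554414977) (nat_lit 324) (nat_lit 5) (nat_lit 334) (nat_lit 5) (nat_lit 325) (nat_lit 4) (nat_lit 575) (nat_lit 496) (nat_lit 489)) (XT.lf (nat_lit 0) (nat_lit 658340369) (nat_lit 608) (nat_lit 4722150976) (nat_lit 684) (nat_lit 2577512106) (nat_lit 316) (nat_lit 5) (nat_lit 324) (nat_lit 5) (nat_lit 325) (nat_lit 4) (nat_lit 576) (nat_lit 496) (nat_lit 488)))) (XT.nd (nat_lit 156) (nat_lit 1292) (nat_lit 0) (XT.nd (nat_lit 78) (nat_lit 684) (nat_lit 0) (XT.lf (nat_lit 0) (nat_lit 1138970318) (nat_lit 684) (nat_lit 876500874) (nat_lit 76) (nat_lit 6000279083) (nat_lit 315) (nat_lit 5) (nat_lit 324) (nat_lit 5) (nat_lit 316) (nat_lit 5) (nat_lit 577) (nat_lit 496) (nat_lit 487)) (XT.lf (nat_lit 0) (nat_lit 4874356470) (nat_lit 760) (nat_lit 2428233479) (nat_lit 76) (nat_lit 772143175) (nat_lit 306) (nat_lit 5) (nat_lit 316) (nat_lit 5) (nat_lit 307) (nat_lit 4) (nat_lit 578) (nat_lit 496)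 (nat_lit 486))) (XT.nd (nat_lit 78) (nat_lit 608) (nat_lit 0) (XT.lf (nat_lit 0) (nat_lit 526239477) (nat_lit 684) (nat_lit 4001843034) (nat_lit 76) (nat_lit 3607067345) (nat_lit 297) (nat_lit 5) (nat_lit 306) (nat_lit 5) (nat_lit 298) (nat_lit 5) (nat_lit 579) (nat_lit 496) (nat_lit 485)) (XT.lf (nat_lit 0) (nat_lit 2593875090) (nat_lit 608) (nat_lit 1662102887) (nat_lit 684) (nat_lit 3940948363) (nat_lit 289) (nat_lit 5) (nat_lit 297) (nat_lit 5) (nat_lit 298) (nat_lit 5) (nat_lit 580) (nat_lit 496) (nat_lit 484))))) (XT.nd (nat_lit 312) (nat_lit 1748) (nat_lit 0) (XT.nd (nat_lit 156) (nat_lit 1216) (nat_lit 0) (XT.nd (nat_lit 78) (nat_lit 76) (nat_lit 0) (XT.lf (nat_lit 0) (nat_lit 1039672599) (nat_lit 608) (nat_lit 7001328712) (nat_lit 684) (nat_lit 219326542) (nat_lit 281) (nat_lit 5) (nat_lit 289) (nat_lit 5) (nat_lit 290) (nat_lit 4) (nat_lit 581) (nat_lit 496) (nat_lit 483)) (XT.lf (nat_lit 0) (nat_lit 3517661447) (nat_lit 684) (nat_lit 549746180)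 (nat_lit 76) (nat_lit 4257371630) (nat_lit 280) (nat_lit 5) (nat_lit 289) (nat_lit 5) (nat_lit 281) (nat_lit 5) (nat_lit 582) (nat_lit 496) (nat_lit 482))) (XT.nd (nat_lit 78) (nat_lit 608) (nat_lit 0) (XT.lf (nat_lit 0) (nat_lit 6254546579) (nat_lit 608) (nat_lit 1052700999) (nat_lit 684) (nat_lit 1083630322) (nat_lit 272) (nat_lit 5) (nat_lit 280) (nat_lit 5) (nat_lit 281) (nat_lit 5) (nat_lit 583) (nat_lit 496) (nat_lit 481)) (XT.lf (nat_lit 0) (nat_lit 2666782171) (nat_lit 608) (nat_lit 3764423000) (nat_lit 76) (nat_lit 2026982788) (nat_lit 264) (nat_lit 5) (nat_lit 272) (nat_lit 5) (nat_lit 265) (nat_lit 5) (nat_lit 584) (nat_lit 496) (nat_lit 480)))) (XT.nd (nat_lit 156) (nat_lit 608) (nat_lit 0) (XT.nd (nat_lit 78) (nat_lit 608) (nat_lit 0) (XT.lf (nat_lit 0) (nat_lit 3107997717) (nat_lit 532) (nat_lit 3352239388) (nat_lit 608) (nat_lit 2066815912) (nat_lit 257) (nat_lit 5) (nat_lit 264) (nat_lit 5) (nat_lit 265) (nat_lit 5) (nat_lit 585) (nat_lit 496)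 (nat_lit 479)) (XT.lf (nat_lit 0) (nat_lit 1498711491) (nat_lit 532) (nat_lit 187186574) (nat_lit 608) (nat_lit 6911648161) (nat_lit 249) (nat_lit 5) (nat_lit 256) (nat_lit 5) (nat_lit 257) (nat_lit 5) (nat_lit 586) (nat_lit 496) (nat_lit 478))) (XT.nd (nat_lit 78) (nat_lit 608) (nat_lit 0) (XT.lf (nat_lit 0) (nat_lit 5484038210) (nat_lit 608) (nat_lit 156220336) (nat_lit 76) (nat_lit 3028959352) (nat_lit 249) (nat_lit 5) (nat_lit 257) (nat_lit 5) (nat_lit 250) (nat_lit 5) (nat_lit 587) (nat_lit 496) (nat_lit 477)) (XT.lf (nat_lit 0) (nat_lit 596742853) (nat_lit 608) (nat_lit 1812021832) (nat_lit 76) (nat_lit 6333700982) (nat_lit 241) (nat_lit 5) (nat_lit 249) (nat_lit 5) (nat_lit 242) (nat_lit 5) (nat_lit 588) (nat_lit 496) (nat_lit 476))))))) (XT.nd (nat_lit 1170) (nat_lit 4332) (nat_lit 0) (XT.nd (nat_lit 546) (nat_lit 2584) (nat_lit 0) (XT.nd (nat_lit 234) (nat_lit 1520) (nat_lit 0) (XT.nd (nat_lit 78) (nat_lit 1064) (nat_lit 0) (XT.lf (nat_lit 0) (nat_lit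 4396256376) (nat_lit 532) (nat_lit 3511540869) (nat_lit 76) (nat_lit 909270627) (nat_lit 235) (nat_lit 5) (nat_lit 242) (nat_lit 5) (nat_lit 236) (nat_lit 5) (nat_lit 589) (nat_lit 496) (nat_lit 475)) (XT.nd (nat_lit 78) (nat_lit 532) (nat_lit 0) (XT.lf (nat_lit 0) (nat_lit 3647699096) (nat_lit 532) (nat_lit 4619416269) (nat_lit 608) (nat_lit 626142205) (nat_lit 228) (nat_lit 5) (nat_lit 235) (nat_lit 5) (nat_lit 236) (nat_lit 5) (nat_lit 590) (nat_lit 496) (nat_lit 474)) (XT.lf (nat_lit 0) (nat_lit 1950184446) (nat_lit 456) (nat_lit 1231758521) (nat_lit 532) (nat_lit 5789007775) (nat_lit 221) (nat_lit 5) (nat_lit 227) (nat_lit 5) (nat_lit 228) (nat_lit 5) (nat_lit 591) (nat_lit 496) (nat_lit 473)))) (XT.nd (nat_lit 156) (nat_lit 988) (nat_lit 0) (XT.nd (nat_lit 78) (nat_lit 76) (nat_lit 0) (XT.lf (nat_lit 0) (nat_lit 213624051) (nat_lit 456) (nat_lit 6839554922) (nat_lit 532) (nat_lit 1997030969) (nat_lit 215) (nat_lit 5) (nat_lit 221) (nat_lit 5) (nat_lit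 222) (nat_lit 5) (nat_lit 592) (nat_lit 496) (nat_lit 472)) (XT.lf (nat_lit 0) (nat_lit 1846138944) (nat_lit 532) (nat_lit 1544875316) (nat_lit 76) (nat_lit 5739801667) (nat_lit 214) (nat_lit 5) (nat_lit 221) (nat_lit 5) (nat_lit 215) (nat_lit 5) (nat_lit 593) (nat_lit 496) (nat_lit 471))) (XT.nd (nat_lit 78) (nat_lit 532) (nat_lit 0) (XT.lf (nat_lit 0) (nat_lit 5724001425) (nat_lit 532) (nat_lit 3337994414) (nat_lit 76) (nat_lit 151085061) (nat_lit 208) (nat_lit 5) (nat_lit 215) (nat_lit 5) (nat_lit 209) (nat_lit 5) (nat_lit 594) (nat_lit 496) (nat_lit 470)) (XT.lf (nat_lit 0) (nat_lit 382862491) (nat_lit 532) (nat_lit 5181108921) (nat_lit 76) (nat_lit 3732863317) (nat_lit 201) (nat_lit 5) (nat_lit 208) (nat_lit 5) (nat_lit 202) (nat_lit 5) (nat_lit 595) (nat_lit 496) (nat_lit 469))))) (XT.nd (nat_lit 312) (nat_lit 1292) (nat_lit 0) (XT.nd (nat_lit 156) (nat_lit 456) (nat_lit 0) (XT.nd (nat_lit 78) (nat_lit 456) (nat_lit 0) (XT.lf (nat_lit 0) (nat_lit 2307981972)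 (nat_lit 380) (nat_lit 1961086695) (nat_lit 456) (nat_lit 5113064964) (nat_lit 196) (nat_lit 5) (nat_lit 201) (nat_lit 5) (nat_lit 202) (nat_lit 5) (nat_lit 596) (nat_lit 496) (nat_lit 468)) (XT.lf (nat_lit 0) (nat_lit 461995066) (nat_lit 456) (nat_lit 7766458758) (nat_lit 532) (nat_lit 1240777683) (nat_lit 190) (nat_lit 5) (nat_lit 196) (nat_lit 5) (nat_lit 197) (nat_lit 5) (nat_lit 597) (nat_lit 496) (nat_lit 467))) (XT.nd (nat_lit 78) (nat_lit 380) (nat_lit 0) (XT.lf (nat_lit 0) (nat_lit 2680703166) (nat_lit 532) (nat_lit 1424782177) (nat_lit 76) (nat_lit 5452090716) (nat_lit 189) (nat_lit 5) (nat_lit 196) (nat_lit 5) (nat_lit 190) (nat_lit 5) (nat_lit 598) (nat_lit 496) (nat_lit 466)) (XT.lf (nat_lit 0) (nat_lit 6303851885) (nat_lit 380) (nat_lit 348644279) (nat_lit 456) (nat_lit 2995259352) (nat_lit 184) (nat_lit 5) (nat_lit 189) (nat_lit 5) (nat_lit 190) (nat_lit 5) (nat_lit 599) (nat_lit 496) (nat_lit 465)))) (XT.nd (nat_lit 156) (nat_lit 456) (nat_lit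 0) (XT.nd (nat_lit 78) (nat_lit 380) (nat_lit 0) (XT.lf (nat_lit 0) (nat_lit 960237167) (nat_lit 456) (nat_lit 5324007095) (nat_lit 76) (nat_lit 3455193147) (nat_lit 178) (nat_lit 5) (nat_lit 184) (nat_lit 5) (nat_lit 179) (nat_lit 5) (nat_lit 600) (nat_lit 496) (nat_lit 464)) (XT.lf (nat_lit 0) (nat_lit 2472478577) (nat_lit 380) (nat_lit 2471293053) (nat_lit 456) (nat_lit 4889006504) (nat_lit 173) (nat_lit 5) (nat_lit 178) (nat_lit 5) (nat_lit 179) (nat_lit 5) (nat_lit 601) (nat_lit 496) (nat_lit 463))) (XT.nd (nat_lit 78) (nat_lit 76) (nat_lit 0) (XT.lf (nat_lit 0) (nat_lit 485976058) (nat_lit 380) (nat_lit 8517687990) (nat_lit 456) (nat_lit 924389705) (nat_lit 168) (nat_lit 5) (nat_lit 173) (nat_lit 5) (nat_lit 174) (nat_lit 5) (nat_lit 602) (nat_lit 496) (nat_lit 462)) (XT.lf (nat_lit 0) (nat_lit 3093204780) (nat_lit 456) (nat_lit 1553147174) (nat_lit 76) (nat_lit 5378187632) (nat_lit 167) (nat_lit 5) (nat_lit 173) (nat_lit 5) (nat_lit 168) (nat_lit 5)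 (nat_lit 603) (nat_lit 496) (nat_lit 461)))))) (XT.nd (nat_lit 546) (nat_lit 1976) (nat_lit 0) (XT.nd (nat_lit 234) (nat_lit 1216) (nat_lit 0) (XT.nd (nat_lit 78) (nat_lit 760) (nat_lit 0) (XT.lf (nat_lit 0) (nat_lit 6493286238) (nat_lit 380) (nat_lit 677180818) (nat_lit 456) (nat_lit 2952533725) (nat_lit 162) (nat_lit 5) (nat_lit 167) (nat_lit 5) (nat_lit 168) (nat_lit 5) (nat_lit 604) (nat_lit 496) (nat_lit 460)) (XT.nd (nat_lit 78) (nat_lit 304) (nat_lit 0) (XT.lf (nat_lit 0) (nat_lit 1102534153) (nat_lit 456) (nat_lit 5775118073) (nat_lit 76) (nat_lit 3345413143) (nat_lit 156) (nat_lit 5) (nat_lit 162) (nat_lit 5) (nat_lit 157) (nat_lit 5) (nat_lit 605) (nat_lit 496) (nat_lit 459)) (XT.lf (nat_lit 0) (nat_lit 2338439490) (nat_lit 304) (nat_lit 2854906475) (nat_lit 380) (nat_lit 5131513040) (nat_lit 152) (nat_lit 5) (nat_lit 156) (nat_lit 5) (nat_lit 157) (nat_lit 5) (nat_lit 606) (nat_lit 496) (nat_lit 458)))) (XT.nd (nat_lit 156) (nat_lit 760) (nat_lit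 0) (XT.nd (nat_lit 78) (nat_lit 76) (nat_lit 0) (XT.lf (nat_lit 0) (nat_lit 178592463) (nat_lit 380) (nat_lit 9185885097) (nat_lit 456) (nat_lit 1064242467) (nat_lit 147) (nat_lit 5) (nat_lit 152) (nat_lit 5) (nat_lit 153) (nat_lit 5) (nat_lit 607) (nat_lit 496) (nat_lit 457)) (XT.lf (nat_lit 0) (nat_lit 3067136233) (nat_lit 456) (nat_lit 2037872241) (nat_lit 76) (nat_lit 5428786508) (nat_lit 146) (nat_lit 5) (nat_lit 152) (nat_lit 5) (nat_lit 147) (nat_lit 5) (nat_lit 608) (nat_lit 496) (nat_lit 456))) (XT.nd (nat_lit 78) (nat_lit 456) (nat_lit 0) (XT.lf (nat_lit 0) (nat_lit 6336089821) (nat_lit 304) (nat_lit 923287392) (nat_lit 380) (nat_lit 3381605328) (nat_lit 142) (nat_lit 5) (nat_lit 146) (nat_lit 5) (nat_lit 147) (nat_lit 5) (nat_lit 609) (nat_lit 496) (nat_lit 455)) (XT.lf (nat_lit 0) (nat_lit 788667157) (nat_lit 456) (nat_lit 6646866645) (nat_lit 76) (nat_lit 3314403224) (nat_lit 136) (nat_lit 5) (nat_lit 142) (nat_lit 5) (nat_lit 137) (nat_lit 5)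 (nat_lit 610) (nat_lit 496) (nat_lit 454))))) (XT.nd (nat_lit 312) (nat_lit 988) (nat_lit 0) (XT.nd (nat_lit 156) (nat_lit 684) (nat_lit 0) (XT.nd (nat_lit 78) (nat_lit 0) (nat_lit 0) (XT.lf (nat_lit 0) (nat_lit 1792898703) (nat_lit 304) (nat_lit 3202752234) (nat_lit 380) (nat_lit 5865002315) (nat_lit 132) (nat_lit 5) (nat_lit 136) (nat_lit 5) (nat_lit 137) (nat_lit 5) (nat_lit 611) (nat_lit 496) (nat_lit 453)) (XT.lf (nat_lit 0) (nat_lit 9290858564) (nat_lit 380) (nat_lit 567874091) (nat_lit 76) (nat_lit 1114770844) (nat_lit 132) (nat_lit 5) (nat_lit 137) (nat_lit 5) (nat_lit 133) (nat_lit 5) (nat_lit 612) (nat_lit 496) (nat_lit 452))) (XT.nd (nat_lit 78) (nat_lit 304) (nat_lit 0) (XT.lf (nat_lit 0) (nat_lit 2576406433) (nat_lit 380) (nat_lit 2995531891) (nat_lit 76) (nat_lit 5515799736) (nat_lit 127) (nat_lit 5) (nat_lit 132) (nat_lit 5) (nat_lit 128) (nat_lit 5) (nat_lit 613) (nat_lit 496) (nat_lit 451)) (XT.lf (nat_lit 0) (nat_lit 5715018581) (nat_lit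 304) (nat_lit 1177054449) (nat_lit 380) (nat_lit 4312083842) (nat_lit 123) (nat_lit 5) (nat_lit 127) (nat_lit 5) (nat_lit 128) (nat_lit 5) (nat_lit 614) (nat_lit 496) (nat_lit 450)))) (XT.nd (nat_lit 156) (nat_lit 380) (nat_lit 0) (XT.nd (nat_lit 78) (nat_lit 304) (nat_lit 0) (XT.lf (nat_lit 0) (nat_lit 3261063660) (nat_lit 304) (nat_lit 8049082776) (nat_lit 380) (nat_lit 12437030) (nat_lit 119) (nat_lit 5) (nat_lit 123) (nat_lit 5) (nat_lit 124) (nat_lit 5) (nat_lit 615) (nat_lit 496) (nat_lit 449)) (XT.lf (nat_lit 0) (nat_lit 712849597) (nat_lit 228) (nat_lit 3605828754) (nat_lit 304) (nat_lit 7124076973) (nat_lit 115) (nat_lit 5) (nat_lit 118) (nat_lit 5) (nat_lit 119) (nat_lit 5) (nat_lit 616) (nat_lit 496) (nat_lit 448))) (XT.nd (nat_lit 78) (nat_lit 380) (nat_lit 0) (XT.lf (nat_lit 0) (nat_lit 8750255706) (nat_lit 304) (nat_lit 1877031450) (nat_lit 76) (nat_lit 937762899) (nat_lit 115) (nat_lit 5) (nat_lit 119) (nat_lit 5) (nat_lit 116) (nat_lit 5) (nat_lit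 617) (nat_lit 496) (nat_lit 447)) (XT.lf (nat_lit 0) (nat_lit 1584829381) (nat_lit 380) (nat_lit 4553757576) (nat_lit 76) (nat_lit 5550501897) (nat_lit 110) (nat_lit 5) (nat_lit 115) (nat_lit 5) (nat_lit 111) (nat_lit 5) (nat_lit 618) (nat_lit 496) (nat_lit 446))))))))
noncomputable def xc30 : XT := (XT.nd (nat_lit 2262) (nat_lit 228) (nat_lit 0) (XT.nd (nat_lit 1092) (nat_lit 2356) (nat_lit 0) (XT.nd (nat_lit 546) (nat_lit 1596) (nat_lit 0) (XT.nd (nat_lit 234) (nat_lit 836) (nat_lit 0) (XT.nd (nat_lit 78) (nat_lit 380) (nat_lit 0) (XT.lf (nat_lit 0) (nat_lit 4501466437) (nat_lit 228) (nat_lit 1529775582) (nat_lit 304) (nat_lit 5784065697) (nat_lit 107) (nat_lit 5) (nat_lit 110) (nat_lit 5) (nat_lit 111) (nat_lit 5) (nat_lit 619) (nat_lit 496) (nat_lit 445)) (XT.nd (nat_lit 78) (nat_lit 76) (nat_lit 0) (XT.lf (nat_lit 0) (nat_lit 1781588066) (nat_lit 304) (nat_lit 8802649834) (nat_lit 380) (nat_lit 1359461067) (nat_lit 103) (nat_lit 5) (nat_lit 107) (nat_lit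 5) (nat_lit 108) (nat_lit 5) (nat_lit 620) (nat_lit 496) (nat_lit 444)) (XT.lf (nat_lit 0) (nat_lit 3126640691) (nat_lit 380) (nat_lit 1023703540) (nat_lit 76) (nat_lit 7923618059) (nat_lit 102) (nat_lit 5) (nat_lit 107) (nat_lit 5) (nat_lit 103) (nat_lit 5) (nat_lit 621) (nat_lit 496) (nat_lit 443)))) (XT.nd (nat_lit 156) (nat_lit 228) (nat_lit 0) (XT.nd (nat_lit 78) (nat_lit 380) (nat_lit 0) (XT.lf (nat_lit 0) (nat_lit 7698102515) (nat_lit 304) (nat_lit 3888570601) (nat_lit 76) (nat_lit 619702264) (nat_lit 99) (nat_lit 5) (nat_lit 103) (nat_lit 5) (nat_lit 100) (nat_lit 5) (nat_lit 622) (nat_lit 496) (nat_lit 442)) (XT.lf (nat_lit 0) (nat_lit 45392193) (nat_lit 380) (nat_lit 6853889577) (nat_lit 76) (nat_lit 5441631593) (nat_lit 94) (nat_lit 5) (nat_lit 99) (nat_lit 5) (nat_lit 95) (nat_lit 5) (nat_lit 623) (nat_lit 496) (nat_lit 441))) (XT.nd (nat_lit 78) (nat_lit 0) (nat_lit 0) (XT.lf (nat_lit 0) (nat_lit 2552756046) (nat_lit 228) (nat_lit 2075884673)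 (nat_lit 304) (nat_lit 7848928859) (nat_lit 91) (nat_lit 5) (nat_lit 94) (nat_lit 5) (nat_lit 95) (nat_lit 5) (nat_lit 624) (nat_lit 496) (nat_lit 440)) (XT.lf (nat_lit 0) (nat_lit 9324462450) (nat_lit 304) (nat_lit 470451355) (nat_lit 76) (nat_lit 2821627917) (nat_lit 91) (nat_lit 5) (nat_lit 95) (nat_lit 5) (nat_lit 92) (nat_lit 5) (nat_lit 625) (nat_lit 496) (nat_lit 439))))) (XT.nd (nat_lit 234) (nat_lit 836) (nat_lit 0) (XT.nd (nat_lit 78) (nat_lit 456) (nat_lit 0) (XT.lf (nat_lit 0) (nat_lit 1368845918) (nat_lit 304) (nat_lit 3561300322) (nat_lit 76) (nat_lit 7827357496) (nat_lit 87) (nat_lit 5) (nat_lit 91) (nat_lit 5) (nat_lit 88) (nat_lit 5) (nat_lit 626) (nat_lit 496) (nat_lit 438)) (XT.nd (nat_lit 78) (nat_lit 228) (nat_lit 0) (XT.lf (nat_lit 0) (nat_lit 6079542799) (nat_lit 304) (nat_lit 6755827121) (nat_lit 76) (nat_lit 65468087) (nat_lit 84) (nat_lit 5) (nat_lit 88) (nat_lit 5) (nat_lit 85) (nat_lit 5) (nat_lit 627) (nat_lit 496) (nat_lit 437))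 (XT.lf (nat_lit 0) (nat_lit 2978590536) (nat_lit 228) (nat_lit 7939147026) (nat_lit 304) (nat_lit 2128636617) (nat_lit 81) (nat_lit 5) (nat_lit 84) (nat_lit 5) (nat_lit 85) (nat_lit 5) (nat_lit 628) (nat_lit 496) (nat_lit 436)))) (XT.nd (nat_lit 156) (nat_lit 532) (nat_lit 0) (XT.nd (nat_lit 78) (nat_lit 228) (nat_lit 0) (XT.lf (nat_lit 0) (nat_lit 2625964671) (nat_lit 304) (nat_lit 287101252) (nat_lit 76) (nat_lit 10281351914) (nat_lit 80) (nat_lit 5) (nat_lit 84) (nat_lit 5) (nat_lit 81) (nat_lit 5) (nat_lit 629) (nat_lit 496) (nat_lit 435)) (XT.lf (nat_lit 0) (nat_lit 7483179049) (nat_lit 304) (nat_lit 3630129199) (nat_lit 76) (nat_lit 2231113086) (nat_lit 77) (nat_lit 5) (nat_lit 81) (nat_lit 5) (nat_lit 78) (nat_lit 5) (nat_lit 630) (nat_lit 496) (nat_lit 434))) (XT.nd (nat_lit 78) (nat_lit 304) (nat_lit 0) (XT.lf (nat_lit 0) (nat_lit 6413449297) (nat_lit 228) (nat_lit 6045252386) (nat_lit 304) (nat_lit 1038300766) (nat_lit 74) (nat_lit 5) (nat_lit 77)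 (nat_lit 5) (nat_lit 78) (nat_lit 5) (nat_lit 631) (nat_lit 496) (nat_lit 433)) (XT.lf (nat_lit 0) (nat_lit 2995233263) (nat_lit 228) (nat_lit 837294343) (nat_lit 304) (nat_lit 9819557811) (nat_lit 70) (nat_lit 5) (nat_lit 73) (nat_lit 5) (nat_lit 74) (nat_lit 5) (nat_lit 632) (nat_lit 496) (nat_lit 432)))))) (XT.nd (nat_lit 546) (nat_lit 1216) (nat_lit 0) (XT.nd (nat_lit 234) (nat_lit 684) (nat_lit 0) (XT.nd (nat_lit 78) (nat_lit 456) (nat_lit 0) (XT.lf (nat_lit 0) (nat_lit 8822280808) (nat_lit 304) (nat_lit 547732806) (nat_lit 76) (nat_lit 4439411725) (nat_lit 70) (nat_lit 5) (nat_lit 74) (nat_lit 5) (nat_lit 71) (nat_lit 5) (nat_lit 633) (nat_lit 496) (nat_lit 431)) (XT.nd (nat_lit 78) (nat_lit 228) (nat_lit 0) (XT.lf (nat_lit 0) (nat_lit 9814404553) (nat_lit 228) (nat_lit 4126000380) (nat_lit 304) (nat_lit 28936370) (nat_lit 67) (nat_lit 5) (nat_lit 70) (nat_lit 5) (nat_lit 71) (nat_lit 5) (nat_lit 634) (nat_lit 496) (nat_lit 430)) (XT.lf (nat_lit 0) (nat_lit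 4974287117) (nat_lit 228) (nat_lit 7904441277) (nat_lit 76) (nat_lit 1252838966) (nat_lit 64) (nat_lit 5) (nat_lit 67) (nat_lit 5) (nat_lit 65) (nat_lit 5) (nat_lit 635) (nat_lit 496) (nat_lit 429)))) (XT.nd (nat_lit 156) (nat_lit 380) (nat_lit 0) (XT.nd (nat_lit 78) (nat_lit 76) (nat_lit 0) (XT.lf (nat_lit 0) (nat_lit 2509354168) (nat_lit 228) (nat_lit 7599013961) (nat_lit 304) (nat_lit 4188043094) (nat_lit 61) (nat_lit 5) (nat_lit 64) (nat_lit 5) (nat_lit 65) (nat_lit 5) (nat_lit 636) (nat_lit 496) (nat_lit 428)) (XT.lf (nat_lit 0) (nat_lit 881980499) (nat_lit 304) (nat_lit 1303575204) (nat_lit 76) (nat_lit 12278623590) (nat_lit 60) (nat_lit 5) (nat_lit 64) (nat_lit 5) (nat_lit 61) (nat_lit 5) (nat_lit 637) (nat_lit 496) (nat_lit 427))) (XT.nd (nat_lit 78) (nat_lit 228) (nat_lit 0) (XT.lf (nat_lit 0) (nat_lit 6040895875) (nat_lit 228) (nat_lit 5242219183) (nat_lit 76) (nat_lit 3350763301) (nat_lit 58) (nat_lit 5) (nat_lit 61) (nat_lit 5) (nat_lit 59) (nat_lit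 5) (nat_lit 638) (nat_lit 496) (nat_lit 426)) (XT.lf (nat_lit 0) (nat_lit 5497967098) (nat_lit 228) (nat_lit 5824462637) (nat_lit 304) (nat_lit 3484153532) (nat_lit 55) (nat_lit 5) (nat_lit 58) (nat_lit 5) (nat_lit 59) (nat_lit 5) (nat_lit 639) (nat_lit 496) (nat_lit 425))))) (XT.nd (nat_lit 312) (nat_lit 532) (nat_lit 0) (XT.nd (nat_lit 156) (nat_lit 456) (nat_lit 0) (XT.nd (nat_lit 78) (nat_lit 0) (nat_lit 0) (XT.lf (nat_lit 0) (nat_lit 1478588791) (nat_lit 152) (nat_lit 231145547) (nat_lit 228) (nat_lit 13272673728) (nat_lit 52) (nat_lit 5) (nat_lit 54) (nat_lit 5) (nat_lit 55) (nat_lit 5) (nat_lit 640) (nat_lit 496) (nat_lit 424)) (XT.lf (nat_lit 0) (nat_lit 7019938754) (nat_lit 228) (nat_lit 2683255290) (nat_lit 76) (nat_lit 5456913506) (nat_lit 52) (nat_lit 5) (nat_lit 55) (nat_lit 5) (nat_lit 53) (nat_lit 5) (nat_lit 641) (nat_lit 496) (nat_lit 423))) (XT.nd (nat_lit 78) (nat_lit 228) (nat_lit 0) (XT.lf (nat_lit 0) (nat_lit 8392210237) (nat_lit 228)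 (nat_lit 4061555105) (nat_lit 304) (nat_lit 2887247935) (nat_lit 49) (nat_lit 5) (nat_lit 52) (nat_lit 5) (nat_lit 53) (nat_lit 5) (nat_lit 642) (nat_lit 496) (nat_lit 422)) (XT.lf (nat_lit 0) (nat_lit 2456161801) (nat_lit 228) (nat_lit 11367478688) (nat_lit 76) (nat_lit 1701219694) (nat_lit 46) (nat_lit 5) (nat_lit 49) (nat_lit 5) (nat_lit 47) (nat_lit 5) (nat_lit 643) (nat_lit 496) (nat_lit 421)))) (XT.nd (nat_lit 156) (nat_lit 380) (nat_lit 0) (XT.nd (nat_lit 78) (nat_lit 152) (nat_lit 0) (XT.lf (nat_lit 0) (nat_lit 7903202634) (nat_lit 228) (nat_lit 248093149) (nat_lit 76) (nat_lit 7559998665) (nat_lit 46) (nat_lit 5) (nat_lit 49) (nat_lit 5) (nat_lit 47) (nat_lit 5) (nat_lit 644) (nat_lit 496) (nat_lit 420)) (XT.lf (nat_lit 0) (nat_lit 11171374165) (nat_lit 152) (nat_lit 2322646367) (nat_lit 228) (nat_lit 2406740707) (nat_lit 44) (nat_lit 5) (nat_lit 46) (nat_lit 5) (nat_lit 47) (nat_lit 5) (nat_lit 645) (nat_lit 496) (nat_lit 419))) (XT.nd (nat_lit 78)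 (nat_lit 152) (nat_lit 0) (XT.lf (nat_lit 0) (nat_lit 3093405659) (nat_lit 228) (nat_lit 9389389816) (nat_lit 76) (nat_lit 3610190352) (nat_lit 41) (nat_lit 5) (nat_lit 44) (nat_lit 5) (nat_lit 42) (nat_lit 5) (nat_lit 646) (nat_lit 496) (nat_lit 418)) (XT.lf (nat_lit 0) (nat_lit 2067550850) (nat_lit 152) (nat_lit 6627004128) (nat_lit 228) (nat_lit 7593717765) (nat_lit 39) (nat_lit 5) (nat_lit 41) (nat_lit 5) (nat_lit 42) (nat_lit 5) (nat_lit 647) (nat_lit 496) (nat_lit 417))))))) (XT.nd (nat_lit 75816) (nat_lit 0) (nat_lit 13528) (XT.nd (nat_lit 75192) (nat_lit 0) (nat_lit 20520) (XT.nd (nat_lit 74880) (nat_lit 0) (nat_lit 24928) (XT.nd (nat_lit 78) (nat_lit 228) (nat_lit 0) (XT.lf (nat_lit 0) (nat_lit 13812398171) (nat_lit 152) (nat_lit 621072093) (nat_lit 228) (nat_lit 2053480797) (nat_lit 39) (nat_lit 5) (nat_lit 41) (nat_lit 5) (nat_lit 42) (nat_lit 5) (nat_lit 648) (nat_lit 496) (nat_lit 416)) (XT.nd (nat_lit 74724) (nat_lit 0) (nat_lit 27360) (XT.lf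 (nat_lit 0) (nat_lit 3608976888) (nat_lit 228) (nat_lit 7593488468) (nat_lit 76) (nat_lit 5485498966) (nat_lit 36) (nat_lit 5) (nat_lit 39) (nat_lit 5) (nat_lit 37) (nat_lit 5) (nat_lit 649) (nat_lit 496) (nat_lit 415)) (XT.lf (nat_lit 0) (nat_lit 142251215) (nat_lit 912) (nat_lit 3442869009) (nat_lit 0) (nat_lit 142251215) (nat_lit 396) (nat_lit 5) (nat_lit 408) (nat_lit 4) (nat_lit 396) (nat_lit 4) (nat_lit 566) (nat_lit 497) (nat_lit 497)))) (XT.nd (nat_lit 156) (nat_lit 1520) (nat_lit 0) (XT.nd (nat_lit 78) (nat_lit 912) (nat_lit 0) (XT.lf (nat_lit 0) (nat_lit 3981524932) (nat_lit 912) (nat_lit 1015536611) (nat_lit 0) (nat_lit 2502413784) (nat_lit 396) (nat_lit 5) (nat_lit 408) (nat_lit 4) (nat_lit 396) (nat_lit 4) (nat_lit 567) (nat_lit 497) (nat_lit 496)) (XT.lf (nat_lit 0) (nat_lit 168870852) (nat_lit 912) (nat_lit 2588100993) (nat_lit 76) (nat_lit 4788824167) (nat_lit 384) (nat_lit 5) (nat_lit 396) (nat_lit 5) (nat_lit 385) (nat_lit 4) (nat_lit 568)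 (nat_lit 497) (nat_lit 495))) (XT.nd (nat_lit 78) (nat_lit 760) (nat_lit 0) (XT.lf (nat_lit 0) (nat_lit 3414021580) (nat_lit 760) (nat_lit 429996813) (nat_lit 836) (nat_lit 3749330274) (nat_lit 374) (nat_lit 5) (nat_lit 384) (nat_lit 5) (nat_lit 385) (nat_lit 4) (nat_lit 569) (nat_lit 497) (nat_lit 494)) (XT.lf (nat_lit 0) (nat_lit 1862047033) (nat_lit 760) (nat_lit 5706176330) (nat_lit 760) (nat_lit 74122364) (nat_lit 364) (nat_lit 4) (nat_lit 374) (nat_lit 5) (nat_lit 374) (nat_lit 4) (nat_lit 570) (nat_lit 497) (nat_lit 493))))) (XT.nd (nat_lit 312) (nat_lit 2128) (nat_lit 0) (XT.nd (nat_lit 156) (nat_lit 1520) (nat_lit 0) (XT.nd (nat_lit 78) (nat_lit 0) (nat_lit 0) (XT.lf (nat_lit 0) (nat_lit 286234317) (nat_lit 684) (nat_lit 3306817574) (nat_lit 760) (nat_lit 4099464850) (nat_lit 354) (nat_lit 5) (nat_lit 363) (nat_lit 5) (nat_lit 364) (nat_lit 4) (nat_lit 571) (nat_lit 497) (nat_lit 492)) (XT.lf (nat_lit 0) (nat_lit 6472711718) (nat_lit 684) (nat_lit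 833154911) (nat_lit 760) (nat_lit 438353143) (nat_lit 354) (nat_lit 5) (nat_lit 363) (nat_lit 5) (nat_lit 364) (nat_lit 4) (nat_lit 572) (nat_lit 497) (nat_lit 491))) (XT.nd (nat_lit 78) (nat_lit 684) (nat_lit 0) (XT.lf (nat_lit 0) (nat_lit 3231492894) (nat_lit 836) (nat_lit 2857476646) (nat_lit 76) (nat_lit 1707988565) (nat_lit 343) (nat_lit 5) (nat_lit 354) (nat_lit 5) (nat_lit 344) (nat_lit 4) (nat_lit 573) (nat_lit 497) (nat_lit 490)) (XT.lf (nat_lit 0) (nat_lit 3398212369) (nat_lit 684) (nat_lit 3542856296) (nat_lit 760) (nat_lit 910184487) (nat_lit 334) (nat_lit 5) (nat_lit 343) (nat_lit 5) (nat_lit 344) (nat_lit 4) (nat_lit 574) (nat_lit 497) (nat_lit 489)))) (XT.nd (nat_lit 156) (nat_lit 760) (nat_lit 0) (XT.nd (nat_lit 78) (nat_lit 608) (nat_lit 0) (XT.lf (nat_lit 0) (nat_lit 1837621500) (nat_lit 684) (nat_lit 911200015) (nat_lit 760) (nat_lit 5158098807) (nat_lit 324) (nat_lit 5) (nat_lit 333) (nat_lit 5) (nat_lit 334) (nat_lit 5) (nat_lit 575) (nat_lit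 497) (nat_lit 488)) (XT.lf (nat_lit 0) (nat_lit 256799162) (nat_lit 608) (nat_lit 6192270058) (nat_lit 684) (nat_lit 1514910027) (nat_lit 316) (nat_lit 5) (nat_lit 324) (nat_lit 5) (nat_lit 325) (nat_lit 4) (nat_lit 576) (nat_lit 497) (nat_lit 487))) (XT.nd (nat_lit 78) (nat_lit 684) (nat_lit 0) (XT.lf (nat_lit 0) (nat_lit 2156586849) (nat_lit 684) (nat_lit 1330766818) (nat_lit 76) (nat_lit 4534857178) (nat_lit 315) (nat_lit 5) (nat_lit 324) (nat_lit 5) (nat_lit 316) (nat_lit 5) (nat_lit 577) (nat_lit 497) (nat_lit 486)) (XT.lf (nat_lit 0) (nat_lit 5151790580) (nat_lit 684) (nat_lit 701416390) (nat_lit 760) (nat_lit 2228763779) (nat_lit 306) (nat_lit 5) (nat_lit 315) (nat_lit 5) (nat_lit 316) (nat_lit 5) (nat_lit 578) (nat_lit 497) (nat_lit 485)))))) (XT.nd (nat_lit 546) (nat_lit 3268) (nat_lit 0) (XT.nd (nat_lit 234) (nat_lit 1748) (nat_lit 0) (XT.nd (nat_lit 78) (nat_lit 1292) (nat_lit 0) (XT.lf (nat_lit 0) (nat_lit 1446617025) (nat_lit 684) (nat_lit 4559786445)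 (nat_lit 76) (nat_lit 2136629361) (nat_lit 297) (nat_lit 5) (nat_lit 306) (nat_lit 5) (nat_lit 298) (nat_lit 5) (nat_lit 579) (nat_lit 497) (nat_lit 484)) (XT.nd (nat_lit 78) (nat_lit 684) (nat_lit 0) (XT.lf (nat_lit 0) (nat_lit 1988491955) (nat_lit 608) (nat_lit 3153919061) (nat_lit 684) (nat_lit 3063078822) (nat_lit 289) (nat_lit 5) (nat_lit 297) (nat_lit 5) (nat_lit 298) (nat_lit 5) (nat_lit 580) (nat_lit 497) (nat_lit 483)) (XT.lf (nat_lit 0) (nat_lit 381517400) (nat_lit 608) (nat_lit 225899401) (nat_lit 684) (nat_lit 7662240393) (nat_lit 280) (nat_lit 5) (nat_lit 288) (nat_lit 5) (nat_lit 289) (nat_lit 5) (nat_lit 581) (nat_lit 497) (nat_lit 482)))) (XT.nd (nat_lit 156) (nat_lit 1140) (nat_lit 0) (XT.nd (nat_lit 78) (nat_lit 608) (nat_lit 0) (XT.lf (nat_lit 0) (nat_lit 4310449593) (nat_lit 684) (nat_lit 1257094730) (nat_lit 76) (nat_lit 2767158908) (nat_lit 280) (nat_lit 5) (nat_lit 289) (nat_lit 5) (nat_lit 281) (nat_lit 5) (nat_lit 582) (nat_lit 497)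 (nat_lit 481)) (XT.lf (nat_lit 0) (nat_lit 5498153596) (nat_lit 608) (nat_lit 2567939748) (nat_lit 684) (nat_lit 335388888) (nat_lit 272) (nat_lit 5) (nat_lit 280) (nat_lit 5) (nat_lit 281) (nat_lit 5) (nat_lit 583) (nat_lit 497) (nat_lit 480))) (XT.nd (nat_lit 78) (nat_lit 532) (nat_lit 0) (XT.lf (nat_lit 0) (nat_lit 3361059668) (nat_lit 608) (nat_lit 4587595187) (nat_lit 76) (nat_lit 520924739) (nat_lit 264) (nat_lit 5) (nat_lit 272) (nat_lit 5) (nat_lit 265) (nat_lit 5) (nat_lit 584) (nat_lit 497) (nat_lit 479)) (XT.lf (nat_lit 0) (nat_lit 2233861169) (nat_lit 532) (nat_lit 4886317930) (nat_lit 608) (nat_lit 1418953685) (nat_lit 257) (nat_lit 5) (nat_lit 264) (nat_lit 5) (nat_lit 265) (nat_lit 5) (nat_lit 585) (nat_lit 497) (nat_lit 478))))) (XT.nd (nat_lit 312) (nat_lit 1596) (nat_lit 0) (XT.nd (nat_lit 156) (nat_lit 1064) (nat_lit 0) (XT.nd (nat_lit 78) (nat_lit 0) (nat_lit 0) (XT.lf (nat_lit 0) (nat_lit 556308327) (nat_lit 532) (nat_lit 1734294445) (nat_lit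 608) (nat_lit 6319633675) (nat_lit 249) (nat_lit 5) (nat_lit 256) (nat_lit 5) (nat_lit 257) (nat_lit 5) (nat_lit 586) (nat_lit 497) (nat_lit 477)) (XT.lf (nat_lit 0) (nat_lit 6050387966) (nat_lit 608) (nat_lit 1141122805) (nat_lit 76) (nat_lit 1491165788) (nat_lit 249) (nat_lit 5) (nat_lit 257) (nat_lit 5) (nat_lit 250) (nat_lit 5) (nat_lit 587) (nat_lit 497) (nat_lit 476))) (XT.nd (nat_lit 78) (nat_lit 456) (nat_lit 0) (XT.lf (nat_lit 0) (nat_lit 1107661285) (nat_lit 608) (nat_lit 2867115987) (nat_lit 76) (nat_lit 4781770977) (nat_lit 241) (nat_lit 5) (nat_lit 249) (nat_lit 5) (nat_lit 242) (nat_lit 5) (nat_lit 588) (nat_lit 497) (nat_lit 475)) (XT.lf (nat_lit 0) (nat_lit 4202808058) (nat_lit 456) (nat_lit 663539562) (nat_lit 532) (nat_lit 3965620642) (nat_lit 235) (nat_lit 5) (nat_lit 241) (nat_lit 5) (nat_lit 242) (nat_lit 5) (nat_lit 589) (nat_lit 497) (nat_lit 474)))) (XT.nd (nat_lit 156) (nat_lit 532) (nat_lit 0) (XT.nd (nat_lit 78) (nat_lit 532) (nat_lit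 0) (XT.lf (nat_lit 0) (nat_lit 2479669426) (nat_lit 532) (nat_lit 6218213700) (nat_lit 608) (nat_lit 211062542) (nat_lit 228) (nat_lit 5) (nat_lit 235) (nat_lit 5) (nat_lit 236) (nat_lit 5) (nat_lit 590) (nat_lit 497) (nat_lit 473)) (XT.lf (nat_lit 0) (nat_lit 707975183) (nat_lit 456) (nat_lit 2848209400) (nat_lit 532) (nat_lit 5431109432) (nat_lit 221) (nat_lit 5) (nat_lit 227) (nat_lit 5) (nat_lit 228) (nat_lit 5) (nat_lit 591) (nat_lit 497) (nat_lit 472))) (XT.nd (nat_lit 78) (nat_lit 532) (nat_lit 0) (XT.lf (nat_lit 0) (nat_lit 7388411442) (nat_lit 532) (nat_lit 1076942890) (nat_lit 76) (nat_lit 601980234) (nat_lit 221) (nat_lit 5) (nat_lit 228) (nat_lit 5) (nat_lit 222) (nat_lit 5) (nat_lit 592) (nat_lit 497) (nat_lit 471)) (XT.lf (nat_lit 0) (nat_lit 2125912426) (nat_lit 532) (nat_lit 2908845899) (nat_lit 76) (nat_lit 4113825286) (nat_lit 214) (nat_lit 5) (nat_lit 221) (nat_lit 5) (nat_lit 215) (nat_lit 5) (nat_lit 593) (nat_lit 497) (nat_lit 470))))))))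
noncomputable def xc31 : XT := (XT.nd (nat_lit 2262) (nat_lit 4788) (nat_lit 0) (XT.nd (nat_lit 1092) (nat_lit 4028) (nat_lit 0) (XT.nd (nat_lit 546) (nat_lit 1976) (nat_lit 0) (XT.nd (nat_lit 234) (nat_lit 1368) (nat_lit 0) (XT.nd (nat_lit 78) (nat_lit 912) (nat_lit 0) (XT.lf (nat_lit 0) (nat_lit 4454458336) (nat_lit 456) (nat_lit 1512592103) (nat_lit 532) (nat_lit 3264533735) (nat_lit 208) (nat_lit 5) (nat_lit 214) (nat_lit 5) (nat_lit 215) (nat_lit 5) (nat_lit 594) (nat_lit 497) (nat_lit 469)) (XT.nd (nat_lit 78) (nat_lit 380) (nat_lit 0) (XT.lf (nat_lit 0) (nat_lit 558363079) (nat_lit 532) (nat_lit 6689724301) (nat_lit 76) (nat_lit 2068144526) (nat_lit 201) (nat_lit 5) (nat_lit 208) (nat_lit 5) (nat_lit 202) (nat_lit 5) (nat_lit 595) (nat_lit 497) (nat_lit 468)) (XT.lf (nat_lit 0) (nat_lit 739490071) (nat_lit 380) (nat_lit 3668671207) (nat_lit 456) (nat_lit 4994098724) (nat_lit 196) (nat_lit 5) (nat_lit 201) (nat_lit 5) (nat_lit 202) (nat_lit 5) (nat_lit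 596) (nat_lit 497) (nat_lit 467)))) (XT.nd (nat_lit 156) (nat_lit 836) (nat_lit 0) (XT.nd (nat_lit 78) (nat_lit 532) (nat_lit 0) (XT.lf (nat_lit 0) (nat_lit 8327411538) (nat_lit 456) (nat_lit 1161077805) (nat_lit 76) (nat_lit 1672250) (nat_lit 196) (nat_lit 5) (nat_lit 202) (nat_lit 5) (nat_lit 197) (nat_lit 5) (nat_lit 597) (nat_lit 497) (nat_lit 466)) (XT.lf (nat_lit 0) (nat_lit 2724053946) (nat_lit 532) (nat_lit 3124392540) (nat_lit 76) (nat_lit 3730723575) (nat_lit 189) (nat_lit 5) (nat_lit 196) (nat_lit 5) (nat_lit 190) (nat_lit 5) (nat_lit 598) (nat_lit 497) (nat_lit 465))) (XT.nd (nat_lit 78) (nat_lit 456) (nat_lit 0) (XT.lf (nat_lit 0) (nat_lit 4542346416) (nat_lit 380) (nat_lit 2116608524) (nat_lit 456) (nat_lit 3011133375) (nat_lit 184) (nat_lit 5) (nat_lit 189) (nat_lit 5) (nat_lit 190) (nat_lit 5) (nat_lit 599) (nat_lit 497) (nat_lit 464)) (XT.lf (nat_lit 0) (nat_lit 895559839) (nat_lit 456) (nat_lit 7182275924) (nat_lit 76) (nat_lit 1684917656)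 (nat_lit 178) (nat_lit 5) (nat_lit 184) (nat_lit 5) (nat_lit 179) (nat_lit 5) (nat_lit 600) (nat_lit 497) (nat_lit 463))))) (XT.nd (nat_lit 234) (nat_lit 1140) (nat_lit 0) (XT.nd (nat_lit 78) (nat_lit 456) (nat_lit 0) (XT.lf (nat_lit 0) (nat_lit 549959925) (nat_lit 380) (nat_lit 4291437207) (nat_lit 456) (nat_lit 5015451858) (nat_lit 173) (nat_lit 5) (nat_lit 178) (nat_lit 5) (nat_lit 179) (nat_lit 5) (nat_lit 601) (nat_lit 497) (nat_lit 462)) (XT.nd (nat_lit 78) (nat_lit 456) (nat_lit 0) (XT.lf (nat_lit 0) (nat_lit 8455864894) (nat_lit 380) (nat_lit 408039141) (nat_lit 456) (nat_lit 1088969168) (nat_lit 173) (nat_lit 5) (nat_lit 178) (nat_lit 5) (nat_lit 179) (nat_lit 5) (nat_lit 602) (nat_lit 497) (nat_lit 461)) (XT.lf (nat_lit 0) (nat_lit 2893232062) (nat_lit 456) (nat_lit 3616524006) (nat_lit 76) (nat_lit 3540376226) (nat_lit 167) (nat_lit 5) (nat_lit 173) (nat_lit 5) (nat_lit 168) (nat_lit 5) (nat_lit 603) (nat_lit 497) (nat_lit 460)))) (XT.nd (nat_lit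 156) (nat_lit 304) (nat_lit 0) (XT.nd (nat_lit 78) (nat_lit 456) (nat_lit 0) (XT.lf (nat_lit 0) (nat_lit 4363481905) (nat_lit 380) (nat_lit 2568685779) (nat_lit 456) (nat_lit 3217193169) (nat_lit 162) (nat_lit 5) (nat_lit 167) (nat_lit 5) (nat_lit 168) (nat_lit 5) (nat_lit 604) (nat_lit 497) (nat_lit 459)) (XT.lf (nat_lit 0) (nat_lit 790010429) (nat_lit 456) (nat_lit 8011967762) (nat_lit 76) (nat_lit 1448509127) (nat_lit 156) (nat_lit 5) (nat_lit 162) (nat_lit 5) (nat_lit 157) (nat_lit 5) (nat_lit 605) (nat_lit 497) (nat_lit 458))) (XT.nd (nat_lit 78) (nat_lit 0) (nat_lit 0) (XT.lf (nat_lit 0) (nat_lit 32642580) (nat_lit 304) (nat_lit 4808919488) (nat_lit 380) (nat_lit 5511504873) (nat_lit 152) (nat_lit 5) (nat_lit 156) (nat_lit 5) (nat_lit 157) (nat_lit 5) (nat_lit 606) (nat_lit 497) (nat_lit 457)) (XT.lf (nat_lit 0) (nat_lit 8269077163) (nat_lit 304) (nat_lit 710225244) (nat_lit 380) (nat_lit 1478294152) (nat_lit 152) (nat_lit 5) (nat_lit 156) (nat_lit 5)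 (nat_lit 157) (nat_lit 5) (nat_lit 607) (nat_lit 497) (nat_lit 456)))))) (XT.nd (nat_lit 546) (nat_lit 1824) (nat_lit 0) (XT.nd (nat_lit 234) (nat_lit 988) (nat_lit 0) (XT.nd (nat_lit 78) (nat_lit 760) (nat_lit 0) (XT.lf (nat_lit 0) (nat_lit 2615317821) (nat_lit 456) (nat_lit 4494743589) (nat_lit 76) (nat_lit 3453528553) (nat_lit 146) (nat_lit 5) (nat_lit 152) (nat_lit 5) (nat_lit 147) (nat_lit 5) (nat_lit 608) (nat_lit 497) (nat_lit 455)) (XT.nd (nat_lit 78) (nat_lit 456) (nat_lit 0) (XT.lf (nat_lit 0) (nat_lit 3807918281) (nat_lit 304) (nat_lit 2959606024) (nat_lit 380) (nat_lit 3904054633) (nat_lit 142) (nat_lit 5) (nat_lit 146) (nat_lit 5) (nat_lit 147) (nat_lit 5) (nat_lit 609) (nat_lit 497) (nat_lit 454)) (XT.lf (nat_lit 0) (nat_lit 218996637) (nat_lit 456) (nat_lit 9292941105) (nat_lit 76) (nat_lit 1269745684) (nat_lit 136) (nat_lit 5) (nat_lit 142) (nat_lit 5) (nat_lit 137) (nat_lit 5) (nat_lit 610) (nat_lit 497) (nat_lit 453)))) (XT.nd (nat_lit 156)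 (nat_lit 684) (nat_lit 0) (XT.nd (nat_lit 78) (nat_lit 304) (nat_lit 0) (XT.lf (nat_lit 0) (nat_lit 4390901870) (nat_lit 456) (nat_lit 915016876) (nat_lit 76) (nat_lit 5587183160) (nat_lit 136) (nat_lit 5) (nat_lit 142) (nat_lit 5) (nat_lit 137) (nat_lit 5) (nat_lit 611) (nat_lit 497) (nat_lit 452)) (XT.lf (nat_lit 0) (nat_lit 7654959653) (nat_lit 304) (nat_lit 994570475) (nat_lit 380) (nat_lit 2357154283) (nat_lit 132) (nat_lit 5) (nat_lit 136) (nat_lit 5) (nat_lit 137) (nat_lit 5) (nat_lit 612) (nat_lit 497) (nat_lit 451))) (XT.nd (nat_lit 78) (nat_lit 304) (nat_lit 0) (XT.lf (nat_lit 0) (nat_lit 1862583598) (nat_lit 380) (nat_lit 5877468086) (nat_lit 76) (nat_lit 3381918716) (nat_lit 127) (nat_lit 5) (nat_lit 132) (nat_lit 5) (nat_lit 128) (nat_lit 5) (nat_lit 613) (nat_lit 497) (nat_lit 450)) (XT.lf (nat_lit 0) (nat_lit 2756535790) (nat_lit 304) (nat_lit 3379695882) (nat_lit 380) (nat_lit 5102998541) (nat_lit 123) (nat_lit 5) (nat_lit 127) (nat_lit 5)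 (nat_lit 128) (nat_lit 5) (nat_lit 614) (nat_lit 497) (nat_lit 449))))) (XT.nd (nat_lit 312) (nat_lit 836) (nat_lit 0) (XT.nd (nat_lit 156) (nat_lit 608) (nat_lit 0) (XT.nd (nat_lit 78) (nat_lit 76) (nat_lit 0) (XT.lf (nat_lit 0) (nat_lit 203859455) (nat_lit 304) (nat_lit 10293592246) (nat_lit 380) (nat_lit 861342794) (nat_lit 119) (nat_lit 5) (nat_lit 123) (nat_lit 5) (nat_lit 124) (nat_lit 5) (nat_lit 615) (nat_lit 497) (nat_lit 448)) (XT.lf (nat_lit 0) (nat_lit 3453626261) (nat_lit 380) (nat_lit 2422309014) (nat_lit 76) (nat_lit 5603687504) (nat_lit 118) (nat_lit 5) (nat_lit 123) (nat_lit 5) (nat_lit 119) (nat_lit 5) (nat_lit 616) (nat_lit 497) (nat_lit 447))) (XT.nd (nat_lit 78) (nat_lit 380) (nat_lit 0) (XT.lf (nat_lit 0) (nat_lit 6489305158) (nat_lit 228) (nat_lit 1351340793) (nat_lit 304) (nat_lit 3762163296) (nat_lit 115) (nat_lit 5) (nat_lit 118) (nat_lit 5) (nat_lit 119) (nat_lit 5) (nat_lit 617) (nat_lit 497) (nat_lit 446)) (XT.lf (nat_lit 0) (nat_lit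 597175729) (nat_lit 380) (nat_lit 7894417484) (nat_lit 76) (nat_lit 3236432605) (nat_lit 110) (nat_lit 5) (nat_lit 115) (nat_lit 5) (nat_lit 111) (nat_lit 5) (nat_lit 618) (nat_lit 497) (nat_lit 445)))) (XT.nd (nat_lit 156) (nat_lit 608) (nat_lit 0) (XT.nd (nat_lit 78) (nat_lit 0) (nat_lit 0) (XT.lf (nat_lit 0) (nat_lit 1078604328) (nat_lit 228) (nat_lit 3920699545) (nat_lit 304) (nat_lit 6855827048) (nat_lit 107) (nat_lit 5) (nat_lit 110) (nat_lit 5) (nat_lit 111) (nat_lit 5) (nat_lit 619) (nat_lit 497) (nat_lit 444)) (XT.lf (nat_lit 0) (nat_lit 9503241286) (nat_lit 304) (nat_lit 1726344171) (nat_lit 76) (nat_lit 754918422) (nat_lit 107) (nat_lit 5) (nat_lit 111) (nat_lit 5) (nat_lit 108) (nat_lit 5) (nat_lit 620) (nat_lit 497) (nat_lit 443))) (XT.nd (nat_lit 78) (nat_lit 228) (nat_lit 0) (XT.lf (nat_lit 0) (nat_lit 1986196032) (nat_lit 380) (nat_lit 4625701675) (nat_lit 76) (nat_lit 5503682798) (nat_lit 102) (nat_lit 5) (nat_lit 107) (nat_lit 5) (nat_lit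 103) (nat_lit 5) (nat_lit 621) (nat_lit 497) (nat_lit 442)) (XT.lf (nat_lit 0) (nat_lit 4634892574) (nat_lit 228) (nat_lit 1873256230) (nat_lit 304) (nat_lit 5740835481) (nat_lit 99) (nat_lit 5) (nat_lit 102) (nat_lit 5) (nat_lit 103) (nat_lit 5) (nat_lit 622) (nat_lit 497) (nat_lit 441))))))) (XT.nd (nat_lit 1170) (nat_lit 1900) (nat_lit 0) (XT.nd (nat_lit 546) (nat_lit 1444) (nat_lit 0) (XT.nd (nat_lit 234) (nat_lit 836) (nat_lit 0) (XT.nd (nat_lit 78) (nat_lit 304) (nat_lit 0) (XT.lf (nat_lit 0) (nat_lit 1687329382) (nat_lit 304) (nat_lit 9451390135) (nat_lit 380) (nat_lit 1245974051) (nat_lit 95) (nat_lit 5) (nat_lit 99) (nat_lit 5) (nat_lit 100) (nat_lit 5) (nat_lit 623) (nat_lit 497) (nat_lit 440)) (XT.nd (nat_lit 78) (nat_lit 228) (nat_lit 0) (XT.lf (nat_lit 0) (nat_lit 3315675787) (nat_lit 380) (nat_lit 1352953674) (nat_lit 76) (nat_lit 7853641394) (nat_lit 94) (nat_lit 5) (nat_lit 99) (nat_lit 5) (nat_lit 95) (nat_lit 5) (nat_lit 624) (nat_lit 497)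 (nat_lit 439)) (XT.lf (nat_lit 0) (nat_lit 7964419246) (nat_lit 304) (nat_lit 4459054246) (nat_lit 76) (nat_lit 238711540) (nat_lit 91) (nat_lit 5) (nat_lit 95) (nat_lit 5) (nat_lit 92) (nat_lit 5) (nat_lit 625) (nat_lit 497) (nat_lit 438)))) (XT.nd (nat_lit 156) (nat_lit 304) (nat_lit 0) (XT.nd (nat_lit 78) (nat_lit 304) (nat_lit 0) (XT.lf (nat_lit 0) (nat_lit 5127096107) (nat_lit 228) (nat_lit 7610235563) (nat_lit 304) (nat_lit 66942871) (nat_lit 88) (nat_lit 5) (nat_lit 91) (nat_lit 5) (nat_lit 92) (nat_lit 5) (nat_lit 626) (nat_lit 497) (nat_lit 437)) (XT.lf (nat_lit 0) (nat_lit 1938591407) (nat_lit 228) (nat_lit 2657467170) (nat_lit 304) (nat_lit 8352530838) (nat_lit 84) (nat_lit 5) (nat_lit 87) (nat_lit 5) (nat_lit 88) (nat_lit 5) (nat_lit 627) (nat_lit 497) (nat_lit 436))) (XT.nd (nat_lit 78) (nat_lit 304) (nat_lit 0) (XT.lf (nat_lit 0) (nat_lit 9376906344) (nat_lit 304) (nat_lit 1333708115) (nat_lit 76) (nat_lit 2384658500) (nat_lit 84) (nat_lit 5)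 (nat_lit 88) (nat_lit 5) (nat_lit 85) (nat_lit 5) (nat_lit 628) (nat_lit 497) (nat_lit 435)) (XT.lf (nat_lit 0) (nat_lit 1027533769) (nat_lit 304) (nat_lit 4692172636) (nat_lit 76) (nat_lit 7524408072) (nat_lit 80) (nat_lit 5) (nat_lit 84) (nat_lit 5) (nat_lit 81) (nat_lit 5) (nat_lit 629) (nat_lit 497) (nat_lit 434))))) (XT.nd (nat_lit 312) (nat_lit 684) (nat_lit 0) (XT.nd (nat_lit 156) (nat_lit 304) (nat_lit 0) (XT.nd (nat_lit 78) (nat_lit 228) (nat_lit 0) (XT.lf (nat_lit 0) (nat_lit 5229536911) (nat_lit 228) (nat_lit 591005888) (nat_lit 304) (nat_lit 7574859691) (nat_lit 77) (nat_lit 5) (nat_lit 80) (nat_lit 5) (nat_lit 81) (nat_lit 5) (nat_lit 630) (nat_lit 497) (nat_lit 433)) (XT.lf (nat_lit 0) (nat_lit 1785138246) (nat_lit 228) (nat_lit 8956797450) (nat_lit 304) (nat_lit 2807130903) (nat_lit 74) (nat_lit 5) (nat_lit 77) (nat_lit 5) (nat_lit 78) (nat_lit 5) (nat_lit 631) (nat_lit 497) (nat_lit 432))) (XT.nd (nat_lit 78) (nat_lit 228) (nat_lit 0) (XT.lf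 (nat_lit 0) (nat_lit 2047239722) (nat_lit 304) (nat_lit 1748685299) (nat_lit 76) (nat_lit 9909247746) (nat_lit 73) (nat_lit 5) (nat_lit 77) (nat_lit 5) (nat_lit 74) (nat_lit 5) (nat_lit 632) (nat_lit 497) (nat_lit 431)) (XT.lf (nat_lit 0) (nat_lit 6986058892) (nat_lit 304) (nat_lit 5384732761) (nat_lit 76) (nat_lit 1492740092) (nat_lit 70) (nat_lit 5) (nat_lit 74) (nat_lit 5) (nat_lit 71) (nat_lit 5) (nat_lit 633) (nat_lit 497) (nat_lit 430)))) (XT.nd (nat_lit 156) (nat_lit 228) (nat_lit 0) (XT.nd (nat_lit 78) (nat_lit 228) (nat_lit 0) (XT.lf (nat_lit 0) (nat_lit 4877548583) (nat_lit 228) (nat_lit 7174832130) (nat_lit 304) (nat_lit 1972103414) (nat_lit 67) (nat_lit 5) (nat_lit 70) (nat_lit 5) (nat_lit 71) (nat_lit 5) (nat_lit 634) (nat_lit 497) (nat_lit 429)) (XT.lf (nat_lit 0) (nat_lit 1154370781) (nat_lit 152) (nat_lit 1841283384) (nat_lit 228) (nat_lit 11192527719) (nat_lit 64) (nat_lit 5) (nat_lit 66) (nat_lit 5) (nat_lit 67) (nat_lit 5) (nat_lit 635)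 (nat_lit 497) (nat_lit 428))) (XT.nd (nat_lit 78) (nat_lit 228) (nat_lit 0) (XT.lf (nat_lit 0) (nat_lit 8081830018) (nat_lit 228) (nat_lit 2676171811) (nat_lit 76) (nat_lit 3595982369) (nat_lit 64) (nat_lit 5) (nat_lit 67) (nat_lit 5) (nat_lit 65) (nat_lit 5) (nat_lit 636) (nat_lit 497) (nat_lit 427)) (XT.lf (nat_lit 0) (nat_lit 7910462974) (nat_lit 228) (nat_lit 5383889895) (nat_lit 304) (nat_lit 1228257910) (nat_lit 61) (nat_lit 5) (nat_lit 64) (nat_lit 5) (nat_lit 65) (nat_lit 5) (nat_lit 637) (nat_lit 497) (nat_lit 426)))))) (XT.nd (nat_lit 546) (nat_lit 760) (nat_lit 0) (XT.nd (nat_lit 234) (nat_lit 684) (nat_lit 0) (XT.nd (nat_lit 78) (nat_lit 228) (nat_lit 0) (XT.lf (nat_lit 0) (nat_lit 3871272314) (nat_lit 228) (nat_lit 10686785377) (nat_lit 76) (nat_lit 135921856) (nat_lit 58) (nat_lit 5) (nat_lit 61) (nat_lit 5) (nat_lit 59) (nat_lit 5) (nat_lit 638) (nat_lit 497) (nat_lit 425)) (XT.nd (nat_lit 78) (nat_lit 228) (nat_lit 0) (XT.lf (nat_lit 0) (nat_lit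 9097921334) (nat_lit 228) (nat_lit 53301155) (nat_lit 76) (nat_lit 5716559984) (nat_lit 58) (nat_lit 5) (nat_lit 61) (nat_lit 5) (nat_lit 59) (nat_lit 5) (nat_lit 639) (nat_lit 497) (nat_lit 424)) (XT.lf (nat_lit 0) (nat_lit 10866861467) (nat_lit 228) (nat_lit 3594796200) (nat_lit 304) (nat_lit 582753342) (nat_lit 55) (nat_lit 5) (nat_lit 58) (nat_lit 5) (nat_lit 59) (nat_lit 5) (nat_lit 640) (nat_lit 497) (nat_lit 423)))) (XT.nd (nat_lit 156) (nat_lit 228) (nat_lit 0) (XT.nd (nat_lit 78) (nat_lit 228) (nat_lit 0) (XT.lf (nat_lit 0) (nat_lit 4666479898) (nat_lit 228) (nat_lit 8466334401) (nat_lit 76) (nat_lit 2090744452) (nat_lit 52) (nat_lit 5) (nat_lit 55) (nat_lit 5) (nat_lit 53) (nat_lit 5) (nat_lit 641) (nat_lit 497) (nat_lit 422)) (XT.lf (nat_lit 0) (nat_lit 2497829771) (nat_lit 228) (nat_lit 7545472029) (nat_lit 304) (nat_lit 5362303068) (nat_lit 49) (nat_lit 5) (nat_lit 52) (nat_lit 5) (nat_lit 53) (nat_lit 5) (nat_lit 642) (nat_lit 497) (nat_lit 421)))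 (XT.nd (nat_lit 78) (nat_lit 228) (nat_lit 0) (XT.lf (nat_lit 0) (nat_lit 13727821501) (nat_lit 228) (nat_lit 1819107704) (nat_lit 304) (nat_lit 43977912) (nat_lit 49) (nat_lit 5) (nat_lit 52) (nat_lit 5) (nat_lit 53) (nat_lit 5) (nat_lit 643) (nat_lit 497) (nat_lit 420)) (XT.lf (nat_lit 0) (nat_lit 5360829281) (nat_lit 228) (nat_lit 6381503767) (nat_lit 76) (nat_lit 4035870533) (nat_lit 46) (nat_lit 5) (nat_lit 49) (nat_lit 5) (nat_lit 47) (nat_lit 5) (nat_lit 644) (nat_lit 497) (nat_lit 419))))) (XT.nd (nat_lit 312) (nat_lit 228) (nat_lit 0) (XT.nd (nat_lit 156) (nat_lit 152) (nat_lit 0) (XT.nd (nat_lit 78) (nat_lit 228) (nat_lit 0) (XT.lf (nat_lit 0) (nat_lit 4922608327) (nat_lit 152) (nat_lit 5970172378) (nat_lit 228) (nat_lit 5076067272) (nat_lit 44) (nat_lit 5) (nat_lit 46) (nat_lit 5) (nat_lit 47) (nat_lit 5) (nat_lit 645) (nat_lit 497) (nat_lit 418)) (XT.lf (nat_lit 0) (nat_lit 310714345) (nat_lit 152) (nat_lit 64685547) (nat_lit 228) (nat_lit 15787693316)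 (nat_lit 41) (nat_lit 5) (nat_lit 43) (nat_lit 5) (nat_lit 44) (nat_lit 5) (nat_lit 646) (nat_lit 497) (nat_lit 417))) (XT.nd (nat_lit 78) (nat_lit 152) (nat_lit 0) (XT.lf (nat_lit 0) (nat_lit 5944477612) (nat_lit 228) (nat_lit 4455604475) (nat_lit 76) (nat_lit 5958939728) (nat_lit 41) (nat_lit 5) (nat_lit 44) (nat_lit 5) (nat_lit 42) (nat_lit 5) (nat_lit 647) (nat_lit 497) (nat_lit 416)) (XT.lf (nat_lit 0) (nat_lit 7196780445) (nat_lit 152) (nat_lit 4439213084) (nat_lit 228) (nat_lit 4922654846) (nat_lit 39) (nat_lit 5) (nat_lit 41) (nat_lit 5) (nat_lit 42) (nat_lit 5) (nat_lit 648) (nat_lit 497) (nat_lit 415)))) (XT.nd (nat_lit 74646) (nat_lit 0) (nat_lit 27360) (XT.nd (nat_lit 74568) (nat_lit 0) (nat_lit 29108) (XT.lf (nat_lit 0) (nat_lit 690191839) (nat_lit 228) (nat_lit 14432076221) (nat_lit 76) (nat_lit 1639511205) (nat_lit 36) (nat_lit 5) (nat_lit 39) (nat_lit 5) (nat_lit 37) (nat_lit 5) (nat_lit 649) (nat_lit 497) (nat_lit 414)) (XT.lf (nat_lit 0)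 (nat_lit 937762236) (nat_lit 912) (nat_lit 1808426284) (nat_lit 0) (nat_lit 937762236) (nat_lit 419) (nat_lit 5) (nat_lit 431) (nat_lit 4) (nat_lit 419) (nat_lit 4) (nat_lit 564) (nat_lit 498) (nat_lit 498))) (XT.nd (nat_lit 78) (nat_lit 912) (nat_lit 0) (XT.lf (nat_lit 0) (nat_lit 2138911319) (nat_lit 836) (nat_lit 3405410164) (nat_lit 836) (nat_lit 1866542926) (nat_lit 408) (nat_lit 4) (nat_lit 419) (nat_lit 5) (nat_lit 419) (nat_lit 4) (nat_lit 565) (nat_lit 498) (nat_lit 497)) (XT.lf (nat_lit 0) (nat_lit 521919665) (nat_lit 836) (nat_lit 1245149777) (nat_lit 912) (nat_lit 5688198343) (nat_lit 396) (nat_lit 5) (nat_lit 407) (nat_lit 5) (nat_lit 408) (nat_lit 4) (nat_lit 566) (nat_lit 498) (nat_lit 496))))))))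
noncomputable def xc32 : XT := (XT.nd (nat_lit 2262) (nat_lit 8132) (nat_lit 0) (XT.nd (nat_lit 1092) (nat_lit 6688) (nat_lit 0) (XT.nd (nat_lit 546) (nat_lit 4104) (nat_lit 0) (XT.nd (nat_lit 234) (nat_lit 2356) (nat_lit 0) (XT.nd (nat_lit 78) (nat_lit 1672) (nat_lit 0) (XT.lf (nat_lit 0) (nat_lit 5422467708) (nat_lit 912) (nat_lit 1093813125) (nat_lit 0) (nat_lit 984554221) (nat_lit 396) (nat_lit 5) (nat_lit 408) (nat_lit 4) (nat_lit 396) (nat_lit 4) (nat_lit 567) (nat_lit 498) (nat_lit 495)) (XT.nd (nat_lit 78) (nat_lit 760) (nat_lit 0) (XT.lf (nat_lit 0) (nat_lit 1555701253) (nat_lit 912) (nat_lit 2717072413) (nat_lit 76) (nat_lit 3274874827) (nat_lit 384) (nat_lit 5) (nat_lit 396) (nat_lit 5) (nat_lit 385) (nat_lit 4) (nat_lit 568) (nat_lit 498) (nat_lit 494)) (XT.lf (nat_lit 0) (nat_lit 3244651081) (nat_lit 760) (nat_lit 1952398174) (nat_lit 836) (nat_lit 2398830083) (nat_lit 374) (nat_lit 5) (nat_lit 384) (nat_lit 5) (nat_lit 385) (nat_lit 4) (nat_lit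 569) (nat_lit 498) (nat_lit 493)))) (XT.nd (nat_lit 156) (nat_lit 836) (nat_lit 0) (XT.nd (nat_lit 78) (nat_lit 684) (nat_lit 0) (XT.lf (nat_lit 0) (nat_lit 1215802070) (nat_lit 836) (nat_lit 5994921470) (nat_lit 76) (nat_lit 434865949) (nat_lit 363) (nat_lit 5) (nat_lit 374) (nat_lit 5) (nat_lit 364) (nat_lit 4) (nat_lit 570) (nat_lit 498) (nat_lit 492)) (XT.lf (nat_lit 0) (nat_lit 29042789) (nat_lit 684) (nat_lit 4819121968) (nat_lit 760) (nat_lit 2848264980) (nat_lit 354) (nat_lit 5) (nat_lit 363) (nat_lit 5) (nat_lit 364) (nat_lit 4) (nat_lit 571) (nat_lit 498) (nat_lit 491))) (XT.nd (nat_lit 78) (nat_lit 760) (nat_lit 0) (XT.lf (nat_lit 0) (nat_lit 770185058) (nat_lit 760) (nat_lit 1576777076) (nat_lit 76) (nat_lit 5401707097) (nat_lit 353) (nat_lit 5) (nat_lit 363) (nat_lit 5) (nat_lit 354) (nat_lit 5) (nat_lit 572) (nat_lit 498) (nat_lit 490)) (XT.lf (nat_lit 0) (nat_lit 4390761849) (nat_lit 836) (nat_lit 3203516368) (nat_lit 76) (nat_lit 207944782)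 (nat_lit 343) (nat_lit 5) (nat_lit 354) (nat_lit 5) (nat_lit 344) (nat_lit 4) (nat_lit 573) (nat_lit 498) (nat_lit 489))))) (XT.nd (nat_lit 234) (nat_lit 2660) (nat_lit 0) (XT.nd (nat_lit 78) (nat_lit 684) (nat_lit 0) (XT.lf (nat_lit 0) (nat_lit 206819128) (nat_lit 760) (nat_lit 4849940265) (nat_lit 76) (nat_lit 2800404924) (nat_lit 333) (nat_lit 5) (nat_lit 343) (nat_lit 5) (nat_lit 334) (nat_lit 5) (nat_lit 574) (nat_lit 498) (nat_lit 488)) (XT.nd (nat_lit 78) (nat_lit 0) (nat_lit 0) (XT.lf (nat_lit 0) (nat_lit 1390335789) (nat_lit 684) (nat_lit 2429754845) (nat_lit 760) (nat_lit 4093300448) (nat_lit 324) (nat_lit 5) (nat_lit 333) (nat_lit 5) (nat_lit 334) (nat_lit 5) (nat_lit 575) (nat_lit 498) (nat_lit 487)) (XT.lf (nat_lit 0) (nat_lit 7478224315) (nat_lit 760) (nat_lit 229384032) (nat_lit 76) (nat_lit 263685745) (nat_lit 324) (nat_lit 5) (nat_lit 334) (nat_lit 5) (nat_lit 325) (nat_lit 4) (nat_lit 576) (nat_lit 498) (nat_lit 486)))) (XT.nd (nat_lit 156)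 (nat_lit 1292) (nat_lit 0) (XT.nd (nat_lit 78) (nat_lit 684) (nat_lit 0) (XT.lf (nat_lit 0) (nat_lit 3133065860) (nat_lit 684) (nat_lit 1873036358) (nat_lit 76) (nat_lit 3023931710) (nat_lit 315) (nat_lit 5) (nat_lit 324) (nat_lit 5) (nat_lit 316) (nat_lit 5) (nat_lit 577) (nat_lit 498) (nat_lit 485)) (XT.lf (nat_lit 0) (nat_lit 4563503139) (nat_lit 684) (nat_lit 2232519642) (nat_lit 760) (nat_lit 1294446014) (nat_lit 306) (nat_lit 5) (nat_lit 315) (nat_lit 5) (nat_lit 316) (nat_lit 5) (nat_lit 578) (nat_lit 498) (nat_lit 484))) (XT.nd (nat_lit 78) (nat_lit 608) (nat_lit 0) (XT.lf (nat_lit 0) (nat_lit 2324773924) (nat_lit 684) (nat_lit 5208678755) (nat_lit 76) (nat_lit 618836650) (nat_lit 297) (nat_lit 5) (nat_lit 306) (nat_lit 5) (nat_lit 298) (nat_lit 5) (nat_lit 579) (nat_lit 498) (nat_lit 483)) (XT.lf (nat_lit 0) (nat_lit 1291736060) (nat_lit 608) (nat_lit 4694882603) (nat_lit 684) (nat_lit 2228808261) (nat_lit 289) (nat_lit 5) (nat_lit 297) (nat_lit 5)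 (nat_lit 298) (nat_lit 5) (nat_lit 580) (nat_lit 498) (nat_lit 482)))))) (XT.nd (nat_lit 546) (nat_lit 3648) (nat_lit 0) (XT.nd (nat_lit 234) (nat_lit 1672) (nat_lit 0) (XT.nd (nat_lit 78) (nat_lit 1292) (nat_lit 0) (XT.lf (nat_lit 0) (nat_lit 1398976178) (nat_lit 684) (nat_lit 374457442) (nat_lit 76) (nat_lit 6506689259) (nat_lit 288) (nat_lit 5) (nat_lit 297) (nat_lit 5) (nat_lit 289) (nat_lit 5) (nat_lit 581) (nat_lit 498) (nat_lit 481)) (XT.nd (nat_lit 78) (nat_lit 684) (nat_lit 0) (XT.lf (nat_lit 0) (nat_lit 5060450125) (nat_lit 684) (nat_lit 2057621140) (nat_lit 76) (nat_lit 1227930338) (nat_lit 280) (nat_lit 5) (nat_lit 289) (nat_lit 5) (nat_lit 281) (nat_lit 5) (nat_lit 582) (nat_lit 498) (nat_lit 480)) (XT.lf (nat_lit 0) (nat_lit 363816141) (nat_lit 684) (nat_lit 3767733429) (nat_lit 76) (nat_lit 4281864265) (nat_lit 271) (nat_lit 5) (nat_lit 280) (nat_lit 5) (nat_lit 272) (nat_lit 5) (nat_lit 583) (nat_lit 498) (nat_lit 479)))) (XT.nd (nat_lit 156)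 (nat_lit 608) (nat_lit 0) (XT.nd (nat_lit 78) (nat_lit 532) (nat_lit 0) (XT.lf (nat_lit 0) (nat_lit 2968387139) (nat_lit 532) (nat_lit 1049758043) (nat_lit 608) (nat_lit 4464078304) (nat_lit 264) (nat_lit 5) (nat_lit 271) (nat_lit 5) (nat_lit 272) (nat_lit 5) (nat_lit 584) (nat_lit 498) (nat_lit 478)) (XT.lf (nat_lit 0) (nat_lit 1262977019) (nat_lit 532) (nat_lit 6473070177) (nat_lit 608) (nat_lit 816555222) (nat_lit 257) (nat_lit 5) (nat_lit 264) (nat_lit 5) (nat_lit 265) (nat_lit 5) (nat_lit 585) (nat_lit 498) (nat_lit 477))) (XT.nd (nat_lit 78) (nat_lit 532) (nat_lit 0) (XT.lf (nat_lit 0) (nat_lit 2853506412) (nat_lit 608) (nat_lit 478096545) (nat_lit 76) (nat_lit 5292658128) (nat_lit 256) (nat_lit 5) (nat_lit 264) (nat_lit 5) (nat_lit 257) (nat_lit 5) (nat_lit 586) (nat_lit 498) (nat_lit 476)) (XT.lf (nat_lit 0) (nat_lit 6472213455) (nat_lit 532) (nat_lit 100438272) (nat_lit 608) (nat_lit 2124863580) (nat_lit 249) (nat_lit 5) (nat_lit 256) (nat_lit 5)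 (nat_lit 257) (nat_lit 5) (nat_lit 587) (nat_lit 498) (nat_lit 475))))) (XT.nd (nat_lit 312) (nat_lit 1976) (nat_lit 0) (XT.nd (nat_lit 156) (nat_lit 608) (nat_lit 0) (XT.nd (nat_lit 78) (nat_lit 456) (nat_lit 0) (XT.lf (nat_lit 0) (nat_lit 1572953277) (nat_lit 608) (nat_lit 4022463892) (nat_lit 76) (nat_lit 3176614763) (nat_lit 241) (nat_lit 5) (nat_lit 249) (nat_lit 5) (nat_lit 242) (nat_lit 5) (nat_lit 588) (nat_lit 498) (nat_lit 474)) (XT.lf (nat_lit 0) (nat_lit 2993179887) (nat_lit 456) (nat_lit 2303502150) (nat_lit 532) (nat_lit 3551470298) (nat_lit 235) (nat_lit 5) (nat_lit 241) (nat_lit 5) (nat_lit 242) (nat_lit 5) (nat_lit 589) (nat_lit 498) (nat_lit 473))) (XT.nd (nat_lit 78) (nat_lit 0) (nat_lit 0) (XT.lf (nat_lit 0) (nat_lit 154329625) (nat_lit 608) (nat_lit 7717846423) (nat_lit 76) (nat_lit 1053850404) (nat_lit 227) (nat_lit 5) (nat_lit 235) (nat_lit 5) (nat_lit 228) (nat_lit 5) (nat_lit 590) (nat_lit 498) (nat_lit 472)) (XT.lf (nat_lit 0) (nat_lit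 3887418890) (nat_lit 608) (nat_lit 629980699) (nat_lit 76) (nat_lit 4487576765) (nat_lit 227) (nat_lit 5) (nat_lit 235) (nat_lit 5) (nat_lit 228) (nat_lit 5) (nat_lit 591) (nat_lit 498) (nat_lit 471)))) (XT.nd (nat_lit 156) (nat_lit 988) (nat_lit 0) (XT.nd (nat_lit 78) (nat_lit 532) (nat_lit 0) (XT.lf (nat_lit 0) (nat_lit 6609627967) (nat_lit 456) (nat_lit 1075395229) (nat_lit 532) (nat_lit 1400687305) (nat_lit 221) (nat_lit 5) (nat_lit 227) (nat_lit 5) (nat_lit 228) (nat_lit 5) (nat_lit 592) (nat_lit 498) (nat_lit 470)) (XT.lf (nat_lit 0) (nat_lit 2357750883) (nat_lit 532) (nat_lit 4378929095) (nat_lit 76) (nat_lit 2431099502) (nat_lit 214) (nat_lit 5) (nat_lit 221) (nat_lit 5) (nat_lit 215) (nat_lit 5) (nat_lit 593) (nat_lit 498) (nat_lit 469))) (XT.nd (nat_lit 78) (nat_lit 532) (nat_lit 0) (XT.lf (nat_lit 0) (nat_lit 2926068923) (nat_lit 456) (nat_lit 3236916024) (nat_lit 532) (nat_lit 3088514254) (nat_lit 208) (nat_lit 5) (nat_lit 214) (nat_lit 5) (nat_lit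 215) (nat_lit 5) (nat_lit 594) (nat_lit 498) (nat_lit 468)) (XT.lf (nat_lit 0) (nat_lit 684400620) (nat_lit 532) (nat_lit 8307909033) (nat_lit 76) (nat_lit 344768928) (nat_lit 201) (nat_lit 5) (nat_lit 208) (nat_lit 5) (nat_lit 202) (nat_lit 5) (nat_lit 595) (nat_lit 498) (nat_lit 467))))))) (XT.nd (nat_lit 1092) (nat_lit 3648) (nat_lit 0) (XT.nd (nat_lit 546) (nat_lit 2356) (nat_lit 0) (XT.nd (nat_lit 234) (nat_lit 1216) (nat_lit 0) (XT.nd (nat_lit 78) (nat_lit 912) (nat_lit 0) (XT.lf (nat_lit 0) (nat_lit 4503687476) (nat_lit 532) (nat_lit 926927977) (nat_lit 76) (nat_lit 3993102468) (nat_lit 201) (nat_lit 5) (nat_lit 208) (nat_lit 5) (nat_lit 202) (nat_lit 5) (nat_lit 596) (nat_lit 498) (nat_lit 466)) (XT.nd (nat_lit 78) (nat_lit 532) (nat_lit 0) (XT.lf (nat_lit 0) (nat_lit 6612077322) (nat_lit 380) (nat_lit 1779296688) (nat_lit 456) (nat_lit 1120877772) (nat_lit 196) (nat_lit 5) (nat_lit 201) (nat_lit 5) (nat_lit 202) (nat_lit 5) (nat_lit 597) (nat_lit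 498) (nat_lit 465)) (XT.lf (nat_lit 0) (nat_lit 2716852355) (nat_lit 532) (nat_lit 4936356253) (nat_lit 76) (nat_lit 1949017656) (nat_lit 189) (nat_lit 5) (nat_lit 196) (nat_lit 5) (nat_lit 190) (nat_lit 5) (nat_lit 598) (nat_lit 498) (nat_lit 464)))) (XT.nd (nat_lit 156) (nat_lit 380) (nat_lit 0) (XT.nd (nat_lit 78) (nat_lit 456) (nat_lit 0) (XT.lf (nat_lit 0) (nat_lit 2667765228) (nat_lit 380) (nat_lit 3946861074) (nat_lit 456) (nat_lit 3079261695) (nat_lit 184) (nat_lit 5) (nat_lit 189) (nat_lit 5) (nat_lit 190) (nat_lit 5) (nat_lit 599) (nat_lit 498) (nat_lit 463)) (XT.lf (nat_lit 0) (nat_lit 630003241) (nat_lit 380) (nat_lit 149623069) (nat_lit 456) (nat_lit 9007910514) (nat_lit 178) (nat_lit 5) (nat_lit 183) (nat_lit 5) (nat_lit 184) (nat_lit 5) (nat_lit 600) (nat_lit 498) (nat_lit 462))) (XT.nd (nat_lit 78) (nat_lit 380) (nat_lit 0) (XT.lf (nat_lit 0) (nat_lit 4696200955) (nat_lit 456) (nat_lit 1469809345) (nat_lit 76) (nat_lit 3716208235) (nat_lit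 178) (nat_lit 5) (nat_lit 184) (nat_lit 5) (nat_lit 179) (nat_lit 5) (nat_lit 601) (nat_lit 498) (nat_lit 461)) (XT.lf (nat_lit 0) (nat_lit 6378544169) (nat_lit 380) (nat_lit 2306011271) (nat_lit 456) (nat_lit 1294371222) (nat_lit 173) (nat_lit 5) (nat_lit 178) (nat_lit 5) (nat_lit 179) (nat_lit 5) (nat_lit 602) (nat_lit 498) (nat_lit 460))))) (XT.nd (nat_lit 234) (nat_lit 1444) (nat_lit 0) (XT.nd (nat_lit 78) (nat_lit 456) (nat_lit 0) (XT.lf (nat_lit 0) (nat_lit 2639772818) (nat_lit 456) (nat_lit 5798927736) (nat_lit 76) (nat_lit 1638527726) (nat_lit 167) (nat_lit 5) (nat_lit 173) (nat_lit 5) (nat_lit 168) (nat_lit 5) (nat_lit 603) (nat_lit 498) (nat_lit 459)) (XT.nd (nat_lit 78) (nat_lit 76) (nat_lit 0) (XT.lf (nat_lit 0) (nat_lit 2113833699) (nat_lit 380) (nat_lit 4526250346) (nat_lit 456) (nat_lit 3537146100) (nat_lit 162) (nat_lit 5) (nat_lit 167) (nat_lit 5) (nat_lit 168) (nat_lit 5) (nat_lit 604) (nat_lit 498) (nat_lit 458)) (XT.lf (nat_lit 0) (nat_lit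 426178002) (nat_lit 456) (nat_lit 94497106) (nat_lit 76) (nat_lit 9758685349) (nat_lit 161) (nat_lit 5) (nat_lit 167) (nat_lit 5) (nat_lit 162) (nat_lit 5) (nat_lit 605) (nat_lit 498) (nat_lit 457)))) (XT.nd (nat_lit 156) (nat_lit 760) (nat_lit 0) (XT.nd (nat_lit 78) (nat_lit 304) (nat_lit 0) (XT.lf (nat_lit 0) (nat_lit 4449698182) (nat_lit 456) (nat_lit 2365506232) (nat_lit 76) (nat_lit 3567297065) (nat_lit 156) (nat_lit 5) (nat_lit 162) (nat_lit 5) (nat_lit 157) (nat_lit 5) (nat_lit 606) (nat_lit 498) (nat_lit 456)) (XT.lf (nat_lit 0) (nat_lit 5801794337) (nat_lit 304) (nat_lit 2746490663) (nat_lit 380) (nat_lit 1939529922) (nat_lit 152) (nat_lit 5) (nat_lit 156) (nat_lit 5) (nat_lit 157) (nat_lit 5) (nat_lit 607) (nat_lit 498) (nat_lit 455))) (XT.nd (nat_lit 78) (nat_lit 304) (nat_lit 0) (XT.lf (nat_lit 0) (nat_lit 2106750781) (nat_lit 456) (nat_lit 7077800756) (nat_lit 76) (nat_lit 1410385017) (nat_lit 146) (nat_lit 5) (nat_lit 152) (nat_lit 5) (nat_lit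 147) (nat_lit 5) (nat_lit 608) (nat_lit 498) (nat_lit 454)) (XT.lf (nat_lit 0) (nat_lit 1152641814) (nat_lit 304) (nat_lit 5065918839) (nat_lit 380) (nat_lit 4485173518) (nat_lit 142) (nat_lit 5) (nat_lit 146) (nat_lit 5) (nat_lit 147) (nat_lit 5) (nat_lit 609) (nat_lit 498) (nat_lit 453)))))) (XT.nd (nat_lit 546) (nat_lit 1824) (nat_lit 0) (XT.nd (nat_lit 234) (nat_lit 1064) (nat_lit 0) (XT.nd (nat_lit 78) (nat_lit 760) (nat_lit 0) (XT.lf (nat_lit 0) (nat_lit 9568594007) (nat_lit 304) (nat_lit 845161735) (nat_lit 380) (nat_lit 400930428) (nat_lit 142) (nat_lit 5) (nat_lit 146) (nat_lit 5) (nat_lit 147) (nat_lit 5) (nat_lit 610) (nat_lit 498) (nat_lit 452)) (XT.nd (nat_lit 78) (nat_lit 304) (nat_lit 0) (XT.lf (nat_lit 0) (nat_lit 3739515168) (nat_lit 456) (nat_lit 3729008651) (nat_lit 76) (nat_lit 3458367922) (nat_lit 136) (nat_lit 5) (nat_lit 142) (nat_lit 5) (nat_lit 137) (nat_lit 5) (nat_lit 611) (nat_lit 498) (nat_lit 451)) (XT.lf (nat_lit 0) (nat_lit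 4766243193) (nat_lit 304) (nat_lit 3190617030) (nat_lit 380) (nat_lit 3084440344) (nat_lit 132) (nat_lit 5) (nat_lit 136) (nat_lit 5) (nat_lit 137) (nat_lit 5) (nat_lit 612) (nat_lit 498) (nat_lit 450)))) (XT.nd (nat_lit 156) (nat_lit 684) (nat_lit 0) (XT.nd (nat_lit 78) (nat_lit 0) (nat_lit 0) (XT.lf (nat_lit 0) (nat_lit 1088407925) (nat_lit 380) (nat_lit 8893289040) (nat_lit 76) (nat_lit 1176113225) (nat_lit 127) (nat_lit 5) (nat_lit 132) (nat_lit 5) (nat_lit 128) (nat_lit 5) (nat_lit 613) (nat_lit 498) (nat_lit 449)) (XT.lf (nat_lit 0) (nat_lit 5321795909) (nat_lit 380) (nat_lit 332443078) (nat_lit 76) (nat_lit 5621636838) (nat_lit 127) (nat_lit 5) (nat_lit 132) (nat_lit 5) (nat_lit 128) (nat_lit 5) (nat_lit 614) (nat_lit 498) (nat_lit 448))) (XT.nd (nat_lit 78) (nat_lit 380) (nat_lit 0) (XT.lf (nat_lit 0) (nat_lit 8436987096) (nat_lit 304) (nat_lit 1213355893) (nat_lit 380) (nat_lit 1745751182) (nat_lit 123) (nat_lit 5) (nat_lit 127) (nat_lit 5) (nat_lit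 128) (nat_lit 5) (nat_lit 615) (nat_lit 498) (nat_lit 447)) (XT.lf (nat_lit 0) (nat_lit 2531134964) (nat_lit 380) (nat_lit 5685703187) (nat_lit 76) (nat_lit 3301193374) (nat_lit 118) (nat_lit 5) (nat_lit 123) (nat_lit 5) (nat_lit 119) (nat_lit 5) (nat_lit 616) (nat_lit 498) (nat_lit 446))))) (XT.nd (nat_lit 312) (nat_lit 988) (nat_lit 0) (XT.nd (nat_lit 156) (nat_lit 304) (nat_lit 0) (XT.nd (nat_lit 78) (nat_lit 304) (nat_lit 0) (XT.lf (nat_lit 0) (nat_lit 3145624051) (nat_lit 228) (nat_lit 3729049210) (nat_lit 304) (nat_lit 4767414932) (nat_lit 115) (nat_lit 5) (nat_lit 118) (nat_lit 5) (nat_lit 119) (nat_lit 5) (nat_lit 617) (nat_lit 498) (nat_lit 445)) (XT.lf (nat_lit 0) (nat_lit 388323685) (nat_lit 304) (nat_lit 10919412172) (nat_lit 380) (nat_lit 460838199) (nat_lit 111) (nat_lit 5) (nat_lit 115) (nat_lit 5) (nat_lit 116) (nat_lit 5) (nat_lit 618) (nat_lit 498) (nat_lit 444))) (XT.nd (nat_lit 78) (nat_lit 228) (nat_lit 0) (XT.lf (nat_lit 0) (nat_lit 3918702469)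 (nat_lit 380) (nat_lit 2454961748) (nat_lit 76) (nat_lit 5522647950) (nat_lit 110) (nat_lit 5) (nat_lit 115) (nat_lit 5) (nat_lit 111) (nat_lit 5) (nat_lit 619) (nat_lit 498) (nat_lit 443)) (XT.lf (nat_lit 0) (nat_lit 6660695867) (nat_lit 228) (nat_lit 1719386099) (nat_lit 304) (nat_lit 3646454846) (nat_lit 107) (nat_lit 5) (nat_lit 110) (nat_lit 5) (nat_lit 111) (nat_lit 5) (nat_lit 620) (nat_lit 498) (nat_lit 442)))) (XT.nd (nat_lit 156) (nat_lit 380) (nat_lit 0) (XT.nd (nat_lit 78) (nat_lit 228) (nat_lit 0) (XT.lf (nat_lit 0) (nat_lit 779526308) (nat_lit 380) (nat_lit 8373906098) (nat_lit 76) (nat_lit 3005468028) (nat_lit 102) (nat_lit 5) (nat_lit 107) (nat_lit 5) (nat_lit 103) (nat_lit 5) (nat_lit 621) (nat_lit 498) (nat_lit 441)) (XT.lf (nat_lit 0) (nat_lit 800402037) (nat_lit 228) (nat_lit 4455109267) (nat_lit 304) (nat_lit 7037712764) (nat_lit 99) (nat_lit 5) (nat_lit 102) (nat_lit 5) (nat_lit 103) (nat_lit 5) (nat_lit 622) (nat_lit 498) (nat_lit 440)))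 (XT.nd (nat_lit 78) (nat_lit 380) (nat_lit 0) (XT.lf (nat_lit 0) (nat_lit 9837376395) (nat_lit 304) (nat_lit 2232848494) (nat_lit 76) (nat_lit 359683063) (nat_lit 99) (nat_lit 5) (nat_lit 103) (nat_lit 5) (nat_lit 100) (nat_lit 5) (nat_lit 623) (nat_lit 498) (nat_lit 439)) (XT.lf (nat_lit 0) (nat_lit 1951044807) (nat_lit 380) (nat_lit 5375595581) (nat_lit 76) (nat_lit 5241734851) (nat_lit 94) (nat_lit 5) (nat_lit 99) (nat_lit 5) (nat_lit 95) (nat_lit 5) (nat_lit 624) (nat_lit 498) (nat_lit 438))))))))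
noncomputable def xc33 : XT := (XT.nd (nat_lit 76596) (nat_lit 0) (nat_lit 12768) (XT.nd (nat_lit 1092) (nat_lit 1596) (nat_lit 0) (XT.nd (nat_lit 546) (nat_lit 1292) (nat_lit 0) (XT.nd (nat_lit 234) (nat_lit 760) (nat_lit 0) (XT.nd (nat_lit 78) (nat_lit 304) (nat_lit 0) (XT.lf (nat_lit 0) (nat_lit 4092747118) (nat_lit 228) (nat_lit 2458236919) (nat_lit 304) (nat_lit 6158281925) (nat_lit 91) (nat_lit 5) (nat_lit 94) (nat_lit 5) (nat_lit 95) (nat_lit 5) (nat_lit 625) (nat_lit 498) (nat_lit 437)) (XT.nd (nat_lit 78) (nat_lit 76) (nat_lit 0) (XT.lf (nat_lit 0) (nat_lit 894589232) (nat_lit 228) (nat_lit 10365408492) (nat_lit 304) (nat_lit 1592636173) (nat_lit 88) (nat_lit 5) (nat_lit 91) (nat_lit 5) (nat_lit 92) (nat_lit 5) (nat_lit 626) (nat_lit 498) (nat_lit 436)) (XT.lf (nat_lit 0) (nat_lit 3057367837) (nat_lit 304) (nat_lit 2393324985) (nat_lit 76) (nat_lit 7547114642) (nat_lit 87) (nat_lit 5) (nat_lit 91) (nat_lit 5) (nat_lit 88) (nat_lit 5) (nat_lit 627)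 (nat_lit 498) (nat_lit 435)))) (XT.nd (nat_lit 156) (nat_lit 304) (nat_lit 0) (XT.nd (nat_lit 78) (nat_lit 228) (nat_lit 0) (XT.lf (nat_lit 0) (nat_lit 7378547492) (nat_lit 228) (nat_lit 407984679) (nat_lit 304) (nat_lit 5358992931) (nat_lit 84) (nat_lit 5) (nat_lit 87) (nat_lit 5) (nat_lit 88) (nat_lit 5) (nat_lit 628) (nat_lit 498) (nat_lit 434)) (XT.lf (nat_lit 0) (nat_lit 4033965219) (nat_lit 228) (nat_lit 8609123994) (nat_lit 304) (nat_lit 652452534) (nat_lit 81) (nat_lit 5) (nat_lit 84) (nat_lit 5) (nat_lit 85) (nat_lit 5) (nat_lit 629) (nat_lit 498) (nat_lit 433))) (XT.nd (nat_lit 78) (nat_lit 0) (nat_lit 0) (XT.lf (nat_lit 0) (nat_lit 568293924) (nat_lit 228) (nat_lit 3530642234) (nat_lit 304) (nat_lit 9348982272) (nat_lit 77) (nat_lit 5) (nat_lit 80) (nat_lit 5) (nat_lit 81) (nat_lit 5) (nat_lit 630) (nat_lit 498) (nat_lit 432)) (XT.lf (nat_lit 0) (nat_lit 8969807126) (nat_lit 304) (nat_lit 2967957552) (nat_lit 76) (nat_lit 1664828694) (nat_lit 77)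 (nat_lit 5) (nat_lit 81) (nat_lit 5) (nat_lit 78) (nat_lit 5) (nat_lit 631) (nat_lit 498) (nat_lit 431))))) (XT.nd (nat_lit 234) (nat_lit 760) (nat_lit 0) (XT.nd (nat_lit 78) (nat_lit 228) (nat_lit 0) (XT.lf (nat_lit 0) (nat_lit 206059857) (nat_lit 304) (nat_lit 6618202187) (nat_lit 76) (nat_lit 6935464306) (nat_lit 73) (nat_lit 5) (nat_lit 77) (nat_lit 5) (nat_lit 74) (nat_lit 5) (nat_lit 632) (nat_lit 498) (nat_lit 430)) (XT.nd (nat_lit 78) (nat_lit 0) (nat_lit 0) (XT.lf (nat_lit 0) (nat_lit 3519772525) (nat_lit 228) (nat_lit 1563599035) (nat_lit 304) (nat_lit 8835944289) (nat_lit 70) (nat_lit 5) (nat_lit 73) (nat_lit 5) (nat_lit 74) (nat_lit 5) (nat_lit 633) (nat_lit 498) (nat_lit 429)) (XT.lf (nat_lit 0) (nat_lit 10088511452) (nat_lit 304) (nat_lit 225499848) (nat_lit 76) (nat_lit 3767480931) (nat_lit 70) (nat_lit 5) (nat_lit 74) (nat_lit 5) (nat_lit 71) (nat_lit 5) (nat_lit 634) (nat_lit 498) (nat_lit 428)))) (XT.nd (nat_lit 156) (nat_lit 304) (nat_lit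 0) (XT.nd (nat_lit 78) (nat_lit 152) (nat_lit 0) (XT.lf (nat_lit 0) (nat_lit 972961031) (nat_lit 304) (nat_lit 4045171952) (nat_lit 76) (nat_lit 9227886170) (nat_lit 66) (nat_lit 5) (nat_lit 70) (nat_lit 5) (nat_lit 67) (nat_lit 5) (nat_lit 635) (nat_lit 498) (nat_lit 427)) (XT.lf (nat_lit 0) (nat_lit 5992448965) (nat_lit 228) (nat_lit 8001549973) (nat_lit 76) (nat_lit 419156630) (nat_lit 64) (nat_lit 5) (nat_lit 67) (nat_lit 5) (nat_lit 65) (nat_lit 5) (nat_lit 636) (nat_lit 498) (nat_lit 426))) (XT.nd (nat_lit 78) (nat_lit 76) (nat_lit 0) (XT.lf (nat_lit 0) (nat_lit 2480030228) (nat_lit 228) (nat_lit 8670789024) (nat_lit 304) (nat_lit 3432046283) (nat_lit 61) (nat_lit 5) (nat_lit 64) (nat_lit 5) (nat_lit 65) (nat_lit 5) (nat_lit 637) (nat_lit 498) (nat_lit 425)) (XT.lf (nat_lit 0) (nat_lit 1650602733) (nat_lit 304) (nat_lit 1554701748) (nat_lit 76) (nat_lit 11550131998) (nat_lit 60) (nat_lit 5) (nat_lit 64) (nat_lit 5) (nat_lit 61) (nat_lit 5) (nat_lit 638)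 (nat_lit 498) (nat_lit 424)))))) (XT.nd (nat_lit 546) (nat_lit 532) (nat_lit 0) (XT.nd (nat_lit 234) (nat_lit 456) (nat_lit 0) (XT.nd (nat_lit 78) (nat_lit 456) (nat_lit 0) (XT.lf (nat_lit 0) (nat_lit 6827332604) (nat_lit 228) (nat_lit 5710557936) (nat_lit 76) (nat_lit 2392347565) (nat_lit 58) (nat_lit 5) (nat_lit 61) (nat_lit 5) (nat_lit 59) (nat_lit 5) (nat_lit 639) (nat_lit 498) (nat_lit 423)) (XT.nd (nat_lit 78) (nat_lit 228) (nat_lit 0) (XT.lf (nat_lit 0) (nat_lit 5100728964) (nat_lit 228) (nat_lit 7034459135) (nat_lit 304) (nat_lit 2972796469) (nat_lit 55) (nat_lit 5) (nat_lit 58) (nat_lit 5) (nat_lit 59) (nat_lit 5) (nat_lit 640) (nat_lit 498) (nat_lit 422)) (XT.lf (nat_lit 0) (nat_lit 846078126) (nat_lit 152) (nat_lit 1391061830) (nat_lit 228) (nat_lit 13051715859) (nat_lit 52) (nat_lit 5) (nat_lit 54) (nat_lit 5) (nat_lit 55) (nat_lit 5) (nat_lit 641) (nat_lit 498) (nat_lit 421)))) (XT.nd (nat_lit 156) (nat_lit 228) (nat_lit 0) (XT.nd (nat_lit 78)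 (nat_lit 228) (nat_lit 0) (XT.lf (nat_lit 0) (nat_lit 7570345481) (nat_lit 228) (nat_lit 3535670224) (nat_lit 76) (nat_lit 4365758847) (nat_lit 52) (nat_lit 5) (nat_lit 55) (nat_lit 5) (nat_lit 53) (nat_lit 5) (nat_lit 642) (nat_lit 498) (nat_lit 420)) (XT.lf (nat_lit 0) (nat_lit 7614224660) (nat_lit 228) (nat_lit 5418265291) (nat_lit 304) (nat_lit 2625416795) (nat_lit 49) (nat_lit 5) (nat_lit 52) (nat_lit 5) (nat_lit 53) (nat_lit 5) (nat_lit 643) (nat_lit 498) (nat_lit 419))) (XT.nd (nat_lit 78) (nat_lit 0) (nat_lit 0) (XT.lf (nat_lit 0) (nat_lit 2730651871) (nat_lit 228) (nat_lit 12705053692) (nat_lit 76) (nat_lit 411485021) (nat_lit 46) (nat_lit 5) (nat_lit 49) (nat_lit 5) (nat_lit 47) (nat_lit 5) (nat_lit 644) (nat_lit 498) (nat_lit 418)) (XT.lf (nat_lit 0) (nat_lit 8212705848) (nat_lit 228) (nat_lit 1498249091) (nat_lit 76) (nat_lit 6327878260) (nat_lit 46) (nat_lit 5) (nat_lit 49) (nat_lit 5) (nat_lit 47) (nat_lit 5) (nat_lit 645) (nat_lit 498) (nat_lit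 417))))) (XT.nd (nat_lit 74646) (nat_lit 0) (nat_lit 28044) (XT.nd (nat_lit 156) (nat_lit 152) (nat_lit 0) (XT.nd (nat_lit 78) (nat_lit 228) (nat_lit 0) (XT.lf (nat_lit 0) (nat_lit 9998978898) (nat_lit 152) (nat_lit 3834820489) (nat_lit 228) (nat_lit 2399921844) (nat_lit 44) (nat_lit 5) (nat_lit 46) (nat_lit 5) (nat_lit 47) (nat_lit 5) (nat_lit 646) (nat_lit 498) (nat_lit 416)) (XT.lf (nat_lit 0) (nat_lit 3116993078) (nat_lit 228) (nat_lit 11147847925) (nat_lit 76) (nat_lit 2166793492) (nat_lit 41) (nat_lit 5) (nat_lit 44) (nat_lit 5) (nat_lit 42) (nat_lit 5) (nat_lit 647) (nat_lit 498) (nat_lit 415))) (XT.nd (nat_lit 78) (nat_lit 0) (nat_lit 0) (XT.lf (nat_lit 0) (nat_lit 383002796) (nat_lit 152) (nat_lit 8363746731) (nat_lit 228) (nat_lit 7885746965) (nat_lit 39) (nat_lit 5) (nat_lit 41) (nat_lit 5) (nat_lit 42) (nat_lit 5) (nat_lit 648) (nat_lit 498) (nat_lit 414)) (XT.lf (nat_lit 0) (nat_lit 12231026105) (nat_lit 152) (nat_lit 2297767505) (nat_lit 228)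 (nat_lit 2307788763) (nat_lit 39) (nat_lit 5) (nat_lit 41) (nat_lit 5) (nat_lit 42) (nat_lit 5) (nat_lit 649) (nat_lit 498) (nat_lit 413)))) (XT.nd (nat_lit 156) (nat_lit 1748) (nat_lit 0) (XT.nd (nat_lit 78) (nat_lit 912) (nat_lit 0) (XT.lf (nat_lit 0) (nat_lit 1746696617) (nat_lit 988) (nat_lit 149251286) (nat_lit 0) (nat_lit 1746696617) (nat_lit 443) (nat_lit 5) (nat_lit 456) (nat_lit 4) (nat_lit 443) (nat_lit 4) (nat_lit 562) (nat_lit 499) (nat_lit 499)) (XT.lf (nat_lit 0) (nat_lit 5358422548) (nat_lit 912) (nat_lit 1784481997) (nat_lit 912) (nat_lit 183444522) (nat_lit 431) (nat_lit 4) (nat_lit 443) (nat_lit 5) (nat_lit 443) (nat_lit 4) (nat_lit 563) (nat_lit 499) (nat_lit 498))) (XT.nd (nat_lit 78) (nat_lit 836) (nat_lit 0) (XT.lf (nat_lit 0) (nat_lit 3411043766) (nat_lit 912) (nat_lit 3655010783) (nat_lit 0) (nat_lit 302531945) (nat_lit 419) (nat_lit 5) (nat_lit 431) (nat_lit 4) (nat_lit 419) (nat_lit 4) (nat_lit 564) (nat_lit 499) (nat_lit 497)) (XT.lf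 (nat_lit 0) (nat_lit 2062338827) (nat_lit 836) (nat_lit 4983548626) (nat_lit 836) (nat_lit 366343434) (nat_lit 408) (nat_lit 4) (nat_lit 419) (nat_lit 5) (nat_lit 419) (nat_lit 4) (nat_lit 565) (nat_lit 499) (nat_lit 496))))))) (XT.nd (nat_lit 1170) (nat_lit 6232) (nat_lit 0) (XT.nd (nat_lit 546) (nat_lit 4864) (nat_lit 0) (XT.nd (nat_lit 234) (nat_lit 2356) (nat_lit 0) (XT.nd (nat_lit 78) (nat_lit 912) (nat_lit 0) (XT.lf (nat_lit 0) (nat_lit 394967126) (nat_lit 836) (nat_lit 2818539540) (nat_lit 912) (nat_lit 4243616863) (nat_lit 396) (nat_lit 5) (nat_lit 407) (nat_lit 5) (nat_lit 408) (nat_lit 4) (nat_lit 566) (nat_lit 499) (nat_lit 495)) (XT.nd (nat_lit 78) (nat_lit 912) (nat_lit 0) (XT.lf (nat_lit 0) (nat_lit 6249315417) (nat_lit 836) (nat_lit 580259199) (nat_lit 912) (nat_lit 673905077) (nat_lit 396) (nat_lit 5) (nat_lit 407) (nat_lit 5) (nat_lit 408) (nat_lit 4) (nat_lit 567) (nat_lit 499) (nat_lit 494)) (XT.lf (nat_lit 0) (nat_lit 2904214519) (nat_lit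 912) (nat_lit 2925742325) (nat_lit 76) (nat_lit 1720906698) (nat_lit 384) (nat_lit 5) (nat_lit 396) (nat_lit 5) (nat_lit 385) (nat_lit 4) (nat_lit 568) (nat_lit 499) (nat_lit 493)))) (XT.nd (nat_lit 156) (nat_lit 760) (nat_lit 0) (XT.nd (nat_lit 78) (nat_lit 836) (nat_lit 0) (XT.lf (nat_lit 0) (nat_lit 2995281472) (nat_lit 760) (nat_lit 3516603278) (nat_lit 836) (nat_lit 1087885349) (nat_lit 374) (nat_lit 5) (nat_lit 384) (nat_lit 5) (nat_lit 385) (nat_lit 4) (nat_lit 569) (nat_lit 499) (nat_lit 492)) (XT.lf (nat_lit 0) (nat_lit 1350226983) (nat_lit 760) (nat_lit 1122612629) (nat_lit 836) (nat_lit 5177206757) (nat_lit 363) (nat_lit 5) (nat_lit 373) (nat_lit 5) (nat_lit 374) (nat_lit 5) (nat_lit 570) (nat_lit 499) (nat_lit 491))) (XT.nd (nat_lit 78) (nat_lit 760) (nat_lit 0) (XT.lf (nat_lit 0) (nat_lit 6066186185) (nat_lit 836) (nat_lit 306902565) (nat_lit 76) (nat_lit 1328580224) (nat_lit 363) (nat_lit 5) (nat_lit 374) (nat_lit 5) (nat_lit 364) (nat_lit 4)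 (nat_lit 571) (nat_lit 499) (nat_lit 490)) (XT.lf (nat_lit 0) (nat_lit 1933655360) (nat_lit 760) (nat_lit 1968065905) (nat_lit 76) (nat_lit 3852699792) (nat_lit 353) (nat_lit 5) (nat_lit 363) (nat_lit 5) (nat_lit 354) (nat_lit 5) (nat_lit 572) (nat_lit 499) (nat_lit 489))))) (XT.nd (nat_lit 312) (nat_lit 2584) (nat_lit 0) (XT.nd (nat_lit 156) (nat_lit 760) (nat_lit 0) (XT.nd (nat_lit 78) (nat_lit 760) (nat_lit 0) (XT.lf (nat_lit 0) (nat_lit 4165739550) (nat_lit 760) (nat_lit 1353545975) (nat_lit 836) (nat_lit 2289390147) (nat_lit 343) (nat_lit 5) (nat_lit 353) (nat_lit 5) (nat_lit 354) (nat_lit 5) (nat_lit 573) (nat_lit 499) (nat_lit 488)) (XT.lf (nat_lit 0) (nat_lit 1271582596) (nat_lit 760) (nat_lit 5338798610) (nat_lit 76) (nat_lit 1253943746) (nat_lit 333) (nat_lit 5) (nat_lit 343) (nat_lit 5) (nat_lit 334) (nat_lit 5) (nat_lit 574) (nat_lit 499) (nat_lit 487))) (XT.nd (nat_lit 78) (nat_lit 76) (nat_lit 0) (XT.lf (nat_lit 0) (nat_lit 856624313) (nat_lit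 684) (nat_lit 3994477140) (nat_lit 760) (nat_lit 3070127123) (nat_lit 324) (nat_lit 5) (nat_lit 333) (nat_lit 5) (nat_lit 334) (nat_lit 5) (nat_lit 575) (nat_lit 499) (nat_lit 486)) (XT.lf (nat_lit 0) (nat_lit 491267149) (nat_lit 760) (nat_lit 810635144) (nat_lit 76) (nat_lit 6677799871) (nat_lit 323) (nat_lit 5) (nat_lit 333) (nat_lit 5) (nat_lit 324) (nat_lit 5) (nat_lit 576) (nat_lit 499) (nat_lit 485)))) (XT.nd (nat_lit 156) (nat_lit 1292) (nat_lit 0) (XT.nd (nat_lit 78) (nat_lit 684) (nat_lit 0) (XT.lf (nat_lit 0) (nat_lit 4068790283) (nat_lit 684) (nat_lit 2503522148) (nat_lit 76) (nat_lit 1466910158) (nat_lit 315) (nat_lit 5) (nat_lit 324) (nat_lit 5) (nat_lit 316) (nat_lit 5) (nat_lit 577) (nat_lit 499) (nat_lit 484)) (XT.lf (nat_lit 0) (nat_lit 3886588108) (nat_lit 684) (nat_lit 3811505637) (nat_lit 760) (nat_lit 402238448) (nat_lit 306) (nat_lit 5) (nat_lit 315) (nat_lit 5) (nat_lit 316) (nat_lit 5) (nat_lit 578) (nat_lit 499) (nat_lit 483))) (XT.nd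 (nat_lit 78) (nat_lit 608) (nat_lit 0) (XT.lf (nat_lit 0) (nat_lit 2207794312) (nat_lit 608) (nat_lit 959489883) (nat_lit 684) (nat_lit 4995514195) (nat_lit 297) (nat_lit 5) (nat_lit 305) (nat_lit 5) (nat_lit 306) (nat_lit 5) (nat_lit 579) (nat_lit 499) (nat_lit 482)) (XT.lf (nat_lit 0) (nat_lit 503334167) (nat_lit 608) (nat_lit 6285597814) (nat_lit 684) (nat_lit 1437809514) (nat_lit 289) (nat_lit 5) (nat_lit 297) (nat_lit 5) (nat_lit 298) (nat_lit 5) (nat_lit 580) (nat_lit 499) (nat_lit 481)))))) (XT.nd (nat_lit 546) (nat_lit 3192) (nat_lit 0) (XT.nd (nat_lit 234) (nat_lit 1672) (nat_lit 0) (XT.nd (nat_lit 78) (nat_lit 1292) (nat_lit 0) (XT.lf (nat_lit 0) (nat_lit 2150882684) (nat_lit 684) (nat_lit 1217409158) (nat_lit 76) (nat_lit 4923618767) (nat_lit 288) (nat_lit 5) (nat_lit 297) (nat_lit 5) (nat_lit 289) (nat_lit 5) (nat_lit 581) (nat_lit 499) (nat_lit 480)) (XT.nd (nat_lit 78) (nat_lit 684) (nat_lit 0) (XT.lf (nat_lit 0) (nat_lit 5404617513) (nat_lit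 608) (nat_lit 365714105) (nat_lit 684) (nat_lit 2588299695) (nat_lit 280) (nat_lit 5) (nat_lit 288) (nat_lit 5) (nat_lit 289) (nat_lit 5) (nat_lit 582) (nat_lit 499) (nat_lit 479)) (XT.lf (nat_lit 0) (nat_lit 1015273190) (nat_lit 684) (nat_lit 4729382589) (nat_lit 76) (nat_lit 2682031652) (nat_lit 271) (nat_lit 5) (nat_lit 280) (nat_lit 5) (nat_lit 272) (nat_lit 5) (nat_lit 583) (nat_lit 499) (nat_lit 478)))) (XT.nd (nat_lit 156) (nat_lit 608) (nat_lit 0) (XT.nd (nat_lit 78) (nat_lit 532) (nat_lit 0) (XT.lf (nat_lit 0) (nat_lit 1955728594) (nat_lit 532) (nat_lit 2679515140) (nat_lit 608) (nat_lit 3860941912) (nat_lit 264) (nat_lit 5) (nat_lit 271) (nat_lit 5) (nat_lit 272) (nat_lit 5) (nat_lit 584) (nat_lit 499) (nat_lit 477)) (XT.lf (nat_lit 0) (nat_lit 194964529) (nat_lit 532) (nat_lit 8113118386) (nat_lit 608) (nat_lit 259384288) (nat_lit 257) (nat_lit 5) (nat_lit 264) (nat_lit 5) (nat_lit 265) (nat_lit 5) (nat_lit 585) (nat_lit 499) (nat_lit 476))) (XT.nd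 (nat_lit 78) (nat_lit 532) (nat_lit 0) (XT.lf (nat_lit 0) (nat_lit 3375936285) (nat_lit 608) (nat_lit 1602673533) (nat_lit 76) (nat_lit 3660993688) (nat_lit 256) (nat_lit 5) (nat_lit 264) (nat_lit 5) (nat_lit 257) (nat_lit 5) (nat_lit 586) (nat_lit 499) (nat_lit 475)) (XT.lf (nat_lit 0) (nat_lit 5294859781) (nat_lit 532) (nat_lit 1765681911) (nat_lit 608) (nat_lit 1653008125) (nat_lit 249) (nat_lit 5) (nat_lit 256) (nat_lit 5) (nat_lit 257) (nat_lit 5) (nat_lit 587) (nat_lit 499) (nat_lit 474))))) (XT.nd (nat_lit 312) (nat_lit 1520) (nat_lit 0) (XT.nd (nat_lit 156) (nat_lit 608) (nat_lit 0) (XT.nd (nat_lit 78) (nat_lit 456) (nat_lit 0) (XT.lf (nat_lit 0) (nat_lit 1992801297) (nat_lit 608) (nat_lit 5278518623) (nat_lit 76) (nat_lit 1517602868) (nat_lit 241) (nat_lit 5) (nat_lit 249) (nat_lit 5) (nat_lit 242) (nat_lit 5) (nat_lit 588) (nat_lit 499) (nat_lit 473)) (XT.lf (nat_lit 0) (nat_lit 1682269809) (nat_lit 456) (nat_lit 3999176530) (nat_lit 532) (nat_lit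 3184299739) (nat_lit 235) (nat_lit 5) (nat_lit 241) (nat_lit 5) (nat_lit 242) (nat_lit 5) (nat_lit 589) (nat_lit 499) (nat_lit 472))) (XT.nd (nat_lit 78) (nat_lit 532) (nat_lit 0) (XT.lf (nat_lit 0) (nat_lit 475391607) (nat_lit 532) (nat_lit 169341743) (nat_lit 76) (nat_lit 8299666196) (nat_lit 234) (nat_lit 5) (nat_lit 241) (nat_lit 5) (nat_lit 235) (nat_lit 5) (nat_lit 590) (nat_lit 499) (nat_lit 471)) (XT.lf (nat_lit 0) (nat_lit 4176905628) (nat_lit 608) (nat_lit 2061925604) (nat_lit 76) (nat_lit 2785150865) (nat_lit 227) (nat_lit 5) (nat_lit 235) (nat_lit 5) (nat_lit 228) (nat_lit 5) (nat_lit 591) (nat_lit 499) (nat_lit 470)))) (XT.nd (nat_lit 156) (nat_lit 532) (nat_lit 0) (XT.nd (nat_lit 78) (nat_lit 532) (nat_lit 0) (XT.lf (nat_lit 0) (nat_lit 5120932367) (nat_lit 456) (nat_lit 2818159282) (nat_lit 532) (nat_lit 1166334082) (nat_lit 221) (nat_lit 5) (nat_lit 227) (nat_lit 5) (nat_lit 228) (nat_lit 5) (nat_lit 592) (nat_lit 499) (nat_lit 469)) (XT.lf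 (nat_lit 0) (nat_lit 2541745234) (nat_lit 532) (nat_lit 5955701407) (nat_lit 76) (nat_lit 690964422) (nat_lit 214) (nat_lit 5) (nat_lit 221) (nat_lit 5) (nat_lit 215) (nat_lit 5) (nat_lit 593) (nat_lit 499) (nat_lit 468))) (XT.nd (nat_lit 78) (nat_lit 76) (nat_lit 0) (XT.lf (nat_lit 0) (nat_lit 1290332740) (nat_lit 456) (nat_lit 5020555065) (nat_lit 532) (nat_lit 2961965865) (nat_lit 208) (nat_lit 5) (nat_lit 214) (nat_lit 5) (nat_lit 215) (nat_lit 5) (nat_lit 594) (nat_lit 499) (nat_lit 467)) (XT.lf (nat_lit 0) (nat_lit 774942298) (nat_lit 532) (nat_lit 677559686) (nat_lit 76) (nat_lit 7906602589) (nat_lit 207) (nat_lit 5) (nat_lit 214) (nat_lit 5) (nat_lit 208) (nat_lit 5) (nat_lit 595) (nat_lit 499) (nat_lit 466))))))))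
noncomputable def xc34 : XT := (XT.nd (nat_lit 2262) (nat_lit 4180) (nat_lit 0) (XT.nd (nat_lit 1092) (nat_lit 3952) (nat_lit 0) (XT.nd (nat_lit 546) (nat_lit 2052) (nat_lit 0) (XT.nd (nat_lit 234) (nat_lit 1216) (nat_lit 0) (XT.nd (nat_lit 78) (nat_lit 912) (nat_lit 0) (XT.lf (nat_lit 0) (nat_lit 4555105432) (nat_lit 532) (nat_lit 2693095831) (nat_lit 76) (nat_lit 2198326122) (nat_lit 201) (nat_lit 5) (nat_lit 208) (nat_lit 5) (nat_lit 202) (nat_lit 5) (nat_lit 596) (nat_lit 499) (nat_lit 465)) (XT.nd (nat_lit 78) (nat_lit 532) (nat_lit 0) (XT.lf (nat_lit 0) (nat_lit 4784907386) (nat_lit 380) (nat_lit 3621309650) (nat_lit 456) (nat_lit 1129576684) (nat_lit 196) (nat_lit 5) (nat_lit 201) (nat_lit 5) (nat_lit 202) (nat_lit 5) (nat_lit 597) (nat_lit 499) (nat_lit 464)) (XT.lf (nat_lit 0) (nat_lit 2659095569) (nat_lit 532) (nat_lit 6861383891) (nat_lit 76) (nat_lit 106274251) (nat_lit 189) (nat_lit 5) (nat_lit 196) (nat_lit 5) (nat_lit 190) (nat_lit 5) (nat_lit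 598) (nat_lit 499) (nat_lit 463)))) (XT.nd (nat_lit 156) (nat_lit 760) (nat_lit 0) (XT.nd (nat_lit 78) (nat_lit 76) (nat_lit 0) (XT.lf (nat_lit 0) (nat_lit 679373193) (nat_lit 380) (nat_lit 5840119676) (nat_lit 456) (nat_lit 3199671028) (nat_lit 184) (nat_lit 5) (nat_lit 189) (nat_lit 5) (nat_lit 190) (nat_lit 5) (nat_lit 599) (nat_lit 499) (nat_lit 462)) (XT.lf (nat_lit 0) (nat_lit 632316989) (nat_lit 456) (nat_lit 1428511495) (nat_lit 76) (nat_lit 7752570344) (nat_lit 183) (nat_lit 5) (nat_lit 189) (nat_lit 5) (nat_lit 184) (nat_lit 5) (nat_lit 600) (nat_lit 499) (nat_lit 461))) (XT.nd (nat_lit 78) (nat_lit 380) (nat_lit 0) (XT.lf (nat_lit 0) (nat_lit 4502786700) (nat_lit 456) (nat_lit 3598407004) (nat_lit 76) (nat_lit 1807809799) (nat_lit 178) (nat_lit 5) (nat_lit 184) (nat_lit 5) (nat_lit 179) (nat_lit 5) (nat_lit 601) (nat_lit 499) (nat_lit 460)) (XT.lf (nat_lit 0) (nat_lit 4184385564) (nat_lit 380) (nat_lit 4268749121) (nat_lit 456) (nat_lit 1553337926)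 (nat_lit 173) (nat_lit 5) (nat_lit 178) (nat_lit 5) (nat_lit 179) (nat_lit 5) (nat_lit 602) (nat_lit 499) (nat_lit 459))))) (XT.nd (nat_lit 234) (nat_lit 1140) (nat_lit 0) (XT.nd (nat_lit 78) (nat_lit 456) (nat_lit 0) (XT.lf (nat_lit 0) (nat_lit 2002422213) (nat_lit 380) (nat_lit 332464015) (nat_lit 456) (nat_lit 7770908772) (nat_lit 167) (nat_lit 5) (nat_lit 172) (nat_lit 5) (nat_lit 173) (nat_lit 5) (nat_lit 603) (nat_lit 499) (nat_lit 458)) (XT.nd (nat_lit 78) (nat_lit 456) (nat_lit 0) (XT.lf (nat_lit 0) (nat_lit 6295767227) (nat_lit 456) (nat_lit 253176020) (nat_lit 76) (nat_lit 3657643024) (nat_lit 167) (nat_lit 5) (nat_lit 173) (nat_lit 5) (nat_lit 168) (nat_lit 5) (nat_lit 604) (nat_lit 499) (nat_lit 457)) (XT.lf (nat_lit 0) (nat_lit 32249764) (nat_lit 456) (nat_lit 2528892992) (nat_lit 76) (nat_lit 7748126241) (nat_lit 161) (nat_lit 5) (nat_lit 167) (nat_lit 5) (nat_lit 162) (nat_lit 5) (nat_lit 605) (nat_lit 499) (nat_lit 456)))) (XT.nd (nat_lit 156)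 (nat_lit 456) (nat_lit 0) (XT.nd (nat_lit 78) (nat_lit 304) (nat_lit 0) (XT.lf (nat_lit 0) (nat_lit 4003053826) (nat_lit 456) (nat_lit 4886331947) (nat_lit 76) (nat_lit 1524079323) (nat_lit 156) (nat_lit 5) (nat_lit 162) (nat_lit 5) (nat_lit 157) (nat_lit 5) (nat_lit 606) (nat_lit 499) (nat_lit 455)) (XT.lf (nat_lit 0) (nat_lit 3210509666) (nat_lit 304) (nat_lit 4851418187) (nat_lit 380) (nat_lit 2457645682) (nat_lit 152) (nat_lit 5) (nat_lit 156) (nat_lit 5) (nat_lit 157) (nat_lit 5) (nat_lit 607) (nat_lit 499) (nat_lit 454))) (XT.nd (nat_lit 78) (nat_lit 0) (nat_lit 0) (XT.lf (nat_lit 0) (nat_lit 835083276) (nat_lit 380) (nat_lit 710767170) (nat_lit 456) (nat_lit 9081904306) (nat_lit 146) (nat_lit 5) (nat_lit 151) (nat_lit 5) (nat_lit 152) (nat_lit 5) (nat_lit 608) (nat_lit 499) (nat_lit 453)) (XT.lf (nat_lit 0) (nat_lit 5622859092) (nat_lit 456) (nat_lit 1609392878) (nat_lit 76) (nat_lit 3504997123) (nat_lit 146) (nat_lit 5) (nat_lit 152) (nat_lit 5) (nat_lit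 147) (nat_lit 5) (nat_lit 609) (nat_lit 499) (nat_lit 452)))))) (XT.nd (nat_lit 546) (nat_lit 1824) (nat_lit 0) (XT.nd (nat_lit 234) (nat_lit 1064) (nat_lit 0) (XT.nd (nat_lit 78) (nat_lit 760) (nat_lit 0) (XT.lf (nat_lit 0) (nat_lit 6748750887) (nat_lit 304) (nat_lit 3036221129) (nat_lit 380) (nat_lit 1063891403) (nat_lit 142) (nat_lit 5) (nat_lit 146) (nat_lit 5) (nat_lit 147) (nat_lit 5) (nat_lit 610) (nat_lit 499) (nat_lit 451)) (XT.nd (nat_lit 78) (nat_lit 304) (nat_lit 0) (XT.lf (nat_lit 0) (nat_lit 3029594698) (nat_lit 456) (nat_lit 6673694334) (nat_lit 76) (nat_lit 1258979789) (nat_lit 136) (nat_lit 5) (nat_lit 142) (nat_lit 5) (nat_lit 137) (nat_lit 5) (nat_lit 611) (nat_lit 499) (nat_lit 450)) (XT.lf (nat_lit 0) (nat_lit 1745827895) (nat_lit 304) (nat_lit 5459415298) (nat_lit 380) (nat_lit 3872269029) (nat_lit 132) (nat_lit 5) (nat_lit 136) (nat_lit 5) (nat_lit 137) (nat_lit 5) (nat_lit 612) (nat_lit 499) (nat_lit 449)))) (XT.nd (nat_lit 156) (nat_lit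 684) (nat_lit 0) (XT.nd (nat_lit 78) (nat_lit 304) (nat_lit 0) (XT.lf (nat_lit 0) (nat_lit 266388682) (nat_lit 380) (nat_lit 845073590) (nat_lit 76) (nat_lit 10083552956) (nat_lit 131) (nat_lit 5) (nat_lit 136) (nat_lit 5) (nat_lit 132) (nat_lit 5) (nat_lit 613) (nat_lit 499) (nat_lit 448)) (XT.lf (nat_lit 0) (nat_lit 4465039456) (nat_lit 380) (nat_lit 3519611321) (nat_lit 76) (nat_lit 3329125438) (nat_lit 127) (nat_lit 5) (nat_lit 132) (nat_lit 5) (nat_lit 128) (nat_lit 5) (nat_lit 614) (nat_lit 499) (nat_lit 447))) (XT.nd (nat_lit 78) (nat_lit 380) (nat_lit 0) (XT.lf (nat_lit 0) (nat_lit 5171421893) (nat_lit 304) (nat_lit 3579467972) (nat_lit 380) (nat_lit 2683959226) (nat_lit 123) (nat_lit 5) (nat_lit 127) (nat_lit 5) (nat_lit 128) (nat_lit 5) (nat_lit 615) (nat_lit 499) (nat_lit 446)) (XT.lf (nat_lit 0) (nat_lit 1546214407) (nat_lit 380) (nat_lit 9087961832) (nat_lit 76) (nat_lit 923912952) (nat_lit 118) (nat_lit 5) (nat_lit 123) (nat_lit 5) (nat_lit 119)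 (nat_lit 5) (nat_lit 616) (nat_lit 499) (nat_lit 445))))) (XT.nd (nat_lit 312) (nat_lit 988) (nat_lit 0) (XT.nd (nat_lit 156) (nat_lit 608) (nat_lit 0) (XT.nd (nat_lit 78) (nat_lit 228) (nat_lit 0) (XT.lf (nat_lit 0) (nat_lit 5847984131) (nat_lit 380) (nat_lit 333609582) (nat_lit 76) (nat_lit 5501388077) (nat_lit 118) (nat_lit 5) (nat_lit 123) (nat_lit 5) (nat_lit 119) (nat_lit 5) (nat_lit 617) (nat_lit 499) (nat_lit 444)) (XT.lf (nat_lit 0) (nat_lit 8638384939) (nat_lit 228) (nat_lit 1611218775) (nat_lit 304) (nat_lit 1560493349) (nat_lit 115) (nat_lit 5) (nat_lit 118) (nat_lit 5) (nat_lit 119) (nat_lit 5) (nat_lit 618) (nat_lit 499) (nat_lit 443))) (XT.nd (nat_lit 78) (nat_lit 228) (nat_lit 0) (XT.lf (nat_lit 0) (nat_lit 2780799328) (nat_lit 380) (nat_lit 6117211230) (nat_lit 76) (nat_lit 3041021343) (nat_lit 110) (nat_lit 5) (nat_lit 115) (nat_lit 5) (nat_lit 111) (nat_lit 5) (nat_lit 619) (nat_lit 499) (nat_lit 442)) (XT.lf (nat_lit 0) (nat_lit 2914151023)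 (nat_lit 228) (nat_lit 4282914171) (nat_lit 304) (nat_lit 4873094143) (nat_lit 107) (nat_lit 5) (nat_lit 110) (nat_lit 5) (nat_lit 111) (nat_lit 5) (nat_lit 620) (nat_lit 499) (nat_lit 441)))) (XT.nd (nat_lit 156) (nat_lit 608) (nat_lit 0) (XT.nd (nat_lit 78) (nat_lit 380) (nat_lit 0) (XT.lf (nat_lit 0) (nat_lit 11703918550) (nat_lit 304) (nat_lit 68254497) (nat_lit 76) (nat_lit 431692059) (nat_lit 107) (nat_lit 5) (nat_lit 111) (nat_lit 5) (nat_lit 108) (nat_lit 5) (nat_lit 621) (nat_lit 499) (nat_lit 440)) (XT.lf (nat_lit 0) (nat_lit 3956288021) (nat_lit 380) (nat_lit 3141266249) (nat_lit 76) (nat_lit 5241226023) (nat_lit 102) (nat_lit 5) (nat_lit 107) (nat_lit 5) (nat_lit 103) (nat_lit 5) (nat_lit 622) (nat_lit 499) (nat_lit 439))) (XT.nd (nat_lit 78) (nat_lit 380) (nat_lit 0) (XT.lf (nat_lit 0) (nat_lit 6181000956) (nat_lit 228) (nat_lit 2313638494) (nat_lit 304) (nat_lit 3981695480) (nat_lit 99) (nat_lit 5) (nat_lit 102) (nat_lit 5) (nat_lit 103) (nat_lit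 5) (nat_lit 623) (nat_lit 499) (nat_lit 438)) (XT.lf (nat_lit 0) (nat_lit 517638446) (nat_lit 380) (nat_lit 9550227034) (nat_lit 76) (nat_lit 2548366816) (nat_lit 94) (nat_lit 5) (nat_lit 99) (nat_lit 5) (nat_lit 95) (nat_lit 5) (nat_lit 624) (nat_lit 499) (nat_lit 437))))))) (XT.nd (nat_lit 1092) (nat_lit 1672) (nat_lit 0) (XT.nd (nat_lit 546) (nat_lit 1216) (nat_lit 0) (XT.nd (nat_lit 234) (nat_lit 760) (nat_lit 0) (XT.nd (nat_lit 78) (nat_lit 532) (nat_lit 0) (XT.lf (nat_lit 0) (nat_lit 5070871493) (nat_lit 380) (nat_lit 170281265) (nat_lit 76) (nat_lit 7516904835) (nat_lit 94) (nat_lit 5) (nat_lit 99) (nat_lit 5) (nat_lit 95) (nat_lit 5) (nat_lit 625) (nat_lit 499) (nat_lit 436)) (XT.nd (nat_lit 78) (nat_lit 304) (nat_lit 0) (XT.lf (nat_lit 0) (nat_lit 9452475483) (nat_lit 228) (nat_lit 284193523) (nat_lit 304) (nat_lit 3165621288) (nat_lit 91) (nat_lit 5) (nat_lit 94) (nat_lit 5) (nat_lit 95) (nat_lit 5) (nat_lit 626) (nat_lit 499) (nat_lit 435)) (XT.lf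 (nat_lit 0) (nat_lit 1460300919) (nat_lit 304) (nat_lit 6856311546) (nat_lit 76) (nat_lit 4731950315) (nat_lit 87) (nat_lit 5) (nat_lit 91) (nat_lit 5) (nat_lit 88) (nat_lit 5) (nat_lit 627) (nat_lit 499) (nat_lit 434)))) (XT.nd (nat_lit 156) (nat_lit 532) (nat_lit 0) (XT.nd (nat_lit 78) (nat_lit 0) (nat_lit 0) (XT.lf (nat_lit 0) (nat_lit 2821645047) (nat_lit 228) (nat_lit 3318606168) (nat_lit 304) (nat_lit 7057013900) (nat_lit 84) (nat_lit 5) (nat_lit 87) (nat_lit 5) (nat_lit 88) (nat_lit 5) (nat_lit 628) (nat_lit 499) (nat_lit 433)) (XT.lf (nat_lit 0) (nat_lit 10932162463) (nat_lit 304) (nat_lit 642908103) (nat_lit 76) (nat_lit 1773504518) (nat_lit 84) (nat_lit 5) (nat_lit 88) (nat_lit 5) (nat_lit 85) (nat_lit 5) (nat_lit 629) (nat_lit 499) (nat_lit 432))) (XT.nd (nat_lit 78) (nat_lit 228) (nat_lit 0) (XT.lf (nat_lit 0) (nat_lit 2330640287) (nat_lit 304) (nat_lit 4200470772) (nat_lit 76) (nat_lit 6970619566) (nat_lit 80) (nat_lit 5) (nat_lit 84) (nat_lit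 5) (nat_lit 81) (nat_lit 5) (nat_lit 630) (nat_lit 499) (nat_lit 431)) (XT.lf (nat_lit 0) (nat_lit 5787189261) (nat_lit 228) (nat_lit 1356373316) (nat_lit 304) (nat_lit 6514002348) (nat_lit 77) (nat_lit 5) (nat_lit 80) (nat_lit 5) (nat_lit 81) (nat_lit 5) (nat_lit 631) (nat_lit 499) (nat_lit 430))))) (XT.nd (nat_lit 234) (nat_lit 684) (nat_lit 0) (XT.nd (nat_lit 78) (nat_lit 304) (nat_lit 0) (XT.lf (nat_lit 0) (nat_lit 2150163540) (nat_lit 228) (nat_lit 9931846052) (nat_lit 304) (nat_lit 1733921755) (nat_lit 74) (nat_lit 5) (nat_lit 77) (nat_lit 5) (nat_lit 78) (nat_lit 5) (nat_lit 632) (nat_lit 499) (nat_lit 429)) (XT.nd (nat_lit 78) (nat_lit 228) (nat_lit 0) (XT.lf (nat_lit 0) (nat_lit 3124234334) (nat_lit 304) (nat_lit 1596380857) (nat_lit 76) (nat_lit 9255969098) (nat_lit 73) (nat_lit 5) (nat_lit 77) (nat_lit 5) (nat_lit 74) (nat_lit 5) (nat_lit 633) (nat_lit 499) (nat_lit 428)) (XT.lf (nat_lit 0) (nat_lit 8079322640) (nat_lit 304) (nat_lit 5433524752)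 (nat_lit 76) (nat_lit 626914667) (nat_lit 70) (nat_lit 5) (nat_lit 74) (nat_lit 5) (nat_lit 71) (nat_lit 5) (nat_lit 634) (nat_lit 499) (nat_lit 427)))) (XT.nd (nat_lit 156) (nat_lit 228) (nat_lit 0) (XT.nd (nat_lit 78) (nat_lit 228) (nat_lit 0) (XT.lf (nat_lit 0) (nat_lit 4896616511) (nat_lit 228) (nat_lit 8273142163) (nat_lit 304) (nat_lit 1135720496) (nat_lit 67) (nat_lit 5) (nat_lit 70) (nat_lit 5) (nat_lit 71) (nat_lit 5) (nat_lit 635) (nat_lit 499) (nat_lit 426)) (XT.lf (nat_lit 0) (nat_lit 953365904) (nat_lit 152) (nat_lit 2888501376) (nat_lit 228) (nat_lit 10632032023) (nat_lit 64) (nat_lit 5) (nat_lit 66) (nat_lit 5) (nat_lit 67) (nat_lit 5) (nat_lit 636) (nat_lit 499) (nat_lit 425))) (XT.nd (nat_lit 78) (nat_lit 228) (nat_lit 0) (XT.lf (nat_lit 0) (nat_lit 8946857389) (nat_lit 228) (nat_lit 3085895253) (nat_lit 76) (nat_lit 2611924561) (nat_lit 64) (nat_lit 5) (nat_lit 67) (nat_lit 5) (nat_lit 65) (nat_lit 5) (nat_lit 637) (nat_lit 499) (nat_lit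 424)) (XT.lf (nat_lit 0) (nat_lit 7571923883) (nat_lit 228) (nat_lit 6613629512) (nat_lit 304) (nat_lit 632685794) (nat_lit 61) (nat_lit 5) (nat_lit 64) (nat_lit 5) (nat_lit 65) (nat_lit 5) (nat_lit 638) (nat_lit 499) (nat_lit 423)))))) (XT.nd (nat_lit 546) (nat_lit 532) (nat_lit 0) (XT.nd (nat_lit 234) (nat_lit 684) (nat_lit 0) (XT.nd (nat_lit 78) (nat_lit 228) (nat_lit 0) (XT.lf (nat_lit 0) (nat_lit 3439664803) (nat_lit 152) (nat_lit 1041171845) (nat_lit 228) (nat_lit 10513716736) (nat_lit 58) (nat_lit 5) (nat_lit 60) (nat_lit 5) (nat_lit 61) (nat_lit 5) (nat_lit 639) (nat_lit 499) (nat_lit 422)) (XT.nd (nat_lit 78) (nat_lit 228) (nat_lit 0) (XT.lf (nat_lit 0) (nat_lit 9730733201) (nat_lit 228) (nat_lit 836338541) (nat_lit 76) (nat_lit 4606387588) (nat_lit 58) (nat_lit 5) (nat_lit 61) (nat_lit 5) (nat_lit 59) (nat_lit 5) (nat_lit 640) (nat_lit 499) (nat_lit 421)) (XT.lf (nat_lit 0) (nat_lit 10158355475) (nat_lit 228) (nat_lit 4964313412) (nat_lit 304) (nat_lit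 232534284) (nat_lit 55) (nat_lit 5) (nat_lit 58) (nat_lit 5) (nat_lit 59) (nat_lit 5) (nat_lit 641) (nat_lit 499) (nat_lit 420)))) (XT.nd (nat_lit 156) (nat_lit 228) (nat_lit 0) (XT.nd (nat_lit 78) (nat_lit 228) (nat_lit 0) (XT.lf (nat_lit 0) (nat_lit 5028097862) (nat_lit 228) (nat_lit 9722429870) (nat_lit 76) (nat_lit 789137119) (nat_lit 52) (nat_lit 5) (nat_lit 55) (nat_lit 5) (nat_lit 53) (nat_lit 5) (nat_lit 642) (nat_lit 499) (nat_lit 419)) (XT.lf (nat_lit 0) (nat_lit 1312785795) (nat_lit 228) (nat_lit 9118889518) (nat_lit 304) (nat_lit 5295293352) (nat_lit 49) (nat_lit 5) (nat_lit 52) (nat_lit 5) (nat_lit 53) (nat_lit 5) (nat_lit 643) (nat_lit 499) (nat_lit 418))) (XT.nd (nat_lit 78) (nat_lit 152) (nat_lit 0) (XT.lf (nat_lit 0) (nat_lit 55034696) (nat_lit 304) (nat_lit 3281572436) (nat_lit 76) (nat_lit 12580807464) (nat_lit 48) (nat_lit 5) (nat_lit 52) (nat_lit 5) (nat_lit 49) (nat_lit 5) (nat_lit 644) (nat_lit 499) (nat_lit 417)) (XT.lf (nat_lit 0)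 (nat_lit 5476108028) (nat_lit 228) (nat_lit 8046522657) (nat_lit 76) (nat_lit 2587646404) (nat_lit 46) (nat_lit 5) (nat_lit 49) (nat_lit 5) (nat_lit 47) (nat_lit 5) (nat_lit 645) (nat_lit 499) (nat_lit 416))))) (XT.nd (nat_lit 74490) (nat_lit 0) (nat_lit 29716) (XT.nd (nat_lit 156) (nat_lit 304) (nat_lit 0) (XT.nd (nat_lit 78) (nat_lit 76) (nat_lit 0) (XT.lf (nat_lit 0) (nat_lit 3331788926) (nat_lit 152) (nat_lit 7704884711) (nat_lit 228) (nat_lit 5269702301) (nat_lit 44) (nat_lit 5) (nat_lit 46) (nat_lit 5) (nat_lit 47) (nat_lit 5) (nat_lit 646) (nat_lit 499) (nat_lit 415)) (XT.lf (nat_lit 0) (nat_lit 218976226) (nat_lit 228) (nat_lit 1523870787) (nat_lit 76) (nat_lit 14763132569) (nat_lit 43) (nat_lit 5) (nat_lit 46) (nat_lit 5) (nat_lit 44) (nat_lit 5) (nat_lit 647) (nat_lit 499) (nat_lit 414))) (XT.nd (nat_lit 78) (nat_lit 152) (nat_lit 0) (XT.lf (nat_lit 0) (nat_lit 5807662013) (nat_lit 228) (nat_lit 6544632127) (nat_lit 76) (nat_lit 4355369097) (nat_lit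 41) (nat_lit 5) (nat_lit 44) (nat_lit 5) (nat_lit 42) (nat_lit 5) (nat_lit 648) (nat_lit 499) (nat_lit 413)) (XT.lf (nat_lit 0) (nat_lit 5185084471) (nat_lit 152) (nat_lit 6344521822) (nat_lit 228) (nat_lit 5383345061) (nat_lit 39) (nat_lit 5) (nat_lit 41) (nat_lit 5) (nat_lit 42) (nat_lit 5) (nat_lit 649) (nat_lit 499) (nat_lit 412)))) (XT.nd (nat_lit 156) (nat_lit 988) (nat_lit 0) (XT.nd (nat_lit 78) (nat_lit 988) (nat_lit 0) (XT.lf (nat_lit 0) (nat_lit 1557387202) (nat_lit 1064) (nat_lit 1022933974) (nat_lit 1064) (nat_lit 1022933974) (nat_lit 456) (nat_lit 4) (nat_lit 470) (nat_lit 5) (nat_lit 470) (nat_lit 4) (nat_lit 560) (nat_lit 500) (nat_lit 500)) (XT.lf (nat_lit 0) (nat_lit 1396440506) (nat_lit 912) (nat_lit 119480233) (nat_lit 988) (nat_lit 5729770049) (nat_lit 443) (nat_lit 5) (nat_lit 455) (nat_lit 5) (nat_lit 456) (nat_lit 4) (nat_lit 561) (nat_lit 500) (nat_lit 499))) (XT.nd (nat_lit 78) (nat_lit 988) (nat_lit 0) (XT.lf (nat_lit 0) (nat_lit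 5092386253) (nat_lit 988) (nat_lit 335296116) (nat_lit 0) (nat_lit 1858290554) (nat_lit 443) (nat_lit 5) (nat_lit 456) (nat_lit 4) (nat_lit 443) (nat_lit 4) (nat_lit 562) (nat_lit 500) (nat_lit 498)) (XT.lf (nat_lit 0) (nat_lit 1362204929) (nat_lit 988) (nat_lit 2052086324) (nat_lit 76) (nat_lit 3913242517) (nat_lit 430) (nat_lit 5) (nat_lit 443) (nat_lit 5) (nat_lit 431) (nat_lit 4) (nat_lit 563) (nat_lit 500) (nat_lit 497))))))))
noncomputable def xc35 : XT := (XT.nd (nat_lit 2262) (nat_lit 9044) (nat_lit 0) (XT.nd (nat_lit 1092) (nat_lit 7144) (nat_lit 0) (XT.nd (nat_lit 546) (nat_lit 3648) (nat_lit 0) (XT.nd (nat_lit 234) (nat_lit 2508) (nat_lit 0) (XT.nd (nat_lit 78) (nat_lit 1748) (nat_lit 0) (XT.lf (nat_lit 0) (nat_lit 3592360255) (nat_lit 836) (nat_lit 1325940623) (nat_lit 912) (nat_lit 2452168656) (nat_lit 419) (nat_lit 5) (nat_lit 430) (nat_lit 5) (nat_lit 431) (nat_lit 4) (nat_lit 564) (nat_lit 500) (nat_lit 496)) (XT.nd (nat_lit 78) (nat_lit 836)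 (nat_lit 0) (XT.lf (nat_lit 0) (nat_lit 1081405317) (nat_lit 912) (nat_lit 5512915073) (nat_lit 76) (nat_lit 820501697) (nat_lit 407) (nat_lit 5) (nat_lit 419) (nat_lit 5) (nat_lit 408) (nat_lit 4) (nat_lit 565) (nat_lit 500) (nat_lit 495)) (XT.lf (nat_lit 0) (nat_lit 190006618) (nat_lit 836) (nat_lit 4432502986) (nat_lit 912) (nat_lit 2837838667) (nat_lit 396) (nat_lit 5) (nat_lit 407) (nat_lit 5) (nat_lit 408) (nat_lit 4) (nat_lit 566) (nat_lit 500) (nat_lit 494)))) (XT.nd (nat_lit 156) (nat_lit 1596) (nat_lit 0) (XT.nd (nat_lit 78) (nat_lit 836) (nat_lit 0) (XT.lf (nat_lit 0) (nat_lit 689850145) (nat_lit 912) (nat_lit 1504162719) (nat_lit 76) (nat_lit 5313247221) (nat_lit 395) (nat_lit 5) (nat_lit 407) (nat_lit 5) (nat_lit 396) (nat_lit 5) (nat_lit 567) (nat_lit 500) (nat_lit 493)) (XT.lf (nat_lit 0) (nat_lit 4214939478) (nat_lit 912) (nat_lit 3214192559) (nat_lit 76) (nat_lit 126310382) (nat_lit 384) (nat_lit 5) (nat_lit 396) (nat_lit 5) (nat_lit 385)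 (nat_lit 4) (nat_lit 568) (nat_lit 500) (nat_lit 492))) (XT.nd (nat_lit 78) (nat_lit 760) (nat_lit 0) (XT.lf (nat_lit 0) (nat_lit 181604592) (nat_lit 836) (nat_lit 4940402282) (nat_lit 76) (nat_lit 2482991705) (nat_lit 373) (nat_lit 5) (nat_lit 384) (nat_lit 5) (nat_lit 374) (nat_lit 5) (nat_lit 569) (nat_lit 500) (nat_lit 491)) (XT.lf (nat_lit 0) (nat_lit 965330787) (nat_lit 760) (nat_lit 2728973773) (nat_lit 836) (nat_lit 3961506199) (nat_lit 363) (nat_lit 5) (nat_lit 373) (nat_lit 5) (nat_lit 374) (nat_lit 5) (nat_lit 570) (nat_lit 500) (nat_lit 490))))) (XT.nd (nat_lit 234) (nat_lit 2128) (nat_lit 0) (XT.nd (nat_lit 78) (nat_lit 1520) (nat_lit 0) (XT.lf (nat_lit 0) (nat_lit 6982156973) (nat_lit 760) (nat_lit 265870405) (nat_lit 836) (nat_lit 460200452) (nat_lit 363) (nat_lit 5) (nat_lit 373) (nat_lit 5) (nat_lit 374) (nat_lit 5) (nat_lit 571) (nat_lit 500) (nat_lit 489)) (XT.nd (nat_lit 78) (nat_lit 760) (nat_lit 0) (XT.lf (nat_lit 0) (nat_lit 3058263103)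 (nat_lit 760) (nat_lit 2442681908) (nat_lit 76) (nat_lit 2260589414) (nat_lit 353) (nat_lit 5) (nat_lit 363) (nat_lit 5) (nat_lit 354) (nat_lit 5) (nat_lit 572) (nat_lit 500) (nat_lit 488)) (XT.lf (nat_lit 0) (nat_lit 3647685122) (nat_lit 760) (nat_lit 2962689302) (nat_lit 836) (nat_lit 1206086871) (nat_lit 343) (nat_lit 5) (nat_lit 353) (nat_lit 5) (nat_lit 354) (nat_lit 5) (nat_lit 573) (nat_lit 500) (nat_lit 487)))) (XT.nd (nat_lit 156) (nat_lit 684) (nat_lit 0) (XT.nd (nat_lit 78) (nat_lit 684) (nat_lit 0) (XT.lf (nat_lit 0) (nat_lit 1956693231) (nat_lit 684) (nat_lit 341987884) (nat_lit 760) (nat_lit 5574130535) (nat_lit 333) (nat_lit 5) (nat_lit 342) (nat_lit 5) (nat_lit 343) (nat_lit 5) (nat_lit 574) (nat_lit 500) (nat_lit 486)) (XT.lf (nat_lit 0) (nat_lit 236277773) (nat_lit 684) (nat_lit 5605980516) (nat_lit 760) (nat_lit 2088177587) (nat_lit 324) (nat_lit 5) (nat_lit 333) (nat_lit 5) (nat_lit 334) (nat_lit 5) (nat_lit 575) (nat_lit 500) (nat_lit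 485))) (XT.nd (nat_lit 78) (nat_lit 608) (nat_lit 0) (XT.lf (nat_lit 0) (nat_lit 1430791446) (nat_lit 760) (nat_lit 1483825847) (nat_lit 76) (nat_lit 5074757300) (nat_lit 323) (nat_lit 5) (nat_lit 333) (nat_lit 5) (nat_lit 324) (nat_lit 5) (nat_lit 576) (nat_lit 500) (nat_lit 484)) (XT.lf (nat_lit 0) (nat_lit 4826390875) (nat_lit 608) (nat_lit 138636313) (nat_lit 684) (nat_lit 3084735244) (nat_lit 315) (nat_lit 5) (nat_lit 323) (nat_lit 5) (nat_lit 324) (nat_lit 5) (nat_lit 577) (nat_lit 500) (nat_lit 483)))))) (XT.nd (nat_lit 546) (nat_lit 3268) (nat_lit 0) (XT.nd (nat_lit 234) (nat_lit 2508) (nat_lit 0) (XT.nd (nat_lit 78) (nat_lit 608) (nat_lit 0) (XT.lf (nat_lit 0) (nat_lit 442330465) (nat_lit 760) (nat_lit 4993694849) (nat_lit 76) (nat_lit 2675481295) (nat_lit 305) (nat_lit 5) (nat_lit 315) (nat_lit 5) (nat_lit 306) (nat_lit 5) (nat_lit 578) (nat_lit 500) (nat_lit 482)) (XT.nd (nat_lit 78) (nat_lit 0) (nat_lit 0) (XT.lf (nat_lit 0) (nat_lit 1377387164)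 (nat_lit 608) (nat_lit 2595249777) (nat_lit 684) (nat_lit 4201964019) (nat_lit 297) (nat_lit 5) (nat_lit 305) (nat_lit 5) (nat_lit 306) (nat_lit 5) (nat_lit 579) (nat_lit 500) (nat_lit 481)) (XT.lf (nat_lit 0) (nat_lit 7552113485) (nat_lit 684) (nat_lit 372078177) (nat_lit 76) (nat_lit 315197368) (nat_lit 297) (nat_lit 5) (nat_lit 306) (nat_lit 5) (nat_lit 298) (nat_lit 5) (nat_lit 580) (nat_lit 500) (nat_lit 480)))) (XT.nd (nat_lit 156) (nat_lit 1216) (nat_lit 0) (XT.nd (nat_lit 78) (nat_lit 608) (nat_lit 0) (XT.lf (nat_lit 0) (nat_lit 2860954122) (nat_lit 684) (nat_lit 2152671984) (nat_lit 76) (nat_lit 3291448440) (nat_lit 288) (nat_lit 5) (nat_lit 297) (nat_lit 5) (nat_lit 289) (nat_lit 5) (nat_lit 581) (nat_lit 500) (nat_lit 479)) (XT.lf (nat_lit 0) (nat_lit 4419818762) (nat_lit 608) (nat_lit 2026587338) (nat_lit 684) (nat_lit 1926070541) (nat_lit 280) (nat_lit 5) (nat_lit 288) (nat_lit 5) (nat_lit 289) (nat_lit 5) (nat_lit 582) (nat_lit 500) (nat_lit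 478))) (XT.nd (nat_lit 78) (nat_lit 532) (nat_lit 0) (XT.lf (nat_lit 0) (nat_lit 1623636416) (nat_lit 684) (nat_lit 5786475668) (nat_lit 76) (nat_lit 1031239692) (nat_lit 271) (nat_lit 5) (nat_lit 280) (nat_lit 5) (nat_lit 272) (nat_lit 5) (nat_lit 583) (nat_lit 500) (nat_lit 477)) (XT.lf (nat_lit 0) (nat_lit 847107331) (nat_lit 532) (nat_lit 4362062857) (nat_lit 608) (nat_lit 3302369905) (nat_lit 264) (nat_lit 5) (nat_lit 271) (nat_lit 5) (nat_lit 272) (nat_lit 5) (nat_lit 584) (nat_lit 500) (nat_lit 476))))) (XT.nd (nat_lit 312) (nat_lit 1520) (nat_lit 0) (XT.nd (nat_lit 156) (nat_lit 1140) (nat_lit 0) (XT.nd (nat_lit 78) (nat_lit 532) (nat_lit 0) (XT.lf (nat_lit 0) (nat_lit 263865944) (nat_lit 608) (nat_lit 967608607) (nat_lit 76) (nat_lit 7351937521) (nat_lit 263) (nat_lit 5) (nat_lit 271) (nat_lit 5) (nat_lit 264) (nat_lit 5) (nat_lit 585) (nat_lit 500) (nat_lit 475)) (XT.lf (nat_lit 0) (nat_lit 3854485345) (nat_lit 608) (nat_lit 2825159732) (nat_lit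 76) (nat_lit 1976696891) (nat_lit 256) (nat_lit 5) (nat_lit 264) (nat_lit 5) (nat_lit 257) (nat_lit 5) (nat_lit 586) (nat_lit 500) (nat_lit 474))) (XT.nd (nat_lit 78) (nat_lit 608) (nat_lit 0) (XT.lf (nat_lit 0) (nat_lit 4019037532) (nat_lit 532) (nat_lit 3485401354) (nat_lit 608) (nat_lit 1226543693) (nat_lit 249) (nat_lit 5) (nat_lit 256) (nat_lit 5) (nat_lit 257) (nat_lit 5) (nat_lit 587) (nat_lit 500) (nat_lit 473)) (XT.lf (nat_lit 0) (nat_lit 2170139993) (nat_lit 532) (nat_lit 198518913) (nat_lit 608) (nat_lit 6438542753) (nat_lit 241) (nat_lit 5) (nat_lit 248) (nat_lit 5) (nat_lit 249) (nat_lit 5) (nat_lit 588) (nat_lit 500) (nat_lit 472)))) (XT.nd (nat_lit 156) (nat_lit 988) (nat_lit 0) (XT.nd (nat_lit 78) (nat_lit 76) (nat_lit 0) (XT.lf (nat_lit 0) (nat_lit 269563742) (nat_lit 456) (nat_lit 5751227674) (nat_lit 532) (nat_lit 2863964975) (nat_lit 235) (nat_lit 5) (nat_lit 241) (nat_lit 5) (nat_lit 242) (nat_lit 5) (nat_lit 589) (nat_lit 500) (nat_lit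 471)) (XT.lf (nat_lit 0) (nat_lit 765574513) (nat_lit 532) (nat_lit 1640165086) (nat_lit 76) (nat_lit 6558148820) (nat_lit 234) (nat_lit 5) (nat_lit 241) (nat_lit 5) (nat_lit 235) (nat_lit 5) (nat_lit 590) (nat_lit 500) (nat_lit 470))) (XT.nd (nat_lit 78) (nat_lit 456) (nat_lit 0) (XT.lf (nat_lit 0) (nat_lit 4420161676) (nat_lit 608) (nat_lit 3597706299) (nat_lit 76) (nat_lit 1026542654) (nat_lit 227) (nat_lit 5) (nat_lit 235) (nat_lit 5) (nat_lit 228) (nat_lit 5) (nat_lit 591) (nat_lit 500) (nat_lit 469)) (XT.lf (nat_lit 0) (nat_lit 3527760680) (nat_lit 456) (nat_lit 4618995359) (nat_lit 532) (nat_lit 979811157) (nat_lit 221) (nat_lit 5) (nat_lit 227) (nat_lit 5) (nat_lit 228) (nat_lit 5) (nat_lit 592) (nat_lit 500) (nat_lit 468))))))) (XT.nd (nat_lit 1170) (nat_lit 3800) (nat_lit 0) (XT.nd (nat_lit 546) (nat_lit 2812) (nat_lit 0) (XT.nd (nat_lit 234) (nat_lit 1368) (nat_lit 0) (XT.nd (nat_lit 78) (nat_lit 532) (nat_lit 0) (XT.lf (nat_lit 0) (nat_lit 1563274959)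 (nat_lit 456) (nat_lit 1121977292) (nat_lit 532) (nat_lit 6525088505) (nat_lit 214) (nat_lit 5) (nat_lit 220) (nat_lit 5) (nat_lit 221) (nat_lit 5) (nat_lit 593) (nat_lit 500) (nat_lit 467)) (XT.nd (nat_lit 78) (nat_lit 532) (nat_lit 0) (XT.lf (nat_lit 0) (nat_lit 6413760735) (nat_lit 532) (nat_lit 447445365) (nat_lit 76) (nat_lit 2434390982) (nat_lit 214) (nat_lit 5) (nat_lit 221) (nat_lit 5) (nat_lit 215) (nat_lit 5) (nat_lit 594) (nat_lit 500) (nat_lit 466)) (XT.lf (nat_lit 0) (nat_lit 826173652) (nat_lit 532) (nat_lit 2481452289) (nat_lit 76) (nat_lit 6074769581) (nat_lit 207) (nat_lit 5) (nat_lit 214) (nat_lit 5) (nat_lit 208) (nat_lit 5) (nat_lit 595) (nat_lit 500) (nat_lit 465)))) (XT.nd (nat_lit 156) (nat_lit 532) (nat_lit 0) (XT.nd (nat_lit 78) (nat_lit 380) (nat_lit 0) (XT.lf (nat_lit 0) (nat_lit 4557634051) (nat_lit 532) (nat_lit 4569404650) (nat_lit 76) (nat_lit 343754663) (nat_lit 201) (nat_lit 5) (nat_lit 208) (nat_lit 5) (nat_lit 202) (nat_lit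 5) (nat_lit 596) (nat_lit 500) (nat_lit 464)) (XT.lf (nat_lit 0) (nat_lit 2846868664) (nat_lit 380) (nat_lit 5525066772) (nat_lit 456) (nat_lit 1188861426) (nat_lit 196) (nat_lit 5) (nat_lit 201) (nat_lit 5) (nat_lit 202) (nat_lit 5) (nat_lit 597) (nat_lit 500) (nat_lit 463))) (XT.nd (nat_lit 78) (nat_lit 0) (nat_lit 0) (XT.lf (nat_lit 0) (nat_lit 740464589) (nat_lit 456) (nat_lit 1822126804) (nat_lit 532) (nat_lit 7089934016) (nat_lit 189) (nat_lit 5) (nat_lit 195) (nat_lit 5) (nat_lit 196) (nat_lit 5) (nat_lit 598) (nat_lit 500) (nat_lit 462)) (XT.lf (nat_lit 0) (nat_lit 6382760349) (nat_lit 532) (nat_lit 1404938558) (nat_lit 76) (nat_lit 1958042158) (nat_lit 189) (nat_lit 5) (nat_lit 196) (nat_lit 5) (nat_lit 190) (nat_lit 5) (nat_lit 599) (nat_lit 500) (nat_lit 461))))) (XT.nd (nat_lit 312) (nat_lit 1520) (nat_lit 0) (XT.nd (nat_lit 156) (nat_lit 456) (nat_lit 0) (XT.nd (nat_lit 78) (nat_lit 380) (nat_lit 0) (XT.lf (nat_lit 0) (nat_lit 437934338) (nat_lit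 456) (nat_lit 3593767951) (nat_lit 76) (nat_lit 5808960078) (nat_lit 183) (nat_lit 5) (nat_lit 189) (nat_lit 5) (nat_lit 184) (nat_lit 5) (nat_lit 600) (nat_lit 500) (nat_lit 460)) (XT.lf (nat_lit 0) (nat_lit 4092303982) (nat_lit 380) (nat_lit 166283456) (nat_lit 456) (nat_lit 5678676786) (nat_lit 178) (nat_lit 5) (nat_lit 183) (nat_lit 5) (nat_lit 184) (nat_lit 5) (nat_lit 601) (nat_lit 500) (nat_lit 459))) (XT.nd (nat_lit 78) (nat_lit 76) (nat_lit 0) (XT.lf (nat_lit 0) (nat_lit 1872528628) (nat_lit 380) (nat_lit 6297022392) (nat_lit 456) (nat_lit 1865970834) (nat_lit 173) (nat_lit 5) (nat_lit 178) (nat_lit 5) (nat_lit 179) (nat_lit 5) (nat_lit 602) (nat_lit 500) (nat_lit 458)) (XT.lf (nat_lit 0) (nat_lit 1990128394) (nat_lit 456) (nat_lit 398851356) (nat_lit 76) (nat_lit 7746630393) (nat_lit 172) (nat_lit 5) (nat_lit 178) (nat_lit 5) (nat_lit 173) (nat_lit 5) (nat_lit 603) (nat_lit 500) (nat_lit 457)))) (XT.nd (nat_lit 156) (nat_lit 760) (nat_lit 0) (XT.nd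 (nat_lit 78) (nat_lit 380) (nat_lit 0) (XT.lf (nat_lit 0) (nat_lit 5911930197) (nat_lit 456) (nat_lit 2712522543) (nat_lit 76) (nat_lit 1612731043) (nat_lit 167) (nat_lit 5) (nat_lit 173) (nat_lit 5) (nat_lit 168) (nat_lit 5) (nat_lit 604) (nat_lit 500) (nat_lit 456)) (XT.lf (nat_lit 0) (nat_lit 5252526675) (nat_lit 380) (nat_lit 4666541129) (nat_lit 456) (nat_lit 421584653) (nat_lit 162) (nat_lit 5) (nat_lit 167) (nat_lit 5) (nat_lit 168) (nat_lit 5) (nat_lit 605) (nat_lit 500) (nat_lit 455))) (XT.nd (nat_lit 78) (nat_lit 304) (nat_lit 0) (XT.lf (nat_lit 0) (nat_lit 2910787089) (nat_lit 380) (nat_lit 594313498) (nat_lit 456) (nat_lit 6940796414) (nat_lit 156) (nat_lit 5) (nat_lit 161) (nat_lit 5) (nat_lit 162) (nat_lit 5) (nat_lit 606) (nat_lit 500) (nat_lit 454)) (XT.lf (nat_lit 0) (nat_lit 494206960) (nat_lit 304) (nat_lit 7025833279) (nat_lit 380) (nat_lit 3032844614) (nat_lit 152) (nat_lit 5) (nat_lit 156) (nat_lit 5) (nat_lit 157) (nat_lit 5) (nat_lit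 607) (nat_lit 500) (nat_lit 453)))))) (XT.nd (nat_lit 546) (nat_lit 1900) (nat_lit 0) (XT.nd (nat_lit 234) (nat_lit 1140) (nat_lit 0) (XT.nd (nat_lit 78) (nat_lit 684) (nat_lit 0) (XT.lf (nat_lit 0) (nat_lit 950395208) (nat_lit 380) (nat_lit 1957569899) (nat_lit 76) (nat_lit 7753732354) (nat_lit 151) (nat_lit 5) (nat_lit 156) (nat_lit 5) (nat_lit 152) (nat_lit 5) (nat_lit 608) (nat_lit 500) (nat_lit 452)) (XT.nd (nat_lit 78) (nat_lit 304) (nat_lit 0) (XT.lf (nat_lit 0) (nat_lit 4977916560) (nat_lit 456) (nat_lit 4483853238) (nat_lit 76) (nat_lit 1310412434) (nat_lit 146) (nat_lit 5) (nat_lit 152) (nat_lit 5) (nat_lit 147) (nat_lit 5) (nat_lit 609) (nat_lit 500) (nat_lit 451)) (XT.lf (nat_lit 0) (nat_lit 3800384144) (nat_lit 304) (nat_lit 5298681422) (nat_lit 380) (nat_lit 1785550941) (nat_lit 142) (nat_lit 5) (nat_lit 146) (nat_lit 5) (nat_lit 147) (nat_lit 5) (nat_lit 610) (nat_lit 500) (nat_lit 450)))) (XT.nd (nat_lit 156) (nat_lit 684) (nat_lit 0) (XT.nd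 (nat_lit 78) (nat_lit 0) (nat_lit 0) (XT.lf (nat_lit 0) (nat_lit 1242228309) (nat_lit 380) (nat_lit 1025290616) (nat_lit 456) (nat_lit 8731594956) (nat_lit 136) (nat_lit 5) (nat_lit 141) (nat_lit 5) (nat_lit 142) (nat_lit 5) (nat_lit 611) (nat_lit 500) (nat_lit 449)) (XT.lf (nat_lit 0) (nat_lit 6403522524) (nat_lit 456) (nat_lit 1389011482) (nat_lit 76) (nat_lit 3322616807) (nat_lit 136) (nat_lit 5) (nat_lit 142) (nat_lit 5) (nat_lit 137) (nat_lit 5) (nat_lit 612) (nat_lit 500) (nat_lit 448))) (XT.nd (nat_lit 78) (nat_lit 380) (nat_lit 0) (XT.lf (nat_lit 0) (nat_lit 7163255424) (nat_lit 304) (nat_lit 3469408026) (nat_lit 380) (nat_lit 600637939) (nat_lit 132) (nat_lit 5) (nat_lit 136) (nat_lit 5) (nat_lit 137) (nat_lit 5) (nat_lit 613) (nat_lit 500) (nat_lit 447)) (XT.lf (nat_lit 0) (nat_lit 3547729071) (nat_lit 380) (nat_lit 6842371270) (nat_lit 76) (nat_lit 963203849) (nat_lit 127) (nat_lit 5) (nat_lit 132) (nat_lit 5) (nat_lit 128) (nat_lit 5) (nat_lit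 614) (nat_lit 500) (nat_lit 446))))) (XT.nd (nat_lit 312) (nat_lit 988) (nat_lit 0) (XT.nd (nat_lit 156) (nat_lit 532) (nat_lit 0) (XT.nd (nat_lit 78) (nat_lit 76) (nat_lit 0) (XT.lf (nat_lit 0) (nat_lit 1769169730) (nat_lit 304) (nat_lit 6021247076) (nat_lit 380) (nat_lit 3684824098) (nat_lit 123) (nat_lit 5) (nat_lit 127) (nat_lit 5) (nat_lit 128) (nat_lit 5) (nat_lit 615) (nat_lit 500) (nat_lit 445)) (XT.lf (nat_lit 0) (nat_lit 515296133) (nat_lit 380) (nat_lit 1027217475) (nat_lit 76) (nat_lit 10056961521) (nat_lit 122) (nat_lit 5) (nat_lit 127) (nat_lit 5) (nat_lit 123) (nat_lit 5) (nat_lit 616) (nat_lit 500) (nat_lit 444))) (XT.nd (nat_lit 78) (nat_lit 228) (nat_lit 0) (XT.lf (nat_lit 0) (nat_lit 4779321507) (nat_lit 380) (nat_lit 3911086100) (nat_lit 76) (nat_lit 3034715559) (nat_lit 118) (nat_lit 5) (nat_lit 123) (nat_lit 5) (nat_lit 119) (nat_lit 5) (nat_lit 617) (nat_lit 500) (nat_lit 443)) (XT.lf (nat_lit 0) (nat_lit 4978576851) (nat_lit 228) (nat_lit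 4158086099) (nat_lit 304) (nat_lit 2716461591) (nat_lit 115) (nat_lit 5) (nat_lit 118) (nat_lit 5) (nat_lit 119) (nat_lit 5) (nat_lit 618) (nat_lit 500) (nat_lit 442)))) (XT.nd (nat_lit 156) (nat_lit 608) (nat_lit 0) (XT.nd (nat_lit 78) (nat_lit 0) (nat_lit 0) (XT.lf (nat_lit 0) (nat_lit 1578145198) (nat_lit 380) (nat_lit 9923726382) (nat_lit 76) (nat_lit 481575354) (nat_lit 110) (nat_lit 5) (nat_lit 115) (nat_lit 5) (nat_lit 111) (nat_lit 5) (nat_lit 619) (nat_lit 500) (nat_lit 441)) (XT.lf (nat_lit 0) (nat_lit 5955109506) (nat_lit 380) (nat_lit 965053109) (nat_lit 76) (nat_lit 5195198296) (nat_lit 110) (nat_lit 5) (nat_lit 115) (nat_lit 5) (nat_lit 111) (nat_lit 5) (nat_lit 620) (nat_lit 500) (nat_lit 440))) (XT.nd (nat_lit 78) (nat_lit 380) (nat_lit 0) (XT.lf (nat_lit 0) (nat_lit 8212235716) (nat_lit 228) (nat_lit 2220334374) (nat_lit 304) (nat_lit 1817084942) (nat_lit 107) (nat_lit 5) (nat_lit 110) (nat_lit 5) (nat_lit 111) (nat_lit 5) (nat_lit 621) (nat_lit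 500) (nat_lit 439)) (XT.lf (nat_lit 0) (nat_lit 2595468920) (nat_lit 380) (nat_lit 7220949123) (nat_lit 76) (nat_lit 2569542796) (nat_lit 102) (nat_lit 5) (nat_lit 107) (nat_lit 5) (nat_lit 103) (nat_lit 5) (nat_lit 622) (nat_lit 500) (nat_lit 438))))))))
noncomputable def xc36 : XT := (XT.nd (nat_lit 76284) (nat_lit 0) (nat_lit 15200) (XT.nd (nat_lit 1092) (nat_lit 1900) (nat_lit 0) (XT.nd (nat_lit 546) (nat_lit 1368) (nat_lit 0) (XT.nd (nat_lit 234) (nat_lit 760) (nat_lit 0) (XT.nd (nat_lit 78) (nat_lit 380) (nat_lit 0) (XT.lf (nat_lit 0) (nat_lit 2012730556) (nat_lit 228) (nat_lit 5074170265) (nat_lit 304) (nat_lit 5437553515) (nat_lit 99) (nat_lit 5) (nat_lit 102) (nat_lit 5) (nat_lit 103) (nat_lit 5) (nat_lit 623) (nat_lit 500) (nat_lit 437)) (XT.nd (nat_lit 78) (nat_lit 380) (nat_lit 0) (XT.lf (nat_lit 0) (nat_lit 11460898252) (nat_lit 228) (nat_lit 215954173) (nat_lit 304) (nat_lit 988692385) (nat_lit 99) (nat_lit 5) (nat_lit 102) (nat_lit 5) (nat_lit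 103) (nat_lit 5) (nat_lit 624) (nat_lit 500) (nat_lit 436)) (XT.lf (nat_lit 0) (nat_lit 3548389048) (nat_lit 380) (nat_lit 4532578411) (nat_lit 76) (nat_lit 4727113845) (nat_lit 94) (nat_lit 5) (nat_lit 99) (nat_lit 5) (nat_lit 95) (nat_lit 5) (nat_lit 625) (nat_lit 500) (nat_lit 435)))) (XT.nd (nat_lit 156) (nat_lit 304) (nat_lit 0) (XT.nd (nat_lit 78) (nat_lit 228) (nat_lit 0) (XT.lf (nat_lit 0) (nat_lit 4998390610) (nat_lit 228) (nat_lit 3167525526) (nat_lit 304) (nat_lit 4787363711) (nat_lit 91) (nat_lit 5) (nat_lit 94) (nat_lit 5) (nat_lit 95) (nat_lit 5) (nat_lit 626) (nat_lit 500) (nat_lit 434)) (XT.lf (nat_lit 0) (nat_lit 1622185386) (nat_lit 228) (nat_lit 11267790170) (nat_lit 304) (nat_lit 211124027) (nat_lit 88) (nat_lit 5) (nat_lit 91) (nat_lit 5) (nat_lit 92) (nat_lit 5) (nat_lit 627) (nat_lit 500) (nat_lit 433))) (XT.nd (nat_lit 78) (nat_lit 228) (nat_lit 0) (XT.lf (nat_lit 0) (nat_lit 4434032458) (nat_lit 304) (nat_lit 1870074884) (nat_lit 76)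 (nat_lit 6946473656) (nat_lit 87) (nat_lit 5) (nat_lit 91) (nat_lit 5) (nat_lit 88) (nat_lit 5) (nat_lit 628) (nat_lit 500) (nat_lit 432)) (XT.lf (nat_lit 0) (nat_lit 7967734506) (nat_lit 228) (nat_lit 1215156886) (nat_lit 304) (nat_lit 4219861021) (nat_lit 84) (nat_lit 5) (nat_lit 87) (nat_lit 5) (nat_lit 88) (nat_lit 5) (nat_lit 629) (nat_lit 500) (nat_lit 431))))) (XT.nd (nat_lit 234) (nat_lit 836) (nat_lit 0) (XT.nd (nat_lit 78) (nat_lit 228) (nat_lit 0) (XT.lf (nat_lit 0) (nat_lit 492078783) (nat_lit 304) (nat_lit 9124850849) (nat_lit 76) (nat_lit 3940388206) (nat_lit 80) (nat_lit 5) (nat_lit 84) (nat_lit 5) (nat_lit 81) (nat_lit 5) (nat_lit 630) (nat_lit 500) (nat_lit 430)) (XT.nd (nat_lit 78) (nat_lit 0) (nat_lit 0) (XT.lf (nat_lit 0) (nat_lit 764002362) (nat_lit 228) (nat_lit 4489619925) (nat_lit 304) (nat_lit 8460557802) (nat_lit 77) (nat_lit 5) (nat_lit 80) (nat_lit 5) (nat_lit 81) (nat_lit 5) (nat_lit 631) (nat_lit 500) (nat_lit 429)) (XT.lf (nat_lit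 0) (nat_lit 10139064986) (nat_lit 304) (nat_lit 2970486394) (nat_lit 76) (nat_lit 764055588) (nat_lit 77) (nat_lit 5) (nat_lit 81) (nat_lit 5) (nat_lit 78) (nat_lit 5) (nat_lit 632) (nat_lit 500) (nat_lit 428)))) (XT.nd (nat_lit 156) (nat_lit 304) (nat_lit 0) (XT.nd (nat_lit 78) (nat_lit 228) (nat_lit 0) (XT.lf (nat_lit 0) (nat_lit 1111510299) (nat_lit 304) (nat_lit 6834477322) (nat_lit 76) (nat_lit 6089299278) (nat_lit 73) (nat_lit 5) (nat_lit 77) (nat_lit 5) (nat_lit 74) (nat_lit 5) (nat_lit 633) (nat_lit 500) (nat_lit 427)) (XT.lf (nat_lit 0) (nat_lit 3369930848) (nat_lit 228) (nat_lit 2639565038) (nat_lit 304) (nat_lit 8190111186) (nat_lit 70) (nat_lit 5) (nat_lit 73) (nat_lit 5) (nat_lit 74) (nat_lit 5) (nat_lit 634) (nat_lit 500) (nat_lit 426))) (XT.nd (nat_lit 78) (nat_lit 304) (nat_lit 0) (XT.lf (nat_lit 0) (nat_lit 11032757044) (nat_lit 304) (nat_lit 579051766) (nat_lit 76) (nat_lit 2754859211) (nat_lit 70) (nat_lit 5) (nat_lit 74) (nat_lit 5) (nat_lit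 71) (nat_lit 5) (nat_lit 635) (nat_lit 500) (nat_lit 425)) (XT.lf (nat_lit 0) (nat_lit 1644265180) (nat_lit 304) (nat_lit 4621932574) (nat_lit 76) (nat_lit 8269740998) (nat_lit 66) (nat_lit 5) (nat_lit 70) (nat_lit 5) (nat_lit 67) (nat_lit 5) (nat_lit 636) (nat_lit 500) (nat_lit 424)))))) (XT.nd (nat_lit 546) (nat_lit 836) (nat_lit 0) (XT.nd (nat_lit 234) (nat_lit 608) (nat_lit 0) (XT.nd (nat_lit 78) (nat_lit 304) (nat_lit 0) (XT.lf (nat_lit 0) (nat_lit 5907337746) (nat_lit 152) (nat_lit 776257557) (nat_lit 228) (nat_lit 8024434870) (nat_lit 64) (nat_lit 5) (nat_lit 66) (nat_lit 5) (nat_lit 67) (nat_lit 5) (nat_lit 637) (nat_lit 500) (nat_lit 423)) (XT.nd (nat_lit 78) (nat_lit 76) (nat_lit 0) (XT.lf (nat_lit 0) (nat_lit 1753981278) (nat_lit 228) (nat_lit 10107691314) (nat_lit 304) (nat_lit 3021132258) (nat_lit 61) (nat_lit 5) (nat_lit 64) (nat_lit 5) (nat_lit 65) (nat_lit 5) (nat_lit 638) (nat_lit 500) (nat_lit 422)) (XT.lf (nat_lit 0) (nat_lit 2083603915)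 (nat_lit 304) (nat_lit 2504356773) (nat_lit 76) (nat_lit 10472271032) (nat_lit 60) (nat_lit 5) (nat_lit 64) (nat_lit 5) (nat_lit 61) (nat_lit 5) (nat_lit 639) (nat_lit 500) (nat_lit 421)))) (XT.nd (nat_lit 156) (nat_lit 228) (nat_lit 0) (XT.nd (nat_lit 78) (nat_lit 228) (nat_lit 0) (XT.lf (nat_lit 0) (nat_lit 7276160110) (nat_lit 228) (nat_lit 6888472986) (nat_lit 76) (nat_lit 1075651674) (nat_lit 58) (nat_lit 5) (nat_lit 61) (nat_lit 5) (nat_lit 59) (nat_lit 5) (nat_lit 640) (nat_lit 500) (nat_lit 420)) (XT.lf (nat_lit 0) (nat_lit 3994040969) (nat_lit 228) (nat_lit 8616652492) (nat_lit 304) (nat_lit 2812483489) (nat_lit 55) (nat_lit 5) (nat_lit 58) (nat_lit 5) (nat_lit 59) (nat_lit 5) (nat_lit 641) (nat_lit 500) (nat_lit 419))) (XT.nd (nat_lit 78) (nat_lit 152) (nat_lit 0) (XT.lf (nat_lit 0) (nat_lit 2421634429) (nat_lit 304) (nat_lit 500729317) (nat_lit 76) (nat_lit 12686817194) (nat_lit 54) (nat_lit 5) (nat_lit 58) (nat_lit 5) (nat_lit 55) (nat_lit 5) (nat_lit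 642) (nat_lit 500) (nat_lit 418)) (XT.lf (nat_lit 0) (nat_lit 7777090650) (nat_lit 228) (nat_lit 5111043170) (nat_lit 76) (nat_lit 2909313633) (nat_lit 52) (nat_lit 5) (nat_lit 55) (nat_lit 5) (nat_lit 53) (nat_lit 5) (nat_lit 643) (nat_lit 500) (nat_lit 417))))) (XT.nd (nat_lit 312) (nat_lit 228) (nat_lit 0) (XT.nd (nat_lit 156) (nat_lit 152) (nat_lit 0) (XT.nd (nat_lit 78) (nat_lit 228) (nat_lit 0) (XT.lf (nat_lit 0) (nat_lit 6113259471) (nat_lit 228) (nat_lit 7154547552) (nat_lit 304) (nat_lit 2721109797) (nat_lit 49) (nat_lit 5) (nat_lit 52) (nat_lit 5) (nat_lit 53) (nat_lit 5) (nat_lit 644) (nat_lit 500) (nat_lit 416)) (XT.lf (nat_lit 0) (nat_lit 1386080952) (nat_lit 152) (nat_lit 1272131801) (nat_lit 228) (nat_lit 13525468936) (nat_lit 46) (nat_lit 5) (nat_lit 48) (nat_lit 5) (nat_lit 49) (nat_lit 5) (nat_lit 645) (nat_lit 500) (nat_lit 415))) (XT.nd (nat_lit 78) (nat_lit 152) (nat_lit 0) (XT.lf (nat_lit 0) (nat_lit 8171984589) (nat_lit 228) (nat_lit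 3485584493) (nat_lit 76) (nat_lit 4723147585) (nat_lit 46) (nat_lit 5) (nat_lit 49) (nat_lit 5) (nat_lit 47) (nat_lit 5) (nat_lit 646) (nat_lit 500) (nat_lit 414)) (XT.lf (nat_lit 0) (nat_lit 8089228397) (nat_lit 152) (nat_lit 5734276093) (nat_lit 228) (nat_lit 2757638908) (nat_lit 44) (nat_lit 5) (nat_lit 46) (nat_lit 5) (nat_lit 47) (nat_lit 5) (nat_lit 647) (nat_lit 500) (nat_lit 413)))) (XT.nd (nat_lit 74178) (nat_lit 0) (nat_lit 32604) (XT.nd (nat_lit 78) (nat_lit 0) (nat_lit 0) (XT.lf (nat_lit 0) (nat_lit 2778313231) (nat_lit 228) (nat_lit 13668156695) (nat_lit 76) (nat_lit 338493466) (nat_lit 41) (nat_lit 5) (nat_lit 44) (nat_lit 5) (nat_lit 42) (nat_lit 5) (nat_lit 648) (nat_lit 500) (nat_lit 412)) (XT.lf (nat_lit 0) (nat_lit 8450083107) (nat_lit 228) (nat_lit 2036758184) (nat_lit 76) (nat_lit 6504413941) (nat_lit 41) (nat_lit 5) (nat_lit 44) (nat_lit 5) (nat_lit 42) (nat_lit 5) (nat_lit 649) (nat_lit 500) (nat_lit 411))) (XT.nd (nat_lit 78) (nat_lit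 1900) (nat_lit 0) (XT.lf (nat_lit 0) (nat_lit 3295773106) (nat_lit 1748) (nat_lit 135097531) (nat_lit 1748) (nat_lit 135097531) (nat_lit 495) (nat_lit 4) (nat_lit 518) (nat_lit 5) (nat_lit 518) (nat_lit 4) (nat_lit 558) (nat_lit 501) (nat_lit 501)) (XT.lf (nat_lit 0) (nat_lit 3265713044) (nat_lit 1900) (nat_lit 2336388600) (nat_lit 0) (nat_lit 1566679268) (nat_lit 470) (nat_lit 5) (nat_lit 495) (nat_lit 4) (nat_lit 470) (nat_lit 4) (nat_lit 559) (nat_lit 501) (nat_lit 500))))))) (XT.nd (nat_lit 1092) (nat_lit 7752) (nat_lit 0) (XT.nd (nat_lit 546) (nat_lit 4864) (nat_lit 0) (XT.nd (nat_lit 234) (nat_lit 2736) (nat_lit 0) (XT.nd (nat_lit 78) (nat_lit 988) (nat_lit 0) (XT.lf (nat_lit 0) (nat_lit 3078872826) (nat_lit 1064) (nat_lit 3746539301) (nat_lit 1064) (nat_lit 381786136) (nat_lit 456) (nat_lit 4) (nat_lit 470) (nat_lit 5) (nat_lit 470) (nat_lit 4) (nat_lit 560) (nat_lit 501) (nat_lit 499)) (XT.nd (nat_lit 78) (nat_lit 0) (nat_lit 0) (XT.lf (nat_lit 0)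 (nat_lit 1312293423) (nat_lit 912) (nat_lit 1811520840) (nat_lit 988) (nat_lit 4123038249) (nat_lit 443) (nat_lit 5) (nat_lit 455) (nat_lit 5) (nat_lit 456) (nat_lit 4) (nat_lit 561) (nat_lit 501) (nat_lit 498)) (XT.lf (nat_lit 0) (nat_lit 6655896666) (nat_lit 988) (nat_lit 445691173) (nat_lit 0) (nat_lit 186436996) (nat_lit 443) (nat_lit 5) (nat_lit 456) (nat_lit 4) (nat_lit 443) (nat_lit 4) (nat_lit 562) (nat_lit 501) (nat_lit 497)))) (XT.nd (nat_lit 156) (nat_lit 912) (nat_lit 0) (XT.nd (nat_lit 78) (nat_lit 836) (nat_lit 0) (XT.lf (nat_lit 0) (nat_lit 2869257631) (nat_lit 988) (nat_lit 2212426494) (nat_lit 76) (nat_lit 2248379765) (nat_lit 430) (nat_lit 5) (nat_lit 443) (nat_lit 5) (nat_lit 431) (nat_lit 4) (nat_lit 563) (nat_lit 501) (nat_lit 496)) (XT.lf (nat_lit 0) (nat_lit 3393849553) (nat_lit 836) (nat_lit 2997670165) (nat_lit 912) (nat_lit 982158993) (nat_lit 419) (nat_lit 5) (nat_lit 430) (nat_lit 5) (nat_lit 431) (nat_lit 4) (nat_lit 564) (nat_lit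 501) (nat_lit 495))) (XT.nd (nat_lit 78) (nat_lit 0) (nat_lit 0) (XT.lf (nat_lit 0) (nat_lit 1657100709) (nat_lit 836) (nat_lit 835660206) (nat_lit 912) (nat_lit 4925869247) (nat_lit 407) (nat_lit 5) (nat_lit 418) (nat_lit 5) (nat_lit 419) (nat_lit 5) (nat_lit 565) (nat_lit 501) (nat_lit 494)) (XT.lf (nat_lit 0) (nat_lit 5995234899) (nat_lit 912) (nat_lit 91821969) (nat_lit 76) (nat_lit 1377874325) (nat_lit 407) (nat_lit 5) (nat_lit 419) (nat_lit 5) (nat_lit 408) (nat_lit 4) (nat_lit 566) (nat_lit 501) (nat_lit 493))))) (XT.nd (nat_lit 234) (nat_lit 2280) (nat_lit 0) (XT.nd (nat_lit 78) (nat_lit 1672) (nat_lit 0) (XT.lf (nat_lit 0) (nat_lit 2007652436) (nat_lit 912) (nat_lit 1837020157) (nat_lit 76) (nat_lit 3667642846) (nat_lit 395) (nat_lit 5) (nat_lit 407) (nat_lit 5) (nat_lit 396) (nat_lit 5) (nat_lit 567) (nat_lit 501) (nat_lit 492)) (XT.nd (nat_lit 78) (nat_lit 836) (nat_lit 0) (XT.lf (nat_lit 0) (nat_lit 3968720882) (nat_lit 836) (nat_lit 1529600438)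 (nat_lit 912) (nat_lit 2062866977) (nat_lit 384) (nat_lit 5) (nat_lit 395) (nat_lit 5) (nat_lit 396) (nat_lit 5) (nat_lit 568) (nat_lit 501) (nat_lit 491)) (XT.lf (nat_lit 0) (nat_lit 1398789638) (nat_lit 836) (nat_lit 5364718746) (nat_lit 76) (nat_lit 847946089) (nat_lit 373) (nat_lit 5) (nat_lit 384) (nat_lit 5) (nat_lit 374) (nat_lit 5) (nat_lit 569) (nat_lit 501) (nat_lit 490)))) (XT.nd (nat_lit 156) (nat_lit 1444) (nat_lit 0) (XT.nd (nat_lit 78) (nat_lit 76) (nat_lit 0) (XT.lf (nat_lit 0) (nat_lit 498746668) (nat_lit 760) (nat_lit 4379068289) (nat_lit 836) (nat_lit 2785127181) (nat_lit 363) (nat_lit 5) (nat_lit 373) (nat_lit 5) (nat_lit 374) (nat_lit 5) (nat_lit 570) (nat_lit 501) (nat_lit 489)) (XT.lf (nat_lit 0) (nat_lit 676305771) (nat_lit 836) (nat_lit 1240753741) (nat_lit 76) (nat_lit 5798818215) (nat_lit 362) (nat_lit 5) (nat_lit 373) (nat_lit 5) (nat_lit 363) (nat_lit 5) (nat_lit 571) (nat_lit 501) (nat_lit 488))) (XT.nd (nat_lit 78) (nat_lit 760)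 (nat_lit 0) (XT.lf (nat_lit 0) (nat_lit 4144449313) (nat_lit 760) (nat_lit 3000811209) (nat_lit 76) (nat_lit 624751607) (nat_lit 353) (nat_lit 5) (nat_lit 363) (nat_lit 5) (nat_lit 354) (nat_lit 5) (nat_lit 572) (nat_lit 501) (nat_lit 487)) (XT.lf (nat_lit 0) (nat_lit 3045735607) (nat_lit 760) (nat_lit 4617352759) (nat_lit 836) (nat_lit 162521917) (nat_lit 343) (nat_lit 5) (nat_lit 353) (nat_lit 5) (nat_lit 354) (nat_lit 5) (nat_lit 573) (nat_lit 501) (nat_lit 486)))))) (XT.nd (nat_lit 546) (nat_lit 4180) (nat_lit 0) (XT.nd (nat_lit 234) (nat_lit 2052) (nat_lit 0) (XT.nd (nat_lit 78) (nat_lit 760) (nat_lit 0) (XT.lf (nat_lit 0) (nat_lit 1294046668) (nat_lit 684) (nat_lit 2000799211) (nat_lit 760) (nat_lit 4587655292) (nat_lit 333) (nat_lit 5) (nat_lit 342) (nat_lit 5) (nat_lit 343) (nat_lit 5) (nat_lit 574) (nat_lit 501) (nat_lit 485)) (XT.nd (nat_lit 78) (nat_lit 760) (nat_lit 0) (XT.lf (nat_lit 0) (nat_lit 6797007535) (nat_lit 760) (nat_lit 464770545) (nat_lit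 76) (nat_lit 679177360) (nat_lit 333) (nat_lit 5) (nat_lit 343) (nat_lit 5) (nat_lit 334) (nat_lit 5) (nat_lit 575) (nat_lit 501) (nat_lit 484)) (XT.lf (nat_lit 0) (nat_lit 2330591988) (nat_lit 760) (nat_lit 2244272535) (nat_lit 76) (nat_lit 3425549597) (nat_lit 323) (nat_lit 5) (nat_lit 333) (nat_lit 5) (nat_lit 324) (nat_lit 5) (nat_lit 576) (nat_lit 501) (nat_lit 483)))) (XT.nd (nat_lit 156) (nat_lit 684) (nat_lit 0) (XT.nd (nat_lit 78) (nat_lit 760) (nat_lit 0) (XT.lf (nat_lit 0) (nat_lit 4019547806) (nat_lit 608) (nat_lit 1811641907) (nat_lit 684) (nat_lit 2230286642) (nat_lit 315) (nat_lit 5) (nat_lit 323) (nat_lit 5) (nat_lit 324) (nat_lit 5) (nat_lit 577) (nat_lit 501) (nat_lit 482)) (XT.lf (nat_lit 0) (nat_lit 1240740466) (nat_lit 760) (nat_lit 5866555229) (nat_lit 76) (nat_lit 1016712102) (nat_lit 305) (nat_lit 5) (nat_lit 315) (nat_lit 5) (nat_lit 306) (nat_lit 5) (nat_lit 578) (nat_lit 501) (nat_lit 481))) (XT.nd (nat_lit 78) (nat_lit 76) (nat_lit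 0) (XT.lf (nat_lit 0) (nat_lit 456216200) (nat_lit 608) (nat_lit 4280860491) (nat_lit 684) (nat_lit 3450706402) (nat_lit 297) (nat_lit 5) (nat_lit 305) (nat_lit 5) (nat_lit 306) (nat_lit 5) (nat_lit 579) (nat_lit 501) (nat_lit 480)) (XT.lf (nat_lit 0) (nat_lit 33196509) (nat_lit 684) (nat_lit 1341121911) (nat_lit 76) (nat_lit 6878844843) (nat_lit 296) (nat_lit 5) (nat_lit 305) (nat_lit 5) (nat_lit 297) (nat_lit 5) (nat_lit 580) (nat_lit 501) (nat_lit 479))))) (XT.nd (nat_lit 312) (nat_lit 2280) (nat_lit 0) (XT.nd (nat_lit 156) (nat_lit 684) (nat_lit 0) (XT.nd (nat_lit 78) (nat_lit 608) (nat_lit 0) (XT.lf (nat_lit 0) (nat_lit 3529468952) (nat_lit 684) (nat_lit 3180612692) (nat_lit 76) (nat_lit 1609538213) (nat_lit 288) (nat_lit 5) (nat_lit 297) (nat_lit 5) (nat_lit 289) (nat_lit 5) (nat_lit 581) (nat_lit 501) (nat_lit 478)) (XT.lf (nat_lit 0) (nat_lit 3341838075) (nat_lit 608) (nat_lit 3739022135) (nat_lit 684) (nat_lit 1306844378) (nat_lit 280) (nat_lit 5)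 (nat_lit 288) (nat_lit 5) (nat_lit 289) (nat_lit 5) (nat_lit 582) (nat_lit 501) (nat_lit 477))) (XT.nd (nat_lit 78) (nat_lit 0) (nat_lit 0) (XT.lf (nat_lit 0) (nat_lit 1513481580) (nat_lit 608) (nat_lit 680078334) (nat_lit 684) (nat_lit 6263764396) (nat_lit 271) (nat_lit 5) (nat_lit 279) (nat_lit 5) (nat_lit 280) (nat_lit 5) (nat_lit 583) (nat_lit 501) (nat_lit 476)) (XT.lf (nat_lit 0) (nat_lit 5742473412) (nat_lit 684) (nat_lit 353217330) (nat_lit 76) (nat_lit 2432555631) (nat_lit 271) (nat_lit 5) (nat_lit 280) (nat_lit 5) (nat_lit 272) (nat_lit 5) (nat_lit 584) (nat_lit 501) (nat_lit 475)))) (XT.nd (nat_lit 156) (nat_lit 1140) (nat_lit 0) (XT.nd (nat_lit 78) (nat_lit 532) (nat_lit 0) (XT.lf (nat_lit 0) (nat_lit 744757161) (nat_lit 608) (nat_lit 2229098051) (nat_lit 76) (nat_lit 5626775955) (nat_lit 263) (nat_lit 5) (nat_lit 271) (nat_lit 5) (nat_lit 264) (nat_lit 5) (nat_lit 585) (nat_lit 501) (nat_lit 474)) (XT.lf (nat_lit 0) (nat_lit 4289341256) (nat_lit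 608) (nat_lit 4146034547) (nat_lit 76) (nat_lit 239107230) (nat_lit 256) (nat_lit 5) (nat_lit 264) (nat_lit 5) (nat_lit 257) (nat_lit 5) (nat_lit 586) (nat_lit 501) (nat_lit 473))) (XT.nd (nat_lit 78) (nat_lit 608) (nat_lit 0) (XT.lf (nat_lit 0) (nat_lit 2644246385) (nat_lit 532) (nat_lit 5260271003) (nat_lit 608) (nat_lit 845303043) (nat_lit 249) (nat_lit 5) (nat_lit 256) (nat_lit 5) (nat_lit 257) (nat_lit 5) (nat_lit 587) (nat_lit 501) (nat_lit 472)) (XT.lf (nat_lit 0) (nat_lit 719010952) (nat_lit 532) (nat_lit 1990720371) (nat_lit 608) (nat_lit 6116963237) (nat_lit 241) (nat_lit 5) (nat_lit 248) (nat_lit 5) (nat_lit 249) (nat_lit 5) (nat_lit 588) (nat_lit 501) (nat_lit 471))))))))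
noncomputable def xc37 : XT := (XT.nd (nat_lit 2262) (nat_lit 5624) (nat_lit 0) (XT.nd (nat_lit 1092) (nat_lit 4560) (nat_lit 0) (XT.nd (nat_lit 546) (nat_lit 2204) (nat_lit 0) (XT.nd (nat_lit 234) (nat_lit 1520) (nat_lit 0) (XT.nd (nat_lit 78) (nat_lit 1064) (nat_lit 0) (XT.lf (nat_lit 0) (nat_lit 6322936907) (nat_lit 608) (nat_lit 1229157459) (nat_lit 76) (nat_lit 1352934632) (nat_lit 241) (nat_lit 5) (nat_lit 249) (nat_lit 5) (nat_lit 242) (nat_lit 5) (nat_lit 589) (nat_lit 501) (nat_lit 470)) (XT.nd (nat_lit 78) (nat_lit 532) (nat_lit 0) (XT.lf (nat_lit 0) (nat_lit 1010168692) (nat_lit 532) (nat_lit 3213733150) (nat_lit 76) (nat_lit 4760895341) (nat_lit 234) (nat_lit 5) (nat_lit 241) (nat_lit 5) (nat_lit 235) (nat_lit 5) (nat_lit 590) (nat_lit 501) (nat_lit 469)) (XT.lf (nat_lit 0) (nat_lit 3823050724) (nat_lit 532) (nat_lit 799422083) (nat_lit 608) (nat_lit 4443693347) (nat_lit 227) (nat_lit 5) (nat_lit 234) (nat_lit 5) (nat_lit 235) (nat_lit 5) (nat_lit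 591) (nat_lit 501) (nat_lit 468)))) (XT.nd (nat_lit 156) (nat_lit 988) (nat_lit 0) (XT.nd (nat_lit 78) (nat_lit 76) (nat_lit 0) (XT.lf (nat_lit 0) (nat_lit 1829488131) (nat_lit 456) (nat_lit 6478609672) (nat_lit 532) (nat_lit 841045383) (nat_lit 221) (nat_lit 5) (nat_lit 227) (nat_lit 5) (nat_lit 228) (nat_lit 5) (nat_lit 592) (nat_lit 501) (nat_lit 467)) (XT.lf (nat_lit 0) (nat_lit 2787386874) (nat_lit 532) (nat_lit 214851191) (nat_lit 76) (nat_lit 6231357924) (nat_lit 220) (nat_lit 5) (nat_lit 227) (nat_lit 5) (nat_lit 221) (nat_lit 5) (nat_lit 593) (nat_lit 501) (nat_lit 466))) (XT.nd (nat_lit 78) (nat_lit 532) (nat_lit 0) (XT.lf (nat_lit 0) (nat_lit 6477782471) (nat_lit 532) (nat_lit 2275547320) (nat_lit 76) (nat_lit 566285797) (nat_lit 214) (nat_lit 5) (nat_lit 221) (nat_lit 5) (nat_lit 215) (nat_lit 5) (nat_lit 594) (nat_lit 501) (nat_lit 465)) (XT.lf (nat_lit 0) (nat_lit 829149483) (nat_lit 532) (nat_lit 4394430174) (nat_lit 76) (nat_lit 4183560208)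 (nat_lit 207) (nat_lit 5) (nat_lit 214) (nat_lit 5) (nat_lit 208) (nat_lit 5) (nat_lit 595) (nat_lit 501) (nat_lit 464))))) (XT.nd (nat_lit 234) (nat_lit 1292) (nat_lit 0) (XT.nd (nat_lit 78) (nat_lit 456) (nat_lit 0) (XT.lf (nat_lit 0) (nat_lit 2929390621) (nat_lit 456) (nat_lit 1592221461) (nat_lit 532) (nat_lit 4974706538) (nat_lit 201) (nat_lit 5) (nat_lit 207) (nat_lit 5) (nat_lit 208) (nat_lit 5) (nat_lit 596) (nat_lit 501) (nat_lit 463)) (XT.nd (nat_lit 78) (nat_lit 76) (nat_lit 0) (XT.lf (nat_lit 0) (nat_lit 797201141) (nat_lit 380) (nat_lit 7491314624) (nat_lit 456) (nat_lit 1298755246) (nat_lit 196) (nat_lit 5) (nat_lit 201) (nat_lit 5) (nat_lit 202) (nat_lit 5) (nat_lit 597) (nat_lit 501) (nat_lit 462)) (XT.lf (nat_lit 0) (nat_lit 2425658585) (nat_lit 456) (nat_lit 1380356365) (nat_lit 76) (nat_lit 5873569386) (nat_lit 195) (nat_lit 5) (nat_lit 201) (nat_lit 5) (nat_lit 196) (nat_lit 5) (nat_lit 598) (nat_lit 501) (nat_lit 461)))) (XT.nd (nat_lit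 156) (nat_lit 380) (nat_lit 0) (XT.nd (nat_lit 78) (nat_lit 456) (nat_lit 0) (XT.lf (nat_lit 0) (nat_lit 6179330121) (nat_lit 456) (nat_lit 21095619) (nat_lit 532) (nat_lit 3573283173) (nat_lit 189) (nat_lit 5) (nat_lit 195) (nat_lit 5) (nat_lit 196) (nat_lit 5) (nat_lit 599) (nat_lit 501) (nat_lit 460)) (XT.lf (nat_lit 0) (nat_lit 192311731) (nat_lit 456) (nat_lit 5874877850) (nat_lit 76) (nat_lit 3802230358) (nat_lit 183) (nat_lit 5) (nat_lit 189) (nat_lit 5) (nat_lit 184) (nat_lit 5) (nat_lit 600) (nat_lit 501) (nat_lit 459))) (XT.nd (nat_lit 78) (nat_lit 0) (nat_lit 0) (XT.lf (nat_lit 0) (nat_lit 1745200609) (nat_lit 380) (nat_lit 2229543178) (nat_lit 456) (nat_lit 5992043263) (nat_lit 178) (nat_lit 5) (nat_lit 183) (nat_lit 5) (nat_lit 184) (nat_lit 5) (nat_lit 601) (nat_lit 501) (nat_lit 458)) (XT.lf (nat_lit 0) (nat_lit 7837315706) (nat_lit 456) (nat_lit 550615856) (nat_lit 76) (nat_lit 1678081769) (nat_lit 178) (nat_lit 5) (nat_lit 184) (nat_lit 5)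 (nat_lit 179) (nat_lit 5) (nat_lit 602) (nat_lit 501) (nat_lit 457)))))) (XT.nd (nat_lit 546) (nat_lit 2128) (nat_lit 0) (XT.nd (nat_lit 234) (nat_lit 1216) (nat_lit 0) (XT.nd (nat_lit 78) (nat_lit 760) (nat_lit 0) (XT.lf (nat_lit 0) (nat_lit 1605743631) (nat_lit 456) (nat_lit 2892924661) (nat_lit 76) (nat_lit 5668009518) (nat_lit 172) (nat_lit 5) (nat_lit 178) (nat_lit 5) (nat_lit 173) (nat_lit 5) (nat_lit 603) (nat_lit 501) (nat_lit 456)) (XT.nd (nat_lit 78) (nat_lit 380) (nat_lit 0) (XT.lf (nat_lit 0) (nat_lit 4973071805) (nat_lit 380) (nat_lit 504904390) (nat_lit 456) (nat_lit 4791267411) (nat_lit 167) (nat_lit 5) (nat_lit 172) (nat_lit 5) (nat_lit 173) (nat_lit 5) (nat_lit 604) (nat_lit 501) (nat_lit 455)) (XT.lf (nat_lit 0) (nat_lit 2602534601) (nat_lit 380) (nat_lit 6839906429) (nat_lit 456) (nat_lit 931125460) (nat_lit 162) (nat_lit 5) (nat_lit 167) (nat_lit 5) (nat_lit 168) (nat_lit 5) (nat_lit 605) (nat_lit 501) (nat_lit 454)))) (XT.nd (nat_lit 156)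 (nat_lit 760) (nat_lit 0) (XT.nd (nat_lit 78) (nat_lit 0) (nat_lit 0) (XT.lf (nat_lit 0) (nat_lit 160183353) (nat_lit 380) (nat_lit 2802075222) (nat_lit 456) (nat_lit 7517419028) (nat_lit 156) (nat_lit 5) (nat_lit 161) (nat_lit 5) (nat_lit 162) (nat_lit 5) (nat_lit 606) (nat_lit 501) (nat_lit 453)) (XT.lf (nat_lit 0) (nat_lit 6937655590) (nat_lit 456) (nat_lit 2317382207) (nat_lit 76) (nat_lit 1332419224) (nat_lit 156) (nat_lit 5) (nat_lit 162) (nat_lit 5) (nat_lit 157) (nat_lit 5) (nat_lit 607) (nat_lit 501) (nat_lit 452))) (XT.nd (nat_lit 78) (nat_lit 380) (nat_lit 0) (XT.lf (nat_lit 0) (nat_lit 304243548) (nat_lit 380) (nat_lit 4865845360) (nat_lit 76) (nat_lit 5527007246) (nat_lit 151) (nat_lit 5) (nat_lit 156) (nat_lit 5) (nat_lit 152) (nat_lit 5) (nat_lit 608) (nat_lit 501) (nat_lit 451)) (XT.lf (nat_lit 0) (nat_lit 3315309611) (nat_lit 380) (nat_lit 966964990) (nat_lit 456) (nat_lit 6526296799) (nat_lit 146) (nat_lit 5) (nat_lit 151) (nat_lit 5) (nat_lit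 152) (nat_lit 5) (nat_lit 609) (nat_lit 501) (nat_lit 450))))) (XT.nd (nat_lit 312) (nat_lit 1064) (nat_lit 0) (XT.nd (nat_lit 156) (nat_lit 684) (nat_lit 0) (XT.nd (nat_lit 78) (nat_lit 76) (nat_lit 0) (XT.lf (nat_lit 0) (nat_lit 722337556) (nat_lit 304) (nat_lit 7633429855) (nat_lit 380) (nat_lit 2566192045) (nat_lit 142) (nat_lit 5) (nat_lit 146) (nat_lit 5) (nat_lit 147) (nat_lit 5) (nat_lit 610) (nat_lit 501) (nat_lit 449)) (XT.lf (nat_lit 0) (nat_lit 1467713039) (nat_lit 380) (nat_lit 1918988829) (nat_lit 76) (nat_lit 7650445022) (nat_lit 141) (nat_lit 5) (nat_lit 146) (nat_lit 5) (nat_lit 142) (nat_lit 5) (nat_lit 611) (nat_lit 501) (nat_lit 448))) (XT.nd (nat_lit 78) (nat_lit 304) (nat_lit 0) (XT.lf (nat_lit 0) (nat_lit 5554447861) (nat_lit 456) (nat_lit 4633314908) (nat_lit 76) (nat_lit 966407048) (nat_lit 136) (nat_lit 5) (nat_lit 142) (nat_lit 5) (nat_lit 137) (nat_lit 5) (nat_lit 612) (nat_lit 501) (nat_lit 447)) (XT.lf (nat_lit 0) (nat_lit 3841351411)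 (nat_lit 304) (nat_lit 5899857224) (nat_lit 380) (nat_lit 1531959970) (nat_lit 132) (nat_lit 5) (nat_lit 136) (nat_lit 5) (nat_lit 137) (nat_lit 5) (nat_lit 613) (nat_lit 501) (nat_lit 446)))) (XT.nd (nat_lit 156) (nat_lit 684) (nat_lit 0) (XT.nd (nat_lit 78) (nat_lit 0) (nat_lit 0) (XT.lf (nat_lit 0) (nat_lit 1082537464) (nat_lit 304) (nat_lit 1496685033) (nat_lit 380) (nat_lit 8815058407) (nat_lit 127) (nat_lit 5) (nat_lit 131) (nat_lit 5) (nat_lit 132) (nat_lit 5) (nat_lit 614) (nat_lit 501) (nat_lit 445)) (XT.lf (nat_lit 0) (nat_lit 6780046337) (nat_lit 380) (nat_lit 1747875265) (nat_lit 76) (nat_lit 2989133866) (nat_lit 127) (nat_lit 5) (nat_lit 132) (nat_lit 5) (nat_lit 128) (nat_lit 5) (nat_lit 615) (nat_lit 501) (nat_lit 444))) (XT.nd (nat_lit 78) (nat_lit 380) (nat_lit 0) (XT.lf (nat_lit 0) (nat_lit 7001479823) (nat_lit 304) (nat_lit 4077862396) (nat_lit 380) (nat_lit 562655326) (nat_lit 123) (nat_lit 5) (nat_lit 127) (nat_lit 5) (nat_lit 128) (nat_lit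 5) (nat_lit 616) (nat_lit 501) (nat_lit 443)) (XT.lf (nat_lit 0) (nat_lit 3647842827) (nat_lit 380) (nat_lit 7629463858) (nat_lit 76) (nat_lit 491630629) (nat_lit 118) (nat_lit 5) (nat_lit 123) (nat_lit 5) (nat_lit 119) (nat_lit 5) (nat_lit 617) (nat_lit 501) (nat_lit 442))))))) (XT.nd (nat_lit 1170) (nat_lit 2508) (nat_lit 0) (XT.nd (nat_lit 546) (nat_lit 1672) (nat_lit 0) (XT.nd (nat_lit 234) (nat_lit 836) (nat_lit 0) (XT.nd (nat_lit 78) (nat_lit 380) (nat_lit 0) (XT.lf (nat_lit 0) (nat_lit 1176677152) (nat_lit 228) (nat_lit 6783708703) (nat_lit 304) (nat_lit 3937449330) (nat_lit 115) (nat_lit 5) (nat_lit 118) (nat_lit 5) (nat_lit 119) (nat_lit 5) (nat_lit 618) (nat_lit 501) (nat_lit 441)) (XT.nd (nat_lit 78) (nat_lit 304) (nat_lit 0) (XT.lf (nat_lit 0) (nat_lit 336539408) (nat_lit 304) (nat_lit 1836491809) (nat_lit 76) (nat_lit 9856018050) (nat_lit 114) (nat_lit 5) (nat_lit 118) (nat_lit 5) (nat_lit 115) (nat_lit 5) (nat_lit 619) (nat_lit 501) (nat_lit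 440)) (XT.lf (nat_lit 0) (nat_lit 4667251427) (nat_lit 380) (nat_lit 4951120179) (nat_lit 76) (nat_lit 2543517181) (nat_lit 110) (nat_lit 5) (nat_lit 115) (nat_lit 5) (nat_lit 111) (nat_lit 5) (nat_lit 620) (nat_lit 501) (nat_lit 439)))) (XT.nd (nat_lit 156) (nat_lit 228) (nat_lit 0) (XT.nd (nat_lit 78) (nat_lit 380) (nat_lit 0) (XT.lf (nat_lit 0) (nat_lit 4139624742) (nat_lit 228) (nat_lit 4959055637) (nat_lit 304) (nat_lit 3198423650) (nat_lit 107) (nat_lit 5) (nat_lit 110) (nat_lit 5) (nat_lit 111) (nat_lit 5) (nat_lit 621) (nat_lit 501) (nat_lit 438)) (XT.lf (nat_lit 0) (nat_lit 982915035) (nat_lit 304) (nat_lit 185613696) (nat_lit 380) (nat_lit 11266335305) (nat_lit 102) (nat_lit 5) (nat_lit 106) (nat_lit 5) (nat_lit 107) (nat_lit 5) (nat_lit 622) (nat_lit 501) (nat_lit 437))) (XT.nd (nat_lit 78) (nat_lit 228) (nat_lit 0) (XT.lf (nat_lit 0) (nat_lit 5626220511) (nat_lit 380) (nat_lit 2276716333) (nat_lit 76) (nat_lit 4671095951) (nat_lit 102) (nat_lit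 5) (nat_lit 107) (nat_lit 5) (nat_lit 103) (nat_lit 5) (nat_lit 623) (nat_lit 501) (nat_lit 436)) (XT.lf (nat_lit 0) (nat_lit 7108158967) (nat_lit 228) (nat_lit 3073734953) (nat_lit 304) (nat_lit 2533915365) (nat_lit 99) (nat_lit 5) (nat_lit 102) (nat_lit 5) (nat_lit 103) (nat_lit 5) (nat_lit 624) (nat_lit 501) (nat_lit 435))))) (XT.nd (nat_lit 312) (nat_lit 760) (nat_lit 0) (XT.nd (nat_lit 156) (nat_lit 304) (nat_lit 0) (XT.nd (nat_lit 78) (nat_lit 228) (nat_lit 0) (XT.lf (nat_lit 0) (nat_lit 1956366821) (nat_lit 380) (nat_lit 9049532139) (nat_lit 76) (nat_lit 1853989209) (nat_lit 94) (nat_lit 5) (nat_lit 99) (nat_lit 5) (nat_lit 95) (nat_lit 5) (nat_lit 625) (nat_lit 501) (nat_lit 434)) (XT.lf (nat_lit 0) (nat_lit 388256892) (nat_lit 228) (nat_lit 6136732862) (nat_lit 304) (nat_lit 6481075465) (nat_lit 91) (nat_lit 5) (nat_lit 94) (nat_lit 5) (nat_lit 95) (nat_lit 5) (nat_lit 626) (nat_lit 501) (nat_lit 433))) (XT.nd (nat_lit 78) (nat_lit 304) (nat_lit 0)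 (XT.lf (nat_lit 0) (nat_lit 10071816427) (nat_lit 228) (nat_lit 1135897357) (nat_lit 304) (nat_lit 1946998296) (nat_lit 91) (nat_lit 5) (nat_lit 94) (nat_lit 5) (nat_lit 95) (nat_lit 5) (nat_lit 627) (nat_lit 501) (nat_lit 432)) (XT.lf (nat_lit 0) (nat_lit 2674267525) (nat_lit 304) (nat_lit 6684189513) (nat_lit 76) (nat_lit 3946895405) (nat_lit 87) (nat_lit 5) (nat_lit 91) (nat_lit 5) (nat_lit 88) (nat_lit 5) (nat_lit 628) (nat_lit 501) (nat_lit 431)))) (XT.nd (nat_lit 156) (nat_lit 532) (nat_lit 0) (XT.nd (nat_lit 78) (nat_lit 0) (nat_lit 0) (XT.lf (nat_lit 0) (nat_lit 3057033630) (nat_lit 228) (nat_lit 4315713772) (nat_lit 304) (nat_lit 6085784430) (nat_lit 84) (nat_lit 5) (nat_lit 87) (nat_lit 5) (nat_lit 88) (nat_lit 5) (nat_lit 629) (nat_lit 501) (nat_lit 430)) (XT.lf (nat_lit 0) (nat_lit 12178497087) (nat_lit 304) (nat_lit 601004739) (nat_lit 76) (nat_lit 835007757) (nat_lit 84) (nat_lit 5) (nat_lit 88) (nat_lit 5) (nat_lit 85) (nat_lit 5) (nat_lit 630)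 (nat_lit 501) (nat_lit 429))) (XT.nd (nat_lit 78) (nat_lit 228) (nat_lit 0) (XT.lf (nat_lit 0) (nat_lit 3317027010) (nat_lit 304) (nat_lit 4367678726) (nat_lit 76) (nat_lit 6087399692) (nat_lit 80) (nat_lit 5) (nat_lit 84) (nat_lit 5) (nat_lit 81) (nat_lit 5) (nat_lit 631) (nat_lit 501) (nat_lit 428)) (XT.lf (nat_lit 0) (nat_lit 5686453726) (nat_lit 228) (nat_lit 2464010100) (nat_lit 304) (nat_lit 5782108961) (nat_lit 77) (nat_lit 5) (nat_lit 80) (nat_lit 5) (nat_lit 81) (nat_lit 5) (nat_lit 632) (nat_lit 501) (nat_lit 427)))))) (XT.nd (nat_lit 546) (nat_lit 1292) (nat_lit 0) (XT.nd (nat_lit 234) (nat_lit 684) (nat_lit 0) (XT.nd (nat_lit 78) (nat_lit 304) (nat_lit 0) (XT.lf (nat_lit 0) (nat_lit 1846604413) (nat_lit 228) (nat_lit 11257725065) (nat_lit 304) (nat_lit 991445533) (nat_lit 74) (nat_lit 5) (nat_lit 77) (nat_lit 5) (nat_lit 78) (nat_lit 5) (nat_lit 633) (nat_lit 501) (nat_lit 426)) (XT.nd (nat_lit 78) (nat_lit 228) (nat_lit 0) (XT.lf (nat_lit 0) (nat_lit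 3879717995) (nat_lit 304) (nat_lit 2114262875) (nat_lit 76) (nat_lit 8267039898) (nat_lit 73) (nat_lit 5) (nat_lit 77) (nat_lit 5) (nat_lit 74) (nat_lit 5) (nat_lit 634) (nat_lit 501) (nat_lit 425)) (XT.lf (nat_lit 0) (nat_lit 8262280143) (nat_lit 228) (nat_lit 590867235) (nat_lit 304) (nat_lit 5575931310) (nat_lit 70) (nat_lit 5) (nat_lit 73) (nat_lit 5) (nat_lit 74) (nat_lit 5) (nat_lit 635) (nat_lit 501) (nat_lit 424)))) (XT.nd (nat_lit 156) (nat_lit 228) (nat_lit 0) (XT.nd (nat_lit 78) (nat_lit 228) (nat_lit 0) (XT.lf (nat_lit 0) (nat_lit 4235332921) (nat_lit 228) (nat_lit 9729014947) (nat_lit 304) (nat_lit 635384512) (nat_lit 67) (nat_lit 5) (nat_lit 70) (nat_lit 5) (nat_lit 71) (nat_lit 5) (nat_lit 636) (nat_lit 501) (nat_lit 423)) (XT.lf (nat_lit 0) (nat_lit 61118951) (nat_lit 152) (nat_lit 4295693067) (nat_lit 228) (nat_lit 10416203942) (nat_lit 64) (nat_lit 5) (nat_lit 66) (nat_lit 5) (nat_lit 67) (nat_lit 5) (nat_lit 637) (nat_lit 501) (nat_lit 422)))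 (XT.nd (nat_lit 78) (nat_lit 228) (nat_lit 0) (XT.lf (nat_lit 0) (nat_lit 9483195104) (nat_lit 228) (nat_lit 4188633481) (nat_lit 76) (nat_lit 1276996246) (nat_lit 64) (nat_lit 5) (nat_lit 67) (nat_lit 5) (nat_lit 65) (nat_lit 5) (nat_lit 638) (nat_lit 501) (nat_lit 421)) (XT.lf (nat_lit 0) (nat_lit 6540526262) (nat_lit 228) (nat_lit 8207924224) (nat_lit 304) (nat_lit 378973114) (nat_lit 61) (nat_lit 5) (nat_lit 64) (nat_lit 5) (nat_lit 65) (nat_lit 5) (nat_lit 639) (nat_lit 501) (nat_lit 420))))) (XT.nd (nat_lit 312) (nat_lit 608) (nat_lit 0) (XT.nd (nat_lit 156) (nat_lit 456) (nat_lit 0) (XT.nd (nat_lit 78) (nat_lit 0) (nat_lit 0) (XT.lf (nat_lit 0) (nat_lit 2167071498) (nat_lit 152) (nat_lit 2587114701) (nat_lit 228) (nat_lit 10554627297) (nat_lit 58) (nat_lit 5) (nat_lit 60) (nat_lit 5) (nat_lit 61) (nat_lit 5) (nat_lit 640) (nat_lit 501) (nat_lit 419)) (XT.lf (nat_lit 0) (nat_lit 10028951581) (nat_lit 228) (nat_lit 2325532920) (nat_lit 76) (nat_lit 3138416821)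 (nat_lit 58) (nat_lit 5) (nat_lit 61) (nat_lit 5) (nat_lit 59) (nat_lit 5) (nat_lit 641) (nat_lit 501) (nat_lit 418))) (XT.nd (nat_lit 78) (nat_lit 228) (nat_lit 0) (XT.lf (nat_lit 0) (nat_lit 8743705594) (nat_lit 228) (nat_lit 6705666432) (nat_lit 304) (nat_lit 230496249) (nat_lit 55) (nat_lit 5) (nat_lit 58) (nat_lit 5) (nat_lit 59) (nat_lit 5) (nat_lit 642) (nat_lit 501) (nat_lit 417)) (XT.lf (nat_lit 0) (nat_lit 4155945237) (nat_lit 152) (nat_lit 893689306) (nat_lit 228) (nat_lit 10820097414) (nat_lit 52) (nat_lit 5) (nat_lit 54) (nat_lit 5) (nat_lit 55) (nat_lit 5) (nat_lit 643) (nat_lit 501) (nat_lit 416)))) (XT.nd (nat_lit 156) (nat_lit 380) (nat_lit 0) (XT.nd (nat_lit 78) (nat_lit 228) (nat_lit 0) (XT.lf (nat_lit 0) (nat_lit 10478221496) (nat_lit 228) (nat_lit 594045178) (nat_lit 76) (nat_lit 4990177503) (nat_lit 52) (nat_lit 5) (nat_lit 55) (nat_lit 5) (nat_lit 53) (nat_lit 5) (nat_lit 644) (nat_lit 501) (nat_lit 415)) (XT.lf (nat_lit 0) (nat_lit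 10824353919) (nat_lit 228) (nat_lit 5234278491) (nat_lit 304) (nat_lit 199513710) (nat_lit 49) (nat_lit 5) (nat_lit 52) (nat_lit 5) (nat_lit 53) (nat_lit 5) (nat_lit 645) (nat_lit 501) (nat_lit 414))) (XT.nd (nat_lit 78) (nat_lit 152) (nat_lit 0) (XT.lf (nat_lit 0) (nat_lit 5238593865) (nat_lit 228) (nat_lit 10455845081) (nat_lit 76) (nat_lit 762333928) (nat_lit 46) (nat_lit 5) (nat_lit 49) (nat_lit 5) (nat_lit 47) (nat_lit 5) (nat_lit 646) (nat_lit 501) (nat_lit 413)) (XT.lf (nat_lit 0) (nat_lit 996282949) (nat_lit 152) (nat_lit 9831532969) (nat_lit 228) (nat_lit 5830629886) (nat_lit 44) (nat_lit 5) (nat_lit 46) (nat_lit 5) (nat_lit 47) (nat_lit 5) (nat_lit 647) (nat_lit 501) (nat_lit 412))))))))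
noncomputable def xc38 : XT := (XT.nd (nat_lit 76128) (nat_lit 0) (nat_lit 7600) (XT.nd (nat_lit 74958) (nat_lit 0) (nat_lit 18164) (XT.nd (nat_lit 74412) (nat_lit 0) (nat_lit 26904) (XT.nd (nat_lit 74100) (nat_lit 0) (nat_lit 31464) (XT.nd (nat_lit 78) (nat_lit 228) (nat_lit 0) (XT.lf (nat_lit 0) (nat_lit 12759667032) (nat_lit 152) (nat_lit 3806760237) (nat_lit 228) (nat_lit 296973310) (nat_lit 44) (nat_lit 5) (nat_lit 46) (nat_lit 5) (nat_lit 47) (nat_lit 5) (nat_lit 648) (nat_lit 501) (nat_lit 411)) (XT.nd (nat_lit 73944) (nat_lit 0) (nat_lit 36252) (XT.lf (nat_lit 0) (nat_lit 5310612684) (nat_lit 228) (nat_lit 9393709451) (nat_lit 76) (nat_lit 2366770651) (nat_lit 41) (nat_lit 5) (nat_lit 44) (nat_lit 5) (nat_lit 42) (nat_lit 5) (nat_lit 649) (nat_lit 501) (nat_lit 410)) (XT.lf (nat_lit 0) (nat_lit 772841042) (nat_lit 1748) (nat_lit 1984727006) (nat_lit 0) (nat_lit 772841042) (nat_lit 518) (nat_lit 5) (nat_lit 541) (nat_lit 4) (nat_lit 518) (nat_lit 4)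 (nat_lit 556) (nat_lit 502) (nat_lit 502)))) (XT.nd (nat_lit 156) (nat_lit 2964) (nat_lit 0) (XT.nd (nat_lit 78) (nat_lit 76) (nat_lit 0) (XT.lf (nat_lit 0) (nat_lit 1249558428) (nat_lit 1748) (nat_lit 3807028983) (nat_lit 1748) (nat_lit 2039354242) (nat_lit 495) (nat_lit 4) (nat_lit 518) (nat_lit 5) (nat_lit 518) (nat_lit 4) (nat_lit 557) (nat_lit 502) (nat_lit 501)) (XT.lf (nat_lit 0) (nat_lit 1443363395) (nat_lit 1824) (nat_lit 585095134) (nat_lit 76) (nat_lit 5103975621) (nat_lit 494) (nat_lit 5) (nat_lit 518) (nat_lit 5) (nat_lit 495) (nat_lit 4) (nat_lit 558) (nat_lit 502) (nat_lit 500))) (XT.nd (nat_lit 78) (nat_lit 1140) (nat_lit 0) (XT.lf (nat_lit 0) (nat_lit 4761076608) (nat_lit 1824) (nat_lit 170012291) (nat_lit 1900) (nat_lit 2239050202) (nat_lit 470) (nat_lit 5) (nat_lit 494) (nat_lit 5) (nat_lit 495) (nat_lit 4) (nat_lit 559) (nat_lit 502) (nat_lit 499)) (XT.lf (nat_lit 0) (nat_lit 1230012498) (nat_lit 1140) (nat_lit 4246200593) (nat_lit 76)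 (nat_lit 1732887481) (nat_lit 455) (nat_lit 5) (nat_lit 470) (nat_lit 5) (nat_lit 456) (nat_lit 4) (nat_lit 560) (nat_lit 502) (nat_lit 498))))) (XT.nd (nat_lit 234) (nat_lit 2660) (nat_lit 0) (XT.nd (nat_lit 78) (nat_lit 988) (nat_lit 0) (XT.lf (nat_lit 0) (nat_lit 1154924938) (nat_lit 912) (nat_lit 3541504890) (nat_lit 988) (nat_lit 2552961462) (nat_lit 443) (nat_lit 5) (nat_lit 455) (nat_lit 5) (nat_lit 456) (nat_lit 4) (nat_lit 561) (nat_lit 502) (nat_lit 497)) (XT.nd (nat_lit 78) (nat_lit 912) (nat_lit 0) (XT.lf (nat_lit 0) (nat_lit 891463890) (nat_lit 988) (nat_lit 645614504) (nat_lit 76) (nat_lit 5754049519) (nat_lit 442) (nat_lit 5) (nat_lit 455) (nat_lit 5) (nat_lit 443) (nat_lit 5) (nat_lit 562) (nat_lit 502) (nat_lit 496)) (XT.lf (nat_lit 0) (nat_lit 4340710490) (nat_lit 988) (nat_lit 2447818864) (nat_lit 76) (nat_lit 545434884) (nat_lit 430) (nat_lit 5) (nat_lit 443) (nat_lit 5) (nat_lit 431) (nat_lit 4) (nat_lit 563) (nat_lit 502) (nat_lit 495))))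 (XT.nd (nat_lit 156) (nat_lit 912) (nat_lit 0) (XT.nd (nat_lit 78) (nat_lit 836) (nat_lit 0) (XT.lf (nat_lit 0) (nat_lit 445117210) (nat_lit 912) (nat_lit 4261187589) (nat_lit 76) (nat_lit 2671891726) (nat_lit 418) (nat_lit 5) (nat_lit 430) (nat_lit 5) (nat_lit 419) (nat_lit 5) (nat_lit 564) (nat_lit 502) (nat_lit 494)) (XT.lf (nat_lit 0) (nat_lit 1330011643) (nat_lit 836) (nat_lit 2543303554) (nat_lit 912) (nat_lit 3550384300) (nat_lit 407) (nat_lit 5) (nat_lit 418) (nat_lit 5) (nat_lit 419) (nat_lit 5) (nat_lit 565) (nat_lit 502) (nat_lit 493))) (XT.nd (nat_lit 78) (nat_lit 912) (nat_lit 0) (XT.lf (nat_lit 0) (nat_lit 7020433128) (nat_lit 836) (nat_lit 314969780) (nat_lit 912) (nat_lit 135407545) (nat_lit 407) (nat_lit 5) (nat_lit 418) (nat_lit 5) (nat_lit 419) (nat_lit 5) (nat_lit 566) (nat_lit 502) (nat_lit 492)) (XT.lf (nat_lit 0) (nat_lit 3288856967) (nat_lit 912) (nat_lit 2248491685) (nat_lit 76) (nat_lit 1981386595) (nat_lit 395) (nat_lit 5) (nat_lit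 407) (nat_lit 5) (nat_lit 396) (nat_lit 5) (nat_lit 567) (nat_lit 502) (nat_lit 491)))))) (XT.nd (nat_lit 546) (nat_lit 4028) (nat_lit 0) (XT.nd (nat_lit 234) (nat_lit 3040) (nat_lit 0) (XT.nd (nat_lit 78) (nat_lit 836) (nat_lit 0) (XT.lf (nat_lit 0) (nat_lit 3516393224) (nat_lit 836) (nat_lit 3229641650) (nat_lit 912) (nat_lit 822245124) (nat_lit 384) (nat_lit 5) (nat_lit 395) (nat_lit 5) (nat_lit 396) (nat_lit 5) (nat_lit 568) (nat_lit 502) (nat_lit 490)) (XT.nd (nat_lit 78) (nat_lit 0) (nat_lit 0) (XT.lf (nat_lit 0) (nat_lit 1743172882) (nat_lit 760) (nat_lit 840700432) (nat_lit 836) (nat_lit 5035299097) (nat_lit 373) (nat_lit 5) (nat_lit 383) (nat_lit 5) (nat_lit 384) (nat_lit 5) (nat_lit 569) (nat_lit 502) (nat_lit 489)) (XT.lf (nat_lit 0) (nat_lit 6024157666) (nat_lit 836) (nat_lit 49056410) (nat_lit 76) (nat_lit 1598222772) (nat_lit 373) (nat_lit 5) (nat_lit 384) (nat_lit 5) (nat_lit 374) (nat_lit 5) (nat_lit 570) (nat_lit 502) (nat_lit 488)))) (XT.nd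 (nat_lit 156) (nat_lit 1520) (nat_lit 0) (XT.nd (nat_lit 78) (nat_lit 684) (nat_lit 0) (XT.lf (nat_lit 0) (nat_lit 1769023474) (nat_lit 836) (nat_lit 1840700818) (nat_lit 76) (nat_lit 4115106413) (nat_lit 362) (nat_lit 5) (nat_lit 373) (nat_lit 5) (nat_lit 363) (nat_lit 5) (nat_lit 571) (nat_lit 502) (nat_lit 487)) (XT.lf (nat_lit 0) (nat_lit 4130102148) (nat_lit 684) (nat_lit 1069481578) (nat_lit 760) (nat_lit 2580134887) (nat_lit 353) (nat_lit 5) (nat_lit 362) (nat_lit 5) (nat_lit 363) (nat_lit 5) (nat_lit 572) (nat_lit 502) (nat_lit 486))) (XT.nd (nat_lit 78) (nat_lit 684) (nat_lit 0) (XT.lf (nat_lit 0) (nat_lit 830674725) (nat_lit 836) (nat_lit 5481936243) (nat_lit 76) (nat_lit 1523405958) (nat_lit 342) (nat_lit 5) (nat_lit 353) (nat_lit 5) (nat_lit 343) (nat_lit 5) (nat_lit 573) (nat_lit 502) (nat_lit 485)) (XT.lf (nat_lit 0) (nat_lit 545741415) (nat_lit 684) (nat_lit 3706476493) (nat_lit 760) (nat_lit 3641344397) (nat_lit 333) (nat_lit 5) (nat_lit 342)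 (nat_lit 5) (nat_lit 343) (nat_lit 5) (nat_lit 574) (nat_lit 502) (nat_lit 484))))) (XT.nd (nat_lit 312) (nat_lit 1900) (nat_lit 0) (XT.nd (nat_lit 156) (nat_lit 1368) (nat_lit 0) (XT.nd (nat_lit 78) (nat_lit 760) (nat_lit 0) (XT.lf (nat_lit 0) (nat_lit 6697295678) (nat_lit 684) (nat_lit 1024118221) (nat_lit 760) (nat_lit 231263690) (nat_lit 333) (nat_lit 5) (nat_lit 342) (nat_lit 5) (nat_lit 343) (nat_lit 5) (nat_lit 575) (nat_lit 502) (nat_lit 483)) (XT.lf (nat_lit 0) (nat_lit 3191021638) (nat_lit 760) (nat_lit 3092273425) (nat_lit 76) (nat_lit 1729530015) (nat_lit 323) (nat_lit 5) (nat_lit 333) (nat_lit 5) (nat_lit 324) (nat_lit 5) (nat_lit 576) (nat_lit 502) (nat_lit 482))) (XT.nd (nat_lit 78) (nat_lit 760) (nat_lit 0) (XT.lf (nat_lit 0) (nat_lit 3124698563) (nat_lit 608) (nat_lit 3533268241) (nat_lit 684) (nat_lit 1416595163) (nat_lit 315) (nat_lit 5) (nat_lit 323) (nat_lit 5) (nat_lit 324) (nat_lit 5) (nat_lit 577) (nat_lit 502) (nat_lit 481)) (XT.lf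 (nat_lit 0) (nat_lit 1303201717) (nat_lit 684) (nat_lit 699922729) (nat_lit 760) (nat_lit 6134677558) (nat_lit 305) (nat_lit 5) (nat_lit 314) (nat_lit 5) (nat_lit 315) (nat_lit 5) (nat_lit 578) (nat_lit 502) (nat_lit 480)))) (XT.nd (nat_lit 156) (nat_lit 1216) (nat_lit 0) (XT.nd (nat_lit 78) (nat_lit 684) (nat_lit 0) (XT.lf (nat_lit 0) (nat_lit 5464513666) (nat_lit 760) (nat_lit 548786736) (nat_lit 76) (nat_lit 2188977348) (nat_lit 305) (nat_lit 5) (nat_lit 315) (nat_lit 5) (nat_lit 306) (nat_lit 5) (nat_lit 579) (nat_lit 502) (nat_lit 479)) (XT.lf (nat_lit 0) (nat_lit 705841340) (nat_lit 684) (nat_lit 2408239416) (nat_lit 76) (nat_lit 5154104980) (nat_lit 296) (nat_lit 5) (nat_lit 305) (nat_lit 5) (nat_lit 297) (nat_lit 5) (nat_lit 580) (nat_lit 502) (nat_lit 478))) (XT.nd (nat_lit 78) (nat_lit 608) (nat_lit 0) (XT.lf (nat_lit 0) (nat_lit 4033093986) (nat_lit 608) (nat_lit 124403055) (nat_lit 684) (nat_lit 4178039045) (nat_lit 288) (nat_lit 5) (nat_lit 296)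 (nat_lit 5) (nat_lit 297) (nat_lit 5) (nat_lit 581) (nat_lit 502) (nat_lit 477)) (XT.lf (nat_lit 0) (nat_lit 2170252712) (nat_lit 608) (nat_lit 5503690040) (nat_lit 684) (nat_lit 730378372) (nat_lit 280) (nat_lit 5) (nat_lit 288) (nat_lit 5) (nat_lit 289) (nat_lit 5) (nat_lit 582) (nat_lit 502) (nat_lit 476))))))) (XT.nd (nat_lit 1092) (nat_lit 4560) (nat_lit 0) (XT.nd (nat_lit 546) (nat_lit 3040) (nat_lit 0) (XT.nd (nat_lit 234) (nat_lit 1672) (nat_lit 0) (XT.nd (nat_lit 78) (nat_lit 608) (nat_lit 0) (XT.lf (nat_lit 0) (nat_lit 269908297) (nat_lit 608) (nat_lit 2458070016) (nat_lit 684) (nat_lit 5746578761) (nat_lit 271) (nat_lit 5) (nat_lit 279) (nat_lit 5) (nat_lit 280) (nat_lit 5) (nat_lit 583) (nat_lit 502) (nat_lit 475)) (XT.nd (nat_lit 78) (nat_lit 608) (nat_lit 0) (XT.lf (nat_lit 0) (nat_lit 6239166760) (nat_lit 684) (nat_lit 1638031587) (nat_lit 76) (nat_lit 669036605) (nat_lit 271) (nat_lit 5) (nat_lit 280) (nat_lit 5) (nat_lit 272) (nat_lit 5) (nat_lit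 584) (nat_lit 502) (nat_lit 474)) (XT.lf (nat_lit 0) (nat_lit 1182605049) (nat_lit 608) (nat_lit 3587862472) (nat_lit 76) (nat_lit 3848782899) (nat_lit 263) (nat_lit 5) (nat_lit 271) (nat_lit 5) (nat_lit 264) (nat_lit 5) (nat_lit 585) (nat_lit 502) (nat_lit 473)))) (XT.nd (nat_lit 156) (nat_lit 608) (nat_lit 0) (XT.nd (nat_lit 78) (nat_lit 532) (nat_lit 0) (XT.lf (nat_lit 0) (nat_lit 3117800046) (nat_lit 532) (nat_lit 1573088036) (nat_lit 608) (nat_lit 4002941464) (nat_lit 256) (nat_lit 5) (nat_lit 263) (nat_lit 5) (nat_lit 264) (nat_lit 5) (nat_lit 586) (nat_lit 502) (nat_lit 472)) (XT.lf (nat_lit 0) (nat_lit 1169947207) (nat_lit 532) (nat_lit 7090986883) (nat_lit 608) (nat_lit 509136670) (nat_lit 249) (nat_lit 5) (nat_lit 256) (nat_lit 5) (nat_lit 257) (nat_lit 5) (nat_lit 587) (nat_lit 502) (nat_lit 471))) (XT.nd (nat_lit 78) (nat_lit 532) (nat_lit 0) (XT.lf (nat_lit 0) (nat_lit 3011578851) (nat_lit 608) (nat_lit 822438339) (nat_lit 76) (nat_lit 5013483413)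 (nat_lit 248) (nat_lit 5) (nat_lit 256) (nat_lit 5) (nat_lit 249) (nat_lit 5) (nat_lit 588) (nat_lit 502) (nat_lit 470)) (XT.lf (nat_lit 0) (nat_lit 6097516318) (nat_lit 532) (nat_lit 487982118) (nat_lit 608) (nat_lit 2341123470) (nat_lit 241) (nat_lit 5) (nat_lit 248) (nat_lit 5) (nat_lit 249) (nat_lit 5) (nat_lit 589) (nat_lit 502) (nat_lit 469))))) (XT.nd (nat_lit 234) (nat_lit 1520) (nat_lit 0) (XT.nd (nat_lit 78) (nat_lit 988) (nat_lit 0) (XT.lf (nat_lit 0) (nat_lit 1209270065) (nat_lit 532) (nat_lit 4890663019) (nat_lit 76) (nat_lit 2907200954) (nat_lit 234) (nat_lit 5) (nat_lit 241) (nat_lit 5) (nat_lit 235) (nat_lit 5) (nat_lit 590) (nat_lit 502) (nat_lit 468)) (XT.nd (nat_lit 78) (nat_lit 456) (nat_lit 0) (XT.lf (nat_lit 0) (nat_lit 2088480151) (nat_lit 532) (nat_lit 2697378207) (nat_lit 608) (nat_lit 4303360046) (nat_lit 227) (nat_lit 5) (nat_lit 234) (nat_lit 5) (nat_lit 235) (nat_lit 5) (nat_lit 591) (nat_lit 502) (nat_lit 467)) (XT.lf (nat_lit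 0) (nat_lit 25448732) (nat_lit 456) (nat_lit 8397731481) (nat_lit 532) (nat_lit 749982343) (nat_lit 221) (nat_lit 5) (nat_lit 227) (nat_lit 5) (nat_lit 228) (nat_lit 5) (nat_lit 592) (nat_lit 502) (nat_lit 466)))) (XT.nd (nat_lit 156) (nat_lit 988) (nat_lit 0) (XT.nd (nat_lit 78) (nat_lit 456) (nat_lit 0) (XT.lf (nat_lit 0) (nat_lit 2853077766) (nat_lit 532) (nat_lit 2078671811) (nat_lit 76) (nat_lit 4326338530) (nat_lit 220) (nat_lit 5) (nat_lit 227) (nat_lit 5) (nat_lit 221) (nat_lit 5) (nat_lit 593) (nat_lit 502) (nat_lit 465)) (XT.lf (nat_lit 0) (nat_lit 5124339307) (nat_lit 456) (nat_lit 1379215901) (nat_lit 532) (nat_lit 2841351857) (nat_lit 214) (nat_lit 5) (nat_lit 220) (nat_lit 5) (nat_lit 221) (nat_lit 5) (nat_lit 594) (nat_lit 502) (nat_lit 464))) (XT.nd (nat_lit 78) (nat_lit 456) (nat_lit 0) (XT.lf (nat_lit 0) (nat_lit 783870959) (nat_lit 532) (nat_lit 6417243528) (nat_lit 76) (nat_lit 2232232820) (nat_lit 207) (nat_lit 5) (nat_lit 214) (nat_lit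 5) (nat_lit 208) (nat_lit 5) (nat_lit 595) (nat_lit 502) (nat_lit 463)) (XT.lf (nat_lit 0) (nat_lit 844494639) (nat_lit 456) (nat_lit 3594853609) (nat_lit 532) (nat_lit 5083918459) (nat_lit 201) (nat_lit 5) (nat_lit 207) (nat_lit 5) (nat_lit 208) (nat_lit 5) (nat_lit 596) (nat_lit 502) (nat_lit 462)))))) (XT.nd (nat_lit 546) (nat_lit 2356) (nat_lit 0) (XT.nd (nat_lit 234) (nat_lit 1292) (nat_lit 0) (XT.nd (nat_lit 78) (nat_lit 912) (nat_lit 0) (XT.lf (nat_lit 0) (nat_lit 8164787140) (nat_lit 532) (nat_lit 1346998077) (nat_lit 76) (nat_lit 103264096) (nat_lit 201) (nat_lit 5) (nat_lit 208) (nat_lit 5) (nat_lit 202) (nat_lit 5) (nat_lit 597) (nat_lit 502) (nat_lit 461)) (XT.nd (nat_lit 78) (nat_lit 456) (nat_lit 0) (XT.lf (nat_lit 0) (nat_lit 2244009672) (nat_lit 456) (nat_lit 3604351472) (nat_lit 76) (nat_lit 3859664633) (nat_lit 195) (nat_lit 5) (nat_lit 201) (nat_lit 5) (nat_lit 196) (nat_lit 5) (nat_lit 598) (nat_lit 502) (nat_lit 460)) (XT.lf (nat_lit 0)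 (nat_lit 3891027609) (nat_lit 456) (nat_lit 2090138601) (nat_lit 532) (nat_lit 3821737224) (nat_lit 189) (nat_lit 5) (nat_lit 195) (nat_lit 5) (nat_lit 196) (nat_lit 5) (nat_lit 599) (nat_lit 502) (nat_lit 459)))) (XT.nd (nat_lit 156) (nat_lit 836) (nat_lit 0) (XT.nd (nat_lit 78) (nat_lit 76) (nat_lit 0) (XT.lf (nat_lit 0) (nat_lit 1626244840) (nat_lit 380) (nat_lit 8167386354) (nat_lit 456) (nat_lit 106037859) (nat_lit 184) (nat_lit 5) (nat_lit 189) (nat_lit 5) (nat_lit 190) (nat_lit 5) (nat_lit 600) (nat_lit 502) (nat_lit 458)) (XT.lf (nat_lit 0) (nat_lit 3643922439) (nat_lit 456) (nat_lit 710066289) (nat_lit 76) (nat_lit 5643739272) (nat_lit 183) (nat_lit 5) (nat_lit 189) (nat_lit 5) (nat_lit 184) (nat_lit 5) (nat_lit 601) (nat_lit 502) (nat_lit 457))) (XT.nd (nat_lit 78) (nat_lit 456) (nat_lit 0) (XT.lf (nat_lit 0) (nat_lit 7027661705) (nat_lit 380) (nat_lit 440808828) (nat_lit 456) (nat_lit 2629245027) (nat_lit 178) (nat_lit 5) (nat_lit 183) (nat_lit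 5) (nat_lit 184) (nat_lit 5) (nat_lit 602) (nat_lit 502) (nat_lit 456)) (XT.lf (nat_lit 0) (nat_lit 1168580148) (nat_lit 456) (nat_lit 5507037899) (nat_lit 76) (nat_lit 3523652160) (nat_lit 172) (nat_lit 5) (nat_lit 178) (nat_lit 5) (nat_lit 173) (nat_lit 5) (nat_lit 603) (nat_lit 502) (nat_lit 455))))) (XT.nd (nat_lit 312) (nat_lit 1140) (nat_lit 0) (XT.nd (nat_lit 156) (nat_lit 836) (nat_lit 0) (XT.nd (nat_lit 78) (nat_lit 0) (nat_lit 0) (XT.lf (nat_lit 0) (nat_lit 2289714964) (nat_lit 380) (nat_lit 2711791019) (nat_lit 456) (nat_lit 5301116910) (nat_lit 167) (nat_lit 5) (nat_lit 172) (nat_lit 5) (nat_lit 173) (nat_lit 5) (nat_lit 604) (nat_lit 502) (nat_lit 454)) (XT.lf (nat_lit 0) (nat_lit 8912990854) (nat_lit 456) (nat_lit 168187885) (nat_lit 76) (nat_lit 1326827377) (nat_lit 167) (nat_lit 5) (nat_lit 173) (nat_lit 5) (nat_lit 168) (nat_lit 5) (nat_lit 605) (nat_lit 502) (nat_lit 453))) (XT.nd (nat_lit 78) (nat_lit 380) (nat_lit 0) (XT.lf (nat_lit 0)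 (nat_lit 2381919091) (nat_lit 456) (nat_lit 2679914695) (nat_lit 76) (nat_lit 5452834282) (nat_lit 161) (nat_lit 5) (nat_lit 167) (nat_lit 5) (nat_lit 162) (nat_lit 5) (nat_lit 606) (nat_lit 502) (nat_lit 452)) (XT.lf (nat_lit 0) (nat_lit 5369282331) (nat_lit 380) (nat_lit 940149919) (nat_lit 456) (nat_lit 4313973609) (nat_lit 156) (nat_lit 5) (nat_lit 161) (nat_lit 5) (nat_lit 162) (nat_lit 5) (nat_lit 607) (nat_lit 502) (nat_lit 451)))) (XT.nd (nat_lit 156) (nat_lit 380) (nat_lit 0) (XT.nd (nat_lit 78) (nat_lit 456) (nat_lit 0) (XT.lf (nat_lit 0) (nat_lit 2829564607) (nat_lit 304) (nat_lit 7500883363) (nat_lit 380) (nat_lit 403572771) (nat_lit 152) (nat_lit 5) (nat_lit 156) (nat_lit 5) (nat_lit 157) (nat_lit 5) (nat_lit 608) (nat_lit 502) (nat_lit 450)) (XT.lf (nat_lit 0) (nat_lit 204768432) (nat_lit 380) (nat_lit 3333699577) (nat_lit 456) (nat_lit 7307906706) (nat_lit 146) (nat_lit 5) (nat_lit 151) (nat_lit 5) (nat_lit 152) (nat_lit 5) (nat_lit 609) (nat_lit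 502) (nat_lit 449))) (XT.nd (nat_lit 78) (nat_lit 380) (nat_lit 0) (XT.lf (nat_lit 0) (nat_lit 7570930690) (nat_lit 456) (nat_lit 2453983800) (nat_lit 76) (nat_lit 935669526) (nat_lit 146) (nat_lit 5) (nat_lit 152) (nat_lit 5) (nat_lit 147) (nat_lit 5) (nat_lit 610) (nat_lit 502) (nat_lit 448)) (XT.lf (nat_lit 0) (nat_lit 617880777) (nat_lit 380) (nat_lit 5195341904) (nat_lit 76) (nat_lit 5263399737) (nat_lit 141) (nat_lit 5) (nat_lit 146) (nat_lit 5) (nat_lit 142) (nat_lit 5) (nat_lit 611) (nat_lit 502) (nat_lit 447))))))))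
noncomputable def xc39 : XT := (XT.nd (nat_lit 2262) (nat_lit 1444) (nat_lit 0) (XT.nd (nat_lit 1092) (nat_lit 2888) (nat_lit 0) (XT.nd (nat_lit 546) (nat_lit 1520) (nat_lit 0) (XT.nd (nat_lit 234) (nat_lit 988) (nat_lit 0) (XT.nd (nat_lit 78) (nat_lit 380) (nat_lit 0) (XT.lf (nat_lit 0) (nat_lit 3173743636) (nat_lit 380) (nat_lit 1482231156) (nat_lit 456) (nat_lit 6538643976) (nat_lit 136) (nat_lit 5) (nat_lit 141) (nat_lit 5) (nat_lit 142) (nat_lit 5) (nat_lit 612) (nat_lit 502) (nat_lit 446)) (XT.nd (nat_lit 78) (nat_lit 76) (nat_lit 0) (XT.lf (nat_lit 0) (nat_lit 384714499) (nat_lit 304) (nat_lit 8405550591) (nat_lit 380) (nat_lit 2524402468) (nat_lit 132) (nat_lit 5) (nat_lit 136) (nat_lit 5) (nat_lit 137) (nat_lit 5) (nat_lit 613) (nat_lit 502) (nat_lit 445)) (XT.lf (nat_lit 0) (nat_lit 1572413835) (nat_lit 380) (nat_lit 2456769930) (nat_lit 76) (nat_lit 7407273182) (nat_lit 131) (nat_lit 5) (nat_lit 136) (nat_lit 5) (nat_lit 132) (nat_lit 5) (nat_lit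 614) (nat_lit 502) (nat_lit 444)))) (XT.nd (nat_lit 156) (nat_lit 380) (nat_lit 0) (XT.nd (nat_lit 78) (nat_lit 304) (nat_lit 0) (XT.lf (nat_lit 0) (nat_lit 5720270307) (nat_lit 380) (nat_lit 5379298419) (nat_lit 76) (nat_lit 460722693) (nat_lit 127) (nat_lit 5) (nat_lit 132) (nat_lit 5) (nat_lit 128) (nat_lit 5) (nat_lit 615) (nat_lit 502) (nat_lit 443)) (XT.lf (nat_lit 0) (nat_lit 3288500494) (nat_lit 304) (nat_lit 6687101014) (nat_lit 380) (nat_lit 1710511831) (nat_lit 123) (nat_lit 5) (nat_lit 127) (nat_lit 5) (nat_lit 128) (nat_lit 5) (nat_lit 616) (nat_lit 502) (nat_lit 442))) (XT.nd (nat_lit 78) (nat_lit 0) (nat_lit 0) (XT.lf (nat_lit 0) (nat_lit 309954575) (nat_lit 304) (nat_lit 2157155483) (nat_lit 380) (nat_lit 9347051244) (nat_lit 118) (nat_lit 5) (nat_lit 122) (nat_lit 5) (nat_lit 123) (nat_lit 5) (nat_lit 617) (nat_lit 502) (nat_lit 441)) (XT.lf (nat_lit 0) (nat_lit 6738288066) (nat_lit 380) (nat_lit 2732491721) (nat_lit 76) (nat_lit 2473107206)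 (nat_lit 118) (nat_lit 5) (nat_lit 123) (nat_lit 5) (nat_lit 119) (nat_lit 5) (nat_lit 618) (nat_lit 502) (nat_lit 440))))) (XT.nd (nat_lit 234) (nat_lit 912) (nat_lit 0) (XT.nd (nat_lit 78) (nat_lit 380) (nat_lit 0) (XT.lf (nat_lit 0) (nat_lit 6216551309) (nat_lit 228) (nat_lit 4893933616) (nat_lit 304) (nat_lit 965411392) (nat_lit 115) (nat_lit 5) (nat_lit 118) (nat_lit 5) (nat_lit 119) (nat_lit 5) (nat_lit 619) (nat_lit 502) (nat_lit 439)) (XT.nd (nat_lit 78) (nat_lit 0) (nat_lit 0) (XT.lf (nat_lit 0) (nat_lit 3125046701) (nat_lit 304) (nat_lit 190253867) (nat_lit 380) (nat_lit 8894814351) (nat_lit 110) (nat_lit 5) (nat_lit 114) (nat_lit 5) (nat_lit 115) (nat_lit 5) (nat_lit 620) (nat_lit 502) (nat_lit 438)) (XT.lf (nat_lit 0) (nat_lit 7699411646) (nat_lit 380) (nat_lit 79861219) (nat_lit 76) (nat_lit 4567004134) (nat_lit 110) (nat_lit 5) (nat_lit 115) (nat_lit 5) (nat_lit 111) (nat_lit 5) (nat_lit 621) (nat_lit 502) (nat_lit 437)))) (XT.nd (nat_lit 156)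 (nat_lit 304) (nat_lit 0) (XT.nd (nat_lit 78) (nat_lit 380) (nat_lit 0) (XT.lf (nat_lit 0) (nat_lit 9159999382) (nat_lit 228) (nat_lit 3033904027) (nat_lit 304) (nat_lit 290805889) (nat_lit 107) (nat_lit 5) (nat_lit 110) (nat_lit 5) (nat_lit 111) (nat_lit 5) (nat_lit 622) (nat_lit 502) (nat_lit 436)) (XT.lf (nat_lit 0) (nat_lit 4111103618) (nat_lit 380) (nat_lit 6690884465) (nat_lit 76) (nat_lit 1823120112) (nat_lit 102) (nat_lit 5) (nat_lit 107) (nat_lit 5) (nat_lit 103) (nat_lit 5) (nat_lit 623) (nat_lit 502) (nat_lit 435))) (XT.nd (nat_lit 78) (nat_lit 76) (nat_lit 0) (XT.lf (nat_lit 0) (nat_lit 2602940596) (nat_lit 228) (nat_lit 6015874481) (nat_lit 304) (nat_lit 4149029290) (nat_lit 99) (nat_lit 5) (nat_lit 102) (nat_lit 5) (nat_lit 103) (nat_lit 5) (nat_lit 624) (nat_lit 502) (nat_lit 434)) (XT.lf (nat_lit 0) (nat_lit 306744331) (nat_lit 304) (nat_lit 806108253) (nat_lit 76) (nat_lit 11800394640) (nat_lit 98) (nat_lit 5) (nat_lit 102) (nat_lit 5) (nat_lit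 99) (nat_lit 5) (nat_lit 625) (nat_lit 502) (nat_lit 433)))))) (XT.nd (nat_lit 546) (nat_lit 1292) (nat_lit 0) (XT.nd (nat_lit 234) (nat_lit 760) (nat_lit 0) (XT.nd (nat_lit 78) (nat_lit 532) (nat_lit 0) (XT.lf (nat_lit 0) (nat_lit 4841682494) (nat_lit 380) (nat_lit 4322292572) (nat_lit 76) (nat_lit 3896123320) (nat_lit 94) (nat_lit 5) (nat_lit 99) (nat_lit 5) (nat_lit 95) (nat_lit 5) (nat_lit 626) (nat_lit 502) (nat_lit 432)) (XT.nd (nat_lit 78) (nat_lit 304) (nat_lit 0) (XT.lf (nat_lit 0) (nat_lit 5271961250) (nat_lit 228) (nat_lit 4205566853) (nat_lit 304) (nat_lit 3732155122) (nat_lit 91) (nat_lit 5) (nat_lit 94) (nat_lit 5) (nat_lit 95) (nat_lit 5) (nat_lit 627) (nat_lit 502) (nat_lit 431)) (XT.lf (nat_lit 0) (nat_lit 841946324) (nat_lit 304) (nat_lit 11659593108) (nat_lit 76) (nat_lit 860427898) (nat_lit 87) (nat_lit 5) (nat_lit 91) (nat_lit 5) (nat_lit 88) (nat_lit 5) (nat_lit 628) (nat_lit 502) (nat_lit 430)))) (XT.nd (nat_lit 156) (nat_lit 532) (nat_lit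 0) (XT.nd (nat_lit 78) (nat_lit 228) (nat_lit 0) (XT.lf (nat_lit 0) (nat_lit 5502445039) (nat_lit 304) (nat_lit 1990014021) (nat_lit 76) (nat_lit 6023447668) (nat_lit 87) (nat_lit 5) (nat_lit 91) (nat_lit 5) (nat_lit 88) (nat_lit 5) (nat_lit 629) (nat_lit 502) (nat_lit 429)) (XT.lf (nat_lit 0) (nat_lit 7914271352) (nat_lit 228) (nat_lit 2357356875) (nat_lit 304) (nat_lit 3400987959) (nat_lit 84) (nat_lit 5) (nat_lit 87) (nat_lit 5) (nat_lit 88) (nat_lit 5) (nat_lit 630) (nat_lit 502) (nat_lit 428))) (XT.nd (nat_lit 78) (nat_lit 228) (nat_lit 0) (XT.lf (nat_lit 0) (nat_lit 1310326200) (nat_lit 304) (nat_lit 9655702442) (nat_lit 76) (nat_lit 2865788837) (nat_lit 80) (nat_lit 5) (nat_lit 84) (nat_lit 5) (nat_lit 81) (nat_lit 5) (nat_lit 631) (nat_lit 502) (nat_lit 427)) (XT.lf (nat_lit 0) (nat_lit 296714935) (nat_lit 228) (nat_lit 5794371714) (nat_lit 304) (nat_lit 7902252072) (nat_lit 77) (nat_lit 5) (nat_lit 80) (nat_lit 5) (nat_lit 81) (nat_lit 5) (nat_lit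 632) (nat_lit 502) (nat_lit 426))))) (XT.nd (nat_lit 312) (nat_lit 760) (nat_lit 0) (XT.nd (nat_lit 156) (nat_lit 228) (nat_lit 0) (XT.nd (nat_lit 78) (nat_lit 304) (nat_lit 0) (XT.lf (nat_lit 0) (nat_lit 10516802674) (nat_lit 228) (nat_lit 480031725) (nat_lit 304) (nat_lit 3160669251) (nat_lit 77) (nat_lit 5) (nat_lit 80) (nat_lit 5) (nat_lit 81) (nat_lit 5) (nat_lit 633) (nat_lit 502) (nat_lit 425)) (XT.lf (nat_lit 0) (nat_lit 1694123396) (nat_lit 304) (nat_lit 7725917563) (nat_lit 76) (nat_lit 4903886879) (nat_lit 73) (nat_lit 5) (nat_lit 77) (nat_lit 5) (nat_lit 74) (nat_lit 5) (nat_lit 634) (nat_lit 502) (nat_lit 424))) (XT.nd (nat_lit 78) (nat_lit 0) (nat_lit 0) (XT.lf (nat_lit 0) (nat_lit 2545136279) (nat_lit 228) (nat_lit 4068048625) (nat_lit 304) (nat_lit 7879888540) (nat_lit 70) (nat_lit 5) (nat_lit 73) (nat_lit 5) (nat_lit 74) (nat_lit 5) (nat_lit 635) (nat_lit 502) (nat_lit 423)) (XT.lf (nat_lit 0) (nat_lit 11657117978) (nat_lit 304) (nat_lit 1609340536)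 (nat_lit 76) (nat_lit 1398614293) (nat_lit 70) (nat_lit 5) (nat_lit 74) (nat_lit 5) (nat_lit 71) (nat_lit 5) (nat_lit 636) (nat_lit 502) (nat_lit 422)))) (XT.nd (nat_lit 156) (nat_lit 304) (nat_lit 0) (XT.nd (nat_lit 78) (nat_lit 152) (nat_lit 0) (XT.lf (nat_lit 0) (nat_lit 1987137751) (nat_lit 304) (nat_lit 5886412357) (nat_lit 76) (nat_lit 6965679087) (nat_lit 66) (nat_lit 5) (nat_lit 70) (nat_lit 5) (nat_lit 67) (nat_lit 5) (nat_lit 637) (nat_lit 502) (nat_lit 421)) (XT.lf (nat_lit 0) (nat_lit 4712612082) (nat_lit 152) (nat_lit 2336754415) (nat_lit 228) (nat_lit 7966954960) (nat_lit 64) (nat_lit 5) (nat_lit 66) (nat_lit 5) (nat_lit 67) (nat_lit 5) (nat_lit 638) (nat_lit 502) (nat_lit 420))) (XT.nd (nat_lit 78) (nat_lit 76) (nat_lit 0) (XT.lf (nat_lit 0) (nat_lit 329115191) (nat_lit 228) (nat_lit 11913228470) (nat_lit 304) (nat_lit 2954022426) (nat_lit 61) (nat_lit 5) (nat_lit 64) (nat_lit 5) (nat_lit 65) (nat_lit 5) (nat_lit 639) (nat_lit 502) (nat_lit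 419)) (XT.lf (nat_lit 0) (nat_lit 2182085894) (nat_lit 304) (nat_lit 4155053103) (nat_lit 76) (nat_lit 9041568116) (nat_lit 60) (nat_lit 5) (nat_lit 64) (nat_lit 5) (nat_lit 61) (nat_lit 5) (nat_lit 640) (nat_lit 502) (nat_lit 418))))))) (XT.nd (nat_lit 74880) (nat_lit 0) (nat_lit 22876) (XT.nd (nat_lit 546) (nat_lit 380) (nat_lit 0) (XT.nd (nat_lit 234) (nat_lit 608) (nat_lit 0) (XT.nd (nat_lit 78) (nat_lit 304) (nat_lit 0) (XT.lf (nat_lit 0) (nat_lit 6781215141) (nat_lit 152) (nat_lit 611034172) (nat_lit 228) (nat_lit 8171837945) (nat_lit 58) (nat_lit 5) (nat_lit 60) (nat_lit 5) (nat_lit 61) (nat_lit 5) (nat_lit 641) (nat_lit 502) (nat_lit 417)) (XT.nd (nat_lit 78) (nat_lit 76) (nat_lit 0) (XT.lf (nat_lit 0) (nat_lit 2174652627) (nat_lit 228) (nat_lit 10575022137) (nat_lit 304) (nat_lit 3002639623) (nat_lit 55) (nat_lit 5) (nat_lit 58) (nat_lit 5) (nat_lit 59) (nat_lit 5) (nat_lit 642) (nat_lit 502) (nat_lit 416)) (XT.lf (nat_lit 0) (nat_lit 2270510885)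 (nat_lit 304) (nat_lit 2551611263) (nat_lit 76) (nat_lit 11121282905) (nat_lit 54) (nat_lit 5) (nat_lit 58) (nat_lit 5) (nat_lit 55) (nat_lit 5) (nat_lit 643) (nat_lit 502) (nat_lit 415)))) (XT.nd (nat_lit 156) (nat_lit 228) (nat_lit 0) (XT.nd (nat_lit 78) (nat_lit 228) (nat_lit 0) (XT.lf (nat_lit 0) (nat_lit 7640384285) (nat_lit 228) (nat_lit 7413498045) (nat_lit 76) (nat_lit 1083409473) (nat_lit 52) (nat_lit 5) (nat_lit 55) (nat_lit 5) (nat_lit 53) (nat_lit 5) (nat_lit 644) (nat_lit 502) (nat_lit 414)) (XT.lf (nat_lit 0) (nat_lit 3884873693) (nat_lit 228) (nat_lit 9274876118) (nat_lit 304) (nat_lit 3174465097) (nat_lit 49) (nat_lit 5) (nat_lit 52) (nat_lit 5) (nat_lit 53) (nat_lit 5) (nat_lit 645) (nat_lit 502) (nat_lit 413))) (XT.nd (nat_lit 78) (nat_lit 152) (nat_lit 0) (XT.lf (nat_lit 0) (nat_lit 2242680327) (nat_lit 304) (nat_lit 1097996940) (nat_lit 76) (nat_lit 13193750530) (nat_lit 48) (nat_lit 5) (nat_lit 52) (nat_lit 5) (nat_lit 49) (nat_lit 5)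 (nat_lit 646) (nat_lit 502) (nat_lit 412)) (XT.lf (nat_lit 0) (nat_lit 7780545259) (nat_lit 228) (nat_lit 6215439724) (nat_lit 76) (nat_lit 2741143125) (nat_lit 46) (nat_lit 5) (nat_lit 49) (nat_lit 5) (nat_lit 47) (nat_lit 5) (nat_lit 647) (nat_lit 502) (nat_lit 411))))) (XT.nd (nat_lit 74022) (nat_lit 0) (nat_lit 32604) (XT.nd (nat_lit 73866) (nat_lit 0) (nat_lit 38000) (XT.nd (nat_lit 78) (nat_lit 228) (nat_lit 0) (XT.lf (nat_lit 0) (nat_lit 5436457694) (nat_lit 152) (nat_lit 8026005415) (nat_lit 228) (nat_lit 3480753880) (nat_lit 44) (nat_lit 5) (nat_lit 46) (nat_lit 5) (nat_lit 47) (nat_lit 5) (nat_lit 648) (nat_lit 502) (nat_lit 410)) (XT.lf (nat_lit 0) (nat_lit 183896540) (nat_lit 152) (nat_lit 1904769340) (nat_lit 228) (nat_lit 15064255408) (nat_lit 41) (nat_lit 5) (nat_lit 43) (nat_lit 5) (nat_lit 44) (nat_lit 5) (nat_lit 649) (nat_lit 502) (nat_lit 409))) (XT.nd (nat_lit 78) (nat_lit 1596) (nat_lit 0) (XT.lf (nat_lit 0) (nat_lit 1698015458) (nat_lit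 1596) (nat_lit 100881218) (nat_lit 0) (nat_lit 1698015458) (nat_lit 562) (nat_lit 5) (nat_lit 583) (nat_lit 4) (nat_lit 562) (nat_lit 4) (nat_lit 554) (nat_lit 503) (nat_lit 503)) (XT.lf (nat_lit 0) (nat_lit 4929663995) (nat_lit 1596) (nat_lit 1968239570) (nat_lit 1596) (nat_lit 129150769) (nat_lit 541) (nat_lit 4) (nat_lit 562) (nat_lit 5) (nat_lit 562) (nat_lit 4) (nat_lit 555) (nat_lit 503) (nat_lit 502)))) (XT.nd (nat_lit 156) (nat_lit 1900) (nat_lit 0) (XT.nd (nat_lit 78) (nat_lit 1748) (nat_lit 0) (XT.lf (nat_lit 0) (nat_lit 3055588429) (nat_lit 1672) (nat_lit 260107345) (nat_lit 1748) (nat_lit 3745785543) (nat_lit 518) (nat_lit 5) (nat_lit 540) (nat_lit 5) (nat_lit 541) (nat_lit 4) (nat_lit 556) (nat_lit 503) (nat_lit 501)) (XT.lf (nat_lit 0) (nat_lit 1179825061) (nat_lit 1748) (nat_lit 5610611618) (nat_lit 1748) (nat_lit 306894189) (nat_lit 495) (nat_lit 4) (nat_lit 518) (nat_lit 5) (nat_lit 518) (nat_lit 4) (nat_lit 557) (nat_lit 503) (nat_lit 500)))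 (XT.nd (nat_lit 78) (nat_lit 1824) (nat_lit 0) (XT.lf (nat_lit 0) (nat_lit 3119301366) (nat_lit 1824) (nat_lit 701762445) (nat_lit 76) (nat_lit 3313213280) (nat_lit 494) (nat_lit 5) (nat_lit 518) (nat_lit 5) (nat_lit 495) (nat_lit 4) (nat_lit 558) (nat_lit 503) (nat_lit 499)) (XT.lf (nat_lit 0) (nat_lit 4608788034) (nat_lit 1824) (nat_lit 1964112276) (nat_lit 1900) (nat_lit 599766891) (nat_lit 470) (nat_lit 5) (nat_lit 494) (nat_lit 5) (nat_lit 495) (nat_lit 4) (nat_lit 559) (nat_lit 503) (nat_lit 498)))))) (XT.nd (nat_lit 546) (nat_lit 4864) (nat_lit 0) (XT.nd (nat_lit 234) (nat_lit 2736) (nat_lit 0) (XT.nd (nat_lit 78) (nat_lit 988) (nat_lit 0) (XT.lf (nat_lit 0) (nat_lit 2772577118) (nat_lit 1064) (nat_lit 29583371) (nat_lit 1140) (nat_lit 4410170561) (nat_lit 455) (nat_lit 5) (nat_lit 469) (nat_lit 5) (nat_lit 470) (nat_lit 5) (nat_lit 560) (nat_lit 503) (nat_lit 497)) (XT.nd (nat_lit 78) (nat_lit 76) (nat_lit 0) (XT.lf (nat_lit 0) (nat_lit 924273338)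 (nat_lit 912) (nat_lit 5310110809) (nat_lit 988) (nat_lit 1018923971) (nat_lit 443) (nat_lit 5) (nat_lit 455) (nat_lit 5) (nat_lit 456) (nat_lit 4) (nat_lit 561) (nat_lit 503) (nat_lit 496)) (XT.lf (nat_lit 0) (nat_lit 2373079575) (nat_lit 988) (nat_lit 924614455) (nat_lit 76) (nat_lit 3997799944) (nat_lit 442) (nat_lit 5) (nat_lit 455) (nat_lit 5) (nat_lit 443) (nat_lit 5) (nat_lit 562) (nat_lit 503) (nat_lit 495)))) (XT.nd (nat_lit 156) (nat_lit 912) (nat_lit 0) (XT.nd (nat_lit 78) (nat_lit 912) (nat_lit 0) (XT.lf (nat_lit 0) (nat_lit 4572853068) (nat_lit 912) (nat_lit 1212157611) (nat_lit 988) (nat_lit 1554068265) (nat_lit 430) (nat_lit 5) (nat_lit 442) (nat_lit 5) (nat_lit 443) (nat_lit 5) (nat_lit 563) (nat_lit 503) (nat_lit 494)) (XT.lf (nat_lit 0) (nat_lit 1823731679) (nat_lit 912) (nat_lit 4625506784) (nat_lit 76) (nat_lit 934722045) (nat_lit 418) (nat_lit 5) (nat_lit 430) (nat_lit 5) (nat_lit 419) (nat_lit 5) (nat_lit 564) (nat_lit 503) (nat_lit 493)))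 (XT.nd (nat_lit 78) (nat_lit 76) (nat_lit 0) (XT.lf (nat_lit 0) (nat_lit 926017544) (nat_lit 836) (nat_lit 4292193974) (nat_lit 912) (nat_lit 2211928523) (nat_lit 407) (nat_lit 5) (nat_lit 418) (nat_lit 5) (nat_lit 419) (nat_lit 5) (nat_lit 565) (nat_lit 503) (nat_lit 492)) (XT.lf (nat_lit 0) (nat_lit 1156357384) (nat_lit 912) (nat_lit 903186170) (nat_lit 76) (nat_lit 5418171592) (nat_lit 406) (nat_lit 5) (nat_lit 418) (nat_lit 5) (nat_lit 407) (nat_lit 5) (nat_lit 566) (nat_lit 503) (nat_lit 491))))) (XT.nd (nat_lit 312) (nat_lit 2356) (nat_lit 0) (XT.nd (nat_lit 156) (nat_lit 760) (nat_lit 0) (XT.nd (nat_lit 78) (nat_lit 912) (nat_lit 0) (XT.lf (nat_lit 0) (nat_lit 4533966171) (nat_lit 912) (nat_lit 2738738663) (nat_lit 76) (nat_lit 253817191) (nat_lit 395) (nat_lit 5) (nat_lit 407) (nat_lit 5) (nat_lit 396) (nat_lit 5) (nat_lit 567) (nat_lit 503) (nat_lit 490)) (XT.lf (nat_lit 0) (nat_lit 376004620) (nat_lit 912) (nat_lit 4594273527) (nat_lit 76) (nat_lit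 2606409300) (nat_lit 383) (nat_lit 5) (nat_lit 395) (nat_lit 5) (nat_lit 384) (nat_lit 5) (nat_lit 568) (nat_lit 503) (nat_lit 489))) (XT.nd (nat_lit 78) (nat_lit 0) (nat_lit 0) (XT.lf (nat_lit 0) (nat_lit 1153299740) (nat_lit 760) (nat_lit 2584423110) (nat_lit 836) (nat_lit 3890424518) (nat_lit 373) (nat_lit 5) (nat_lit 383) (nat_lit 5) (nat_lit 384) (nat_lit 5) (nat_lit 569) (nat_lit 503) (nat_lit 488)) (XT.lf (nat_lit 0) (nat_lit 7009047070) (nat_lit 760) (nat_lit 129021138) (nat_lit 836) (nat_lit 543144294) (nat_lit 373) (nat_lit 5) (nat_lit 383) (nat_lit 5) (nat_lit 384) (nat_lit 5) (nat_lit 570) (nat_lit 503) (nat_lit 487)))) (XT.nd (nat_lit 156) (nat_lit 836) (nat_lit 0) (XT.nd (nat_lit 78) (nat_lit 684) (nat_lit 0) (XT.lf (nat_lit 0) (nat_lit 2824416786) (nat_lit 836) (nat_lit 2523159436) (nat_lit 76) (nat_lit 2387573814) (nat_lit 362) (nat_lit 5) (nat_lit 373) (nat_lit 5) (nat_lit 363) (nat_lit 5) (nat_lit 571) (nat_lit 503) (nat_lit 486)) (XT.lf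 (nat_lit 0) (nat_lit 3403896440) (nat_lit 684) (nat_lit 2817643619) (nat_lit 760) (nat_lit 1569168429) (nat_lit 353) (nat_lit 5) (nat_lit 362) (nat_lit 5) (nat_lit 363) (nat_lit 5) (nat_lit 572) (nat_lit 503) (nat_lit 485))) (XT.nd (nat_lit 78) (nat_lit 0) (nat_lit 0) (XT.lf (nat_lit 0) (nat_lit 1575824014) (nat_lit 760) (nat_lit 208847204) (nat_lit 836) (nat_lit 6063080258) (nat_lit 342) (nat_lit 5) (nat_lit 352) (nat_lit 5) (nat_lit 353) (nat_lit 5) (nat_lit 573) (nat_lit 503) (nat_lit 484)) (XT.lf (nat_lit 0) (nat_lit 5173045882) (nat_lit 836) (nat_lit 284732041) (nat_lit 76) (nat_lit 2448184005) (nat_lit 342) (nat_lit 5) (nat_lit 353) (nat_lit 5) (nat_lit 343) (nat_lit 5) (nat_lit 574) (nat_lit 503) (nat_lit 483))))))))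
noncomputable def xc40 : XT := (XT.nd (nat_lit 2262) (nat_lit 6992) (nat_lit 0) (XT.nd (nat_lit 1092) (nat_lit 5776) (nat_lit 0) (XT.nd (nat_lit 546) (nat_lit 3040) (nat_lit 0) (XT.nd (nat_lit 234) (nat_lit 2052) (nat_lit 0) (XT.nd (nat_lit 78) (nat_lit 1292) (nat_lit 0) (XT.lf (nat_lit 0) (nat_lit 638272592) (nat_lit 760) (nat_lit 2141288547) (nat_lit 76) (nat_lit 5186029993) (nat_lit 332) (nat_lit 5) (nat_lit 342) (nat_lit 5) (nat_lit 333) (nat_lit 5) (nat_lit 575) (nat_lit 503) (nat_lit 482)) (XT.nd (nat_lit 78) (nat_lit 608) (nat_lit 0) (XT.lf (nat_lit 0) (nat_lit 3998357546) (nat_lit 684) (nat_lit 14152159) (nat_lit 760) (nat_lit 4014100792) (nat_lit 323) (nat_lit 5) (nat_lit 332) (nat_lit 5) (nat_lit 333) (nat_lit 5) (nat_lit 576) (nat_lit 503) (nat_lit 481)) (XT.lf (nat_lit 0) (nat_lit 2141492226) (nat_lit 608) (nat_lit 5304190461) (nat_lit 684) (nat_lit 643341712) (nat_lit 315) (nat_lit 5) (nat_lit 323) (nat_lit 5) (nat_lit 324) (nat_lit 5) (nat_lit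 577) (nat_lit 503) (nat_lit 480)))) (XT.nd (nat_lit 156) (nat_lit 1292) (nat_lit 0) (XT.nd (nat_lit 78) (nat_lit 0) (nat_lit 0) (XT.lf (nat_lit 0) (nat_lit 252168183) (nat_lit 684) (nat_lit 2480080657) (nat_lit 760) (nat_lit 5420596451) (nat_lit 305) (nat_lit 5) (nat_lit 314) (nat_lit 5) (nat_lit 315) (nat_lit 5) (nat_lit 578) (nat_lit 503) (nat_lit 479)) (XT.lf (nat_lit 0) (nat_lit 6155177559) (nat_lit 760) (nat_lit 1638128026) (nat_lit 76) (nat_lit 424786141) (nat_lit 305) (nat_lit 5) (nat_lit 315) (nat_lit 5) (nat_lit 306) (nat_lit 5) (nat_lit 579) (nat_lit 503) (nat_lit 478))) (XT.nd (nat_lit 78) (nat_lit 608) (nat_lit 0) (XT.lf (nat_lit 0) (nat_lit 1337849072) (nat_lit 684) (nat_lit 3567299519) (nat_lit 76) (nat_lit 3379444741) (nat_lit 296) (nat_lit 5) (nat_lit 305) (nat_lit 5) (nat_lit 297) (nat_lit 5) (nat_lit 580) (nat_lit 503) (nat_lit 477)) (XT.lf (nat_lit 0) (nat_lit 2823909904) (nat_lit 608) (nat_lit 1931491862) (nat_lit 684) (nat_lit 3597225372)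 (nat_lit 288) (nat_lit 5) (nat_lit 296) (nat_lit 5) (nat_lit 297) (nat_lit 5) (nat_lit 581) (nat_lit 503) (nat_lit 476))))) (XT.nd (nat_lit 234) (nat_lit 1748) (nat_lit 0) (XT.nd (nat_lit 78) (nat_lit 684) (nat_lit 0) (XT.lf (nat_lit 0) (nat_lit 904603230) (nat_lit 608) (nat_lit 7321283079) (nat_lit 684) (nat_lit 196446457) (nat_lit 280) (nat_lit 5) (nat_lit 288) (nat_lit 5) (nat_lit 289) (nat_lit 5) (nat_lit 582) (nat_lit 503) (nat_lit 475)) (XT.nd (nat_lit 78) (nat_lit 608) (nat_lit 0) (XT.lf (nat_lit 0) (nat_lit 3227260044) (nat_lit 684) (nat_lit 1055385732) (nat_lit 76) (nat_lit 4210407872) (nat_lit 279) (nat_lit 5) (nat_lit 288) (nat_lit 5) (nat_lit 280) (nat_lit 5) (nat_lit 583) (nat_lit 503) (nat_lit 474)) (XT.lf (nat_lit 0) (nat_lit 5538974838) (nat_lit 608) (nat_lit 1162518032) (nat_lit 684) (nat_lit 1863979058) (nat_lit 271) (nat_lit 5) (nat_lit 279) (nat_lit 5) (nat_lit 280) (nat_lit 5) (nat_lit 584) (nat_lit 503) (nat_lit 473)))) (XT.nd (nat_lit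 156) (nat_lit 608) (nat_lit 0) (XT.nd (nat_lit 78) (nat_lit 532) (nat_lit 0) (XT.lf (nat_lit 0) (nat_lit 1577581311) (nat_lit 608) (nat_lit 5044434719) (nat_lit 76) (nat_lit 2017261101) (nat_lit 263) (nat_lit 5) (nat_lit 271) (nat_lit 5) (nat_lit 264) (nat_lit 5) (nat_lit 585) (nat_lit 503) (nat_lit 472)) (XT.lf (nat_lit 0) (nat_lit 1607134161) (nat_lit 532) (nat_lit 3443864385) (nat_lit 608) (nat_lit 3663556242) (nat_lit 256) (nat_lit 5) (nat_lit 263) (nat_lit 5) (nat_lit 264) (nat_lit 5) (nat_lit 586) (nat_lit 503) (nat_lit 471))) (XT.nd (nat_lit 78) (nat_lit 608) (nat_lit 0) (XT.lf (nat_lit 0) (nat_lit 8391321050) (nat_lit 532) (nat_lit 186343462) (nat_lit 608) (nat_lit 214000282) (nat_lit 256) (nat_lit 5) (nat_lit 263) (nat_lit 5) (nat_lit 264) (nat_lit 5) (nat_lit 587) (nat_lit 503) (nat_lit 470)) (XT.lf (nat_lit 0) (nat_lit 3274236591) (nat_lit 608) (nat_lit 2454980578) (nat_lit 76) (nat_lit 3140412445) (nat_lit 248) (nat_lit 5) (nat_lit 256) (nat_lit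 5) (nat_lit 249) (nat_lit 5) (nat_lit 588) (nat_lit 503) (nat_lit 469)))))) (XT.nd (nat_lit 546) (nat_lit 2660) (nat_lit 0) (XT.nd (nat_lit 234) (nat_lit 1520) (nat_lit 0) (XT.nd (nat_lit 78) (nat_lit 1064) (nat_lit 0) (XT.lf (nat_lit 0) (nat_lit 4408910747) (nat_lit 532) (nat_lit 2404020379) (nat_lit 608) (nat_lit 2136525413) (nat_lit 241) (nat_lit 5) (nat_lit 248) (nat_lit 5) (nat_lit 249) (nat_lit 5) (nat_lit 589) (nat_lit 503) (nat_lit 468)) (XT.nd (nat_lit 78) (nat_lit 532) (nat_lit 0) (XT.lf (nat_lit 0) (nat_lit 1362956710) (nat_lit 532) (nat_lit 6671612314) (nat_lit 76) (nat_lit 996338720) (nat_lit 234) (nat_lit 5) (nat_lit 241) (nat_lit 5) (nat_lit 235) (nat_lit 5) (nat_lit 590) (nat_lit 503) (nat_lit 467)) (XT.lf (nat_lit 0) (nat_lit 249201028) (nat_lit 532) (nat_lit 4654427802) (nat_lit 608) (nat_lit 4210082660) (nat_lit 227) (nat_lit 5) (nat_lit 234) (nat_lit 5) (nat_lit 235) (nat_lit 5) (nat_lit 591) (nat_lit 503) (nat_lit 466)))) (XT.nd (nat_lit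 156) (nat_lit 988) (nat_lit 0) (XT.nd (nat_lit 78) (nat_lit 532) (nat_lit 0) (XT.lf (nat_lit 0) (nat_lit 7330221845) (nat_lit 532) (nat_lit 1181738275) (nat_lit 608) (nat_lit 686276370) (nat_lit 227) (nat_lit 5) (nat_lit 234) (nat_lit 5) (nat_lit 235) (nat_lit 5) (nat_lit 592) (nat_lit 503) (nat_lit 465)) (XT.lf (nat_lit 0) (nat_lit 2872200873) (nat_lit 532) (nat_lit 4049420439) (nat_lit 76) (nat_lit 2362408399) (nat_lit 220) (nat_lit 5) (nat_lit 227) (nat_lit 5) (nat_lit 221) (nat_lit 5) (nat_lit 593) (nat_lit 503) (nat_lit 464))) (XT.nd (nat_lit 78) (nat_lit 532) (nat_lit 0) (XT.lf (nat_lit 0) (nat_lit 3093146326) (nat_lit 456) (nat_lit 3393105152) (nat_lit 532) (nat_lit 2885326705) (nat_lit 214) (nat_lit 5) (nat_lit 220) (nat_lit 5) (nat_lit 221) (nat_lit 5) (nat_lit 594) (nat_lit 503) (nat_lit 463)) (XT.lf (nat_lit 0) (nat_lit 690320323) (nat_lit 532) (nat_lit 8550685611) (nat_lit 76) (nat_lit 220022190) (nat_lit 207) (nat_lit 5) (nat_lit 214) (nat_lit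 5) (nat_lit 208) (nat_lit 5) (nat_lit 595) (nat_lit 503) (nat_lit 462))))) (XT.nd (nat_lit 312) (nat_lit 1292) (nat_lit 0) (XT.nd (nat_lit 156) (nat_lit 912) (nat_lit 0) (XT.nd (nat_lit 78) (nat_lit 456) (nat_lit 0) (XT.lf (nat_lit 0) (nat_lit 4317325590) (nat_lit 532) (nat_lit 1334080832) (nat_lit 76) (nat_lit 3900111463) (nat_lit 207) (nat_lit 5) (nat_lit 214) (nat_lit 5) (nat_lit 208) (nat_lit 5) (nat_lit 596) (nat_lit 503) (nat_lit 461)) (XT.lf (nat_lit 0) (nat_lit 6038605865) (nat_lit 456) (nat_lit 1971944491) (nat_lit 532) (nat_lit 1633395320) (nat_lit 201) (nat_lit 5) (nat_lit 207) (nat_lit 5) (nat_lit 208) (nat_lit 5) (nat_lit 597) (nat_lit 503) (nat_lit 460))) (XT.nd (nat_lit 78) (nat_lit 456) (nat_lit 0) (XT.lf (nat_lit 0) (nat_lit 2012765834) (nat_lit 456) (nat_lit 5942104212) (nat_lit 76) (nat_lit 1783086993) (nat_lit 195) (nat_lit 5) (nat_lit 201) (nat_lit 5) (nat_lit 196) (nat_lit 5) (nat_lit 598) (nat_lit 503) (nat_lit 459)) (XT.lf (nat_lit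 0) (nat_lit 1488137090) (nat_lit 456) (nat_lit 4223876828) (nat_lit 532) (nat_lit 4121579795) (nat_lit 189) (nat_lit 5) (nat_lit 195) (nat_lit 5) (nat_lit 196) (nat_lit 5) (nat_lit 599) (nat_lit 503) (nat_lit 458)))) (XT.nd (nat_lit 156) (nat_lit 836) (nat_lit 0) (XT.nd (nat_lit 78) (nat_lit 456) (nat_lit 0) (XT.lf (nat_lit 0) (nat_lit 9080057500) (nat_lit 456) (nat_lit 400448846) (nat_lit 532) (nat_lit 450733272) (nat_lit 189) (nat_lit 5) (nat_lit 195) (nat_lit 5) (nat_lit 196) (nat_lit 5) (nat_lit 600) (nat_lit 503) (nat_lit 457)) (XT.lf (nat_lit 0) (nat_lit 3273421151) (nat_lit 456) (nat_lit 3259456032) (nat_lit 76) (nat_lit 3497073476) (nat_lit 183) (nat_lit 5) (nat_lit 189) (nat_lit 5) (nat_lit 184) (nat_lit 5) (nat_lit 601) (nat_lit 503) (nat_lit 456))) (XT.nd (nat_lit 78) (nat_lit 456) (nat_lit 0) (XT.lf (nat_lit 0) (nat_lit 4410771056) (nat_lit 380) (nat_lit 2648551060) (nat_lit 456) (nat_lit 3071389829) (nat_lit 178) (nat_lit 5) (nat_lit 183) (nat_lit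 5) (nat_lit 184) (nat_lit 5) (nat_lit 602) (nat_lit 503) (nat_lit 455)) (XT.lf (nat_lit 0) (nat_lit 678466509) (nat_lit 456) (nat_lit 8242216212) (nat_lit 76) (nat_lit 1312717394) (nat_lit 172) (nat_lit 5) (nat_lit 178) (nat_lit 5) (nat_lit 173) (nat_lit 5) (nat_lit 603) (nat_lit 503) (nat_lit 454))))))) (XT.nd (nat_lit 1092) (nat_lit 3192) (nat_lit 0) (XT.nd (nat_lit 546) (nat_lit 1824) (nat_lit 0) (XT.nd (nat_lit 234) (nat_lit 1140) (nat_lit 0) (XT.nd (nat_lit 78) (nat_lit 836) (nat_lit 0) (XT.lf (nat_lit 0) (nat_lit 4475070508) (nat_lit 456) (nat_lit 508876603) (nat_lit 76) (nat_lit 5353532867) (nat_lit 172) (nat_lit 5) (nat_lit 178) (nat_lit 5) (nat_lit 173) (nat_lit 5) (nat_lit 604) (nat_lit 503) (nat_lit 453)) (XT.nd (nat_lit 78) (nat_lit 456) (nat_lit 0) (XT.lf (nat_lit 0) (nat_lit 7410204067) (nat_lit 380) (nat_lit 943024198) (nat_lit 456) (nat_lit 2090302204) (nat_lit 167) (nat_lit 5) (nat_lit 172) (nat_lit 5) (nat_lit 173) (nat_lit 5) (nat_lit 605)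 (nat_lit 503) (nat_lit 452)) (XT.lf (nat_lit 0) (nat_lit 1748076247) (nat_lit 456) (nat_lit 5642492992) (nat_lit 76) (nat_lit 3160628443) (nat_lit 161) (nat_lit 5) (nat_lit 167) (nat_lit 5) (nat_lit 162) (nat_lit 5) (nat_lit 606) (nat_lit 503) (nat_lit 451)))) (XT.nd (nat_lit 156) (nat_lit 760) (nat_lit 0) (XT.nd (nat_lit 78) (nat_lit 0) (nat_lit 0) (XT.lf (nat_lit 0) (nat_lit 2333978994) (nat_lit 380) (nat_lit 3301054158) (nat_lit 456) (nat_lit 5025714130) (nat_lit 156) (nat_lit 5) (nat_lit 161) (nat_lit 5) (nat_lit 162) (nat_lit 5) (nat_lit 607) (nat_lit 503) (nat_lit 450)) (XT.lf (nat_lit 0) (nat_lit 9601618129) (nat_lit 456) (nat_lit 297897281) (nat_lit 76) (nat_lit 872936039) (nat_lit 156) (nat_lit 5) (nat_lit 162) (nat_lit 5) (nat_lit 157) (nat_lit 5) (nat_lit 608) (nat_lit 503) (nat_lit 449))) (XT.nd (nat_lit 78) (nat_lit 380) (nat_lit 0) (XT.lf (nat_lit 0) (nat_lit 2757293872) (nat_lit 380) (nat_lit 2995906781) (nat_lit 76) (nat_lit 5132184571) (nat_lit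 151) (nat_lit 5) (nat_lit 156) (nat_lit 5) (nat_lit 152) (nat_lit 5) (nat_lit 609) (nat_lit 503) (nat_lit 448)) (XT.lf (nat_lit 0) (nat_lit 5239514044) (nat_lit 380) (nat_lit 1503894772) (nat_lit 456) (nat_lit 4257113298) (nat_lit 146) (nat_lit 5) (nat_lit 151) (nat_lit 5) (nat_lit 152) (nat_lit 5) (nat_lit 610) (nat_lit 503) (nat_lit 447))))) (XT.nd (nat_lit 234) (nat_lit 1064) (nat_lit 0) (XT.nd (nat_lit 78) (nat_lit 456) (nat_lit 0) (XT.lf (nat_lit 0) (nat_lit 2511360864) (nat_lit 304) (nat_lit 8312082728) (nat_lit 380) (nat_lit 294235449) (nat_lit 142) (nat_lit 5) (nat_lit 146) (nat_lit 5) (nat_lit 147) (nat_lit 5) (nat_lit 611) (nat_lit 503) (nat_lit 446)) (XT.nd (nat_lit 78) (nat_lit 380) (nat_lit 0) (XT.lf (nat_lit 0) (nat_lit 3707004514) (nat_lit 380) (nat_lit 309554601) (nat_lit 76) (nat_lit 7219969339) (nat_lit 141) (nat_lit 5) (nat_lit 146) (nat_lit 5) (nat_lit 142) (nat_lit 5) (nat_lit 612) (nat_lit 503) (nat_lit 445)) (XT.lf (nat_lit 0) (nat_lit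 7800288434) (nat_lit 456) (nat_lit 3165937214) (nat_lit 76) (nat_lit 391172308) (nat_lit 136) (nat_lit 5) (nat_lit 142) (nat_lit 5) (nat_lit 137) (nat_lit 5) (nat_lit 613) (nat_lit 503) (nat_lit 444)))) (XT.nd (nat_lit 156) (nat_lit 380) (nat_lit 0) (XT.nd (nat_lit 78) (nat_lit 304) (nat_lit 0) (XT.lf (nat_lit 0) (nat_lit 512329865) (nat_lit 380) (nat_lit 6118561501) (nat_lit 76) (nat_lit 4849249061) (nat_lit 131) (nat_lit 5) (nat_lit 136) (nat_lit 5) (nat_lit 132) (nat_lit 5) (nat_lit 614) (nat_lit 503) (nat_lit 443)) (XT.lf (nat_lit 0) (nat_lit 2441083174) (nat_lit 304) (nat_lit 2172206728) (nat_lit 380) (nat_lit 6991623476) (nat_lit 127) (nat_lit 5) (nat_lit 131) (nat_lit 5) (nat_lit 132) (nat_lit 5) (nat_lit 615) (nat_lit 503) (nat_lit 442))) (XT.nd (nat_lit 78) (nat_lit 380) (nat_lit 0) (XT.lf (nat_lit 0) (nat_lit 8813698379) (nat_lit 380) (nat_lit 557272632) (nat_lit 76) (nat_lit 2360863280) (nat_lit 127) (nat_lit 5) (nat_lit 132) (nat_lit 5) (nat_lit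 128) (nat_lit 5) (nat_lit 616) (nat_lit 503) (nat_lit 441)) (XT.lf (nat_lit 0) (nat_lit 1250198657) (nat_lit 380) (nat_lit 3617480986) (nat_lit 76) (nat_lit 6992862454) (nat_lit 122) (nat_lit 5) (nat_lit 127) (nat_lit 5) (nat_lit 123) (nat_lit 5) (nat_lit 617) (nat_lit 503) (nat_lit 440)))))) (XT.nd (nat_lit 546) (nat_lit 1672) (nat_lit 0) (XT.nd (nat_lit 234) (nat_lit 912) (nat_lit 0) (XT.nd (nat_lit 78) (nat_lit 304) (nat_lit 0) (XT.lf (nat_lit 0) (nat_lit 5220431230) (nat_lit 304) (nat_lit 241625970) (nat_lit 380) (nat_lit 6529397484) (nat_lit 118) (nat_lit 5) (nat_lit 122) (nat_lit 5) (nat_lit 123) (nat_lit 5) (nat_lit 618) (nat_lit 503) (nat_lit 439)) (XT.nd (nat_lit 78) (nat_lit 76) (nat_lit 0) (XT.lf (nat_lit 0) (nat_lit 2093799794) (nat_lit 228) (nat_lit 7693164000) (nat_lit 304) (nat_lit 2337446519) (nat_lit 115) (nat_lit 5) (nat_lit 118) (nat_lit 5) (nat_lit 119) (nat_lit 5) (nat_lit 619) (nat_lit 503) (nat_lit 438)) (XT.lf (nat_lit 0) (nat_lit 1922058386)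 (nat_lit 304) (nat_lit 1110057281) (nat_lit 76) (nat_lit 9227475921) (nat_lit 114) (nat_lit 5) (nat_lit 118) (nat_lit 5) (nat_lit 115) (nat_lit 5) (nat_lit 620) (nat_lit 503) (nat_lit 437)))) (XT.nd (nat_lit 156) (nat_lit 380) (nat_lit 0) (XT.nd (nat_lit 78) (nat_lit 228) (nat_lit 0) (XT.lf (nat_lit 0) (nat_lit 6261537984) (nat_lit 380) (nat_lit 4392684757) (nat_lit 76) (nat_lit 1742424025) (nat_lit 110) (nat_lit 5) (nat_lit 115) (nat_lit 5) (nat_lit 111) (nat_lit 5) (nat_lit 621) (nat_lit 503) (nat_lit 436)) (XT.lf (nat_lit 0) (nat_lit 4758225825) (nat_lit 228) (nat_lit 5950765027) (nat_lit 304) (nat_lit 1827029452) (nat_lit 107) (nat_lit 5) (nat_lit 110) (nat_lit 5) (nat_lit 111) (nat_lit 5) (nat_lit 622) (nat_lit 503) (nat_lit 435))) (XT.nd (nat_lit 78) (nat_lit 0) (nat_lit 0) (XT.lf (nat_lit 0) (nat_lit 1412625606) (nat_lit 304) (nat_lit 1122550735) (nat_lit 380) (nat_lit 10142639818) (nat_lit 102) (nat_lit 5) (nat_lit 106) (nat_lit 5) (nat_lit 107) (nat_lit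 5) (nat_lit 623) (nat_lit 503) (nat_lit 434)) (XT.lf (nat_lit 0) (nat_lit 7000355239) (nat_lit 380) (nat_lit 2029551936) (nat_lit 76) (nat_lit 3791496239) (nat_lit 102) (nat_lit 5) (nat_lit 107) (nat_lit 5) (nat_lit 103) (nat_lit 5) (nat_lit 624) (nat_lit 503) (nat_lit 433))))) (XT.nd (nat_lit 312) (nat_lit 836) (nat_lit 0) (XT.nd (nat_lit 156) (nat_lit 228) (nat_lit 0) (XT.nd (nat_lit 78) (nat_lit 380) (nat_lit 0) (XT.lf (nat_lit 0) (nat_lit 7418602585) (nat_lit 228) (nat_lit 4155507018) (nat_lit 304) (nat_lit 1393368233) (nat_lit 99) (nat_lit 5) (nat_lit 102) (nat_lit 5) (nat_lit 103) (nat_lit 5) (nat_lit 625) (nat_lit 503) (nat_lit 432)) (XT.lf (nat_lit 0) (nat_lit 3090444822) (nat_lit 380) (nat_lit 9185381676) (nat_lit 76) (nat_lit 840071832) (nat_lit 94) (nat_lit 5) (nat_lit 99) (nat_lit 5) (nat_lit 95) (nat_lit 5) (nat_lit 626) (nat_lit 503) (nat_lit 431))) (XT.nd (nat_lit 78) (nat_lit 0) (nat_lit 0) (XT.lf (nat_lit 0) (nat_lit 313004331) (nat_lit 228)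 (nat_lit 7363211420) (nat_lit 304) (nat_lit 5590269311) (nat_lit 91) (nat_lit 5) (nat_lit 94) (nat_lit 5) (nat_lit 95) (nat_lit 5) (nat_lit 627) (nat_lit 503) (nat_lit 430)) (XT.lf (nat_lit 0) (nat_lit 10064001033) (nat_lit 228) (nat_lit 2315532990) (nat_lit 304) (nat_lit 1040033660) (nat_lit 91) (nat_lit 5) (nat_lit 94) (nat_lit 5) (nat_lit 95) (nat_lit 5) (nat_lit 628) (nat_lit 503) (nat_lit 429)))) (XT.nd (nat_lit 156) (nat_lit 304) (nat_lit 0) (XT.nd (nat_lit 78) (nat_lit 228) (nat_lit 0) (XT.lf (nat_lit 0) (nat_lit 3579071684) (nat_lit 304) (nat_lit 7159589596) (nat_lit 76) (nat_lit 2836081902) (nat_lit 87) (nat_lit 5) (nat_lit 91) (nat_lit 5) (nat_lit 88) (nat_lit 5) (nat_lit 629) (nat_lit 503) (nat_lit 428)) (XT.lf (nat_lit 0) (nat_lit 2645266464) (nat_lit 228) (nat_lit 5651349784) (nat_lit 304) (nat_lit 5435869536) (nat_lit 84) (nat_lit 5) (nat_lit 87) (nat_lit 5) (nat_lit 88) (nat_lit 5) (nat_lit 630) (nat_lit 503) (nat_lit 427))) (XT.nd (nat_lit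 78) (nat_lit 304) (nat_lit 0) (XT.lf (nat_lit 0) (nat_lit 12682415535) (nat_lit 228) (nat_lit 439229914) (nat_lit 304) (nat_lit 771475846) (nat_lit 84) (nat_lit 5) (nat_lit 87) (nat_lit 5) (nat_lit 88) (nat_lit 5) (nat_lit 631) (nat_lit 503) (nat_lit 426)) (XT.lf (nat_lit 0) (nat_lit 3989270597) (nat_lit 304) (nat_lit 5194055935) (nat_lit 76) (nat_lit 4872019174) (nat_lit 80) (nat_lit 5) (nat_lit 84) (nat_lit 5) (nat_lit 81) (nat_lit 5) (nat_lit 632) (nat_lit 503) (nat_lit 425))))))))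
noncomputable def xc41 : XT := (XT.nd (nat_lit 75816) (nat_lit 0) (nat_lit 13376) (XT.nd (nat_lit 1092) (nat_lit 380) (nat_lit 0) (XT.nd (nat_lit 546) (nat_lit 1140) (nat_lit 0) (XT.nd (nat_lit 234) (nat_lit 684) (nat_lit 0) (XT.nd (nat_lit 78) (nat_lit 304) (nat_lit 0) (XT.lf (nat_lit 0) (nat_lit 4926786365) (nat_lit 228) (nat_lit 3916868387) (nat_lit 304) (nat_lit 5376883497) (nat_lit 77) (nat_lit 5) (nat_lit 80) (nat_lit 5) (nat_lit 81) (nat_lit 5) (nat_lit 633) (nat_lit 503) (nat_lit 424)) (XT.nd (nat_lit 78) (nat_lit 76) (nat_lit 0) (XT.lf (nat_lit 0) (nat_lit 873534269) (nat_lit 228) (nat_lit 12937581114) (nat_lit 304) (nat_lit 577600161) (nat_lit 74) (nat_lit 5) (nat_lit 77) (nat_lit 5) (nat_lit 78) (nat_lit 5) (nat_lit 634) (nat_lit 503) (nat_lit 423)) (XT.lf (nat_lit 0) (nat_lit 4315601782) (nat_lit 304) (nat_lit 3303666804) (nat_lit 76) (nat_lit 6939336588) (nat_lit 73) (nat_lit 5) (nat_lit 77) (nat_lit 5) (nat_lit 74) (nat_lit 5) (nat_lit 635) (nat_lit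 503) (nat_lit 422)))) (XT.nd (nat_lit 156) (nat_lit 228) (nat_lit 0) (XT.nd (nat_lit 78) (nat_lit 228) (nat_lit 0) (XT.lf (nat_lit 0) (nat_lit 7142697792) (nat_lit 228) (nat_lit 2169129479) (nat_lit 304) (nat_lit 5419731733) (nat_lit 70) (nat_lit 5) (nat_lit 73) (nat_lit 5) (nat_lit 74) (nat_lit 5) (nat_lit 636) (nat_lit 503) (nat_lit 421)) (XT.lf (nat_lit 0) (nat_lit 2891669380) (nat_lit 228) (nat_lit 11546028298) (nat_lit 304) (nat_lit 469680450) (nat_lit 67) (nat_lit 5) (nat_lit 70) (nat_lit 5) (nat_lit 71) (nat_lit 5) (nat_lit 637) (nat_lit 503) (nat_lit 420))) (XT.nd (nat_lit 78) (nat_lit 152) (nat_lit 0) (XT.lf (nat_lit 0) (nat_lit 4551611482) (nat_lit 304) (nat_lit 1504844904) (nat_lit 76) (nat_lit 9029017225) (nat_lit 66) (nat_lit 5) (nat_lit 70) (nat_lit 5) (nat_lit 67) (nat_lit 5) (nat_lit 638) (nat_lit 503) (nat_lit 419)) (XT.lf (nat_lit 0) (nat_lit 9276559394) (nat_lit 152) (nat_lit 418041105) (nat_lit 228) (nat_lit 5571917798) (nat_lit 64) (nat_lit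 5) (nat_lit 66) (nat_lit 5) (nat_lit 67) (nat_lit 5) (nat_lit 639) (nat_lit 503) (nat_lit 418))))) (XT.nd (nat_lit 234) (nat_lit 684) (nat_lit 0) (XT.nd (nat_lit 78) (nat_lit 228) (nat_lit 0) (XT.lf (nat_lit 0) (nat_lit 4813109424) (nat_lit 228) (nat_lit 10170806014) (nat_lit 304) (nat_lit 466399694) (nat_lit 61) (nat_lit 5) (nat_lit 64) (nat_lit 5) (nat_lit 65) (nat_lit 5) (nat_lit 640) (nat_lit 503) (nat_lit 417)) (XT.nd (nat_lit 78) (nat_lit 0) (nat_lit 0) (XT.lf (nat_lit 0) (nat_lit 186701636) (nat_lit 152) (nat_lit 4504260432) (nat_lit 228) (nat_lit 10945972419) (nat_lit 58) (nat_lit 5) (nat_lit 60) (nat_lit 5) (nat_lit 61) (nat_lit 5) (nat_lit 641) (nat_lit 503) (nat_lit 416)) (XT.lf (nat_lit 0) (nat_lit 9992934837) (nat_lit 228) (nat_lit 4524899402) (nat_lit 76) (nat_lit 1308436699) (nat_lit 58) (nat_lit 5) (nat_lit 61) (nat_lit 5) (nat_lit 59) (nat_lit 5) (nat_lit 642) (nat_lit 503) (nat_lit 415)))) (XT.nd (nat_lit 156) (nat_lit 228) (nat_lit 0) (XT.nd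 (nat_lit 78) (nat_lit 228) (nat_lit 0) (XT.lf (nat_lit 0) (nat_lit 6618587256) (nat_lit 228) (nat_lit 8823364452) (nat_lit 304) (nat_lit 576622852) (nat_lit 55) (nat_lit 5) (nat_lit 58) (nat_lit 5) (nat_lit 59) (nat_lit 5) (nat_lit 643) (nat_lit 503) (nat_lit 414)) (XT.lf (nat_lit 0) (nat_lit 1766690184) (nat_lit 152) (nat_lit 2966058613) (nat_lit 228) (nat_lit 11481148928) (nat_lit 52) (nat_lit 5) (nat_lit 54) (nat_lit 5) (nat_lit 55) (nat_lit 5) (nat_lit 644) (nat_lit 503) (nat_lit 413))) (XT.nd (nat_lit 78) (nat_lit 228) (nat_lit 0) (XT.lf (nat_lit 0) (nat_lit 10191957371) (nat_lit 228) (nat_lit 3208974910) (nat_lit 76) (nat_lit 3011091938) (nat_lit 52) (nat_lit 5) (nat_lit 55) (nat_lit 5) (nat_lit 53) (nat_lit 5) (nat_lit 645) (nat_lit 503) (nat_lit 412)) (XT.lf (nat_lit 0) (nat_lit 8286727466) (nat_lit 228) (nat_lit 7516023417) (nat_lit 304) (nat_lit 810514837) (nat_lit 49) (nat_lit 5) (nat_lit 52) (nat_lit 5) (nat_lit 53) (nat_lit 5) (nat_lit 646) (nat_lit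 503) (nat_lit 411)))))) (XT.nd (nat_lit 74100) (nat_lit 0) (nat_lit 29336) (XT.nd (nat_lit 73788) (nat_lit 0) (nat_lit 37696) (XT.nd (nat_lit 78) (nat_lit 152) (nat_lit 0) (XT.lf (nat_lit 0) (nat_lit 3192530634) (nat_lit 152) (nat_lit 1464361968) (nat_lit 228) (nat_lit 12160800663) (nat_lit 46) (nat_lit 5) (nat_lit 48) (nat_lit 5) (nat_lit 49) (nat_lit 5) (nat_lit 647) (nat_lit 503) (nat_lit 410)) (XT.nd (nat_lit 78) (nat_lit 152) (nat_lit 0) (XT.lf (nat_lit 0) (nat_lit 10278697031) (nat_lit 228) (nat_lit 2063006632) (nat_lit 76) (nat_lit 4683280981) (nat_lit 46) (nat_lit 5) (nat_lit 49) (nat_lit 5) (nat_lit 47) (nat_lit 5) (nat_lit 648) (nat_lit 503) (nat_lit 409)) (XT.lf (nat_lit 0) (nat_lit 9793792274) (nat_lit 152) (nat_lit 6262113554) (nat_lit 228) (nat_lit 1179657112) (nat_lit 44) (nat_lit 5) (nat_lit 46) (nat_lit 5) (nat_lit 47) (nat_lit 5) (nat_lit 649) (nat_lit 503) (nat_lit 408)))) (XT.nd (nat_lit 156) (nat_lit 1672) (nat_lit 0) (XT.nd (nat_lit 78)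 (nat_lit 1596) (nat_lit 0) (XT.lf (nat_lit 0) (nat_lit 1840127315) (nat_lit 1444) (nat_lit 812597152) (nat_lit 1444) (nat_lit 812597152) (nat_lit 583) (nat_lit 4) (nat_lit 602) (nat_lit 5) (nat_lit 602) (nat_lit 4) (nat_lit 552) (nat_lit 504) (nat_lit 504)) (XT.lf (nat_lit 0) (nat_lit 1726245000) (nat_lit 1520) (nat_lit 75553508) (nat_lit 1596) (nat_lit 5160191014) (nat_lit 562) (nat_lit 5) (nat_lit 582) (nat_lit 5) (nat_lit 583) (nat_lit 4) (nat_lit 553) (nat_lit 504) (nat_lit 503))) (XT.nd (nat_lit 78) (nat_lit 1672) (nat_lit 0) (XT.lf (nat_lit 0) (nat_lit 5237179019) (nat_lit 1596) (nat_lit 235123016) (nat_lit 0) (nat_lit 1522219642) (nat_lit 562) (nat_lit 5) (nat_lit 583) (nat_lit 4) (nat_lit 562) (nat_lit 4) (nat_lit 554) (nat_lit 504) (nat_lit 502)) (XT.lf (nat_lit 0) (nat_lit 1654148441) (nat_lit 1672) (nat_lit 2176607761) (nat_lit 76) (nat_lit 3197470318) (nat_lit 540) (nat_lit 5) (nat_lit 562) (nat_lit 5) (nat_lit 541) (nat_lit 4) (nat_lit 555) (nat_lit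 504) (nat_lit 501))))) (XT.nd (nat_lit 312) (nat_lit 2964) (nat_lit 0) (XT.nd (nat_lit 156) (nat_lit 1900) (nat_lit 0) (XT.nd (nat_lit 78) (nat_lit 1824) (nat_lit 0) (XT.lf (nat_lit 0) (nat_lit 2941087385) (nat_lit 1672) (nat_lit 2121660010) (nat_lit 1748) (nat_lit 2000583204) (nat_lit 518) (nat_lit 5) (nat_lit 540) (nat_lit 5) (nat_lit 541) (nat_lit 4) (nat_lit 556) (nat_lit 504) (nat_lit 500)) (XT.lf (nat_lit 0) (nat_lit 1028826085) (nat_lit 1748) (nat_lit 346208687) (nat_lit 1824) (nat_lit 5724849483) (nat_lit 494) (nat_lit 5) (nat_lit 517) (nat_lit 5) (nat_lit 518) (nat_lit 5) (nat_lit 557) (nat_lit 504) (nat_lit 499))) (XT.nd (nat_lit 78) (nat_lit 1900) (nat_lit 0) (XT.lf (nat_lit 0) (nat_lit 4761819738) (nat_lit 1824) (nat_lit 888683523) (nat_lit 76) (nat_lit 1486997707) (nat_lit 494) (nat_lit 5) (nat_lit 518) (nat_lit 5) (nat_lit 495) (nat_lit 4) (nat_lit 558) (nat_lit 504) (nat_lit 498)) (XT.lf (nat_lit 0) (nat_lit 991732078) (nat_lit 1900) (nat_lit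 2797116789) (nat_lit 76) (nat_lit 3387592991) (nat_lit 469) (nat_lit 5) (nat_lit 494) (nat_lit 5) (nat_lit 470) (nat_lit 5) (nat_lit 559) (nat_lit 504) (nat_lit 497)))) (XT.nd (nat_lit 156) (nat_lit 912) (nat_lit 0) (XT.nd (nat_lit 78) (nat_lit 988) (nat_lit 0) (XT.lf (nat_lit 0) (nat_lit 2498673877) (nat_lit 1064) (nat_lit 1853062695) (nat_lit 1140) (nat_lit 2864974867) (nat_lit 455) (nat_lit 5) (nat_lit 469) (nat_lit 5) (nat_lit 470) (nat_lit 5) (nat_lit 560) (nat_lit 504) (nat_lit 496)) (XT.lf (nat_lit 0) (nat_lit 473384771) (nat_lit 988) (nat_lit 6641470735) (nat_lit 76) (nat_lit 143686739) (nat_lit 442) (nat_lit 5) (nat_lit 455) (nat_lit 5) (nat_lit 443) (nat_lit 5) (nat_lit 561) (nat_lit 504) (nat_lit 495))) (XT.nd (nat_lit 78) (nat_lit 912) (nat_lit 0) (XT.lf (nat_lit 0) (nat_lit 3820355704) (nat_lit 988) (nat_lit 1277461562) (nat_lit 76) (nat_lit 2203414244) (nat_lit 442) (nat_lit 5) (nat_lit 455) (nat_lit 5) (nat_lit 443) (nat_lit 5) (nat_lit 562)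 (nat_lit 504) (nat_lit 494)) (XT.lf (nat_lit 0) (nat_lit 4181743527) (nat_lit 912) (nat_lit 3016955662) (nat_lit 988) (nat_lit 146791332) (nat_lit 430) (nat_lit 5) (nat_lit 442) (nat_lit 5) (nat_lit 443) (nat_lit 5) (nat_lit 563) (nat_lit 504) (nat_lit 493))))))) (XT.nd (nat_lit 1170) (nat_lit 7144) (nat_lit 0) (XT.nd (nat_lit 546) (nat_lit 4408) (nat_lit 0) (XT.nd (nat_lit 234) (nat_lit 2584) (nat_lit 0) (XT.nd (nat_lit 78) (nat_lit 912) (nat_lit 0) (XT.lf (nat_lit 0) (nat_lit 2318893660) (nat_lit 836) (nat_lit 853755725) (nat_lit 912) (nat_lit 4218340211) (nat_lit 418) (nat_lit 5) (nat_lit 429) (nat_lit 5) (nat_lit 430) (nat_lit 5) (nat_lit 564) (nat_lit 504) (nat_lit 492)) (XT.nd (nat_lit 78) (nat_lit 76) (nat_lit 0) (XT.lf (nat_lit 0) (nat_lit 444959985) (nat_lit 836) (nat_lit 6083017307) (nat_lit 912) (nat_lit 909977032) (nat_lit 407) (nat_lit 5) (nat_lit 418) (nat_lit 5) (nat_lit 419) (nat_lit 5) (nat_lit 565) (nat_lit 504) (nat_lit 491)) (XT.lf (nat_lit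 0) (nat_lit 2410927025) (nat_lit 912) (nat_lit 1434396648) (nat_lit 76) (nat_lit 3640644897) (nat_lit 406) (nat_lit 5) (nat_lit 418) (nat_lit 5) (nat_lit 407) (nat_lit 5) (nat_lit 566) (nat_lit 504) (nat_lit 490)))) (XT.nd (nat_lit 156) (nat_lit 836) (nat_lit 0) (XT.nd (nat_lit 78) (nat_lit 912) (nat_lit 0) (XT.lf (nat_lit 0) (nat_lit 4217554052) (nat_lit 836) (nat_lit 1535886267) (nat_lit 912) (nat_lit 1782039072) (nat_lit 395) (nat_lit 5) (nat_lit 406) (nat_lit 5) (nat_lit 407) (nat_lit 5) (nat_lit 567) (nat_lit 504) (nat_lit 489)) (XT.lf (nat_lit 0) (nat_lit 1527051125) (nat_lit 912) (nat_lit 5222464648) (nat_lit 76) (nat_lit 836845685) (nat_lit 383) (nat_lit 5) (nat_lit 395) (nat_lit 5) (nat_lit 384) (nat_lit 5) (nat_lit 568) (nat_lit 504) (nat_lit 488))) (XT.nd (nat_lit 78) (nat_lit 76) (nat_lit 0) (XT.lf (nat_lit 0) (nat_lit 482575146) (nat_lit 760) (nat_lit 4372637001) (nat_lit 836) (nat_lit 2783282292) (nat_lit 373) (nat_lit 5) (nat_lit 383) (nat_lit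 5) (nat_lit 384) (nat_lit 5) (nat_lit 569) (nat_lit 504) (nat_lit 487)) (XT.lf (nat_lit 0) (nat_lit 527560678) (nat_lit 836) (nat_lit 1390801564) (nat_lit 76) (nat_lit 5773706740) (nat_lit 372) (nat_lit 5) (nat_lit 383) (nat_lit 5) (nat_lit 373) (nat_lit 5) (nat_lit 570) (nat_lit 504) (nat_lit 486))))) (XT.nd (nat_lit 312) (nat_lit 2128) (nat_lit 0) (XT.nd (nat_lit 156) (nat_lit 836) (nat_lit 0) (XT.nd (nat_lit 78) (nat_lit 684) (nat_lit 0) (XT.lf (nat_lit 0) (nat_lit 3842899585) (nat_lit 836) (nat_lit 3288397226) (nat_lit 76) (nat_lit 615542954) (nat_lit 362) (nat_lit 5) (nat_lit 373) (nat_lit 5) (nat_lit 363) (nat_lit 5) (nat_lit 571) (nat_lit 504) (nat_lit 485)) (XT.lf (nat_lit 0) (nat_lit 2594491421) (nat_lit 684) (nat_lit 4612117450) (nat_lit 760) (nat_lit 596459396) (nat_lit 353) (nat_lit 5) (nat_lit 362) (nat_lit 5) (nat_lit 363) (nat_lit 5) (nat_lit 572) (nat_lit 504) (nat_lit 484))) (XT.nd (nat_lit 78) (nat_lit 0) (nat_lit 0) (XT.lf (nat_lit 0) (nat_lit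 702586144) (nat_lit 760) (nat_lit 2008358176) (nat_lit 836) (nat_lit 5149715899) (nat_lit 342) (nat_lit 5) (nat_lit 352) (nat_lit 5) (nat_lit 353) (nat_lit 5) (nat_lit 573) (nat_lit 504) (nat_lit 483)) (XT.lf (nat_lit 0) (nat_lit 6059920433) (nat_lit 836) (nat_lit 1193195735) (nat_lit 76) (nat_lit 666544140) (nat_lit 342) (nat_lit 5) (nat_lit 353) (nat_lit 5) (nat_lit 343) (nat_lit 5) (nat_lit 574) (nat_lit 504) (nat_lit 482)))) (XT.nd (nat_lit 156) (nat_lit 684) (nat_lit 0) (XT.nd (nat_lit 78) (nat_lit 684) (nat_lit 0) (XT.lf (nat_lit 0) (nat_lit 1466406770) (nat_lit 760) (nat_lit 3115417874) (nat_lit 76) (nat_lit 3398024888) (nat_lit 332) (nat_lit 5) (nat_lit 342) (nat_lit 5) (nat_lit 333) (nat_lit 5) (nat_lit 575) (nat_lit 504) (nat_lit 481)) (XT.lf (nat_lit 0) (nat_lit 2977362135) (nat_lit 684) (nat_lit 1829619618) (nat_lit 760) (nat_lit 3234561958) (nat_lit 323) (nat_lit 5) (nat_lit 332) (nat_lit 5) (nat_lit 333) (nat_lit 5) (nat_lit 576) (nat_lit 504)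 (nat_lit 480))) (XT.nd (nat_lit 78) (nat_lit 0) (nat_lit 0) (XT.lf (nat_lit 0) (nat_lit 88599506) (nat_lit 684) (nat_lit 7035908991) (nat_lit 76) (nat_lit 980349168) (nat_lit 314) (nat_lit 5) (nat_lit 323) (nat_lit 5) (nat_lit 315) (nat_lit 5) (nat_lit 577) (nat_lit 504) (nat_lit 479)) (XT.lf (nat_lit 0) (nat_lit 3427484203) (nat_lit 684) (nat_lit 877575021) (nat_lit 76) (nat_lit 3864102639) (nat_lit 314) (nat_lit 5) (nat_lit 323) (nat_lit 5) (nat_lit 315) (nat_lit 5) (nat_lit 578) (nat_lit 504) (nat_lit 478)))))) (XT.nd (nat_lit 546) (nat_lit 3268) (nat_lit 0) (XT.nd (nat_lit 234) (nat_lit 1900) (nat_lit 0) (XT.nd (nat_lit 78) (nat_lit 1292) (nat_lit 0) (XT.lf (nat_lit 0) (nat_lit 5407749280) (nat_lit 684) (nat_lit 1407768045) (nat_lit 760) (nat_lit 1419590337) (nat_lit 305) (nat_lit 5) (nat_lit 314) (nat_lit 5) (nat_lit 315) (nat_lit 5) (nat_lit 579) (nat_lit 504) (nat_lit 477)) (XT.nd (nat_lit 78) (nat_lit 608) (nat_lit 0) (XT.lf (nat_lit 0) (nat_lit 1929467551)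 (nat_lit 684) (nat_lit 4818756754) (nat_lit 76) (nat_lit 1554168181) (nat_lit 296) (nat_lit 5) (nat_lit 305) (nat_lit 5) (nat_lit 297) (nat_lit 5) (nat_lit 580) (nat_lit 504) (nat_lit 476)) (XT.lf (nat_lit 0) (nat_lit 1521781579) (nat_lit 608) (nat_lit 3791046951) (nat_lit 684) (nat_lit 3058282962) (nat_lit 288) (nat_lit 5) (nat_lit 296) (nat_lit 5) (nat_lit 297) (nat_lit 5) (nat_lit 581) (nat_lit 504) (nat_lit 475)))) (XT.nd (nat_lit 156) (nat_lit 1216) (nat_lit 0) (XT.nd (nat_lit 78) (nat_lit 608) (nat_lit 0) (XT.lf (nat_lit 0) (nat_lit 299219735) (nat_lit 684) (nat_lit 456519690) (nat_lit 76) (nat_lit 7685810223) (nat_lit 287) (nat_lit 5) (nat_lit 296) (nat_lit 5) (nat_lit 288) (nat_lit 5) (nat_lit 582) (nat_lit 504) (nat_lit 474)) (XT.lf (nat_lit 0) (nat_lit 3687032337) (nat_lit 684) (nat_lit 2472148740) (nat_lit 76) (nat_lit 2353731582) (nat_lit 279) (nat_lit 5) (nat_lit 288) (nat_lit 5) (nat_lit 280) (nat_lit 5) (nat_lit 583) (nat_lit 504) (nat_lit 473)))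 (XT.nd (nat_lit 78) (nat_lit 608) (nat_lit 0) (XT.lf (nat_lit 0) (nat_lit 4069659712) (nat_lit 608) (nat_lit 3057176075) (nat_lit 684) (nat_lit 1459185003) (nat_lit 271) (nat_lit 5) (nat_lit 279) (nat_lit 5) (nat_lit 280) (nat_lit 5) (nat_lit 584) (nat_lit 504) (nat_lit 472)) (XT.lf (nat_lit 0) (nat_lit 1929840841) (nat_lit 608) (nat_lit 6599385997) (nat_lit 76) (nat_lit 131492317) (nat_lit 263) (nat_lit 5) (nat_lit 271) (nat_lit 5) (nat_lit 264) (nat_lit 5) (nat_lit 585) (nat_lit 504) (nat_lit 471))))) (XT.nd (nat_lit 312) (nat_lit 1596) (nat_lit 0) (XT.nd (nat_lit 156) (nat_lit 1064) (nat_lit 0) (XT.nd (nat_lit 78) (nat_lit 608) (nat_lit 0) (XT.lf (nat_lit 0) (nat_lit 5368257266) (nat_lit 608) (nat_lit 2503777) (nat_lit 76) (nat_lit 3365936975) (nat_lit 263) (nat_lit 5) (nat_lit 271) (nat_lit 5) (nat_lit 264) (nat_lit 5) (nat_lit 586) (nat_lit 504) (nat_lit 470)) (XT.lf (nat_lit 0) (nat_lit 55571384) (nat_lit 608) (nat_lit 2066399007) (nat_lit 76) (nat_lit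 6692317843) (nat_lit 255) (nat_lit 5) (nat_lit 263) (nat_lit 5) (nat_lit 256) (nat_lit 5) (nat_lit 587) (nat_lit 504) (nat_lit 469))) (XT.nd (nat_lit 78) (nat_lit 532) (nat_lit 0) (XT.lf (nat_lit 0) (nat_lit 3493139251) (nat_lit 608) (nat_lit 4188685933) (nat_lit 76) (nat_lit 1211358451) (nat_lit 248) (nat_lit 5) (nat_lit 256) (nat_lit 5) (nat_lit 249) (nat_lit 5) (nat_lit 588) (nat_lit 504) (nat_lit 468)) (XT.lf (nat_lit 0) (nat_lit 2618471532) (nat_lit 532) (nat_lit 4377951748) (nat_lit 608) (nat_lit 1977296590) (nat_lit 241) (nat_lit 5) (nat_lit 248) (nat_lit 5) (nat_lit 249) (nat_lit 5) (nat_lit 589) (nat_lit 504) (nat_lit 467)))) (XT.nd (nat_lit 156) (nat_lit 1064) (nat_lit 0) (XT.nd (nat_lit 78) (nat_lit 0) (nat_lit 0) (XT.lf (nat_lit 0) (nat_lit 492322588) (nat_lit 456) (nat_lit 985363943) (nat_lit 532) (nat_lit 7578313138) (nat_lit 234) (nat_lit 5) (nat_lit 240) (nat_lit 5) (nat_lit 241) (nat_lit 5) (nat_lit 590) (nat_lit 504) (nat_lit 466)) (XT.lf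 (nat_lit 0) (nat_lit 4986838771) (nat_lit 532) (nat_lit 1673271038) (nat_lit 76) (nat_lit 2479325040) (nat_lit 234) (nat_lit 5) (nat_lit 241) (nat_lit 5) (nat_lit 235) (nat_lit 5) (nat_lit 591) (nat_lit 504) (nat_lit 465))) (XT.nd (nat_lit 78) (nat_lit 532) (nat_lit 0) (XT.lf (nat_lit 0) (nat_lit 5352196902) (nat_lit 532) (nat_lit 3208705088) (nat_lit 608) (nat_lit 663744238) (nat_lit 227) (nat_lit 5) (nat_lit 234) (nat_lit 5) (nat_lit 235) (nat_lit 5) (nat_lit 592) (nat_lit 504) (nat_lit 464)) (XT.lf (nat_lit 0) (nat_lit 2844763693) (nat_lit 532) (nat_lit 6127869920) (nat_lit 76) (nat_lit 338797362) (nat_lit 220) (nat_lit 5) (nat_lit 227) (nat_lit 5) (nat_lit 221) (nat_lit 5) (nat_lit 593) (nat_lit 504) (nat_lit 463))))))))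
noncomputable def xc42 : XT := (XT.nd (nat_lit 2262) (nat_lit 4788) (nat_lit 0) (XT.nd (nat_lit 1092) (nat_lit 4104) (nat_lit 0) (XT.nd (nat_lit 546) (nat_lit 2128) (nat_lit 0) (XT.nd (nat_lit 234) (nat_lit 1368) (nat_lit 0) (XT.nd (nat_lit 78) (nat_lit 532) (nat_lit 0) (XT.lf (nat_lit 0) (nat_lit 953492855) (nat_lit 456) (nat_lit 5468646076) (nat_lit 532) (nat_lit 2977574981) (nat_lit 214) (nat_lit 5) (nat_lit 220) (nat_lit 5) (nat_lit 221) (nat_lit 5) (nat_lit 594) (nat_lit 504) (nat_lit 462)) (XT.nd (nat_lit 78) (nat_lit 456) (nat_lit 0) (XT.lf (nat_lit 0) (nat_lit 569213634) (nat_lit 532) (nat_lit 1300556564) (nat_lit 76) (nat_lit 7620007920) (nat_lit 213) (nat_lit 5) (nat_lit 220) (nat_lit 5) (nat_lit 214) (nat_lit 5) (nat_lit 595) (nat_lit 504) (nat_lit 461)) (XT.lf (nat_lit 0) (nat_lit 4152927917) (nat_lit 532) (nat_lit 3612378180) (nat_lit 76) (nat_lit 1815828504) (nat_lit 207) (nat_lit 5) (nat_lit 214) (nat_lit 5) (nat_lit 208) (nat_lit 5) (nat_lit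 596) (nat_lit 504) (nat_lit 460)))) (XT.nd (nat_lit 156) (nat_lit 456) (nat_lit 0) (XT.nd (nat_lit 78) (nat_lit 456) (nat_lit 0) (XT.lf (nat_lit 0) (nat_lit 3696860923) (nat_lit 456) (nat_lit 4111991287) (nat_lit 532) (nat_lit 1865457076) (nat_lit 201) (nat_lit 5) (nat_lit 207) (nat_lit 5) (nat_lit 208) (nat_lit 5) (nat_lit 597) (nat_lit 504) (nat_lit 459)) (XT.lf (nat_lit 0) (nat_lit 1372462997) (nat_lit 380) (nat_lit 361721926) (nat_lit 456) (nat_lit 8035157963) (nat_lit 195) (nat_lit 5) (nat_lit 200) (nat_lit 5) (nat_lit 201) (nat_lit 5) (nat_lit 598) (nat_lit 504) (nat_lit 458))) (XT.nd (nat_lit 78) (nat_lit 456) (nat_lit 0) (XT.lf (nat_lit 0) (nat_lit 5399552601) (nat_lit 456) (nat_lit 1016771388) (nat_lit 76) (nat_lit 3449334014) (nat_lit 195) (nat_lit 5) (nat_lit 201) (nat_lit 5) (nat_lit 196) (nat_lit 5) (nat_lit 599) (nat_lit 504) (nat_lit 457)) (XT.lf (nat_lit 0) (nat_lit 6528889380) (nat_lit 456) (nat_lit 2610812672) (nat_lit 532) (nat_lit 824169532)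 (nat_lit 189) (nat_lit 5) (nat_lit 195) (nat_lit 5) (nat_lit 196) (nat_lit 5) (nat_lit 600) (nat_lit 504) (nat_lit 456))))) (XT.nd (nat_lit 234) (nat_lit 1216) (nat_lit 0) (XT.nd (nat_lit 78) (nat_lit 456) (nat_lit 0) (XT.lf (nat_lit 0) (nat_lit 2851763629) (nat_lit 456) (nat_lit 5926856997) (nat_lit 76) (nat_lit 1285073655) (nat_lit 183) (nat_lit 5) (nat_lit 189) (nat_lit 5) (nat_lit 184) (nat_lit 5) (nat_lit 601) (nat_lit 504) (nat_lit 455)) (XT.nd (nat_lit 78) (nat_lit 76) (nat_lit 0) (XT.lf (nat_lit 0) (nat_lit 1674960109) (nat_lit 380) (nat_lit 4923709884) (nat_lit 456) (nat_lit 3566566236) (nat_lit 178) (nat_lit 5) (nat_lit 183) (nat_lit 5) (nat_lit 184) (nat_lit 5) (nat_lit 602) (nat_lit 504) (nat_lit 454)) (XT.lf (nat_lit 0) (nat_lit 146997463) (nat_lit 456) (nat_lit 825954891) (nat_lit 76) (nat_lit 9295892825) (nat_lit 177) (nat_lit 5) (nat_lit 183) (nat_lit 5) (nat_lit 178) (nat_lit 5) (nat_lit 603) (nat_lit 504) (nat_lit 453)))) (XT.nd (nat_lit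 156) (nat_lit 456) (nat_lit 0) (XT.nd (nat_lit 78) (nat_lit 380) (nat_lit 0) (XT.lf (nat_lit 0) (nat_lit 3910779718) (nat_lit 456) (nat_lit 3398921267) (nat_lit 76) (nat_lit 3063881217) (nat_lit 172) (nat_lit 5) (nat_lit 178) (nat_lit 5) (nat_lit 173) (nat_lit 5) (nat_lit 604) (nat_lit 504) (nat_lit 452)) (XT.lf (nat_lit 0) (nat_lit 4449238893) (nat_lit 380) (nat_lit 3299851688) (nat_lit 456) (nat_lit 2731339762) (nat_lit 167) (nat_lit 5) (nat_lit 172) (nat_lit 5) (nat_lit 173) (nat_lit 5) (nat_lit 605) (nat_lit 504) (nat_lit 451))) (XT.nd (nat_lit 78) (nat_lit 0) (nat_lit 0) (XT.lf (nat_lit 0) (nat_lit 1059441461) (nat_lit 456) (nat_lit 8730814166) (nat_lit 76) (nat_lit 799045944) (nat_lit 161) (nat_lit 5) (nat_lit 167) (nat_lit 5) (nat_lit 162) (nat_lit 5) (nat_lit 606) (nat_lit 504) (nat_lit 450)) (XT.lf (nat_lit 0) (nat_lit 4910804380) (nat_lit 456) (nat_lit 817223803) (nat_lit 76) (nat_lit 4971535539) (nat_lit 161) (nat_lit 5) (nat_lit 167) (nat_lit 5)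 (nat_lit 162) (nat_lit 5) (nat_lit 607) (nat_lit 504) (nat_lit 449)))))) (XT.nd (nat_lit 546) (nat_lit 1900) (nat_lit 0) (XT.nd (nat_lit 234) (nat_lit 1064) (nat_lit 0) (XT.nd (nat_lit 78) (nat_lit 760) (nat_lit 0) (XT.lf (nat_lit 0) (nat_lit 7286289997) (nat_lit 380) (nat_lit 1559732282) (nat_lit 456) (nat_lit 1965873609) (nat_lit 156) (nat_lit 5) (nat_lit 161) (nat_lit 5) (nat_lit 162) (nat_lit 5) (nat_lit 608) (nat_lit 504) (nat_lit 448)) (XT.nd (nat_lit 78) (nat_lit 380) (nat_lit 0) (XT.lf (nat_lit 0) (nat_lit 1920909658) (nat_lit 380) (nat_lit 6323394301) (nat_lit 76) (nat_lit 2681664995) (nat_lit 151) (nat_lit 5) (nat_lit 156) (nat_lit 5) (nat_lit 152) (nat_lit 5) (nat_lit 609) (nat_lit 504) (nat_lit 447)) (XT.lf (nat_lit 0) (nat_lit 1835574820) (nat_lit 380) (nat_lit 4029477923) (nat_lit 456) (nat_lit 5176893156) (nat_lit 146) (nat_lit 5) (nat_lit 151) (nat_lit 5) (nat_lit 152) (nat_lit 5) (nat_lit 610) (nat_lit 504) (nat_lit 446)))) (XT.nd (nat_lit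 156) (nat_lit 684) (nat_lit 0) (XT.nd (nat_lit 78) (nat_lit 380) (nat_lit 0) (XT.lf (nat_lit 0) (nat_lit 9892620237) (nat_lit 456) (nat_lit 982457495) (nat_lit 76) (nat_lit 285075048) (nat_lit 146) (nat_lit 5) (nat_lit 152) (nat_lit 5) (nat_lit 147) (nat_lit 5) (nat_lit 611) (nat_lit 504) (nat_lit 445)) (XT.lf (nat_lit 0) (nat_lit 2720253345) (nat_lit 380) (nat_lit 3884638961) (nat_lit 76) (nat_lit 4674761237) (nat_lit 141) (nat_lit 5) (nat_lit 146) (nat_lit 5) (nat_lit 142) (nat_lit 5) (nat_lit 612) (nat_lit 504) (nat_lit 444))) (XT.nd (nat_lit 78) (nat_lit 304) (nat_lit 0) (XT.lf (nat_lit 0) (nat_lit 4539731943) (nat_lit 380) (nat_lit 2228179154) (nat_lit 456) (nat_lit 4633525043) (nat_lit 136) (nat_lit 5) (nat_lit 141) (nat_lit 5) (nat_lit 142) (nat_lit 5) (nat_lit 613) (nat_lit 504) (nat_lit 443)) (XT.lf (nat_lit 0) (nat_lit 1602934949) (nat_lit 304) (nat_lit 9305914057) (nat_lit 380) (nat_lit 616559977) (nat_lit 132) (nat_lit 5) (nat_lit 136) (nat_lit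 5) (nat_lit 137) (nat_lit 5) (nat_lit 614) (nat_lit 504) (nat_lit 442))))) (XT.nd (nat_lit 312) (nat_lit 836) (nat_lit 0) (XT.nd (nat_lit 156) (nat_lit 684) (nat_lit 0) (XT.nd (nat_lit 78) (nat_lit 304) (nat_lit 0) (XT.lf (nat_lit 0) (nat_lit 3457457501) (nat_lit 380) (nat_lit 1422331497) (nat_lit 76) (nat_lit 6771174114) (nat_lit 131) (nat_lit 5) (nat_lit 136) (nat_lit 5) (nat_lit 132) (nat_lit 5) (nat_lit 615) (nat_lit 504) (nat_lit 441)) (XT.lf (nat_lit 0) (nat_lit 7276804747) (nat_lit 304) (nat_lit 337165033) (nat_lit 380) (nat_lit 4164792698) (nat_lit 127) (nat_lit 5) (nat_lit 131) (nat_lit 5) (nat_lit 132) (nat_lit 5) (nat_lit 616) (nat_lit 504) (nat_lit 440))) (XT.nd (nat_lit 78) (nat_lit 380) (nat_lit 0) (XT.lf (nat_lit 0) (nat_lit 4225184896) (nat_lit 304) (nat_lit 7655563737) (nat_lit 380) (nat_lit 27827519) (nat_lit 123) (nat_lit 5) (nat_lit 127) (nat_lit 5) (nat_lit 128) (nat_lit 5) (nat_lit 617) (nat_lit 504) (nat_lit 439)) (XT.lf (nat_lit 0)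 (nat_lit 1069248746) (nat_lit 304) (nat_lit 3069526664) (nat_lit 380) (nat_lit 7901629853) (nat_lit 118) (nat_lit 5) (nat_lit 122) (nat_lit 5) (nat_lit 123) (nat_lit 5) (nat_lit 618) (nat_lit 504) (nat_lit 438)))) (XT.nd (nat_lit 156) (nat_lit 532) (nat_lit 0) (XT.nd (nat_lit 78) (nat_lit 304) (nat_lit 0) (XT.lf (nat_lit 0) (nat_lit 8413144870) (nat_lit 380) (nat_lit 2146529252) (nat_lit 76) (nat_lit 1614698000) (nat_lit 118) (nat_lit 5) (nat_lit 123) (nat_lit 5) (nat_lit 119) (nat_lit 5) (nat_lit 619) (nat_lit 504) (nat_lit 437)) (XT.lf (nat_lit 0) (nat_lit 484194517) (nat_lit 304) (nat_lit 5450957486) (nat_lit 76) (nat_lit 6375241871) (nat_lit 114) (nat_lit 5) (nat_lit 118) (nat_lit 5) (nat_lit 115) (nat_lit 5) (nat_lit 620) (nat_lit 504) (nat_lit 436))) (XT.nd (nat_lit 78) (nat_lit 228) (nat_lit 0) (XT.lf (nat_lit 0) (nat_lit 3586132646) (nat_lit 304) (nat_lit 1179141454) (nat_lit 380) (nat_lit 7683343413) (nat_lit 110) (nat_lit 5) (nat_lit 114) (nat_lit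 5) (nat_lit 115) (nat_lit 5) (nat_lit 621) (nat_lit 504) (nat_lit 435)) (XT.lf (nat_lit 0) (nat_lit 205767361) (nat_lit 228) (nat_lit 8951648552) (nat_lit 304) (nat_lit 3431681810) (nat_lit 107) (nat_lit 5) (nat_lit 110) (nat_lit 5) (nat_lit 111) (nat_lit 5) (nat_lit 622) (nat_lit 504) (nat_lit 434))))))) (XT.nd (nat_lit 1092) (nat_lit 1976) (nat_lit 0) (XT.nd (nat_lit 546) (nat_lit 1292) (nat_lit 0) (XT.nd (nat_lit 234) (nat_lit 912) (nat_lit 0) (XT.nd (nat_lit 78) (nat_lit 532) (nat_lit 0) (XT.lf (nat_lit 0) (nat_lit 924338069) (nat_lit 304) (nat_lit 3231665526) (nat_lit 76) (nat_lit 8575643410) (nat_lit 106) (nat_lit 5) (nat_lit 110) (nat_lit 5) (nat_lit 107) (nat_lit 5) (nat_lit 623) (nat_lit 504) (nat_lit 433)) (XT.nd (nat_lit 78) (nat_lit 228) (nat_lit 0) (XT.lf (nat_lit 0) (nat_lit 5330435510) (nat_lit 380) (nat_lit 6781932589) (nat_lit 76) (nat_lit 764048216) (nat_lit 102) (nat_lit 5) (nat_lit 107) (nat_lit 5) (nat_lit 103) (nat_lit 5) (nat_lit 624)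 (nat_lit 504) (nat_lit 432)) (XT.lf (nat_lit 0) (nat_lit 2572545107) (nat_lit 228) (nat_lit 7282549076) (nat_lit 304) (nat_lit 3168378886) (nat_lit 99) (nat_lit 5) (nat_lit 102) (nat_lit 5) (nat_lit 103) (nat_lit 5) (nat_lit 625) (nat_lit 504) (nat_lit 431)))) (XT.nd (nat_lit 156) (nat_lit 532) (nat_lit 0) (XT.nd (nat_lit 78) (nat_lit 304) (nat_lit 0) (XT.lf (nat_lit 0) (nat_lit 1290034253) (nat_lit 304) (nat_lit 1036153555) (nat_lit 76) (nat_lit 10846910235) (nat_lit 98) (nat_lit 5) (nat_lit 102) (nat_lit 5) (nat_lit 99) (nat_lit 5) (nat_lit 626) (nat_lit 504) (nat_lit 430)) (XT.lf (nat_lit 0) (nat_lit 5834280557) (nat_lit 380) (nat_lit 4743954361) (nat_lit 76) (nat_lit 2746280743) (nat_lit 94) (nat_lit 5) (nat_lit 99) (nat_lit 5) (nat_lit 95) (nat_lit 5) (nat_lit 627) (nat_lit 504) (nat_lit 429))) (XT.nd (nat_lit 78) (nat_lit 304) (nat_lit 0) (XT.lf (nat_lit 0) (nat_lit 4913970848) (nat_lit 228) (nat_lit 5575039177) (nat_lit 304) (nat_lit 2989560418) (nat_lit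 91) (nat_lit 5) (nat_lit 94) (nat_lit 5) (nat_lit 95) (nat_lit 5) (nat_lit 628) (nat_lit 504) (nat_lit 428)) (XT.lf (nat_lit 0) (nat_lit 1138692149) (nat_lit 228) (nat_lit 446229857) (nat_lit 304) (nat_lit 12050481286) (nat_lit 87) (nat_lit 5) (nat_lit 90) (nat_lit 5) (nat_lit 91) (nat_lit 5) (nat_lit 629) (nat_lit 504) (nat_lit 427))))) (XT.nd (nat_lit 234) (nat_lit 760) (nat_lit 0) (XT.nd (nat_lit 78) (nat_lit 532) (nat_lit 0) (XT.lf (nat_lit 0) (nat_lit 6265307515) (nat_lit 304) (nat_lit 2753381759) (nat_lit 76) (nat_lit 4775200163) (nat_lit 87) (nat_lit 5) (nat_lit 91) (nat_lit 5) (nat_lit 88) (nat_lit 5) (nat_lit 630) (nat_lit 504) (nat_lit 426)) (XT.nd (nat_lit 78) (nat_lit 304) (nat_lit 0) (XT.lf (nat_lit 0) (nat_lit 7217641162) (nat_lit 228) (nat_lit 3837637467) (nat_lit 304) (nat_lit 2899947836) (nat_lit 84) (nat_lit 5) (nat_lit 87) (nat_lit 5) (nat_lit 88) (nat_lit 5) (nat_lit 631) (nat_lit 504) (nat_lit 425)) (XT.lf (nat_lit 0) (nat_lit 1813051361)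 (nat_lit 304) (nat_lit 10850915059) (nat_lit 76) (nat_lit 1455274437) (nat_lit 80) (nat_lit 5) (nat_lit 84) (nat_lit 5) (nat_lit 81) (nat_lit 5) (nat_lit 632) (nat_lit 504) (nat_lit 424)))) (XT.nd (nat_lit 156) (nat_lit 532) (nat_lit 0) (XT.nd (nat_lit 78) (nat_lit 228) (nat_lit 0) (XT.lf (nat_lit 0) (nat_lit 6618784836) (nat_lit 304) (nat_lit 823926524) (nat_lit 76) (nat_lit 6842695390) (nat_lit 80) (nat_lit 5) (nat_lit 84) (nat_lit 5) (nat_lit 81) (nat_lit 5) (nat_lit 633) (nat_lit 504) (nat_lit 423)) (XT.lf (nat_lit 0) (nat_lit 9469898343) (nat_lit 228) (nat_lit 2079220786) (nat_lit 304) (nat_lit 2905207771) (nat_lit 77) (nat_lit 5) (nat_lit 80) (nat_lit 5) (nat_lit 81) (nat_lit 5) (nat_lit 634) (nat_lit 504) (nat_lit 422))) (XT.nd (nat_lit 78) (nat_lit 228) (nat_lit 0) (XT.lf (nat_lit 0) (nat_lit 1955433415) (nat_lit 304) (nat_lit 9294631195) (nat_lit 76) (nat_lit 3375716238) (nat_lit 73) (nat_lit 5) (nat_lit 77) (nat_lit 5) (nat_lit 74) (nat_lit 5) (nat_lit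 635) (nat_lit 504) (nat_lit 421)) (XT.lf (nat_lit 0) (nat_lit 1042986401) (nat_lit 228) (nat_lit 5852815591) (nat_lit 304) (nat_lit 7904050134) (nat_lit 70) (nat_lit 5) (nat_lit 73) (nat_lit 5) (nat_lit 74) (nat_lit 5) (nat_lit 636) (nat_lit 504) (nat_lit 420)))))) (XT.nd (nat_lit 546) (nat_lit 1064) (nat_lit 0) (XT.nd (nat_lit 234) (nat_lit 456) (nat_lit 0) (XT.nd (nat_lit 78) (nat_lit 456) (nat_lit 0) (XT.lf (nat_lit 0) (nat_lit 11655658233) (nat_lit 228) (nat_lit 309128640) (nat_lit 304) (nat_lit 3012022392) (nat_lit 70) (nat_lit 5) (nat_lit 73) (nat_lit 5) (nat_lit 74) (nat_lit 5) (nat_lit 637) (nat_lit 504) (nat_lit 419)) (XT.nd (nat_lit 78) (nat_lit 152) (nat_lit 0) (XT.lf (nat_lit 0) (nat_lit 2002435530) (nat_lit 304) (nat_lit 7841838241) (nat_lit 76) (nat_lit 5311764946) (nat_lit 66) (nat_lit 5) (nat_lit 70) (nat_lit 5) (nat_lit 67) (nat_lit 5) (nat_lit 638) (nat_lit 504) (nat_lit 418)) (XT.lf (nat_lit 0) (nat_lit 2826713619) (nat_lit 152) (nat_lit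 4260975588) (nat_lit 228) (nat_lit 8250549188) (nat_lit 64) (nat_lit 5) (nat_lit 66) (nat_lit 5) (nat_lit 67) (nat_lit 5) (nat_lit 639) (nat_lit 504) (nat_lit 417)))) (XT.nd (nat_lit 156) (nat_lit 152) (nat_lit 0) (XT.nd (nat_lit 78) (nat_lit 304) (nat_lit 0) (XT.lf (nat_lit 0) (nat_lit 12304993217) (nat_lit 228) (nat_lit 1774940709) (nat_lit 76) (nat_lit 1443541802) (nat_lit 64) (nat_lit 5) (nat_lit 67) (nat_lit 5) (nat_lit 65) (nat_lit 5) (nat_lit 640) (nat_lit 504) (nat_lit 416)) (XT.lf (nat_lit 0) (nat_lit 1946219668) (nat_lit 304) (nat_lit 6511167773) (nat_lit 76) (nat_lit 7253640352) (nat_lit 60) (nat_lit 5) (nat_lit 64) (nat_lit 5) (nat_lit 61) (nat_lit 5) (nat_lit 641) (nat_lit 504) (nat_lit 415))) (XT.nd (nat_lit 78) (nat_lit 0) (nat_lit 0) (XT.lf (nat_lit 0) (nat_lit 4497604681) (nat_lit 152) (nat_lit 2683482904) (nat_lit 228) (nat_lit 8720619021) (nat_lit 58) (nat_lit 5) (nat_lit 60) (nat_lit 5) (nat_lit 61) (nat_lit 5) (nat_lit 642) (nat_lit 504)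 (nat_lit 414)) (XT.lf (nat_lit 0) (nat_lit 12554276734) (nat_lit 228) (nat_lit 357819945) (nat_lit 76) (nat_lit 3183430363) (nat_lit 58) (nat_lit 5) (nat_lit 61) (nat_lit 5) (nat_lit 59) (nat_lit 5) (nat_lit 643) (nat_lit 504) (nat_lit 413))))) (XT.nd (nat_lit 312) (nat_lit 304) (nat_lit 0) (XT.nd (nat_lit 156) (nat_lit 304) (nat_lit 0) (XT.nd (nat_lit 78) (nat_lit 152) (nat_lit 0) (XT.lf (nat_lit 0) (nat_lit 1777751757) (nat_lit 304) (nat_lit 5323224029) (nat_lit 76) (nat_lit 9190844661) (nat_lit 54) (nat_lit 5) (nat_lit 58) (nat_lit 5) (nat_lit 55) (nat_lit 5) (nat_lit 644) (nat_lit 504) (nat_lit 412)) (XT.lf (nat_lit 0) (nat_lit 6034935787) (nat_lit 152) (nat_lit 1131905077) (nat_lit 228) (nat_lit 9324508709) (nat_lit 52) (nat_lit 5) (nat_lit 54) (nat_lit 5) (nat_lit 55) (nat_lit 5) (nat_lit 645) (nat_lit 504) (nat_lit 411))) (XT.nd (nat_lit 78) (nat_lit 76) (nat_lit 0) (XT.lf (nat_lit 0) (nat_lit 922716012) (nat_lit 228) (nat_lit 11784689807) (nat_lit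 304) (nat_lit 3986590066) (nat_lit 49) (nat_lit 5) (nat_lit 52) (nat_lit 5) (nat_lit 53) (nat_lit 5) (nat_lit 646) (nat_lit 504) (nat_lit 410)) (XT.lf (nat_lit 0) (nat_lit 1486696576) (nat_lit 304) (nat_lit 4300822058) (nat_lit 76) (nat_lit 11112032963) (nat_lit 48) (nat_lit 5) (nat_lit 52) (nat_lit 5) (nat_lit 49) (nat_lit 5) (nat_lit 647) (nat_lit 504) (nat_lit 409)))) (XT.nd (nat_lit 73554) (nat_lit 0) (nat_lit 42408) (XT.nd (nat_lit 78) (nat_lit 152) (nat_lit 0) (XT.lf (nat_lit 0) (nat_lit 7036941386) (nat_lit 228) (nat_lit 9695083921) (nat_lit 76) (nat_lit 376249086) (nat_lit 46) (nat_lit 5) (nat_lit 49) (nat_lit 5) (nat_lit 47) (nat_lit 5) (nat_lit 648) (nat_lit 504) (nat_lit 408)) (XT.lf (nat_lit 0) (nat_lit 2033068074) (nat_lit 152) (nat_lit 10715980073) (nat_lit 228) (nat_lit 4571106804) (nat_lit 44) (nat_lit 5) (nat_lit 46) (nat_lit 5) (nat_lit 47) (nat_lit 5) (nat_lit 649) (nat_lit 504) (nat_lit 407))) (XT.nd (nat_lit 78) (nat_lit 0) (nat_lit 0)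 (XT.lf (nat_lit 0) (nat_lit 192582949) (nat_lit 1444) (nat_lit 3050606907) (nat_lit 0) (nat_lit 192582949) (nat_lit 602) (nat_lit 5) (nat_lit 621) (nat_lit 4) (nat_lit 602) (nat_lit 4) (nat_lit 550) (nat_lit 505) (nat_lit 505)) (XT.lf (nat_lit 0) (nat_lit 3792843632) (nat_lit 1444) (nat_lit 1266654235) (nat_lit 0) (nat_lit 1841187884) (nat_lit 602) (nat_lit 5) (nat_lit 621) (nat_lit 4) (nat_lit 602) (nat_lit 4) (nat_lit 551) (nat_lit 505) (nat_lit 504))))))))
noncomputable def xc43 : XT := (XT.nd (nat_lit 2262) (nat_lit 11020) (nat_lit 0) (XT.nd (nat_lit 1092) (nat_lit 9196) (nat_lit 0) (XT.nd (nat_lit 546) (nat_lit 5852) (nat_lit 0) (XT.nd (nat_lit 234) (nat_lit 5092) (nat_lit 0) (XT.nd (nat_lit 78) (nat_lit 1596) (nat_lit 0) (XT.lf (nat_lit 0) (nat_lit 286965321) (nat_lit 1520) (nat_lit 3285373786) (nat_lit 76) (nat_lit 3358969050) (nat_lit 582) (nat_lit 5) (nat_lit 602) (nat_lit 5) (nat_lit 583) (nat_lit 4) (nat_lit 552) (nat_lit 505) (nat_lit 503)) (XT.nd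 (nat_lit 78) (nat_lit 76) (nat_lit 0) (XT.lf (nat_lit 0) (nat_lit 1647453469) (nat_lit 1520) (nat_lit 2010154343) (nat_lit 1596) (nat_lit 3305539264) (nat_lit 562) (nat_lit 5) (nat_lit 582) (nat_lit 5) (nat_lit 583) (nat_lit 4) (nat_lit 553) (nat_lit 505) (nat_lit 502)) (XT.lf (nat_lit 0) (nat_lit 51668623) (nat_lit 1596) (nat_lit 338090592) (nat_lit 76) (nat_lit 6606797509) (nat_lit 561) (nat_lit 5) (nat_lit 582) (nat_lit 5) (nat_lit 562) (nat_lit 5) (nat_lit 554) (nat_lit 505) (nat_lit 501)))) (XT.nd (nat_lit 156) (nat_lit 1824) (nat_lit 0) (XT.nd (nat_lit 78) (nat_lit 1672) (nat_lit 0) (XT.lf (nat_lit 0) (nat_lit 3403089040) (nat_lit 1672) (nat_lit 2324810480) (nat_lit 76) (nat_lit 1302877098) (nat_lit 540) (nat_lit 5) (nat_lit 562) (nat_lit 5) (nat_lit 541) (nat_lit 4) (nat_lit 555) (nat_lit 505) (nat_lit 500)) (XT.lf (nat_lit 0) (nat_lit 2758188474) (nat_lit 1672) (nat_lit 4019164628) (nat_lit 1748) (nat_lit 289217026) (nat_lit 518) (nat_lit 5) (nat_lit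 540) (nat_lit 5) (nat_lit 541) (nat_lit 4) (nat_lit 556) (nat_lit 505) (nat_lit 499))) (XT.nd (nat_lit 78) (nat_lit 0) (nat_lit 0) (XT.lf (nat_lit 0) (nat_lit 795997592) (nat_lit 1748) (nat_lit 2233521807) (nat_lit 1824) (nat_lit 4074073522) (nat_lit 494) (nat_lit 5) (nat_lit 517) (nat_lit 5) (nat_lit 518) (nat_lit 5) (nat_lit 557) (nat_lit 505) (nat_lit 498)) (XT.lf (nat_lit 0) (nat_lit 5993656329) (nat_lit 1748) (nat_lit 380375959) (nat_lit 1824) (nat_lit 768025364) (nat_lit 494) (nat_lit 5) (nat_lit 517) (nat_lit 5) (nat_lit 518) (nat_lit 5) (nat_lit 558) (nat_lit 505) (nat_lit 497))))) (XT.nd (nat_lit 234) (nat_lit 1900) (nat_lit 0) (XT.nd (nat_lit 78) (nat_lit 2052) (nat_lit 0) (XT.lf (nat_lit 0) (nat_lit 2541835134) (nat_lit 1900) (nat_lit 3106013205) (nat_lit 76) (nat_lit 1533673283) (nat_lit 469) (nat_lit 5) (nat_lit 494) (nat_lit 5) (nat_lit 470) (nat_lit 5) (nat_lit 559) (nat_lit 505) (nat_lit 496)) (XT.nd (nat_lit 78) (nat_lit 988) (nat_lit 0) (XT.lf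 (nat_lit 0) (nat_lit 2152711430) (nat_lit 1064) (nat_lit 3715236416) (nat_lit 1140) (nat_lit 1354523621) (nat_lit 455) (nat_lit 5) (nat_lit 469) (nat_lit 5) (nat_lit 470) (nat_lit 5) (nat_lit 560) (nat_lit 505) (nat_lit 495)) (XT.lf (nat_lit 0) (nat_lit 218531957) (nat_lit 912) (nat_lit 1710510994) (nat_lit 988) (nat_lit 5335765183) (nat_lit 442) (nat_lit 5) (nat_lit 454) (nat_lit 5) (nat_lit 455) (nat_lit 5) (nat_lit 561) (nat_lit 505) (nat_lit 494)))) (XT.nd (nat_lit 156) (nat_lit 912) (nat_lit 0) (XT.nd (nat_lit 78) (nat_lit 988) (nat_lit 0) (XT.lf (nat_lit 0) (nat_lit 5233859836) (nat_lit 988) (nat_lit 1704294196) (nat_lit 76) (nat_lit 370188737) (nat_lit 442) (nat_lit 5) (nat_lit 455) (nat_lit 5) (nat_lit 443) (nat_lit 5) (nat_lit 562) (nat_lit 505) (nat_lit 493)) (XT.lf (nat_lit 0) (nat_lit 1209396523) (nat_lit 988) (nat_lit 3644906278) (nat_lit 76) (nat_lit 2498811318) (nat_lit 429) (nat_lit 5) (nat_lit 442) (nat_lit 5) (nat_lit 430) (nat_lit 5) (nat_lit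 563) (nat_lit 505) (nat_lit 492))) (XT.nd (nat_lit 78) (nat_lit 76) (nat_lit 0) (XT.lf (nat_lit 0) (nat_lit 1797266276) (nat_lit 836) (nat_lit 2696005679) (nat_lit 912) (nat_lit 2905997136) (nat_lit 418) (nat_lit 5) (nat_lit 429) (nat_lit 5) (nat_lit 430) (nat_lit 5) (nat_lit 564) (nat_lit 505) (nat_lit 491)) (XT.lf (nat_lit 0) (nat_lit 355156081) (nat_lit 912) (nat_lit 117282494) (nat_lit 76) (nat_lit 6974583725) (nat_lit 417) (nat_lit 5) (nat_lit 429) (nat_lit 5) (nat_lit 418) (nat_lit 5) (nat_lit 565) (nat_lit 505) (nat_lit 490)))))) (XT.nd (nat_lit 546) (nat_lit 4256) (nat_lit 0) (XT.nd (nat_lit 234) (nat_lit 2356) (nat_lit 0) (XT.nd (nat_lit 78) (nat_lit 1748) (nat_lit 0) (XT.lf (nat_lit 0) (nat_lit 3630569259) (nat_lit 912) (nat_lit 2043337921) (nat_lit 76) (nat_lit 1821684362) (nat_lit 406) (nat_lit 5) (nat_lit 418) (nat_lit 5) (nat_lit 407) (nat_lit 5) (nat_lit 566) (nat_lit 505) (nat_lit 489)) (XT.nd (nat_lit 78) (nat_lit 912) (nat_lit 0) (XT.lf (nat_lit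 0) (nat_lit 3567517748) (nat_lit 836) (nat_lit 3372214655) (nat_lit 912) (nat_lit 606038955) (nat_lit 395) (nat_lit 5) (nat_lit 406) (nat_lit 5) (nat_lit 407) (nat_lit 5) (nat_lit 567) (nat_lit 505) (nat_lit 488)) (XT.lf (nat_lit 0) (nat_lit 1659494624) (nat_lit 836) (nat_lit 989056660) (nat_lit 912) (nat_lit 4948732879) (nat_lit 383) (nat_lit 5) (nat_lit 394) (nat_lit 5) (nat_lit 395) (nat_lit 5) (nat_lit 568) (nat_lit 505) (nat_lit 487)))) (XT.nd (nat_lit 156) (nat_lit 1520) (nat_lit 0) (XT.nd (nat_lit 78) (nat_lit 836) (nat_lit 0) (XT.lf (nat_lit 0) (nat_lit 5938527674) (nat_lit 912) (nat_lit 265732486) (nat_lit 76) (nat_lit 1445922553) (nat_lit 383) (nat_lit 5) (nat_lit 395) (nat_lit 5) (nat_lit 384) (nat_lit 5) (nat_lit 569) (nat_lit 505) (nat_lit 486)) (XT.lf (nat_lit 0) (nat_lit 1554902627) (nat_lit 836) (nat_lit 2194547879) (nat_lit 76) (nat_lit 3954774015) (nat_lit 372) (nat_lit 5) (nat_lit 383) (nat_lit 5) (nat_lit 373) (nat_lit 5) (nat_lit 570)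 (nat_lit 505) (nat_lit 485))) (XT.nd (nat_lit 78) (nat_lit 760) (nat_lit 0) (XT.lf (nat_lit 0) (nat_lit 3615126286) (nat_lit 760) (nat_lit 1217650788) (nat_lit 836) (nat_lit 2926969288) (nat_lit 362) (nat_lit 5) (nat_lit 372) (nat_lit 5) (nat_lit 373) (nat_lit 5) (nat_lit 571) (nat_lit 505) (nat_lit 484)) (XT.lf (nat_lit 0) (nat_lit 333935835) (nat_lit 760) (nat_lit 6117430066) (nat_lit 76) (nat_lit 1365392956) (nat_lit 352) (nat_lit 5) (nat_lit 362) (nat_lit 5) (nat_lit 353) (nat_lit 5) (nat_lit 572) (nat_lit 505) (nat_lit 483))))) (XT.nd (nat_lit 312) (nat_lit 2052) (nat_lit 0) (XT.nd (nat_lit 156) (nat_lit 1444) (nat_lit 0) (XT.nd (nat_lit 78) (nat_lit 760) (nat_lit 0) (XT.lf (nat_lit 0) (nat_lit 3601495383) (nat_lit 760) (nat_lit 252398275) (nat_lit 76) (nat_lit 4021021796) (nat_lit 352) (nat_lit 5) (nat_lit 362) (nat_lit 5) (nat_lit 353) (nat_lit 5) (nat_lit 573) (nat_lit 505) (nat_lit 482)) (XT.lf (nat_lit 0) (nat_lit 5739772124) (nat_lit 760) (nat_lit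 1177519153) (nat_lit 836) (nat_lit 1017289505) (nat_lit 342) (nat_lit 5) (nat_lit 352) (nat_lit 5) (nat_lit 353) (nat_lit 5) (nat_lit 574) (nat_lit 505) (nat_lit 481))) (XT.nd (nat_lit 78) (nat_lit 684) (nat_lit 0) (XT.lf (nat_lit 0) (nat_lit 2256496668) (nat_lit 760) (nat_lit 4176650388) (nat_lit 76) (nat_lit 1562341358) (nat_lit 332) (nat_lit 5) (nat_lit 342) (nat_lit 5) (nat_lit 333) (nat_lit 5) (nat_lit 575) (nat_lit 505) (nat_lit 480)) (XT.lf (nat_lit 0) (nat_lit 1868771089) (nat_lit 684) (nat_lit 3694599764) (nat_lit 760) (nat_lit 2494487294) (nat_lit 323) (nat_lit 5) (nat_lit 332) (nat_lit 5) (nat_lit 333) (nat_lit 5) (nat_lit 576) (nat_lit 505) (nat_lit 479)))) (XT.nd (nat_lit 156) (nat_lit 1368) (nat_lit 0) (XT.nd (nat_lit 78) (nat_lit 608) (nat_lit 0) (XT.lf (nat_lit 0) (nat_lit 779165185) (nat_lit 760) (nat_lit 101244110) (nat_lit 76) (nat_lit 7241464242) (nat_lit 322) (nat_lit 5) (nat_lit 332) (nat_lit 5) (nat_lit 323) (nat_lit 5) (nat_lit 577)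 (nat_lit 505) (nat_lit 478)) (XT.lf (nat_lit 0) (nat_lit 4085554297) (nat_lit 684) (nat_lit 2093639666) (nat_lit 76) (nat_lit 2007635135) (nat_lit 314) (nat_lit 5) (nat_lit 323) (nat_lit 5) (nat_lit 315) (nat_lit 5) (nat_lit 578) (nat_lit 505) (nat_lit 477))) (XT.nd (nat_lit 78) (nat_lit 684) (nat_lit 0) (XT.lf (nat_lit 0) (nat_lit 4142524515) (nat_lit 684) (nat_lit 3297251271) (nat_lit 760) (nat_lit 813676766) (nat_lit 305) (nat_lit 5) (nat_lit 314) (nat_lit 5) (nat_lit 315) (nat_lit 5) (nat_lit 579) (nat_lit 505) (nat_lit 476)) (XT.lf (nat_lit 0) (nat_lit 2156324544) (nat_lit 608) (nat_lit 326725559) (nat_lit 684) (nat_lit 5838497648) (nat_lit 296) (nat_lit 5) (nat_lit 304) (nat_lit 5) (nat_lit 305) (nat_lit 5) (nat_lit 580) (nat_lit 505) (nat_lit 475))))))) (XT.nd (nat_lit 1170) (nat_lit 4712) (nat_lit 0) (XT.nd (nat_lit 546) (nat_lit 3192) (nat_lit 0) (XT.nd (nat_lit 234) (nat_lit 1824) (nat_lit 0) (XT.nd (nat_lit 78) (nat_lit 684) (nat_lit 0) (XT.lf (nat_lit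 0) (nat_lit 126198372) (nat_lit 608) (nat_lit 5703797562) (nat_lit 684) (nat_lit 2561000468) (nat_lit 288) (nat_lit 5) (nat_lit 296) (nat_lit 5) (nat_lit 297) (nat_lit 5) (nat_lit 581) (nat_lit 505) (nat_lit 474)) (XT.nd (nat_lit 78) (nat_lit 608) (nat_lit 0) (XT.lf (nat_lit 0) (nat_lit 764863303) (nat_lit 684) (nat_lit 1908269646) (nat_lit 76) (nat_lit 5788740662) (nat_lit 287) (nat_lit 5) (nat_lit 296) (nat_lit 5) (nat_lit 288) (nat_lit 5) (nat_lit 582) (nat_lit 505) (nat_lit 473)) (XT.lf (nat_lit 0) (nat_lit 4105723070) (nat_lit 684) (nat_lit 3984476216) (nat_lit 76) (nat_lit 443977657) (nat_lit 279) (nat_lit 5) (nat_lit 288) (nat_lit 5) (nat_lit 280) (nat_lit 5) (nat_lit 583) (nat_lit 505) (nat_lit 472)))) (XT.nd (nat_lit 156) (nat_lit 608) (nat_lit 0) (XT.nd (nat_lit 78) (nat_lit 608) (nat_lit 0) (XT.lf (nat_lit 0) (nat_lit 2504171374) (nat_lit 608) (nat_lit 5006789382) (nat_lit 684) (nat_lit 1097016871) (nat_lit 271) (nat_lit 5) (nat_lit 279) (nat_lit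 5) (nat_lit 280) (nat_lit 5) (nat_lit 584) (nat_lit 505) (nat_lit 471)) (XT.lf (nat_lit 0) (nat_lit 418117703) (nat_lit 532) (nat_lit 1833307122) (nat_lit 608) (nat_lit 6431922014) (nat_lit 263) (nat_lit 5) (nat_lit 270) (nat_lit 5) (nat_lit 271) (nat_lit 5) (nat_lit 585) (nat_lit 505) (nat_lit 470))) (XT.nd (nat_lit 78) (nat_lit 608) (nat_lit 0) (XT.lf (nat_lit 0) (nat_lit 5653853667) (nat_lit 608) (nat_lit 1689393681) (nat_lit 76) (nat_lit 1416799273) (nat_lit 263) (nat_lit 5) (nat_lit 271) (nat_lit 5) (nat_lit 264) (nat_lit 5) (nat_lit 586) (nat_lit 505) (nat_lit 469)) (XT.lf (nat_lit 0) (nat_lit 279224572) (nat_lit 608) (nat_lit 3833959431) (nat_lit 76) (nat_lit 4725123005) (nat_lit 255) (nat_lit 5) (nat_lit 263) (nat_lit 5) (nat_lit 256) (nat_lit 5) (nat_lit 587) (nat_lit 505) (nat_lit 468))))) (XT.nd (nat_lit 312) (nat_lit 1596) (nat_lit 0) (XT.nd (nat_lit 156) (nat_lit 532) (nat_lit 0) (XT.nd (nat_lit 78) (nat_lit 532) (nat_lit 0) (XT.lf (nat_lit 0)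 (nat_lit 2888740749) (nat_lit 532) (nat_lit 784726893) (nat_lit 608) (nat_lit 5244602364) (nat_lit 248) (nat_lit 5) (nat_lit 255) (nat_lit 5) (nat_lit 256) (nat_lit 5) (nat_lit 588) (nat_lit 505) (nat_lit 467)) (XT.lf (nat_lit 0) (nat_lit 725496538) (nat_lit 532) (nat_lit 6410550317) (nat_lit 608) (nat_lit 1863374560) (nat_lit 241) (nat_lit 5) (nat_lit 248) (nat_lit 5) (nat_lit 249) (nat_lit 5) (nat_lit 589) (nat_lit 505) (nat_lit 466))) (XT.nd (nat_lit 78) (nat_lit 456) (nat_lit 0) (XT.lf (nat_lit 0) (nat_lit 1563691706) (nat_lit 608) (nat_lit 1466245663) (nat_lit 76) (nat_lit 6052278543) (nat_lit 240) (nat_lit 5) (nat_lit 248) (nat_lit 5) (nat_lit 241) (nat_lit 5) (nat_lit 590) (nat_lit 505) (nat_lit 465)) (XT.lf (nat_lit 0) (nat_lit 5026815583) (nat_lit 532) (nat_lit 3697274523) (nat_lit 76) (nat_lit 442482570) (nat_lit 234) (nat_lit 5) (nat_lit 241) (nat_lit 5) (nat_lit 235) (nat_lit 5) (nat_lit 591) (nat_lit 505) (nat_lit 464)))) (XT.nd (nat_lit 156)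 (nat_lit 532) (nat_lit 0) (XT.nd (nat_lit 78) (nat_lit 532) (nat_lit 0) (XT.lf (nat_lit 0) (nat_lit 3268632747) (nat_lit 532) (nat_lit 5296126606) (nat_lit 608) (nat_lit 687748086) (nat_lit 227) (nat_lit 5) (nat_lit 234) (nat_lit 5) (nat_lit 235) (nat_lit 5) (nat_lit 592) (nat_lit 505) (nat_lit 463)) (XT.lf (nat_lit 0) (nat_lit 1013755512) (nat_lit 456) (nat_lit 1768482114) (nat_lit 532) (nat_lit 6557835376) (nat_lit 220) (nat_lit 5) (nat_lit 226) (nat_lit 5) (nat_lit 227) (nat_lit 5) (nat_lit 593) (nat_lit 505) (nat_lit 462))) (XT.nd (nat_lit 78) (nat_lit 532) (nat_lit 0) (XT.lf (nat_lit 0) (nat_lit 6319603411) (nat_lit 532) (nat_lit 1278469991) (nat_lit 76) (nat_lit 1831083664) (nat_lit 220) (nat_lit 5) (nat_lit 227) (nat_lit 5) (nat_lit 221) (nat_lit 5) (nat_lit 594) (nat_lit 505) (nat_lit 461)) (XT.lf (nat_lit 0) (nat_lit 408243687) (nat_lit 532) (nat_lit 3610783491) (nat_lit 76) (nat_lit 5500826577) (nat_lit 213) (nat_lit 5) (nat_lit 220) (nat_lit 5)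 (nat_lit 214) (nat_lit 5) (nat_lit 595) (nat_lit 505) (nat_lit 460)))))) (XT.nd (nat_lit 546) (nat_lit 2432) (nat_lit 0) (XT.nd (nat_lit 234) (nat_lit 1292) (nat_lit 0) (XT.nd (nat_lit 78) (nat_lit 532) (nat_lit 0) (XT.lf (nat_lit 0) (nat_lit 3607652162) (nat_lit 456) (nat_lit 335131475) (nat_lit 532) (nat_lit 5669410973) (nat_lit 207) (nat_lit 5) (nat_lit 213) (nat_lit 5) (nat_lit 214) (nat_lit 5) (nat_lit 596) (nat_lit 505) (nat_lit 459)) (XT.nd (nat_lit 78) (nat_lit 76) (nat_lit 0) (XT.lf (nat_lit 0) (nat_lit 1242591038) (nat_lit 456) (nat_lit 6316343197) (nat_lit 532) (nat_lit 2147231401) (nat_lit 201) (nat_lit 5) (nat_lit 207) (nat_lit 5) (nat_lit 208) (nat_lit 5) (nat_lit 597) (nat_lit 505) (nat_lit 458)) (XT.lf (nat_lit 0) (nat_lit 1425607033) (nat_lit 532) (nat_lit 1162003781) (nat_lit 76) (nat_lit 7214235828) (nat_lit 200) (nat_lit 5) (nat_lit 207) (nat_lit 5) (nat_lit 201) (nat_lit 5) (nat_lit 598) (nat_lit 505) (nat_lit 457)))) (XT.nd (nat_lit 156)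 (nat_lit 456) (nat_lit 0) (XT.nd (nat_lit 78) (nat_lit 456) (nat_lit 0) (XT.lf (nat_lit 0) (nat_lit 5047386299) (nat_lit 456) (nat_lit 3617152459) (nat_lit 76) (nat_lit 1234495585) (nat_lit 195) (nat_lit 5) (nat_lit 201) (nat_lit 5) (nat_lit 196) (nat_lit 5) (nat_lit 599) (nat_lit 505) (nat_lit 456)) (XT.lf (nat_lit 0) (nat_lit 3861845431) (nat_lit 456) (nat_lit 4887353439) (nat_lit 532) (nat_lit 1248816593) (nat_lit 189) (nat_lit 5) (nat_lit 195) (nat_lit 5) (nat_lit 196) (nat_lit 5) (nat_lit 600) (nat_lit 505) (nat_lit 455))) (XT.nd (nat_lit 78) (nat_lit 0) (nat_lit 0) (XT.lf (nat_lit 0) (nat_lit 1378992465) (nat_lit 380) (nat_lit 1006325785) (nat_lit 456) (nat_lit 7713523175) (nat_lit 183) (nat_lit 5) (nat_lit 188) (nat_lit 5) (nat_lit 189) (nat_lit 5) (nat_lit 601) (nat_lit 505) (nat_lit 454)) (XT.lf (nat_lit 0) (nat_lit 6094000340) (nat_lit 456) (nat_lit 1165357020) (nat_lit 76) (nat_lit 2941791253) (nat_lit 183) (nat_lit 5) (nat_lit 189) (nat_lit 5)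 (nat_lit 184) (nat_lit 5) (nat_lit 602) (nat_lit 505) (nat_lit 453))))) (XT.nd (nat_lit 312) (nat_lit 1140) (nat_lit 0) (XT.nd (nat_lit 156) (nat_lit 456) (nat_lit 0) (XT.nd (nat_lit 78) (nat_lit 456) (nat_lit 0) (XT.lf (nat_lit 0) (nat_lit 6556390921) (nat_lit 380) (nat_lit 3328474968) (nat_lit 456) (nat_lit 420477356) (nat_lit 178) (nat_lit 5) (nat_lit 183) (nat_lit 5) (nat_lit 184) (nat_lit 5) (nat_lit 603) (nat_lit 505) (nat_lit 452)) (XT.lf (nat_lit 0) (nat_lit 3293545975) (nat_lit 456) (nat_lit 6411582402) (nat_lit 76) (nat_lit 706112674) (nat_lit 172) (nat_lit 5) (nat_lit 178) (nat_lit 5) (nat_lit 173) (nat_lit 5) (nat_lit 604) (nat_lit 505) (nat_lit 451))) (XT.nd (nat_lit 78) (nat_lit 76) (nat_lit 0) (XT.lf (nat_lit 0) (nat_lit 1364665255) (nat_lit 380) (nat_lit 5726946500) (nat_lit 456) (nat_lit 3427283036) (nat_lit 167) (nat_lit 5) (nat_lit 172) (nat_lit 5) (nat_lit 173) (nat_lit 5) (nat_lit 605) (nat_lit 505) (nat_lit 450)) (XT.lf (nat_lit 0) (nat_lit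 335109638) (nat_lit 456) (nat_lit 1310634217) (nat_lit 76) (nat_lit 8982863525) (nat_lit 166) (nat_lit 5) (nat_lit 172) (nat_lit 5) (nat_lit 167) (nat_lit 5) (nat_lit 606) (nat_lit 505) (nat_lit 449)))) (XT.nd (nat_lit 156) (nat_lit 380) (nat_lit 0) (XT.nd (nat_lit 78) (nat_lit 380) (nat_lit 0) (XT.lf (nat_lit 0) (nat_lit 4147068141) (nat_lit 456) (nat_lit 4064137265) (nat_lit 76) (nat_lit 2528452869) (nat_lit 161) (nat_lit 5) (nat_lit 167) (nat_lit 5) (nat_lit 162) (nat_lit 5) (nat_lit 607) (nat_lit 505) (nat_lit 448)) (XT.lf (nat_lit 0) (nat_lit 3964796608) (nat_lit 380) (nat_lit 4076277567) (nat_lit 456) (nat_lit 2811741149) (nat_lit 156) (nat_lit 5) (nat_lit 161) (nat_lit 5) (nat_lit 162) (nat_lit 5) (nat_lit 608) (nat_lit 505) (nat_lit 447))) (XT.nd (nat_lit 78) (nat_lit 0) (nat_lit 0) (XT.lf (nat_lit 0) (nat_lit 1027657880) (nat_lit 380) (nat_lit 9781684598) (nat_lit 76) (nat_lit 158825928) (nat_lit 151) (nat_lit 5) (nat_lit 156) (nat_lit 5) (nat_lit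 152) (nat_lit 5) (nat_lit 609) (nat_lit 505) (nat_lit 446)) (XT.lf (nat_lit 0) (nat_lit 4940401601) (nat_lit 380) (nat_lit 1677974104) (nat_lit 76) (nat_lit 4466398241) (nat_lit 151) (nat_lit 5) (nat_lit 156) (nat_lit 5) (nat_lit 152) (nat_lit 5) (nat_lit 610) (nat_lit 505) (nat_lit 445))))))))
noncomputable def xc44 : XT := (XT.nd (nat_lit 2262) (nat_lit 1520) (nat_lit 0) (XT.nd (nat_lit 1092) (nat_lit 2736) (nat_lit 0) (XT.nd (nat_lit 546) (nat_lit 1596) (nat_lit 0) (XT.nd (nat_lit 234) (nat_lit 988) (nat_lit 0) (XT.nd (nat_lit 78) (nat_lit 760) (nat_lit 0) (XT.lf (nat_lit 0) (nat_lit 6612780399) (nat_lit 380) (nat_lit 2322973154) (nat_lit 456) (nat_lit 2267872179) (nat_lit 146) (nat_lit 5) (nat_lit 151) (nat_lit 5) (nat_lit 152) (nat_lit 5) (nat_lit 611) (nat_lit 505) (nat_lit 444)) (XT.nd (nat_lit 78) (nat_lit 380) (nat_lit 0) (XT.lf (nat_lit 0) (nat_lit 1674728276) (nat_lit 380) (nat_lit 7594535655) (nat_lit 76) (nat_lit 2055159136) (nat_lit 141) (nat_lit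 5) (nat_lit 146) (nat_lit 5) (nat_lit 142) (nat_lit 5) (nat_lit 612) (nat_lit 505) (nat_lit 443)) (XT.lf (nat_lit 0) (nat_lit 749396967) (nat_lit 380) (nat_lit 4929432460) (nat_lit 456) (nat_lit 5768247930) (nat_lit 136) (nat_lit 5) (nat_lit 141) (nat_lit 5) (nat_lit 142) (nat_lit 5) (nat_lit 613) (nat_lit 505) (nat_lit 442)))) (XT.nd (nat_lit 156) (nat_lit 608) (nat_lit 0) (XT.nd (nat_lit 78) (nat_lit 380) (nat_lit 0) (XT.lf (nat_lit 0) (nat_lit 9301493260) (nat_lit 380) (nat_lit 474559381) (nat_lit 456) (nat_lit 1795872403) (nat_lit 136) (nat_lit 5) (nat_lit 141) (nat_lit 5) (nat_lit 142) (nat_lit 5) (nat_lit 614) (nat_lit 505) (nat_lit 441)) (XT.lf (nat_lit 0) (nat_lit 2256691194) (nat_lit 380) (nat_lit 5392721480) (nat_lit 76) (nat_lit 4048958580) (nat_lit 131) (nat_lit 5) (nat_lit 136) (nat_lit 5) (nat_lit 132) (nat_lit 5) (nat_lit 615) (nat_lit 505) (nat_lit 440))) (XT.nd (nat_lit 78) (nat_lit 304) (nat_lit 0) (XT.lf (nat_lit 0) (nat_lit 3222980921)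 (nat_lit 304) (nat_lit 3145467489) (nat_lit 380) (nat_lit 5458617830) (nat_lit 127) (nat_lit 5) (nat_lit 131) (nat_lit 5) (nat_lit 132) (nat_lit 5) (nat_lit 616) (nat_lit 505) (nat_lit 439)) (XT.lf (nat_lit 0) (nat_lit 56257072) (nat_lit 304) (nat_lit 10515324073) (nat_lit 380) (nat_lit 1386572199) (nat_lit 123) (nat_lit 5) (nat_lit 127) (nat_lit 5) (nat_lit 128) (nat_lit 5) (nat_lit 617) (nat_lit 505) (nat_lit 438))))) (XT.nd (nat_lit 234) (nat_lit 988) (nat_lit 0) (XT.nd (nat_lit 78) (nat_lit 532) (nat_lit 0) (XT.lf (nat_lit 0) (nat_lit 2772606338) (nat_lit 380) (nat_lit 3184859144) (nat_lit 76) (nat_lit 6133198791) (nat_lit 122) (nat_lit 5) (nat_lit 127) (nat_lit 5) (nat_lit 123) (nat_lit 5) (nat_lit 618) (nat_lit 505) (nat_lit 437)) (XT.nd (nat_lit 78) (nat_lit 228) (nat_lit 0) (XT.lf (nat_lit 0) (nat_lit 5712044004) (nat_lit 304) (nat_lit 1285216239) (nat_lit 380) (nat_lit 5228365678) (nat_lit 118) (nat_lit 5) (nat_lit 122) (nat_lit 5) (nat_lit 123) (nat_lit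 5) (nat_lit 619) (nat_lit 505) (nat_lit 436)) (XT.lf (nat_lit 0) (nat_lit 2415766725) (nat_lit 228) (nat_lit 8914357998) (nat_lit 304) (nat_lit 1032688679) (nat_lit 115) (nat_lit 5) (nat_lit 118) (nat_lit 5) (nat_lit 119) (nat_lit 5) (nat_lit 620) (nat_lit 505) (nat_lit 435)))) (XT.nd (nat_lit 156) (nat_lit 608) (nat_lit 0) (XT.nd (nat_lit 78) (nat_lit 304) (nat_lit 0) (XT.lf (nat_lit 0) (nat_lit 3220830364) (nat_lit 304) (nat_lit 980213598) (nat_lit 76) (nat_lit 8300949717) (nat_lit 114) (nat_lit 5) (nat_lit 118) (nat_lit 5) (nat_lit 115) (nat_lit 5) (nat_lit 621) (nat_lit 505) (nat_lit 434)) (XT.lf (nat_lit 0) (nat_lit 7567781671) (nat_lit 380) (nat_lit 4440153977) (nat_lit 76) (nat_lit 635442492) (nat_lit 110) (nat_lit 5) (nat_lit 115) (nat_lit 5) (nat_lit 111) (nat_lit 5) (nat_lit 622) (nat_lit 505) (nat_lit 433))) (XT.nd (nat_lit 78) (nat_lit 380) (nat_lit 0) (XT.lf (nat_lit 0) (nat_lit 4771445388) (nat_lit 228) (nat_lit 7260510997) (nat_lit 304) (nat_lit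 755029096) (nat_lit 107) (nat_lit 5) (nat_lit 110) (nat_lit 5) (nat_lit 111) (nat_lit 5) (nat_lit 623) (nat_lit 505) (nat_lit 432)) (XT.lf (nat_lit 0) (nat_lit 1227280159) (nat_lit 304) (nat_lit 2379671248) (nat_lit 380) (nat_lit 9325982228) (nat_lit 102) (nat_lit 5) (nat_lit 106) (nat_lit 5) (nat_lit 107) (nat_lit 5) (nat_lit 624) (nat_lit 505) (nat_lit 431)))))) (XT.nd (nat_lit 546) (nat_lit 1368) (nat_lit 0) (XT.nd (nat_lit 234) (nat_lit 760) (nat_lit 0) (XT.nd (nat_lit 78) (nat_lit 608) (nat_lit 0) (XT.lf (nat_lit 0) (nat_lit 8082170858) (nat_lit 380) (nat_lit 2398994092) (nat_lit 76) (nat_lit 2599814632) (nat_lit 102) (nat_lit 5) (nat_lit 107) (nat_lit 5) (nat_lit 103) (nat_lit 5) (nat_lit 625) (nat_lit 505) (nat_lit 430)) (XT.nd (nat_lit 78) (nat_lit 380) (nat_lit 0) (XT.lf (nat_lit 0) (nat_lit 7112845676) (nat_lit 228) (nat_lit 5561756389) (nat_lit 304) (nat_lit 556831044) (nat_lit 99) (nat_lit 5) (nat_lit 102) (nat_lit 5) (nat_lit 103) (nat_lit 5)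 (nat_lit 626) (nat_lit 505) (nat_lit 429)) (XT.lf (nat_lit 0) (nat_lit 3423306697) (nat_lit 304) (nat_lit 502826601) (nat_lit 380) (nat_lit 9458161818) (nat_lit 94) (nat_lit 5) (nat_lit 98) (nat_lit 5) (nat_lit 99) (nat_lit 5) (nat_lit 627) (nat_lit 505) (nat_lit 428)))) (XT.nd (nat_lit 156) (nat_lit 532) (nat_lit 0) (XT.nd (nat_lit 78) (nat_lit 228) (nat_lit 0) (XT.lf (nat_lit 0) (nat_lit 8528846635) (nat_lit 380) (nat_lit 393298126) (nat_lit 76) (nat_lit 4617245837) (nat_lit 94) (nat_lit 5) (nat_lit 99) (nat_lit 5) (nat_lit 95) (nat_lit 5) (nat_lit 628) (nat_lit 505) (nat_lit 427)) (XT.lf (nat_lit 0) (nat_lit 9428538644) (nat_lit 228) (nat_lit 3826258847) (nat_lit 304) (nat_lit 442167584) (nat_lit 91) (nat_lit 5) (nat_lit 94) (nat_lit 5) (nat_lit 95) (nat_lit 5) (nat_lit 629) (nat_lit 505) (nat_lit 426))) (XT.nd (nat_lit 78) (nat_lit 228) (nat_lit 0) (XT.lf (nat_lit 0) (nat_lit 4177051945) (nat_lit 304) (nat_lit 8283494487) (nat_lit 76) (nat_lit 1396301862)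 (nat_lit 87) (nat_lit 5) (nat_lit 91) (nat_lit 5) (nat_lit 88) (nat_lit 5) (nat_lit 630) (nat_lit 505) (nat_lit 425)) (XT.lf (nat_lit 0) (nat_lit 1585080113) (nat_lit 228) (nat_lit 7328949123) (nat_lit 304) (nat_lit 5105216312) (nat_lit 84) (nat_lit 5) (nat_lit 87) (nat_lit 5) (nat_lit 88) (nat_lit 5) (nat_lit 631) (nat_lit 505) (nat_lit 424))))) (XT.nd (nat_lit 312) (nat_lit 836) (nat_lit 0) (XT.nd (nat_lit 156) (nat_lit 228) (nat_lit 0) (XT.nd (nat_lit 78) (nat_lit 304) (nat_lit 0) (XT.lf (nat_lit 0) (nat_lit 11705966850) (nat_lit 228) (nat_lit 2062468540) (nat_lit 304) (nat_lit 416002261) (nat_lit 84) (nat_lit 5) (nat_lit 87) (nat_lit 5) (nat_lit 88) (nat_lit 5) (nat_lit 632) (nat_lit 505) (nat_lit 423)) (XT.lf (nat_lit 0) (nat_lit 4349046533) (nat_lit 304) (nat_lit 6681648526) (nat_lit 76) (nat_lit 3320885644) (nat_lit 80) (nat_lit 5) (nat_lit 84) (nat_lit 5) (nat_lit 81) (nat_lit 5) (nat_lit 633) (nat_lit 505) (nat_lit 422))) (XT.nd (nat_lit 78) (nat_lit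 0) (nat_lit 0) (XT.lf (nat_lit 0) (nat_lit 3505854101) (nat_lit 228) (nat_lit 5718788511) (nat_lit 304) (nat_lit 5296953329) (nat_lit 77) (nat_lit 5) (nat_lit 80) (nat_lit 5) (nat_lit 81) (nat_lit 5) (nat_lit 634) (nat_lit 505) (nat_lit 421)) (XT.lf (nat_lit 0) (nat_lit 13931284247) (nat_lit 228) (nat_lit 279220264) (nat_lit 304) (nat_lit 484252531) (nat_lit 77) (nat_lit 5) (nat_lit 80) (nat_lit 5) (nat_lit 81) (nat_lit 5) (nat_lit 635) (nat_lit 505) (nat_lit 420)))) (XT.nd (nat_lit 156) (nat_lit 304) (nat_lit 0) (XT.nd (nat_lit 78) (nat_lit 228) (nat_lit 0) (XT.lf (nat_lit 0) (nat_lit 4432891510) (nat_lit 304) (nat_lit 5167732067) (nat_lit 76) (nat_lit 5268859441) (nat_lit 73) (nat_lit 5) (nat_lit 77) (nat_lit 5) (nat_lit 74) (nat_lit 5) (nat_lit 636) (nat_lit 505) (nat_lit 419)) (XT.lf (nat_lit 0) (nat_lit 5348264252) (nat_lit 228) (nat_lit 4103809719) (nat_lit 304) (nat_lit 5595362532) (nat_lit 70) (nat_lit 5) (nat_lit 73) (nat_lit 5) (nat_lit 74) (nat_lit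 5) (nat_lit 637) (nat_lit 505) (nat_lit 418))) (XT.nd (nat_lit 78) (nat_lit 76) (nat_lit 0) (XT.lf (nat_lit 0) (nat_lit 861770604) (nat_lit 228) (nat_lit 13728675328) (nat_lit 304) (nat_lit 638127597) (nat_lit 67) (nat_lit 5) (nat_lit 70) (nat_lit 5) (nat_lit 71) (nat_lit 5) (nat_lit 638) (nat_lit 505) (nat_lit 417)) (XT.lf (nat_lit 0) (nat_lit 4421594629) (nat_lit 304) (nat_lit 3758888178) (nat_lit 76) (nat_lit 7231051557) (nat_lit 66) (nat_lit 5) (nat_lit 70) (nat_lit 5) (nat_lit 67) (nat_lit 5) (nat_lit 639) (nat_lit 505) (nat_lit 416))))))) (XT.nd (nat_lit 74334) (nat_lit 0) (nat_lit 27360) (XT.nd (nat_lit 546) (nat_lit 456) (nat_lit 0) (XT.nd (nat_lit 234) (nat_lit 608) (nat_lit 0) (XT.nd (nat_lit 78) (nat_lit 304) (nat_lit 0) (XT.lf (nat_lit 0) (nat_lit 7095141385) (nat_lit 152) (nat_lit 2494109177) (nat_lit 228) (nat_lit 6008514371) (nat_lit 64) (nat_lit 5) (nat_lit 66) (nat_lit 5) (nat_lit 67) (nat_lit 5) (nat_lit 640) (nat_lit 505) (nat_lit 415))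 (XT.nd (nat_lit 78) (nat_lit 76) (nat_lit 0) (XT.lf (nat_lit 0) (nat_lit 2384665949) (nat_lit 228) (nat_lit 12507235986) (nat_lit 304) (nat_lit 895185877) (nat_lit 61) (nat_lit 5) (nat_lit 64) (nat_lit 5) (nat_lit 65) (nat_lit 5) (nat_lit 641) (nat_lit 505) (nat_lit 414)) (XT.lf (nat_lit 0) (nat_lit 4307047275) (nat_lit 304) (nat_lit 2474058073) (nat_lit 76) (nat_lit 9197665284) (nat_lit 60) (nat_lit 5) (nat_lit 64) (nat_lit 5) (nat_lit 61) (nat_lit 5) (nat_lit 642) (nat_lit 505) (nat_lit 413)))) (XT.nd (nat_lit 156) (nat_lit 228) (nat_lit 0) (XT.nd (nat_lit 78) (nat_lit 228) (nat_lit 0) (XT.lf (nat_lit 0) (nat_lit 8727473165) (nat_lit 152) (nat_lit 900490955) (nat_lit 228) (nat_lit 6545672649) (nat_lit 58) (nat_lit 5) (nat_lit 60) (nat_lit 5) (nat_lit 61) (nat_lit 5) (nat_lit 643) (nat_lit 505) (nat_lit 412)) (XT.lf (nat_lit 0) (nat_lit 3776807692) (nat_lit 228) (nat_lit 11322860047) (nat_lit 304) (nat_lit 1271845622) (nat_lit 55) (nat_lit 5) (nat_lit 58)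 (nat_lit 5) (nat_lit 59) (nat_lit 5) (nat_lit 644) (nat_lit 505) (nat_lit 411))) (XT.nd (nat_lit 78) (nat_lit 152) (nat_lit 0) (XT.lf (nat_lit 0) (nat_lit 4079928577) (nat_lit 304) (nat_lit 1334201843) (nat_lit 76) (nat_lit 11158157367) (nat_lit 54) (nat_lit 5) (nat_lit 58) (nat_lit 5) (nat_lit 55) (nat_lit 5) (nat_lit 645) (nat_lit 505) (nat_lit 410)) (XT.lf (nat_lit 0) (nat_lit 9563091835) (nat_lit 228) (nat_lit 6556311851) (nat_lit 76) (nat_lit 656678683) (nat_lit 52) (nat_lit 5) (nat_lit 55) (nat_lit 5) (nat_lit 53) (nat_lit 5) (nat_lit 646) (nat_lit 505) (nat_lit 409))))) (XT.nd (nat_lit 73476) (nat_lit 0) (nat_lit 42256) (XT.nd (nat_lit 78) (nat_lit 228) (nat_lit 0) (XT.lf (nat_lit 0) (nat_lit 5015919392) (nat_lit 228) (nat_lit 10188178961) (nat_lit 304) (nat_lit 1778891352) (nat_lit 49) (nat_lit 5) (nat_lit 52) (nat_lit 5) (nat_lit 53) (nat_lit 5) (nat_lit 647) (nat_lit 505) (nat_lit 408)) (XT.nd (nat_lit 78) (nat_lit 152) (nat_lit 0) (XT.lf (nat_lit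 0) (nat_lit 3729597618) (nat_lit 304) (nat_lit 362540812) (nat_lit 76) (nat_lit 13101107014) (nat_lit 48) (nat_lit 5) (nat_lit 52) (nat_lit 5) (nat_lit 49) (nat_lit 5) (nat_lit 648) (nat_lit 505) (nat_lit 407)) (XT.lf (nat_lit 0) (nat_lit 9385108791) (nat_lit 228) (nat_lit 5858916201) (nat_lit 76) (nat_lit 2162233138) (nat_lit 46) (nat_lit 5) (nat_lit 49) (nat_lit 5) (nat_lit 47) (nat_lit 5) (nat_lit 649) (nat_lit 505) (nat_lit 406)))) (XT.nd (nat_lit 156) (nat_lit 1444) (nat_lit 0) (XT.nd (nat_lit 78) (nat_lit 1292) (nat_lit 0) (XT.lf (nat_lit 0) (nat_lit 1221500293) (nat_lit 1292) (nat_lit 964959441) (nat_lit 0) (nat_lit 1221500293) (nat_lit 638) (nat_lit 5) (nat_lit 655) (nat_lit 4) (nat_lit 638) (nat_lit 4) (nat_lit 548) (nat_lit 506) (nat_lit 506)) (XT.lf (nat_lit 0) (nat_lit 2808878563) (nat_lit 1292) (nat_lit 3032476792) (nat_lit 1292) (nat_lit 1001974152) (nat_lit 621) (nat_lit 4) (nat_lit 638) (nat_lit 5) (nat_lit 638) (nat_lit 4) (nat_lit 549) (nat_lit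 506) (nat_lit 505))) (XT.nd (nat_lit 78) (nat_lit 0) (nat_lit 0) (XT.lf (nat_lit 0) (nat_lit 727685174) (nat_lit 1368) (nat_lit 1623243873) (nat_lit 1444) (nat_lit 4521118221) (nat_lit 602) (nat_lit 5) (nat_lit 620) (nat_lit 5) (nat_lit 621) (nat_lit 4) (nat_lit 550) (nat_lit 506) (nat_lit 504)) (XT.lf (nat_lit 0) (nat_lit 5569907800) (nat_lit 1368) (nat_lit 144327373) (nat_lit 1444) (nat_lit 1187842746) (nat_lit 602) (nat_lit 5) (nat_lit 620) (nat_lit 5) (nat_lit 621) (nat_lit 4) (nat_lit 551) (nat_lit 506) (nat_lit 503)))))) (XT.nd (nat_lit 546) (nat_lit 6612) (nat_lit 0) (XT.nd (nat_lit 234) (nat_lit 5168) (nat_lit 0) (XT.nd (nat_lit 78) (nat_lit 1596) (nat_lit 0) (XT.lf (nat_lit 0) (nat_lit 2145888569) (nat_lit 1520) (nat_lit 3396908265) (nat_lit 76) (nat_lit 1390375033) (nat_lit 582) (nat_lit 5) (nat_lit 602) (nat_lit 5) (nat_lit 583) (nat_lit 4) (nat_lit 552) (nat_lit 506) (nat_lit 502)) (XT.nd (nat_lit 78) (nat_lit 76) (nat_lit 0) (XT.lf (nat_lit 0)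 (nat_lit 1502427587) (nat_lit 1520) (nat_lit 3979314770) (nat_lit 1596) (nat_lit 1483967104) (nat_lit 562) (nat_lit 5) (nat_lit 582) (nat_lit 5) (nat_lit 583) (nat_lit 4) (nat_lit 553) (nat_lit 506) (nat_lit 501)) (XT.lf (nat_lit 0) (nat_lit 1815739442) (nat_lit 1596) (nat_lit 529336716) (nat_lit 76) (nat_lit 4654481427) (nat_lit 561) (nat_lit 5) (nat_lit 582) (nat_lit 5) (nat_lit 562) (nat_lit 5) (nat_lit 554) (nat_lit 506) (nat_lit 500)))) (XT.nd (nat_lit 156) (nat_lit 1824) (nat_lit 0) (XT.nd (nat_lit 78) (nat_lit 1748) (nat_lit 0) (XT.lf (nat_lit 0) (nat_lit 4489299859) (nat_lit 1596) (nat_lit 634872879) (nat_lit 1672) (nat_lit 1910467217) (nat_lit 540) (nat_lit 5) (nat_lit 561) (nat_lit 5) (nat_lit 562) (nat_lit 5) (nat_lit 555) (nat_lit 506) (nat_lit 499)) (XT.lf (nat_lit 0) (nat_lit 1370767337) (nat_lit 1748) (nat_lit 4573399411) (nat_lit 76) (nat_lit 1126854065) (nat_lit 517) (nat_lit 5) (nat_lit 540) (nat_lit 5) (nat_lit 518) (nat_lit 5) (nat_lit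 556) (nat_lit 506) (nat_lit 498))) (XT.nd (nat_lit 78) (nat_lit 76) (nat_lit 0) (XT.lf (nat_lit 0) (nat_lit 493243985) (nat_lit 1748) (nat_lit 4158221556) (nat_lit 1824) (nat_lit 2457227987) (nat_lit 494) (nat_lit 5) (nat_lit 517) (nat_lit 5) (nat_lit 518) (nat_lit 5) (nat_lit 557) (nat_lit 506) (nat_lit 497)) (XT.lf (nat_lit 0) (nat_lit 805622152) (nat_lit 1824) (nat_lit 1493872861) (nat_lit 76) (nat_lit 4848196813) (nat_lit 493) (nat_lit 5) (nat_lit 517) (nat_lit 5) (nat_lit 494) (nat_lit 5) (nat_lit 558) (nat_lit 506) (nat_lit 496))))) (XT.nd (nat_lit 312) (nat_lit 2736) (nat_lit 0) (XT.nd (nat_lit 156) (nat_lit 912) (nat_lit 0) (XT.nd (nat_lit 78) (nat_lit 1140) (nat_lit 0) (XT.lf (nat_lit 0) (nat_lit 3698789707) (nat_lit 1824) (nat_lit 362580618) (nat_lit 1900) (nat_lit 3126568960) (nat_lit 469) (nat_lit 5) (nat_lit 493) (nat_lit 5) (nat_lit 494) (nat_lit 5) (nat_lit 559) (nat_lit 506) (nat_lit 495)) (XT.lf (nat_lit 0) (nat_lit 120178403) (nat_lit 1140)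 (nat_lit 5495849935) (nat_lit 76) (nat_lit 1613569242) (nat_lit 454) (nat_lit 5) (nat_lit 469) (nat_lit 5) (nat_lit 455) (nat_lit 5) (nat_lit 560) (nat_lit 506) (nat_lit 494))) (XT.nd (nat_lit 78) (nat_lit 912) (nat_lit 0) (XT.lf (nat_lit 0) (nat_lit 3353733777) (nat_lit 1140) (nat_lit 251311508) (nat_lit 76) (nat_lit 3667360290) (nat_lit 454) (nat_lit 5) (nat_lit 469) (nat_lit 5) (nat_lit 455) (nat_lit 5) (nat_lit 561) (nat_lit 506) (nat_lit 493)) (XT.lf (nat_lit 0) (nat_lit 5101467593) (nat_lit 912) (nat_lit 1522564189) (nat_lit 988) (nat_lit 692601049) (nat_lit 442) (nat_lit 5) (nat_lit 454) (nat_lit 5) (nat_lit 455) (nat_lit 5) (nat_lit 562) (nat_lit 506) (nat_lit 492)))) (XT.nd (nat_lit 156) (nat_lit 912) (nat_lit 0) (XT.nd (nat_lit 78) (nat_lit 836) (nat_lit 0) (XT.lf (nat_lit 0) (nat_lit 2529632688) (nat_lit 988) (nat_lit 4202661946) (nat_lit 76) (nat_lit 629802703) (nat_lit 429) (nat_lit 5) (nat_lit 442) (nat_lit 5) (nat_lit 430) (nat_lit 5) (nat_lit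 563) (nat_lit 506) (nat_lit 491)) (XT.lf (nat_lit 0) (nat_lit 1199639489) (nat_lit 836) (nat_lit 4580328302) (nat_lit 912) (nat_lit 1628957438) (nat_lit 418) (nat_lit 5) (nat_lit 429) (nat_lit 5) (nat_lit 430) (nat_lit 5) (nat_lit 564) (nat_lit 506) (nat_lit 490))) (XT.nd (nat_lit 78) (nat_lit 836) (nat_lit 0) (XT.lf (nat_lit 0) (nat_lit 1585966006) (nat_lit 912) (nat_lit 765073021) (nat_lit 76) (nat_lit 5106065239) (nat_lit 417) (nat_lit 5) (nat_lit 429) (nat_lit 5) (nat_lit 418) (nat_lit 5) (nat_lit 565) (nat_lit 506) (nat_lit 489)) (XT.lf (nat_lit 0) (nat_lit 4776074496) (nat_lit 836) (nat_lit 39947245) (nat_lit 912) (nat_lit 2690560908) (nat_lit 406) (nat_lit 5) (nat_lit 417) (nat_lit 5) (nat_lit 418) (nat_lit 5) (nat_lit 566) (nat_lit 506) (nat_lit 488))))))))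
noncomputable def xc45 : XT := (XT.nd (nat_lit 2262) (nat_lit 8436) (nat_lit 0) (XT.nd (nat_lit 1092) (nat_lit 6308) (nat_lit 0) (XT.nd (nat_lit 546) (nat_lit 4256) (nat_lit 0) (XT.nd (nat_lit 234) (nat_lit 2356) (nat_lit 0) (XT.nd (nat_lit 78) (nat_lit 836) (nat_lit 0) (XT.lf (nat_lit 0) (nat_lit 527196262) (nat_lit 912) (nat_lit 4721780976) (nat_lit 76) (nat_lit 2308388754) (nat_lit 394) (nat_lit 5) (nat_lit 406) (nat_lit 5) (nat_lit 395) (nat_lit 5) (nat_lit 567) (nat_lit 506) (nat_lit 487)) (XT.nd (nat_lit 78) (nat_lit 0) (nat_lit 0) (XT.lf (nat_lit 0) (nat_lit 869572276) (nat_lit 836) (nat_lit 2870744046) (nat_lit 912) (nat_lit 3869156094) (nat_lit 383) (nat_lit 5) (nat_lit 394) (nat_lit 5) (nat_lit 395) (nat_lit 5) (nat_lit 568) (nat_lit 506) (nat_lit 486)) (XT.lf (nat_lit 0) (nat_lit 6572341765) (nat_lit 836) (nat_lit 420394812) (nat_lit 912) (nat_lit 670387353) (nat_lit 383) (nat_lit 5) (nat_lit 394) (nat_lit 5) (nat_lit 395) (nat_lit 5) (nat_lit 569)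 (nat_lit 506) (nat_lit 485)))) (XT.nd (nat_lit 156) (nat_lit 760) (nat_lit 0) (XT.nd (nat_lit 78) (nat_lit 760) (nat_lit 0) (XT.lf (nat_lit 0) (nat_lit 2546407866) (nat_lit 836) (nat_lit 3080193119) (nat_lit 76) (nat_lit 2091153429) (nat_lit 372) (nat_lit 5) (nat_lit 383) (nat_lit 5) (nat_lit 373) (nat_lit 5) (nat_lit 570) (nat_lit 506) (nat_lit 484)) (XT.lf (nat_lit 0) (nat_lit 2685339531) (nat_lit 760) (nat_lit 3105540649) (nat_lit 836) (nat_lit 1983065854) (nat_lit 362) (nat_lit 5) (nat_lit 372) (nat_lit 5) (nat_lit 373) (nat_lit 5) (nat_lit 571) (nat_lit 506) (nat_lit 483))) (XT.nd (nat_lit 78) (nat_lit 0) (nat_lit 0) (XT.lf (nat_lit 0) (nat_lit 713222938) (nat_lit 684) (nat_lit 509576537) (nat_lit 760) (nat_lit 6608891358) (nat_lit 352) (nat_lit 5) (nat_lit 361) (nat_lit 5) (nat_lit 362) (nat_lit 5) (nat_lit 572) (nat_lit 506) (nat_lit 482)) (XT.lf (nat_lit 0) (nat_lit 4460129102) (nat_lit 760) (nat_lit 1282523720) (nat_lit 76) (nat_lit 2147800841) (nat_lit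 352) (nat_lit 5) (nat_lit 362) (nat_lit 5) (nat_lit 353) (nat_lit 5) (nat_lit 573) (nat_lit 506) (nat_lit 481))))) (XT.nd (nat_lit 234) (nat_lit 2052) (nat_lit 0) (XT.nd (nat_lit 78) (nat_lit 1444) (nat_lit 0) (XT.lf (nat_lit 0) (nat_lit 4663773862) (nat_lit 760) (nat_lit 3078771498) (nat_lit 836) (nat_lit 208242826) (nat_lit 342) (nat_lit 5) (nat_lit 352) (nat_lit 5) (nat_lit 353) (nat_lit 5) (nat_lit 574) (nat_lit 506) (nat_lit 480)) (XT.nd (nat_lit 78) (nat_lit 684) (nat_lit 0) (XT.lf (nat_lit 0) (nat_lit 2684952603) (nat_lit 684) (nat_lit 326016234) (nat_lit 760) (nat_lit 5001502737) (nat_lit 332) (nat_lit 5) (nat_lit 341) (nat_lit 5) (nat_lit 342) (nat_lit 5) (nat_lit 575) (nat_lit 506) (nat_lit 479)) (XT.lf (nat_lit 0) (nat_lit 672149666) (nat_lit 684) (nat_lit 5609823964) (nat_lit 760) (nat_lit 1793586576) (nat_lit 323) (nat_lit 5) (nat_lit 332) (nat_lit 5) (nat_lit 333) (nat_lit 5) (nat_lit 576) (nat_lit 506) (nat_lit 478)))) (XT.nd (nat_lit 156) (nat_lit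 1368) (nat_lit 0) (XT.nd (nat_lit 78) (nat_lit 608) (nat_lit 0) (XT.lf (nat_lit 0) (nat_lit 1445020454) (nat_lit 760) (nat_lit 1352427294) (nat_lit 76) (nat_lit 5342555344) (nat_lit 322) (nat_lit 5) (nat_lit 332) (nat_lit 5) (nat_lit 323) (nat_lit 5) (nat_lit 577) (nat_lit 506) (nat_lit 477)) (XT.lf (nat_lit 0) (nat_lit 4705079946) (nat_lit 684) (nat_lit 3399809872) (nat_lit 76) (nat_lit 100996851) (nat_lit 314) (nat_lit 5) (nat_lit 323) (nat_lit 5) (nat_lit 315) (nat_lit 5) (nat_lit 578) (nat_lit 506) (nat_lit 476))) (XT.nd (nat_lit 78) (nat_lit 684) (nat_lit 0) (XT.lf (nat_lit 0) (nat_lit 2786643779) (nat_lit 684) (nat_lit 5238759327) (nat_lit 760) (nat_lit 247786379) (nat_lit 305) (nat_lit 5) (nat_lit 314) (nat_lit 5) (nat_lit 315) (nat_lit 5) (nat_lit 579) (nat_lit 506) (nat_lit 475)) (XT.lf (nat_lit 0) (nat_lit 726225637) (nat_lit 608) (nat_lit 2281033374) (nat_lit 684) (nat_lit 5334638724) (nat_lit 296) (nat_lit 5) (nat_lit 304) (nat_lit 5) (nat_lit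 305) (nat_lit 5) (nat_lit 580) (nat_lit 506) (nat_lit 474)))))) (XT.nd (nat_lit 546) (nat_lit 3192) (nat_lit 0) (XT.nd (nat_lit 234) (nat_lit 1824) (nat_lit 0) (XT.nd (nat_lit 78) (nat_lit 1292) (nat_lit 0) (XT.lf (nat_lit 0) (nat_lit 6315958799) (nat_lit 684) (nat_lit 1345505939) (nat_lit 76) (nat_lit 750647884) (nat_lit 296) (nat_lit 5) (nat_lit 305) (nat_lit 5) (nat_lit 297) (nat_lit 5) (nat_lit 581) (nat_lit 506) (nat_lit 473)) (XT.nd (nat_lit 78) (nat_lit 608) (nat_lit 0) (XT.lf (nat_lit 0) (nat_lit 1190078279) (nat_lit 684) (nat_lit 3454512805) (nat_lit 76) (nat_lit 3839010351) (nat_lit 287) (nat_lit 5) (nat_lit 296) (nat_lit 5) (nat_lit 288) (nat_lit 5) (nat_lit 582) (nat_lit 506) (nat_lit 472)) (XT.lf (nat_lit 0) (nat_lit 2953696275) (nat_lit 608) (nat_lit 1539797547) (nat_lit 684) (nat_lit 4063161067) (nat_lit 279) (nat_lit 5) (nat_lit 287) (nat_lit 5) (nat_lit 288) (nat_lit 5) (nat_lit 583) (nat_lit 506) (nat_lit 471)))) (XT.nd (nat_lit 156) (nat_lit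 1140) (nat_lit 0) (XT.nd (nat_lit 78) (nat_lit 76) (nat_lit 0) (XT.lf (nat_lit 0) (nat_lit 841895907) (nat_lit 608) (nat_lit 7012122507) (nat_lit 684) (nat_lit 777332636) (nat_lit 271) (nat_lit 5) (nat_lit 279) (nat_lit 5) (nat_lit 280) (nat_lit 5) (nat_lit 584) (nat_lit 506) (nat_lit 470)) (XT.lf (nat_lit 0) (nat_lit 2540383418) (nat_lit 684) (nat_lit 1307187133) (nat_lit 76) (nat_lit 4859640025) (nat_lit 270) (nat_lit 5) (nat_lit 279) (nat_lit 5) (nat_lit 271) (nat_lit 5) (nat_lit 585) (nat_lit 506) (nat_lit 469))) (XT.nd (nat_lit 78) (nat_lit 608) (nat_lit 0) (XT.lf (nat_lit 0) (nat_lit 5305598250) (nat_lit 532) (nat_lit 595734820) (nat_lit 608) (nat_lit 2883408015) (nat_lit 263) (nat_lit 5) (nat_lit 270) (nat_lit 5) (nat_lit 271) (nat_lit 5) (nat_lit 586) (nat_lit 506) (nat_lit 468)) (XT.lf (nat_lit 0) (nat_lit 459853641) (nat_lit 608) (nat_lit 5702328745) (nat_lit 76) (nat_lit 2701575938) (nat_lit 255) (nat_lit 5) (nat_lit 263) (nat_lit 5) (nat_lit 256)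 (nat_lit 5) (nat_lit 587) (nat_lit 506) (nat_lit 467))))) (XT.nd (nat_lit 312) (nat_lit 1596) (nat_lit 0) (XT.nd (nat_lit 156) (nat_lit 1064) (nat_lit 0) (XT.nd (nat_lit 78) (nat_lit 0) (nat_lit 0) (XT.lf (nat_lit 0) (nat_lit 963350187) (nat_lit 532) (nat_lit 2855193202) (nat_lit 608) (nat_lit 5125690077) (nat_lit 248) (nat_lit 5) (nat_lit 255) (nat_lit 5) (nat_lit 256) (nat_lit 5) (nat_lit 588) (nat_lit 506) (nat_lit 466)) (XT.lf (nat_lit 0) (nat_lit 7240107202) (nat_lit 608) (nat_lit 1254090375) (nat_lit 76) (nat_lit 532208664) (nat_lit 248) (nat_lit 5) (nat_lit 256) (nat_lit 5) (nat_lit 249) (nat_lit 5) (nat_lit 589) (nat_lit 506) (nat_lit 465))) (XT.nd (nat_lit 78) (nat_lit 456) (nat_lit 0) (XT.lf (nat_lit 0) (nat_lit 1608680285) (nat_lit 608) (nat_lit 3522148476) (nat_lit 76) (nat_lit 3978984505) (nat_lit 240) (nat_lit 5) (nat_lit 248) (nat_lit 5) (nat_lit 241) (nat_lit 5) (nat_lit 590) (nat_lit 506) (nat_lit 464)) (XT.lf (nat_lit 0) (nat_lit 3357199572)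 (nat_lit 456) (nat_lit 1675636737) (nat_lit 532) (nat_lit 4162114075) (nat_lit 234) (nat_lit 5) (nat_lit 240) (nat_lit 5) (nat_lit 241) (nat_lit 5) (nat_lit 591) (nat_lit 506) (nat_lit 463)))) (XT.nd (nat_lit 156) (nat_lit 988) (nat_lit 0) (XT.nd (nat_lit 78) (nat_lit 76) (nat_lit 0) (XT.lf (nat_lit 0) (nat_lit 1078712297) (nat_lit 532) (nat_lit 7444821426) (nat_lit 608) (nat_lit 758297327) (nat_lit 227) (nat_lit 5) (nat_lit 234) (nat_lit 5) (nat_lit 235) (nat_lit 5) (nat_lit 592) (nat_lit 506) (nat_lit 462)) (XT.lf (nat_lit 0) (nat_lit 2683967437) (nat_lit 608) (nat_lit 1250014638) (nat_lit 76) (nat_lit 5435997563) (nat_lit 226) (nat_lit 5) (nat_lit 234) (nat_lit 5) (nat_lit 227) (nat_lit 5) (nat_lit 593) (nat_lit 506) (nat_lit 461))) (XT.nd (nat_lit 78) (nat_lit 532) (nat_lit 0) (XT.lf (nat_lit 0) (nat_lit 5851112344) (nat_lit 456) (nat_lit 328114495) (nat_lit 532) (nat_lit 3280679911) (nat_lit 220) (nat_lit 5) (nat_lit 226) (nat_lit 5) (nat_lit 227) (nat_lit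 5) (nat_lit 594) (nat_lit 506) (nat_lit 460)) (XT.lf (nat_lit 0) (nat_lit 199979710) (nat_lit 532) (nat_lit 6031726444) (nat_lit 76) (nat_lit 3319708031) (nat_lit 213) (nat_lit 5) (nat_lit 220) (nat_lit 5) (nat_lit 214) (nat_lit 5) (nat_lit 595) (nat_lit 506) (nat_lit 459))))))) (XT.nd (nat_lit 1170) (nat_lit 3724) (nat_lit 0) (XT.nd (nat_lit 546) (nat_lit 2432) (nat_lit 0) (XT.nd (nat_lit 234) (nat_lit 1292) (nat_lit 0) (XT.nd (nat_lit 78) (nat_lit 532) (nat_lit 0) (XT.lf (nat_lit 0) (nat_lit 1122809879) (nat_lit 456) (nat_lit 2574185238) (nat_lit 532) (nat_lit 5947511282) (nat_lit 207) (nat_lit 5) (nat_lit 213) (nat_lit 5) (nat_lit 214) (nat_lit 5) (nat_lit 596) (nat_lit 506) (nat_lit 458)) (XT.nd (nat_lit 78) (nat_lit 532) (nat_lit 0) (XT.lf (nat_lit 0) (nat_lit 7269302283) (nat_lit 532) (nat_lit 1307786456) (nat_lit 76) (nat_lit 1162266405) (nat_lit 207) (nat_lit 5) (nat_lit 214) (nat_lit 5) (nat_lit 208) (nat_lit 5) (nat_lit 597) (nat_lit 506) (nat_lit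 457)) (XT.lf (nat_lit 0) (nat_lit 1077193747) (nat_lit 532) (nat_lit 3792508830) (nat_lit 76) (nat_lit 4965972822) (nat_lit 200) (nat_lit 5) (nat_lit 207) (nat_lit 5) (nat_lit 201) (nat_lit 5) (nat_lit 598) (nat_lit 506) (nat_lit 456)))) (XT.nd (nat_lit 156) (nat_lit 456) (nat_lit 0) (XT.nd (nat_lit 78) (nat_lit 456) (nat_lit 0) (XT.lf (nat_lit 0) (nat_lit 3593371290) (nat_lit 380) (nat_lit 1059220810) (nat_lit 456) (nat_lit 5281199420) (nat_lit 195) (nat_lit 5) (nat_lit 200) (nat_lit 5) (nat_lit 201) (nat_lit 5) (nat_lit 599) (nat_lit 506) (nat_lit 455)) (XT.lf (nat_lit 0) (nat_lit 1077879754) (nat_lit 456) (nat_lit 7230963911) (nat_lit 532) (nat_lit 1724840982) (nat_lit 189) (nat_lit 5) (nat_lit 195) (nat_lit 5) (nat_lit 196) (nat_lit 5) (nat_lit 600) (nat_lit 506) (nat_lit 454))) (XT.nd (nat_lit 78) (nat_lit 380) (nat_lit 0) (XT.lf (nat_lit 0) (nat_lit 1886043026) (nat_lit 532) (nat_lit 1486769689) (nat_lit 76) (nat_lit 6762350341) (nat_lit 188) (nat_lit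 5) (nat_lit 195) (nat_lit 5) (nat_lit 189) (nat_lit 5) (nat_lit 601) (nat_lit 506) (nat_lit 453)) (XT.lf (nat_lit 0) (nat_lit 5549106715) (nat_lit 456) (nat_lit 4103231416) (nat_lit 76) (nat_lit 586045222) (nat_lit 183) (nat_lit 5) (nat_lit 189) (nat_lit 5) (nat_lit 184) (nat_lit 5) (nat_lit 602) (nat_lit 506) (nat_lit 452))))) (XT.nd (nat_lit 312) (nat_lit 1216) (nat_lit 0) (XT.nd (nat_lit 156) (nat_lit 380) (nat_lit 0) (XT.nd (nat_lit 78) (nat_lit 456) (nat_lit 0) (XT.lf (nat_lit 0) (nat_lit 3548413244) (nat_lit 380) (nat_lit 5752021939) (nat_lit 456) (nat_lit 1042934267) (nat_lit 178) (nat_lit 5) (nat_lit 183) (nat_lit 5) (nat_lit 184) (nat_lit 5) (nat_lit 603) (nat_lit 506) (nat_lit 451)) (XT.lf (nat_lit 0) (nat_lit 890883063) (nat_lit 380) (nat_lit 1743564541) (nat_lit 456) (nat_lit 7815797281) (nat_lit 172) (nat_lit 5) (nat_lit 177) (nat_lit 5) (nat_lit 178) (nat_lit 5) (nat_lit 604) (nat_lit 506) (nat_lit 450))) (XT.nd (nat_lit 78) (nat_lit 380) (nat_lit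 0) (XT.lf (nat_lit 0) (nat_lit 6392511140) (nat_lit 456) (nat_lit 1820532562) (nat_lit 76) (nat_lit 2345655651) (nat_lit 172) (nat_lit 5) (nat_lit 178) (nat_lit 5) (nat_lit 173) (nat_lit 5) (nat_lit 605) (nat_lit 506) (nat_lit 449)) (XT.lf (nat_lit 0) (nat_lit 6080192143) (nat_lit 380) (nat_lit 4157312778) (nat_lit 456) (nat_lit 431583965) (nat_lit 167) (nat_lit 5) (nat_lit 172) (nat_lit 5) (nat_lit 173) (nat_lit 5) (nat_lit 606) (nat_lit 506) (nat_lit 448)))) (XT.nd (nat_lit 156) (nat_lit 380) (nat_lit 0) (XT.nd (nat_lit 78) (nat_lit 380) (nat_lit 0) (XT.lf (nat_lit 0) (nat_lit 3328371192) (nat_lit 456) (nat_lit 7438645244) (nat_lit 76) (nat_lit 14333305) (nat_lit 161) (nat_lit 5) (nat_lit 167) (nat_lit 5) (nat_lit 162) (nat_lit 5) (nat_lit 607) (nat_lit 506) (nat_lit 447)) (XT.lf (nat_lit 0) (nat_lit 514629315) (nat_lit 380) (nat_lit 6666085835) (nat_lit 456) (nat_lit 3714625513) (nat_lit 156) (nat_lit 5) (nat_lit 161) (nat_lit 5) (nat_lit 162) (nat_lit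 5) (nat_lit 608) (nat_lit 506) (nat_lit 446))) (XT.nd (nat_lit 78) (nat_lit 304) (nat_lit 0) (XT.lf (nat_lit 0) (nat_lit 108653002) (nat_lit 456) (nat_lit 2345321360) (nat_lit 76) (nat_lit 8557396473) (nat_lit 155) (nat_lit 5) (nat_lit 161) (nat_lit 5) (nat_lit 156) (nat_lit 5) (nat_lit 609) (nat_lit 506) (nat_lit 445)) (XT.lf (nat_lit 0) (nat_lit 3970832361) (nat_lit 380) (nat_lit 5298996640) (nat_lit 76) (nat_lit 1859159257) (nat_lit 151) (nat_lit 5) (nat_lit 156) (nat_lit 5) (nat_lit 152) (nat_lit 5) (nat_lit 610) (nat_lit 506) (nat_lit 444)))))) (XT.nd (nat_lit 546) (nat_lit 1900) (nat_lit 0) (XT.nd (nat_lit 234) (nat_lit 1064) (nat_lit 0) (XT.nd (nat_lit 78) (nat_lit 380) (nat_lit 0) (XT.lf (nat_lit 0) (nat_lit 2913264250) (nat_lit 380) (nat_lit 5010175249) (nat_lit 456) (nat_lit 3325256025) (nat_lit 146) (nat_lit 5) (nat_lit 151) (nat_lit 5) (nat_lit 152) (nat_lit 5) (nat_lit 611) (nat_lit 506) (nat_lit 443)) (XT.nd (nat_lit 78) (nat_lit 304) (nat_lit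 0) (XT.lf (nat_lit 0) (nat_lit 574710288) (nat_lit 456) (nat_lit 73166444) (nat_lit 76) (nat_lit 10722884030) (nat_lit 145) (nat_lit 5) (nat_lit 151) (nat_lit 5) (nat_lit 146) (nat_lit 5) (nat_lit 612) (nat_lit 506) (nat_lit 442)) (XT.lf (nat_lit 0) (nat_lit 4550679149) (nat_lit 380) (nat_lit 3136720258) (nat_lit 76) (nat_lit 3806578841) (nat_lit 141) (nat_lit 5) (nat_lit 146) (nat_lit 5) (nat_lit 142) (nat_lit 5) (nat_lit 613) (nat_lit 506) (nat_lit 441)))) (XT.nd (nat_lit 156) (nat_lit 304) (nat_lit 0) (XT.nd (nat_lit 78) (nat_lit 380) (nat_lit 0) (XT.lf (nat_lit 0) (nat_lit 5343764002) (nat_lit 380) (nat_lit 3265096250) (nat_lit 456) (nat_lit 3010747063) (nat_lit 136) (nat_lit 5) (nat_lit 141) (nat_lit 5) (nat_lit 142) (nat_lit 5) (nat_lit 614) (nat_lit 506) (nat_lit 440)) (XT.lf (nat_lit 0) (nat_lit 994670963) (nat_lit 380) (nat_lit 9503659036) (nat_lit 76) (nat_lit 1249143380) (nat_lit 131) (nat_lit 5) (nat_lit 136) (nat_lit 5) (nat_lit 132) (nat_lit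 5) (nat_lit 615) (nat_lit 506) (nat_lit 439))) (XT.nd (nat_lit 78) (nat_lit 304) (nat_lit 0) (XT.lf (nat_lit 0) (nat_lit 5067428969) (nat_lit 380) (nat_lit 959900346) (nat_lit 76) (nat_lit 5849619540) (nat_lit 131) (nat_lit 5) (nat_lit 136) (nat_lit 5) (nat_lit 132) (nat_lit 5) (nat_lit 616) (nat_lit 506) (nat_lit 438)) (XT.lf (nat_lit 0) (nat_lit 7798243238) (nat_lit 304) (nat_lit 1438237686) (nat_lit 380) (nat_lit 2772237149) (nat_lit 127) (nat_lit 5) (nat_lit 131) (nat_lit 5) (nat_lit 132) (nat_lit 5) (nat_lit 617) (nat_lit 506) (nat_lit 437))))) (XT.nd (nat_lit 312) (nat_lit 912) (nat_lit 0) (XT.nd (nat_lit 156) (nat_lit 304) (nat_lit 0) (XT.nd (nat_lit 78) (nat_lit 304) (nat_lit 0) (XT.lf (nat_lit 0) (nat_lit 1349949267) (nat_lit 380) (nat_lit 7569951944) (nat_lit 76) (nat_lit 3222611510) (nat_lit 122) (nat_lit 5) (nat_lit 127) (nat_lit 5) (nat_lit 123) (nat_lit 5) (nat_lit 618) (nat_lit 506) (nat_lit 436)) (XT.lf (nat_lit 0) (nat_lit 1239066464) (nat_lit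 304) (nat_lit 4288903571) (nat_lit 380) (nat_lit 6750437468) (nat_lit 118) (nat_lit 5) (nat_lit 122) (nat_lit 5) (nat_lit 123) (nat_lit 5) (nat_lit 619) (nat_lit 506) (nat_lit 435))) (XT.nd (nat_lit 78) (nat_lit 304) (nat_lit 0) (XT.lf (nat_lit 0) (nat_lit 9808137412) (nat_lit 380) (nat_lit 2151476163) (nat_lit 76) (nat_lit 457035810) (nat_lit 118) (nat_lit 5) (nat_lit 123) (nat_lit 5) (nat_lit 119) (nat_lit 5) (nat_lit 620) (nat_lit 506) (nat_lit 434)) (XT.lf (nat_lit 0) (nat_lit 1633954632) (nat_lit 304) (nat_lit 5649184849) (nat_lit 76) (nat_lit 5273529641) (nat_lit 114) (nat_lit 5) (nat_lit 118) (nat_lit 5) (nat_lit 115) (nat_lit 5) (nat_lit 621) (nat_lit 506) (nat_lit 433)))) (XT.nd (nat_lit 156) (nat_lit 608) (nat_lit 0) (XT.nd (nat_lit 78) (nat_lit 0) (nat_lit 0) (XT.lf (nat_lit 0) (nat_lit 3447319604) (nat_lit 304) (nat_lit 2481370740) (nat_lit 380) (nat_lit 6770407986) (nat_lit 110) (nat_lit 5) (nat_lit 114) (nat_lit 5) (nat_lit 115) (nat_lit 5) (nat_lit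 622) (nat_lit 506) (nat_lit 432)) (XT.lf (nat_lit 0) (nat_lit 10328721092) (nat_lit 380) (nat_lit 115489444) (nat_lit 76) (nat_lit 2399778439) (nat_lit 110) (nat_lit 5) (nat_lit 115) (nat_lit 5) (nat_lit 111) (nat_lit 5) (nat_lit 623) (nat_lit 506) (nat_lit 431))) (XT.nd (nat_lit 78) (nat_lit 304) (nat_lit 0) (XT.lf (nat_lit 0) (nat_lit 1844047437) (nat_lit 304) (nat_lit 3751749725) (nat_lit 76) (nat_lit 7394883971) (nat_lit 106) (nat_lit 5) (nat_lit 110) (nat_lit 5) (nat_lit 107) (nat_lit 5) (nat_lit 624) (nat_lit 506) (nat_lit 430)) (XT.lf (nat_lit 0) (nat_lit 5641853707) (nat_lit 304) (nat_lit 618756100) (nat_lit 380) (nat_lit 6879290813) (nat_lit 102) (nat_lit 5) (nat_lit 106) (nat_lit 5) (nat_lit 107) (nat_lit 5) (nat_lit 625) (nat_lit 506) (nat_lit 429))))))))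
noncomputable def xc46 : XT := (XT.nd (nat_lit 75348) (nat_lit 0) (nat_lit 19608) (XT.nd (nat_lit 1092) (nat_lit 1520) (nat_lit 0) (XT.nd (nat_lit 546) (nat_lit 1368) (nat_lit 0) (XT.nd (nat_lit 234) (nat_lit 760) (nat_lit 0) (XT.nd (nat_lit 78) (nat_lit 380) (nat_lit 0) (XT.lf (nat_lit 0) (nat_lit 1921340035) (nat_lit 228) (nat_lit 8877362000) (nat_lit 304) (nat_lit 2492739285) (nat_lit 99) (nat_lit 5) (nat_lit 102) (nat_lit 5) (nat_lit 103) (nat_lit 5) (nat_lit 626) (nat_lit 506) (nat_lit 428)) (XT.nd (nat_lit 78) (nat_lit 304) (nat_lit 0) (XT.lf (nat_lit 0) (nat_lit 1976806805) (nat_lit 304) (nat_lit 1888951911) (nat_lit 76) (nat_lit 9579572532) (nat_lit 98) (nat_lit 5) (nat_lit 102) (nat_lit 5) (nat_lit 99) (nat_lit 5) (nat_lit 627) (nat_lit 506) (nat_lit 427)) (XT.lf (nat_lit 0) (nat_lit 6528659779) (nat_lit 380) (nat_lit 5798510247) (nat_lit 76) (nat_lit 1274274283) (nat_lit 94) (nat_lit 5) (nat_lit 99) (nat_lit 5) (nat_lit 95) (nat_lit 5) (nat_lit 628)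 (nat_lit 506) (nat_lit 426)))) (XT.nd (nat_lit 156) (nat_lit 456) (nat_lit 0) (XT.nd (nat_lit 78) (nat_lit 76) (nat_lit 0) (XT.lf (nat_lit 0) (nat_lit 3923199140) (nat_lit 228) (nat_lit 7279474666) (nat_lit 304) (nat_lit 2557384078) (nat_lit 91) (nat_lit 5) (nat_lit 94) (nat_lit 5) (nat_lit 95) (nat_lit 5) (nat_lit 629) (nat_lit 506) (nat_lit 425)) (XT.lf (nat_lit 0) (nat_lit 2027982157) (nat_lit 304) (nat_lit 73148907) (nat_lit 76) (nat_lit 11820316950) (nat_lit 90) (nat_lit 5) (nat_lit 94) (nat_lit 5) (nat_lit 91) (nat_lit 5) (nat_lit 630) (nat_lit 506) (nat_lit 424))) (XT.nd (nat_lit 78) (nat_lit 228) (nat_lit 0) (XT.lf (nat_lit 0) (nat_lit 6724440219) (nat_lit 304) (nat_lit 4162163497) (nat_lit 76) (nat_lit 3198052279) (nat_lit 87) (nat_lit 5) (nat_lit 91) (nat_lit 5) (nat_lit 88) (nat_lit 5) (nat_lit 631) (nat_lit 506) (nat_lit 423)) (XT.lf (nat_lit 0) (nat_lit 5875578641) (nat_lit 228) (nat_lit 5659918619) (nat_lit 304) (nat_lit 2715218156) (nat_lit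 84) (nat_lit 5) (nat_lit 87) (nat_lit 5) (nat_lit 88) (nat_lit 5) (nat_lit 632) (nat_lit 506) (nat_lit 422))))) (XT.nd (nat_lit 234) (nat_lit 836) (nat_lit 0) (XT.nd (nat_lit 78) (nat_lit 228) (nat_lit 0) (XT.lf (nat_lit 0) (nat_lit 1704452878) (nat_lit 228) (nat_lit 299050542) (nat_lit 304) (nat_lit 12416183569) (nat_lit 80) (nat_lit 5) (nat_lit 83) (nat_lit 5) (nat_lit 84) (nat_lit 5) (nat_lit 633) (nat_lit 506) (nat_lit 421)) (XT.nd (nat_lit 78) (nat_lit 228) (nat_lit 0) (XT.lf (nat_lit 0) (nat_lit 6838693885) (nat_lit 304) (nat_lit 2599321449) (nat_lit 76) (nat_lit 5152495320) (nat_lit 80) (nat_lit 5) (nat_lit 84) (nat_lit 5) (nat_lit 81) (nat_lit 5) (nat_lit 634) (nat_lit 506) (nat_lit 420)) (XT.lf (nat_lit 0) (nat_lit 7764194651) (nat_lit 228) (nat_lit 4027688853) (nat_lit 304) (nat_lit 2972442007) (nat_lit 77) (nat_lit 5) (nat_lit 80) (nat_lit 5) (nat_lit 81) (nat_lit 5) (nat_lit 635) (nat_lit 506) (nat_lit 419)))) (XT.nd (nat_lit 156) (nat_lit 532)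 (nat_lit 0) (XT.nd (nat_lit 78) (nat_lit 0) (nat_lit 0) (XT.lf (nat_lit 0) (nat_lit 1896072777) (nat_lit 304) (nat_lit 11544528729) (nat_lit 76) (nat_lit 1500398624) (nat_lit 73) (nat_lit 5) (nat_lit 77) (nat_lit 5) (nat_lit 74) (nat_lit 5) (nat_lit 636) (nat_lit 506) (nat_lit 418)) (XT.lf (nat_lit 0) (nat_lit 6865214687) (nat_lit 304) (nat_lit 1125765915) (nat_lit 76) (nat_lit 7128974114) (nat_lit 73) (nat_lit 5) (nat_lit 77) (nat_lit 5) (nat_lit 74) (nat_lit 5) (nat_lit 637) (nat_lit 506) (nat_lit 417))) (XT.nd (nat_lit 78) (nat_lit 304) (nat_lit 0) (XT.lf (nat_lit 0) (nat_lit 9573278482) (nat_lit 228) (nat_lit 2392285197) (nat_lit 304) (nat_lit 3336288809) (nat_lit 70) (nat_lit 5) (nat_lit 73) (nat_lit 5) (nat_lit 74) (nat_lit 5) (nat_lit 638) (nat_lit 506) (nat_lit 416)) (XT.lf (nat_lit 0) (nat_lit 1690107556) (nat_lit 304) (nat_lit 10493259220) (nat_lit 76) (nat_lit 3303171442) (nat_lit 66) (nat_lit 5) (nat_lit 70) (nat_lit 5) (nat_lit 67) (nat_lit 5)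 (nat_lit 639) (nat_lit 506) (nat_lit 415)))))) (XT.nd (nat_lit 546) (nat_lit 456) (nat_lit 0) (XT.nd (nat_lit 234) (nat_lit 608) (nat_lit 0) (XT.nd (nat_lit 78) (nat_lit 304) (nat_lit 0) (XT.lf (nat_lit 0) (nat_lit 244288686) (nat_lit 152) (nat_lit 6554050551) (nat_lit 228) (nat_lit 8875618305) (nat_lit 64) (nat_lit 5) (nat_lit 66) (nat_lit 5) (nat_lit 67) (nat_lit 5) (nat_lit 640) (nat_lit 506) (nat_lit 414)) (XT.nd (nat_lit 78) (nat_lit 304) (nat_lit 0) (XT.lf (nat_lit 0) (nat_lit 11285384749) (nat_lit 152) (nat_lit 763824192) (nat_lit 228) (nat_lit 3815107379) (nat_lit 64) (nat_lit 5) (nat_lit 66) (nat_lit 5) (nat_lit 67) (nat_lit 5) (nat_lit 641) (nat_lit 506) (nat_lit 413)) (XT.lf (nat_lit 0) (nat_lit 1375261438) (nat_lit 304) (nat_lit 9578921276) (nat_lit 76) (nat_lit 5103199035) (nat_lit 60) (nat_lit 5) (nat_lit 64) (nat_lit 5) (nat_lit 61) (nat_lit 5) (nat_lit 642) (nat_lit 506) (nat_lit 412)))) (XT.nd (nat_lit 156) (nat_lit 456) (nat_lit 0) (XT.nd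 (nat_lit 78) (nat_lit 0) (nat_lit 0) (XT.lf (nat_lit 0) (nat_lit 1501665815) (nat_lit 152) (nat_lit 5133013098) (nat_lit 228) (nat_lit 9618799207) (nat_lit 58) (nat_lit 5) (nat_lit 60) (nat_lit 5) (nat_lit 61) (nat_lit 5) (nat_lit 643) (nat_lit 506) (nat_lit 411)) (XT.lf (nat_lit 0) (nat_lit 12039838248) (nat_lit 228) (nat_lit 3577113042) (nat_lit 76) (nat_lit 835734552) (nat_lit 58) (nat_lit 5) (nat_lit 61) (nat_lit 5) (nat_lit 59) (nat_lit 5) (nat_lit 644) (nat_lit 506) (nat_lit 410))) (XT.nd (nat_lit 78) (nat_lit 152) (nat_lit 0) (XT.lf (nat_lit 0) (nat_lit 941909778) (nat_lit 304) (nat_lit 8822993958) (nat_lit 76) (nat_lit 6889728870) (nat_lit 54) (nat_lit 5) (nat_lit 58) (nat_lit 5) (nat_lit 55) (nat_lit 5) (nat_lit 645) (nat_lit 506) (nat_lit 409)) (XT.lf (nat_lit 0) (nat_lit 2609795990) (nat_lit 152) (nat_lit 3747281783) (nat_lit 228) (nat_lit 10502709549) (nat_lit 52) (nat_lit 5) (nat_lit 54) (nat_lit 5) (nat_lit 55) (nat_lit 5) (nat_lit 646) (nat_lit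 506) (nat_lit 408))))) (XT.nd (nat_lit 73398) (nat_lit 0) (nat_lit 42256) (XT.nd (nat_lit 156) (nat_lit 152) (nat_lit 0) (XT.nd (nat_lit 78) (nat_lit 304) (nat_lit 0) (XT.lf (nat_lit 0) (nat_lit 11926989400) (nat_lit 228) (nat_lit 2744979272) (nat_lit 76) (nat_lit 2396148110) (nat_lit 52) (nat_lit 5) (nat_lit 55) (nat_lit 5) (nat_lit 53) (nat_lit 5) (nat_lit 647) (nat_lit 506) (nat_lit 407)) (XT.lf (nat_lit 0) (nat_lit 379099587) (nat_lit 304) (nat_lit 8249241093) (nat_lit 76) (nat_lit 8651115821) (nat_lit 48) (nat_lit 5) (nat_lit 52) (nat_lit 5) (nat_lit 49) (nat_lit 5) (nat_lit 648) (nat_lit 506) (nat_lit 406))) (XT.nd (nat_lit 73164) (nat_lit 0) (nat_lit 46284) (XT.lf (nat_lit 0) (nat_lit 3544727411) (nat_lit 152) (nat_lit 2409704014) (nat_lit 228) (nat_lit 11539641562) (nat_lit 46) (nat_lit 5) (nat_lit 48) (nat_lit 5) (nat_lit 49) (nat_lit 5) (nat_lit 649) (nat_lit 506) (nat_lit 405)) (XT.lf (nat_lit 0) (nat_lit 1173277081) (nat_lit 1140) (nat_lit 1104449148)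 (nat_lit 1140) (nat_lit 1104449148) (nat_lit 655) (nat_lit 4) (nat_lit 670) (nat_lit 5) (nat_lit 670) (nat_lit 4) (nat_lit 546) (nat_lit 507) (nat_lit 507)))) (XT.nd (nat_lit 156) (nat_lit 2736) (nat_lit 0) (XT.nd (nat_lit 78) (nat_lit 0) (nat_lit 0) (XT.lf (nat_lit 0) (nat_lit 182342195) (nat_lit 1216) (nat_lit 953735597) (nat_lit 1292) (nat_lit 5653903023) (nat_lit 638) (nat_lit 5) (nat_lit 654) (nat_lit 5) (nat_lit 655) (nat_lit 4) (nat_lit 547) (nat_lit 507) (nat_lit 506)) (XT.lf (nat_lit 0) (nat_lit 4478571368) (nat_lit 1292) (nat_lit 1961106756) (nat_lit 0) (nat_lit 376956035) (nat_lit 638) (nat_lit 5) (nat_lit 655) (nat_lit 4) (nat_lit 638) (nat_lit 4) (nat_lit 548) (nat_lit 507) (nat_lit 505))) (XT.nd (nat_lit 78) (nat_lit 1368) (nat_lit 0) (XT.lf (nat_lit 0) (nat_lit 983848115) (nat_lit 1368) (nat_lit 4104931003) (nat_lit 76) (nat_lit 1755843273) (nat_lit 620) (nat_lit 5) (nat_lit 638) (nat_lit 5) (nat_lit 621) (nat_lit 4) (nat_lit 549) (nat_lit 507)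 (nat_lit 504)) (XT.lf (nat_lit 0) (nat_lit 618428772) (nat_lit 1368) (nat_lit 3669882473) (nat_lit 1444) (nat_lit 2585607858) (nat_lit 602) (nat_lit 5) (nat_lit 620) (nat_lit 5) (nat_lit 621) (nat_lit 4) (nat_lit 550) (nat_lit 507) (nat_lit 503))))))) (XT.nd (nat_lit 1170) (nat_lit 8588) (nat_lit 0) (XT.nd (nat_lit 546) (nat_lit 5852) (nat_lit 0) (XT.nd (nat_lit 234) (nat_lit 5092) (nat_lit 0) (XT.nd (nat_lit 78) (nat_lit 3040) (nat_lit 0) (XT.lf (nat_lit 0) (nat_lit 703522636) (nat_lit 1444) (nat_lit 1479247083) (nat_lit 76) (nat_lit 4721772691) (nat_lit 601) (nat_lit 5) (nat_lit 620) (nat_lit 5) (nat_lit 602) (nat_lit 5) (nat_lit 551) (nat_lit 507) (nat_lit 502)) (XT.nd (nat_lit 78) (nat_lit 1596) (nat_lit 0) (XT.lf (nat_lit 0) (nat_lit 3357857651) (nat_lit 1444) (nat_lit 619785551) (nat_lit 1520) (nat_lit 2958722453) (nat_lit 582) (nat_lit 5) (nat_lit 601) (nat_lit 5) (nat_lit 602) (nat_lit 5) (nat_lit 552) (nat_lit 507) (nat_lit 501)) (XT.lf (nat_lit 0)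 (nat_lit 301236530) (nat_lit 1596) (nat_lit 5680549023) (nat_lit 76) (nat_lit 987852495) (nat_lit 561) (nat_lit 5) (nat_lit 582) (nat_lit 5) (nat_lit 562) (nat_lit 5) (nat_lit 553) (nat_lit 507) (nat_lit 500)))) (XT.nd (nat_lit 156) (nat_lit 3496) (nat_lit 0) (XT.nd (nat_lit 78) (nat_lit 1596) (nat_lit 0) (XT.lf (nat_lit 0) (nat_lit 3548528528) (nat_lit 1596) (nat_lit 787445627) (nat_lit 76) (nat_lit 2667981095) (nat_lit 561) (nat_lit 5) (nat_lit 582) (nat_lit 5) (nat_lit 562) (nat_lit 5) (nat_lit 554) (nat_lit 507) (nat_lit 499)) (XT.lf (nat_lit 0) (nat_lit 4196759261) (nat_lit 1596) (nat_lit 2625997261) (nat_lit 1672) (nat_lit 216967885) (nat_lit 540) (nat_lit 5) (nat_lit 561) (nat_lit 5) (nat_lit 562) (nat_lit 5) (nat_lit 555) (nat_lit 507) (nat_lit 498))) (XT.nd (nat_lit 78) (nat_lit 1748) (nat_lit 0) (XT.lf (nat_lit 0) (nat_lit 2161229165) (nat_lit 1672) (nat_lit 839096790) (nat_lit 1748) (nat_lit 4076396584) (nat_lit 517) (nat_lit 5) (nat_lit 539) (nat_lit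 5) (nat_lit 540) (nat_lit 5) (nat_lit 556) (nat_lit 507) (nat_lit 497)) (XT.lf (nat_lit 0) (nat_lit 120446538) (nat_lit 1748) (nat_lit 6121062719) (nat_lit 1824) (nat_lit 873678822) (nat_lit 494) (nat_lit 5) (nat_lit 517) (nat_lit 5) (nat_lit 518) (nat_lit 5) (nat_lit 557) (nat_lit 507) (nat_lit 496))))) (XT.nd (nat_lit 312) (nat_lit 2812) (nat_lit 0) (XT.nd (nat_lit 156) (nat_lit 1140) (nat_lit 0) (XT.nd (nat_lit 78) (nat_lit 1824) (nat_lit 0) (XT.lf (nat_lit 0) (nat_lit 2336965934) (nat_lit 1824) (nat_lit 1914922997) (nat_lit 76) (nat_lit 2902722983) (nat_lit 493) (nat_lit 5) (nat_lit 517) (nat_lit 5) (nat_lit 494) (nat_lit 5) (nat_lit 558) (nat_lit 507) (nat_lit 495)) (XT.lf (nat_lit 0) (nat_lit 3240874434) (nat_lit 1824) (nat_lit 2318046141) (nat_lit 1900) (nat_lit 1636617049) (nat_lit 469) (nat_lit 5) (nat_lit 493) (nat_lit 5) (nat_lit 494) (nat_lit 5) (nat_lit 559) (nat_lit 507) (nat_lit 494))) (XT.nd (nat_lit 78) (nat_lit 0) (nat_lit 0) (XT.lf (nat_lit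 0) (nat_lit 1231594670) (nat_lit 1064) (nat_lit 314429566) (nat_lit 1140) (nat_lit 5691871798) (nat_lit 454) (nat_lit 5) (nat_lit 468) (nat_lit 5) (nat_lit 469) (nat_lit 5) (nat_lit 560) (nat_lit 507) (nat_lit 493)) (XT.lf (nat_lit 0) (nat_lit 4747315063) (nat_lit 1140) (nat_lit 791185194) (nat_lit 76) (nat_lit 1742851307) (nat_lit 454) (nat_lit 5) (nat_lit 469) (nat_lit 5) (nat_lit 455) (nat_lit 5) (nat_lit 561) (nat_lit 507) (nat_lit 492)))) (XT.nd (nat_lit 156) (nat_lit 912) (nat_lit 0) (XT.nd (nat_lit 78) (nat_lit 912) (nat_lit 0) (XT.lf (nat_lit 0) (nat_lit 649349635) (nat_lit 988) (nat_lit 2807358234) (nat_lit 76) (nat_lit 3869455414) (nat_lit 441) (nat_lit 5) (nat_lit 454) (nat_lit 5) (nat_lit 442) (nat_lit 5) (nat_lit 562) (nat_lit 507) (nat_lit 491)) (XT.lf (nat_lit 0) (nat_lit 2527592437) (nat_lit 912) (nat_lit 1297189875) (nat_lit 988) (nat_lit 3547512003) (nat_lit 429) (nat_lit 5) (nat_lit 441) (nat_lit 5) (nat_lit 442) (nat_lit 5) (nat_lit 563)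 (nat_lit 507) (nat_lit 490))) (XT.nd (nat_lit 78) (nat_lit 76) (nat_lit 0) (XT.lf (nat_lit 0) (nat_lit 525778936) (nat_lit 836) (nat_lit 6507462545) (nat_lit 912) (nat_lit 386720318) (nat_lit 418) (nat_lit 5) (nat_lit 429) (nat_lit 5) (nat_lit 430) (nat_lit 5) (nat_lit 564) (nat_lit 507) (nat_lit 489)) (XT.lf (nat_lit 0) (nat_lit 2783007858) (nat_lit 912) (nat_lit 1489620093) (nat_lit 76) (nat_lit 3195931630) (nat_lit 417) (nat_lit 5) (nat_lit 429) (nat_lit 5) (nat_lit 418) (nat_lit 5) (nat_lit 565) (nat_lit 507) (nat_lit 488)))))) (XT.nd (nat_lit 546) (nat_lit 4332) (nat_lit 0) (XT.nd (nat_lit 234) (nat_lit 2508) (nat_lit 0) (XT.nd (nat_lit 78) (nat_lit 912) (nat_lit 0) (XT.lf (nat_lit 0) (nat_lit 4010521845) (nat_lit 836) (nat_lit 1969234895) (nat_lit 912) (nat_lit 1538949314) (nat_lit 406) (nat_lit 5) (nat_lit 417) (nat_lit 5) (nat_lit 418) (nat_lit 5) (nat_lit 566) (nat_lit 507) (nat_lit 487)) (XT.nd (nat_lit 78) (nat_lit 0) (nat_lit 0) (XT.lf (nat_lit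 0) (nat_lit 1617634705) (nat_lit 912) (nat_lit 5549034799) (nat_lit 76) (nat_lit 403593622) (nat_lit 394) (nat_lit 5) (nat_lit 406) (nat_lit 5) (nat_lit 395) (nat_lit 5) (nat_lit 567) (nat_lit 507) (nat_lit 486)) (XT.lf (nat_lit 0) (nat_lit 4797272483) (nat_lit 912) (nat_lit 556929) (nat_lit 76) (nat_lit 2825211623) (nat_lit 394) (nat_lit 5) (nat_lit 406) (nat_lit 5) (nat_lit 395) (nat_lit 5) (nat_lit 568) (nat_lit 507) (nat_lit 485)))) (XT.nd (nat_lit 156) (nat_lit 836) (nat_lit 0) (XT.nd (nat_lit 78) (nat_lit 760) (nat_lit 0) (XT.lf (nat_lit 0) (nat_lit 340427063) (nat_lit 912) (nat_lit 2008542535) (nat_lit 76) (nat_lit 5328229908) (nat_lit 382) (nat_lit 5) (nat_lit 394) (nat_lit 5) (nat_lit 383) (nat_lit 5) (nat_lit 569) (nat_lit 507) (nat_lit 484)) (XT.lf (nat_lit 0) (nat_lit 3502465221) (nat_lit 836) (nat_lit 4048084596) (nat_lit 76) (nat_lit 182114152) (nat_lit 372) (nat_lit 5) (nat_lit 383) (nat_lit 5) (nat_lit 373) (nat_lit 5) (nat_lit 570) (nat_lit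 507) (nat_lit 483))) (XT.nd (nat_lit 78) (nat_lit 76) (nat_lit 0) (XT.lf (nat_lit 0) (nat_lit 1672848270) (nat_lit 760) (nat_lit 5040686734) (nat_lit 836) (nat_lit 1075990335) (nat_lit 362) (nat_lit 5) (nat_lit 372) (nat_lit 5) (nat_lit 373) (nat_lit 5) (nat_lit 571) (nat_lit 507) (nat_lit 482)) (XT.lf (nat_lit 0) (nat_lit 2086665916) (nat_lit 836) (nat_lit 361561955) (nat_lit 76) (nat_lit 5399552367) (nat_lit 361) (nat_lit 5) (nat_lit 372) (nat_lit 5) (nat_lit 362) (nat_lit 5) (nat_lit 572) (nat_lit 507) (nat_lit 481))))) (XT.nd (nat_lit 312) (nat_lit 2128) (nat_lit 0) (XT.nd (nat_lit 156) (nat_lit 684) (nat_lit 0) (XT.nd (nat_lit 78) (nat_lit 836) (nat_lit 0) (XT.lf (nat_lit 0) (nat_lit 5282620541) (nat_lit 760) (nat_lit 2397408704) (nat_lit 76) (nat_lit 227342925) (nat_lit 352) (nat_lit 5) (nat_lit 362) (nat_lit 5) (nat_lit 353) (nat_lit 5) (nat_lit 573) (nat_lit 507) (nat_lit 480)) (XT.lf (nat_lit 0) (nat_lit 555857519) (nat_lit 836) (nat_lit 4469512846)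 (nat_lit 76) (nat_lit 2942933073) (nat_lit 341) (nat_lit 5) (nat_lit 352) (nat_lit 5) (nat_lit 342) (nat_lit 5) (nat_lit 574) (nat_lit 507) (nat_lit 479))) (XT.nd (nat_lit 78) (nat_lit 0) (nat_lit 0) (XT.lf (nat_lit 0) (nat_lit 1453676755) (nat_lit 684) (nat_lit 2284926686) (nat_lit 760) (nat_lit 4292032548) (nat_lit 332) (nat_lit 5) (nat_lit 341) (nat_lit 5) (nat_lit 342) (nat_lit 5) (nat_lit 575) (nat_lit 507) (nat_lit 478)) (XT.lf (nat_lit 0) (nat_lit 6967051704) (nat_lit 760) (nat_lit 604932167) (nat_lit 76) (nat_lit 522593360) (nat_lit 332) (nat_lit 5) (nat_lit 342) (nat_lit 5) (nat_lit 333) (nat_lit 5) (nat_lit 576) (nat_lit 507) (nat_lit 477)))) (XT.nd (nat_lit 156) (nat_lit 760) (nat_lit 0) (XT.nd (nat_lit 78) (nat_lit 608) (nat_lit 0) (XT.lf (nat_lit 0) (nat_lit 2072993731) (nat_lit 760) (nat_lit 2692618613) (nat_lit 76) (nat_lit 3393909750) (nat_lit 322) (nat_lit 5) (nat_lit 332) (nat_lit 5) (nat_lit 323) (nat_lit 5) (nat_lit 577) (nat_lit 507) (nat_lit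 476)) (XT.lf (nat_lit 0) (nat_lit 3417285693) (nat_lit 608) (nat_lit 1881232617) (nat_lit 684) (nat_lit 2927579453) (nat_lit 314) (nat_lit 5) (nat_lit 322) (nat_lit 5) (nat_lit 323) (nat_lit 5) (nat_lit 578) (nat_lit 507) (nat_lit 475))) (XT.nd (nat_lit 78) (nat_lit 0) (nat_lit 0) (XT.lf (nat_lit 0) (nat_lit 274652750) (nat_lit 760) (nat_lit 6956557771) (nat_lit 76) (nat_lit 1063079538) (nat_lit 304) (nat_lit 5) (nat_lit 314) (nat_lit 5) (nat_lit 305) (nat_lit 5) (nat_lit 579) (nat_lit 507) (nat_lit 474)) (XT.lf (nat_lit 0) (nat_lit 3497248364) (nat_lit 760) (nat_lit 786342446) (nat_lit 76) (nat_lit 4079960639) (nat_lit 304) (nat_lit 5) (nat_lit 314) (nat_lit 5) (nat_lit 305) (nat_lit 5) (nat_lit 580) (nat_lit 507) (nat_lit 473))))))))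
noncomputable def xc47 : XT := (XT.nd (nat_lit 2262) (nat_lit 6536) (nat_lit 0) (XT.nd (nat_lit 1092) (nat_lit 4864) (nat_lit 0) (XT.nd (nat_lit 546) (nat_lit 2660) (nat_lit 0) (XT.nd (nat_lit 234) (nat_lit 1824) (nat_lit 0) (XT.nd (nat_lit 78) (nat_lit 1292) (nat_lit 0) (XT.lf (nat_lit 0) (nat_lit 5517409847) (nat_lit 608) (nat_lit 1254219071) (nat_lit 684) (nat_lit 1662825090) (nat_lit 296) (nat_lit 5) (nat_lit 304) (nat_lit 5) (nat_lit 305) (nat_lit 5) (nat_lit 581) (nat_lit 507) (nat_lit 472)) (XT.nd (nat_lit 78) (nat_lit 608) (nat_lit 0) (XT.lf (nat_lit 0) (nat_lit 1575031413) (nat_lit 684) (nat_lit 5095855535) (nat_lit 76) (nat_lit 1835854692) (nat_lit 287) (nat_lit 5) (nat_lit 296) (nat_lit 5) (nat_lit 288) (nat_lit 5) (nat_lit 582) (nat_lit 507) (nat_lit 471)) (XT.lf (nat_lit 0) (nat_lit 1258980316) (nat_lit 608) (nat_lit 3584795131) (nat_lit 684) (nat_lit 3736714291) (nat_lit 279) (nat_lit 5) (nat_lit 287) (nat_lit 5) (nat_lit 288) (nat_lit 5) (nat_lit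 583) (nat_lit 507) (nat_lit 470)))) (XT.nd (nat_lit 156) (nat_lit 1140) (nat_lit 0) (XT.nd (nat_lit 78) (nat_lit 684) (nat_lit 0) (XT.lf (nat_lit 0) (nat_lit 7747486090) (nat_lit 608) (nat_lit 417325846) (nat_lit 684) (nat_lit 491164916) (nat_lit 279) (nat_lit 5) (nat_lit 287) (nat_lit 5) (nat_lit 288) (nat_lit 5) (nat_lit 584) (nat_lit 507) (nat_lit 469)) (XT.lf (nat_lit 0) (nat_lit 2790720742) (nat_lit 684) (nat_lit 3124968668) (nat_lit 76) (nat_lit 2816752497) (nat_lit 270) (nat_lit 5) (nat_lit 279) (nat_lit 5) (nat_lit 271) (nat_lit 5) (nat_lit 585) (nat_lit 507) (nat_lit 468))) (XT.nd (nat_lit 78) (nat_lit 608) (nat_lit 0) (XT.lf (nat_lit 0) (nat_lit 3432399067) (nat_lit 532) (nat_lit 2684215938) (nat_lit 608) (nat_lit 2694059642) (nat_lit 263) (nat_lit 5) (nat_lit 270) (nat_lit 5) (nat_lit 271) (nat_lit 5) (nat_lit 586) (nat_lit 507) (nat_lit 467)) (XT.lf (nat_lit 0) (nat_lit 597529425) (nat_lit 608) (nat_lit 7672239642) (nat_lit 76) (nat_lit 620883094)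 (nat_lit 255) (nat_lit 5) (nat_lit 263) (nat_lit 5) (nat_lit 256) (nat_lit 5) (nat_lit 587) (nat_lit 507) (nat_lit 466))))) (XT.nd (nat_lit 234) (nat_lit 1520) (nat_lit 0) (XT.nd (nat_lit 78) (nat_lit 1140) (nat_lit 0) (XT.lf (nat_lit 0) (nat_lit 3927364063) (nat_lit 608) (nat_lit 1050341696) (nat_lit 76) (nat_lit 3993999703) (nat_lit 255) (nat_lit 5) (nat_lit 263) (nat_lit 5) (nat_lit 256) (nat_lit 5) (nat_lit 588) (nat_lit 507) (nat_lit 465)) (XT.nd (nat_lit 78) (nat_lit 608) (nat_lit 0) (XT.lf (nat_lit 0) (nat_lit 5717295331) (nat_lit 532) (nat_lit 1598862880) (nat_lit 608) (nat_lit 1738376455) (nat_lit 248) (nat_lit 5) (nat_lit 255) (nat_lit 5) (nat_lit 256) (nat_lit 5) (nat_lit 589) (nat_lit 507) (nat_lit 464)) (XT.lf (nat_lit 0) (nat_lit 1609473429) (nat_lit 608) (nat_lit 5682648986) (nat_lit 76) (nat_lit 1846744070) (nat_lit 240) (nat_lit 5) (nat_lit 248) (nat_lit 5) (nat_lit 241) (nat_lit 5) (nat_lit 590) (nat_lit 507) (nat_lit 463)))) (XT.nd (nat_lit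 156) (nat_lit 1064) (nat_lit 0) (XT.nd (nat_lit 78) (nat_lit 0) (nat_lit 0) (XT.lf (nat_lit 0) (nat_lit 1136768330) (nat_lit 456) (nat_lit 3860557982) (nat_lit 532) (nat_lit 4227404329) (nat_lit 234) (nat_lit 5) (nat_lit 240) (nat_lit 5) (nat_lit 241) (nat_lit 5) (nat_lit 591) (nat_lit 507) (nat_lit 462)) (XT.lf (nat_lit 0) (nat_lit 8107778295) (nat_lit 456) (nat_lit 339546006) (nat_lit 532) (nat_lit 865101952) (nat_lit 234) (nat_lit 5) (nat_lit 240) (nat_lit 5) (nat_lit 241) (nat_lit 5) (nat_lit 592) (nat_lit 507) (nat_lit 461))) (XT.nd (nat_lit 78) (nat_lit 456) (nat_lit 0) (XT.lf (nat_lit 0) (nat_lit 2546749606) (nat_lit 608) (nat_lit 3608254465) (nat_lit 76) (nat_lit 3246221839) (nat_lit 226) (nat_lit 5) (nat_lit 234) (nat_lit 5) (nat_lit 227) (nat_lit 5) (nat_lit 593) (nat_lit 507) (nat_lit 460)) (XT.lf (nat_lit 0) (nat_lit 3430669929) (nat_lit 456) (nat_lit 2574416502) (nat_lit 532) (nat_lit 3486805944) (nat_lit 220) (nat_lit 5) (nat_lit 226) (nat_lit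 5) (nat_lit 227) (nat_lit 5) (nat_lit 594) (nat_lit 507) (nat_lit 459)))))) (XT.nd (nat_lit 546) (nat_lit 2432) (nat_lit 0) (XT.nd (nat_lit 234) (nat_lit 1444) (nat_lit 0) (XT.nd (nat_lit 78) (nat_lit 532) (nat_lit 0) (XT.lf (nat_lit 0) (nat_lit 1019763465) (nat_lit 456) (nat_lit 8508301336) (nat_lit 532) (nat_lit 56399661) (nat_lit 214) (nat_lit 5) (nat_lit 220) (nat_lit 5) (nat_lit 221) (nat_lit 5) (nat_lit 595) (nat_lit 507) (nat_lit 458)) (XT.nd (nat_lit 78) (nat_lit 456) (nat_lit 0) (XT.lf (nat_lit 0) (nat_lit 3413093549) (nat_lit 532) (nat_lit 1455220594) (nat_lit 76) (nat_lit 4809815943) (nat_lit 213) (nat_lit 5) (nat_lit 220) (nat_lit 5) (nat_lit 214) (nat_lit 5) (nat_lit 596) (nat_lit 507) (nat_lit 457)) (XT.lf (nat_lit 0) (nat_lit 5811504216) (nat_lit 456) (nat_lit 1135917551) (nat_lit 532) (nat_lit 2826317476) (nat_lit 207) (nat_lit 5) (nat_lit 213) (nat_lit 5) (nat_lit 214) (nat_lit 5) (nat_lit 597) (nat_lit 507) (nat_lit 456)))) (XT.nd (nat_lit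 156) (nat_lit 532) (nat_lit 0) (XT.nd (nat_lit 78) (nat_lit 380) (nat_lit 0) (XT.lf (nat_lit 0) (nat_lit 679897495) (nat_lit 532) (nat_lit 6538083820) (nat_lit 76) (nat_lit 2653039329) (nat_lit 200) (nat_lit 5) (nat_lit 207) (nat_lit 5) (nat_lit 201) (nat_lit 5) (nat_lit 598) (nat_lit 507) (nat_lit 455)) (XT.lf (nat_lit 0) (nat_lit 780591767) (nat_lit 380) (nat_lit 3436098658) (nat_lit 456) (nat_lit 5753219235) (nat_lit 195) (nat_lit 5) (nat_lit 200) (nat_lit 5) (nat_lit 201) (nat_lit 5) (nat_lit 599) (nat_lit 507) (nat_lit 454))) (XT.nd (nat_lit 78) (nat_lit 532) (nat_lit 0) (XT.lf (nat_lit 0) (nat_lit 7830307009) (nat_lit 456) (nat_lit 1800176010) (nat_lit 76) (nat_lit 440173236) (nat_lit 195) (nat_lit 5) (nat_lit 201) (nat_lit 5) (nat_lit 196) (nat_lit 5) (nat_lit 600) (nat_lit 507) (nat_lit 453)) (XT.lf (nat_lit 0) (nat_lit 1345236159) (nat_lit 532) (nat_lit 4453053658) (nat_lit 76) (nat_lit 4374553720) (nat_lit 188) (nat_lit 5) (nat_lit 195) (nat_lit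 5) (nat_lit 189) (nat_lit 5) (nat_lit 601) (nat_lit 507) (nat_lit 452))))) (XT.nd (nat_lit 312) (nat_lit 1216) (nat_lit 0) (XT.nd (nat_lit 156) (nat_lit 456) (nat_lit 0) (XT.nd (nat_lit 78) (nat_lit 380) (nat_lit 0) (XT.lf (nat_lit 0) (nat_lit 3103059298) (nat_lit 380) (nat_lit 1861930070) (nat_lit 456) (nat_lit 5311941401) (nat_lit 183) (nat_lit 5) (nat_lit 188) (nat_lit 5) (nat_lit 189) (nat_lit 5) (nat_lit 602) (nat_lit 507) (nat_lit 451)) (XT.lf (nat_lit 0) (nat_lit 418764090) (nat_lit 380) (nat_lit 8245530109) (nat_lit 456) (nat_lit 1718663853) (nat_lit 178) (nat_lit 5) (nat_lit 183) (nat_lit 5) (nat_lit 184) (nat_lit 5) (nat_lit 603) (nat_lit 507) (nat_lit 450))) (XT.nd (nat_lit 78) (nat_lit 380) (nat_lit 0) (XT.lf (nat_lit 0) (nat_lit 1942242583) (nat_lit 456) (nat_lit 2315766399) (nat_lit 76) (nat_lit 6232419687) (nat_lit 177) (nat_lit 5) (nat_lit 183) (nat_lit 5) (nat_lit 178) (nat_lit 5) (nat_lit 604) (nat_lit 507) (nat_lit 449)) (XT.lf (nat_lit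 0) (nat_lit 5486565820) (nat_lit 380) (nat_lit 163708666) (nat_lit 456) (nat_lit 4949609956) (nat_lit 172) (nat_lit 5) (nat_lit 177) (nat_lit 5) (nat_lit 178) (nat_lit 5) (nat_lit 605) (nat_lit 507) (nat_lit 448)))) (XT.nd (nat_lit 156) (nat_lit 760) (nat_lit 0) (XT.nd (nat_lit 78) (nat_lit 76) (nat_lit 0) (XT.lf (nat_lit 0) (nat_lit 2714686422) (nat_lit 380) (nat_lit 6738615985) (nat_lit 456) (nat_lit 1257811541) (nat_lit 167) (nat_lit 5) (nat_lit 172) (nat_lit 5) (nat_lit 173) (nat_lit 5) (nat_lit 606) (nat_lit 507) (nat_lit 447)) (XT.lf (nat_lit 0) (nat_lit 2472186670) (nat_lit 456) (nat_lit 132908514) (nat_lit 76) (nat_lit 8219203401) (nat_lit 166) (nat_lit 5) (nat_lit 172) (nat_lit 5) (nat_lit 167) (nat_lit 5) (nat_lit 607) (nat_lit 507) (nat_lit 446))) (XT.nd (nat_lit 78) (nat_lit 380) (nat_lit 0) (XT.lf (nat_lit 0) (nat_lit 6284511490) (nat_lit 456) (nat_lit 3025359453) (nat_lit 76) (nat_lit 1629219566) (nat_lit 161) (nat_lit 5) (nat_lit 167) (nat_lit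 5) (nat_lit 162) (nat_lit 5) (nat_lit 608) (nat_lit 507) (nat_lit 445)) (XT.lf (nat_lit 0) (nat_lit 5056967053) (nat_lit 380) (nat_lit 5129702025) (nat_lit 456) (nat_lit 869238693) (nat_lit 156) (nat_lit 5) (nat_lit 161) (nat_lit 5) (nat_lit 162) (nat_lit 5) (nat_lit 609) (nat_lit 507) (nat_lit 444))))))) (XT.nd (nat_lit 1170) (nat_lit 2736) (nat_lit 0) (XT.nd (nat_lit 546) (nat_lit 1900) (nat_lit 0) (XT.nd (nat_lit 234) (nat_lit 1140) (nat_lit 0) (XT.nd (nat_lit 78) (nat_lit 380) (nat_lit 0) (XT.lf (nat_lit 0) (nat_lit 2116340518) (nat_lit 304) (nat_lit 833115652) (nat_lit 380) (nat_lit 8225280176) (nat_lit 151) (nat_lit 5) (nat_lit 155) (nat_lit 5) (nat_lit 156) (nat_lit 5) (nat_lit 610) (nat_lit 507) (nat_lit 443)) (XT.nd (nat_lit 78) (nat_lit 380) (nat_lit 0) (XT.lf (nat_lit 0) (nat_lit 6859381383) (nat_lit 380) (nat_lit 908319854) (nat_lit 76) (nat_lit 3527596585) (nat_lit 151) (nat_lit 5) (nat_lit 156) (nat_lit 5) (nat_lit 152) (nat_lit 5) (nat_lit 611)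 (nat_lit 507) (nat_lit 442)) (XT.lf (nat_lit 0) (nat_lit 7438602986) (nat_lit 380) (nat_lit 3426359855) (nat_lit 456) (nat_lit 552959666) (nat_lit 146) (nat_lit 5) (nat_lit 151) (nat_lit 5) (nat_lit 152) (nat_lit 5) (nat_lit 612) (nat_lit 507) (nat_lit 441)))) (XT.nd (nat_lit 156) (nat_lit 380) (nat_lit 0) (XT.nd (nat_lit 78) (nat_lit 380) (nat_lit 0) (XT.lf (nat_lit 0) (nat_lit 3368141553) (nat_lit 380) (nat_lit 7150193820) (nat_lit 76) (nat_lit 1024119360) (nat_lit 141) (nat_lit 5) (nat_lit 146) (nat_lit 5) (nat_lit 142) (nat_lit 5) (nat_lit 613) (nat_lit 507) (nat_lit 440)) (XT.lf (nat_lit 0) (nat_lit 1247613616) (nat_lit 380) (nat_lit 6134259716) (nat_lit 456) (nat_lit 4287099984) (nat_lit 136) (nat_lit 5) (nat_lit 141) (nat_lit 5) (nat_lit 142) (nat_lit 5) (nat_lit 614) (nat_lit 507) (nat_lit 439))) (XT.nd (nat_lit 78) (nat_lit 380) (nat_lit 0) (XT.lf (nat_lit 0) (nat_lit 9852195507) (nat_lit 380) (nat_lit 1635929838) (nat_lit 456) (nat_lit 309653061)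 (nat_lit 136) (nat_lit 5) (nat_lit 141) (nat_lit 5) (nat_lit 142) (nat_lit 5) (nat_lit 615) (nat_lit 507) (nat_lit 438)) (XT.lf (nat_lit 0) (nat_lit 3725940805) (nat_lit 380) (nat_lit 5242089507) (nat_lit 76) (nat_lit 2960088785) (nat_lit 131) (nat_lit 5) (nat_lit 136) (nat_lit 5) (nat_lit 132) (nat_lit 5) (nat_lit 616) (nat_lit 507) (nat_lit 437))))) (XT.nd (nat_lit 312) (nat_lit 912) (nat_lit 0) (XT.nd (nat_lit 156) (nat_lit 380) (nat_lit 0) (XT.nd (nat_lit 78) (nat_lit 304) (nat_lit 0) (XT.lf (nat_lit 0) (nat_lit 3430245530) (nat_lit 304) (nat_lit 4419015626) (nat_lit 380) (nat_lit 4211542279) (nat_lit 127) (nat_lit 5) (nat_lit 131) (nat_lit 5) (nat_lit 132) (nat_lit 5) (nat_lit 617) (nat_lit 507) (nat_lit 436)) (XT.lf (nat_lit 0) (nat_lit 93419800) (nat_lit 304) (nat_lit 11964159407) (nat_lit 380) (nat_lit 138512595) (nat_lit 123) (nat_lit 5) (nat_lit 127) (nat_lit 5) (nat_lit 128) (nat_lit 5) (nat_lit 618) (nat_lit 507) (nat_lit 435))) (XT.nd (nat_lit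 78) (nat_lit 304) (nat_lit 0) (XT.lf (nat_lit 0) (nat_lit 4016033282) (nat_lit 380) (nat_lit 3337652735) (nat_lit 76) (nat_lit 4978824843) (nat_lit 122) (nat_lit 5) (nat_lit 127) (nat_lit 5) (nat_lit 123) (nat_lit 5) (nat_lit 619) (nat_lit 507) (nat_lit 434)) (XT.lf (nat_lit 0) (nat_lit 5618705921) (nat_lit 304) (nat_lit 2635436406) (nat_lit 380) (nat_lit 4217452033) (nat_lit 118) (nat_lit 5) (nat_lit 122) (nat_lit 5) (nat_lit 123) (nat_lit 5) (nat_lit 620) (nat_lit 507) (nat_lit 433)))) (XT.nd (nat_lit 156) (nat_lit 608) (nat_lit 0) (XT.nd (nat_lit 78) (nat_lit 76) (nat_lit 0) (XT.lf (nat_lit 0) (nat_lit 2143356869) (nat_lit 228) (nat_lit 10450256665) (nat_lit 304) (nat_lit 19514890) (nat_lit 115) (nat_lit 5) (nat_lit 118) (nat_lit 5) (nat_lit 119) (nat_lit 5) (nat_lit 621) (nat_lit 507) (nat_lit 432)) (XT.lf (nat_lit 0) (nat_lit 4236301459) (nat_lit 304) (nat_lit 1446555548) (nat_lit 76) (nat_lit 7073487091) (nat_lit 114) (nat_lit 5) (nat_lit 118) (nat_lit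 5) (nat_lit 115) (nat_lit 5) (nat_lit 622) (nat_lit 507) (nat_lit 431))) (XT.nd (nat_lit 78) (nat_lit 304) (nat_lit 0) (XT.lf (nat_lit 0) (nat_lit 7803486804) (nat_lit 304) (nat_lit 790894921) (nat_lit 380) (nat_lit 4307692444) (nat_lit 110) (nat_lit 5) (nat_lit 114) (nat_lit 5) (nat_lit 115) (nat_lit 5) (nat_lit 623) (nat_lit 507) (nat_lit 430)) (XT.lf (nat_lit 0) (nat_lit 20310984) (nat_lit 304) (nat_lit 8871134504) (nat_lit 76) (nat_lit 4158650389) (nat_lit 106) (nat_lit 5) (nat_lit 110) (nat_lit 5) (nat_lit 107) (nat_lit 5) (nat_lit 624) (nat_lit 507) (nat_lit 429)))))) (XT.nd (nat_lit 546) (nat_lit 1292) (nat_lit 0) (XT.nd (nat_lit 234) (nat_lit 912) (nat_lit 0) (XT.nd (nat_lit 78) (nat_lit 228) (nat_lit 0) (XT.lf (nat_lit 0) (nat_lit 426308290) (nat_lit 304) (nat_lit 3960345224) (nat_lit 380) (nat_lit 8813666639) (nat_lit 102) (nat_lit 5) (nat_lit 106) (nat_lit 5) (nat_lit 107) (nat_lit 5) (nat_lit 625) (nat_lit 507) (nat_lit 428)) (XT.nd (nat_lit 78)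 (nat_lit 228) (nat_lit 0) (XT.lf (nat_lit 0) (nat_lit 8874286190) (nat_lit 380) (nat_lit 3385953963) (nat_lit 76) (nat_lit 1092630276) (nat_lit 102) (nat_lit 5) (nat_lit 107) (nat_lit 5) (nat_lit 103) (nat_lit 5) (nat_lit 626) (nat_lit 507) (nat_lit 427)) (XT.lf (nat_lit 0) (nat_lit 6189710133) (nat_lit 228) (nat_lit 7296117685) (nat_lit 304) (nat_lit 21961528) (nat_lit 99) (nat_lit 5) (nat_lit 102) (nat_lit 5) (nat_lit 103) (nat_lit 5) (nat_lit 627) (nat_lit 507) (nat_lit 426)))) (XT.nd (nat_lit 156) (nat_lit 532) (nat_lit 0) (XT.nd (nat_lit 78) (nat_lit 0) (nat_lit 0) (XT.lf (nat_lit 0) (nat_lit 2282675851) (nat_lit 304) (nat_lit 2187285769) (nat_lit 380) (nat_lit 9195148359) (nat_lit 94) (nat_lit 5) (nat_lit 98) (nat_lit 5) (nat_lit 99) (nat_lit 5) (nat_lit 628) (nat_lit 507) (nat_lit 425)) (XT.lf (nat_lit 0) (nat_lit 9088427315) (nat_lit 380) (nat_lit 1725353229) (nat_lit 76) (nat_lit 3011054331) (nat_lit 94) (nat_lit 5) (nat_lit 99) (nat_lit 5) (nat_lit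 95) (nat_lit 5) (nat_lit 629) (nat_lit 507) (nat_lit 424))) (XT.nd (nat_lit 78) (nat_lit 304) (nat_lit 0) (XT.lf (nat_lit 0) (nat_lit 8163230298) (nat_lit 228) (nat_lit 5672079717) (nat_lit 304) (nat_lit 151724005) (nat_lit 91) (nat_lit 5) (nat_lit 94) (nat_lit 5) (nat_lit 95) (nat_lit 5) (nat_lit 630) (nat_lit 507) (nat_lit 423)) (XT.lf (nat_lit 0) (nat_lit 4090646473) (nat_lit 228) (nat_lit 381499889) (nat_lit 304) (nat_lit 9679607228) (nat_lit 87) (nat_lit 5) (nat_lit 90) (nat_lit 5) (nat_lit 91) (nat_lit 5) (nat_lit 631) (nat_lit 507) (nat_lit 422))))) (XT.nd (nat_lit 312) (nat_lit 532) (nat_lit 0) (XT.nd (nat_lit 156) (nat_lit 532) (nat_lit 0) (XT.nd (nat_lit 78) (nat_lit 228) (nat_lit 0) (XT.lf (nat_lit 0) (nat_lit 9227102067) (nat_lit 304) (nat_lit 124875357) (nat_lit 76) (nat_lit 4966957942) (nat_lit 87) (nat_lit 5) (nat_lit 91) (nat_lit 5) (nat_lit 88) (nat_lit 5) (nat_lit 632) (nat_lit 507) (nat_lit 421)) (XT.lf (nat_lit 0) (nat_lit 10086512865)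 (nat_lit 228) (nat_lit 4028009833) (nat_lit 304) (nat_lit 374191414) (nat_lit 84) (nat_lit 5) (nat_lit 87) (nat_lit 5) (nat_lit 88) (nat_lit 5) (nat_lit 633) (nat_lit 507) (nat_lit 420))) (XT.nd (nat_lit 78) (nat_lit 228) (nat_lit 0) (XT.lf (nat_lit 0) (nat_lit 4397148336) (nat_lit 304) (nat_lit 8834264162) (nat_lit 76) (nat_lit 1429549346) (nat_lit 80) (nat_lit 5) (nat_lit 84) (nat_lit 5) (nat_lit 81) (nat_lit 5) (nat_lit 634) (nat_lit 507) (nat_lit 419)) (XT.lf (nat_lit 0) (nat_lit 1419559074) (nat_lit 228) (nat_lit 7874493362) (nat_lit 304) (nat_lit 5541850278) (nat_lit 77) (nat_lit 5) (nat_lit 80) (nat_lit 5) (nat_lit 81) (nat_lit 5) (nat_lit 635) (nat_lit 507) (nat_lit 418)))) (XT.nd (nat_lit 156) (nat_lit 228) (nat_lit 0) (XT.nd (nat_lit 78) (nat_lit 304) (nat_lit 0) (XT.lf (nat_lit 0) (nat_lit 11945068191) (nat_lit 228) (nat_lit 2372876012) (nat_lit 304) (nat_lit 695817810) (nat_lit 77) (nat_lit 5) (nat_lit 80) (nat_lit 5) (nat_lit 81) (nat_lit 5) (nat_lit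 636) (nat_lit 507) (nat_lit 417)) (XT.lf (nat_lit 0) (nat_lit 4231705357) (nat_lit 304) (nat_lit 7711379310) (nat_lit 76) (nat_lit 3250737463) (nat_lit 73) (nat_lit 5) (nat_lit 77) (nat_lit 5) (nat_lit 74) (nat_lit 5) (nat_lit 637) (nat_lit 507) (nat_lit 416))) (XT.nd (nat_lit 78) (nat_lit 0) (nat_lit 0) (XT.lf (nat_lit 0) (nat_lit 2873761600) (nat_lit 228) (nat_lit 6400073712) (nat_lit 304) (nat_lit 6103049252) (nat_lit 70) (nat_lit 5) (nat_lit 73) (nat_lit 5) (nat_lit 74) (nat_lit 5) (nat_lit 638) (nat_lit 507) (nat_lit 415)) (XT.lf (nat_lit 0) (nat_lit 13722884138) (nat_lit 228) (nat_lit 716177888) (nat_lit 304) (nat_lit 1124101693) (nat_lit 70) (nat_lit 5) (nat_lit 73) (nat_lit 5) (nat_lit 74) (nat_lit 5) (nat_lit 639) (nat_lit 507) (nat_lit 414))))))))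
noncomputable def xc48 : XT := (XT.nd (nat_lit 75270) (nat_lit 0) (nat_lit 14060) (XT.nd (nat_lit 74100) (nat_lit 0) (nat_lit 28880) (XT.nd (nat_lit 546) (nat_lit 380) (nat_lit 0) (XT.nd (nat_lit 234) (nat_lit 760) (nat_lit 0) (XT.nd (nat_lit 78) (nat_lit 152) (nat_lit 0) (XT.lf (nat_lit 0) (nat_lit 3965798562) (nat_lit 304) (nat_lit 6707878583) (nat_lit 76) (nat_lit 5077713615) (nat_lit 66) (nat_lit 5) (nat_lit 70) (nat_lit 5) (nat_lit 67) (nat_lit 5) (nat_lit 640) (nat_lit 507) (nat_lit 413)) (XT.nd (nat_lit 78) (nat_lit 0) (nat_lit 0) (XT.lf (nat_lit 0) (nat_lit 4218135770) (nat_lit 152) (nat_lit 4939869632) (nat_lit 228) (nat_lit 6784917653) (nat_lit 64) (nat_lit 5) (nat_lit 66) (nat_lit 5) (nat_lit 67) (nat_lit 5) (nat_lit 641) (nat_lit 507) (nat_lit 412)) (XT.lf (nat_lit 0) (nat_lit 14476341326) (nat_lit 228) (nat_lit 741781616) (nat_lit 76) (nat_lit 919717866) (nat_lit 64) (nat_lit 5) (nat_lit 67) (nat_lit 5) (nat_lit 65) (nat_lit 5) (nat_lit 642) (nat_lit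 507) (nat_lit 411)))) (XT.nd (nat_lit 156) (nat_lit 304) (nat_lit 0) (XT.nd (nat_lit 78) (nat_lit 152) (nat_lit 0) (XT.lf (nat_lit 0) (nat_lit 3590747923) (nat_lit 304) (nat_lit 5843528688) (nat_lit 76) (nat_lit 6900455782) (nat_lit 60) (nat_lit 5) (nat_lit 64) (nat_lit 5) (nat_lit 61) (nat_lit 5) (nat_lit 643) (nat_lit 507) (nat_lit 410)) (XT.lf (nat_lit 0) (nat_lit 5432834808) (nat_lit 152) (nat_lit 3504946106) (nat_lit 228) (nat_lit 7597321967) (nat_lit 58) (nat_lit 5) (nat_lit 60) (nat_lit 5) (nat_lit 61) (nat_lit 5) (nat_lit 644) (nat_lit 507) (nat_lit 409))) (XT.nd (nat_lit 78) (nat_lit 76) (nat_lit 0) (XT.lf (nat_lit 0) (nat_lit 210322177) (nat_lit 228) (nat_lit 14210546479) (nat_lit 304) (nat_lit 2318030317) (nat_lit 55) (nat_lit 5) (nat_lit 58) (nat_lit 5) (nat_lit 59) (nat_lit 5) (nat_lit 645) (nat_lit 507) (nat_lit 408)) (XT.lf (nat_lit 0) (nat_lit 3096636305) (nat_lit 304) (nat_lit 5140185281) (nat_lit 76) (nat_lit 8708151386) (nat_lit 54) (nat_lit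 5) (nat_lit 58) (nat_lit 5) (nat_lit 55) (nat_lit 5) (nat_lit 646) (nat_lit 507) (nat_lit 407))))) (XT.nd (nat_lit 73242) (nat_lit 0) (nat_lit 44764) (XT.nd (nat_lit 78) (nat_lit 228) (nat_lit 0) (XT.lf (nat_lit 0) (nat_lit 6495870541) (nat_lit 152) (nat_lit 2107249039) (nat_lit 228) (nat_lit 8551451641) (nat_lit 52) (nat_lit 5) (nat_lit 54) (nat_lit 5) (nat_lit 55) (nat_lit 5) (nat_lit 647) (nat_lit 507) (nat_lit 406)) (XT.nd (nat_lit 73086) (nat_lit 0) (nat_lit 47196) (XT.lf (nat_lit 0) (nat_lit 1002639271) (nat_lit 228) (nat_lit 13257669351) (nat_lit 304) (nat_lit 3107241727) (nat_lit 49) (nat_lit 5) (nat_lit 52) (nat_lit 5) (nat_lit 53) (nat_lit 5) (nat_lit 648) (nat_lit 507) (nat_lit 405)) (XT.lf (nat_lit 0) (nat_lit 3181272) (nat_lit 1140) (nat_lit 3352095271) (nat_lit 0) (nat_lit 3181272) (nat_lit 670) (nat_lit 5) (nat_lit 685) (nat_lit 4) (nat_lit 670) (nat_lit 4) (nat_lit 544) (nat_lit 508) (nat_lit 508)))) (XT.nd (nat_lit 156) (nat_lit 1292) (nat_lit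 0) (XT.nd (nat_lit 78) (nat_lit 1140) (nat_lit 0) (XT.lf (nat_lit 0) (nat_lit 3335571343) (nat_lit 1140) (nat_lit 2223830439) (nat_lit 0) (nat_lit 1180785697) (nat_lit 670) (nat_lit 5) (nat_lit 685) (nat_lit 4) (nat_lit 670) (nat_lit 4) (nat_lit 545) (nat_lit 508) (nat_lit 507)) (XT.lf (nat_lit 0) (nat_lit 2316395703) (nat_lit 1140) (nat_lit 4357997968) (nat_lit 1140) (nat_lit 90677375) (nat_lit 655) (nat_lit 4) (nat_lit 670) (nat_lit 5) (nat_lit 670) (nat_lit 4) (nat_lit 546) (nat_lit 508) (nat_lit 506))) (XT.nd (nat_lit 78) (nat_lit 0) (nat_lit 0) (XT.lf (nat_lit 0) (nat_lit 106677664) (nat_lit 1216) (nat_lit 3083971320) (nat_lit 1292) (nat_lit 3600497709) (nat_lit 638) (nat_lit 5) (nat_lit 654) (nat_lit 5) (nat_lit 655) (nat_lit 4) (nat_lit 547) (nat_lit 508) (nat_lit 505)) (XT.lf (nat_lit 0) (nat_lit 4752549546) (nat_lit 1216) (nat_lit 1743235340) (nat_lit 1292) (nat_lit 322765509) (nat_lit 638) (nat_lit 5) (nat_lit 654) (nat_lit 5) (nat_lit 655) (nat_lit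 4) (nat_lit 548) (nat_lit 508) (nat_lit 504)))))) (XT.nd (nat_lit 546) (nat_lit 8360) (nat_lit 0) (XT.nd (nat_lit 234) (nat_lit 4712) (nat_lit 0) (XT.nd (nat_lit 78) (nat_lit 1444) (nat_lit 0) (XT.lf (nat_lit 0) (nat_lit 2599284599) (nat_lit 1292) (nat_lit 328963122) (nat_lit 1368) (nat_lit 3918921625) (nat_lit 620) (nat_lit 5) (nat_lit 637) (nat_lit 5) (nat_lit 638) (nat_lit 5) (nat_lit 549) (nat_lit 508) (nat_lit 503)) (XT.nd (nat_lit 78) (nat_lit 76) (nat_lit 0) (XT.lf (nat_lit 0) (nat_lit 445104414) (nat_lit 1368) (nat_lit 5750433849) (nat_lit 1444) (nat_lit 681674267) (nat_lit 602) (nat_lit 5) (nat_lit 620) (nat_lit 5) (nat_lit 621) (nat_lit 4) (nat_lit 550) (nat_lit 508) (nat_lit 502)) (XT.lf (nat_lit 0) (nat_lit 2548819929) (nat_lit 1444) (nat_lit 1698711148) (nat_lit 76) (nat_lit 2660733748) (nat_lit 601) (nat_lit 5) (nat_lit 620) (nat_lit 5) (nat_lit 602) (nat_lit 5) (nat_lit 551) (nat_lit 508) (nat_lit 501)))) (XT.nd (nat_lit 156) (nat_lit 1672)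 (nat_lit 0) (XT.nd (nat_lit 78) (nat_lit 1596) (nat_lit 0) (XT.lf (nat_lit 0) (nat_lit 3105192901) (nat_lit 1444) (nat_lit 2683101374) (nat_lit 1520) (nat_lit 1152489565) (nat_lit 582) (nat_lit 5) (nat_lit 601) (nat_lit 5) (nat_lit 602) (nat_lit 5) (nat_lit 552) (nat_lit 508) (nat_lit 500)) (XT.lf (nat_lit 0) (nat_lit 992806557) (nat_lit 1520) (nat_lit 1049738385) (nat_lit 1596) (nat_lit 4932104189) (nat_lit 561) (nat_lit 5) (nat_lit 581) (nat_lit 5) (nat_lit 582) (nat_lit 5) (nat_lit 553) (nat_lit 508) (nat_lit 499))) (XT.nd (nat_lit 78) (nat_lit 1672) (nat_lit 0) (XT.lf (nat_lit 0) (nat_lit 5250715408) (nat_lit 1596) (nat_lit 1112518544) (nat_lit 76) (nat_lit 646517492) (nat_lit 561) (nat_lit 5) (nat_lit 582) (nat_lit 5) (nat_lit 562) (nat_lit 5) (nat_lit 554) (nat_lit 508) (nat_lit 498)) (XT.lf (nat_lit 0) (nat_lit 1425783629) (nat_lit 1672) (nat_lit 3218610942) (nat_lit 76) (nat_lit 2401621226) (nat_lit 539) (nat_lit 5) (nat_lit 561) (nat_lit 5) (nat_lit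 540) (nat_lit 5) (nat_lit 555) (nat_lit 508) (nat_lit 497))))) (XT.nd (nat_lit 312) (nat_lit 3040) (nat_lit 0) (XT.nd (nat_lit 156) (nat_lit 3572) (nat_lit 0) (XT.nd (nat_lit 78) (nat_lit 76) (nat_lit 0) (XT.lf (nat_lit 0) (nat_lit 1748543964) (nat_lit 1672) (nat_lit 2857554121) (nat_lit 1748) (nat_lit 2477572872) (nat_lit 517) (nat_lit 5) (nat_lit 539) (nat_lit 5) (nat_lit 540) (nat_lit 5) (nat_lit 556) (nat_lit 508) (nat_lit 496)) (XT.lf (nat_lit 0) (nat_lit 677028356) (nat_lit 1748) (nat_lit 329328327) (nat_lit 76) (nat_lit 6116460202) (nat_lit 516) (nat_lit 5) (nat_lit 539) (nat_lit 5) (nat_lit 517) (nat_lit 5) (nat_lit 557) (nat_lit 508) (nat_lit 495))) (XT.nd (nat_lit 78) (nat_lit 1824) (nat_lit 0) (XT.lf (nat_lit 0) (nat_lit 3836679299) (nat_lit 1824) (nat_lit 2406730317) (nat_lit 76) (nat_lit 919510743) (nat_lit 493) (nat_lit 5) (nat_lit 517) (nat_lit 5) (nat_lit 494) (nat_lit 5) (nat_lit 558) (nat_lit 508) (nat_lit 494)) (XT.lf (nat_lit 0) (nat_lit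 2711874780) (nat_lit 1824) (nat_lit 4313108423) (nat_lit 1900) (nat_lit 179538215) (nat_lit 469) (nat_lit 5) (nat_lit 493) (nat_lit 5) (nat_lit 494) (nat_lit 5) (nat_lit 559) (nat_lit 508) (nat_lit 493)))) (XT.nd (nat_lit 156) (nat_lit 1900) (nat_lit 0) (XT.nd (nat_lit 78) (nat_lit 0) (nat_lit 0) (XT.lf (nat_lit 0) (nat_lit 646014370) (nat_lit 1064) (nat_lit 2304158354) (nat_lit 1140) (nat_lit 4297196550) (nat_lit 454) (nat_lit 5) (nat_lit 468) (nat_lit 5) (nat_lit 469) (nat_lit 5) (nat_lit 560) (nat_lit 508) (nat_lit 492)) (XT.lf (nat_lit 0) (nat_lit 5886025352) (nat_lit 1064) (nat_lit 224345707) (nat_lit 1140) (nat_lit 1181277795) (nat_lit 454) (nat_lit 5) (nat_lit 468) (nat_lit 5) (nat_lit 469) (nat_lit 5) (nat_lit 561) (nat_lit 508) (nat_lit 491))) (XT.nd (nat_lit 78) (nat_lit 912) (nat_lit 0) (XT.lf (nat_lit 0) (nat_lit 1949396687) (nat_lit 988) (nat_lit 3478677154) (nat_lit 76) (nat_lit 1908912584) (nat_lit 441) (nat_lit 5) (nat_lit 454) (nat_lit 5)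 (nat_lit 442) (nat_lit 5) (nat_lit 562) (nat_lit 508) (nat_lit 490)) (XT.lf (nat_lit 0) (nat_lit 1816518955) (nat_lit 912) (nat_lit 3274826736) (nat_lit 988) (nat_lit 2292443514) (nat_lit 429) (nat_lit 5) (nat_lit 441) (nat_lit 5) (nat_lit 442) (nat_lit 5) (nat_lit 563) (nat_lit 508) (nat_lit 489))))))) (XT.nd (nat_lit 1092) (nat_lit 6688) (nat_lit 0) (XT.nd (nat_lit 546) (nat_lit 3800) (nat_lit 0) (XT.nd (nat_lit 234) (nat_lit 2584) (nat_lit 0) (XT.nd (nat_lit 78) (nat_lit 1672) (nat_lit 0) (XT.lf (nat_lit 0) (nat_lit 818814994) (nat_lit 988) (nat_lit 233891725) (nat_lit 76) (nat_lit 6379402096) (nat_lit 428) (nat_lit 5) (nat_lit 441) (nat_lit 5) (nat_lit 429) (nat_lit 5) (nat_lit 564) (nat_lit 508) (nat_lit 488)) (XT.nd (nat_lit 78) (nat_lit 836) (nat_lit 0) (XT.lf (nat_lit 0) (nat_lit 3946751065) (nat_lit 912) (nat_lit 2291207847) (nat_lit 76) (nat_lit 1243433826) (nat_lit 417) (nat_lit 5) (nat_lit 429) (nat_lit 5) (nat_lit 418) (nat_lit 5) (nat_lit 565)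 (nat_lit 508) (nat_lit 487)) (XT.lf (nat_lit 0) (nat_lit 3167519913) (nat_lit 836) (nat_lit 3942725944) (nat_lit 912) (nat_lit 421960350) (nat_lit 406) (nat_lit 5) (nat_lit 417) (nat_lit 5) (nat_lit 418) (nat_lit 5) (nat_lit 566) (nat_lit 508) (nat_lit 486)))) (XT.nd (nat_lit 156) (nat_lit 1672) (nat_lit 0) (XT.nd (nat_lit 78) (nat_lit 0) (nat_lit 0) (XT.lf (nat_lit 0) (nat_lit 1117770638) (nat_lit 836) (nat_lit 1566049498) (nat_lit 912) (nat_lit 4900523020) (nat_lit 394) (nat_lit 5) (nat_lit 405) (nat_lit 5) (nat_lit 406) (nat_lit 5) (nat_lit 567) (nat_lit 508) (nat_lit 485)) (XT.lf (nat_lit 0) (nat_lit 5825999454) (nat_lit 912) (nat_lit 938780528) (nat_lit 76) (nat_lit 873092057) (nat_lit 394) (nat_lit 5) (nat_lit 406) (nat_lit 5) (nat_lit 395) (nat_lit 5) (nat_lit 568) (nat_lit 508) (nat_lit 484))) (XT.nd (nat_lit 78) (nat_lit 760) (nat_lit 0) (XT.lf (nat_lit 0) (nat_lit 1307677425) (nat_lit 912) (nat_lit 3011744161) (nat_lit 76) (nat_lit 3373145964) (nat_lit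 382) (nat_lit 5) (nat_lit 394) (nat_lit 5) (nat_lit 383) (nat_lit 5) (nat_lit 569) (nat_lit 508) (nat_lit 483)) (XT.lf (nat_lit 0) (nat_lit 2638458773) (nat_lit 760) (nat_lit 1796655925) (nat_lit 836) (nat_lit 3313611033) (nat_lit 372) (nat_lit 5) (nat_lit 382) (nat_lit 5) (nat_lit 383) (nat_lit 5) (nat_lit 570) (nat_lit 508) (nat_lit 482))))) (XT.nd (nat_lit 234) (nat_lit 2280) (nat_lit 0) (XT.nd (nat_lit 78) (nat_lit 760) (nat_lit 0) (XT.lf (nat_lit 0) (nat_lit 577255448) (nat_lit 760) (nat_lit 7023847925) (nat_lit 836) (nat_lit 205387018) (nat_lit 362) (nat_lit 5) (nat_lit 372) (nat_lit 5) (nat_lit 373) (nat_lit 5) (nat_lit 571) (nat_lit 508) (nat_lit 481)) (XT.nd (nat_lit 78) (nat_lit 684) (nat_lit 0) (XT.lf (nat_lit 0) (nat_lit 2919692388) (nat_lit 836) (nat_lit 1510626228) (nat_lit 76) (nat_lit 3434838399) (nat_lit 361) (nat_lit 5) (nat_lit 372) (nat_lit 5) (nat_lit 362) (nat_lit 5) (nat_lit 572) (nat_lit 508) (nat_lit 480)) (XT.lf (nat_lit 0) (nat_lit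 4316503445) (nat_lit 684) (nat_lit 1764243440) (nat_lit 760) (nat_lit 1844701637) (nat_lit 352) (nat_lit 5) (nat_lit 361) (nat_lit 5) (nat_lit 362) (nat_lit 5) (nat_lit 573) (nat_lit 508) (nat_lit 479)))) (XT.nd (nat_lit 156) (nat_lit 760) (nat_lit 0) (XT.nd (nat_lit 78) (nat_lit 684) (nat_lit 0) (XT.lf (nat_lit 0) (nat_lit 1280458617) (nat_lit 836) (nat_lit 5740219712) (nat_lit 76) (nat_lit 966506046) (nat_lit 341) (nat_lit 5) (nat_lit 352) (nat_lit 5) (nat_lit 342) (nat_lit 5) (nat_lit 574) (nat_lit 508) (nat_lit 478)) (XT.lf (nat_lit 0) (nat_lit 135011759) (nat_lit 684) (nat_lit 4294395501) (nat_lit 760) (nat_lit 3620787089) (nat_lit 332) (nat_lit 5) (nat_lit 341) (nat_lit 5) (nat_lit 342) (nat_lit 5) (nat_lit 575) (nat_lit 508) (nat_lit 477))) (XT.nd (nat_lit 78) (nat_lit 760) (nat_lit 0) (XT.lf (nat_lit 0) (nat_lit 6144025080) (nat_lit 684) (nat_lit 1485453738) (nat_lit 760) (nat_lit 485225760) (nat_lit 332) (nat_lit 5) (nat_lit 341) (nat_lit 5) (nat_lit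 342) (nat_lit 5) (nat_lit 576) (nat_lit 508) (nat_lit 476)) (XT.lf (nat_lit 0) (nat_lit 2663331281) (nat_lit 760) (nat_lit 4122343633) (nat_lit 76) (nat_lit 1394763285) (nat_lit 322) (nat_lit 5) (nat_lit 332) (nat_lit 5) (nat_lit 323) (nat_lit 5) (nat_lit 577) (nat_lit 508) (nat_lit 475)))))) (XT.nd (nat_lit 546) (nat_lit 3420) (nat_lit 0) (XT.nd (nat_lit 234) (nat_lit 1900) (nat_lit 0) (XT.nd (nat_lit 78) (nat_lit 760) (nat_lit 0) (XT.lf (nat_lit 0) (nat_lit 1937710293) (nat_lit 608) (nat_lit 3917177314) (nat_lit 684) (nat_lit 2392806994) (nat_lit 314) (nat_lit 5) (nat_lit 322) (nat_lit 5) (nat_lit 323) (nat_lit 5) (nat_lit 578) (nat_lit 508) (nat_lit 474)) (XT.nd (nat_lit 78) (nat_lit 684) (nat_lit 0) (XT.lf (nat_lit 0) (nat_lit 762444512) (nat_lit 684) (nat_lit 207985036) (nat_lit 76) (nat_lit 7346188562) (nat_lit 313) (nat_lit 5) (nat_lit 322) (nat_lit 5) (nat_lit 314) (nat_lit 5) (nat_lit 579) (nat_lit 508) (nat_lit 473)) (XT.lf (nat_lit 0) (nat_lit 3953357289)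 (nat_lit 760) (nat_lit 2381675980) (nat_lit 76) (nat_lit 2051481175) (nat_lit 304) (nat_lit 5) (nat_lit 314) (nat_lit 5) (nat_lit 305) (nat_lit 5) (nat_lit 580) (nat_lit 508) (nat_lit 472)))) (XT.nd (nat_lit 156) (nat_lit 608) (nat_lit 0) (XT.nd (nat_lit 78) (nat_lit 684) (nat_lit 0) (XT.lf (nat_lit 0) (nat_lit 3870271329) (nat_lit 608) (nat_lit 3323238100) (nat_lit 684) (nat_lit 1264593407) (nat_lit 296) (nat_lit 5) (nat_lit 304) (nat_lit 5) (nat_lit 305) (nat_lit 5) (nat_lit 581) (nat_lit 508) (nat_lit 471)) (XT.lf (nat_lit 0) (nat_lit 1696875338) (nat_lit 608) (nat_lit 224455644) (nat_lit 684) (nat_lit 6609943173) (nat_lit 287) (nat_lit 5) (nat_lit 295) (nat_lit 5) (nat_lit 296) (nat_lit 5) (nat_lit 582) (nat_lit 508) (nat_lit 470))) (XT.nd (nat_lit 78) (nat_lit 608) (nat_lit 0) (XT.lf (nat_lit 0) (nat_lit 5157239363) (nat_lit 684) (nat_lit 525153406) (nat_lit 76) (nat_lit 2923287387) (nat_lit 287) (nat_lit 5) (nat_lit 296) (nat_lit 5) (nat_lit 288) (nat_lit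 5) (nat_lit 583) (nat_lit 508) (nat_lit 469)) (XT.lf (nat_lit 0) (nat_lit 5926038246) (nat_lit 608) (nat_lit 2525836473) (nat_lit 684) (nat_lit 229821740) (nat_lit 279) (nat_lit 5) (nat_lit 287) (nat_lit 5) (nat_lit 288) (nat_lit 5) (nat_lit 584) (nat_lit 508) (nat_lit 468))))) (XT.nd (nat_lit 312) (nat_lit 1596) (nat_lit 0) (XT.nd (nat_lit 156) (nat_lit 608) (nat_lit 0) (XT.nd (nat_lit 78) (nat_lit 532) (nat_lit 0) (XT.lf (nat_lit 0) (nat_lit 2999820270) (nat_lit 684) (nat_lit 5041423447) (nat_lit 76) (nat_lit 717861305) (nat_lit 270) (nat_lit 5) (nat_lit 279) (nat_lit 5) (nat_lit 271) (nat_lit 5) (nat_lit 585) (nat_lit 508) (nat_lit 467)) (XT.lf (nat_lit 0) (nat_lit 1459828272) (nat_lit 532) (nat_lit 4830634574) (nat_lit 608) (nat_lit 2547581049) (nat_lit 263) (nat_lit 5) (nat_lit 270) (nat_lit 5) (nat_lit 271) (nat_lit 5) (nat_lit 586) (nat_lit 508) (nat_lit 466))) (XT.nd (nat_lit 78) (nat_lit 532) (nat_lit 0) (XT.lf (nat_lit 0) (nat_lit 707716851) (nat_lit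 608) (nat_lit 824690907) (nat_lit 76) (nat_lit 7386283090) (nat_lit 262) (nat_lit 5) (nat_lit 270) (nat_lit 5) (nat_lit 263) (nat_lit 5) (nat_lit 587) (nat_lit 508) (nat_lit 465)) (XT.lf (nat_lit 0) (nat_lit 3999983297) (nat_lit 608) (nat_lit 3153102451) (nat_lit 76) (nat_lit 1847410801) (nat_lit 255) (nat_lit 5) (nat_lit 263) (nat_lit 5) (nat_lit 256) (nat_lit 5) (nat_lit 588) (nat_lit 508) (nat_lit 464)))) (XT.nd (nat_lit 156) (nat_lit 456) (nat_lit 0) (XT.nd (nat_lit 78) (nat_lit 608) (nat_lit 0) (XT.lf (nat_lit 0) (nat_lit 3556255125) (nat_lit 532) (nat_lit 3796768613) (nat_lit 608) (nat_lit 1731018105) (nat_lit 248) (nat_lit 5) (nat_lit 255) (nat_lit 5) (nat_lit 256) (nat_lit 5) (nat_lit 589) (nat_lit 508) (nat_lit 463)) (XT.lf (nat_lit 0) (nat_lit 1218475509) (nat_lit 532) (nat_lit 349867510) (nat_lit 608) (nat_lit 7600998509) (nat_lit 240) (nat_lit 5) (nat_lit 247) (nat_lit 5) (nat_lit 248) (nat_lit 5) (nat_lit 590) (nat_lit 508) (nat_lit 462))) (XT.nd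 (nat_lit 78) (nat_lit 456) (nat_lit 0) (XT.lf (nat_lit 0) (nat_lit 4925086199) (nat_lit 608) (nat_lit 1174291323) (nat_lit 76) (nat_lit 3156451314) (nat_lit 240) (nat_lit 5) (nat_lit 248) (nat_lit 5) (nat_lit 241) (nat_lit 5) (nat_lit 591) (nat_lit 508) (nat_lit 461)) (XT.lf (nat_lit 0) (nat_lit 5751106375) (nat_lit 456) (nat_lit 2595020646) (nat_lit 532) (nat_lit 997977509) (nat_lit 234) (nat_lit 5) (nat_lit 240) (nat_lit 5) (nat_lit 241) (nat_lit 5) (nat_lit 592) (nat_lit 508) (nat_lit 460))))))))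
noncomputable def xc49 : XT := (XT.nd (nat_lit 2262) (nat_lit 5016) (nat_lit 0) (XT.nd (nat_lit 1092) (nat_lit 4104) (nat_lit 0) (XT.nd (nat_lit 546) (nat_lit 2128) (nat_lit 0) (XT.nd (nat_lit 234) (nat_lit 1520) (nat_lit 0) (XT.nd (nat_lit 78) (nat_lit 456) (nat_lit 0) (XT.lf (nat_lit 0) (nat_lit 2363948350) (nat_lit 608) (nat_lit 6075184351) (nat_lit 76) (nat_lit 994823009) (nat_lit 226) (nat_lit 5) (nat_lit 234) (nat_lit 5) (nat_lit 227) (nat_lit 5) (nat_lit 593) (nat_lit 508) (nat_lit 459)) (XT.nd (nat_lit 78) (nat_lit 0) (nat_lit 0) (XT.lf (nat_lit 0) (nat_lit 900698173) (nat_lit 456) (nat_lit 4884369120) (nat_lit 532) (nat_lit 3740300125) (nat_lit 220) (nat_lit 5) (nat_lit 226) (nat_lit 5) (nat_lit 227) (nat_lit 5) (nat_lit 594) (nat_lit 508) (nat_lit 458)) (XT.lf (nat_lit 0) (nat_lit 8038527020) (nat_lit 456) (nat_lit 1235284652) (nat_lit 532) (nat_lit 344813380) (nat_lit 220) (nat_lit 5) (nat_lit 226) (nat_lit 5) (nat_lit 227) (nat_lit 5) (nat_lit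 595) (nat_lit 508) (nat_lit 457)))) (XT.nd (nat_lit 156) (nat_lit 532) (nat_lit 0) (XT.nd (nat_lit 78) (nat_lit 456) (nat_lit 0) (XT.lf (nat_lit 0) (nat_lit 3089417266) (nat_lit 532) (nat_lit 4130581921) (nat_lit 76) (nat_lit 2493110677) (nat_lit 213) (nat_lit 5) (nat_lit 220) (nat_lit 5) (nat_lit 214) (nat_lit 5) (nat_lit 596) (nat_lit 508) (nat_lit 456)) (XT.lf (nat_lit 0) (nat_lit 3070692370) (nat_lit 456) (nat_lit 3515100448) (nat_lit 532) (nat_lit 3223686074) (nat_lit 207) (nat_lit 5) (nat_lit 213) (nat_lit 5) (nat_lit 214) (nat_lit 5) (nat_lit 597) (nat_lit 508) (nat_lit 455))) (XT.nd (nat_lit 78) (nat_lit 0) (nat_lit 0) (XT.lf (nat_lit 0) (nat_lit 233562473) (nat_lit 532) (nat_lit 9399805446) (nat_lit 76) (nat_lit 274528319) (nat_lit 200) (nat_lit 5) (nat_lit 207) (nat_lit 5) (nat_lit 201) (nat_lit 5) (nat_lit 598) (nat_lit 508) (nat_lit 454)) (XT.lf (nat_lit 0) (nat_lit 3745343174) (nat_lit 532) (nat_lit 2121087483) (nat_lit 76) (nat_lit 4140855611)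 (nat_lit 200) (nat_lit 5) (nat_lit 207) (nat_lit 5) (nat_lit 201) (nat_lit 5) (nat_lit 599) (nat_lit 508) (nat_lit 453))))) (XT.nd (nat_lit 234) (nat_lit 1216) (nat_lit 0) (XT.nd (nat_lit 78) (nat_lit 532) (nat_lit 0) (XT.lf (nat_lit 0) (nat_lit 5314042155) (nat_lit 380) (nat_lit 2008322461) (nat_lit 456) (nat_lit 2786400905) (nat_lit 195) (nat_lit 5) (nat_lit 200) (nat_lit 5) (nat_lit 201) (nat_lit 5) (nat_lit 600) (nat_lit 508) (nat_lit 452)) (XT.nd (nat_lit 78) (nat_lit 0) (nat_lit 0) (XT.lf (nat_lit 0) (nat_lit 753732236) (nat_lit 532) (nat_lit 7539108422) (nat_lit 76) (nat_lit 1919236054) (nat_lit 188) (nat_lit 5) (nat_lit 195) (nat_lit 5) (nat_lit 189) (nat_lit 5) (nat_lit 601) (nat_lit 508) (nat_lit 451)) (XT.lf (nat_lit 0) (nat_lit 4333982414) (nat_lit 532) (nat_lit 53029240) (nat_lit 76) (nat_lit 5929943062) (nat_lit 188) (nat_lit 5) (nat_lit 195) (nat_lit 5) (nat_lit 189) (nat_lit 5) (nat_lit 602) (nat_lit 508) (nat_lit 450)))) (XT.nd (nat_lit 156)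 (nat_lit 380) (nat_lit 0) (XT.nd (nat_lit 78) (nat_lit 456) (nat_lit 0) (XT.lf (nat_lit 0) (nat_lit 7624672517) (nat_lit 380) (nat_lit 372337215) (nat_lit 456) (nat_lit 2426698514) (nat_lit 183) (nat_lit 5) (nat_lit 188) (nat_lit 5) (nat_lit 189) (nat_lit 5) (nat_lit 603) (nat_lit 508) (nat_lit 449)) (XT.lf (nat_lit 0) (nat_lit 1203369660) (nat_lit 456) (nat_lit 5634270390) (nat_lit 76) (nat_lit 3694433911) (nat_lit 177) (nat_lit 5) (nat_lit 183) (nat_lit 5) (nat_lit 178) (nat_lit 5) (nat_lit 604) (nat_lit 508) (nat_lit 448))) (XT.nd (nat_lit 78) (nat_lit 0) (nat_lit 0) (XT.lf (nat_lit 0) (nat_lit 2094630485) (nat_lit 380) (nat_lit 2775954125) (nat_lit 456) (nat_lit 5771762119) (nat_lit 172) (nat_lit 5) (nat_lit 177) (nat_lit 5) (nat_lit 178) (nat_lit 5) (nat_lit 605) (nat_lit 508) (nat_lit 447)) (XT.lf (nat_lit 0) (nat_lit 8620348263) (nat_lit 456) (nat_lit 767416482) (nat_lit 76) (nat_lit 1366877421) (nat_lit 172) (nat_lit 5) (nat_lit 178) (nat_lit 5) (nat_lit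 173) (nat_lit 5) (nat_lit 606) (nat_lit 508) (nat_lit 446)))))) (XT.nd (nat_lit 546) (nat_lit 1748) (nat_lit 0) (XT.nd (nat_lit 234) (nat_lit 1140) (nat_lit 0) (XT.nd (nat_lit 78) (nat_lit 760) (nat_lit 0) (XT.lf (nat_lit 0) (nat_lit 1583494666) (nat_lit 456) (nat_lit 3692234051) (nat_lit 76) (nat_lit 5592686617) (nat_lit 166) (nat_lit 5) (nat_lit 172) (nat_lit 5) (nat_lit 167) (nat_lit 5) (nat_lit 607) (nat_lit 508) (nat_lit 445)) (XT.nd (nat_lit 78) (nat_lit 380) (nat_lit 0) (XT.lf (nat_lit 0) (nat_lit 4289109432) (nat_lit 380) (nat_lit 1054129584) (nat_lit 456) (nat_lit 5641020458) (nat_lit 161) (nat_lit 5) (nat_lit 166) (nat_lit 5) (nat_lit 167) (nat_lit 5) (nat_lit 608) (nat_lit 508) (nat_lit 444)) (XT.lf (nat_lit 0) (nat_lit 1316305335) (nat_lit 380) (nat_lit 7879809949) (nat_lit 456) (nat_lit 1905947673) (nat_lit 156) (nat_lit 5) (nat_lit 161) (nat_lit 5) (nat_lit 162) (nat_lit 5) (nat_lit 609) (nat_lit 508) (nat_lit 443)))) (XT.nd (nat_lit 156) (nat_lit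 760) (nat_lit 0) (XT.nd (nat_lit 78) (nat_lit 304) (nat_lit 0) (XT.lf (nat_lit 0) (nat_lit 1894504191) (nat_lit 456) (nat_lit 1720209928) (nat_lit 76) (nat_lit 7606949397) (nat_lit 155) (nat_lit 5) (nat_lit 161) (nat_lit 5) (nat_lit 156) (nat_lit 5) (nat_lit 610) (nat_lit 508) (nat_lit 442)) (XT.lf (nat_lit 0) (nat_lit 5756979320) (nat_lit 380) (nat_lit 4825559444) (nat_lit 76) (nat_lit 760635792) (nat_lit 151) (nat_lit 5) (nat_lit 156) (nat_lit 5) (nat_lit 152) (nat_lit 5) (nat_lit 611) (nat_lit 508) (nat_lit 441))) (XT.nd (nat_lit 78) (nat_lit 380) (nat_lit 0) (XT.lf (nat_lit 0) (nat_lit 3440685008) (nat_lit 380) (nat_lit 6278273553) (nat_lit 456) (nat_lit 1747713274) (nat_lit 146) (nat_lit 5) (nat_lit 151) (nat_lit 5) (nat_lit 152) (nat_lit 5) (nat_lit 612) (nat_lit 508) (nat_lit 440)) (XT.lf (nat_lit 0) (nat_lit 277878580) (nat_lit 304) (nat_lit 1860085647) (nat_lit 380) (nat_lit 9454417368) (nat_lit 141) (nat_lit 5) (nat_lit 145) (nat_lit 5) (nat_lit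 146) (nat_lit 5) (nat_lit 613) (nat_lit 508) (nat_lit 439))))) (XT.nd (nat_lit 312) (nat_lit 988) (nat_lit 0) (XT.nd (nat_lit 156) (nat_lit 380) (nat_lit 0) (XT.nd (nat_lit 78) (nat_lit 380) (nat_lit 0) (XT.lf (nat_lit 0) (nat_lit 6114014448) (nat_lit 380) (nat_lit 2949368673) (nat_lit 76) (nat_lit 2656271205) (nat_lit 141) (nat_lit 5) (nat_lit 146) (nat_lit 5) (nat_lit 142) (nat_lit 5) (nat_lit 614) (nat_lit 508) (nat_lit 438)) (XT.lf (nat_lit 0) (nat_lit 5587817089) (nat_lit 380) (nat_lit 4595701441) (nat_lit 456) (nat_lit 1665676353) (nat_lit 136) (nat_lit 5) (nat_lit 141) (nat_lit 5) (nat_lit 142) (nat_lit 5) (nat_lit 615) (nat_lit 508) (nat_lit 437))) (XT.nd (nat_lit 78) (nat_lit 0) (nat_lit 0) (XT.lf (nat_lit 0) (nat_lit 2313418976) (nat_lit 304) (nat_lit 9172693) (nat_lit 380) (nat_lit 9658422685) (nat_lit 131) (nat_lit 5) (nat_lit 135) (nat_lit 5) (nat_lit 136) (nat_lit 5) (nat_lit 616) (nat_lit 508) (nat_lit 436)) (XT.lf (nat_lit 0) (nat_lit 6406549993)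 (nat_lit 380) (nat_lit 1068151299) (nat_lit 76) (nat_lit 4639785119) (nat_lit 131) (nat_lit 5) (nat_lit 136) (nat_lit 5) (nat_lit 132) (nat_lit 5) (nat_lit 617) (nat_lit 508) (nat_lit 435)))) (XT.nd (nat_lit 156) (nat_lit 304) (nat_lit 0) (XT.nd (nat_lit 78) (nat_lit 380) (nat_lit 0) (XT.lf (nat_lit 0) (nat_lit 7749480570) (nat_lit 304) (nat_lit 2839354280) (nat_lit 380) (nat_lit 1661461060) (nat_lit 127) (nat_lit 5) (nat_lit 131) (nat_lit 5) (nat_lit 132) (nat_lit 5) (nat_lit 618) (nat_lit 508) (nat_lit 434)) (XT.lf (nat_lit 0) (nat_lit 2447908366) (nat_lit 380) (nat_lit 8046064761) (nat_lit 76) (nat_lit 1894243057) (nat_lit 122) (nat_lit 5) (nat_lit 127) (nat_lit 5) (nat_lit 123) (nat_lit 5) (nat_lit 619) (nat_lit 508) (nat_lit 433))) (XT.nd (nat_lit 78) (nat_lit 0) (nat_lit 0) (XT.lf (nat_lit 0) (nat_lit 819820200) (nat_lit 304) (nat_lit 5818462704) (nat_lit 380) (nat_lit 5889971912) (nat_lit 118) (nat_lit 5) (nat_lit 122) (nat_lit 5) (nat_lit 123) (nat_lit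 5) (nat_lit 620) (nat_lit 508) (nat_lit 432)) (XT.lf (nat_lit 0) (nat_lit 9916833718) (nat_lit 304) (nat_lit 1016436911) (nat_lit 380) (nat_lit 1737408356) (nat_lit 118) (nat_lit 5) (nat_lit 122) (nat_lit 5) (nat_lit 123) (nat_lit 5) (nat_lit 621) (nat_lit 508) (nat_lit 431))))))) (XT.nd (nat_lit 1170) (nat_lit 1900) (nat_lit 0) (XT.nd (nat_lit 546) (nat_lit 1596) (nat_lit 0) (XT.nd (nat_lit 234) (nat_lit 912) (nat_lit 0) (XT.nd (nat_lit 78) (nat_lit 304) (nat_lit 0) (XT.lf (nat_lit 0) (nat_lit 2499637963) (nat_lit 304) (nat_lit 6448044614) (nat_lit 76) (nat_lit 3867261582) (nat_lit 114) (nat_lit 5) (nat_lit 118) (nat_lit 5) (nat_lit 115) (nat_lit 5) (nat_lit 622) (nat_lit 508) (nat_lit 430)) (XT.nd (nat_lit 78) (nat_lit 0) (nat_lit 0) (XT.lf (nat_lit 0) (nat_lit 2708062553) (nat_lit 304) (nat_lit 4100431876) (nat_lit 380) (nat_lit 6153164684) (nat_lit 110) (nat_lit 5) (nat_lit 114) (nat_lit 5) (nat_lit 115) (nat_lit 5) (nat_lit 623) (nat_lit 508) (nat_lit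 429)) (XT.lf (nat_lit 0) (nat_lit 11220100731) (nat_lit 380) (nat_lit 1036412293) (nat_lit 76) (nat_lit 854464699) (nat_lit 110) (nat_lit 5) (nat_lit 115) (nat_lit 5) (nat_lit 111) (nat_lit 5) (nat_lit 624) (nat_lit 508) (nat_lit 428)))) (XT.nd (nat_lit 156) (nat_lit 304) (nat_lit 0) (XT.nd (nat_lit 78) (nat_lit 304) (nat_lit 0) (XT.lf (nat_lit 0) (nat_lit 2474596863) (nat_lit 304) (nat_lit 4884339644) (nat_lit 76) (nat_lit 5903024772) (nat_lit 106) (nat_lit 5) (nat_lit 110) (nat_lit 5) (nat_lit 107) (nat_lit 5) (nat_lit 625) (nat_lit 508) (nat_lit 427)) (XT.lf (nat_lit 0) (nat_lit 4571655838) (nat_lit 304) (nat_lit 2335354108) (nat_lit 380) (nat_lit 6508606378) (nat_lit 102) (nat_lit 5) (nat_lit 106) (nat_lit 5) (nat_lit 107) (nat_lit 5) (nat_lit 626) (nat_lit 508) (nat_lit 426))) (XT.nd (nat_lit 78) (nat_lit 76) (nat_lit 0) (XT.lf (nat_lit 0) (nat_lit 647432693) (nat_lit 228) (nat_lit 10804315474) (nat_lit 304) (nat_lit 2120123513) (nat_lit 99) (nat_lit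 5) (nat_lit 102) (nat_lit 5) (nat_lit 103) (nat_lit 5) (nat_lit 627) (nat_lit 508) (nat_lit 425)) (XT.lf (nat_lit 0) (nat_lit 2368871494) (nat_lit 304) (nat_lit 3366776635) (nat_lit 76) (nat_lit 7994425911) (nat_lit 98) (nat_lit 5) (nat_lit 102) (nat_lit 5) (nat_lit 99) (nat_lit 5) (nat_lit 628) (nat_lit 508) (nat_lit 424))))) (XT.nd (nat_lit 312) (nat_lit 760) (nat_lit 0) (XT.nd (nat_lit 156) (nat_lit 304) (nat_lit 0) (XT.nd (nat_lit 78) (nat_lit 228) (nat_lit 0) (XT.lf (nat_lit 0) (nat_lit 6398890731) (nat_lit 304) (nat_lit 530995439) (nat_lit 380) (nat_lit 6961062136) (nat_lit 94) (nat_lit 5) (nat_lit 98) (nat_lit 5) (nat_lit 99) (nat_lit 5) (nat_lit 629) (nat_lit 508) (nat_lit 423)) (XT.lf (nat_lit 0) (nat_lit 2296719907) (nat_lit 228) (nat_lit 9323253546) (nat_lit 304) (nat_lit 2434310248) (nat_lit 91) (nat_lit 5) (nat_lit 94) (nat_lit 5) (nat_lit 95) (nat_lit 5) (nat_lit 630) (nat_lit 508) (nat_lit 422))) (XT.nd (nat_lit 78) (nat_lit 228) (nat_lit 0)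 (XT.lf (nat_lit 0) (nat_lit 2177707837) (nat_lit 304) (nat_lit 1908285988) (nat_lit 76) (nat_lit 10134141951) (nat_lit 90) (nat_lit 5) (nat_lit 94) (nat_lit 5) (nat_lit 91) (nat_lit 5) (nat_lit 631) (nat_lit 508) (nat_lit 421)) (XT.lf (nat_lit 0) (nat_lit 6880801078) (nat_lit 304) (nat_lit 6220066094) (nat_lit 76) (nat_lit 1287487951) (nat_lit 87) (nat_lit 5) (nat_lit 91) (nat_lit 5) (nat_lit 88) (nat_lit 5) (nat_lit 632) (nat_lit 508) (nat_lit 420)))) (XT.nd (nat_lit 156) (nat_lit 456) (nat_lit 0) (XT.nd (nat_lit 78) (nat_lit 76) (nat_lit 0) (XT.lf (nat_lit 0) (nat_lit 3884093878) (nat_lit 228) (nat_lit 7828982342) (nat_lit 304) (nat_lit 2846160876) (nat_lit 84) (nat_lit 5) (nat_lit 87) (nat_lit 5) (nat_lit 88) (nat_lit 5) (nat_lit 633) (nat_lit 508) (nat_lit 419)) (XT.lf (nat_lit 0) (nat_lit 1895452667) (nat_lit 304) (nat_lit 523055357) (nat_lit 76) (nat_lit 12314541030) (nat_lit 83) (nat_lit 5) (nat_lit 87) (nat_lit 5) (nat_lit 84) (nat_lit 5) (nat_lit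 634) (nat_lit 508) (nat_lit 418))) (XT.nd (nat_lit 78) (nat_lit 228) (nat_lit 0) (XT.lf (nat_lit 0) (nat_lit 6749177534) (nat_lit 304) (nat_lit 5038156130) (nat_lit 76) (nat_lit 3121520144) (nat_lit 80) (nat_lit 5) (nat_lit 84) (nat_lit 5) (nat_lit 81) (nat_lit 5) (nat_lit 635) (nat_lit 508) (nat_lit 417)) (XT.lf (nat_lit 0) (nat_lit 5394606772) (nat_lit 228) (nat_lit 6330643409) (nat_lit 304) (nat_lit 3362419600) (nat_lit 77) (nat_lit 5) (nat_lit 80) (nat_lit 5) (nat_lit 81) (nat_lit 5) (nat_lit 636) (nat_lit 508) (nat_lit 416)))))) (XT.nd (nat_lit 546) (nat_lit 608) (nat_lit 0) (XT.nd (nat_lit 234) (nat_lit 760) (nat_lit 0) (XT.nd (nat_lit 78) (nat_lit 228) (nat_lit 0) (XT.lf (nat_lit 0) (nat_lit 783579472) (nat_lit 228) (nat_lit 736994337) (nat_lit 304) (nat_lit 13749092691) (nat_lit 73) (nat_lit 5) (nat_lit 76) (nat_lit 5) (nat_lit 77) (nat_lit 5) (nat_lit 637) (nat_lit 508) (nat_lit 415)) (XT.nd (nat_lit 78) (nat_lit 228) (nat_lit 0) (XT.lf (nat_lit 0)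 (nat_lit 6524827666) (nat_lit 304) (nat_lit 3959378530) (nat_lit 76) (nat_lit 4969280535) (nat_lit 73) (nat_lit 5) (nat_lit 77) (nat_lit 5) (nat_lit 74) (nat_lit 5) (nat_lit 638) (nat_lit 508) (nat_lit 414)) (XT.lf (nat_lit 0) (nat_lit 6811766328) (nat_lit 228) (nat_lit 4837925173) (nat_lit 304) (nat_lit 3990881911) (nat_lit 70) (nat_lit 5) (nat_lit 73) (nat_lit 5) (nat_lit 74) (nat_lit 5) (nat_lit 639) (nat_lit 508) (nat_lit 413)))) (XT.nd (nat_lit 156) (nat_lit 456) (nat_lit 0) (XT.nd (nat_lit 78) (nat_lit 0) (nat_lit 0) (XT.lf (nat_lit 0) (nat_lit 1049210246) (nat_lit 304) (nat_lit 13847527893) (nat_lit 76) (nat_lit 934182964) (nat_lit 66) (nat_lit 5) (nat_lit 70) (nat_lit 5) (nat_lit 67) (nat_lit 5) (nat_lit 640) (nat_lit 508) (nat_lit 412)) (XT.lf (nat_lit 0) (nat_lit 6199948112) (nat_lit 304) (nat_lit 3001930597) (nat_lit 76) (nat_lit 6821404321) (nat_lit 66) (nat_lit 5) (nat_lit 70) (nat_lit 5) (nat_lit 67) (nat_lit 5) (nat_lit 641) (nat_lit 508) (nat_lit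 411))) (XT.nd (nat_lit 78) (nat_lit 304) (nat_lit 0) (XT.lf (nat_lit 0) (nat_lit 8117340190) (nat_lit 152) (nat_lit 3361175741) (nat_lit 228) (nat_lit 4740480463) (nat_lit 64) (nat_lit 5) (nat_lit 66) (nat_lit 5) (nat_lit 67) (nat_lit 5) (nat_lit 642) (nat_lit 508) (nat_lit 410)) (XT.lf (nat_lit 0) (nat_lit 467566162) (nat_lit 304) (nat_lit 13366361619) (nat_lit 76) (nat_lit 2584051897) (nat_lit 60) (nat_lit 5) (nat_lit 64) (nat_lit 5) (nat_lit 61) (nat_lit 5) (nat_lit 643) (nat_lit 508) (nat_lit 409))))) (XT.nd (nat_lit 312) (nat_lit 152) (nat_lit 0) (XT.nd (nat_lit 156) (nat_lit 304) (nat_lit 0) (XT.nd (nat_lit 78) (nat_lit 152) (nat_lit 0) (XT.lf (nat_lit 0) (nat_lit 5765582160) (nat_lit 304) (nat_lit 2185917319) (nat_lit 76) (nat_lit 8667831263) (nat_lit 60) (nat_lit 5) (nat_lit 64) (nat_lit 5) (nat_lit 61) (nat_lit 5) (nat_lit 644) (nat_lit 508) (nat_lit 408)) (XT.lf (nat_lit 0) (nat_lit 9291141329) (nat_lit 152) (nat_lit 1911524023) (nat_lit 228) (nat_lit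 5621381801) (nat_lit 58) (nat_lit 5) (nat_lit 60) (nat_lit 5) (nat_lit 61) (nat_lit 5) (nat_lit 645) (nat_lit 508) (nat_lit 407))) (XT.nd (nat_lit 78) (nat_lit 76) (nat_lit 0) (XT.lf (nat_lit 0) (nat_lit 3970263135) (nat_lit 228) (nat_lit 12819220849) (nat_lit 304) (nat_lit 242554489) (nat_lit 55) (nat_lit 5) (nat_lit 58) (nat_lit 5) (nat_lit 59) (nat_lit 5) (nat_lit 646) (nat_lit 508) (nat_lit 406)) (XT.lf (nat_lit 0) (nat_lit 5211518216) (nat_lit 304) (nat_lit 1533580532) (nat_lit 76) (nat_lit 10497681521) (nat_lit 54) (nat_lit 5) (nat_lit 58) (nat_lit 5) (nat_lit 55) (nat_lit 5) (nat_lit 647) (nat_lit 508) (nat_lit 405)))) (XT.nd (nat_lit 73008) (nat_lit 0) (nat_lit 48032) (XT.nd (nat_lit 72930) (nat_lit 0) (nat_lit 49096) (XT.lf (nat_lit 0) (nat_lit 10310792404) (nat_lit 152) (nat_lit 501010340) (nat_lit 228) (nat_lit 6645094958) (nat_lit 52) (nat_lit 5) (nat_lit 54) (nat_lit 5) (nat_lit 55) (nat_lit 5) (nat_lit 648) (nat_lit 508) (nat_lit 404)) (XT.lf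 (nat_lit 0) (nat_lit 1138780094) (nat_lit 988) (nat_lit 1058808094) (nat_lit 0) (nat_lit 1138780094) (nat_lit 698) (nat_lit 5) (nat_lit 711) (nat_lit 4) (nat_lit 698) (nat_lit 4) (nat_lit 542) (nat_lit 509) (nat_lit 509))) (XT.nd (nat_lit 78) (nat_lit 76) (nat_lit 0) (XT.lf (nat_lit 0) (nat_lit 2262460763) (nat_lit 988) (nat_lit 3336881441) (nat_lit 988) (nat_lit 1095042455) (nat_lit 685) (nat_lit 4) (nat_lit 698) (nat_lit 5) (nat_lit 698) (nat_lit 4) (nat_lit 543) (nat_lit 509) (nat_lit 508)) (XT.lf (nat_lit 0) (nat_lit 2182460820) (nat_lit 1064) (nat_lit 31149487) (nat_lit 76) (nat_lit 4503744456) (nat_lit 684) (nat_lit 5) (nat_lit 698) (nat_lit 5) (nat_lit 685) (nat_lit 4) (nat_lit 544) (nat_lit 509) (nat_lit 507))))))))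
noncomputable def xc50 : XT := (XT.nd (nat_lit 2262) (nat_lit 12464) (nat_lit 0) (XT.nd (nat_lit 1092) (nat_lit 10716) (nat_lit 0) (XT.nd (nat_lit 546) (nat_lit 8208) (nat_lit 0) (XT.nd (nat_lit 234) (nat_lit 4028) (nat_lit 0) (XT.nd (nat_lit 78) (nat_lit 1216) (nat_lit 0) (XT.lf (nat_lit 0) (nat_lit 4450947251) (nat_lit 1064) (nat_lit 1017098907) (nat_lit 1140) (nat_lit 1273456321) (nat_lit 670) (nat_lit 5) (nat_lit 684) (nat_lit 5) (nat_lit 685) (nat_lit 4) (nat_lit 545) (nat_lit 509) (nat_lit 506)) (XT.nd (nat_lit 78) (nat_lit 0) (nat_lit 0) (XT.lf (nat_lit 0) (nat_lit 1971297961) (nat_lit 1216) (nat_lit 4554292762) (nat_lit 76) (nat_lit 241382092) (nat_lit 654) (nat_lit 5) (nat_lit 670) (nat_lit 5) (nat_lit 655) (nat_lit 4) (nat_lit 546) (nat_lit 509) (nat_lit 505)) (XT.lf (nat_lit 0) (nat_lit 5216058510) (nat_lit 1216) (nat_lit 30379093) (nat_lit 76) (nat_lit 1547309820) (nat_lit 654) (nat_lit 5) (nat_lit 670) (nat_lit 5) (nat_lit 655) (nat_lit 4) (nat_lit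 547) (nat_lit 509) (nat_lit 504)))) (XT.nd (nat_lit 156) (nat_lit 1444) (nat_lit 0) (XT.nd (nat_lit 78) (nat_lit 1292) (nat_lit 0) (XT.lf (nat_lit 0) (nat_lit 1643122354) (nat_lit 1292) (nat_lit 2246820834) (nat_lit 76) (nat_lit 2931682751) (nat_lit 637) (nat_lit 5) (nat_lit 654) (nat_lit 5) (nat_lit 638) (nat_lit 5) (nat_lit 548) (nat_lit 509) (nat_lit 503)) (XT.lf (nat_lit 0) (nat_lit 2384415376) (nat_lit 1292) (nat_lit 2470343604) (nat_lit 1368) (nat_lit 1996149888) (nat_lit 620) (nat_lit 5) (nat_lit 637) (nat_lit 5) (nat_lit 638) (nat_lit 5) (nat_lit 549) (nat_lit 509) (nat_lit 502))) (XT.nd (nat_lit 78) (nat_lit 0) (nat_lit 0) (XT.lf (nat_lit 0) (nat_lit 193204063) (nat_lit 1368) (nat_lit 989020699) (nat_lit 1444) (nat_lit 5699420941) (nat_lit 601) (nat_lit 5) (nat_lit 619) (nat_lit 5) (nat_lit 620) (nat_lit 5) (nat_lit 550) (nat_lit 509) (nat_lit 501)) (XT.lf (nat_lit 0) (nat_lit 4364351547) (nat_lit 1444) (nat_lit 1982936117) (nat_lit 76) (nat_lit 566113205)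 (nat_lit 601) (nat_lit 5) (nat_lit 620) (nat_lit 5) (nat_lit 602) (nat_lit 5) (nat_lit 551) (nat_lit 509) (nat_lit 500))))) (XT.nd (nat_lit 234) (nat_lit 5168) (nat_lit 0) (XT.nd (nat_lit 78) (nat_lit 1520) (nat_lit 0) (XT.lf (nat_lit 0) (nat_lit 614625495) (nat_lit 1520) (nat_lit 4163154271) (nat_lit 76) (nat_lit 2168750460) (nat_lit 581) (nat_lit 5) (nat_lit 601) (nat_lit 5) (nat_lit 582) (nat_lit 5) (nat_lit 552) (nat_lit 509) (nat_lit 499)) (XT.nd (nat_lit 78) (nat_lit 0) (nat_lit 0) (XT.lf (nat_lit 0) (nat_lit 623377584) (nat_lit 1520) (nat_lit 3136641600) (nat_lit 1596) (nat_lit 3220919873) (nat_lit 561) (nat_lit 5) (nat_lit 581) (nat_lit 5) (nat_lit 582) (nat_lit 5) (nat_lit 553) (nat_lit 509) (nat_lit 498)) (XT.lf (nat_lit 0) (nat_lit 5502798939) (nat_lit 1520) (nat_lit 1429449600) (nat_lit 1596) (nat_lit 84514282) (nat_lit 561) (nat_lit 5) (nat_lit 581) (nat_lit 5) (nat_lit 582) (nat_lit 5) (nat_lit 554) (nat_lit 509) (nat_lit 497)))) (XT.nd (nat_lit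 156) (nat_lit 1824) (nat_lit 0) (XT.nd (nat_lit 78) (nat_lit 1672) (nat_lit 0) (XT.lf (nat_lit 0) (nat_lit 3034949830) (nat_lit 1672) (nat_lit 3664247423) (nat_lit 76) (nat_lit 354482883) (nat_lit 539) (nat_lit 5) (nat_lit 561) (nat_lit 5) (nat_lit 540) (nat_lit 5) (nat_lit 555) (nat_lit 509) (nat_lit 496)) (XT.lf (nat_lit 0) (nat_lit 1266965747) (nat_lit 1672) (nat_lit 4914334181) (nat_lit 1748) (nat_lit 910717133) (nat_lit 517) (nat_lit 5) (nat_lit 539) (nat_lit 5) (nat_lit 540) (nat_lit 5) (nat_lit 556) (nat_lit 509) (nat_lit 495))) (XT.nd (nat_lit 78) (nat_lit 1748) (nat_lit 0) (XT.lf (nat_lit 0) (nat_lit 2192706561) (nat_lit 1748) (nat_lit 859265970) (nat_lit 76) (nat_lit 4079601937) (nat_lit 516) (nat_lit 5) (nat_lit 539) (nat_lit 5) (nat_lit 517) (nat_lit 5) (nat_lit 557) (nat_lit 509) (nat_lit 494)) (XT.lf (nat_lit 0) (nat_lit 4195736270) (nat_lit 1748) (nat_lit 1116865529) (nat_lit 1824) (nat_lit 1859873590) (nat_lit 493) (nat_lit 5) (nat_lit 516)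 (nat_lit 5) (nat_lit 517) (nat_lit 5) (nat_lit 558) (nat_lit 509) (nat_lit 493)))))) (XT.nd (nat_lit 546) (nat_lit 4940) (nat_lit 0) (XT.nd (nat_lit 234) (nat_lit 2736) (nat_lit 0) (XT.nd (nat_lit 78) (nat_lit 1140) (nat_lit 0) (XT.lf (nat_lit 0) (nat_lit 1228907413) (nat_lit 1900) (nat_lit 5111395812) (nat_lit 76) (nat_lit 874429265) (nat_lit 468) (nat_lit 5) (nat_lit 493) (nat_lit 5) (nat_lit 469) (nat_lit 5) (nat_lit 559) (nat_lit 509) (nat_lit 492)) (XT.nd (nat_lit 78) (nat_lit 1140) (nat_lit 0) (XT.lf (nat_lit 0) (nat_lit 4322639402) (nat_lit 1900) (nat_lit 12232432) (nat_lit 76) (nat_lit 2923359885) (nat_lit 468) (nat_lit 5) (nat_lit 493) (nat_lit 5) (nat_lit 469) (nat_lit 5) (nat_lit 560) (nat_lit 509) (nat_lit 491)) (XT.lf (nat_lit 0) (nat_lit 148640476) (nat_lit 1140) (nat_lit 2106120793) (nat_lit 76) (nat_lit 5048315144) (nat_lit 453) (nat_lit 5) (nat_lit 468) (nat_lit 5) (nat_lit 454) (nat_lit 5) (nat_lit 561) (nat_lit 509) (nat_lit 490)))) (XT.nd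 (nat_lit 156) (nat_lit 912) (nat_lit 0) (XT.nd (nat_lit 78) (nat_lit 912) (nat_lit 0) (XT.lf (nat_lit 0) (nat_lit 3123685098) (nat_lit 912) (nat_lit 94059112) (nat_lit 988) (nat_lit 4131440018) (nat_lit 441) (nat_lit 5) (nat_lit 453) (nat_lit 5) (nat_lit 454) (nat_lit 5) (nat_lit 562) (nat_lit 509) (nat_lit 489)) (XT.lf (nat_lit 0) (nat_lit 1030162402) (nat_lit 912) (nat_lit 5295513675) (nat_lit 988) (nat_lit 1070993305) (nat_lit 429) (nat_lit 5) (nat_lit 441) (nat_lit 5) (nat_lit 442) (nat_lit 5) (nat_lit 563) (nat_lit 509) (nat_lit 488))) (XT.nd (nat_lit 78) (nat_lit 836) (nat_lit 0) (XT.lf (nat_lit 0) (nat_lit 1996120284) (nat_lit 988) (nat_lit 1071070445) (nat_lit 76) (nat_lit 4378204115) (nat_lit 428) (nat_lit 5) (nat_lit 441) (nat_lit 5) (nat_lit 429) (nat_lit 5) (nat_lit 564) (nat_lit 509) (nat_lit 487)) (XT.lf (nat_lit 0) (nat_lit 4320410523) (nat_lit 836) (nat_lit 762190117) (nat_lit 912) (nat_lit 2412909155) (nat_lit 417) (nat_lit 5) (nat_lit 428)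 (nat_lit 5) (nat_lit 429) (nat_lit 5) (nat_lit 565) (nat_lit 509) (nat_lit 486))))) (XT.nd (nat_lit 312) (nat_lit 2280) (nat_lit 0) (XT.nd (nat_lit 156) (nat_lit 912) (nat_lit 0) (XT.nd (nat_lit 78) (nat_lit 836) (nat_lit 0) (XT.lf (nat_lit 0) (nat_lit 652176930) (nat_lit 912) (nat_lit 5304640930) (nat_lit 76) (nat_lit 1590184730) (nat_lit 405) (nat_lit 5) (nat_lit 417) (nat_lit 5) (nat_lit 406) (nat_lit 5) (nat_lit 566) (nat_lit 509) (nat_lit 485)) (XT.lf (nat_lit 0) (nat_lit 132222115) (nat_lit 836) (nat_lit 3586728489) (nat_lit 912) (nat_lit 3880805399) (nat_lit 394) (nat_lit 5) (nat_lit 405) (nat_lit 5) (nat_lit 406) (nat_lit 5) (nat_lit 567) (nat_lit 509) (nat_lit 484))) (XT.nd (nat_lit 78) (nat_lit 912) (nat_lit 0) (XT.lf (nat_lit 0) (nat_lit 5689670200) (nat_lit 836) (nat_lit 1138979626) (nat_lit 912) (nat_lit 825286432) (nat_lit 394) (nat_lit 5) (nat_lit 405) (nat_lit 5) (nat_lit 406) (nat_lit 5) (nat_lit 568) (nat_lit 509) (nat_lit 483)) (XT.lf (nat_lit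 0) (nat_lit 2240535296) (nat_lit 912) (nat_lit 4096427856) (nat_lit 76) (nat_lit 1372357987) (nat_lit 382) (nat_lit 5) (nat_lit 394) (nat_lit 5) (nat_lit 383) (nat_lit 5) (nat_lit 569) (nat_lit 509) (nat_lit 482)))) (XT.nd (nat_lit 156) (nat_lit 1444) (nat_lit 0) (XT.nd (nat_lit 78) (nat_lit 76) (nat_lit 0) (XT.lf (nat_lit 0) (nat_lit 1509155267) (nat_lit 760) (nat_lit 3825404015) (nat_lit 836) (nat_lit 2431589970) (nat_lit 372) (nat_lit 5) (nat_lit 382) (nat_lit 5) (nat_lit 383) (nat_lit 5) (nat_lit 570) (nat_lit 509) (nat_lit 481)) (XT.lf (nat_lit 0) (nat_lit 632894686) (nat_lit 836) (nat_lit 606211419) (nat_lit 76) (nat_lit 6585418849) (nat_lit 371) (nat_lit 5) (nat_lit 382) (nat_lit 5) (nat_lit 372) (nat_lit 5) (nat_lit 571) (nat_lit 509) (nat_lit 480))) (XT.nd (nat_lit 78) (nat_lit 684) (nat_lit 0) (XT.lf (nat_lit 0) (nat_lit 3717574849) (nat_lit 836) (nat_lit 2743774542) (nat_lit 76) (nat_lit 1422571200) (nat_lit 361) (nat_lit 5) (nat_lit 372) (nat_lit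 5) (nat_lit 362) (nat_lit 5) (nat_lit 572) (nat_lit 509) (nat_lit 479)) (XT.lf (nat_lit 0) (nat_lit 3036917356) (nat_lit 684) (nat_lit 3808261116) (nat_lit 760) (nat_lit 1099704182) (nat_lit 352) (nat_lit 5) (nat_lit 361) (nat_lit 5) (nat_lit 362) (nat_lit 5) (nat_lit 573) (nat_lit 509) (nat_lit 478))))))) (XT.nd (nat_lit 1092) (nat_lit 5624) (nat_lit 0) (XT.nd (nat_lit 546) (nat_lit 3192) (nat_lit 0) (XT.nd (nat_lit 234) (nat_lit 2052) (nat_lit 0) (XT.nd (nat_lit 78) (nat_lit 760) (nat_lit 0) (XT.lf (nat_lit 0) (nat_lit 902075175) (nat_lit 760) (nat_lit 1073470270) (nat_lit 836) (nat_lit 6031780599) (nat_lit 341) (nat_lit 5) (nat_lit 351) (nat_lit 5) (nat_lit 352) (nat_lit 5) (nat_lit 574) (nat_lit 509) (nat_lit 477)) (XT.nd (nat_lit 78) (nat_lit 760) (nat_lit 0) (XT.lf (nat_lit 0) (nat_lit 5091907010) (nat_lit 836) (nat_lit 1254882773) (nat_lit 76) (nat_lit 1724199430) (nat_lit 341) (nat_lit 5) (nat_lit 352) (nat_lit 5) (nat_lit 342) (nat_lit 5) (nat_lit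 575) (nat_lit 509) (nat_lit 476)) (XT.lf (nat_lit 0) (nat_lit 121503469) (nat_lit 760) (nat_lit 3429365098) (nat_lit 76) (nat_lit 4585270418) (nat_lit 331) (nat_lit 5) (nat_lit 341) (nat_lit 5) (nat_lit 332) (nat_lit 5) (nat_lit 576) (nat_lit 509) (nat_lit 475)))) (XT.nd (nat_lit 156) (nat_lit 760) (nat_lit 0) (XT.nd (nat_lit 78) (nat_lit 608) (nat_lit 0) (XT.lf (nat_lit 0) (nat_lit 2556196700) (nat_lit 684) (nat_lit 664381512) (nat_lit 760) (nat_lit 4982095122) (nat_lit 322) (nat_lit 5) (nat_lit 331) (nat_lit 5) (nat_lit 332) (nat_lit 5) (nat_lit 577) (nat_lit 509) (nat_lit 474)) (XT.lf (nat_lit 0) (nat_lit 367448112) (nat_lit 608) (nat_lit 6006293452) (nat_lit 684) (nat_lit 1896957372) (nat_lit 314) (nat_lit 5) (nat_lit 322) (nat_lit 5) (nat_lit 323) (nat_lit 5) (nat_lit 578) (nat_lit 509) (nat_lit 473))) (XT.nd (nat_lit 78) (nat_lit 684) (nat_lit 0) (XT.lf (nat_lit 0) (nat_lit 1228024944) (nat_lit 684) (nat_lit 1834440204) (nat_lit 76) (nat_lit 5277569519)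 (nat_lit 313) (nat_lit 5) (nat_lit 322) (nat_lit 5) (nat_lit 314) (nat_lit 5) (nat_lit 579) (nat_lit 509) (nat_lit 472)) (XT.lf (nat_lit 0) (nat_lit 4340762979) (nat_lit 684) (nat_lit 30484459) (nat_lit 760) (nat_lit 4039638632) (nat_lit 304) (nat_lit 5) (nat_lit 313) (nat_lit 5) (nat_lit 314) (nat_lit 5) (nat_lit 580) (nat_lit 509) (nat_lit 471))))) (XT.nd (nat_lit 234) (nat_lit 1900) (nat_lit 0) (XT.nd (nat_lit 78) (nat_lit 684) (nat_lit 0) (XT.lf (nat_lit 0) (nat_lit 2129582434) (nat_lit 608) (nat_lit 5447244868) (nat_lit 684) (nat_lit 906339845) (nat_lit 296) (nat_lit 5) (nat_lit 304) (nat_lit 5) (nat_lit 305) (nat_lit 5) (nat_lit 581) (nat_lit 509) (nat_lit 470)) (XT.nd (nat_lit 78) (nat_lit 608) (nat_lit 0) (XT.lf (nat_lit 0) (nat_lit 2240905252) (nat_lit 684) (nat_lit 123180531) (nat_lit 76) (nat_lit 6192886966) (nat_lit 295) (nat_lit 5) (nat_lit 304) (nat_lit 5) (nat_lit 296) (nat_lit 5) (nat_lit 582) (nat_lit 509) (nat_lit 469)) (XT.lf (nat_lit 0)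 (nat_lit 5439356750) (nat_lit 684) (nat_lit 2388601077) (nat_lit 76) (nat_lit 804171229) (nat_lit 287) (nat_lit 5) (nat_lit 296) (nat_lit 5) (nat_lit 288) (nat_lit 5) (nat_lit 583) (nat_lit 509) (nat_lit 468)))) (XT.nd (nat_lit 156) (nat_lit 608) (nat_lit 0) (XT.nd (nat_lit 78) (nat_lit 684) (nat_lit 0) (XT.lf (nat_lit 0) (nat_lit 4008086034) (nat_lit 608) (nat_lit 4691150298) (nat_lit 684) (nat_lit 9605288) (nat_lit 279) (nat_lit 5) (nat_lit 287) (nat_lit 5) (nat_lit 288) (nat_lit 5) (nat_lit 584) (nat_lit 509) (nat_lit 467)) (XT.lf (nat_lit 0) (nat_lit 1720258583) (nat_lit 608) (nat_lit 1456965003) (nat_lit 684) (nat_lit 5609797600) (nat_lit 270) (nat_lit 5) (nat_lit 278) (nat_lit 5) (nat_lit 279) (nat_lit 5) (nat_lit 585) (nat_lit 509) (nat_lit 466))) (XT.nd (nat_lit 78) (nat_lit 608) (nat_lit 0) (XT.lf (nat_lit 0) (nat_lit 6426924044) (nat_lit 684) (nat_lit 604849559) (nat_lit 76) (nat_lit 1835006375) (nat_lit 270) (nat_lit 5) (nat_lit 279) (nat_lit 5)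 (nat_lit 271) (nat_lit 5) (nat_lit 586) (nat_lit 509) (nat_lit 465)) (XT.lf (nat_lit 0) (nat_lit 788114168) (nat_lit 608) (nat_lit 2956645078) (nat_lit 76) (nat_lit 5203173033) (nat_lit 262) (nat_lit 5) (nat_lit 270) (nat_lit 5) (nat_lit 263) (nat_lit 5) (nat_lit 587) (nat_lit 509) (nat_lit 464)))))) (XT.nd (nat_lit 546) (nat_lit 2888) (nat_lit 0) (XT.nd (nat_lit 234) (nat_lit 1596) (nat_lit 0) (XT.nd (nat_lit 78) (nat_lit 608) (nat_lit 0) (XT.lf (nat_lit 0) (nat_lit 3669950731) (nat_lit 532) (nat_lit 362578226) (nat_lit 608) (nat_lit 4998167071) (nat_lit 255) (nat_lit 5) (nat_lit 262) (nat_lit 5) (nat_lit 263) (nat_lit 5) (nat_lit 588) (nat_lit 509) (nat_lit 463)) (XT.nd (nat_lit 78) (nat_lit 76) (nat_lit 0) (XT.lf (nat_lit 0) (nat_lit 1291919183) (nat_lit 532) (nat_lit 6055297685) (nat_lit 608) (nat_lit 1767792502) (nat_lit 248) (nat_lit 5) (nat_lit 255) (nat_lit 5) (nat_lit 256) (nat_lit 5) (nat_lit 589) (nat_lit 509) (nat_lit 462)) (XT.lf (nat_lit 0) (nat_lit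 1502930699) (nat_lit 608) (nat_lit 1122009462) (nat_lit 76) (nat_lit 6575957030) (nat_lit 247) (nat_lit 5) (nat_lit 255) (nat_lit 5) (nat_lit 248) (nat_lit 5) (nat_lit 590) (nat_lit 509) (nat_lit 461)))) (XT.nd (nat_lit 156) (nat_lit 608) (nat_lit 0) (XT.nd (nat_lit 78) (nat_lit 456) (nat_lit 0) (XT.lf (nat_lit 0) (nat_lit 4816435329) (nat_lit 608) (nat_lit 3576183353) (nat_lit 76) (nat_lit 895631528) (nat_lit 240) (nat_lit 5) (nat_lit 248) (nat_lit 5) (nat_lit 241) (nat_lit 5) (nat_lit 591) (nat_lit 509) (nat_lit 460)) (XT.lf (nat_lit 0) (nat_lit 3287876275) (nat_lit 456) (nat_lit 4912982694) (nat_lit 532) (nat_lit 1176400199) (nat_lit 234) (nat_lit 5) (nat_lit 240) (nat_lit 5) (nat_lit 241) (nat_lit 5) (nat_lit 592) (nat_lit 509) (nat_lit 459))) (XT.nd (nat_lit 78) (nat_lit 0) (nat_lit 0) (XT.lf (nat_lit 0) (nat_lit 807558422) (nat_lit 532) (nat_lit 1336611730) (nat_lit 608) (nat_lit 7323838160) (nat_lit 226) (nat_lit 5) (nat_lit 233) (nat_lit 5) (nat_lit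 234) (nat_lit 5) (nat_lit 593) (nat_lit 509) (nat_lit 458)) (XT.lf (nat_lit 0) (nat_lit 5530379049) (nat_lit 608) (nat_lit 1716977342) (nat_lit 76) (nat_lit 2312762698) (nat_lit 226) (nat_lit 5) (nat_lit 234) (nat_lit 5) (nat_lit 227) (nat_lit 5) (nat_lit 594) (nat_lit 509) (nat_lit 457))))) (XT.nd (nat_lit 312) (nat_lit 1444) (nat_lit 0) (XT.nd (nat_lit 156) (nat_lit 456) (nat_lit 0) (XT.nd (nat_lit 78) (nat_lit 532) (nat_lit 0) (XT.lf (nat_lit 0) (nat_lit 5368951051) (nat_lit 456) (nat_lit 3618703385) (nat_lit 532) (nat_lit 666352516) (nat_lit 220) (nat_lit 5) (nat_lit 226) (nat_lit 5) (nat_lit 227) (nat_lit 5) (nat_lit 595) (nat_lit 509) (nat_lit 456)) (XT.lf (nat_lit 0) (nat_lit 2718549311) (nat_lit 532) (nat_lit 6919049118) (nat_lit 76) (nat_lit 112006823) (nat_lit 213) (nat_lit 5) (nat_lit 220) (nat_lit 5) (nat_lit 214) (nat_lit 5) (nat_lit 596) (nat_lit 509) (nat_lit 455))) (XT.nd (nat_lit 78) (nat_lit 0) (nat_lit 0) (XT.lf (nat_lit 0) (nat_lit 215857741)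 (nat_lit 456) (nat_lit 5960769389) (nat_lit 532) (nat_lit 3670113907) (nat_lit 207) (nat_lit 5) (nat_lit 213) (nat_lit 5) (nat_lit 214) (nat_lit 5) (nat_lit 597) (nat_lit 509) (nat_lit 454)) (XT.lf (nat_lit 0) (nat_lit 7529206635) (nat_lit 456) (nat_lit 2181576448) (nat_lit 532) (nat_lit 234899708) (nat_lit 207) (nat_lit 5) (nat_lit 213) (nat_lit 5) (nat_lit 214) (nat_lit 5) (nat_lit 598) (nat_lit 509) (nat_lit 453)))) (XT.nd (nat_lit 156) (nat_lit 532) (nat_lit 0) (XT.nd (nat_lit 78) (nat_lit 380) (nat_lit 0) (XT.lf (nat_lit 0) (nat_lit 3230241300) (nat_lit 532) (nat_lit 5129215268) (nat_lit 76) (nat_lit 1686641919) (nat_lit 200) (nat_lit 5) (nat_lit 207) (nat_lit 5) (nat_lit 201) (nat_lit 5) (nat_lit 599) (nat_lit 509) (nat_lit 452)) (XT.lf (nat_lit 0) (nat_lit 2236992350) (nat_lit 380) (nat_lit 4531122488) (nat_lit 456) (nat_lit 3380246601) (nat_lit 195) (nat_lit 5) (nat_lit 200) (nat_lit 5) (nat_lit 201) (nat_lit 5) (nat_lit 600) (nat_lit 509) (nat_lit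 451))) (XT.nd (nat_lit 78) (nat_lit 456) (nat_lit 0) (XT.lf (nat_lit 0) (nat_lit 118505650) (nat_lit 456) (nat_lit 490800702) (nat_lit 76) (nat_lit 9643427487) (nat_lit 194) (nat_lit 5) (nat_lit 200) (nat_lit 5) (nat_lit 195) (nat_lit 5) (nat_lit 601) (nat_lit 509) (nat_lit 450)) (XT.lf (nat_lit 0) (nat_lit 3672573088) (nat_lit 532) (nat_lit 3288826384) (nat_lit 76) (nat_lit 3396736724) (nat_lit 188) (nat_lit 5) (nat_lit 195) (nat_lit 5) (nat_lit 189) (nat_lit 5) (nat_lit 602) (nat_lit 509) (nat_lit 449))))))))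
noncomputable def xc51 : XT := (XT.nd (nat_lit 2262) (nat_lit 2964) (nat_lit 0) (XT.nd (nat_lit 1092) (nat_lit 3344) (nat_lit 0) (XT.nd (nat_lit 546) (nat_lit 1976) (nat_lit 0) (XT.nd (nat_lit 234) (nat_lit 1216) (nat_lit 0) (XT.nd (nat_lit 78) (nat_lit 456) (nat_lit 0) (XT.lf (nat_lit 0) (nat_lit 4317301186) (nat_lit 380) (nat_lit 2978221275) (nat_lit 456) (nat_lit 3170169508) (nat_lit 183) (nat_lit 5) (nat_lit 188) (nat_lit 5) (nat_lit 189) (nat_lit 5) (nat_lit 603) (nat_lit 509) (nat_lit 448)) (XT.nd (nat_lit 78) (nat_lit 0) (nat_lit 0) (XT.lf (nat_lit 0) (nat_lit 411754875) (nat_lit 456) (nat_lit 9077614375) (nat_lit 76) (nat_lit 1085943522) (nat_lit 177) (nat_lit 5) (nat_lit 183) (nat_lit 5) (nat_lit 178) (nat_lit 5) (nat_lit 604) (nat_lit 509) (nat_lit 447)) (XT.lf (nat_lit 0) (nat_lit 4046944351) (nat_lit 456) (nat_lit 1404562899) (nat_lit 76) (nat_lit 5234719445) (nat_lit 177) (nat_lit 5) (nat_lit 183) (nat_lit 5) (nat_lit 178) (nat_lit 5) (nat_lit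 605) (nat_lit 509) (nat_lit 446)))) (XT.nd (nat_lit 156) (nat_lit 380) (nat_lit 0) (XT.nd (nat_lit 78) (nat_lit 456) (nat_lit 0) (XT.lf (nat_lit 0) (nat_lit 6450347619) (nat_lit 380) (nat_lit 1309879734) (nat_lit 456) (nat_lit 3039025024) (nat_lit 172) (nat_lit 5) (nat_lit 177) (nat_lit 5) (nat_lit 178) (nat_lit 5) (nat_lit 606) (nat_lit 509) (nat_lit 445)) (XT.lf (nat_lit 0) (nat_lit 640148695) (nat_lit 456) (nat_lit 7380413173) (nat_lit 76) (nat_lit 2893591377) (nat_lit 166) (nat_lit 5) (nat_lit 172) (nat_lit 5) (nat_lit 167) (nat_lit 5) (nat_lit 607) (nat_lit 509) (nat_lit 444))) (XT.nd (nat_lit 78) (nat_lit 0) (nat_lit 0) (XT.lf (nat_lit 0) (nat_lit 523556109) (nat_lit 380) (nat_lit 3833988967) (nat_lit 456) (nat_lit 6673299863) (nat_lit 161) (nat_lit 5) (nat_lit 166) (nat_lit 5) (nat_lit 167) (nat_lit 5) (nat_lit 608) (nat_lit 509) (nat_lit 443)) (XT.lf (nat_lit 0) (nat_lit 8166031862) (nat_lit 456) (nat_lit 2523142251) (nat_lit 76) (nat_lit 460362684)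 (nat_lit 161) (nat_lit 5) (nat_lit 167) (nat_lit 5) (nat_lit 162) (nat_lit 5) (nat_lit 609) (nat_lit 509) (nat_lit 442))))) (XT.nd (nat_lit 234) (nat_lit 1216) (nat_lit 0) (XT.nd (nat_lit 78) (nat_lit 304) (nat_lit 0) (XT.lf (nat_lit 0) (nat_lit 796625678) (nat_lit 456) (nat_lit 5662033882) (nat_lit 76) (nat_lit 4811307353) (nat_lit 155) (nat_lit 5) (nat_lit 161) (nat_lit 5) (nat_lit 156) (nat_lit 5) (nat_lit 610) (nat_lit 509) (nat_lit 441)) (XT.nd (nat_lit 78) (nat_lit 0) (nat_lit 0) (XT.lf (nat_lit 0) (nat_lit 2500550377) (nat_lit 304) (nat_lit 2110035524) (nat_lit 380) (nat_lit 6781862900) (nat_lit 151) (nat_lit 5) (nat_lit 155) (nat_lit 5) (nat_lit 156) (nat_lit 5) (nat_lit 611) (nat_lit 509) (nat_lit 440)) (XT.lf (nat_lit 0) (nat_lit 8519227085) (nat_lit 380) (nat_lit 684770576) (nat_lit 76) (nat_lit 2313015720) (nat_lit 151) (nat_lit 5) (nat_lit 156) (nat_lit 5) (nat_lit 152) (nat_lit 5) (nat_lit 612) (nat_lit 509) (nat_lit 439)))) (XT.nd (nat_lit 156)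 (nat_lit 456) (nat_lit 0) (XT.nd (nat_lit 78) (nat_lit 304) (nat_lit 0) (XT.lf (nat_lit 0) (nat_lit 880694531) (nat_lit 456) (nat_lit 3930345950) (nat_lit 76) (nat_lit 6832317336) (nat_lit 145) (nat_lit 5) (nat_lit 151) (nat_lit 5) (nat_lit 146) (nat_lit 5) (nat_lit 613) (nat_lit 509) (nat_lit 438)) (XT.lf (nat_lit 0) (nat_lit 4500097595) (nat_lit 304) (nat_lit 296220990) (nat_lit 380) (nat_lit 6975520995) (nat_lit 141) (nat_lit 5) (nat_lit 145) (nat_lit 5) (nat_lit 146) (nat_lit 5) (nat_lit 614) (nat_lit 509) (nat_lit 437))) (XT.nd (nat_lit 78) (nat_lit 76) (nat_lit 0) (XT.lf (nat_lit 0) (nat_lit 1182302915) (nat_lit 380) (nat_lit 7636168369) (nat_lit 456) (nat_lit 3083856378) (nat_lit 136) (nat_lit 5) (nat_lit 141) (nat_lit 5) (nat_lit 142) (nat_lit 5) (nat_lit 615) (nat_lit 509) (nat_lit 436)) (XT.lf (nat_lit 0) (nat_lit 891209504) (nat_lit 456) (nat_lit 2193690121) (nat_lit 76) (nat_lit 8950068179) (nat_lit 135) (nat_lit 5) (nat_lit 141) (nat_lit 5) (nat_lit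 136) (nat_lit 5) (nat_lit 616) (nat_lit 509) (nat_lit 435)))))) (XT.nd (nat_lit 546) (nat_lit 1748) (nat_lit 0) (XT.nd (nat_lit 234) (nat_lit 912) (nat_lit 0) (XT.nd (nat_lit 78) (nat_lit 380) (nat_lit 0) (XT.lf (nat_lit 0) (nat_lit 4923973317) (nat_lit 380) (nat_lit 5666004189) (nat_lit 76) (nat_lit 1579486715) (nat_lit 131) (nat_lit 5) (nat_lit 136) (nat_lit 5) (nat_lit 132) (nat_lit 5) (nat_lit 617) (nat_lit 509) (nat_lit 434)) (XT.nd (nat_lit 78) (nat_lit 76) (nat_lit 0) (XT.lf (nat_lit 0) (nat_lit 3063291042) (nat_lit 304) (nat_lit 5996171574) (nat_lit 380) (nat_lit 3246747476) (nat_lit 127) (nat_lit 5) (nat_lit 131) (nat_lit 5) (nat_lit 132) (nat_lit 5) (nat_lit 618) (nat_lit 509) (nat_lit 433)) (XT.lf (nat_lit 0) (nat_lit 826346523) (nat_lit 380) (nat_lit 460980054) (nat_lit 76) (nat_lit 11158151419) (nat_lit 126) (nat_lit 5) (nat_lit 131) (nat_lit 5) (nat_lit 127) (nat_lit 5) (nat_lit 619) (nat_lit 509) (nat_lit 432)))) (XT.nd (nat_lit 156) (nat_lit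 304) (nat_lit 0) (XT.nd (nat_lit 78) (nat_lit 304) (nat_lit 0) (XT.lf (nat_lit 0) (nat_lit 4983735299) (nat_lit 380) (nat_lit 4076129290) (nat_lit 76) (nat_lit 3526312189) (nat_lit 122) (nat_lit 5) (nat_lit 127) (nat_lit 5) (nat_lit 123) (nat_lit 5) (nat_lit 620) (nat_lit 509) (nat_lit 431)) (XT.lf (nat_lit 0) (nat_lit 4939896681) (nat_lit 304) (nat_lit 4295902327) (nat_lit 380) (nat_lit 3493660842) (nat_lit 118) (nat_lit 5) (nat_lit 122) (nat_lit 5) (nat_lit 123) (nat_lit 5) (nat_lit 621) (nat_lit 509) (nat_lit 430))) (XT.nd (nat_lit 78) (nat_lit 0) (nat_lit 0) (XT.lf (nat_lit 0) (nat_lit 695636528) (nat_lit 304) (nat_lit 11604321176) (nat_lit 76) (nat_lit 575411436) (nat_lit 114) (nat_lit 5) (nat_lit 118) (nat_lit 5) (nat_lit 115) (nat_lit 5) (nat_lit 622) (nat_lit 509) (nat_lit 429)) (XT.lf (nat_lit 0) (nat_lit 4971086020) (nat_lit 304) (nat_lit 2510306990) (nat_lit 76) (nat_lit 5541359624) (nat_lit 114) (nat_lit 5) (nat_lit 118) (nat_lit 5) (nat_lit 115)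 (nat_lit 5) (nat_lit 623) (nat_lit 509) (nat_lit 428))))) (XT.nd (nat_lit 312) (nat_lit 836) (nat_lit 0) (XT.nd (nat_lit 156) (nat_lit 304) (nat_lit 0) (XT.nd (nat_lit 78) (nat_lit 304) (nat_lit 0) (XT.lf (nat_lit 0) (nat_lit 6802167724) (nat_lit 304) (nat_lit 2542702372) (nat_lit 380) (nat_lit 3827957986) (nat_lit 110) (nat_lit 5) (nat_lit 114) (nat_lit 5) (nat_lit 115) (nat_lit 5) (nat_lit 624) (nat_lit 509) (nat_lit 427)) (XT.lf (nat_lit 0) (nat_lit 495364084) (nat_lit 304) (nat_lit 10349391109) (nat_lit 76) (nat_lit 2480659497) (nat_lit 106) (nat_lit 5) (nat_lit 110) (nat_lit 5) (nat_lit 107) (nat_lit 5) (nat_lit 625) (nat_lit 509) (nat_lit 426))) (XT.nd (nat_lit 78) (nat_lit 304) (nat_lit 0) (XT.lf (nat_lit 0) (nat_lit 4882681323) (nat_lit 304) (nat_lit 979510530) (nat_lit 76) (nat_lit 7617780169) (nat_lit 106) (nat_lit 5) (nat_lit 110) (nat_lit 5) (nat_lit 107) (nat_lit 5) (nat_lit 626) (nat_lit 509) (nat_lit 425)) (XT.lf (nat_lit 0) (nat_lit 8639272520)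 (nat_lit 304) (nat_lit 744039256) (nat_lit 380) (nat_lit 4253798120) (nat_lit 102) (nat_lit 5) (nat_lit 106) (nat_lit 5) (nat_lit 107) (nat_lit 5) (nat_lit 627) (nat_lit 509) (nat_lit 424)))) (XT.nd (nat_lit 156) (nat_lit 228) (nat_lit 0) (XT.nd (nat_lit 78) (nat_lit 304) (nat_lit 0) (XT.lf (nat_lit 0) (nat_lit 209932466) (nat_lit 304) (nat_lit 9151711996) (nat_lit 76) (nat_lit 4435010166) (nat_lit 98) (nat_lit 5) (nat_lit 102) (nat_lit 5) (nat_lit 99) (nat_lit 5) (nat_lit 628) (nat_lit 509) (nat_lit 423)) (XT.lf (nat_lit 0) (nat_lit 510996722) (nat_lit 304) (nat_lit 4206703786) (nat_lit 380) (nat_lit 9240893660) (nat_lit 94) (nat_lit 5) (nat_lit 98) (nat_lit 5) (nat_lit 99) (nat_lit 5) (nat_lit 629) (nat_lit 509) (nat_lit 422))) (XT.nd (nat_lit 78) (nat_lit 228) (nat_lit 0) (XT.lf (nat_lit 0) (nat_lit 9354051449) (nat_lit 380) (nat_lit 3690874056) (nat_lit 76) (nat_lit 1078079121) (nat_lit 94) (nat_lit 5) (nat_lit 99) (nat_lit 5) (nat_lit 95) (nat_lit 5)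 (nat_lit 630) (nat_lit 509) (nat_lit 421)) (XT.lf (nat_lit 0) (nat_lit 6264192001) (nat_lit 228) (nat_lit 7857842225) (nat_lit 304) (nat_lit 167891634) (nat_lit 91) (nat_lit 5) (nat_lit 94) (nat_lit 5) (nat_lit 95) (nat_lit 5) (nat_lit 631) (nat_lit 509) (nat_lit 420))))))) (XT.nd (nat_lit 1170) (nat_lit 456) (nat_lit 0) (XT.nd (nat_lit 546) (nat_lit 1140) (nat_lit 0) (XT.nd (nat_lit 234) (nat_lit 836) (nat_lit 0) (XT.nd (nat_lit 78) (nat_lit 228) (nat_lit 0) (XT.lf (nat_lit 0) (nat_lit 1953631315) (nat_lit 228) (nat_lit 2520257892) (nat_lit 304) (nat_lit 9985548405) (nat_lit 87) (nat_lit 5) (nat_lit 90) (nat_lit 5) (nat_lit 91) (nat_lit 5) (nat_lit 632) (nat_lit 509) (nat_lit 419)) (XT.nd (nat_lit 78) (nat_lit 228) (nat_lit 0) (XT.lf (nat_lit 0) (nat_lit 9249999451) (nat_lit 304) (nat_lit 2461598638) (nat_lit 76) (nat_lit 2919845103) (nat_lit 87) (nat_lit 5) (nat_lit 91) (nat_lit 5) (nat_lit 88) (nat_lit 5) (nat_lit 633) (nat_lit 509) (nat_lit 418)) (XT.lf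 (nat_lit 0) (nat_lit 7819099345) (nat_lit 228) (nat_lit 6341108538) (nat_lit 304) (nat_lit 645910094) (nat_lit 84) (nat_lit 5) (nat_lit 87) (nat_lit 5) (nat_lit 88) (nat_lit 5) (nat_lit 634) (nat_lit 509) (nat_lit 417)))) (XT.nd (nat_lit 156) (nat_lit 532) (nat_lit 0) (XT.nd (nat_lit 78) (nat_lit 0) (nat_lit 0) (XT.lf (nat_lit 0) (nat_lit 3320793574) (nat_lit 228) (nat_lit 818021839) (nat_lit 304) (nat_lit 10844740894) (nat_lit 80) (nat_lit 5) (nat_lit 83) (nat_lit 5) (nat_lit 84) (nat_lit 5) (nat_lit 635) (nat_lit 509) (nat_lit 416)) (XT.lf (nat_lit 0) (nat_lit 9060330088) (nat_lit 304) (nat_lit 1320394345) (nat_lit 76) (nat_lit 4782739293) (nat_lit 80) (nat_lit 5) (nat_lit 84) (nat_lit 5) (nat_lit 81) (nat_lit 5) (nat_lit 636) (nat_lit 509) (nat_lit 415))) (XT.nd (nat_lit 78) (nat_lit 304) (nat_lit 0) (XT.lf (nat_lit 0) (nat_lit 9295901942) (nat_lit 228) (nat_lit 4821981555) (nat_lit 304) (nat_lit 1228334194) (nat_lit 77) (nat_lit 5) (nat_lit 80) (nat_lit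 5) (nat_lit 81) (nat_lit 5) (nat_lit 637) (nat_lit 509) (nat_lit 414)) (XT.lf (nat_lit 0) (nat_lit 3711289040) (nat_lit 304) (nat_lit 10941292359) (nat_lit 76) (nat_lit 879231103) (nat_lit 73) (nat_lit 5) (nat_lit 77) (nat_lit 5) (nat_lit 74) (nat_lit 5) (nat_lit 638) (nat_lit 509) (nat_lit 413))))) (XT.nd (nat_lit 312) (nat_lit 456) (nat_lit 0) (XT.nd (nat_lit 156) (nat_lit 456) (nat_lit 0) (XT.nd (nat_lit 78) (nat_lit 228) (nat_lit 0) (XT.lf (nat_lit 0) (nat_lit 8778054132) (nat_lit 304) (nat_lit 284021342) (nat_lit 76) (nat_lit 6657985949) (nat_lit 73) (nat_lit 5) (nat_lit 77) (nat_lit 5) (nat_lit 74) (nat_lit 5) (nat_lit 639) (nat_lit 509) (nat_lit 412)) (XT.lf (nat_lit 0) (nat_lit 10677845460) (nat_lit 228) (nat_lit 3310164248) (nat_lit 304) (nat_lit 1923229033) (nat_lit 70) (nat_lit 5) (nat_lit 73) (nat_lit 5) (nat_lit 74) (nat_lit 5) (nat_lit 640) (nat_lit 509) (nat_lit 411))) (XT.nd (nat_lit 78) (nat_lit 152) (nat_lit 0) (XT.lf (nat_lit 0) (nat_lit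 3182776391) (nat_lit 304) (nat_lit 10359669081) (nat_lit 76) (nat_lit 2562804302) (nat_lit 66) (nat_lit 5) (nat_lit 70) (nat_lit 5) (nat_lit 67) (nat_lit 5) (nat_lit 641) (nat_lit 509) (nat_lit 410)) (XT.lf (nat_lit 0) (nat_lit 637379718) (nat_lit 152) (nat_lit 7761864412) (nat_lit 228) (nat_lit 7902961255) (nat_lit 64) (nat_lit 5) (nat_lit 66) (nat_lit 5) (nat_lit 67) (nat_lit 5) (nat_lit 642) (nat_lit 509) (nat_lit 409)))) (XT.nd (nat_lit 156) (nat_lit 152) (nat_lit 0) (XT.nd (nat_lit 78) (nat_lit 304) (nat_lit 0) (XT.lf (nat_lit 0) (nat_lit 11946393746) (nat_lit 152) (nat_lit 1816047004) (nat_lit 228) (nat_lit 2739811849) (nat_lit 64) (nat_lit 5) (nat_lit 66) (nat_lit 5) (nat_lit 67) (nat_lit 5) (nat_lit 643) (nat_lit 509) (nat_lit 408)) (XT.lf (nat_lit 0) (nat_lit 2538701091) (nat_lit 304) (nat_lit 9933216359) (nat_lit 76) (nat_lit 4233150941) (nat_lit 60) (nat_lit 5) (nat_lit 64) (nat_lit 5) (nat_lit 61) (nat_lit 5) (nat_lit 644) (nat_lit 509) (nat_lit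 407))) (XT.nd (nat_lit 78) (nat_lit 0) (nat_lit 0) (XT.lf (nat_lit 0) (nat_lit 1416860928) (nat_lit 152) (nat_lit 6494588552) (nat_lit 228) (nat_lit 8999622244) (nat_lit 58) (nat_lit 5) (nat_lit 60) (nat_lit 5) (nat_lit 61) (nat_lit 5) (nat_lit 645) (nat_lit 509) (nat_lit 406)) (XT.lf (nat_lit 0) (nat_lit 13081010508) (nat_lit 152) (nat_lit 350830047) (nat_lit 228) (nat_lit 3688551261) (nat_lit 58) (nat_lit 5) (nat_lit 60) (nat_lit 5) (nat_lit 61) (nat_lit 5) (nat_lit 646) (nat_lit 509) (nat_lit 405)))))) (XT.nd (nat_lit 73242) (nat_lit 0) (nat_lit 40204) (XT.nd (nat_lit 72930) (nat_lit 0) (nat_lit 48032) (XT.nd (nat_lit 78) (nat_lit 152) (nat_lit 0) (XT.lf (nat_lit 0) (nat_lit 1768534468) (nat_lit 304) (nat_lit 9684729569) (nat_lit 76) (nat_lit 5879160898) (nat_lit 54) (nat_lit 5) (nat_lit 58) (nat_lit 5) (nat_lit 55) (nat_lit 5) (nat_lit 647) (nat_lit 509) (nat_lit 404)) (XT.nd (nat_lit 72774) (nat_lit 0) (nat_lit 50084) (XT.lf (nat_lit 0) (nat_lit 2027709231)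 (nat_lit 152) (nat_lit 5274435248) (nat_lit 228) (nat_lit 10245731588) (nat_lit 52) (nat_lit 5) (nat_lit 54) (nat_lit 5) (nat_lit 55) (nat_lit 5) (nat_lit 648) (nat_lit 509) (nat_lit 403)) (XT.lf (nat_lit 0) (nat_lit 1293395157) (nat_lit 836) (nat_lit 1011473606) (nat_lit 836) (nat_lit 1011473606) (nat_lit 711) (nat_lit 4) (nat_lit 722) (nat_lit 5) (nat_lit 722) (nat_lit 4) (nat_lit 540) (nat_lit 510) (nat_lit 510)))) (XT.nd (nat_lit 156) (nat_lit 1064) (nat_lit 0) (XT.nd (nat_lit 78) (nat_lit 0) (nat_lit 0) (XT.lf (nat_lit 0) (nat_lit 205767879) (nat_lit 912) (nat_lit 1050755467) (nat_lit 988) (nat_lit 5396018017) (nat_lit 698) (nat_lit 5) (nat_lit 710) (nat_lit 5) (nat_lit 711) (nat_lit 4) (nat_lit 541) (nat_lit 510) (nat_lit 509)) (XT.lf (nat_lit 0) (nat_lit 4526949065) (nat_lit 912) (nat_lit 790594) (nat_lit 988) (nat_lit 2145730442) (nat_lit 698) (nat_lit 5) (nat_lit 710) (nat_lit 5) (nat_lit 711) (nat_lit 4) (nat_lit 542) (nat_lit 510) (nat_lit 508)))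 (XT.nd (nat_lit 78) (nat_lit 0) (nat_lit 0) (XT.lf (nat_lit 0) (nat_lit 1102852881) (nat_lit 1064) (nat_lit 4498633290) (nat_lit 76) (nat_lit 1094213797) (nat_lit 684) (nat_lit 5) (nat_lit 698) (nat_lit 5) (nat_lit 685) (nat_lit 4) (nat_lit 543) (nat_lit 510) (nat_lit 507)) (XT.lf (nat_lit 0) (nat_lit 4330490719) (nat_lit 1064) (nat_lit 133590501) (nat_lit 76) (nat_lit 2255160130) (nat_lit 684) (nat_lit 5) (nat_lit 698) (nat_lit 5) (nat_lit 685) (nat_lit 4) (nat_lit 544) (nat_lit 510) (nat_lit 506))))) (XT.nd (nat_lit 312) (nat_lit 4256) (nat_lit 0) (XT.nd (nat_lit 156) (nat_lit 1292) (nat_lit 0) (XT.nd (nat_lit 78) (nat_lit 1140) (nat_lit 0) (XT.lf (nat_lit 0) (nat_lit 825335882) (nat_lit 1140) (nat_lit 2430824294) (nat_lit 76) (nat_lit 3487836951) (nat_lit 669) (nat_lit 5) (nat_lit 684) (nat_lit 5) (nat_lit 670) (nat_lit 5) (nat_lit 545) (nat_lit 510) (nat_lit 505)) (XT.lf (nat_lit 0) (nat_lit 2035073851) (nat_lit 1140) (nat_lit 1981026498) (nat_lit 1216)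 (nat_lit 2753950720) (nat_lit 654) (nat_lit 5) (nat_lit 669) (nat_lit 5) (nat_lit 670) (nat_lit 5) (nat_lit 546) (nat_lit 510) (nat_lit 504))) (XT.nd (nat_lit 78) (nat_lit 1216) (nat_lit 0) (XT.lf (nat_lit 0) (nat_lit 415030136) (nat_lit 1216) (nat_lit 234038162) (nat_lit 76) (nat_lit 6148558587) (nat_lit 653) (nat_lit 5) (nat_lit 669) (nat_lit 5) (nat_lit 654) (nat_lit 5) (nat_lit 547) (nat_lit 510) (nat_lit 503)) (XT.lf (nat_lit 0) (nat_lit 3575838409) (nat_lit 1292) (nat_lit 2492248613) (nat_lit 76) (nat_lit 758002757) (nat_lit 637) (nat_lit 5) (nat_lit 654) (nat_lit 5) (nat_lit 638) (nat_lit 5) (nat_lit 548) (nat_lit 510) (nat_lit 502)))) (XT.nd (nat_lit 156) (nat_lit 2888) (nat_lit 0) (XT.nd (nat_lit 78) (nat_lit 76) (nat_lit 0) (XT.lf (nat_lit 0) (nat_lit 2106782091) (nat_lit 1292) (nat_lit 4645803693) (nat_lit 1368) (nat_lit 103487668) (nat_lit 620) (nat_lit 5) (nat_lit 637) (nat_lit 5) (nat_lit 638) (nat_lit 5) (nat_lit 549) (nat_lit 510) (nat_lit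 501)) (XT.lf (nat_lit 0) (nat_lit 3015968912) (nat_lit 1368) (nat_lit 133231789) (nat_lit 76) (nat_lit 3738048573) (nat_lit 619) (nat_lit 5) (nat_lit 637) (nat_lit 5) (nat_lit 620) (nat_lit 5) (nat_lit 550) (nat_lit 510) (nat_lit 500))) (XT.nd (nat_lit 78) (nat_lit 1520) (nat_lit 0) (XT.lf (nat_lit 0) (nat_lit 4577431155) (nat_lit 1368) (nat_lit 1583680615) (nat_lit 1444) (nat_lit 758635138) (nat_lit 601) (nat_lit 5) (nat_lit 619) (nat_lit 5) (nat_lit 620) (nat_lit 5) (nat_lit 551) (nat_lit 510) (nat_lit 499)) (XT.lf (nat_lit 0) (nat_lit 2336768639) (nat_lit 1520) (nat_lit 4564567581) (nat_lit 76) (nat_lit 52206023) (nat_lit 581) (nat_lit 5) (nat_lit 601) (nat_lit 5) (nat_lit 582) (nat_lit 5) (nat_lit 552) (nat_lit 510) (nat_lit 498))))))))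
noncomputable def xc52 : XT := (XT.nd (nat_lit 2262) (nat_lit 10640) (nat_lit 0) (XT.nd (nat_lit 1092) (nat_lit 8284) (nat_lit 0) (XT.nd (nat_lit 546) (nat_lit 4788) (nat_lit 0) (XT.nd (nat_lit 234) (nat_lit 5396) (nat_lit 0) (XT.nd (nat_lit 78) (nat_lit 1672) (nat_lit 0) (XT.lf (nat_lit 0) (nat_lit 187286242) (nat_lit 1520) (nat_lit 5260547505) (nat_lit 1596) (nat_lit 1540806530) (nat_lit 561) (nat_lit 5) (nat_lit 581) (nat_lit 5) (nat_lit 582) (nat_lit 5) (nat_lit 553) (nat_lit 510) (nat_lit 497)) (XT.nd (nat_lit 78) (nat_lit 1596) (nat_lit 0) (XT.lf (nat_lit 0) (nat_lit 1543397833) (nat_lit 1596) (nat_lit 1997302379) (nat_lit 76) (nat_lit 3484184654) (nat_lit 560) (nat_lit 5) (nat_lit 581) (nat_lit 5) (nat_lit 561) (nat_lit 5) (nat_lit 554) (nat_lit 510) (nat_lit 496)) (XT.lf (nat_lit 0) (nat_lit 2872499421) (nat_lit 1596) (nat_lit 1752888831) (nat_lit 1672) (nat_lit 2437132736) (nat_lit 539) (nat_lit 5) (nat_lit 560) (nat_lit 5) (nat_lit 561) (nat_lit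 5) (nat_lit 555) (nat_lit 510) (nat_lit 495)))) (XT.nd (nat_lit 156) (nat_lit 3648) (nat_lit 0) (XT.nd (nat_lit 78) (nat_lit 0) (nat_lit 0) (XT.lf (nat_lit 0) (nat_lit 616590915) (nat_lit 1748) (nat_lit 6389514986) (nat_lit 76) (nat_lit 95577094) (nat_lit 516) (nat_lit 5) (nat_lit 539) (nat_lit 5) (nat_lit 517) (nat_lit 5) (nat_lit 556) (nat_lit 510) (nat_lit 494)) (XT.lf (nat_lit 0) (nat_lit 3678043000) (nat_lit 1748) (nat_lit 1458897773) (nat_lit 76) (nat_lit 2004784250) (nat_lit 516) (nat_lit 5) (nat_lit 539) (nat_lit 5) (nat_lit 517) (nat_lit 5) (nat_lit 557) (nat_lit 510) (nat_lit 493))) (XT.nd (nat_lit 78) (nat_lit 1900) (nat_lit 0) (XT.lf (nat_lit 0) (nat_lit 3559072993) (nat_lit 1748) (nat_lit 3205292987) (nat_lit 1824) (nat_lit 418933699) (nat_lit 493) (nat_lit 5) (nat_lit 516) (nat_lit 5) (nat_lit 517) (nat_lit 5) (nat_lit 558) (nat_lit 510) (nat_lit 492)) (XT.lf (nat_lit 0) (nat_lit 1414364884) (nat_lit 1824) (nat_lit 1197079090) (nat_lit 1900)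 (nat_lit 4614717997) (nat_lit 468) (nat_lit 5) (nat_lit 492) (nat_lit 5) (nat_lit 493) (nat_lit 5) (nat_lit 559) (nat_lit 510) (nat_lit 491))))) (XT.nd (nat_lit 234) (nat_lit 2736) (nat_lit 0) (XT.nd (nat_lit 78) (nat_lit 2052) (nat_lit 0) (XT.lf (nat_lit 0) (nat_lit 5668550867) (nat_lit 1900) (nat_lit 734135351) (nat_lit 76) (nat_lit 867709639) (nat_lit 468) (nat_lit 5) (nat_lit 493) (nat_lit 5) (nat_lit 469) (nat_lit 5) (nat_lit 560) (nat_lit 510) (nat_lit 490)) (XT.nd (nat_lit 78) (nat_lit 912) (nat_lit 0) (XT.lf (nat_lit 0) (nat_lit 1431448047) (nat_lit 1140) (nat_lit 2887968990) (nat_lit 76) (nat_lit 2996321347) (nat_lit 453) (nat_lit 5) (nat_lit 468) (nat_lit 5) (nat_lit 454) (nat_lit 5) (nat_lit 561) (nat_lit 510) (nat_lit 489)) (XT.lf (nat_lit 0) (nat_lit 2302176074) (nat_lit 912) (nat_lit 2164937410) (nat_lit 988) (nat_lit 2895403512) (nat_lit 441) (nat_lit 5) (nat_lit 453) (nat_lit 5) (nat_lit 454) (nat_lit 5) (nat_lit 562) (nat_lit 510) (nat_lit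 488)))) (XT.nd (nat_lit 156) (nat_lit 1748) (nat_lit 0) (XT.nd (nat_lit 78) (nat_lit 0) (nat_lit 0) (XT.lf (nat_lit 0) (nat_lit 115778981) (nat_lit 988) (nat_lit 7243487200) (nat_lit 76) (nat_lit 51658484) (nat_lit 428) (nat_lit 5) (nat_lit 441) (nat_lit 5) (nat_lit 429) (nat_lit 5) (nat_lit 563) (nat_lit 510) (nat_lit 487)) (XT.lf (nat_lit 0) (nat_lit 3141272400) (nat_lit 988) (nat_lit 1984427326) (nat_lit 76) (nat_lit 2334364721) (nat_lit 428) (nat_lit 5) (nat_lit 441) (nat_lit 5) (nat_lit 429) (nat_lit 5) (nat_lit 564) (nat_lit 510) (nat_lit 486))) (XT.nd (nat_lit 78) (nat_lit 912) (nat_lit 0) (XT.lf (nat_lit 0) (nat_lit 3365686119) (nat_lit 836) (nat_lit 2828834696) (nat_lit 912) (nat_lit 1316325099) (nat_lit 417) (nat_lit 5) (nat_lit 428) (nat_lit 5) (nat_lit 429) (nat_lit 5) (nat_lit 565) (nat_lit 510) (nat_lit 485)) (XT.lf (nat_lit 0) (nat_lit 1233465328) (nat_lit 836) (nat_lit 456964516) (nat_lit 912) (nat_lit 5872647259) (nat_lit 405) (nat_lit 5)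 (nat_lit 416) (nat_lit 5) (nat_lit 417) (nat_lit 5) (nat_lit 566) (nat_lit 510) (nat_lit 484)))))) (XT.nd (nat_lit 546) (nat_lit 4256) (nat_lit 0) (XT.nd (nat_lit 234) (nat_lit 2280) (nat_lit 0) (XT.nd (nat_lit 78) (nat_lit 1748) (nat_lit 0) (XT.lf (nat_lit 0) (nat_lit 4726835098) (nat_lit 912) (nat_lit 920857689) (nat_lit 76) (nat_lit 1968746867) (nat_lit 405) (nat_lit 5) (nat_lit 417) (nat_lit 5) (nat_lit 406) (nat_lit 5) (nat_lit 567) (nat_lit 510) (nat_lit 483)) (XT.nd (nat_lit 78) (nat_lit 836) (nat_lit 0) (XT.lf (nat_lit 0) (nat_lit 131252885) (nat_lit 912) (nat_lit 3076926592) (nat_lit 76) (nat_lit 4463070297) (nat_lit 393) (nat_lit 5) (nat_lit 405) (nat_lit 5) (nat_lit 394) (nat_lit 5) (nat_lit 568) (nat_lit 510) (nat_lit 482)) (XT.lf (nat_lit 0) (nat_lit 2459918798) (nat_lit 836) (nat_lit 683887959) (nat_lit 912) (nat_lit 4583571281) (nat_lit 382) (nat_lit 5) (nat_lit 393) (nat_lit 5) (nat_lit 394) (nat_lit 5) (nat_lit 569) (nat_lit 510) (nat_lit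 481)))) (XT.nd (nat_lit 156) (nat_lit 1444) (nat_lit 0) (XT.nd (nat_lit 78) (nat_lit 76) (nat_lit 0) (XT.lf (nat_lit 0) (nat_lit 297448072) (nat_lit 760) (nat_lit 5902505504) (nat_lit 836) (nat_lit 1585011752) (nat_lit 372) (nat_lit 5) (nat_lit 382) (nat_lit 5) (nat_lit 383) (nat_lit 5) (nat_lit 570) (nat_lit 510) (nat_lit 480)) (XT.lf (nat_lit 0) (nat_lit 1442944199) (nat_lit 836) (nat_lit 1871602744) (nat_lit 76) (nat_lit 4529194241) (nat_lit 371) (nat_lit 5) (nat_lit 382) (nat_lit 5) (nat_lit 372) (nat_lit 5) (nat_lit 571) (nat_lit 510) (nat_lit 479))) (XT.nd (nat_lit 78) (nat_lit 684) (nat_lit 0) (XT.lf (nat_lit 0) (nat_lit 3838306269) (nat_lit 760) (nat_lit 646517548) (nat_lit 836) (nat_lit 3419170556) (nat_lit 361) (nat_lit 5) (nat_lit 371) (nat_lit 5) (nat_lit 372) (nat_lit 5) (nat_lit 572) (nat_lit 510) (nat_lit 478)) (XT.lf (nat_lit 0) (nat_lit 1672228994) (nat_lit 684) (nat_lit 5902490410) (nat_lit 760) (nat_lit 390992702) (nat_lit 352) (nat_lit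 5) (nat_lit 361) (nat_lit 5) (nat_lit 362) (nat_lit 5) (nat_lit 573) (nat_lit 510) (nat_lit 477))))) (XT.nd (nat_lit 312) (nat_lit 1976) (nat_lit 0) (XT.nd (nat_lit 156) (nat_lit 1444) (nat_lit 0) (XT.nd (nat_lit 78) (nat_lit 760) (nat_lit 0) (XT.lf (nat_lit 0) (nat_lit 2644588282) (nat_lit 760) (nat_lit 529085218) (nat_lit 76) (nat_lit 4854998895) (nat_lit 351) (nat_lit 5) (nat_lit 361) (nat_lit 5) (nat_lit 352) (nat_lit 5) (nat_lit 574) (nat_lit 510) (nat_lit 476)) (XT.lf (nat_lit 0) (nat_lit 5360466964) (nat_lit 760) (nat_lit 361434065) (nat_lit 836) (nat_lit 2371216934) (nat_lit 341) (nat_lit 5) (nat_lit 351) (nat_lit 5) (nat_lit 352) (nat_lit 5) (nat_lit 575) (nat_lit 510) (nat_lit 475))) (XT.nd (nat_lit 78) (nat_lit 684) (nat_lit 0) (XT.lf (nat_lit 0) (nat_lit 685132947) (nat_lit 760) (nat_lit 4980231929) (nat_lit 76) (nat_lit 2493550563) (nat_lit 331) (nat_lit 5) (nat_lit 341) (nat_lit 5) (nat_lit 332) (nat_lit 5) (nat_lit 576) (nat_lit 510) (nat_lit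 474)) (XT.lf (nat_lit 0) (nat_lit 955313367) (nat_lit 684) (nat_lit 2794843154) (nat_lit 760) (nat_lit 4475975630) (nat_lit 322) (nat_lit 5) (nat_lit 331) (nat_lit 5) (nat_lit 332) (nat_lit 5) (nat_lit 577) (nat_lit 510) (nat_lit 473)))) (XT.nd (nat_lit 156) (nat_lit 1292) (nat_lit 0) (XT.nd (nat_lit 78) (nat_lit 684) (nat_lit 0) (XT.lf (nat_lit 0) (nat_lit 6863685920) (nat_lit 760) (nat_lit 1277144063) (nat_lit 76) (nat_lit 154121764) (nat_lit 322) (nat_lit 5) (nat_lit 332) (nat_lit 5) (nat_lit 323) (nat_lit 5) (nat_lit 578) (nat_lit 510) (nat_lit 472)) (XT.lf (nat_lit 0) (nat_lit 1655850920) (nat_lit 684) (nat_lit 3552775380) (nat_lit 76) (nat_lit 3156237129) (nat_lit 313) (nat_lit 5) (nat_lit 322) (nat_lit 5) (nat_lit 314) (nat_lit 5) (nat_lit 579) (nat_lit 510) (nat_lit 471))) (XT.nd (nat_lit 78) (nat_lit 608) (nat_lit 0) (XT.lf (nat_lit 0) (nat_lit 2570403699) (nat_lit 684) (nat_lit 2194332200) (nat_lit 760) (nat_lit 3671666923) (nat_lit 304) (nat_lit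 5) (nat_lit 313) (nat_lit 5) (nat_lit 314) (nat_lit 5) (nat_lit 580) (nat_lit 510) (nat_lit 470)) (XT.lf (nat_lit 0) (nat_lit 294660539) (nat_lit 608) (nat_lit 7627072317) (nat_lit 684) (nat_lit 587923913) (nat_lit 296) (nat_lit 5) (nat_lit 304) (nat_lit 5) (nat_lit 305) (nat_lit 5) (nat_lit 581) (nat_lit 510) (nat_lit 469))))))) (XT.nd (nat_lit 1092) (nat_lit 4864) (nat_lit 0) (XT.nd (nat_lit 546) (nat_lit 2660) (nat_lit 0) (XT.nd (nat_lit 234) (nat_lit 1748) (nat_lit 0) (XT.nd (nat_lit 78) (nat_lit 1292) (nat_lit 0) (XT.lf (nat_lit 0) (nat_lit 2532631875) (nat_lit 684) (nat_lit 2015798455) (nat_lit 76) (nat_lit 4035442127) (nat_lit 295) (nat_lit 5) (nat_lit 304) (nat_lit 5) (nat_lit 296) (nat_lit 5) (nat_lit 582) (nat_lit 510) (nat_lit 468)) (XT.nd (nat_lit 78) (nat_lit 684) (nat_lit 0) (XT.lf (nat_lit 0) (nat_lit 4302207237) (nat_lit 608) (nat_lit 1388874365) (nat_lit 684) (nat_lit 2968748342) (nat_lit 287) (nat_lit 5) (nat_lit 295) (nat_lit 5) (nat_lit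 296) (nat_lit 5) (nat_lit 583) (nat_lit 510) (nat_lit 467)) (XT.lf (nat_lit 0) (nat_lit 167346850) (nat_lit 684) (nat_lit 6745646628) (nat_lit 76) (nat_lit 1824407479) (nat_lit 278) (nat_lit 5) (nat_lit 287) (nat_lit 5) (nat_lit 279) (nat_lit 5) (nat_lit 584) (nat_lit 510) (nat_lit 466)))) (XT.nd (nat_lit 156) (nat_lit 1140) (nat_lit 0) (XT.nd (nat_lit 78) (nat_lit 608) (nat_lit 0) (XT.lf (nat_lit 0) (nat_lit 3321113714) (nat_lit 684) (nat_lit 376132123) (nat_lit 76) (nat_lit 5118993238) (nat_lit 278) (nat_lit 5) (nat_lit 287) (nat_lit 5) (nat_lit 279) (nat_lit 5) (nat_lit 585) (nat_lit 510) (nat_lit 465)) (XT.lf (nat_lit 0) (nat_lit 6144169146) (nat_lit 608) (nat_lit 390571643) (nat_lit 684) (nat_lit 2361979605) (nat_lit 270) (nat_lit 5) (nat_lit 278) (nat_lit 5) (nat_lit 279) (nat_lit 5) (nat_lit 586) (nat_lit 510) (nat_lit 464))) (XT.nd (nat_lit 78) (nat_lit 532) (nat_lit 0) (XT.lf (nat_lit 0) (nat_lit 826730355) (nat_lit 608) (nat_lit 5190153943) (nat_lit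 76) (nat_lit 2961744074) (nat_lit 262) (nat_lit 5) (nat_lit 270) (nat_lit 5) (nat_lit 263) (nat_lit 5) (nat_lit 587) (nat_lit 510) (nat_lit 463)) (XT.lf (nat_lit 0) (nat_lit 1377785447) (nat_lit 532) (nat_lit 2657418870) (nat_lit 608) (nat_lit 5026907619) (nat_lit 255) (nat_lit 5) (nat_lit 262) (nat_lit 5) (nat_lit 263) (nat_lit 5) (nat_lit 588) (nat_lit 510) (nat_lit 462))))) (XT.nd (nat_lit 234) (nat_lit 1520) (nat_lit 0) (XT.nd (nat_lit 78) (nat_lit 1140) (nat_lit 0) (XT.lf (nat_lit 0) (nat_lit 7305725327) (nat_lit 608) (nat_lit 1062480660) (nat_lit 76) (nat_lit 779103604) (nat_lit 255) (nat_lit 5) (nat_lit 263) (nat_lit 5) (nat_lit 256) (nat_lit 5) (nat_lit 589) (nat_lit 510) (nat_lit 461)) (XT.nd (nat_lit 78) (nat_lit 532) (nat_lit 0) (XT.lf (nat_lit 0) (nat_lit 1402277223) (nat_lit 608) (nat_lit 3551306232) (nat_lit 76) (nat_lit 4280181068) (nat_lit 247) (nat_lit 5) (nat_lit 255) (nat_lit 5) (nat_lit 248) (nat_lit 5) (nat_lit 590) (nat_lit 510) (nat_lit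 460)) (XT.lf (nat_lit 0) (nat_lit 3227823564) (nat_lit 532) (nat_lit 1445512099) (nat_lit 608) (nat_lit 4648631722) (nat_lit 240) (nat_lit 5) (nat_lit 247) (nat_lit 5) (nat_lit 248) (nat_lit 5) (nat_lit 591) (nat_lit 510) (nat_lit 459)))) (XT.nd (nat_lit 156) (nat_lit 988) (nat_lit 0) (XT.nd (nat_lit 78) (nat_lit 76) (nat_lit 0) (XT.lf (nat_lit 0) (nat_lit 717122023) (nat_lit 456) (nat_lit 7294341155) (nat_lit 532) (nat_lit 1400439991) (nat_lit 234) (nat_lit 5) (nat_lit 240) (nat_lit 5) (nat_lit 241) (nat_lit 5) (nat_lit 592) (nat_lit 510) (nat_lit 458)) (XT.lf (nat_lit 0) (nat_lit 1897685130) (nat_lit 532) (nat_lit 1835520855) (nat_lit 76) (nat_lit 5769983959) (nat_lit 233) (nat_lit 5) (nat_lit 240) (nat_lit 5) (nat_lit 234) (nat_lit 5) (nat_lit 593) (nat_lit 510) (nat_lit 457))) (XT.nd (nat_lit 78) (nat_lit 456) (nat_lit 0) (XT.lf (nat_lit 0) (nat_lit 5162832643) (nat_lit 532) (nat_lit 73840494) (nat_lit 608) (nat_lit 4359572851) (nat_lit 226) (nat_lit 5)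 (nat_lit 233) (nat_lit 5) (nat_lit 234) (nat_lit 5) (nat_lit 594) (nat_lit 510) (nat_lit 456)) (XT.lf (nat_lit 0) (nat_lit 2588388358) (nat_lit 456) (nat_lit 6067435073) (nat_lit 532) (nat_lit 1035073755) (nat_lit 220) (nat_lit 5) (nat_lit 226) (nat_lit 5) (nat_lit 227) (nat_lit 5) (nat_lit 595) (nat_lit 510) (nat_lit 455)))))) (XT.nd (nat_lit 546) (nat_lit 2432) (nat_lit 0) (XT.nd (nat_lit 234) (nat_lit 1444) (nat_lit 0) (XT.nd (nat_lit 78) (nat_lit 912) (nat_lit 0) (XT.lf (nat_lit 0) (nat_lit 2316025346) (nat_lit 532) (nat_lit 49097902) (nat_lit 76) (nat_lit 7422193691) (nat_lit 219) (nat_lit 5) (nat_lit 226) (nat_lit 5) (nat_lit 220) (nat_lit 5) (nat_lit 596) (nat_lit 510) (nat_lit 454)) (XT.nd (nat_lit 78) (nat_lit 456) (nat_lit 0) (XT.lf (nat_lit 0) (nat_lit 5737645814) (nat_lit 532) (nat_lit 2717998445) (nat_lit 76) (nat_lit 1429538396) (nat_lit 213) (nat_lit 5) (nat_lit 220) (nat_lit 5) (nat_lit 214) (nat_lit 5) (nat_lit 597) (nat_lit 510) (nat_lit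 453)) (XT.lf (nat_lit 0) (nat_lit 4531057658) (nat_lit 456) (nat_lit 4703684768) (nat_lit 532) (nat_lit 750123941) (nat_lit 207) (nat_lit 5) (nat_lit 213) (nat_lit 5) (nat_lit 214) (nat_lit 5) (nat_lit 598) (nat_lit 510) (nat_lit 452)))) (XT.nd (nat_lit 156) (nat_lit 912) (nat_lit 0) (XT.nd (nat_lit 78) (nat_lit 0) (nat_lit 0) (XT.lf (nat_lit 0) (nat_lit 1825651701) (nat_lit 456) (nat_lit 845955486) (nat_lit 532) (nat_lit 7414745862) (nat_lit 200) (nat_lit 5) (nat_lit 206) (nat_lit 5) (nat_lit 207) (nat_lit 5) (nat_lit 599) (nat_lit 510) (nat_lit 451)) (XT.lf (nat_lit 0) (nat_lit 6170670403) (nat_lit 532) (nat_lit 946345625) (nat_lit 76) (nat_lit 3072376905) (nat_lit 200) (nat_lit 5) (nat_lit 207) (nat_lit 5) (nat_lit 201) (nat_lit 5) (nat_lit 600) (nat_lit 510) (nat_lit 450))) (XT.nd (nat_lit 78) (nat_lit 532) (nat_lit 0) (XT.lf (nat_lit 0) (nat_lit 6538992368) (nat_lit 380) (nat_lit 3211561288) (nat_lit 456) (nat_lit 543724619) (nat_lit 195) (nat_lit 5)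 (nat_lit 200) (nat_lit 5) (nat_lit 201) (nat_lit 5) (nat_lit 601) (nat_lit 510) (nat_lit 449)) (XT.lf (nat_lit 0) (nat_lit 2960354894) (nat_lit 532) (nat_lit 6646298255) (nat_lit 76) (nat_lit 794241151) (nat_lit 188) (nat_lit 5) (nat_lit 195) (nat_lit 5) (nat_lit 189) (nat_lit 5) (nat_lit 602) (nat_lit 510) (nat_lit 448))))) (XT.nd (nat_lit 312) (nat_lit 1216) (nat_lit 0) (XT.nd (nat_lit 156) (nat_lit 836) (nat_lit 0) (XT.nd (nat_lit 78) (nat_lit 0) (nat_lit 0) (XT.lf (nat_lit 0) (nat_lit 887198373) (nat_lit 380) (nat_lit 5655595883) (nat_lit 456) (nat_lit 3966466687) (nat_lit 183) (nat_lit 5) (nat_lit 188) (nat_lit 5) (nat_lit 189) (nat_lit 5) (nat_lit 603) (nat_lit 510) (nat_lit 447)) (XT.lf (nat_lit 0) (nat_lit 8605982693) (nat_lit 380) (nat_lit 1599018318) (nat_lit 456) (nat_lit 414632865) (nat_lit 183) (nat_lit 5) (nat_lit 188) (nat_lit 5) (nat_lit 189) (nat_lit 5) (nat_lit 604) (nat_lit 510) (nat_lit 446))) (XT.nd (nat_lit 78) (nat_lit 380) (nat_lit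 0) (XT.lf (nat_lit 0) (nat_lit 3184212814) (nat_lit 456) (nat_lit 5001918723) (nat_lit 76) (nat_lit 2545306369) (nat_lit 177) (nat_lit 5) (nat_lit 183) (nat_lit 5) (nat_lit 178) (nat_lit 5) (nat_lit 605) (nat_lit 510) (nat_lit 445)) (XT.lf (nat_lit 0) (nat_lit 2777546352) (nat_lit 380) (nat_lit 4078392953) (nat_lit 456) (nat_lit 3989356033) (nat_lit 172) (nat_lit 5) (nat_lit 177) (nat_lit 5) (nat_lit 178) (nat_lit 5) (nat_lit 606) (nat_lit 510) (nat_lit 444)))) (XT.nd (nat_lit 156) (nat_lit 760) (nat_lit 0) (XT.nd (nat_lit 78) (nat_lit 456) (nat_lit 0) (XT.lf (nat_lit 0) (nat_lit 10600058090) (nat_lit 456) (nat_lit 236621248) (nat_lit 76) (nat_lit 124772651) (nat_lit 172) (nat_lit 5) (nat_lit 178) (nat_lit 5) (nat_lit 173) (nat_lit 5) (nat_lit 607) (nat_lit 510) (nat_lit 443)) (XT.lf (nat_lit 0) (nat_lit 3338227398) (nat_lit 456) (nat_lit 3329228976) (nat_lit 76) (nat_lit 4411185117) (nat_lit 166) (nat_lit 5) (nat_lit 172) (nat_lit 5) (nat_lit 167) (nat_lit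 5) (nat_lit 608) (nat_lit 510) (nat_lit 442))) (XT.nd (nat_lit 78) (nat_lit 380) (nat_lit 0) (XT.lf (nat_lit 0) (nat_lit 4705196057) (nat_lit 380) (nat_lit 2399205180) (nat_lit 456) (nat_lit 4093778944) (nat_lit 161) (nat_lit 5) (nat_lit 166) (nat_lit 5) (nat_lit 167) (nat_lit 5) (nat_lit 609) (nat_lit 510) (nat_lit 441)) (XT.lf (nat_lit 0) (nat_lit 1579102230) (nat_lit 380) (nat_lit 9377678028) (nat_lit 456) (nat_lit 363112885) (nat_lit 156) (nat_lit 5) (nat_lit 161) (nat_lit 5) (nat_lit 162) (nat_lit 5) (nat_lit 610) (nat_lit 510) (nat_lit 440))))))))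
noncomputable def xc53 : XT := (XT.nd (nat_lit 2262) (nat_lit 1444) (nat_lit 0) (XT.nd (nat_lit 1092) (nat_lit 2812) (nat_lit 0) (XT.nd (nat_lit 546) (nat_lit 1596) (nat_lit 0) (XT.nd (nat_lit 234) (nat_lit 1140) (nat_lit 0) (XT.nd (nat_lit 78) (nat_lit 684) (nat_lit 0) (XT.lf (nat_lit 0) (nat_lit 3422319363) (nat_lit 456) (nat_lit 1635696779) (nat_lit 76) (nat_lit 6385072383) (nat_lit 155) (nat_lit 5) (nat_lit 161) (nat_lit 5) (nat_lit 156) (nat_lit 5) (nat_lit 611) (nat_lit 510) (nat_lit 439)) (XT.nd (nat_lit 78) (nat_lit 380) (nat_lit 0) (XT.lf (nat_lit 0) (nat_lit 6662905101) (nat_lit 304) (nat_lit 625181965) (nat_lit 380) (nat_lit 4280424037) (nat_lit 151) (nat_lit 5) (nat_lit 155) (nat_lit 5) (nat_lit 156) (nat_lit 5) (nat_lit 612) (nat_lit 510) (nat_lit 438)) (XT.lf (nat_lit 0) (nat_lit 3419137141) (nat_lit 380) (nat_lit 7836991532) (nat_lit 456) (nat_lit 439815335) (nat_lit 146) (nat_lit 5) (nat_lit 151) (nat_lit 5) (nat_lit 152) (nat_lit 5) (nat_lit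 613) (nat_lit 510) (nat_lit 437)))) (XT.nd (nat_lit 156) (nat_lit 760) (nat_lit 0) (XT.nd (nat_lit 78) (nat_lit 0) (nat_lit 0) (XT.lf (nat_lit 0) (nat_lit 71752064) (nat_lit 304) (nat_lit 3364490563) (nat_lit 380) (nat_lit 8389147442) (nat_lit 141) (nat_lit 5) (nat_lit 145) (nat_lit 5) (nat_lit 146) (nat_lit 5) (nat_lit 614) (nat_lit 510) (nat_lit 436)) (XT.lf (nat_lit 0) (nat_lit 7414303085) (nat_lit 380) (nat_lit 3321927991) (nat_lit 76) (nat_lit 1220529407) (nat_lit 141) (nat_lit 5) (nat_lit 146) (nat_lit 5) (nat_lit 142) (nat_lit 5) (nat_lit 615) (nat_lit 510) (nat_lit 435))) (XT.nd (nat_lit 78) (nat_lit 380) (nat_lit 0) (XT.lf (nat_lit 0) (nat_lit 5272306559) (nat_lit 380) (nat_lit 6223464913) (nat_lit 456) (nat_lit 594510868) (nat_lit 136) (nat_lit 5) (nat_lit 141) (nat_lit 5) (nat_lit 142) (nat_lit 5) (nat_lit 616) (nat_lit 510) (nat_lit 434)) (XT.lf (nat_lit 0) (nat_lit 1805613621) (nat_lit 304) (nat_lit 1583344801) (nat_lit 380) (nat_lit 8837039828)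 (nat_lit 131) (nat_lit 5) (nat_lit 135) (nat_lit 5) (nat_lit 136) (nat_lit 5) (nat_lit 617) (nat_lit 510) (nat_lit 433))))) (XT.nd (nat_lit 234) (nat_lit 912) (nat_lit 0) (XT.nd (nat_lit 78) (nat_lit 684) (nat_lit 0) (XT.lf (nat_lit 0) (nat_lit 7478229946) (nat_lit 380) (nat_lit 1747334316) (nat_lit 76) (nat_lit 3138104664) (nat_lit 131) (nat_lit 5) (nat_lit 136) (nat_lit 5) (nat_lit 132) (nat_lit 5) (nat_lit 618) (nat_lit 510) (nat_lit 432)) (XT.nd (nat_lit 78) (nat_lit 380) (nat_lit 0) (XT.lf (nat_lit 0) (nat_lit 7130020570) (nat_lit 304) (nat_lit 4544262095) (nat_lit 380) (nat_lit 829311331) (nat_lit 127) (nat_lit 5) (nat_lit 131) (nat_lit 5) (nat_lit 132) (nat_lit 5) (nat_lit 619) (nat_lit 510) (nat_lit 431)) (XT.lf (nat_lit 0) (nat_lit 3269340840) (nat_lit 380) (nat_lit 9112492385) (nat_lit 76) (nat_lit 263959930) (nat_lit 122) (nat_lit 5) (nat_lit 127) (nat_lit 5) (nat_lit 123) (nat_lit 5) (nat_lit 620) (nat_lit 510) (nat_lit 430)))) (XT.nd (nat_lit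 156) (nat_lit 608) (nat_lit 0) (XT.nd (nat_lit 78) (nat_lit 304) (nat_lit 0) (XT.lf (nat_lit 0) (nat_lit 7473710626) (nat_lit 380) (nat_lit 187201312) (nat_lit 76) (nat_lit 5129118586) (nat_lit 122) (nat_lit 5) (nat_lit 127) (nat_lit 5) (nat_lit 123) (nat_lit 5) (nat_lit 621) (nat_lit 510) (nat_lit 429)) (XT.lf (nat_lit 0) (nat_lit 8983023793) (nat_lit 304) (nat_lit 2806532378) (nat_lit 380) (nat_lit 1147049526) (nat_lit 118) (nat_lit 5) (nat_lit 122) (nat_lit 5) (nat_lit 123) (nat_lit 5) (nat_lit 622) (nat_lit 510) (nat_lit 428))) (XT.nd (nat_lit 78) (nat_lit 304) (nat_lit 0) (XT.lf (nat_lit 0) (nat_lit 3083525041) (nat_lit 304) (nat_lit 7849448270) (nat_lit 76) (nat_lit 2152363596) (nat_lit 114) (nat_lit 5) (nat_lit 118) (nat_lit 5) (nat_lit 115) (nat_lit 5) (nat_lit 623) (nat_lit 510) (nat_lit 427)) (XT.lf (nat_lit 0) (nat_lit 1366188330) (nat_lit 304) (nat_lit 6040616848) (nat_lit 380) (nat_lit 5829617640) (nat_lit 110) (nat_lit 5) (nat_lit 114) (nat_lit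 5) (nat_lit 115) (nat_lit 5) (nat_lit 624) (nat_lit 510) (nat_lit 426)))))) (XT.nd (nat_lit 546) (nat_lit 1368) (nat_lit 0) (XT.nd (nat_lit 234) (nat_lit 836) (nat_lit 0) (XT.nd (nat_lit 78) (nat_lit 608) (nat_lit 0) (XT.lf (nat_lit 0) (nat_lit 10821279052) (nat_lit 304) (nat_lit 1017491308) (nat_lit 380) (nat_lit 1551316461) (nat_lit 110) (nat_lit 5) (nat_lit 114) (nat_lit 5) (nat_lit 115) (nat_lit 5) (nat_lit 625) (nat_lit 510) (nat_lit 425)) (XT.nd (nat_lit 78) (nat_lit 304) (nat_lit 0) (XT.lf (nat_lit 0) (nat_lit 2817616976) (nat_lit 304) (nat_lit 6632343728) (nat_lit 76) (nat_lit 4095659846) (nat_lit 106) (nat_lit 5) (nat_lit 110) (nat_lit 5) (nat_lit 107) (nat_lit 5) (nat_lit 626) (nat_lit 510) (nat_lit 424)) (XT.lf (nat_lit 0) (nat_lit 2885840918) (nat_lit 304) (nat_lit 4380236325) (nat_lit 380) (nat_lit 6437724941) (nat_lit 102) (nat_lit 5) (nat_lit 106) (nat_lit 5) (nat_lit 107) (nat_lit 5) (nat_lit 627) (nat_lit 510) (nat_lit 423)))) (XT.nd (nat_lit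 156) (nat_lit 532) (nat_lit 0) (XT.nd (nat_lit 78) (nat_lit 304) (nat_lit 0) (XT.lf (nat_lit 0) (nat_lit 11823640715) (nat_lit 380) (nat_lit 1236304624) (nat_lit 76) (nat_lit 804800134) (nat_lit 102) (nat_lit 5) (nat_lit 107) (nat_lit 5) (nat_lit 103) (nat_lit 5) (nat_lit 628) (nat_lit 510) (nat_lit 422)) (XT.lf (nat_lit 0) (nat_lit 2467203523) (nat_lit 304) (nat_lit 5473562827) (nat_lit 76) (nat_lit 6086708628) (nat_lit 98) (nat_lit 5) (nat_lit 102) (nat_lit 5) (nat_lit 99) (nat_lit 5) (nat_lit 629) (nat_lit 510) (nat_lit 421))) (XT.nd (nat_lit 78) (nat_lit 228) (nat_lit 0) (XT.lf (nat_lit 0) (nat_lit 4356997543) (nat_lit 304) (nat_lit 2688855927) (nat_lit 380) (nat_lit 7147186315) (nat_lit 94) (nat_lit 5) (nat_lit 98) (nat_lit 5) (nat_lit 99) (nat_lit 5) (nat_lit 630) (nat_lit 510) (nat_lit 420)) (XT.lf (nat_lit 0) (nat_lit 29922493) (nat_lit 228) (nat_lit 11711600419) (nat_lit 304) (nat_lit 2619884697) (nat_lit 91) (nat_lit 5) (nat_lit 94) (nat_lit 5) (nat_lit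 95) (nat_lit 5) (nat_lit 631) (nat_lit 510) (nat_lit 419))))) (XT.nd (nat_lit 312) (nat_lit 760) (nat_lit 0) (XT.nd (nat_lit 156) (nat_lit 304) (nat_lit 0) (XT.nd (nat_lit 78) (nat_lit 228) (nat_lit 0) (XT.lf (nat_lit 0) (nat_lit 2027018993) (nat_lit 304) (nat_lit 4386645693) (nat_lit 76) (nat_lit 8118114092) (nat_lit 90) (nat_lit 5) (nat_lit 94) (nat_lit 5) (nat_lit 91) (nat_lit 5) (nat_lit 632) (nat_lit 510) (nat_lit 418)) (XT.lf (nat_lit 0) (nat_lit 5766204848) (nat_lit 228) (nat_lit 974625443) (nat_lit 304) (nat_lit 7964200349) (nat_lit 87) (nat_lit 5) (nat_lit 90) (nat_lit 5) (nat_lit 91) (nat_lit 5) (nat_lit 633) (nat_lit 510) (nat_lit 417))) (XT.nd (nat_lit 78) (nat_lit 76) (nat_lit 0) (XT.lf (nat_lit 0) (nat_lit 1237491564) (nat_lit 228) (nat_lit 10350469781) (nat_lit 304) (nat_lit 3293005925) (nat_lit 84) (nat_lit 5) (nat_lit 87) (nat_lit 5) (nat_lit 88) (nat_lit 5) (nat_lit 634) (nat_lit 510) (nat_lit 416)) (XT.lf (nat_lit 0) (nat_lit 1490883823)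 (nat_lit 304) (nat_lit 3386444950) (nat_lit 76) (nat_lit 10182131905) (nat_lit 83) (nat_lit 5) (nat_lit 87) (nat_lit 5) (nat_lit 84) (nat_lit 5) (nat_lit 635) (nat_lit 510) (nat_lit 415)))) (XT.nd (nat_lit 156) (nat_lit 304) (nat_lit 0) (XT.nd (nat_lit 78) (nat_lit 228) (nat_lit 0) (XT.lf (nat_lit 0) (nat_lit 6349673381) (nat_lit 304) (nat_lit 8146948755) (nat_lit 76) (nat_lit 744000744) (nat_lit 80) (nat_lit 5) (nat_lit 84) (nat_lit 5) (nat_lit 81) (nat_lit 5) (nat_lit 636) (nat_lit 510) (nat_lit 414)) (XT.lf (nat_lit 0) (nat_lit 2354322057) (nat_lit 228) (nat_lit 8994166161) (nat_lit 304) (nat_lit 4076063672) (nat_lit 77) (nat_lit 5) (nat_lit 80) (nat_lit 5) (nat_lit 81) (nat_lit 5) (nat_lit 637) (nat_lit 510) (nat_lit 413))) (XT.nd (nat_lit 78) (nat_lit 228) (nat_lit 0) (XT.lf (nat_lit 0) (nat_lit 851634669) (nat_lit 304) (nat_lit 2489296587) (nat_lit 76) (nat_lit 12270570965) (nat_lit 76) (nat_lit 5) (nat_lit 80) (nat_lit 5) (nat_lit 77) (nat_lit 5) (nat_lit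 638) (nat_lit 510) (nat_lit 412)) (XT.lf (nat_lit 0) (nat_lit 5866622578) (nat_lit 304) (nat_lit 7479191972) (nat_lit 76) (nat_lit 2454972395) (nat_lit 73) (nat_lit 5) (nat_lit 77) (nat_lit 5) (nat_lit 74) (nat_lit 5) (nat_lit 639) (nat_lit 510) (nat_lit 411))))))) (XT.nd (nat_lit 73710) (nat_lit 0) (nat_lit 33288) (XT.nd (nat_lit 546) (nat_lit 304) (nat_lit 0) (XT.nd (nat_lit 234) (nat_lit 608) (nat_lit 0) (XT.nd (nat_lit 78) (nat_lit 304) (nat_lit 0) (XT.lf (nat_lit 0) (nat_lit 3363157860) (nat_lit 228) (nat_lit 7652594928) (nat_lit 304) (nat_lit 4977428237) (nat_lit 70) (nat_lit 5) (nat_lit 73) (nat_lit 5) (nat_lit 74) (nat_lit 5) (nat_lit 640) (nat_lit 510) (nat_lit 410)) (XT.nd (nat_lit 78) (nat_lit 228) (nat_lit 0) (XT.lf (nat_lit 0) (nat_lit 101045168) (nat_lit 304) (nat_lit 1713206939) (nat_lit 76) (nat_lit 14374688560) (nat_lit 69) (nat_lit 5) (nat_lit 73) (nat_lit 5) (nat_lit 70) (nat_lit 5) (nat_lit 641) (nat_lit 510) (nat_lit 409)) (XT.lf (nat_lit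 0) (nat_lit 5276979726) (nat_lit 304) (nat_lit 6948245229) (nat_lit 76) (nat_lit 4161482226) (nat_lit 66) (nat_lit 5) (nat_lit 70) (nat_lit 5) (nat_lit 67) (nat_lit 5) (nat_lit 642) (nat_lit 510) (nat_lit 408)))) (XT.nd (nat_lit 156) (nat_lit 456) (nat_lit 0) (XT.nd (nat_lit 78) (nat_lit 0) (nat_lit 0) (XT.lf (nat_lit 0) (nat_lit 4244937854) (nat_lit 152) (nat_lit 6336364198) (nat_lit 228) (nat_lit 6006630065) (nat_lit 64) (nat_lit 5) (nat_lit 66) (nat_lit 5) (nat_lit 67) (nat_lit 5) (nat_lit 643) (nat_lit 510) (nat_lit 407)) (XT.lf (nat_lit 0) (nat_lit 15709645681) (nat_lit 152) (nat_lit 302625296) (nat_lit 228) (nat_lit 780499837) (nat_lit 64) (nat_lit 5) (nat_lit 66) (nat_lit 5) (nat_lit 67) (nat_lit 5) (nat_lit 644) (nat_lit 510) (nat_lit 406))) (XT.nd (nat_lit 78) (nat_lit 152) (nat_lit 0) (XT.lf (nat_lit 0) (nat_lit 4571197149) (nat_lit 304) (nat_lit 6575102050) (nat_lit 76) (nat_lit 5853202276) (nat_lit 60) (nat_lit 5) (nat_lit 64) (nat_lit 5) (nat_lit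 61) (nat_lit 5) (nat_lit 645) (nat_lit 510) (nat_lit 405)) (XT.lf (nat_lit 0) (nat_lit 4978576923) (nat_lit 152) (nat_lit 5056907326) (nat_lit 228) (nat_lit 7174459615) (nat_lit 58) (nat_lit 5) (nat_lit 60) (nat_lit 5) (nat_lit 61) (nat_lit 5) (nat_lit 646) (nat_lit 510) (nat_lit 404))))) (XT.nd (nat_lit 72852) (nat_lit 0) (nat_lit 47880) (XT.nd (nat_lit 72696) (nat_lit 0) (nat_lit 50768) (XT.nd (nat_lit 78) (nat_lit 304) (nat_lit 0) (XT.lf (nat_lit 0) (nat_lit 15635392717) (nat_lit 228) (nat_lit 625149138) (nat_lit 76) (nat_lit 1163526962) (nat_lit 58) (nat_lit 5) (nat_lit 61) (nat_lit 5) (nat_lit 59) (nat_lit 5) (nat_lit 647) (nat_lit 510) (nat_lit 403)) (XT.lf (nat_lit 0) (nat_lit 3738445026) (nat_lit 304) (nat_lit 6382965725) (nat_lit 76) (nat_lit 7518940620) (nat_lit 54) (nat_lit 5) (nat_lit 58) (nat_lit 5) (nat_lit 55) (nat_lit 5) (nat_lit 648) (nat_lit 510) (nat_lit 402))) (XT.nd (nat_lit 78) (nat_lit 0) (nat_lit 0) (XT.lf (nat_lit 0) (nat_lit 204702929)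 (nat_lit 836) (nat_lit 2888916850) (nat_lit 0) (nat_lit 204702929) (nat_lit 722) (nat_lit 5) (nat_lit 733) (nat_lit 4) (nat_lit 722) (nat_lit 4) (nat_lit 538) (nat_lit 511) (nat_lit 511)) (XT.lf (nat_lit 0) (nat_lit 3676732793) (nat_lit 836) (nat_lit 1639872579) (nat_lit 0) (nat_lit 1297675327) (nat_lit 722) (nat_lit 5) (nat_lit 733) (nat_lit 4) (nat_lit 722) (nat_lit 4) (nat_lit 539) (nat_lit 511) (nat_lit 510)))) (XT.nd (nat_lit 156) (nat_lit 1064) (nat_lit 0) (XT.nd (nat_lit 78) (nat_lit 912) (nat_lit 0) (XT.lf (nat_lit 0) (nat_lit 314338570) (nat_lit 912) (nat_lit 4076502834) (nat_lit 76) (nat_lit 2242542800) (nat_lit 710) (nat_lit 5) (nat_lit 722) (nat_lit 5) (nat_lit 711) (nat_lit 4) (nat_lit 540) (nat_lit 511) (nat_lit 509)) (XT.lf (nat_lit 0) (nat_lit 133333695) (nat_lit 912) (nat_lit 3397100070) (nat_lit 988) (nat_lit 3123284863) (nat_lit 698) (nat_lit 5) (nat_lit 710) (nat_lit 5) (nat_lit 711) (nat_lit 4) (nat_lit 541) (nat_lit 511) (nat_lit 508)))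 (XT.nd (nat_lit 78) (nat_lit 988) (nat_lit 0) (XT.lf (nat_lit 0) (nat_lit 89256731) (nat_lit 988) (nat_lit 2248998993) (nat_lit 76) (nat_lit 4337100226) (nat_lit 697) (nat_lit 5) (nat_lit 710) (nat_lit 5) (nat_lit 698) (nat_lit 5) (nat_lit 542) (nat_lit 511) (nat_lit 507)) (XT.lf (nat_lit 0) (nat_lit 2058595511) (nat_lit 988) (nat_lit 1207584548) (nat_lit 1064) (nat_lit 3432000895) (nat_lit 684) (nat_lit 5) (nat_lit 697) (nat_lit 5) (nat_lit 698) (nat_lit 5) (nat_lit 543) (nat_lit 511) (nat_lit 506)))))) (XT.nd (nat_lit 546) (nat_lit 9652) (nat_lit 0) (XT.nd (nat_lit 234) (nat_lit 2660) (nat_lit 0) (XT.nd (nat_lit 78) (nat_lit 2280) (nat_lit 0) (XT.lf (nat_lit 0) (nat_lit 6427659034) (nat_lit 988) (nat_lit 23664463) (nat_lit 1064) (nat_lit 271252063) (nat_lit 684) (nat_lit 5) (nat_lit 697) (nat_lit 5) (nat_lit 698) (nat_lit 5) (nat_lit 544) (nat_lit 511) (nat_lit 505)) (XT.nd (nat_lit 78) (nat_lit 1140) (nat_lit 0) (XT.lf (nat_lit 0) (nat_lit 2879304535) (nat_lit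 1140) (nat_lit 2639575457) (nat_lit 76) (nat_lit 1228894756) (nat_lit 669) (nat_lit 5) (nat_lit 684) (nat_lit 5) (nat_lit 670) (nat_lit 5) (nat_lit 545) (nat_lit 511) (nat_lit 504)) (XT.lf (nat_lit 0) (nat_lit 1795396699) (nat_lit 1140) (nat_lit 4239256835) (nat_lit 1216) (nat_lit 739886607) (nat_lit 654) (nat_lit 5) (nat_lit 669) (nat_lit 5) (nat_lit 670) (nat_lit 5) (nat_lit 546) (nat_lit 511) (nat_lit 503)))) (XT.nd (nat_lit 156) (nat_lit 1368) (nat_lit 0) (XT.nd (nat_lit 78) (nat_lit 1216) (nat_lit 0) (XT.lf (nat_lit 0) (nat_lit 2369080759) (nat_lit 1216) (nat_lit 519330354) (nat_lit 76) (nat_lit 3914118302) (nat_lit 653) (nat_lit 5) (nat_lit 669) (nat_lit 5) (nat_lit 654) (nat_lit 5) (nat_lit 547) (nat_lit 511) (nat_lit 502)) (XT.lf (nat_lit 0) (nat_lit 4021979395) (nat_lit 1216) (nat_lit 1467925058) (nat_lit 1292) (nat_lit 1341890509) (nat_lit 637) (nat_lit 5) (nat_lit 653) (nat_lit 5) (nat_lit 654) (nat_lit 5) (nat_lit 548) (nat_lit 511) (nat_lit 501)))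 (XT.nd (nat_lit 78) (nat_lit 0) (nat_lit 0) (XT.lf (nat_lit 0) (nat_lit 1736727064) (nat_lit 1368) (nat_lit 5107815096) (nat_lit 76) (nat_lit 17894450) (nat_lit 619) (nat_lit 5) (nat_lit 637) (nat_lit 5) (nat_lit 620) (nat_lit 5) (nat_lit 549) (nat_lit 511) (nat_lit 500)) (XT.lf (nat_lit 0) (nat_lit 4822629272) (nat_lit 1368) (nat_lit 520678079) (nat_lit 76) (nat_lit 1550938374) (nat_lit 619) (nat_lit 5) (nat_lit 637) (nat_lit 5) (nat_lit 620) (nat_lit 5) (nat_lit 550) (nat_lit 511) (nat_lit 499))))) (XT.nd (nat_lit 312) (nat_lit 5168) (nat_lit 0) (XT.nd (nat_lit 156) (nat_lit 1596) (nat_lit 0) (XT.nd (nat_lit 78) (nat_lit 1444) (nat_lit 0) (XT.lf (nat_lit 0) (nat_lit 992848658) (nat_lit 1444) (nat_lit 2777192811) (nat_lit 76) (nat_lit 3157259926) (nat_lit 600) (nat_lit 5) (nat_lit 619) (nat_lit 5) (nat_lit 601) (nat_lit 5) (nat_lit 551) (nat_lit 511) (nat_lit 498)) (XT.lf (nat_lit 0) (nat_lit 1915372864) (nat_lit 1444) (nat_lit 2128174986) (nat_lit 1520)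 (nat_lit 2918148098) (nat_lit 581) (nat_lit 5) (nat_lit 600) (nat_lit 5) (nat_lit 601) (nat_lit 5) (nat_lit 552) (nat_lit 511) (nat_lit 497))) (XT.nd (nat_lit 78) (nat_lit 1520) (nat_lit 0) (XT.lf (nat_lit 0) (nat_lit 112327348) (nat_lit 1520) (nat_lit 315017323) (nat_lit 76) (nat_lit 6570299779) (nat_lit 580) (nat_lit 5) (nat_lit 600) (nat_lit 5) (nat_lit 581) (nat_lit 5) (nat_lit 553) (nat_lit 511) (nat_lit 496)) (XT.lf (nat_lit 0) (nat_lit 3140801514) (nat_lit 1596) (nat_lit 2548667560) (nat_lit 76) (nat_lit 1344932809) (nat_lit 560) (nat_lit 5) (nat_lit 581) (nat_lit 5) (nat_lit 561) (nat_lit 5) (nat_lit 554) (nat_lit 511) (nat_lit 495)))) (XT.nd (nat_lit 156) (nat_lit 1824) (nat_lit 0) (XT.nd (nat_lit 78) (nat_lit 1748) (nat_lit 0) (XT.lf (nat_lit 0) (nat_lit 2285381168) (nat_lit 1596) (nat_lit 3903538579) (nat_lit 1672) (nat_lit 883798131) (nat_lit 539) (nat_lit 5) (nat_lit 560) (nat_lit 5) (nat_lit 561) (nat_lit 5) (nat_lit 555) (nat_lit 511) (nat_lit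 494)) (XT.lf (nat_lit 0) (nat_lit 68693887) (nat_lit 1672) (nat_lit 2046198080) (nat_lit 1748) (nat_lit 4997481771) (nat_lit 516) (nat_lit 5) (nat_lit 538) (nat_lit 5) (nat_lit 539) (nat_lit 5) (nat_lit 556) (nat_lit 511) (nat_lit 493))) (XT.nd (nat_lit 78) (nat_lit 1824) (nat_lit 0) (XT.lf (nat_lit 0) (nat_lit 5024083500) (nat_lit 1672) (nat_lit 110252490) (nat_lit 1748) (nat_lit 2018922226) (nat_lit 516) (nat_lit 5) (nat_lit 538) (nat_lit 5) (nat_lit 539) (nat_lit 5) (nat_lit 557) (nat_lit 511) (nat_lit 492)) (XT.lf (nat_lit 0) (nat_lit 977976492) (nat_lit 1824) (nat_lit 4349831578) (nat_lit 76) (nat_lit 1867581710) (nat_lit 492) (nat_lit 5) (nat_lit 516) (nat_lit 5) (nat_lit 493) (nat_lit 5) (nat_lit 558) (nat_lit 511) (nat_lit 491))))))))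
noncomputable def xc54 : XT := (XT.nd (nat_lit 2262) (nat_lit 9652) (nat_lit 0) (XT.nd (nat_lit 1092) (nat_lit 7524) (nat_lit 0) (XT.nd (nat_lit 546) (nat_lit 4256) (nat_lit 0) (XT.nd (nat_lit 234) (nat_lit 2736) (nat_lit 0) (XT.nd (nat_lit 78) (nat_lit 1140) (nat_lit 0) (XT.lf (nat_lit 0) (nat_lit 647667343) (nat_lit 1824) (nat_lit 3321546916) (nat_lit 1900) (nat_lit 3269658479) (nat_lit 468) (nat_lit 5) (nat_lit 492) (nat_lit 5) (nat_lit 493) (nat_lit 5) (nat_lit 559) (nat_lit 511) (nat_lit 490)) (XT.nd (nat_lit 78) (nat_lit 1140) (nat_lit 0) (XT.lf (nat_lit 0) (nat_lit 5747254775) (nat_lit 1824) (nat_lit 1245069619) (nat_lit 1900) (nat_lit 291464281) (nat_lit 468) (nat_lit 5) (nat_lit 492) (nat_lit 5) (nat_lit 493) (nat_lit 5) (nat_lit 560) (nat_lit 511) (nat_lit 489)) (XT.lf (nat_lit 0) (nat_lit 2683140647) (nat_lit 1140) (nat_lit 3743805060) (nat_lit 76) (nat_lit 902847412) (nat_lit 453) (nat_lit 5) (nat_lit 468) (nat_lit 5) (nat_lit 454) (nat_lit 5)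 (nat_lit 561) (nat_lit 511) (nat_lit 488)))) (XT.nd (nat_lit 156) (nat_lit 1748) (nat_lit 0) (XT.nd (nat_lit 78) (nat_lit 76) (nat_lit 0) (XT.lf (nat_lit 0) (nat_lit 1406269848) (nat_lit 912) (nat_lit 4279165973) (nat_lit 988) (nat_lit 1691805308) (nat_lit 441) (nat_lit 5) (nat_lit 453) (nat_lit 5) (nat_lit 454) (nat_lit 5) (nat_lit 562) (nat_lit 511) (nat_lit 487)) (XT.lf (nat_lit 0) (nat_lit 1274784674) (nat_lit 988) (nat_lit 781360936) (nat_lit 76) (nat_lit 5369924953) (nat_lit 440) (nat_lit 5) (nat_lit 453) (nat_lit 5) (nat_lit 441) (nat_lit 5) (nat_lit 563) (nat_lit 511) (nat_lit 486))) (XT.nd (nat_lit 78) (nat_lit 836) (nat_lit 0) (XT.lf (nat_lit 0) (nat_lit 4254720420) (nat_lit 988) (nat_lit 2974320549) (nat_lit 76) (nat_lit 247082408) (nat_lit 428) (nat_lit 5) (nat_lit 441) (nat_lit 5) (nat_lit 429) (nat_lit 5) (nat_lit 564) (nat_lit 511) (nat_lit 485)) (XT.lf (nat_lit 0) (nat_lit 2333981374) (nat_lit 836) (nat_lit 4940785777) (nat_lit 912) (nat_lit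 252803568) (nat_lit 417) (nat_lit 5) (nat_lit 428) (nat_lit 5) (nat_lit 429) (nat_lit 5) (nat_lit 565) (nat_lit 511) (nat_lit 484))))) (XT.nd (nat_lit 234) (nat_lit 2432) (nat_lit 0) (XT.nd (nat_lit 78) (nat_lit 912) (nat_lit 0) (XT.lf (nat_lit 0) (nat_lit 135281513) (nat_lit 836) (nat_lit 2571250473) (nat_lit 912) (nat_lit 4873803011) (nat_lit 405) (nat_lit 5) (nat_lit 416) (nat_lit 5) (nat_lit 417) (nat_lit 5) (nat_lit 566) (nat_lit 511) (nat_lit 483)) (XT.nd (nat_lit 78) (nat_lit 912) (nat_lit 0) (XT.lf (nat_lit 0) (nat_lit 5582350325) (nat_lit 836) (nat_lit 121626669) (nat_lit 912) (nat_lit 1930501493) (nat_lit 405) (nat_lit 5) (nat_lit 416) (nat_lit 5) (nat_lit 417) (nat_lit 5) (nat_lit 567) (nat_lit 511) (nat_lit 482)) (XT.lf (nat_lit 0) (nat_lit 1043625863) (nat_lit 912) (nat_lit 4275729543) (nat_lit 76) (nat_lit 2370493350) (nat_lit 393) (nat_lit 5) (nat_lit 405) (nat_lit 5) (nat_lit 394) (nat_lit 5) (nat_lit 568) (nat_lit 511) (nat_lit 481)))) (XT.nd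 (nat_lit 156) (nat_lit 1596) (nat_lit 0) (XT.nd (nat_lit 78) (nat_lit 0) (nat_lit 0) (XT.lf (nat_lit 0) (nat_lit 1216452027) (nat_lit 836) (nat_lit 2806291810) (nat_lit 912) (nat_lit 3723903536) (nat_lit 382) (nat_lit 5) (nat_lit 393) (nat_lit 5) (nat_lit 394) (nat_lit 5) (nat_lit 569) (nat_lit 511) (nat_lit 480)) (XT.lf (nat_lit 0) (nat_lit 6819534528) (nat_lit 836) (nat_lit 220004924) (nat_lit 912) (nat_lit 765483839) (nat_lit 382) (nat_lit 5) (nat_lit 393) (nat_lit 5) (nat_lit 394) (nat_lit 5) (nat_lit 570) (nat_lit 511) (nat_lit 479))) (XT.nd (nat_lit 78) (nat_lit 760) (nat_lit 0) (XT.lf (nat_lit 0) (nat_lit 2218841887) (nat_lit 836) (nat_lit 3220468996) (nat_lit 76) (nat_lit 2425041023) (nat_lit 371) (nat_lit 5) (nat_lit 382) (nat_lit 5) (nat_lit 372) (nat_lit 5) (nat_lit 571) (nat_lit 511) (nat_lit 478)) (XT.lf (nat_lit 0) (nat_lit 2442908145) (nat_lit 760) (nat_lit 2784315141) (nat_lit 836) (nat_lit 2698053283) (nat_lit 361) (nat_lit 5) (nat_lit 371)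 (nat_lit 5) (nat_lit 372) (nat_lit 5) (nat_lit 572) (nat_lit 511) (nat_lit 477)))))) (XT.nd (nat_lit 546) (nat_lit 3876) (nat_lit 0) (XT.nd (nat_lit 234) (nat_lit 2128) (nat_lit 0) (XT.nd (nat_lit 78) (nat_lit 760) (nat_lit 0) (XT.lf (nat_lit 0) (nat_lit 219648486) (nat_lit 684) (nat_lit 58748993) (nat_lit 760) (nat_lit 7709503356) (nat_lit 351) (nat_lit 5) (nat_lit 360) (nat_lit 5) (nat_lit 361) (nat_lit 5) (nat_lit 573) (nat_lit 511) (nat_lit 476)) (XT.nd (nat_lit 78) (nat_lit 760) (nat_lit 0) (XT.lf (nat_lit 0) (nat_lit 3284432916) (nat_lit 760) (nat_lit 2034649127) (nat_lit 76) (nat_lit 2732218083) (nat_lit 351) (nat_lit 5) (nat_lit 361) (nat_lit 5) (nat_lit 352) (nat_lit 5) (nat_lit 574) (nat_lit 511) (nat_lit 475)) (XT.lf (nat_lit 0) (nat_lit 3806445781) (nat_lit 760) (nat_lit 2521645272) (nat_lit 836) (nat_lit 1788329129) (nat_lit 341) (nat_lit 5) (nat_lit 351) (nat_lit 5) (nat_lit 352) (nat_lit 5) (nat_lit 575) (nat_lit 511) (nat_lit 474)))) (XT.nd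 (nat_lit 156) (nat_lit 1368) (nat_lit 0) (XT.nd (nat_lit 78) (nat_lit 0) (nat_lit 0) (XT.lf (nat_lit 0) (nat_lit 1212247527) (nat_lit 760) (nat_lit 6620737767) (nat_lit 76) (nat_lit 350120585) (nat_lit 331) (nat_lit 5) (nat_lit 341) (nat_lit 5) (nat_lit 332) (nat_lit 5) (nat_lit 576) (nat_lit 511) (nat_lit 473)) (XT.lf (nat_lit 0) (nat_lit 4247875268) (nat_lit 760) (nat_lit 726173174) (nat_lit 76) (nat_lit 3276863382) (nat_lit 331) (nat_lit 5) (nat_lit 341) (nat_lit 5) (nat_lit 332) (nat_lit 5) (nat_lit 577) (nat_lit 511) (nat_lit 472))) (XT.nd (nat_lit 78) (nat_lit 684) (nat_lit 0) (XT.lf (nat_lit 0) (nat_lit 5299440506) (nat_lit 684) (nat_lit 2033250699) (nat_lit 760) (nat_lit 987615772) (nat_lit 322) (nat_lit 5) (nat_lit 331) (nat_lit 5) (nat_lit 332) (nat_lit 5) (nat_lit 578) (nat_lit 511) (nat_lit 471)) (XT.lf (nat_lit 0) (nat_lit 2046090214) (nat_lit 684) (nat_lit 5363664419) (nat_lit 76) (nat_lit 981359499) (nat_lit 313) (nat_lit 5) (nat_lit 322) (nat_lit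 5) (nat_lit 314) (nat_lit 5) (nat_lit 579) (nat_lit 511) (nat_lit 470))))) (XT.nd (nat_lit 312) (nat_lit 1900) (nat_lit 0) (XT.nd (nat_lit 156) (nat_lit 1292) (nat_lit 0) (XT.nd (nat_lit 78) (nat_lit 0) (nat_lit 0) (XT.lf (nat_lit 0) (nat_lit 706832883) (nat_lit 684) (nat_lit 4413647509) (nat_lit 760) (nat_lit 3342864243) (nat_lit 304) (nat_lit 5) (nat_lit 313) (nat_lit 5) (nat_lit 314) (nat_lit 5) (nat_lit 580) (nat_lit 511) (nat_lit 469)) (XT.lf (nat_lit 0) (nat_lit 6914775083) (nat_lit 684) (nat_lit 1332856952) (nat_lit 760) (nat_lit 289564645) (nat_lit 304) (nat_lit 5) (nat_lit 313) (nat_lit 5) (nat_lit 314) (nat_lit 5) (nat_lit 581) (nat_lit 511) (nat_lit 468))) (XT.nd (nat_lit 78) (nat_lit 608) (nat_lit 0) (XT.lf (nat_lit 0) (nat_lit 2785608012) (nat_lit 684) (nat_lit 4003975461) (nat_lit 76) (nat_lit 1822620698) (nat_lit 295) (nat_lit 5) (nat_lit 304) (nat_lit 5) (nat_lit 296) (nat_lit 5) (nat_lit 582) (nat_lit 511) (nat_lit 467)) (XT.lf (nat_lit 0)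 (nat_lit 2259228666) (nat_lit 608) (nat_lit 3649925691) (nat_lit 684) (nat_lit 2779706490) (nat_lit 287) (nat_lit 5) (nat_lit 295) (nat_lit 5) (nat_lit 296) (nat_lit 5) (nat_lit 583) (nat_lit 511) (nat_lit 466)))) (XT.nd (nat_lit 156) (nat_lit 1216) (nat_lit 0) (XT.nd (nat_lit 78) (nat_lit 608) (nat_lit 0) (XT.lf (nat_lit 0) (nat_lit 307357284) (nat_lit 684) (nat_lit 123633160) (nat_lit 76) (nat_lit 8336348989) (nat_lit 286) (nat_lit 5) (nat_lit 295) (nat_lit 5) (nat_lit 287) (nat_lit 5) (nat_lit 584) (nat_lit 511) (nat_lit 465)) (XT.lf (nat_lit 0) (nat_lit 3436166937) (nat_lit 684) (nat_lit 2548623322) (nat_lit 76) (nat_lit 2861887493) (nat_lit 278) (nat_lit 5) (nat_lit 287) (nat_lit 5) (nat_lit 279) (nat_lit 5) (nat_lit 585) (nat_lit 511) (nat_lit 464))) (XT.nd (nat_lit 78) (nat_lit 608) (nat_lit 0) (XT.lf (nat_lit 0) (nat_lit 3914683322) (nat_lit 608) (nat_lit 2699713652) (nat_lit 684) (nat_lit 2313471073) (nat_lit 270) (nat_lit 5) (nat_lit 278) (nat_lit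 5) (nat_lit 279) (nat_lit 5) (nat_lit 586) (nat_lit 511) (nat_lit 463)) (XT.lf (nat_lit 0) (nat_lit 823580554) (nat_lit 608) (nat_lit 7526093389) (nat_lit 76) (nat_lit 661117223) (nat_lit 262) (nat_lit 5) (nat_lit 270) (nat_lit 5) (nat_lit 263) (nat_lit 5) (nat_lit 587) (nat_lit 511) (nat_lit 462))))))) (XT.nd (nat_lit 1170) (nat_lit 4028) (nat_lit 0) (XT.nd (nat_lit 546) (nat_lit 2888) (nat_lit 0) (XT.nd (nat_lit 234) (nat_lit 1596) (nat_lit 0) (XT.nd (nat_lit 78) (nat_lit 1140) (nat_lit 0) (XT.lf (nat_lit 0) (nat_lit 4002463363) (nat_lit 608) (nat_lit 1004257490) (nat_lit 76) (nat_lit 4088146676) (nat_lit 262) (nat_lit 5) (nat_lit 270) (nat_lit 5) (nat_lit 263) (nat_lit 5) (nat_lit 588) (nat_lit 511) (nat_lit 461)) (XT.nd (nat_lit 78) (nat_lit 608) (nat_lit 0) (XT.lf (nat_lit 0) (nat_lit 5666818980) (nat_lit 532) (nat_lit 1574011097) (nat_lit 608) (nat_lit 1939879151) (nat_lit 255) (nat_lit 5) (nat_lit 262) (nat_lit 5) (nat_lit 263) (nat_lit 5) (nat_lit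 589) (nat_lit 511) (nat_lit 460)) (XT.lf (nat_lit 0) (nat_lit 1258431968) (nat_lit 608) (nat_lit 6086347990) (nat_lit 76) (nat_lit 1923334677) (nat_lit 247) (nat_lit 5) (nat_lit 255) (nat_lit 5) (nat_lit 248) (nat_lit 5) (nat_lit 590) (nat_lit 511) (nat_lit 459)))) (XT.nd (nat_lit 156) (nat_lit 1064) (nat_lit 0) (XT.nd (nat_lit 78) (nat_lit 0) (nat_lit 0) (XT.lf (nat_lit 0) (nat_lit 630982036) (nat_lit 532) (nat_lit 3861662170) (nat_lit 608) (nat_lit 4864411117) (nat_lit 240) (nat_lit 5) (nat_lit 247) (nat_lit 5) (nat_lit 248) (nat_lit 5) (nat_lit 591) (nat_lit 511) (nat_lit 458)) (XT.lf (nat_lit 0) (nat_lit 7509491098) (nat_lit 532) (nat_lit 282951055) (nat_lit 608) (nat_lit 1655316429) (nat_lit 240) (nat_lit 5) (nat_lit 247) (nat_lit 5) (nat_lit 248) (nat_lit 5) (nat_lit 592) (nat_lit 511) (nat_lit 457))) (XT.nd (nat_lit 78) (nat_lit 532) (nat_lit 0) (XT.lf (nat_lit 0) (nat_lit 1611732688) (nat_lit 532) (nat_lit 4577187659) (nat_lit 76) (nat_lit 3350847332)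 (nat_lit 233) (nat_lit 5) (nat_lit 240) (nat_lit 5) (nat_lit 234) (nat_lit 5) (nat_lit 593) (nat_lit 511) (nat_lit 456)) (XT.lf (nat_lit 0) (nat_lit 2356929967) (nat_lit 532) (nat_lit 2556214674) (nat_lit 608) (nat_lit 4720431438) (nat_lit 226) (nat_lit 5) (nat_lit 233) (nat_lit 5) (nat_lit 234) (nat_lit 5) (nat_lit 594) (nat_lit 511) (nat_lit 455))))) (XT.nd (nat_lit 312) (nat_lit 1444) (nat_lit 0) (XT.nd (nat_lit 156) (nat_lit 912) (nat_lit 0) (XT.nd (nat_lit 78) (nat_lit 532) (nat_lit 0) (XT.lf (nat_lit 0) (nat_lit 8280163932) (nat_lit 608) (nat_lit 300261162) (nat_lit 76) (nat_lit 1148845620) (nat_lit 226) (nat_lit 5) (nat_lit 234) (nat_lit 5) (nat_lit 227) (nat_lit 5) (nat_lit 595) (nat_lit 511) (nat_lit 454)) (XT.lf (nat_lit 0) (nat_lit 1886297719) (nat_lit 532) (nat_lit 3005109912) (nat_lit 76) (nat_lit 4934759879) (nat_lit 219) (nat_lit 5) (nat_lit 226) (nat_lit 5) (nat_lit 220) (nat_lit 5) (nat_lit 596) (nat_lit 511) (nat_lit 453))) (XT.nd (nat_lit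 78) (nat_lit 456) (nat_lit 0) (XT.lf (nat_lit 0) (nat_lit 4154002889) (nat_lit 456) (nat_lit 1106123572) (nat_lit 532) (nat_lit 4664863370) (nat_lit 213) (nat_lit 5) (nat_lit 219) (nat_lit 5) (nat_lit 220) (nat_lit 5) (nat_lit 597) (nat_lit 511) (nat_lit 452)) (XT.lf (nat_lit 0) (nat_lit 1417154050) (nat_lit 456) (nat_lit 7294047395) (nat_lit 532) (nat_lit 1314393285) (nat_lit 207) (nat_lit 5) (nat_lit 213) (nat_lit 5) (nat_lit 214) (nat_lit 5) (nat_lit 598) (nat_lit 511) (nat_lit 451)))) (XT.nd (nat_lit 156) (nat_lit 912) (nat_lit 0) (XT.nd (nat_lit 78) (nat_lit 456) (nat_lit 0) (XT.lf (nat_lit 0) (nat_lit 2084329116) (nat_lit 532) (nat_lit 1376585799) (nat_lit 76) (nat_lit 6666848680) (nat_lit 206) (nat_lit 5) (nat_lit 213) (nat_lit 5) (nat_lit 207) (nat_lit 5) (nat_lit 599) (nat_lit 511) (nat_lit 450)) (XT.lf (nat_lit 0) (nat_lit 5538872543) (nat_lit 532) (nat_lit 4218887583) (nat_lit 76) (nat_lit 473934460) (nat_lit 200) (nat_lit 5) (nat_lit 207) (nat_lit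 5) (nat_lit 201) (nat_lit 5) (nat_lit 600) (nat_lit 511) (nat_lit 449))) (XT.nd (nat_lit 78) (nat_lit 532) (nat_lit 0) (XT.lf (nat_lit 0) (nat_lit 3195683979) (nat_lit 380) (nat_lit 5883300847) (nat_lit 456) (nat_lit 1258391219) (nat_lit 195) (nat_lit 5) (nat_lit 200) (nat_lit 5) (nat_lit 201) (nat_lit 5) (nat_lit 601) (nat_lit 511) (nat_lit 448)) (XT.lf (nat_lit 0) (nat_lit 305878135) (nat_lit 456) (nat_lit 1903529371) (nat_lit 532) (nat_lit 8235591110) (nat_lit 188) (nat_lit 5) (nat_lit 194) (nat_lit 5) (nat_lit 195) (nat_lit 5) (nat_lit 602) (nat_lit 511) (nat_lit 447)))))) (XT.nd (nat_lit 546) (nat_lit 1976) (nat_lit 0) (XT.nd (nat_lit 234) (nat_lit 1216) (nat_lit 0) (XT.nd (nat_lit 78) (nat_lit 836) (nat_lit 0) (XT.lf (nat_lit 0) (nat_lit 5755845744) (nat_lit 532) (nat_lit 2632003122) (nat_lit 76) (nat_lit 2166237074) (nat_lit 188) (nat_lit 5) (nat_lit 195) (nat_lit 5) (nat_lit 189) (nat_lit 5) (nat_lit 603) (nat_lit 511) (nat_lit 446)) (XT.nd (nat_lit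 78) (nat_lit 456) (nat_lit 0) (XT.lf (nat_lit 0) (nat_lit 5024879089) (nat_lit 380) (nat_lit 4358151544) (nat_lit 456) (nat_lit 1282129321) (nat_lit 183) (nat_lit 5) (nat_lit 188) (nat_lit 5) (nat_lit 189) (nat_lit 5) (nat_lit 604) (nat_lit 511) (nat_lit 445)) (XT.lf (nat_lit 0) (nat_lit 2050498082) (nat_lit 380) (nat_lit 219378209) (nat_lit 456) (nat_lit 8508365309) (nat_lit 177) (nat_lit 5) (nat_lit 182) (nat_lit 5) (nat_lit 183) (nat_lit 5) (nat_lit 605) (nat_lit 511) (nat_lit 444)))) (XT.nd (nat_lit 156) (nat_lit 836) (nat_lit 0) (XT.nd (nat_lit 78) (nat_lit 380) (nat_lit 0) (XT.lf (nat_lit 0) (nat_lit 5904781770) (nat_lit 456) (nat_lit 1010023283) (nat_lit 76) (nat_lit 3978031005) (nat_lit 177) (nat_lit 5) (nat_lit 183) (nat_lit 5) (nat_lit 178) (nat_lit 5) (nat_lit 606) (nat_lit 511) (nat_lit 443)) (XT.lf (nat_lit 0) (nat_lit 6898110476) (nat_lit 380) (nat_lit 2726129298) (nat_lit 456) (nat_lit 1385246747) (nat_lit 172) (nat_lit 5) (nat_lit 177) (nat_lit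 5) (nat_lit 178) (nat_lit 5) (nat_lit 607) (nat_lit 511) (nat_lit 442))) (XT.nd (nat_lit 78) (nat_lit 380) (nat_lit 0) (XT.lf (nat_lit 0) (nat_lit 2267237658) (nat_lit 456) (nat_lit 7306406874) (nat_lit 76) (nat_lit 1554376312) (nat_lit 166) (nat_lit 5) (nat_lit 172) (nat_lit 5) (nat_lit 167) (nat_lit 5) (nat_lit 608) (nat_lit 511) (nat_lit 441)) (XT.lf (nat_lit 0) (nat_lit 648439070) (nat_lit 380) (nat_lit 5341766173) (nat_lit 456) (nat_lit 5258218977) (nat_lit 161) (nat_lit 5) (nat_lit 166) (nat_lit 5) (nat_lit 167) (nat_lit 5) (nat_lit 609) (nat_lit 511) (nat_lit 440))))) (XT.nd (nat_lit 312) (nat_lit 1216) (nat_lit 0) (XT.nd (nat_lit 156) (nat_lit 304) (nat_lit 0) (XT.nd (nat_lit 78) (nat_lit 456) (nat_lit 0) (XT.lf (nat_lit 0) (nat_lit 8808497235) (nat_lit 380) (nat_lit 994417689) (nat_lit 456) (nat_lit 1568016194) (nat_lit 161) (nat_lit 5) (nat_lit 166) (nat_lit 5) (nat_lit 167) (nat_lit 5) (nat_lit 610) (nat_lit 511) (nat_lit 439)) (XT.lf (nat_lit 0)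 (nat_lit 2193071777) (nat_lit 456) (nat_lit 5874792421) (nat_lit 76) (nat_lit 3427222229) (nat_lit 155) (nat_lit 5) (nat_lit 161) (nat_lit 5) (nat_lit 156) (nat_lit 5) (nat_lit 611) (nat_lit 511) (nat_lit 438))) (XT.nd (nat_lit 78) (nat_lit 0) (nat_lit 0) (XT.lf (nat_lit 0) (nat_lit 2341126510) (nat_lit 304) (nat_lit 3673260350) (nat_lit 380) (nat_lit 5607011714) (nat_lit 151) (nat_lit 5) (nat_lit 155) (nat_lit 5) (nat_lit 156) (nat_lit 5) (nat_lit 612) (nat_lit 511) (nat_lit 437)) (XT.lf (nat_lit 0) (nat_lit 9924137688) (nat_lit 380) (nat_lit 1006675363) (nat_lit 76) (nat_lit 819184752) (nat_lit 151) (nat_lit 5) (nat_lit 156) (nat_lit 5) (nat_lit 152) (nat_lit 5) (nat_lit 613) (nat_lit 511) (nat_lit 436)))) (XT.nd (nat_lit 156) (nat_lit 456) (nat_lit 0) (XT.nd (nat_lit 78) (nat_lit 304) (nat_lit 0) (XT.lf (nat_lit 0) (nat_lit 2044986043) (nat_lit 456) (nat_lit 4439661798) (nat_lit 76) (nat_lit 5395444294) (nat_lit 145) (nat_lit 5) (nat_lit 151) (nat_lit 5)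 (nat_lit 146) (nat_lit 5) (nat_lit 614) (nat_lit 511) (nat_lit 435)) (XT.lf (nat_lit 0) (nat_lit 4046641361) (nat_lit 304) (nat_lit 1923059774) (nat_lit 380) (nat_lit 6042828801) (nat_lit 141) (nat_lit 5) (nat_lit 145) (nat_lit 5) (nat_lit 146) (nat_lit 5) (nat_lit 615) (nat_lit 511) (nat_lit 434))) (XT.nd (nat_lit 78) (nat_lit 76) (nat_lit 0) (XT.lf (nat_lit 0) (nat_lit 553228924) (nat_lit 380) (nat_lit 9438961241) (nat_lit 456) (nat_lit 2155041684) (nat_lit 136) (nat_lit 5) (nat_lit 141) (nat_lit 5) (nat_lit 142) (nat_lit 5) (nat_lit 616) (nat_lit 511) (nat_lit 433)) (XT.lf (nat_lit 0) (nat_lit 1821357352) (nat_lit 456) (nat_lit 3009715200) (nat_lit 76) (nat_lit 7452629035) (nat_lit 135) (nat_lit 5) (nat_lit 141) (nat_lit 5) (nat_lit 136) (nat_lit 5) (nat_lit 617) (nat_lit 511) (nat_lit 432))))))))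
noncomputable def xc55 : XT := (XT.nd (nat_lit 2262) (nat_lit 456) (nat_lit 0) (XT.nd (nat_lit 1092) (nat_lit 2584) (nat_lit 0) (XT.nd (nat_lit 546) (nat_lit 1520) (nat_lit 0) (XT.nd (nat_lit 234) (nat_lit 912) (nat_lit 0) (XT.nd (nat_lit 78) (nat_lit 380) (nat_lit 0) (XT.lf (nat_lit 0) (nat_lit 5756483287) (nat_lit 304) (nat_lit 98029720) (nat_lit 380) (nat_lit 6567982019) (nat_lit 131) (nat_lit 5) (nat_lit 135) (nat_lit 5) (nat_lit 136) (nat_lit 5) (nat_lit 618) (nat_lit 511) (nat_lit 431)) (XT.nd (nat_lit 78) (nat_lit 76) (nat_lit 0) (XT.lf (nat_lit 0) (nat_lit 2120958622) (nat_lit 304) (nat_lit 7881022935) (nat_lit 380) (nat_lit 2561410653) (nat_lit 127) (nat_lit 5) (nat_lit 131) (nat_lit 5) (nat_lit 132) (nat_lit 5) (nat_lit 619) (nat_lit 511) (nat_lit 430)) (XT.lf (nat_lit 0) (nat_lit 1519881614) (nat_lit 380) (nat_lit 1594269796) (nat_lit 76) (nat_lit 9592466831) (nat_lit 126) (nat_lit 5) (nat_lit 131) (nat_lit 5) (nat_lit 127) (nat_lit 5) (nat_lit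 620) (nat_lit 511) (nat_lit 429)))) (XT.nd (nat_lit 156) (nat_lit 304) (nat_lit 0) (XT.nd (nat_lit 78) (nat_lit 304) (nat_lit 0) (XT.lf (nat_lit 0) (nat_lit 5678159638) (nat_lit 380) (nat_lit 5402143641) (nat_lit 76) (nat_lit 1771474573) (nat_lit 122) (nat_lit 5) (nat_lit 127) (nat_lit 5) (nat_lit 123) (nat_lit 5) (nat_lit 621) (nat_lit 511) (nat_lit 428)) (XT.lf (nat_lit 0) (nat_lit 3673506488) (nat_lit 304) (nat_lit 6271011525) (nat_lit 380) (nat_lit 3054825157) (nat_lit 118) (nat_lit 5) (nat_lit 122) (nat_lit 5) (nat_lit 123) (nat_lit 5) (nat_lit 622) (nat_lit 511) (nat_lit 427))) (XT.nd (nat_lit 78) (nat_lit 228) (nat_lit 0) (XT.lf (nat_lit 0) (nat_lit 1137541646) (nat_lit 380) (nat_lit 203370233) (nat_lit 76) (nat_lit 11808675189) (nat_lit 117) (nat_lit 5) (nat_lit 122) (nat_lit 5) (nat_lit 118) (nat_lit 5) (nat_lit 623) (nat_lit 511) (nat_lit 426)) (XT.lf (nat_lit 0) (nat_lit 5426986951) (nat_lit 304) (nat_lit 4174296397) (nat_lit 76) (nat_lit 3700066705)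 (nat_lit 114) (nat_lit 5) (nat_lit 118) (nat_lit 5) (nat_lit 115) (nat_lit 5) (nat_lit 624) (nat_lit 511) (nat_lit 425))))) (XT.nd (nat_lit 234) (nat_lit 912) (nat_lit 0) (XT.nd (nat_lit 78) (nat_lit 304) (nat_lit 0) (XT.lf (nat_lit 0) (nat_lit 5200441483) (nat_lit 304) (nat_lit 4616267311) (nat_lit 380) (nat_lit 3639150498) (nat_lit 110) (nat_lit 5) (nat_lit 114) (nat_lit 5) (nat_lit 115) (nat_lit 5) (nat_lit 625) (nat_lit 511) (nat_lit 424)) (XT.nd (nat_lit 78) (nat_lit 0) (nat_lit 0) (XT.lf (nat_lit 0) (nat_lit 681324855) (nat_lit 304) (nat_lit 12449018641) (nat_lit 76) (nat_lit 482837801) (nat_lit 106) (nat_lit 5) (nat_lit 110) (nat_lit 5) (nat_lit 107) (nat_lit 5) (nat_lit 626) (nat_lit 511) (nat_lit 423)) (XT.lf (nat_lit 0) (nat_lit 5096523728) (nat_lit 304) (nat_lit 2993330469) (nat_lit 76) (nat_lit 5682174310) (nat_lit 106) (nat_lit 5) (nat_lit 110) (nat_lit 5) (nat_lit 107) (nat_lit 5) (nat_lit 627) (nat_lit 511) (nat_lit 422)))) (XT.nd (nat_lit 156)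 (nat_lit 304) (nat_lit 0) (XT.nd (nat_lit 78) (nat_lit 304) (nat_lit 0) (XT.lf (nat_lit 0) (nat_lit 6690404316) (nat_lit 304) (nat_lit 2924296398) (nat_lit 380) (nat_lit 4319059155) (nat_lit 102) (nat_lit 5) (nat_lit 106) (nat_lit 5) (nat_lit 107) (nat_lit 5) (nat_lit 628) (nat_lit 511) (nat_lit 421)) (XT.lf (nat_lit 0) (nat_lit 145921311) (nat_lit 304) (nat_lit 11620949339) (nat_lit 76) (nat_lit 2331378924) (nat_lit 98) (nat_lit 5) (nat_lit 102) (nat_lit 5) (nat_lit 99) (nat_lit 5) (nat_lit 629) (nat_lit 511) (nat_lit 420))) (XT.nd (nat_lit 78) (nat_lit 304) (nat_lit 0) (XT.lf (nat_lit 0) (nat_lit 4682130454) (nat_lit 304) (nat_lit 1871785133) (nat_lit 76) (nat_lit 7710747932) (nat_lit 98) (nat_lit 5) (nat_lit 102) (nat_lit 5) (nat_lit 99) (nat_lit 5) (nat_lit 630) (nat_lit 511) (nat_lit 419)) (XT.lf (nat_lit 0) (nat_lit 8130970333) (nat_lit 304) (nat_lit 1202858022) (nat_lit 380) (nat_lit 5100082734) (nat_lit 94) (nat_lit 5) (nat_lit 98) (nat_lit 5) (nat_lit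 99) (nat_lit 5) (nat_lit 631) (nat_lit 511) (nat_lit 418)))))) (XT.nd (nat_lit 546) (nat_lit 1292) (nat_lit 0) (XT.nd (nat_lit 234) (nat_lit 760) (nat_lit 0) (XT.nd (nat_lit 78) (nat_lit 304) (nat_lit 0) (XT.lf (nat_lit 0) (nat_lit 3725873500) (nat_lit 228) (nat_lit 10389232409) (nat_lit 304) (nat_lit 490707413) (nat_lit 91) (nat_lit 5) (nat_lit 94) (nat_lit 5) (nat_lit 95) (nat_lit 5) (nat_lit 632) (nat_lit 511) (nat_lit 417)) (XT.nd (nat_lit 78) (nat_lit 228) (nat_lit 0) (XT.lf (nat_lit 0) (nat_lit 4178307637) (nat_lit 304) (nat_lit 823387663) (nat_lit 76) (nat_lit 9778458541) (nat_lit 90) (nat_lit 5) (nat_lit 94) (nat_lit 5) (nat_lit 91) (nat_lit 5) (nat_lit 633) (nat_lit 511) (nat_lit 416)) (XT.lf (nat_lit 0) (nat_lit 8972062316) (nat_lit 304) (nat_lit 5452233863) (nat_lit 76) (nat_lit 532862111) (nat_lit 87) (nat_lit 5) (nat_lit 91) (nat_lit 5) (nat_lit 88) (nat_lit 5) (nat_lit 634) (nat_lit 511) (nat_lit 415)))) (XT.nd (nat_lit 156) (nat_lit 228) (nat_lit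 0) (XT.nd (nat_lit 78) (nat_lit 304) (nat_lit 0) (XT.lf (nat_lit 0) (nat_lit 4897083564) (nat_lit 228) (nat_lit 9007873962) (nat_lit 304) (nat_lit 1231880572) (nat_lit 84) (nat_lit 5) (nat_lit 87) (nat_lit 5) (nat_lit 88) (nat_lit 5) (nat_lit 635) (nat_lit 511) (nat_lit 414)) (XT.lf (nat_lit 0) (nat_lit 138605641) (nat_lit 228) (nat_lit 3440926832) (nat_lit 304) (nat_lit 11739898721) (nat_lit 80) (nat_lit 5) (nat_lit 83) (nat_lit 5) (nat_lit 84) (nat_lit 5) (nat_lit 636) (nat_lit 511) (nat_lit 413))) (XT.nd (nat_lit 78) (nat_lit 228) (nat_lit 0) (XT.lf (nat_lit 0) (nat_lit 8527319505) (nat_lit 304) (nat_lit 4711606424) (nat_lit 76) (nat_lit 2265455102) (nat_lit 80) (nat_lit 5) (nat_lit 84) (nat_lit 5) (nat_lit 81) (nat_lit 5) (nat_lit 637) (nat_lit 511) (nat_lit 412)) (XT.lf (nat_lit 0) (nat_lit 5976016900) (nat_lit 228) (nat_lit 7633093591) (nat_lit 304) (nat_lit 2083218942) (nat_lit 77) (nat_lit 5) (nat_lit 80) (nat_lit 5) (nat_lit 81) (nat_lit 5) (nat_lit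 638) (nat_lit 511) (nat_lit 411))))) (XT.nd (nat_lit 312) (nat_lit 456) (nat_lit 0) (XT.nd (nat_lit 156) (nat_lit 532) (nat_lit 0) (XT.nd (nat_lit 78) (nat_lit 0) (nat_lit 0) (XT.lf (nat_lit 0) (nat_lit 1005331741) (nat_lit 228) (nat_lit 1876882824) (nat_lit 304) (nat_lit 13001207883) (nat_lit 73) (nat_lit 5) (nat_lit 76) (nat_lit 5) (nat_lit 77) (nat_lit 5) (nat_lit 639) (nat_lit 511) (nat_lit 410)) (XT.lf (nat_lit 0) (nat_lit 7984250836) (nat_lit 304) (nat_lit 4090784430) (nat_lit 76) (nat_lit 4001723389) (nat_lit 73) (nat_lit 5) (nat_lit 77) (nat_lit 5) (nat_lit 74) (nat_lit 5) (nat_lit 640) (nat_lit 511) (nat_lit 409))) (XT.nd (nat_lit 78) (nat_lit 304) (nat_lit 0) (XT.lf (nat_lit 0) (nat_lit 6945136140) (nat_lit 228) (nat_lit 6274825886) (nat_lit 304) (nat_lit 3053367370) (nat_lit 70) (nat_lit 5) (nat_lit 73) (nat_lit 5) (nat_lit 74) (nat_lit 5) (nat_lit 641) (nat_lit 511) (nat_lit 408)) (XT.lf (nat_lit 0) (nat_lit 1747299735) (nat_lit 228) (nat_lit 325022170)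 (nat_lit 304) (nat_lit 14400976545) (nat_lit 66) (nat_lit 5) (nat_lit 69) (nat_lit 5) (nat_lit 70) (nat_lit 5) (nat_lit 642) (nat_lit 511) (nat_lit 407)))) (XT.nd (nat_lit 156) (nat_lit 304) (nat_lit 0) (XT.nd (nat_lit 78) (nat_lit 152) (nat_lit 0) (XT.lf (nat_lit 0) (nat_lit 7334218483) (nat_lit 304) (nat_lit 3609108217) (nat_lit 76) (nat_lit 5732045432) (nat_lit 66) (nat_lit 5) (nat_lit 70) (nat_lit 5) (nat_lit 67) (nat_lit 5) (nat_lit 643) (nat_lit 511) (nat_lit 406)) (XT.lf (nat_lit 0) (nat_lit 7785056278) (nat_lit 152) (nat_lit 4943735944) (nat_lit 228) (nat_lit 4152146736) (nat_lit 64) (nat_lit 5) (nat_lit 66) (nat_lit 5) (nat_lit 67) (nat_lit 5) (nat_lit 644) (nat_lit 511) (nat_lit 405))) (XT.nd (nat_lit 78) (nat_lit 0) (nat_lit 0) (XT.lf (nat_lit 0) (nat_lit 1147875414) (nat_lit 304) (nat_lit 14753982254) (nat_lit 76) (nat_lit 1188167879) (nat_lit 60) (nat_lit 5) (nat_lit 64) (nat_lit 5) (nat_lit 61) (nat_lit 5) (nat_lit 645) (nat_lit 511) (nat_lit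 404)) (XT.lf (nat_lit 0) (nat_lit 6567390445) (nat_lit 304) (nat_lit 3287939505) (nat_lit 76) (nat_lit 7446033640) (nat_lit 60) (nat_lit 5) (nat_lit 64) (nat_lit 5) (nat_lit 61) (nat_lit 5) (nat_lit 646) (nat_lit 511) (nat_lit 403))))))) (XT.nd (nat_lit 73554) (nat_lit 0) (nat_lit 29336) (XT.nd (nat_lit 72930) (nat_lit 0) (nat_lit 44232) (XT.nd (nat_lit 72618) (nat_lit 0) (nat_lit 49856) (XT.nd (nat_lit 78) (nat_lit 304) (nat_lit 0) (XT.lf (nat_lit 0) (nat_lit 8474321833) (nat_lit 152) (nat_lit 3651343245) (nat_lit 228) (nat_lit 5390656349) (nat_lit 58) (nat_lit 5) (nat_lit 60) (nat_lit 5) (nat_lit 61) (nat_lit 5) (nat_lit 647) (nat_lit 511) (nat_lit 402)) (XT.nd (nat_lit 72462) (nat_lit 0) (nat_lit 52288) (XT.lf (nat_lit 0) (nat_lit 91863213) (nat_lit 304) (nat_lit 14979966926) (nat_lit 76) (nat_lit 2663078616) (nat_lit 54) (nat_lit 5) (nat_lit 58) (nat_lit 5) (nat_lit 55) (nat_lit 5) (nat_lit 648) (nat_lit 511) (nat_lit 401)) (XT.lf (nat_lit 0) (nat_lit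 1450846309) (nat_lit 684) (nat_lit 380348614) (nat_lit 0) (nat_lit 1450846309) (nat_lit 742) (nat_lit 5) (nat_lit 751) (nat_lit 4) (nat_lit 742) (nat_lit 4) (nat_lit 536) (nat_lit 512) (nat_lit 512)))) (XT.nd (nat_lit 156) (nat_lit 912) (nat_lit 0) (XT.nd (nat_lit 78) (nat_lit 836) (nat_lit 0) (XT.lf (nat_lit 0) (nat_lit 3292522182) (nat_lit 684) (nat_lit 2881315997) (nat_lit 684) (nat_lit 406144609) (nat_lit 733) (nat_lit 4) (nat_lit 742) (nat_lit 5) (nat_lit 742) (nat_lit 4) (nat_lit 537) (nat_lit 512) (nat_lit 511)) (XT.lf (nat_lit 0) (nat_lit 778111591) (nat_lit 760) (nat_lit 2033730782) (nat_lit 836) (nat_lit 3785290918) (nat_lit 722) (nat_lit 5) (nat_lit 732) (nat_lit 5) (nat_lit 733) (nat_lit 4) (nat_lit 538) (nat_lit 512) (nat_lit 510))) (XT.nd (nat_lit 78) (nat_lit 912) (nat_lit 0) (XT.lf (nat_lit 0) (nat_lit 4913037932) (nat_lit 760) (nat_lit 1123548900) (nat_lit 836) (nat_lit 579037143) (nat_lit 722) (nat_lit 5) (nat_lit 732) (nat_lit 5) (nat_lit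 733) (nat_lit 4) (nat_lit 539) (nat_lit 512) (nat_lit 509)) (XT.lf (nat_lit 0) (nat_lit 2457210960) (nat_lit 836) (nat_lit 141541157) (nat_lit 912) (nat_lit 4036536009) (nat_lit 710) (nat_lit 5) (nat_lit 721) (nat_lit 5) (nat_lit 722) (nat_lit 5) (nat_lit 540) (nat_lit 512) (nat_lit 508))))) (XT.nd (nat_lit 312) (nat_lit 3572) (nat_lit 0) (XT.nd (nat_lit 156) (nat_lit 1064) (nat_lit 0) (XT.nd (nat_lit 78) (nat_lit 76) (nat_lit 0) (XT.lf (nat_lit 0) (nat_lit 3781721) (nat_lit 912) (nat_lit 5773644930) (nat_lit 988) (nat_lit 878947852) (nat_lit 698) (nat_lit 5) (nat_lit 710) (nat_lit 5) (nat_lit 711) (nat_lit 4) (nat_lit 541) (nat_lit 512) (nat_lit 507)) (XT.lf (nat_lit 0) (nat_lit 2268786000) (nat_lit 988) (nat_lit 2423270644) (nat_lit 76) (nat_lit 1986374602) (nat_lit 697) (nat_lit 5) (nat_lit 710) (nat_lit 5) (nat_lit 698) (nat_lit 5) (nat_lit 542) (nat_lit 512) (nat_lit 506))) (XT.nd (nat_lit 78) (nat_lit 76) (nat_lit 0) (XT.lf (nat_lit 0) (nat_lit 1854696670)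 (nat_lit 988) (nat_lit 3555009538) (nat_lit 1064) (nat_lit 1292273438) (nat_lit 684) (nat_lit 5) (nat_lit 697) (nat_lit 5) (nat_lit 698) (nat_lit 5) (nat_lit 543) (nat_lit 512) (nat_lit 505)) (XT.lf (nat_lit 0) (nat_lit 1809567331) (nat_lit 1064) (nat_lit 541981535) (nat_lit 76) (nat_lit 4375274016) (nat_lit 683) (nat_lit 5) (nat_lit 697) (nat_lit 5) (nat_lit 684) (nat_lit 5) (nat_lit 544) (nat_lit 512) (nat_lit 504)))) (XT.nd (nat_lit 156) (nat_lit 1292) (nat_lit 0) (XT.nd (nat_lit 78) (nat_lit 1216) (nat_lit 0) (XT.lf (nat_lit 0) (nat_lit 3837255987) (nat_lit 1064) (nat_lit 1075684794) (nat_lit 1140) (nat_lit 1839921720) (nat_lit 669) (nat_lit 5) (nat_lit 683) (nat_lit 5) (nat_lit 684) (nat_lit 5) (nat_lit 545) (nat_lit 512) (nat_lit 503)) (XT.lf (nat_lit 0) (nat_lit 1229350097) (nat_lit 1216) (nat_lit 5293386972) (nat_lit 76) (nat_lit 257574722) (nat_lit 653) (nat_lit 5) (nat_lit 669) (nat_lit 5) (nat_lit 654) (nat_lit 5) (nat_lit 546) (nat_lit 512) (nat_lit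 502))) (XT.nd (nat_lit 78) (nat_lit 1292) (nat_lit 0) (XT.lf (nat_lit 0) (nat_lit 4295673838) (nat_lit 1216) (nat_lit 865877062) (nat_lit 76) (nat_lit 1647315849) (nat_lit 653) (nat_lit 5) (nat_lit 669) (nat_lit 5) (nat_lit 654) (nat_lit 5) (nat_lit 547) (nat_lit 512) (nat_lit 501)) (XT.lf (nat_lit 0) (nat_lit 535795585) (nat_lit 1292) (nat_lit 3198846355) (nat_lit 76) (nat_lit 3104117783) (nat_lit 636) (nat_lit 5) (nat_lit 653) (nat_lit 5) (nat_lit 637) (nat_lit 5) (nat_lit 548) (nat_lit 512) (nat_lit 500)))))) (XT.nd (nat_lit 546) (nat_lit 7448) (nat_lit 0) (XT.nd (nat_lit 234) (nat_lit 4712) (nat_lit 0) (XT.nd (nat_lit 78) (nat_lit 1444) (nat_lit 0) (XT.lf (nat_lit 0) (nat_lit 1324139476) (nat_lit 1292) (nat_lit 2237712757) (nat_lit 1368) (nat_lit 3308076914) (nat_lit 619) (nat_lit 5) (nat_lit 636) (nat_lit 5) (nat_lit 637) (nat_lit 5) (nat_lit 549) (nat_lit 512) (nat_lit 499)) (XT.nd (nat_lit 78) (nat_lit 1444) (nat_lit 0) (XT.lf (nat_lit 0) (nat_lit 5926340697)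 (nat_lit 1292) (nat_lit 679732506) (nat_lit 1368) (nat_lit 296501419) (nat_lit 619) (nat_lit 5) (nat_lit 636) (nat_lit 5) (nat_lit 637) (nat_lit 5) (nat_lit 550) (nat_lit 512) (nat_lit 498)) (XT.lf (nat_lit 0) (nat_lit 2705918261) (nat_lit 1444) (nat_lit 3282217236) (nat_lit 76) (nat_lit 948042209) (nat_lit 600) (nat_lit 5) (nat_lit 619) (nat_lit 5) (nat_lit 601) (nat_lit 5) (nat_lit 551) (nat_lit 512) (nat_lit 497)))) (XT.nd (nat_lit 156) (nat_lit 3192) (nat_lit 0) (XT.nd (nat_lit 78) (nat_lit 76) (nat_lit 0) (XT.lf (nat_lit 0) (nat_lit 1375887163) (nat_lit 1444) (nat_lit 4346507711) (nat_lit 1520) (nat_lit 1248864414) (nat_lit 581) (nat_lit 5) (nat_lit 600) (nat_lit 5) (nat_lit 601) (nat_lit 5) (nat_lit 552) (nat_lit 512) (nat_lit 496)) (XT.lf (nat_lit 0) (nat_lit 1729220792) (nat_lit 1520) (nat_lit 902517885) (nat_lit 76) (nat_lit 4375864773) (nat_lit 580) (nat_lit 5) (nat_lit 600) (nat_lit 5) (nat_lit 581) (nat_lit 5) (nat_lit 553) (nat_lit 512) (nat_lit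 495))) (XT.nd (nat_lit 78) (nat_lit 1672) (nat_lit 0) (XT.lf (nat_lit 0) (nat_lit 3872019638) (nat_lit 1520) (nat_lit 842884540) (nat_lit 1596) (nat_lit 2330314950) (nat_lit 560) (nat_lit 5) (nat_lit 580) (nat_lit 5) (nat_lit 581) (nat_lit 5) (nat_lit 554) (nat_lit 512) (nat_lit 494)) (XT.lf (nat_lit 0) (nat_lit 631116682) (nat_lit 1672) (nat_lit 5458247050) (nat_lit 76) (nat_lit 994874671) (nat_lit 538) (nat_lit 5) (nat_lit 560) (nat_lit 5) (nat_lit 539) (nat_lit 5) (nat_lit 555) (nat_lit 512) (nat_lit 493))))) (XT.nd (nat_lit 312) (nat_lit 3952) (nat_lit 0) (XT.nd (nat_lit 156) (nat_lit 1824) (nat_lit 0) (XT.nd (nat_lit 78) (nat_lit 1672) (nat_lit 0) (XT.lf (nat_lit 0) (nat_lit 3588504440) (nat_lit 1672) (nat_lit 636568709) (nat_lit 76) (nat_lit 2899302863) (nat_lit 538) (nat_lit 5) (nat_lit 560) (nat_lit 5) (nat_lit 539) (nat_lit 5) (nat_lit 556) (nat_lit 512) (nat_lit 492)) (XT.lf (nat_lit 0) (nat_lit 4282830442) (nat_lit 1672) (nat_lit 2292059982) (nat_lit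 1748) (nat_lit 591033470) (nat_lit 516) (nat_lit 5) (nat_lit 538) (nat_lit 5) (nat_lit 539) (nat_lit 5) (nat_lit 557) (nat_lit 512) (nat_lit 491))) (XT.nd (nat_lit 78) (nat_lit 0) (nat_lit 0) (XT.lf (nat_lit 0) (nat_lit 2057023178) (nat_lit 1748) (nat_lit 284133648) (nat_lit 1824) (nat_lit 4867634999) (nat_lit 492) (nat_lit 5) (nat_lit 515) (nat_lit 5) (nat_lit 516) (nat_lit 5) (nat_lit 558) (nat_lit 512) (nat_lit 490)) (XT.lf (nat_lit 0) (nat_lit 5298239226) (nat_lit 1824) (nat_lit 188681253) (nat_lit 76) (nat_lit 1766039526) (nat_lit 492) (nat_lit 5) (nat_lit 516) (nat_lit 5) (nat_lit 493) (nat_lit 5) (nat_lit 559) (nat_lit 512) (nat_lit 489)))) (XT.nd (nat_lit 156) (nat_lit 988) (nat_lit 0) (XT.nd (nat_lit 78) (nat_lit 1064) (nat_lit 0) (XT.lf (nat_lit 0) (nat_lit 980881651) (nat_lit 1900) (nat_lit 2424091368) (nat_lit 76) (nat_lit 3893355427) (nat_lit 467) (nat_lit 5) (nat_lit 492) (nat_lit 5) (nat_lit 468) (nat_lit 5) (nat_lit 560) (nat_lit 512) (nat_lit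 488)) (XT.lf (nat_lit 0) (nat_lit 2663007915) (nat_lit 1064) (nat_lit 1249312589) (nat_lit 1140) (nat_lit 3432763402) (nat_lit 453) (nat_lit 5) (nat_lit 467) (nat_lit 5) (nat_lit 468) (nat_lit 5) (nat_lit 561) (nat_lit 512) (nat_lit 487))) (XT.nd (nat_lit 78) (nat_lit 76) (nat_lit 0) (XT.lf (nat_lit 0) (nat_lit 435615083) (nat_lit 912) (nat_lit 6437573911) (nat_lit 988) (nat_lit 520173408) (nat_lit 441) (nat_lit 5) (nat_lit 453) (nat_lit 5) (nat_lit 454) (nat_lit 5) (nat_lit 562) (nat_lit 512) (nat_lit 486)) (XT.lf (nat_lit 0) (nat_lit 2404209353) (nat_lit 988) (nat_lit 1803684790) (nat_lit 76) (nat_lit 3234684251) (nat_lit 440) (nat_lit 5) (nat_lit 453) (nat_lit 5) (nat_lit 441) (nat_lit 5) (nat_lit 563) (nat_lit 512) (nat_lit 485))))))))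
noncomputable def xc56 : XT := (XT.nd (nat_lit 2262) (nat_lit 8968) (nat_lit 0) (XT.nd (nat_lit 1092) (nat_lit 6916) (nat_lit 0) (XT.nd (nat_lit 546) (nat_lit 3800) (nat_lit 0) (XT.nd (nat_lit 234) (nat_lit 2660) (nat_lit 0) (XT.nd (nat_lit 78) (nat_lit 912) (nat_lit 0) (XT.lf (nat_lit 0) (nat_lit 3439793898) (nat_lit 912) (nat_lit 1909504864) (nat_lit 988) (nat_lit 2144031213) (nat_lit 428) (nat_lit 5) (nat_lit 440) (nat_lit 5) (nat_lit 441) (nat_lit 5) (nat_lit 564) (nat_lit 512) (nat_lit 484)) (XT.nd (nat_lit 78) (nat_lit 0) (nat_lit 0) (XT.lf (nat_lit 0) (nat_lit 767867945) (nat_lit 912) (nat_lit 6325850833) (nat_lit 76) (nat_lit 451870953) (nat_lit 416) (nat_lit 5) (nat_lit 428) (nat_lit 5) (nat_lit 417) (nat_lit 5) (nat_lit 565) (nat_lit 512) (nat_lit 483)) (XT.lf (nat_lit 0) (nat_lit 3697185112) (nat_lit 912) (nat_lit 1028284113) (nat_lit 76) (nat_lit 2873387747) (nat_lit 416) (nat_lit 5) (nat_lit 428) (nat_lit 5) (nat_lit 417) (nat_lit 5) (nat_lit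 566) (nat_lit 512) (nat_lit 482)))) (XT.nd (nat_lit 156) (nat_lit 912) (nat_lit 0) (XT.nd (nat_lit 78) (nat_lit 912) (nat_lit 0) (XT.lf (nat_lit 0) (nat_lit 4377414290) (nat_lit 836) (nat_lit 2284952799) (nat_lit 912) (nat_lit 991280335) (nat_lit 405) (nat_lit 5) (nat_lit 416) (nat_lit 5) (nat_lit 417) (nat_lit 5) (nat_lit 567) (nat_lit 512) (nat_lit 481)) (XT.lf (nat_lit 0) (nat_lit 1923014076) (nat_lit 912) (nat_lit 5555786724) (nat_lit 76) (nat_lit 231046865) (nat_lit 393) (nat_lit 5) (nat_lit 405) (nat_lit 5) (nat_lit 394) (nat_lit 5) (nat_lit 568) (nat_lit 512) (nat_lit 480))) (XT.nd (nat_lit 78) (nat_lit 912) (nat_lit 0) (XT.lf (nat_lit 0) (nat_lit 4869368852) (nat_lit 912) (nat_lit 107358679) (nat_lit 76) (nat_lit 2790575615) (nat_lit 393) (nat_lit 5) (nat_lit 405) (nat_lit 5) (nat_lit 394) (nat_lit 5) (nat_lit 569) (nat_lit 512) (nat_lit 479)) (XT.lf (nat_lit 0) (nat_lit 34260024) (nat_lit 912) (nat_lit 2359730862) (nat_lit 76) (nat_lit 5432190507)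 (nat_lit 381) (nat_lit 5) (nat_lit 393) (nat_lit 5) (nat_lit 382) (nat_lit 5) (nat_lit 570) (nat_lit 512) (nat_lit 478))))) (XT.nd (nat_lit 234) (nat_lit 2204) (nat_lit 0) (XT.nd (nat_lit 78) (nat_lit 836) (nat_lit 0) (XT.lf (nat_lit 0) (nat_lit 2960892024) (nat_lit 836) (nat_lit 4653339142) (nat_lit 76) (nat_lit 272134037) (nat_lit 371) (nat_lit 5) (nat_lit 382) (nat_lit 5) (nat_lit 372) (nat_lit 5) (nat_lit 571) (nat_lit 512) (nat_lit 477)) (XT.nd (nat_lit 78) (nat_lit 76) (nat_lit 0) (XT.lf (nat_lit 0) (nat_lit 962950664) (nat_lit 760) (nat_lit 4972754708) (nat_lit 836) (nat_lit 2012257335) (nat_lit 361) (nat_lit 5) (nat_lit 371) (nat_lit 5) (nat_lit 372) (nat_lit 5) (nat_lit 572) (nat_lit 512) (nat_lit 476)) (XT.lf (nat_lit 0) (nat_lit 929946898) (nat_lit 836) (nat_lit 1318141900) (nat_lit 76) (nat_lit 5762915589) (nat_lit 360) (nat_lit 5) (nat_lit 371) (nat_lit 5) (nat_lit 361) (nat_lit 5) (nat_lit 573) (nat_lit 512) (nat_lit 475)))) (XT.nd (nat_lit 156)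 (nat_lit 760) (nat_lit 0) (XT.nd (nat_lit 78) (nat_lit 760) (nat_lit 0) (XT.lf (nat_lit 0) (nat_lit 3889473398) (nat_lit 760) (nat_lit 3627037848) (nat_lit 76) (nat_lit 558824006) (nat_lit 351) (nat_lit 5) (nat_lit 361) (nat_lit 5) (nat_lit 352) (nat_lit 5) (nat_lit 574) (nat_lit 512) (nat_lit 474)) (XT.lf (nat_lit 0) (nat_lit 2165003756) (nat_lit 760) (nat_lit 4734367629) (nat_lit 836) (nat_lit 1241760491) (nat_lit 341) (nat_lit 5) (nat_lit 351) (nat_lit 5) (nat_lit 352) (nat_lit 5) (nat_lit 575) (nat_lit 512) (nat_lit 473))) (XT.nd (nat_lit 78) (nat_lit 684) (nat_lit 0) (XT.lf (nat_lit 0) (nat_lit 1716205352) (nat_lit 836) (nat_lit 153157464) (nat_lit 76) (nat_lit 6339093949) (nat_lit 340) (nat_lit 5) (nat_lit 351) (nat_lit 5) (nat_lit 341) (nat_lit 5) (nat_lit 576) (nat_lit 512) (nat_lit 472)) (XT.lf (nat_lit 0) (nat_lit 4715943127) (nat_lit 760) (nat_lit 2484855078) (nat_lit 76) (nat_lit 1076183593) (nat_lit 331) (nat_lit 5) (nat_lit 341) (nat_lit 5) (nat_lit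 332) (nat_lit 5) (nat_lit 577) (nat_lit 512) (nat_lit 471)))))) (XT.nd (nat_lit 546) (nat_lit 3496) (nat_lit 0) (XT.nd (nat_lit 234) (nat_lit 2052) (nat_lit 0) (XT.nd (nat_lit 78) (nat_lit 684) (nat_lit 0) (XT.lf (nat_lit 0) (nat_lit 3489676434) (nat_lit 684) (nat_lit 4277039760) (nat_lit 760) (nat_lit 580342878) (nat_lit 322) (nat_lit 5) (nat_lit 331) (nat_lit 5) (nat_lit 332) (nat_lit 5) (nat_lit 578) (nat_lit 512) (nat_lit 470)) (XT.nd (nat_lit 78) (nat_lit 0) (nat_lit 0) (XT.lf (nat_lit 0) (nat_lit 1142605423) (nat_lit 608) (nat_lit 1264500414) (nat_lit 684) (nat_lit 6011527034) (nat_lit 313) (nat_lit 5) (nat_lit 321) (nat_lit 5) (nat_lit 322) (nat_lit 5) (nat_lit 579) (nat_lit 512) (nat_lit 469)) (XT.lf (nat_lit 0) (nat_lit 5446740672) (nat_lit 684) (nat_lit 1234277383) (nat_lit 76) (nat_lit 1810541618) (nat_lit 313) (nat_lit 5) (nat_lit 322) (nat_lit 5) (nat_lit 314) (nat_lit 5) (nat_lit 580) (nat_lit 512) (nat_lit 468)))) (XT.nd (nat_lit 156) (nat_lit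 684) (nat_lit 0) (XT.nd (nat_lit 78) (nat_lit 684) (nat_lit 0) (XT.lf (nat_lit 0) (nat_lit 4929757100) (nat_lit 684) (nat_lit 3614310761) (nat_lit 760) (nat_lit 21941512) (nat_lit 304) (nat_lit 5) (nat_lit 313) (nat_lit 5) (nat_lit 314) (nat_lit 5) (nat_lit 581) (nat_lit 512) (nat_lit 467)) (XT.lf (nat_lit 0) (nat_lit 2550491893) (nat_lit 608) (nat_lit 452378115) (nat_lit 684) (nat_lit 5639050250) (nat_lit 295) (nat_lit 5) (nat_lit 303) (nat_lit 5) (nat_lit 304) (nat_lit 5) (nat_lit 582) (nat_lit 512) (nat_lit 466))) (XT.nd (nat_lit 78) (nat_lit 76) (nat_lit 0) (XT.lf (nat_lit 0) (nat_lit 119187509) (nat_lit 608) (nat_lit 5969182422) (nat_lit 684) (nat_lit 2630969031) (nat_lit 287) (nat_lit 5) (nat_lit 295) (nat_lit 5) (nat_lit 296) (nat_lit 5) (nat_lit 583) (nat_lit 512) (nat_lit 465)) (XT.lf (nat_lit 0) (nat_lit 433028201) (nat_lit 684) (nat_lit 2322677529) (nat_lit 76) (nat_lit 6042515877) (nat_lit 286) (nat_lit 5) (nat_lit 295) (nat_lit 5) (nat_lit 287)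 (nat_lit 5) (nat_lit 584) (nat_lit 512) (nat_lit 464))))) (XT.nd (nat_lit 312) (nat_lit 1672) (nat_lit 0) (XT.nd (nat_lit 156) (nat_lit 608) (nat_lit 0) (XT.nd (nat_lit 78) (nat_lit 608) (nat_lit 0) (XT.lf (nat_lit 0) (nat_lit 3511259316) (nat_lit 684) (nat_lit 4820628471) (nat_lit 76) (nat_lit 546684748) (nat_lit 278) (nat_lit 5) (nat_lit 287) (nat_lit 5) (nat_lit 279) (nat_lit 5) (nat_lit 585) (nat_lit 512) (nat_lit 463)) (XT.lf (nat_lit 0) (nat_lit 1584912498) (nat_lit 608) (nat_lit 5068938929) (nat_lit 684) (nat_lit 2306625177) (nat_lit 270) (nat_lit 5) (nat_lit 278) (nat_lit 5) (nat_lit 279) (nat_lit 5) (nat_lit 586) (nat_lit 512) (nat_lit 462))) (XT.nd (nat_lit 78) (nat_lit 532) (nat_lit 0) (XT.lf (nat_lit 0) (nat_lit 795898618) (nat_lit 684) (nat_lit 920123515) (nat_lit 76) (nat_lit 7328066439) (nat_lit 269) (nat_lit 5) (nat_lit 278) (nat_lit 5) (nat_lit 270) (nat_lit 5) (nat_lit 587) (nat_lit 512) (nat_lit 461)) (XT.lf (nat_lit 0) (nat_lit 3937305499)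 (nat_lit 608) (nat_lit 3471027481) (nat_lit 76) (nat_lit 1720582431) (nat_lit 262) (nat_lit 5) (nat_lit 270) (nat_lit 5) (nat_lit 263) (nat_lit 5) (nat_lit 588) (nat_lit 512) (nat_lit 460)))) (XT.nd (nat_lit 156) (nat_lit 532) (nat_lit 0) (XT.nd (nat_lit 78) (nat_lit 608) (nat_lit 0) (XT.lf (nat_lit 0) (nat_lit 3139963821) (nat_lit 532) (nat_lit 3999458413) (nat_lit 608) (nat_lit 2076060814) (nat_lit 255) (nat_lit 5) (nat_lit 262) (nat_lit 5) (nat_lit 263) (nat_lit 5) (nat_lit 589) (nat_lit 512) (nat_lit 459)) (XT.lf (nat_lit 0) (nat_lit 572507020) (nat_lit 532) (nat_lit 502091415) (nat_lit 608) (nat_lit 8229297364) (nat_lit 247) (nat_lit 5) (nat_lit 254) (nat_lit 5) (nat_lit 255) (nat_lit 5) (nat_lit 590) (nat_lit 512) (nat_lit 458))) (XT.nd (nat_lit 78) (nat_lit 532) (nat_lit 0) (XT.lf (nat_lit 0) (nat_lit 4281860103) (nat_lit 608) (nat_lit 2046272057) (nat_lit 76) (nat_lit 3065244224) (nat_lit 247) (nat_lit 5) (nat_lit 255) (nat_lit 5) (nat_lit 248) (nat_lit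 5) (nat_lit 591) (nat_lit 512) (nat_lit 457)) (XT.lf (nat_lit 0) (nat_lit 4778024287) (nat_lit 532) (nat_lit 2770786310) (nat_lit 608) (nat_lit 1935926862) (nat_lit 240) (nat_lit 5) (nat_lit 247) (nat_lit 5) (nat_lit 248) (nat_lit 5) (nat_lit 592) (nat_lit 512) (nat_lit 456))))))) (XT.nd (nat_lit 1092) (nat_lit 4180) (nat_lit 0) (XT.nd (nat_lit 546) (nat_lit 2204) (nat_lit 0) (XT.nd (nat_lit 234) (nat_lit 1520) (nat_lit 0) (XT.nd (nat_lit 78) (nat_lit 532) (nat_lit 0) (XT.lf (nat_lit 0) (nat_lit 1280957484) (nat_lit 532) (nat_lit 7429108426) (nat_lit 76) (nat_lit 867794817) (nat_lit 233) (nat_lit 5) (nat_lit 240) (nat_lit 5) (nat_lit 234) (nat_lit 5) (nat_lit 593) (nat_lit 512) (nat_lit 455)) (XT.nd (nat_lit 78) (nat_lit 532) (nat_lit 0) (XT.lf (nat_lit 0) (nat_lit 4548087985) (nat_lit 532) (nat_lit 552800354) (nat_lit 76) (nat_lit 4571467235) (nat_lit 233) (nat_lit 5) (nat_lit 240) (nat_lit 5) (nat_lit 234) (nat_lit 5) (nat_lit 594) (nat_lit 512) (nat_lit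 454)) (XT.lf (nat_lit 0) (nat_lit 6492921131) (nat_lit 532) (nat_lit 1392211046) (nat_lit 608) (nat_lit 1883518335) (nat_lit 226) (nat_lit 5) (nat_lit 233) (nat_lit 5) (nat_lit 234) (nat_lit 5) (nat_lit 595) (nat_lit 512) (nat_lit 453)))) (XT.nd (nat_lit 156) (nat_lit 532) (nat_lit 0) (XT.nd (nat_lit 78) (nat_lit 456) (nat_lit 0) (XT.lf (nat_lit 0) (nat_lit 1410078295) (nat_lit 532) (nat_lit 6075020600) (nat_lit 76) (nat_lit 2381455698) (nat_lit 219) (nat_lit 5) (nat_lit 226) (nat_lit 5) (nat_lit 220) (nat_lit 5) (nat_lit 596) (nat_lit 512) (nat_lit 452)) (XT.lf (nat_lit 0) (nat_lit 1016355074) (nat_lit 456) (nat_lit 3728787123) (nat_lit 532) (nat_lit 5221010768) (nat_lit 213) (nat_lit 5) (nat_lit 219) (nat_lit 5) (nat_lit 220) (nat_lit 5) (nat_lit 597) (nat_lit 512) (nat_lit 451))) (XT.nd (nat_lit 78) (nat_lit 532) (nat_lit 0) (XT.lf (nat_lit 0) (nat_lit 8151730739) (nat_lit 532) (nat_lit 1789937992) (nat_lit 76) (nat_lit 125979603) (nat_lit 213) (nat_lit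 5) (nat_lit 220) (nat_lit 5) (nat_lit 214) (nat_lit 5) (nat_lit 598) (nat_lit 512) (nat_lit 450)) (XT.lf (nat_lit 0) (nat_lit 1460647972) (nat_lit 532) (nat_lit 4672560416) (nat_lit 76) (nat_lit 4037288551) (nat_lit 206) (nat_lit 5) (nat_lit 213) (nat_lit 5) (nat_lit 207) (nat_lit 5) (nat_lit 599) (nat_lit 512) (nat_lit 449))))) (XT.nd (nat_lit 234) (nat_lit 1292) (nat_lit 0) (XT.nd (nat_lit 78) (nat_lit 456) (nat_lit 0) (XT.lf (nat_lit 0) (nat_lit 2649597616) (nat_lit 456) (nat_lit 2222783625) (nat_lit 532) (nat_lit 5402903589) (nat_lit 200) (nat_lit 5) (nat_lit 206) (nat_lit 5) (nat_lit 207) (nat_lit 5) (nat_lit 600) (nat_lit 512) (nat_lit 448)) (XT.nd (nat_lit 78) (nat_lit 456) (nat_lit 0) (XT.lf (nat_lit 0) (nat_lit 8359603440) (nat_lit 532) (nat_lit 264986366) (nat_lit 76) (nat_lit 1757434969) (nat_lit 200) (nat_lit 5) (nat_lit 207) (nat_lit 5) (nat_lit 201) (nat_lit 5) (nat_lit 601) (nat_lit 512) (nat_lit 447)) (XT.lf (nat_lit 0) (nat_lit 1434007405)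 (nat_lit 456) (nat_lit 3228488965) (nat_lit 76) (nat_lit 5827678653) (nat_lit 194) (nat_lit 5) (nat_lit 200) (nat_lit 5) (nat_lit 195) (nat_lit 5) (nat_lit 602) (nat_lit 512) (nat_lit 446)))) (XT.nd (nat_lit 156) (nat_lit 456) (nat_lit 0) (XT.nd (nat_lit 78) (nat_lit 380) (nat_lit 0) (XT.lf (nat_lit 0) (nat_lit 4333069297) (nat_lit 456) (nat_lit 594410642) (nat_lit 532) (nat_lit 5672842366) (nat_lit 188) (nat_lit 5) (nat_lit 194) (nat_lit 5) (nat_lit 195) (nat_lit 5) (nat_lit 603) (nat_lit 512) (nat_lit 445)) (XT.lf (nat_lit 0) (nat_lit 1318832995) (nat_lit 380) (nat_lit 7190722921) (nat_lit 456) (nat_lit 2202743212) (nat_lit 183) (nat_lit 5) (nat_lit 188) (nat_lit 5) (nat_lit 189) (nat_lit 5) (nat_lit 604) (nat_lit 512) (nat_lit 444))) (XT.nd (nat_lit 78) (nat_lit 380) (nat_lit 0) (XT.lf (nat_lit 0) (nat_lit 1330891399) (nat_lit 456) (nat_lit 1749709555) (nat_lit 76) (nat_lit 7745508873) (nat_lit 182) (nat_lit 5) (nat_lit 188) (nat_lit 5) (nat_lit 183) (nat_lit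 5) (nat_lit 605) (nat_lit 512) (nat_lit 443)) (XT.lf (nat_lit 0) (nat_lit 4918609903) (nat_lit 456) (nat_lit 4889145736) (nat_lit 76) (nat_lit 1133892982) (nat_lit 177) (nat_lit 5) (nat_lit 183) (nat_lit 5) (nat_lit 178) (nat_lit 5) (nat_lit 606) (nat_lit 512) (nat_lit 442)))))) (XT.nd (nat_lit 546) (nat_lit 2204) (nat_lit 0) (XT.nd (nat_lit 234) (nat_lit 1140) (nat_lit 0) (XT.nd (nat_lit 78) (nat_lit 456) (nat_lit 0) (XT.lf (nat_lit 0) (nat_lit 2941392174) (nat_lit 380) (nat_lit 5654297329) (nat_lit 456) (nat_lit 2463457731) (nat_lit 172) (nat_lit 5) (nat_lit 177) (nat_lit 5) (nat_lit 178) (nat_lit 5) (nat_lit 607) (nat_lit 512) (nat_lit 441)) (XT.nd (nat_lit 78) (nat_lit 380) (nat_lit 0) (XT.lf (nat_lit 0) (nat_lit 1151423938) (nat_lit 456) (nat_lit 243347197) (nat_lit 76) (nat_lit 9784085867) (nat_lit 171) (nat_lit 5) (nat_lit 177) (nat_lit 5) (nat_lit 172) (nat_lit 5) (nat_lit 608) (nat_lit 512) (nat_lit 440)) (XT.lf (nat_lit 0) (nat_lit 4842977706) (nat_lit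 456) (nat_lit 3495919098) (nat_lit 76) (nat_lit 2960992398) (nat_lit 166) (nat_lit 5) (nat_lit 172) (nat_lit 5) (nat_lit 167) (nat_lit 5) (nat_lit 609) (nat_lit 512) (nat_lit 439)))) (XT.nd (nat_lit 156) (nat_lit 304) (nat_lit 0) (XT.nd (nat_lit 78) (nat_lit 456) (nat_lit 0) (XT.lf (nat_lit 0) (nat_lit 4591993397) (nat_lit 380) (nat_lit 4024315619) (nat_lit 456) (nat_lit 2806875192) (nat_lit 161) (nat_lit 5) (nat_lit 166) (nat_lit 5) (nat_lit 167) (nat_lit 5) (nat_lit 610) (nat_lit 512) (nat_lit 438)) (XT.lf (nat_lit 0) (nat_lit 906125852) (nat_lit 456) (nat_lit 10251194107) (nat_lit 76) (nat_lit 391467641) (nat_lit 155) (nat_lit 5) (nat_lit 161) (nat_lit 5) (nat_lit 156) (nat_lit 5) (nat_lit 611) (nat_lit 512) (nat_lit 437))) (XT.nd (nat_lit 78) (nat_lit 304) (nat_lit 0) (XT.lf (nat_lit 0) (nat_lit 4696169452) (nat_lit 456) (nat_lit 2091471671) (nat_lit 76) (nat_lit 4888084563) (nat_lit 155) (nat_lit 5) (nat_lit 161) (nat_lit 5) (nat_lit 156) (nat_lit 5)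 (nat_lit 612) (nat_lit 512) (nat_lit 436)) (XT.lf (nat_lit 0) (nat_lit 6263102372) (nat_lit 304) (nat_lit 2307748213) (nat_lit 380) (nat_lit 3234176221) (nat_lit 151) (nat_lit 5) (nat_lit 155) (nat_lit 5) (nat_lit 156) (nat_lit 5) (nat_lit 613) (nat_lit 512) (nat_lit 435))))) (XT.nd (nat_lit 312) (nat_lit 988) (nat_lit 0) (XT.nd (nat_lit 156) (nat_lit 760) (nat_lit 0) (XT.nd (nat_lit 78) (nat_lit 0) (nat_lit 0) (XT.lf (nat_lit 0) (nat_lit 594183391) (nat_lit 456) (nat_lit 9092109272) (nat_lit 76) (nat_lit 2250230965) (nat_lit 145) (nat_lit 5) (nat_lit 151) (nat_lit 5) (nat_lit 146) (nat_lit 5) (nat_lit 614) (nat_lit 512) (nat_lit 434)) (XT.lf (nat_lit 0) (nat_lit 4476998857) (nat_lit 456) (nat_lit 684002399) (nat_lit 76) (nat_lit 6908798636) (nat_lit 145) (nat_lit 5) (nat_lit 151) (nat_lit 5) (nat_lit 146) (nat_lit 5) (nat_lit 615) (nat_lit 512) (nat_lit 433))) (XT.nd (nat_lit 78) (nat_lit 456) (nat_lit 0) (XT.lf (nat_lit 0) (nat_lit 7946734372) (nat_lit 304)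 (nat_lit 511385830) (nat_lit 380) (nat_lit 3747209416) (nat_lit 141) (nat_lit 5) (nat_lit 145) (nat_lit 5) (nat_lit 146) (nat_lit 5) (nat_lit 616) (nat_lit 512) (nat_lit 432)) (XT.lf (nat_lit 0) (nat_lit 203044730) (nat_lit 456) (nat_lit 7948196539) (nat_lit 76) (nat_lit 4191705807) (nat_lit 135) (nat_lit 5) (nat_lit 141) (nat_lit 5) (nat_lit 136) (nat_lit 5) (nat_lit 617) (nat_lit 512) (nat_lit 431)))) (XT.nd (nat_lit 156) (nat_lit 684) (nat_lit 0) (XT.nd (nat_lit 78) (nat_lit 0) (nat_lit 0) (XT.lf (nat_lit 0) (nat_lit 727290458) (nat_lit 304) (nat_lit 3461057480) (nat_lit 380) (nat_lit 8294350059) (nat_lit 131) (nat_lit 5) (nat_lit 135) (nat_lit 5) (nat_lit 136) (nat_lit 5) (nat_lit 618) (nat_lit 512) (nat_lit 430)) (XT.lf (nat_lit 0) (nat_lit 8285087733) (nat_lit 380) (nat_lit 2999248582) (nat_lit 76) (nat_lit 1340273868) (nat_lit 131) (nat_lit 5) (nat_lit 136) (nat_lit 5) (nat_lit 132) (nat_lit 5) (nat_lit 619) (nat_lit 512) (nat_lit 429))) (XT.nd (nat_lit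 78) (nat_lit 380) (nat_lit 0) (XT.lf (nat_lit 0) (nat_lit 5937815706) (nat_lit 304) (nat_lit 6557470137) (nat_lit 380) (nat_lit 273445142) (nat_lit 127) (nat_lit 5) (nat_lit 131) (nat_lit 5) (nat_lit 132) (nat_lit 5) (nat_lit 620) (nat_lit 512) (nat_lit 428)) (XT.lf (nat_lit 0) (nat_lit 2132379370) (nat_lit 304) (nat_lit 1694994479) (nat_lit 380) (nat_lit 9087773562) (nat_lit 122) (nat_lit 5) (nat_lit 126) (nat_lit 5) (nat_lit 127) (nat_lit 5) (nat_lit 621) (nat_lit 512) (nat_lit 427))))))))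
noncomputable def xc57 : XT := (XT.nd (nat_lit 74490) (nat_lit 0) (nat_lit 27208) (XT.nd (nat_lit 1092) (nat_lit 2204) (nat_lit 0) (XT.nd (nat_lit 546) (nat_lit 1140) (nat_lit 0) (XT.nd (nat_lit 234) (nat_lit 912) (nat_lit 0) (XT.nd (nat_lit 78) (nat_lit 608) (nat_lit 0) (XT.lf (nat_lit 0) (nat_lit 8044156492) (nat_lit 380) (nat_lit 1768742269) (nat_lit 76) (nat_lit 3250805876) (nat_lit 122) (nat_lit 5) (nat_lit 127) (nat_lit 5) (nat_lit 123) (nat_lit 5) (nat_lit 622) (nat_lit 512) (nat_lit 426)) (XT.nd (nat_lit 78) (nat_lit 304) (nat_lit 0) (XT.lf (nat_lit 0) (nat_lit 7463806098) (nat_lit 304) (nat_lit 4912002693) (nat_lit 380) (nat_lit 838814313) (nat_lit 118) (nat_lit 5) (nat_lit 122) (nat_lit 5) (nat_lit 123) (nat_lit 5) (nat_lit 623) (nat_lit 512) (nat_lit 425)) (XT.lf (nat_lit 0) (nat_lit 3387088909) (nat_lit 304) (nat_lit 9856910408) (nat_lit 76) (nat_lit 123986930) (nat_lit 114) (nat_lit 5) (nat_lit 118) (nat_lit 5) (nat_lit 115) (nat_lit 5) (nat_lit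 624) (nat_lit 512) (nat_lit 424)))) (XT.nd (nat_lit 156) (nat_lit 608) (nat_lit 0) (XT.nd (nat_lit 78) (nat_lit 304) (nat_lit 0) (XT.lf (nat_lit 0) (nat_lit 7728713357) (nat_lit 304) (nat_lit 574448185) (nat_lit 76) (nat_lit 5220296255) (nat_lit 114) (nat_lit 5) (nat_lit 118) (nat_lit 5) (nat_lit 115) (nat_lit 5) (nat_lit 625) (nat_lit 512) (nat_lit 423)) (XT.lf (nat_lit 0) (nat_lit 8963551991) (nat_lit 304) (nat_lit 3223431301) (nat_lit 380) (nat_lit 1494459945) (nat_lit 110) (nat_lit 5) (nat_lit 114) (nat_lit 5) (nat_lit 115) (nat_lit 5) (nat_lit 626) (nat_lit 512) (nat_lit 422))) (XT.nd (nat_lit 78) (nat_lit 304) (nat_lit 0) (XT.lf (nat_lit 0) (nat_lit 2873926266) (nat_lit 304) (nat_lit 9000293001) (nat_lit 76) (nat_lit 1967593839) (nat_lit 106) (nat_lit 5) (nat_lit 110) (nat_lit 5) (nat_lit 107) (nat_lit 5) (nat_lit 627) (nat_lit 512) (nat_lit 421)) (XT.lf (nat_lit 0) (nat_lit 579606539) (nat_lit 304) (nat_lit 6758860768) (nat_lit 380) (nat_lit 6666150214)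 (nat_lit 102) (nat_lit 5) (nat_lit 106) (nat_lit 5) (nat_lit 107) (nat_lit 5) (nat_lit 628) (nat_lit 512) (nat_lit 420))))) (XT.nd (nat_lit 234) (nat_lit 532) (nat_lit 0) (XT.nd (nat_lit 78) (nat_lit 608) (nat_lit 0) (XT.lf (nat_lit 0) (nat_lit 10425564363) (nat_lit 304) (nat_lit 1499175393) (nat_lit 380) (nat_lit 2245290121) (nat_lit 102) (nat_lit 5) (nat_lit 106) (nat_lit 5) (nat_lit 107) (nat_lit 5) (nat_lit 629) (nat_lit 512) (nat_lit 419)) (XT.nd (nat_lit 78) (nat_lit 304) (nat_lit 0) (XT.lf (nat_lit 0) (nat_lit 2271960188) (nat_lit 304) (nat_lit 8214888962) (nat_lit 76) (nat_lit 3850854671) (nat_lit 98) (nat_lit 5) (nat_lit 102) (nat_lit 5) (nat_lit 99) (nat_lit 5) (nat_lit 630) (nat_lit 512) (nat_lit 418)) (XT.lf (nat_lit 0) (nat_lit 1679948623) (nat_lit 304) (nat_lit 5188222419) (nat_lit 380) (nat_lit 7639890400) (nat_lit 94) (nat_lit 5) (nat_lit 98) (nat_lit 5) (nat_lit 99) (nat_lit 5) (nat_lit 631) (nat_lit 512) (nat_lit 417)))) (XT.nd (nat_lit 156)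 (nat_lit 228) (nat_lit 0) (XT.nd (nat_lit 78) (nat_lit 304) (nat_lit 0) (XT.lf (nat_lit 0) (nat_lit 11585832955) (nat_lit 380) (nat_lit 2845653875) (nat_lit 76) (nat_lit 249749461) (nat_lit 94) (nat_lit 5) (nat_lit 99) (nat_lit 5) (nat_lit 95) (nat_lit 5) (nat_lit 632) (nat_lit 512) (nat_lit 416)) (XT.lf (nat_lit 0) (nat_lit 1575403911) (nat_lit 304) (nat_lit 7514886015) (nat_lit 76) (nat_lit 5766272782) (nat_lit 90) (nat_lit 5) (nat_lit 94) (nat_lit 5) (nat_lit 91) (nat_lit 5) (nat_lit 633) (nat_lit 512) (nat_lit 415))) (XT.nd (nat_lit 78) (nat_lit 0) (nat_lit 0) (XT.lf (nat_lit 0) (nat_lit 2704837530) (nat_lit 228) (nat_lit 3603383194) (nat_lit 304) (nat_lit 8726565476) (nat_lit 87) (nat_lit 5) (nat_lit 90) (nat_lit 5) (nat_lit 91) (nat_lit 5) (nat_lit 634) (nat_lit 512) (nat_lit 414)) (XT.lf (nat_lit 0) (nat_lit 11172716452) (nat_lit 304) (nat_lit 2044444658) (nat_lit 76) (nat_lit 1998673168) (nat_lit 87) (nat_lit 5) (nat_lit 91) (nat_lit 5) (nat_lit 88)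 (nat_lit 5) (nat_lit 635) (nat_lit 512) (nat_lit 413)))))) (XT.nd (nat_lit 546) (nat_lit 912) (nat_lit 0) (XT.nd (nat_lit 234) (nat_lit 760) (nat_lit 0) (XT.nd (nat_lit 78) (nat_lit 228) (nat_lit 0) (XT.lf (nat_lit 0) (nat_lit 777540743) (nat_lit 304) (nat_lit 6915840834) (nat_lit 76) (nat_lit 7705963603) (nat_lit 83) (nat_lit 5) (nat_lit 87) (nat_lit 5) (nat_lit 84) (nat_lit 5) (nat_lit 636) (nat_lit 512) (nat_lit 412)) (XT.nd (nat_lit 78) (nat_lit 0) (nat_lit 0) (XT.lf (nat_lit 0) (nat_lit 3638766878) (nat_lit 228) (nat_lit 2013082698) (nat_lit 304) (nat_lit 9933915268) (nat_lit 80) (nat_lit 5) (nat_lit 83) (nat_lit 5) (nat_lit 84) (nat_lit 5) (nat_lit 637) (nat_lit 512) (nat_lit 411)) (XT.lf (nat_lit 0) (nat_lit 10668889208) (nat_lit 304) (nat_lit 1347282895) (nat_lit 76) (nat_lit 3758836430) (nat_lit 80) (nat_lit 5) (nat_lit 84) (nat_lit 5) (nat_lit 81) (nat_lit 5) (nat_lit 638) (nat_lit 512) (nat_lit 410)))) (XT.nd (nat_lit 156) (nat_lit 228) (nat_lit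 0) (XT.nd (nat_lit 78) (nat_lit 304) (nat_lit 0) (XT.lf (nat_lit 0) (nat_lit 9531339240) (nat_lit 228) (nat_lit 6304636764) (nat_lit 304) (nat_lit 131067477) (nat_lit 77) (nat_lit 5) (nat_lit 80) (nat_lit 5) (nat_lit 81) (nat_lit 5) (nat_lit 639) (nat_lit 512) (nat_lit 409)) (XT.lf (nat_lit 0) (nat_lit 4464651497) (nat_lit 228) (nat_lit 426621904) (nat_lit 304) (nat_lit 11270751839) (nat_lit 73) (nat_lit 5) (nat_lit 76) (nat_lit 5) (nat_lit 77) (nat_lit 5) (nat_lit 640) (nat_lit 512) (nat_lit 408))) (XT.nd (nat_lit 78) (nat_lit 228) (nat_lit 0) (XT.lf (nat_lit 0) (nat_lit 10066557736) (nat_lit 304) (nat_lit 771993254) (nat_lit 76) (nat_lit 5521253769) (nat_lit 73) (nat_lit 5) (nat_lit 77) (nat_lit 5) (nat_lit 74) (nat_lit 5) (nat_lit 641) (nat_lit 512) (nat_lit 407)) (XT.lf (nat_lit 0) (nat_lit 10462273314) (nat_lit 228) (nat_lit 4928945106) (nat_lit 304) (nat_lit 1169404508) (nat_lit 70) (nat_lit 5) (nat_lit 73) (nat_lit 5) (nat_lit 74) (nat_lit 5) (nat_lit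 642) (nat_lit 512) (nat_lit 406))))) (XT.nd (nat_lit 312) (nat_lit 152) (nat_lit 0) (XT.nd (nat_lit 156) (nat_lit 456) (nat_lit 0) (XT.nd (nat_lit 78) (nat_lit 0) (nat_lit 0) (XT.lf (nat_lit 0) (nat_lit 4025046430) (nat_lit 304) (nat_lit 11608462385) (nat_lit 76) (nat_lit 1130995523) (nat_lit 66) (nat_lit 5) (nat_lit 70) (nat_lit 5) (nat_lit 67) (nat_lit 5) (nat_lit 643) (nat_lit 512) (nat_lit 405)) (XT.lf (nat_lit 0) (nat_lit 9356815158) (nat_lit 304) (nat_lit 338247401) (nat_lit 76) (nat_lit 7276264927) (nat_lit 66) (nat_lit 5) (nat_lit 70) (nat_lit 5) (nat_lit 67) (nat_lit 5) (nat_lit 644) (nat_lit 512) (nat_lit 404))) (XT.nd (nat_lit 78) (nat_lit 304) (nat_lit 0) (XT.lf (nat_lit 0) (nat_lit 11261806679) (nat_lit 152) (nat_lit 3582253552) (nat_lit 228) (nat_lit 2337250483) (nat_lit 64) (nat_lit 5) (nat_lit 66) (nat_lit 5) (nat_lit 67) (nat_lit 5) (nat_lit 645) (nat_lit 512) (nat_lit 403)) (XT.lf (nat_lit 0) (nat_lit 3038253857) (nat_lit 304) (nat_lit 11697429951)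 (nat_lit 76) (nat_lit 2658761940) (nat_lit 60) (nat_lit 5) (nat_lit 64) (nat_lit 5) (nat_lit 61) (nat_lit 5) (nat_lit 646) (nat_lit 512) (nat_lit 402)))) (XT.nd (nat_lit 72384) (nat_lit 0) (nat_lit 51984) (XT.nd (nat_lit 78) (nat_lit 152) (nat_lit 0) (XT.lf (nat_lit 0) (nat_lit 8529543092) (nat_lit 304) (nat_lit 67784621) (nat_lit 76) (nat_lit 9013415786) (nat_lit 60) (nat_lit 5) (nat_lit 64) (nat_lit 5) (nat_lit 61) (nat_lit 5) (nat_lit 647) (nat_lit 512) (nat_lit 401)) (XT.lf (nat_lit 0) (nat_lit 11908104091) (nat_lit 152) (nat_lit 2276174967) (nat_lit 228) (nat_lit 3646016133) (nat_lit 58) (nat_lit 5) (nat_lit 60) (nat_lit 5) (nat_lit 61) (nat_lit 5) (nat_lit 648) (nat_lit 512) (nat_lit 400))) (XT.nd (nat_lit 78) (nat_lit 684) (nat_lit 0) (XT.lf (nat_lit 0) (nat_lit 2204480063) (nat_lit 532) (nat_lit 531646331) (nat_lit 532) (nat_lit 531646331) (nat_lit 751) (nat_lit 4) (nat_lit 758) (nat_lit 5) (nat_lit 758) (nat_lit 4) (nat_lit 534) (nat_lit 513) (nat_lit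 513)) (XT.lf (nat_lit 0) (nat_lit 1802606831) (nat_lit 608) (nat_lit 364608586) (nat_lit 684) (nat_lit 4382309708) (nat_lit 742) (nat_lit 5) (nat_lit 750) (nat_lit 5) (nat_lit 751) (nat_lit 4) (nat_lit 535) (nat_lit 513) (nat_lit 512))))))) (XT.nd (nat_lit 1170) (nat_lit 15352) (nat_lit 0) (XT.nd (nat_lit 546) (nat_lit 6004) (nat_lit 0) (XT.nd (nat_lit 234) (nat_lit 1900) (nat_lit 0) (XT.nd (nat_lit 78) (nat_lit 1520) (nat_lit 0) (XT.lf (nat_lit 0) (nat_lit 5388752899) (nat_lit 684) (nat_lit 787179144) (nat_lit 0) (nat_lit 388906695) (nat_lit 742) (nat_lit 5) (nat_lit 751) (nat_lit 4) (nat_lit 742) (nat_lit 4) (nat_lit 536) (nat_lit 513) (nat_lit 511)) (XT.nd (nat_lit 78) (nat_lit 760) (nat_lit 0) (XT.lf (nat_lit 0) (nat_lit 2015405348) (nat_lit 760) (nat_lit 3355366014) (nat_lit 76) (nat_lit 1210450861) (nat_lit 732) (nat_lit 5) (nat_lit 742) (nat_lit 5) (nat_lit 733) (nat_lit 4) (nat_lit 537) (nat_lit 513) (nat_lit 510)) (XT.lf (nat_lit 0) (nat_lit 680000934)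 (nat_lit 760) (nat_lit 4510862045) (nat_lit 836) (nat_lit 1408204817) (nat_lit 722) (nat_lit 5) (nat_lit 732) (nat_lit 5) (nat_lit 733) (nat_lit 4) (nat_lit 538) (nat_lit 513) (nat_lit 509)))) (XT.nd (nat_lit 156) (nat_lit 988) (nat_lit 0) (XT.nd (nat_lit 78) (nat_lit 836) (nat_lit 0) (XT.lf (nat_lit 0) (nat_lit 1738206825) (nat_lit 836) (nat_lit 1840899468) (nat_lit 76) (nat_lit 3038947522) (nat_lit 721) (nat_lit 5) (nat_lit 732) (nat_lit 5) (nat_lit 722) (nat_lit 5) (nat_lit 539) (nat_lit 513) (nat_lit 508)) (XT.lf (nat_lit 0) (nat_lit 2286830796) (nat_lit 836) (nat_lit 2584915485) (nat_lit 912) (nat_lit 1766633146) (nat_lit 710) (nat_lit 5) (nat_lit 721) (nat_lit 5) (nat_lit 722) (nat_lit 5) (nat_lit 540) (nat_lit 513) (nat_lit 507))) (XT.nd (nat_lit 78) (nat_lit 912) (nat_lit 0) (XT.lf (nat_lit 0) (nat_lit 1331586065) (nat_lit 912) (nat_lit 199297535) (nat_lit 76) (nat_lit 5129227509) (nat_lit 709) (nat_lit 5) (nat_lit 721) (nat_lit 5) (nat_lit 710) (nat_lit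 5) (nat_lit 541) (nat_lit 513) (nat_lit 506)) (XT.lf (nat_lit 0) (nat_lit 4024856698) (nat_lit 912) (nat_lit 399591437) (nat_lit 988) (nat_lit 2258475803) (nat_lit 697) (nat_lit 5) (nat_lit 709) (nat_lit 5) (nat_lit 710) (nat_lit 5) (nat_lit 542) (nat_lit 513) (nat_lit 505))))) (XT.nd (nat_lit 312) (nat_lit 2660) (nat_lit 0) (XT.nd (nat_lit 156) (nat_lit 2280) (nat_lit 0) (XT.nd (nat_lit 78) (nat_lit 0) (nat_lit 0) (XT.lf (nat_lit 0) (nat_lit 809079401) (nat_lit 1064) (nat_lit 5119931455) (nat_lit 76) (nat_lit 778124196) (nat_lit 683) (nat_lit 5) (nat_lit 697) (nat_lit 5) (nat_lit 684) (nat_lit 5) (nat_lit 543) (nat_lit 513) (nat_lit 504)) (XT.lf (nat_lit 0) (nat_lit 3860243664) (nat_lit 1064) (nat_lit 849722363) (nat_lit 76) (nat_lit 2022522159) (nat_lit 683) (nat_lit 5) (nat_lit 697) (nat_lit 5) (nat_lit 684) (nat_lit 5) (nat_lit 544) (nat_lit 513) (nat_lit 503))) (XT.nd (nat_lit 78) (nat_lit 1140) (nat_lit 0) (XT.lf (nat_lit 0) (nat_lit 166899341) (nat_lit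 1140) (nat_lit 3261435115) (nat_lit 76) (nat_lit 3330879740) (nat_lit 668) (nat_lit 5) (nat_lit 683) (nat_lit 5) (nat_lit 669) (nat_lit 5) (nat_lit 545) (nat_lit 513) (nat_lit 502)) (XT.lf (nat_lit 0) (nat_lit 1099327418) (nat_lit 1140) (nat_lit 2075684459) (nat_lit 1216) (nat_lit 3612156217) (nat_lit 653) (nat_lit 5) (nat_lit 668) (nat_lit 5) (nat_lit 669) (nat_lit 5) (nat_lit 546) (nat_lit 513) (nat_lit 501)))) (XT.nd (nat_lit 156) (nat_lit 1368) (nat_lit 0) (XT.nd (nat_lit 78) (nat_lit 1292) (nat_lit 0) (XT.lf (nat_lit 0) (nat_lit 5538446970) (nat_lit 1140) (nat_lit 661412256) (nat_lit 1216) (nat_lit 616696255) (nat_lit 653) (nat_lit 5) (nat_lit 668) (nat_lit 5) (nat_lit 669) (nat_lit 5) (nat_lit 547) (nat_lit 513) (nat_lit 500)) (XT.lf (nat_lit 0) (nat_lit 2368346700) (nat_lit 1292) (nat_lit 3659511610) (nat_lit 76) (nat_lit 819128122) (nat_lit 636) (nat_lit 5) (nat_lit 653) (nat_lit 5) (nat_lit 637) (nat_lit 5) (nat_lit 548) (nat_lit 513) (nat_lit 499)))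 (XT.nd (nat_lit 78) (nat_lit 76) (nat_lit 0) (XT.lf (nat_lit 0) (nat_lit 830319781) (nat_lit 1292) (nat_lit 4529457452) (nat_lit 1368) (nat_lit 1519073881) (nat_lit 619) (nat_lit 5) (nat_lit 636) (nat_lit 5) (nat_lit 637) (nat_lit 5) (nat_lit 549) (nat_lit 513) (nat_lit 498)) (XT.lf (nat_lit 0) (nat_lit 1441743497) (nat_lit 1368) (nat_lit 1515585334) (nat_lit 76) (nat_lit 3954600253) (nat_lit 618) (nat_lit 5) (nat_lit 636) (nat_lit 5) (nat_lit 619) (nat_lit 5) (nat_lit 550) (nat_lit 513) (nat_lit 497)))))) (XT.nd (nat_lit 546) (nat_lit 7524) (nat_lit 0) (XT.nd (nat_lit 234) (nat_lit 4940) (nat_lit 0) (XT.nd (nat_lit 78) (nat_lit 1520) (nat_lit 0) (XT.lf (nat_lit 0) (nat_lit 3085110224) (nat_lit 1368) (nat_lit 1314620260) (nat_lit 1444) (nat_lit 2546576641) (nat_lit 600) (nat_lit 5) (nat_lit 618) (nat_lit 5) (nat_lit 619) (nat_lit 5) (nat_lit 551) (nat_lit 513) (nat_lit 496)) (XT.nd (nat_lit 78) (nat_lit 0) (nat_lit 0) (XT.lf (nat_lit 0) (nat_lit 386248696)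 (nat_lit 1520) (nat_lit 6214127666) (nat_lit 76) (nat_lit 381815697) (nat_lit 580) (nat_lit 5) (nat_lit 600) (nat_lit 5) (nat_lit 581) (nat_lit 5) (nat_lit 552) (nat_lit 513) (nat_lit 495)) (XT.lf (nat_lit 0) (nat_lit 3318055524) (nat_lit 1520) (nat_lit 1556453867) (nat_lit 76) (nat_lit 2144465077) (nat_lit 580) (nat_lit 5) (nat_lit 600) (nat_lit 5) (nat_lit 581) (nat_lit 5) (nat_lit 553) (nat_lit 513) (nat_lit 494)))) (XT.nd (nat_lit 156) (nat_lit 1748) (nat_lit 0) (XT.nd (nat_lit 78) (nat_lit 1672) (nat_lit 0) (XT.lf (nat_lit 0) (nat_lit 3182499312) (nat_lit 1520) (nat_lit 3087449737) (nat_lit 1596) (nat_lit 787319274) (nat_lit 560) (nat_lit 5) (nat_lit 580) (nat_lit 5) (nat_lit 581) (nat_lit 5) (nat_lit 554) (nat_lit 513) (nat_lit 493)) (XT.lf (nat_lit 0) (nat_lit 884512016) (nat_lit 1596) (nat_lit 1228857708) (nat_lit 1672) (nat_lit 4983529920) (nat_lit 538) (nat_lit 5) (nat_lit 559) (nat_lit 5) (nat_lit 560) (nat_lit 5) (nat_lit 555) (nat_lit 513) (nat_lit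 492))) (XT.nd (nat_lit 78) (nat_lit 1748) (nat_lit 0) (XT.lf (nat_lit 0) (nat_lit 5034087584) (nat_lit 1672) (nat_lit 1409900454) (nat_lit 76) (nat_lit 693784855) (nat_lit 538) (nat_lit 5) (nat_lit 560) (nat_lit 5) (nat_lit 539) (nat_lit 5) (nat_lit 556) (nat_lit 513) (nat_lit 491)) (XT.lf (nat_lit 0) (nat_lit 796505898) (nat_lit 1748) (nat_lit 3713000434) (nat_lit 76) (nat_lit 2670379674) (nat_lit 515) (nat_lit 5) (nat_lit 538) (nat_lit 5) (nat_lit 516) (nat_lit 5) (nat_lit 557) (nat_lit 513) (nat_lit 490))))) (XT.nd (nat_lit 312) (nat_lit 2812) (nat_lit 0) (XT.nd (nat_lit 156) (nat_lit 2964) (nat_lit 0) (XT.nd (nat_lit 78) (nat_lit 0) (nat_lit 0) (XT.lf (nat_lit 0) (nat_lit 1185007069) (nat_lit 1748) (nat_lit 2502340987) (nat_lit 1824) (nat_lit 3536003181) (nat_lit 492) (nat_lit 5) (nat_lit 515) (nat_lit 5) (nat_lit 516) (nat_lit 5) (nat_lit 558) (nat_lit 513) (nat_lit 489)) (XT.lf (nat_lit 0) (nat_lit 6177455147) (nat_lit 1748) (nat_lit 427796364) (nat_lit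 1824) (nat_lit 663053557) (nat_lit 492) (nat_lit 5) (nat_lit 515) (nat_lit 5) (nat_lit 516) (nat_lit 5) (nat_lit 559) (nat_lit 513) (nat_lit 488))) (XT.nd (nat_lit 78) (nat_lit 1064) (nat_lit 0) (XT.lf (nat_lit 0) (nat_lit 2219484512) (nat_lit 1900) (nat_lit 3386687037) (nat_lit 76) (nat_lit 1708058703) (nat_lit 467) (nat_lit 5) (nat_lit 492) (nat_lit 5) (nat_lit 468) (nat_lit 5) (nat_lit 560) (nat_lit 513) (nat_lit 487)) (XT.lf (nat_lit 0) (nat_lit 1660395779) (nat_lit 1064) (nat_lit 3457182914) (nat_lit 1140) (nat_lit 2244075865) (nat_lit 453) (nat_lit 5) (nat_lit 467) (nat_lit 5) (nat_lit 468) (nat_lit 5) (nat_lit 561) (nat_lit 513) (nat_lit 486)))) (XT.nd (nat_lit 156) (nat_lit 1824) (nat_lit 0) (XT.nd (nat_lit 78) (nat_lit 912) (nat_lit 0) (XT.lf (nat_lit 0) (nat_lit 623928988) (nat_lit 1140) (nat_lit 614338024) (nat_lit 76) (nat_lit 6172297460) (nat_lit 452) (nat_lit 5) (nat_lit 467) (nat_lit 5) (nat_lit 453) (nat_lit 5) (nat_lit 562) (nat_lit 513) (nat_lit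 485)) (XT.lf (nat_lit 0) (nat_lit 3503066705) (nat_lit 988) (nat_lit 2901788871) (nat_lit 76) (nat_lit 1055627640) (nat_lit 440) (nat_lit 5) (nat_lit 453) (nat_lit 5) (nat_lit 441) (nat_lit 5) (nat_lit 563) (nat_lit 513) (nat_lit 484))) (XT.nd (nat_lit 78) (nat_lit 912) (nat_lit 0) (XT.lf (nat_lit 0) (nat_lit 2299883862) (nat_lit 912) (nat_lit 4115072413) (nat_lit 988) (nat_lit 1096944323) (nat_lit 428) (nat_lit 5) (nat_lit 440) (nat_lit 5) (nat_lit 441) (nat_lit 5) (nat_lit 564) (nat_lit 513) (nat_lit 483)) (XT.lf (nat_lit 0) (nat_lit 14625525) (nat_lit 836) (nat_lit 1750143115) (nat_lit 912) (nat_lit 5799986550) (nat_lit 416) (nat_lit 5) (nat_lit 427) (nat_lit 5) (nat_lit 428) (nat_lit 5) (nat_lit 565) (nat_lit 513) (nat_lit 482))))))))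
noncomputable def xc58 : XT := (XT.nd (nat_lit 2262) (nat_lit 8740) (nat_lit 0) (XT.nd (nat_lit 1092) (nat_lit 6688) (nat_lit 0) (XT.nd (nat_lit 546) (nat_lit 3800) (nat_lit 0) (XT.nd (nat_lit 234) (nat_lit 1672) (nat_lit 0) (XT.nd (nat_lit 78) (nat_lit 1748) (nat_lit 0) (XT.lf (nat_lit 0) (nat_lit 4657404594) (nat_lit 912) (nat_lit 2268541552) (nat_lit 76) (nat_lit 692811610) (nat_lit 416) (nat_lit 5) (nat_lit 428) (nat_lit 5) (nat_lit 417) (nat_lit 5) (nat_lit 566) (nat_lit 513) (nat_lit 481)) (XT.nd (nat_lit 78) (nat_lit 912) (nat_lit 0) (XT.lf (nat_lit 0) (nat_lit 3093512666) (nat_lit 836) (nat_lit 4495916274) (nat_lit 912) (nat_lit 84784087) (nat_lit 405) (nat_lit 5) (nat_lit 416) (nat_lit 5) (nat_lit 417) (nat_lit 5) (nat_lit 567) (nat_lit 513) (nat_lit 480)) (XT.lf (nat_lit 0) (nat_lit 800527710) (nat_lit 836) (nat_lit 1982103803) (nat_lit 912) (nat_lit 4948365445) (nat_lit 393) (nat_lit 5) (nat_lit 404) (nat_lit 5) (nat_lit 405) (nat_lit 5) (nat_lit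 568) (nat_lit 513) (nat_lit 479)))) (XT.nd (nat_lit 156) (nat_lit 760) (nat_lit 0) (XT.nd (nat_lit 78) (nat_lit 912) (nat_lit 0) (XT.lf (nat_lit 0) (nat_lit 5691739526) (nat_lit 912) (nat_lit 1496426521) (nat_lit 76) (nat_lit 601032899) (nat_lit 393) (nat_lit 5) (nat_lit 405) (nat_lit 5) (nat_lit 394) (nat_lit 5) (nat_lit 569) (nat_lit 513) (nat_lit 478)) (XT.lf (nat_lit 0) (nat_lit 790801013) (nat_lit 912) (nat_lit 3821872693) (nat_lit 76) (nat_lit 3235969762) (nat_lit 381) (nat_lit 5) (nat_lit 393) (nat_lit 5) (nat_lit 382) (nat_lit 5) (nat_lit 570) (nat_lit 513) (nat_lit 477))) (XT.nd (nat_lit 78) (nat_lit 0) (nat_lit 0) (XT.lf (nat_lit 0) (nat_lit 1726060810) (nat_lit 760) (nat_lit 1956024608) (nat_lit 836) (nat_lit 4227450293) (nat_lit 371) (nat_lit 5) (nat_lit 381) (nat_lit 5) (nat_lit 382) (nat_lit 5) (nat_lit 571) (nat_lit 513) (nat_lit 476)) (XT.lf (nat_lit 0) (nat_lit 6614457445) (nat_lit 836) (nat_lit 594249288) (nat_lit 76) (nat_lit 763276758)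 (nat_lit 371) (nat_lit 5) (nat_lit 382) (nat_lit 5) (nat_lit 372) (nat_lit 5) (nat_lit 572) (nat_lit 513) (nat_lit 475))))) (XT.nd (nat_lit 234) (nat_lit 1520) (nat_lit 0) (XT.nd (nat_lit 78) (nat_lit 1444) (nat_lit 0) (XT.lf (nat_lit 0) (nat_lit 1548796932) (nat_lit 836) (nat_lit 2938831184) (nat_lit 76) (nat_lit 3547859319) (nat_lit 360) (nat_lit 5) (nat_lit 371) (nat_lit 5) (nat_lit 361) (nat_lit 5) (nat_lit 573) (nat_lit 513) (nat_lit 474)) (XT.nd (nat_lit 78) (nat_lit 760) (nat_lit 0) (XT.lf (nat_lit 0) (nat_lit 2782731375) (nat_lit 684) (nat_lit 1688176383) (nat_lit 760) (nat_lit 3629660223) (nat_lit 351) (nat_lit 5) (nat_lit 360) (nat_lit 5) (nat_lit 361) (nat_lit 5) (nat_lit 574) (nat_lit 513) (nat_lit 473)) (XT.lf (nat_lit 0) (nat_lit 435497188) (nat_lit 760) (nat_lit 7000468871) (nat_lit 836) (nat_lit 731296680) (nat_lit 341) (nat_lit 5) (nat_lit 351) (nat_lit 5) (nat_lit 352) (nat_lit 5) (nat_lit 575) (nat_lit 513) (nat_lit 472)))) (XT.nd (nat_lit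 156) (nat_lit 760) (nat_lit 0) (XT.nd (nat_lit 78) (nat_lit 684) (nat_lit 0) (XT.lf (nat_lit 0) (nat_lit 2197445067) (nat_lit 836) (nat_lit 1939218098) (nat_lit 76) (nat_lit 4098310051) (nat_lit 340) (nat_lit 5) (nat_lit 351) (nat_lit 5) (nat_lit 341) (nat_lit 5) (nat_lit 576) (nat_lit 513) (nat_lit 471)) (XT.lf (nat_lit 0) (nat_lit 3962621453) (nat_lit 684) (nat_lit 1193468461) (nat_lit 760) (nat_lit 3148231456) (nat_lit 331) (nat_lit 5) (nat_lit 340) (nat_lit 5) (nat_lit 341) (nat_lit 5) (nat_lit 577) (nat_lit 513) (nat_lit 470))) (XT.nd (nat_lit 78) (nat_lit 76) (nat_lit 0) (XT.lf (nat_lit 0) (nat_lit 1588839995) (nat_lit 684) (nat_lit 6576077137) (nat_lit 760) (nat_lit 210321669) (nat_lit 322) (nat_lit 5) (nat_lit 331) (nat_lit 5) (nat_lit 332) (nat_lit 5) (nat_lit 578) (nat_lit 513) (nat_lit 469)) (XT.lf (nat_lit 0) (nat_lit 2743111399) (nat_lit 760) (nat_lit 830722993) (nat_lit 76) (nat_lit 4873514607) (nat_lit 321) (nat_lit 5) (nat_lit 331) (nat_lit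 5) (nat_lit 322) (nat_lit 5) (nat_lit 579) (nat_lit 513) (nat_lit 468)))))) (XT.nd (nat_lit 546) (nat_lit 3420) (nat_lit 0) (XT.nd (nat_lit 234) (nat_lit 1292) (nat_lit 0) (XT.nd (nat_lit 78) (nat_lit 1368) (nat_lit 0) (XT.lf (nat_lit 0) (nat_lit 5258316474) (nat_lit 608) (nat_lit 485561513) (nat_lit 684) (nat_lit 2777176343) (nat_lit 313) (nat_lit 5) (nat_lit 321) (nat_lit 5) (nat_lit 322) (nat_lit 5) (nat_lit 580) (nat_lit 513) (nat_lit 467)) (XT.nd (nat_lit 78) (nat_lit 608) (nat_lit 0) (XT.lf (nat_lit 0) (nat_lit 204471947) (nat_lit 760) (nat_lit 5747037072) (nat_lit 76) (nat_lit 2644724365) (nat_lit 303) (nat_lit 5) (nat_lit 313) (nat_lit 5) (nat_lit 304) (nat_lit 5) (nat_lit 581) (nat_lit 513) (nat_lit 466)) (XT.lf (nat_lit 0) (nat_lit 384439508) (nat_lit 608) (nat_lit 2809492076) (nat_lit 684) (nat_lit 5478912218) (nat_lit 295) (nat_lit 5) (nat_lit 303) (nat_lit 5) (nat_lit 304) (nat_lit 5) (nat_lit 582) (nat_lit 513) (nat_lit 465)))) (XT.nd (nat_lit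 156) (nat_lit 608) (nat_lit 0) (XT.nd (nat_lit 78) (nat_lit 684) (nat_lit 0) (XT.lf (nat_lit 0) (nat_lit 6242554974) (nat_lit 684) (nat_lit 2090967606) (nat_lit 76) (nat_lit 417478536) (nat_lit 295) (nat_lit 5) (nat_lit 304) (nat_lit 5) (nat_lit 296) (nat_lit 5) (nat_lit 583) (nat_lit 513) (nat_lit 464)) (XT.lf (nat_lit 0) (nat_lit 519394925) (nat_lit 684) (nat_lit 4620281197) (nat_lit 76) (nat_lit 3690883751) (nat_lit 286) (nat_lit 5) (nat_lit 295) (nat_lit 5) (nat_lit 287) (nat_lit 5) (nat_lit 584) (nat_lit 513) (nat_lit 463))) (XT.nd (nat_lit 78) (nat_lit 0) (nat_lit 0) (XT.lf (nat_lit 0) (nat_lit 1706633738) (nat_lit 608) (nat_lit 1851809736) (nat_lit 684) (nat_lit 5353251992) (nat_lit 278) (nat_lit 5) (nat_lit 286) (nat_lit 5) (nat_lit 287) (nat_lit 5) (nat_lit 585) (nat_lit 513) (nat_lit 462)) (XT.lf (nat_lit 0) (nat_lit 6658612785) (nat_lit 684) (nat_lit 834960770) (nat_lit 76) (nat_lit 1500875432) (nat_lit 278) (nat_lit 5) (nat_lit 287) (nat_lit 5)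 (nat_lit 279) (nat_lit 5) (nat_lit 586) (nat_lit 513) (nat_lit 461))))) (XT.nd (nat_lit 312) (nat_lit 1596) (nat_lit 0) (XT.nd (nat_lit 156) (nat_lit 608) (nat_lit 0) (XT.nd (nat_lit 78) (nat_lit 532) (nat_lit 0) (XT.lf (nat_lit 0) (nat_lit 741521406) (nat_lit 684) (nat_lit 3411717465) (nat_lit 76) (nat_lit 4925337820) (nat_lit 269) (nat_lit 5) (nat_lit 278) (nat_lit 5) (nat_lit 270) (nat_lit 5) (nat_lit 587) (nat_lit 513) (nat_lit 460)) (XT.lf (nat_lit 0) (nat_lit 3118135848) (nat_lit 532) (nat_lit 717280892) (nat_lit 608) (nat_lit 5328937960) (nat_lit 262) (nat_lit 5) (nat_lit 269) (nat_lit 5) (nat_lit 270) (nat_lit 5) (nat_lit 588) (nat_lit 513) (nat_lit 459))) (XT.nd (nat_lit 78) (nat_lit 76) (nat_lit 0) (XT.lf (nat_lit 0) (nat_lit 508500725) (nat_lit 532) (nat_lit 6487835619) (nat_lit 608) (nat_lit 2255410856) (nat_lit 255) (nat_lit 5) (nat_lit 262) (nat_lit 5) (nat_lit 263) (nat_lit 5) (nat_lit 589) (nat_lit 513) (nat_lit 458)) (XT.lf (nat_lit 0) (nat_lit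 874511391) (nat_lit 608) (nat_lit 2128065512) (nat_lit 76) (nat_lit 6338069006) (nat_lit 254) (nat_lit 5) (nat_lit 262) (nat_lit 5) (nat_lit 255) (nat_lit 5) (nat_lit 590) (nat_lit 513) (nat_lit 457)))) (XT.nd (nat_lit 156) (nat_lit 532) (nat_lit 0) (XT.nd (nat_lit 78) (nat_lit 532) (nat_lit 0) (XT.lf (nat_lit 0) (nat_lit 4032235388) (nat_lit 608) (nat_lit 4822492532) (nat_lit 76) (nat_lit 576390194) (nat_lit 247) (nat_lit 5) (nat_lit 255) (nat_lit 5) (nat_lit 248) (nat_lit 5) (nat_lit 591) (nat_lit 513) (nat_lit 456)) (XT.lf (nat_lit 0) (nat_lit 1938420246) (nat_lit 532) (nat_lit 5323495993) (nat_lit 608) (nat_lit 2261309194) (nat_lit 240) (nat_lit 5) (nat_lit 247) (nat_lit 5) (nat_lit 248) (nat_lit 5) (nat_lit 592) (nat_lit 513) (nat_lit 455))) (XT.nd (nat_lit 78) (nat_lit 456) (nat_lit 0) (XT.lf (nat_lit 0) (nat_lit 921387885) (nat_lit 608) (nat_lit 775881149) (nat_lit 76) (nat_lit 7919891832) (nat_lit 239) (nat_lit 5) (nat_lit 247) (nat_lit 5) (nat_lit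 240) (nat_lit 5) (nat_lit 593) (nat_lit 513) (nat_lit 454)) (XT.lf (nat_lit 0) (nat_lit 4153753735) (nat_lit 532) (nat_lit 3542464067) (nat_lit 76) (nat_lit 2016134003) (nat_lit 233) (nat_lit 5) (nat_lit 240) (nat_lit 5) (nat_lit 234) (nat_lit 5) (nat_lit 594) (nat_lit 513) (nat_lit 453))))))) (XT.nd (nat_lit 1092) (nat_lit 4028) (nat_lit 0) (XT.nd (nat_lit 546) (nat_lit 2204) (nat_lit 0) (XT.nd (nat_lit 234) (nat_lit 1444) (nat_lit 0) (XT.nd (nat_lit 78) (nat_lit 532) (nat_lit 0) (XT.lf (nat_lit 0) (nat_lit 3437329268) (nat_lit 532) (nat_lit 4015387996) (nat_lit 608) (nat_lit 2356691879) (nat_lit 226) (nat_lit 5) (nat_lit 233) (nat_lit 5) (nat_lit 234) (nat_lit 5) (nat_lit 595) (nat_lit 513) (nat_lit 452)) (XT.nd (nat_lit 78) (nat_lit 0) (nat_lit 0) (XT.lf (nat_lit 0) (nat_lit 646858236) (nat_lit 456) (nat_lit 241892613) (nat_lit 532) (nat_lit 9019711766) (nat_lit 219) (nat_lit 5) (nat_lit 225) (nat_lit 5) (nat_lit 226) (nat_lit 5) (nat_lit 596) (nat_lit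 513) (nat_lit 451)) (XT.lf (nat_lit 0) (nat_lit 4197612874) (nat_lit 532) (nat_lit 2208052869) (nat_lit 76) (nat_lit 3602920022) (nat_lit 219) (nat_lit 5) (nat_lit 226) (nat_lit 5) (nat_lit 220) (nat_lit 5) (nat_lit 597) (nat_lit 513) (nat_lit 450)))) (XT.nd (nat_lit 156) (nat_lit 456) (nat_lit 0) (XT.nd (nat_lit 78) (nat_lit 532) (nat_lit 0) (XT.lf (nat_lit 0) (nat_lit 4998910396) (nat_lit 456) (nat_lit 2572088503) (nat_lit 532) (nat_lit 2539747010) (nat_lit 213) (nat_lit 5) (nat_lit 219) (nat_lit 5) (nat_lit 220) (nat_lit 5) (nat_lit 598) (nat_lit 513) (nat_lit 449)) (XT.lf (nat_lit 0) (nat_lit 788465834) (nat_lit 532) (nat_lit 8087508437) (nat_lit 76) (nat_lit 1338832634) (nat_lit 206) (nat_lit 5) (nat_lit 213) (nat_lit 5) (nat_lit 207) (nat_lit 5) (nat_lit 599) (nat_lit 513) (nat_lit 448))) (XT.nd (nat_lit 78) (nat_lit 456) (nat_lit 0) (XT.lf (nat_lit 0) (nat_lit 4165510538) (nat_lit 532) (nat_lit 825849680) (nat_lit 76) (nat_lit 5328929034) (nat_lit 206)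 (nat_lit 5) (nat_lit 213) (nat_lit 5) (nat_lit 207) (nat_lit 5) (nat_lit 600) (nat_lit 513) (nat_lit 447)) (XT.lf (nat_lit 0) (nat_lit 6616829395) (nat_lit 456) (nat_lit 1001599200) (nat_lit 532) (nat_lit 2809287355) (nat_lit 200) (nat_lit 5) (nat_lit 206) (nat_lit 5) (nat_lit 207) (nat_lit 5) (nat_lit 601) (nat_lit 513) (nat_lit 446))))) (XT.nd (nat_lit 234) (nat_lit 1292) (nat_lit 0) (XT.nd (nat_lit 78) (nat_lit 456) (nat_lit 0) (XT.lf (nat_lit 0) (nat_lit 610171977) (nat_lit 456) (nat_lit 6881837098) (nat_lit 76) (nat_lit 3044905730) (nat_lit 194) (nat_lit 5) (nat_lit 200) (nat_lit 5) (nat_lit 195) (nat_lit 5) (nat_lit 602) (nat_lit 513) (nat_lit 445)) (XT.nd (nat_lit 78) (nat_lit 0) (nat_lit 0) (XT.lf (nat_lit 0) (nat_lit 605407256) (nat_lit 456) (nat_lit 3457070616) (nat_lit 532) (nat_lit 6585408180) (nat_lit 188) (nat_lit 5) (nat_lit 194) (nat_lit 5) (nat_lit 195) (nat_lit 5) (nat_lit 603) (nat_lit 513) (nat_lit 444)) (XT.lf (nat_lit 0) (nat_lit 7600554337)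 (nat_lit 532) (nat_lit 2480642507) (nat_lit 76) (nat_lit 679546641) (nat_lit 188) (nat_lit 5) (nat_lit 195) (nat_lit 5) (nat_lit 189) (nat_lit 5) (nat_lit 604) (nat_lit 513) (nat_lit 443)))) (XT.nd (nat_lit 156) (nat_lit 456) (nat_lit 0) (XT.nd (nat_lit 78) (nat_lit 380) (nat_lit 0) (XT.lf (nat_lit 0) (nat_lit 352778538) (nat_lit 456) (nat_lit 5650192846) (nat_lit 76) (nat_lit 4872372202) (nat_lit 182) (nat_lit 5) (nat_lit 188) (nat_lit 5) (nat_lit 183) (nat_lit 5) (nat_lit 605) (nat_lit 513) (nat_lit 442)) (XT.lf (nat_lit 0) (nat_lit 2082366578) (nat_lit 380) (nat_lit 1808377905) (nat_lit 456) (nat_lit 7101133531) (nat_lit 177) (nat_lit 5) (nat_lit 182) (nat_lit 5) (nat_lit 183) (nat_lit 5) (nat_lit 606) (nat_lit 513) (nat_lit 441))) (XT.nd (nat_lit 78) (nat_lit 456) (nat_lit 0) (XT.lf (nat_lit 0) (nat_lit 7520623894) (nat_lit 456) (nat_lit 1131008026) (nat_lit 76) (nat_lit 2458689284) (nat_lit 177) (nat_lit 5) (nat_lit 183) (nat_lit 5) (nat_lit 178) (nat_lit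 5) (nat_lit 607) (nat_lit 513) (nat_lit 440)) (XT.lf (nat_lit 0) (nat_lit 16153964) (nat_lit 456) (nat_lit 4399989451) (nat_lit 76) (nat_lit 6814510377) (nat_lit 171) (nat_lit 5) (nat_lit 177) (nat_lit 5) (nat_lit 172) (nat_lit 5) (nat_lit 608) (nat_lit 513) (nat_lit 439)))))) (XT.nd (nat_lit 546) (nat_lit 2052) (nat_lit 0) (XT.nd (nat_lit 234) (nat_lit 1216) (nat_lit 0) (XT.nd (nat_lit 78) (nat_lit 380) (nat_lit 0) (XT.lf (nat_lit 0) (nat_lit 3586873865) (nat_lit 380) (nat_lit 57853175) (nat_lit 456) (nat_lit 7708219106) (nat_lit 166) (nat_lit 5) (nat_lit 171) (nat_lit 5) (nat_lit 172) (nat_lit 5) (nat_lit 609) (nat_lit 513) (nat_lit 438)) (XT.nd (nat_lit 78) (nat_lit 0) (nat_lit 0) (XT.lf (nat_lit 0) (nat_lit 240289656) (nat_lit 380) (nat_lit 7133244684) (nat_lit 456) (nat_lit 4103597820) (nat_lit 161) (nat_lit 5) (nat_lit 166) (nat_lit 5) (nat_lit 167) (nat_lit 5) (nat_lit 610) (nat_lit 513) (nat_lit 437)) (XT.lf (nat_lit 0) (nat_lit 8461789383) (nat_lit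 380) (nat_lit 2735822811) (nat_lit 456) (nat_lit 405776858) (nat_lit 161) (nat_lit 5) (nat_lit 166) (nat_lit 5) (nat_lit 167) (nat_lit 5) (nat_lit 611) (nat_lit 513) (nat_lit 436)))) (XT.nd (nat_lit 156) (nat_lit 456) (nat_lit 0) (XT.nd (nat_lit 78) (nat_lit 304) (nat_lit 0) (XT.lf (nat_lit 0) (nat_lit 3335264290) (nat_lit 456) (nat_lit 6631887990) (nat_lit 76) (nat_lit 1764314533) (nat_lit 155) (nat_lit 5) (nat_lit 161) (nat_lit 5) (nat_lit 156) (nat_lit 5) (nat_lit 612) (nat_lit 513) (nat_lit 435)) (XT.lf (nat_lit 0) (nat_lit 1637518379) (nat_lit 304) (nat_lit 5526947416) (nat_lit 380) (nat_lit 4697212220) (nat_lit 151) (nat_lit 5) (nat_lit 155) (nat_lit 5) (nat_lit 156) (nat_lit 5) (nat_lit 613) (nat_lit 513) (nat_lit 434))) (XT.nd (nat_lit 78) (nat_lit 456) (nat_lit 0) (XT.lf (nat_lit 0) (nat_lit 10113040825) (nat_lit 304) (nat_lit 970803077) (nat_lit 380) (nat_lit 910378655) (nat_lit 151) (nat_lit 5) (nat_lit 155) (nat_lit 5) (nat_lit 156) (nat_lit 5)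 (nat_lit 614) (nat_lit 513) (nat_lit 433)) (XT.lf (nat_lit 0) (nat_lit 2950295583) (nat_lit 456) (nat_lit 5504880246) (nat_lit 76) (nat_lit 3673123287) (nat_lit 145) (nat_lit 5) (nat_lit 151) (nat_lit 5) (nat_lit 146) (nat_lit 5) (nat_lit 615) (nat_lit 513) (nat_lit 432))))) (XT.nd (nat_lit 312) (nat_lit 988) (nat_lit 0) (XT.nd (nat_lit 156) (nat_lit 760) (nat_lit 0) (XT.nd (nat_lit 78) (nat_lit 0) (nat_lit 0) (XT.lf (nat_lit 0) (nat_lit 3037320410) (nat_lit 304) (nat_lit 3847201981) (nat_lit 380) (nat_lit 5380244793) (nat_lit 141) (nat_lit 5) (nat_lit 145) (nat_lit 5) (nat_lit 146) (nat_lit 5) (nat_lit 616) (nat_lit 513) (nat_lit 431)) (XT.lf (nat_lit 0) (nat_lit 10909978495) (nat_lit 380) (nat_lit 632964245) (nat_lit 76) (nat_lit 860771872) (nat_lit 141) (nat_lit 5) (nat_lit 146) (nat_lit 5) (nat_lit 142) (nat_lit 5) (nat_lit 617) (nat_lit 513) (nat_lit 430))) (XT.nd (nat_lit 78) (nat_lit 304) (nat_lit 0) (XT.lf (nat_lit 0) (nat_lit 2487342279) (nat_lit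 456) (nat_lit 4393766923) (nat_lit 76) (nat_lit 5663027030) (nat_lit 135) (nat_lit 5) (nat_lit 141) (nat_lit 5) (nat_lit 136) (nat_lit 5) (nat_lit 618) (nat_lit 513) (nat_lit 429)) (XT.lf (nat_lit 0) (nat_lit 4430799593) (nat_lit 304) (nat_lit 2100792632) (nat_lit 380) (nat_lit 6155506407) (nat_lit 131) (nat_lit 5) (nat_lit 135) (nat_lit 5) (nat_lit 136) (nat_lit 5) (nat_lit 619) (nat_lit 513) (nat_lit 428)))) (XT.nd (nat_lit 156) (nat_lit 608) (nat_lit 0) (XT.nd (nat_lit 78) (nat_lit 76) (nat_lit 0) (XT.lf (nat_lit 0) (nat_lit 600540166) (nat_lit 304) (nat_lit 10078421465) (nat_lit 380) (nat_lit 2153514786) (nat_lit 127) (nat_lit 5) (nat_lit 131) (nat_lit 5) (nat_lit 132) (nat_lit 5) (nat_lit 620) (nat_lit 513) (nat_lit 427)) (XT.lf (nat_lit 0) (nat_lit 1943616298) (nat_lit 380) (nat_lit 3308303059) (nat_lit 76) (nat_lit 7727784920) (nat_lit 126) (nat_lit 5) (nat_lit 131) (nat_lit 5) (nat_lit 127) (nat_lit 5) (nat_lit 621) (nat_lit 513) (nat_lit 426))) (XT.nd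 (nat_lit 78) (nat_lit 304) (nat_lit 0) (XT.lf (nat_lit 0) (nat_lit 5808384618) (nat_lit 304) (nat_lit 294491912) (nat_lit 380) (nat_lit 7026535806) (nat_lit 122) (nat_lit 5) (nat_lit 126) (nat_lit 5) (nat_lit 127) (nat_lit 5) (nat_lit 622) (nat_lit 513) (nat_lit 425)) (XT.lf (nat_lit 0) (nat_lit 1815857587) (nat_lit 304) (nat_lit 8565940702) (nat_lit 380) (nat_lit 2899587501) (nat_lit 118) (nat_lit 5) (nat_lit 122) (nat_lit 5) (nat_lit 123) (nat_lit 5) (nat_lit 623) (nat_lit 513) (nat_lit 424))))))))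
noncomputable def xc59 : XT := (XT.nd (nat_lit 74334) (nat_lit 0) (nat_lit 28044) (XT.nd (nat_lit 1092) (nat_lit 1900) (nat_lit 0) (XT.nd (nat_lit 546) (nat_lit 1444) (nat_lit 0) (XT.nd (nat_lit 234) (nat_lit 608) (nat_lit 0) (XT.nd (nat_lit 78) (nat_lit 532) (nat_lit 0) (XT.lf (nat_lit 0) (nat_lit 1315610126) (nat_lit 380) (nat_lit 2259017312) (nat_lit 76) (nat_lit 9861144117) (nat_lit 117) (nat_lit 5) (nat_lit 122) (nat_lit 5) (nat_lit 118) (nat_lit 5) (nat_lit 624) (nat_lit 513) (nat_lit 423)) (XT.nd (nat_lit 78) (nat_lit 304) (nat_lit 0) (XT.lf (nat_lit 0) (nat_lit 5605013695) (nat_lit 304) (nat_lit 6442936714) (nat_lit 76) (nat_lit 1544337469) (nat_lit 114) (nat_lit 5) (nat_lit 118) (nat_lit 5) (nat_lit 115) (nat_lit 5) (nat_lit 625) (nat_lit 513) (nat_lit 422)) (XT.lf (nat_lit 0) (nat_lit 2993630640) (nat_lit 304) (nat_lit 7017116176) (nat_lit 380) (nat_lit 3740577587) (nat_lit 110) (nat_lit 5) (nat_lit 114) (nat_lit 5) (nat_lit 115) (nat_lit 5) (nat_lit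 626) (nat_lit 513) (nat_lit 421)))) (XT.nd (nat_lit 156) (nat_lit 304) (nat_lit 0) (XT.nd (nat_lit 78) (nat_lit 228) (nat_lit 0) (XT.lf (nat_lit 0) (nat_lit 599056077) (nat_lit 380) (nat_lit 1257333139) (nat_lit 76) (nat_lit 12056761272) (nat_lit 109) (nat_lit 5) (nat_lit 114) (nat_lit 5) (nat_lit 110) (nat_lit 5) (nat_lit 627) (nat_lit 513) (nat_lit 420)) (XT.lf (nat_lit 0) (nat_lit 5025767453) (nat_lit 304) (nat_lit 5626179278) (nat_lit 76) (nat_lit 3424765094) (nat_lit 106) (nat_lit 5) (nat_lit 110) (nat_lit 5) (nat_lit 107) (nat_lit 5) (nat_lit 628) (nat_lit 513) (nat_lit 419))) (XT.nd (nat_lit 78) (nat_lit 0) (nat_lit 0) (XT.lf (nat_lit 0) (nat_lit 4121935886) (nat_lit 304) (nat_lit 5439521383) (nat_lit 380) (nat_lit 4681678888) (nat_lit 102) (nat_lit 5) (nat_lit 106) (nat_lit 5) (nat_lit 107) (nat_lit 5) (nat_lit 629) (nat_lit 513) (nat_lit 418)) (XT.lf (nat_lit 0) (nat_lit 14095582726) (nat_lit 304) (nat_lit 103162233) (nat_lit 380) (nat_lit 213926973)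 (nat_lit 102) (nat_lit 5) (nat_lit 106) (nat_lit 5) (nat_lit 107) (nat_lit 5) (nat_lit 630) (nat_lit 513) (nat_lit 417))))) (XT.nd (nat_lit 234) (nat_lit 608) (nat_lit 0) (XT.nd (nat_lit 78) (nat_lit 532) (nat_lit 0) (XT.lf (nat_lit 0) (nat_lit 4358076488) (nat_lit 304) (nat_lit 4881993966) (nat_lit 76) (nat_lit 5343527443) (nat_lit 98) (nat_lit 5) (nat_lit 102) (nat_lit 5) (nat_lit 99) (nat_lit 5) (nat_lit 631) (nat_lit 513) (nat_lit 416)) (XT.nd (nat_lit 78) (nat_lit 228) (nat_lit 0) (XT.lf (nat_lit 0) (nat_lit 5187732524) (nat_lit 304) (nat_lit 3841022472) (nat_lit 380) (nat_lit 5728957717) (nat_lit 94) (nat_lit 5) (nat_lit 98) (nat_lit 5) (nat_lit 99) (nat_lit 5) (nat_lit 632) (nat_lit 513) (nat_lit 415)) (XT.lf (nat_lit 0) (nat_lit 541072707) (nat_lit 228) (nat_lit 13272775356) (nat_lit 304) (nat_lit 1121042330) (nat_lit 91) (nat_lit 5) (nat_lit 94) (nat_lit 5) (nat_lit 95) (nat_lit 5) (nat_lit 633) (nat_lit 513) (nat_lit 414)))) (XT.nd (nat_lit 156)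 (nat_lit 304) (nat_lit 0) (XT.nd (nat_lit 78) (nat_lit 228) (nat_lit 0) (XT.lf (nat_lit 0) (nat_lit 3595917220) (nat_lit 304) (nat_lit 4224773425) (nat_lit 76) (nat_lit 7293180292) (nat_lit 90) (nat_lit 5) (nat_lit 94) (nat_lit 5) (nat_lit 91) (nat_lit 5) (nat_lit 634) (nat_lit 513) (nat_lit 413)) (XT.lf (nat_lit 0) (nat_lit 6176710313) (nat_lit 228) (nat_lit 2229870424) (nat_lit 304) (nat_lit 6889415196) (nat_lit 87) (nat_lit 5) (nat_lit 90) (nat_lit 5) (nat_lit 91) (nat_lit 5) (nat_lit 635) (nat_lit 513) (nat_lit 412))) (XT.nd (nat_lit 78) (nat_lit 76) (nat_lit 0) (XT.lf (nat_lit 0) (nat_lit 1312146421) (nat_lit 228) (nat_lit 12035270415) (nat_lit 304) (nat_lit 2133667952) (nat_lit 84) (nat_lit 5) (nat_lit 87) (nat_lit 5) (nat_lit 88) (nat_lit 5) (nat_lit 636) (nat_lit 513) (nat_lit 411)) (XT.lf (nat_lit 0) (nat_lit 2732325953) (nat_lit 304) (nat_lit 3670314282) (nat_lit 76) (nat_lit 9265867508) (nat_lit 83) (nat_lit 5) (nat_lit 87) (nat_lit 5) (nat_lit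 84) (nat_lit 5) (nat_lit 637) (nat_lit 513) (nat_lit 410)))))) (XT.nd (nat_lit 546) (nat_lit 608) (nat_lit 0) (XT.nd (nat_lit 234) (nat_lit 760) (nat_lit 0) (XT.nd (nat_lit 78) (nat_lit 304) (nat_lit 0) (XT.lf (nat_lit 0) (nat_lit 7073123457) (nat_lit 228) (nat_lit 614798918) (nat_lit 304) (nat_lit 8171058176) (nat_lit 80) (nat_lit 5) (nat_lit 83) (nat_lit 5) (nat_lit 84) (nat_lit 5) (nat_lit 638) (nat_lit 513) (nat_lit 409)) (XT.nd (nat_lit 78) (nat_lit 76) (nat_lit 0) (XT.lf (nat_lit 0) (nat_lit 1975942007) (nat_lit 228) (nat_lit 10813640187) (nat_lit 304) (nat_lit 3262742093) (nat_lit 77) (nat_lit 5) (nat_lit 80) (nat_lit 5) (nat_lit 81) (nat_lit 5) (nat_lit 639) (nat_lit 513) (nat_lit 408)) (XT.lf (nat_lit 0) (nat_lit 1759324224) (nat_lit 304) (nat_lit 3235994229) (nat_lit 76) (nat_lit 11253221432) (nat_lit 76) (nat_lit 5) (nat_lit 80) (nat_lit 5) (nat_lit 77) (nat_lit 5) (nat_lit 640) (nat_lit 513) (nat_lit 407)))) (XT.nd (nat_lit 156) (nat_lit 304) (nat_lit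 0) (XT.nd (nat_lit 78) (nat_lit 228) (nat_lit 0) (XT.lf (nat_lit 0) (nat_lit 6871196974) (nat_lit 304) (nat_lit 8594567609) (nat_lit 76) (nat_lit 981823286) (nat_lit 73) (nat_lit 5) (nat_lit 77) (nat_lit 5) (nat_lit 74) (nat_lit 5) (nat_lit 641) (nat_lit 513) (nat_lit 406)) (XT.lf (nat_lit 0) (nat_lit 2514096869) (nat_lit 228) (nat_lit 9618079338) (nat_lit 304) (nat_lit 4517503691) (nat_lit 70) (nat_lit 5) (nat_lit 73) (nat_lit 5) (nat_lit 74) (nat_lit 5) (nat_lit 642) (nat_lit 513) (nat_lit 405))) (XT.nd (nat_lit 78) (nat_lit 228) (nat_lit 0) (XT.lf (nat_lit 0) (nat_lit 667834548) (nat_lit 304) (nat_lit 2940966014) (nat_lit 76) (nat_lit 13246256200) (nat_lit 69) (nat_lit 5) (nat_lit 73) (nat_lit 5) (nat_lit 70) (nat_lit 5) (nat_lit 643) (nat_lit 513) (nat_lit 404)) (XT.lf (nat_lit 0) (nat_lit 5944677069) (nat_lit 304) (nat_lit 8563138516) (nat_lit 76) (nat_lit 2555163067) (nat_lit 66) (nat_lit 5) (nat_lit 70) (nat_lit 5) (nat_lit 67) (nat_lit 5) (nat_lit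 644) (nat_lit 513) (nat_lit 403))))) (XT.nd (nat_lit 72384) (nat_lit 0) (nat_lit 51984) (XT.nd (nat_lit 156) (nat_lit 456) (nat_lit 0) (XT.nd (nat_lit 78) (nat_lit 0) (nat_lit 0) (XT.lf (nat_lit 0) (nat_lit 2906333280) (nat_lit 152) (nat_lit 8459556367) (nat_lit 228) (nat_lit 5908393096) (nat_lit 64) (nat_lit 5) (nat_lit 66) (nat_lit 5) (nat_lit 67) (nat_lit 5) (nat_lit 645) (nat_lit 513) (nat_lit 402)) (XT.lf (nat_lit 0) (nat_lit 14679131698) (nat_lit 152) (nat_lit 2250248959) (nat_lit 228) (nat_lit 559755597) (nat_lit 64) (nat_lit 5) (nat_lit 66) (nat_lit 5) (nat_lit 67) (nat_lit 5) (nat_lit 646) (nat_lit 513) (nat_lit 401))) (XT.nd (nat_lit 78) (nat_lit 152) (nat_lit 0) (XT.lf (nat_lit 0) (nat_lit 4893925639) (nat_lit 304) (nat_lit 8709894556) (nat_lit 76) (nat_lit 4102585682) (nat_lit 60) (nat_lit 5) (nat_lit 64) (nat_lit 5) (nat_lit 61) (nat_lit 5) (nat_lit 647) (nat_lit 513) (nat_lit 400)) (XT.lf (nat_lit 0) (nat_lit 3130230868) (nat_lit 152) (nat_lit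 7349939075) (nat_lit 228) (nat_lit 7447157655) (nat_lit 58) (nat_lit 5) (nat_lit 60) (nat_lit 5) (nat_lit 61) (nat_lit 5) (nat_lit 648) (nat_lit 513) (nat_lit 399)))) (XT.nd (nat_lit 156) (nat_lit 684) (nat_lit 0) (XT.nd (nat_lit 78) (nat_lit 532) (nat_lit 0) (XT.lf (nat_lit 0) (nat_lit 800147564) (nat_lit 532) (nat_lit 1655067633) (nat_lit 0) (nat_lit 800147564) (nat_lit 758) (nat_lit 5) (nat_lit 765) (nat_lit 4) (nat_lit 758) (nat_lit 4) (nat_lit 532) (nat_lit 514) (nat_lit 514)) (XT.lf (nat_lit 0) (nat_lit 501763077) (nat_lit 532) (nat_lit 4323877540) (nat_lit 532) (nat_lit 1697205862) (nat_lit 751) (nat_lit 4) (nat_lit 758) (nat_lit 5) (nat_lit 758) (nat_lit 4) (nat_lit 533) (nat_lit 514) (nat_lit 513))) (XT.nd (nat_lit 78) (nat_lit 608) (nat_lit 0) (XT.lf (nat_lit 0) (nat_lit 1504598252) (nat_lit 608) (nat_lit 2162551521) (nat_lit 76) (nat_lit 2868962268) (nat_lit 750) (nat_lit 5) (nat_lit 758) (nat_lit 5) (nat_lit 751) (nat_lit 4) (nat_lit 534) (nat_lit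 514) (nat_lit 512)) (XT.lf (nat_lit 0) (nat_lit 1733521457) (nat_lit 608) (nat_lit 2949664811) (nat_lit 684) (nat_lit 1867530854) (nat_lit 742) (nat_lit 5) (nat_lit 750) (nat_lit 5) (nat_lit 751) (nat_lit 4) (nat_lit 535) (nat_lit 514) (nat_lit 511))))))) (XT.nd (nat_lit 1170) (nat_lit 14516) (nat_lit 0) (XT.nd (nat_lit 546) (nat_lit 6004) (nat_lit 0) (XT.nd (nat_lit 234) (nat_lit 1824) (nat_lit 0) (XT.nd (nat_lit 78) (nat_lit 1520) (nat_lit 0) (XT.lf (nat_lit 0) (nat_lit 1281358014) (nat_lit 684) (nat_lit 889213887) (nat_lit 76) (nat_lit 4396084388) (nat_lit 741) (nat_lit 5) (nat_lit 750) (nat_lit 5) (nat_lit 742) (nat_lit 5) (nat_lit 536) (nat_lit 514) (nat_lit 510)) (XT.nd (nat_lit 78) (nat_lit 836) (nat_lit 0) (XT.lf (nat_lit 0) (nat_lit 3094768530) (nat_lit 684) (nat_lit 1319891494) (nat_lit 760) (nat_lit 2169086076) (nat_lit 732) (nat_lit 5) (nat_lit 741) (nat_lit 5) (nat_lit 742) (nat_lit 5) (nat_lit 537) (nat_lit 514) (nat_lit 509)) (XT.lf (nat_lit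 0) (nat_lit 518204925) (nat_lit 760) (nat_lit 414331624) (nat_lit 836) (nat_lit 5669790864) (nat_lit 721) (nat_lit 5) (nat_lit 731) (nat_lit 5) (nat_lit 732) (nat_lit 5) (nat_lit 538) (nat_lit 514) (nat_lit 508)))) (XT.nd (nat_lit 156) (nat_lit 912) (nat_lit 0) (XT.nd (nat_lit 78) (nat_lit 912) (nat_lit 0) (XT.lf (nat_lit 0) (nat_lit 4022239808) (nat_lit 836) (nat_lit 2038480659) (nat_lit 76) (nat_lit 561178433) (nat_lit 721) (nat_lit 5) (nat_lit 732) (nat_lit 5) (nat_lit 722) (nat_lit 5) (nat_lit 539) (nat_lit 514) (nat_lit 507)) (XT.lf (nat_lit 0) (nat_lit 470255028) (nat_lit 912) (nat_lit 4585325468) (nat_lit 76) (nat_lit 1587312017) (nat_lit 709) (nat_lit 5) (nat_lit 721) (nat_lit 5) (nat_lit 710) (nat_lit 5) (nat_lit 540) (nat_lit 514) (nat_lit 506))) (XT.nd (nat_lit 78) (nat_lit 912) (nat_lit 0) (XT.lf (nat_lit 0) (nat_lit 3510739944) (nat_lit 912) (nat_lit 470400489) (nat_lit 76) (nat_lit 2683948984) (nat_lit 709) (nat_lit 5) (nat_lit 721) (nat_lit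 5) (nat_lit 710) (nat_lit 5) (nat_lit 541) (nat_lit 514) (nat_lit 505)) (XT.lf (nat_lit 0) (nat_lit 3724465069) (nat_lit 912) (nat_lit 2843299756) (nat_lit 988) (nat_lit 120857433) (nat_lit 697) (nat_lit 5) (nat_lit 709) (nat_lit 5) (nat_lit 710) (nat_lit 5) (nat_lit 542) (nat_lit 514) (nat_lit 504))))) (XT.nd (nat_lit 312) (nat_lit 2660) (nat_lit 0) (XT.nd (nat_lit 156) (nat_lit 2280) (nat_lit 0) (XT.nd (nat_lit 78) (nat_lit 0) (nat_lit 0) (XT.lf (nat_lit 0) (nat_lit 1242231565) (nat_lit 988) (nat_lit 1635427869) (nat_lit 1064) (nat_lit 3835719565) (nat_lit 683) (nat_lit 5) (nat_lit 696) (nat_lit 5) (nat_lit 697) (nat_lit 5) (nat_lit 543) (nat_lit 514) (nat_lit 503)) (XT.lf (nat_lit 0) (nat_lit 5520680970) (nat_lit 988) (nat_lit 366839436) (nat_lit 1064) (nat_lit 852040872) (nat_lit 683) (nat_lit 5) (nat_lit 696) (nat_lit 5) (nat_lit 697) (nat_lit 5) (nat_lit 544) (nat_lit 514) (nat_lit 502))) (XT.nd (nat_lit 78) (nat_lit 1140) (nat_lit 0) (XT.lf (nat_lit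 0) (nat_lit 2122975092) (nat_lit 1140) (nat_lit 3679784487) (nat_lit 76) (nat_lit 964020991) (nat_lit 668) (nat_lit 5) (nat_lit 683) (nat_lit 5) (nat_lit 669) (nat_lit 5) (nat_lit 545) (nat_lit 514) (nat_lit 501)) (XT.lf (nat_lit 0) (nat_lit 649147193) (nat_lit 1140) (nat_lit 4446854778) (nat_lit 1216) (nat_lit 1699437113) (nat_lit 653) (nat_lit 5) (nat_lit 668) (nat_lit 5) (nat_lit 669) (nat_lit 5) (nat_lit 546) (nat_lit 514) (nat_lit 500)))) (XT.nd (nat_lit 156) (nat_lit 1368) (nat_lit 0) (XT.nd (nat_lit 78) (nat_lit 1216) (nat_lit 0) (XT.lf (nat_lit 0) (nat_lit 1247113166) (nat_lit 1216) (nat_lit 1771157340) (nat_lit 76) (nat_lit 3807028704) (nat_lit 652) (nat_lit 5) (nat_lit 668) (nat_lit 5) (nat_lit 653) (nat_lit 5) (nat_lit 547) (nat_lit 514) (nat_lit 499)) (XT.lf (nat_lit 0) (nat_lit 2663302487) (nat_lit 1216) (nat_lit 1520651207) (nat_lit 1292) (nat_lit 2672501409) (nat_lit 636) (nat_lit 5) (nat_lit 652) (nat_lit 5) (nat_lit 653) (nat_lit 5) (nat_lit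 548) (nat_lit 514) (nat_lit 498))) (XT.nd (nat_lit 78) (nat_lit 0) (nat_lit 0) (XT.lf (nat_lit 0) (nat_lit 238708727) (nat_lit 1368) (nat_lit 6617689959) (nat_lit 76) (nat_lit 32778268) (nat_lit 618) (nat_lit 5) (nat_lit 636) (nat_lit 5) (nat_lit 619) (nat_lit 5) (nat_lit 549) (nat_lit 514) (nat_lit 497)) (XT.lf (nat_lit 0) (nat_lit 3149030934) (nat_lit 1368) (nat_lit 2120998400) (nat_lit 76) (nat_lit 1652642355) (nat_lit 618) (nat_lit 5) (nat_lit 636) (nat_lit 5) (nat_lit 619) (nat_lit 5) (nat_lit 550) (nat_lit 514) (nat_lit 496)))))) (XT.nd (nat_lit 546) (nat_lit 6688) (nat_lit 0) (XT.nd (nat_lit 234) (nat_lit 4940) (nat_lit 0) (XT.nd (nat_lit 78) (nat_lit 1520) (nat_lit 0) (XT.lf (nat_lit 0) (nat_lit 2445433561) (nat_lit 1368) (nat_lit 3627458367) (nat_lit 1444) (nat_lit 884842849) (nat_lit 600) (nat_lit 5) (nat_lit 618) (nat_lit 5) (nat_lit 619) (nat_lit 5) (nat_lit 551) (nat_lit 514) (nat_lit 495)) (XT.nd (nat_lit 78) (nat_lit 0) (nat_lit 0) (XT.lf (nat_lit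 0) (nat_lit 73488402) (nat_lit 1444) (nat_lit 1915911792) (nat_lit 1520) (nat_lit 5004741931) (nat_lit 580) (nat_lit 5) (nat_lit 599) (nat_lit 5) (nat_lit 600) (nat_lit 5) (nat_lit 552) (nat_lit 514) (nat_lit 494)) (XT.lf (nat_lit 0) (nat_lit 4753842946) (nat_lit 1444) (nat_lit 126432552) (nat_lit 1520) (nat_lit 2151470046) (nat_lit 580) (nat_lit 5) (nat_lit 599) (nat_lit 5) (nat_lit 600) (nat_lit 5) (nat_lit 553) (nat_lit 514) (nat_lit 493)))) (XT.nd (nat_lit 156) (nat_lit 1748) (nat_lit 0) (XT.nd (nat_lit 78) (nat_lit 1596) (nat_lit 0) (XT.lf (nat_lit 0) (nat_lit 717432249) (nat_lit 1596) (nat_lit 4649522959) (nat_lit 76) (nat_lit 1703681554) (nat_lit 559) (nat_lit 5) (nat_lit 580) (nat_lit 5) (nat_lit 560) (nat_lit 5) (nat_lit 554) (nat_lit 514) (nat_lit 492)) (XT.lf (nat_lit 0) (nat_lit 67702685) (nat_lit 1596) (nat_lit 3506256894) (nat_lit 1672) (nat_lit 3536885226) (nat_lit 538) (nat_lit 5) (nat_lit 559) (nat_lit 5) (nat_lit 560) (nat_lit 5) (nat_lit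 555) (nat_lit 514) (nat_lit 491))) (XT.nd (nat_lit 78) (nat_lit 1748) (nat_lit 0) (XT.lf (nat_lit 0) (nat_lit 4889660359) (nat_lit 1596) (nat_lit 1572310413) (nat_lit 1672) (nat_lit 690403616) (nat_lit 538) (nat_lit 5) (nat_lit 559) (nat_lit 5) (nat_lit 560) (nat_lit 5) (nat_lit 556) (nat_lit 514) (nat_lit 490)) (XT.lf (nat_lit 0) (nat_lit 2147460972) (nat_lit 1748) (nat_lit 4617626582) (nat_lit 76) (nat_lit 430094366) (nat_lit 515) (nat_lit 5) (nat_lit 538) (nat_lit 5) (nat_lit 516) (nat_lit 5) (nat_lit 557) (nat_lit 514) (nat_lit 489))))) (XT.nd (nat_lit 312) (nat_lit 1976) (nat_lit 0) (XT.nd (nat_lit 156) (nat_lit 2888) (nat_lit 0) (XT.nd (nat_lit 78) (nat_lit 76) (nat_lit 0) (XT.lf (nat_lit 0) (nat_lit 241700364) (nat_lit 1748) (nat_lit 4763091013) (nat_lit 1824) (nat_lit 2234528080) (nat_lit 492) (nat_lit 5) (nat_lit 515) (nat_lit 5) (nat_lit 516) (nat_lit 5) (nat_lit 558) (nat_lit 514) (nat_lit 488)) (XT.lf (nat_lit 0) (nat_lit 602847718) (nat_lit 1824)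 (nat_lit 2080769215) (nat_lit 76) (nat_lit 4601119464) (nat_lit 491) (nat_lit 5) (nat_lit 515) (nat_lit 5) (nat_lit 492) (nat_lit 5) (nat_lit 559) (nat_lit 514) (nat_lit 487))) (XT.nd (nat_lit 78) (nat_lit 1064) (nat_lit 0) (XT.lf (nat_lit 0) (nat_lit 2905243222) (nat_lit 1824) (nat_lit 526829941) (nat_lit 1900) (nat_lit 3899396604) (nat_lit 467) (nat_lit 5) (nat_lit 491) (nat_lit 5) (nat_lit 492) (nat_lit 5) (nat_lit 560) (nat_lit 514) (nat_lit 486)) (XT.lf (nat_lit 0) (nat_lit 583817054) (nat_lit 1064) (nat_lit 5709631027) (nat_lit 1140) (nat_lit 1086182290) (nat_lit 453) (nat_lit 5) (nat_lit 467) (nat_lit 5) (nat_lit 468) (nat_lit 5) (nat_lit 561) (nat_lit 514) (nat_lit 485)))) (XT.nd (nat_lit 156) (nat_lit 988) (nat_lit 0) (XT.nd (nat_lit 78) (nat_lit 912) (nat_lit 0) (XT.lf (nat_lit 0) (nat_lit 1740499885) (nat_lit 1140) (nat_lit 1742926492) (nat_lit 76) (nat_lit 3945488127) (nat_lit 452) (nat_lit 5) (nat_lit 467) (nat_lit 5) (nat_lit 453) (nat_lit 5)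 (nat_lit 562) (nat_lit 514) (nat_lit 484)) (XT.lf (nat_lit 0) (nat_lit 3395849681) (nat_lit 912) (nat_lit 1183622838) (nat_lit 988) (nat_lit 2900165835) (nat_lit 440) (nat_lit 5) (nat_lit 452) (nat_lit 5) (nat_lit 453) (nat_lit 5) (nat_lit 563) (nat_lit 514) (nat_lit 483))) (XT.nd (nat_lit 78) (nat_lit 76) (nat_lit 0) (XT.lf (nat_lit 0) (nat_lit 1083283751) (nat_lit 912) (nat_lit 6367201571) (nat_lit 988) (nat_lit 81389718) (nat_lit 428) (nat_lit 5) (nat_lit 440) (nat_lit 5) (nat_lit 441) (nat_lit 5) (nat_lit 564) (nat_lit 514) (nat_lit 482)) (XT.lf (nat_lit 0) (nat_lit 2741775240) (nat_lit 988) (nat_lit 1255226239) (nat_lit 76) (nat_lit 3588102557) (nat_lit 427) (nat_lit 5) (nat_lit 440) (nat_lit 5) (nat_lit 428) (nat_lit 5) (nat_lit 565) (nat_lit 514) (nat_lit 481))))))))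
noncomputable def xc60 : XT := (XT.nd (nat_lit 2262) (nat_lit 8436) (nat_lit 0) (XT.nd (nat_lit 1092) (nat_lit 6688) (nat_lit 0) (XT.nd (nat_lit 546) (nat_lit 3800) (nat_lit 0) (XT.nd (nat_lit 234) (nat_lit 2508) (nat_lit 0) (XT.nd (nat_lit 78) (nat_lit 912) (nat_lit 0) (XT.lf (nat_lit 0) (nat_lit 4042014820) (nat_lit 836) (nat_lit 1554768419) (nat_lit 912) (nat_lit 2043077588) (nat_lit 416) (nat_lit 5) (nat_lit 427) (nat_lit 5) (nat_lit 428) (nat_lit 5) (nat_lit 566) (nat_lit 514) (nat_lit 480)) (XT.nd (nat_lit 78) (nat_lit 0) (nat_lit 0) (XT.lf (nat_lit 0) (nat_lit 778990366) (nat_lit 912) (nat_lit 5971166338) (nat_lit 76) (nat_lit 945924160) (nat_lit 404) (nat_lit 5) (nat_lit 416) (nat_lit 5) (nat_lit 405) (nat_lit 5) (nat_lit 567) (nat_lit 514) (nat_lit 479)) (XT.lf (nat_lit 0) (nat_lit 3615908412) (nat_lit 912) (nat_lit 627417912) (nat_lit 76) (nat_lit 3510116745) (nat_lit 404) (nat_lit 5) (nat_lit 416) (nat_lit 5) (nat_lit 405) (nat_lit 5) (nat_lit 568)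 (nat_lit 514) (nat_lit 478)))) (XT.nd (nat_lit 156) (nat_lit 760) (nat_lit 0) (XT.nd (nat_lit 78) (nat_lit 912) (nat_lit 0) (XT.lf (nat_lit 0) (nat_lit 4834265771) (nat_lit 836) (nat_lit 1658784501) (nat_lit 912) (nat_lit 1319235648) (nat_lit 393) (nat_lit 5) (nat_lit 404) (nat_lit 5) (nat_lit 405) (nat_lit 5) (nat_lit 569) (nat_lit 514) (nat_lit 477)) (XT.lf (nat_lit 0) (nat_lit 1514475269) (nat_lit 912) (nat_lit 5367517616) (nat_lit 76) (nat_lit 990524841) (nat_lit 381) (nat_lit 5) (nat_lit 393) (nat_lit 5) (nat_lit 382) (nat_lit 5) (nat_lit 570) (nat_lit 514) (nat_lit 476))) (XT.nd (nat_lit 78) (nat_lit 0) (nat_lit 0) (XT.lf (nat_lit 0) (nat_lit 133190286) (nat_lit 760) (nat_lit 4238932155) (nat_lit 836) (nat_lit 3561961723) (nat_lit 371) (nat_lit 5) (nat_lit 381) (nat_lit 5) (nat_lit 382) (nat_lit 5) (nat_lit 571) (nat_lit 514) (nat_lit 475)) (XT.lf (nat_lit 0) (nat_lit 5763824108) (nat_lit 760) (nat_lit 1512640455) (nat_lit 836) (nat_lit 720629404) (nat_lit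 371) (nat_lit 5) (nat_lit 381) (nat_lit 5) (nat_lit 382) (nat_lit 5) (nat_lit 572) (nat_lit 514) (nat_lit 474))))) (XT.nd (nat_lit 234) (nat_lit 2280) (nat_lit 0) (XT.nd (nat_lit 78) (nat_lit 684) (nat_lit 0) (XT.lf (nat_lit 0) (nat_lit 2133764162) (nat_lit 836) (nat_lit 4645935659) (nat_lit 76) (nat_lit 1281688280) (nat_lit 360) (nat_lit 5) (nat_lit 371) (nat_lit 5) (nat_lit 361) (nat_lit 5) (nat_lit 573) (nat_lit 514) (nat_lit 473)) (XT.nd (nat_lit 78) (nat_lit 0) (nat_lit 0) (XT.lf (nat_lit 0) (nat_lit 1026382889) (nat_lit 684) (nat_lit 3995636865) (nat_lit 760) (nat_lit 3105127339) (nat_lit 351) (nat_lit 5) (nat_lit 360) (nat_lit 5) (nat_lit 361) (nat_lit 5) (nat_lit 574) (nat_lit 514) (nat_lit 472)) (XT.lf (nat_lit 0) (nat_lit 6822530441) (nat_lit 684) (nat_lit 1131881734) (nat_lit 760) (nat_lit 240084309) (nat_lit 351) (nat_lit 5) (nat_lit 360) (nat_lit 5) (nat_lit 361) (nat_lit 5) (nat_lit 575) (nat_lit 514) (nat_lit 471)))) (XT.nd (nat_lit 156) (nat_lit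 760) (nat_lit 0) (XT.nd (nat_lit 78) (nat_lit 684) (nat_lit 0) (XT.lf (nat_lit 0) (nat_lit 2643692783) (nat_lit 836) (nat_lit 3814686264) (nat_lit 76) (nat_lit 1804535838) (nat_lit 340) (nat_lit 5) (nat_lit 351) (nat_lit 5) (nat_lit 341) (nat_lit 5) (nat_lit 576) (nat_lit 514) (nat_lit 470)) (XT.lf (nat_lit 0) (nat_lit 2035826768) (nat_lit 684) (nat_lit 3532346402) (nat_lit 760) (nat_lit 2764774398) (nat_lit 331) (nat_lit 5) (nat_lit 340) (nat_lit 5) (nat_lit 341) (nat_lit 5) (nat_lit 577) (nat_lit 514) (nat_lit 469))) (XT.nd (nat_lit 78) (nat_lit 684) (nat_lit 0) (XT.lf (nat_lit 0) (nat_lit 127093102) (nat_lit 760) (nat_lit 402800234) (nat_lit 76) (nat_lit 7874825801) (nat_lit 330) (nat_lit 5) (nat_lit 340) (nat_lit 5) (nat_lit 331) (nat_lit 5) (nat_lit 578) (nat_lit 514) (nat_lit 468)) (XT.lf (nat_lit 0) (nat_lit 3050341950) (nat_lit 760) (nat_lit 2881553563) (nat_lit 76) (nat_lit 2545456194) (nat_lit 321) (nat_lit 5) (nat_lit 331) (nat_lit 5) (nat_lit 322)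 (nat_lit 5) (nat_lit 579) (nat_lit 514) (nat_lit 467)))))) (XT.nd (nat_lit 546) (nat_lit 3420) (nat_lit 0) (XT.nd (nat_lit 234) (nat_lit 1900) (nat_lit 0) (XT.nd (nat_lit 78) (nat_lit 760) (nat_lit 0) (XT.lf (nat_lit 0) (nat_lit 3154008684) (nat_lit 608) (nat_lit 2862537445) (nat_lit 684) (nat_lit 2535203303) (nat_lit 313) (nat_lit 5) (nat_lit 321) (nat_lit 5) (nat_lit 322) (nat_lit 5) (nat_lit 580) (nat_lit 514) (nat_lit 466)) (XT.nd (nat_lit 78) (nat_lit 0) (nat_lit 0) (XT.lf (nat_lit 0) (nat_lit 392698802) (nat_lit 760) (nat_lit 7954151137) (nat_lit 76) (nat_lit 281059678) (nat_lit 303) (nat_lit 5) (nat_lit 313) (nat_lit 5) (nat_lit 304) (nat_lit 5) (nat_lit 581) (nat_lit 514) (nat_lit 465)) (XT.lf (nat_lit 0) (nat_lit 3359073512) (nat_lit 760) (nat_lit 1853909650) (nat_lit 76) (nat_lit 3491999650) (nat_lit 303) (nat_lit 5) (nat_lit 313) (nat_lit 5) (nat_lit 304) (nat_lit 5) (nat_lit 582) (nat_lit 514) (nat_lit 464)))) (XT.nd (nat_lit 156) (nat_lit 608)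 (nat_lit 0) (XT.nd (nat_lit 78) (nat_lit 684) (nat_lit 0) (XT.lf (nat_lit 0) (nat_lit 4373827591) (nat_lit 608) (nat_lit 1998571835) (nat_lit 684) (nat_lit 2411447706) (nat_lit 295) (nat_lit 5) (nat_lit 303) (nat_lit 5) (nat_lit 304) (nat_lit 5) (nat_lit 583) (nat_lit 514) (nat_lit 463)) (XT.lf (nat_lit 0) (nat_lit 566491325) (nat_lit 684) (nat_lit 7017345182) (nat_lit 76) (nat_lit 1280530400) (nat_lit 286) (nat_lit 5) (nat_lit 295) (nat_lit 5) (nat_lit 287) (nat_lit 5) (nat_lit 584) (nat_lit 514) (nat_lit 462))) (XT.nd (nat_lit 78) (nat_lit 608) (nat_lit 0) (XT.lf (nat_lit 0) (nat_lit 3574561363) (nat_lit 684) (nat_lit 738782889) (nat_lit 76) (nat_lit 4632778815) (nat_lit 286) (nat_lit 5) (nat_lit 295) (nat_lit 5) (nat_lit 287) (nat_lit 5) (nat_lit 585) (nat_lit 514) (nat_lit 461)) (XT.lf (nat_lit 0) (nat_lit 5688526239) (nat_lit 608) (nat_lit 951794579) (nat_lit 684) (nat_lit 2389244945) (nat_lit 278) (nat_lit 5) (nat_lit 286) (nat_lit 5) (nat_lit 287) (nat_lit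 5) (nat_lit 586) (nat_lit 514) (nat_lit 460))))) (XT.nd (nat_lit 312) (nat_lit 1596) (nat_lit 0) (XT.nd (nat_lit 156) (nat_lit 608) (nat_lit 0) (XT.nd (nat_lit 78) (nat_lit 532) (nat_lit 0) (XT.lf (nat_lit 0) (nat_lit 646409694) (nat_lit 684) (nat_lit 6006154986) (nat_lit 76) (nat_lit 2461984729) (nat_lit 269) (nat_lit 5) (nat_lit 278) (nat_lit 5) (nat_lit 270) (nat_lit 5) (nat_lit 587) (nat_lit 514) (nat_lit 459)) (XT.lf (nat_lit 0) (nat_lit 463148859) (nat_lit 532) (nat_lit 3240675872) (nat_lit 608) (nat_lit 5497233213) (nat_lit 262) (nat_lit 5) (nat_lit 269) (nat_lit 5) (nat_lit 270) (nat_lit 5) (nat_lit 588) (nat_lit 514) (nat_lit 458))) (XT.nd (nat_lit 78) (nat_lit 608) (nat_lit 0) (XT.lf (nat_lit 0) (nat_lit 6825985863) (nat_lit 608) (nat_lit 2199373733) (nat_lit 76) (nat_lit 263866920) (nat_lit 262) (nat_lit 5) (nat_lit 270) (nat_lit 5) (nat_lit 263) (nat_lit 5) (nat_lit 589) (nat_lit 514) (nat_lit 457)) (XT.lf (nat_lit 0) (nat_lit 635849661) (nat_lit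 608) (nat_lit 4927473584) (nat_lit 76) (nat_lit 3815500989) (nat_lit 254) (nat_lit 5) (nat_lit 262) (nat_lit 5) (nat_lit 255) (nat_lit 5) (nat_lit 590) (nat_lit 514) (nat_lit 456)))) (XT.nd (nat_lit 156) (nat_lit 1064) (nat_lit 0) (XT.nd (nat_lit 78) (nat_lit 0) (nat_lit 0) (XT.lf (nat_lit 0) (nat_lit 1750072085) (nat_lit 532) (nat_lit 2002504922) (nat_lit 608) (nat_lit 5717540215) (nat_lit 247) (nat_lit 5) (nat_lit 254) (nat_lit 5) (nat_lit 255) (nat_lit 5) (nat_lit 591) (nat_lit 514) (nat_lit 455)) (XT.lf (nat_lit 0) (nat_lit 6938206982) (nat_lit 608) (nat_lit 997182565) (nat_lit 76) (nat_lit 1627716844) (nat_lit 247) (nat_lit 5) (nat_lit 255) (nat_lit 5) (nat_lit 248) (nat_lit 5) (nat_lit 592) (nat_lit 514) (nat_lit 454))) (XT.nd (nat_lit 78) (nat_lit 456) (nat_lit 0) (XT.lf (nat_lit 0) (nat_lit 537573536) (nat_lit 608) (nat_lit 3788049677) (nat_lit 76) (nat_lit 5331966479) (nat_lit 239) (nat_lit 5) (nat_lit 247) (nat_lit 5) (nat_lit 240) (nat_lit 5) (nat_lit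 593) (nat_lit 514) (nat_lit 453)) (XT.lf (nat_lit 0) (nat_lit 3105681879) (nat_lit 456) (nat_lit 612982507) (nat_lit 532) (nat_lit 6035142531) (nat_lit 233) (nat_lit 5) (nat_lit 239) (nat_lit 5) (nat_lit 240) (nat_lit 5) (nat_lit 594) (nat_lit 514) (nat_lit 452))))))) (XT.nd (nat_lit 1092) (nat_lit 3800) (nat_lit 0) (XT.nd (nat_lit 546) (nat_lit 2128) (nat_lit 0) (XT.nd (nat_lit 234) (nat_lit 1444) (nat_lit 0) (XT.nd (nat_lit 78) (nat_lit 532) (nat_lit 0) (XT.lf (nat_lit 0) (nat_lit 268745054) (nat_lit 532) (nat_lit 6706446370) (nat_lit 608) (nat_lit 2876522330) (nat_lit 226) (nat_lit 5) (nat_lit 233) (nat_lit 5) (nat_lit 234) (nat_lit 5) (nat_lit 595) (nat_lit 514) (nat_lit 451)) (XT.nd (nat_lit 78) (nat_lit 456) (nat_lit 0) (XT.lf (nat_lit 0) (nat_lit 353723422) (nat_lit 608) (nat_lit 2594556484) (nat_lit 76) (nat_lit 7002995855) (nat_lit 225) (nat_lit 5) (nat_lit 233) (nat_lit 5) (nat_lit 226) (nat_lit 5) (nat_lit 596) (nat_lit 514) (nat_lit 450)) (XT.lf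 (nat_lit 0) (nat_lit 3610152372) (nat_lit 532) (nat_lit 5534971644) (nat_lit 76) (nat_lit 907324282) (nat_lit 219) (nat_lit 5) (nat_lit 226) (nat_lit 5) (nat_lit 220) (nat_lit 5) (nat_lit 597) (nat_lit 514) (nat_lit 449)))) (XT.nd (nat_lit 156) (nat_lit 912) (nat_lit 0) (XT.nd (nat_lit 78) (nat_lit 76) (nat_lit 0) (XT.lf (nat_lit 0) (nat_lit 1602392806) (nat_lit 456) (nat_lit 5341760871) (nat_lit 532) (nat_lit 3211243172) (nat_lit 213) (nat_lit 5) (nat_lit 219) (nat_lit 5) (nat_lit 220) (nat_lit 5) (nat_lit 598) (nat_lit 514) (nat_lit 448)) (XT.lf (nat_lit 0) (nat_lit 85829884) (nat_lit 532) (nat_lit 1353661947) (nat_lit 76) (nat_lit 8820852826) (nat_lit 212) (nat_lit 5) (nat_lit 219) (nat_lit 5) (nat_lit 213) (nat_lit 5) (nat_lit 599) (nat_lit 514) (nat_lit 447))) (XT.nd (nat_lit 78) (nat_lit 456) (nat_lit 0) (XT.lf (nat_lit 0) (nat_lit 3427421038) (nat_lit 532) (nat_lit 4386354739) (nat_lit 76) (nat_lit 2552760966) (nat_lit 206) (nat_lit 5) (nat_lit 213)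 (nat_lit 5) (nat_lit 207) (nat_lit 5) (nat_lit 600) (nat_lit 514) (nat_lit 446)) (XT.lf (nat_lit 0) (nat_lit 2983928742) (nat_lit 456) (nat_lit 3856016521) (nat_lit 532) (nat_lit 3634826713) (nat_lit 200) (nat_lit 5) (nat_lit 206) (nat_lit 5) (nat_lit 207) (nat_lit 5) (nat_lit 601) (nat_lit 514) (nat_lit 445))))) (XT.nd (nat_lit 234) (nat_lit 1216) (nat_lit 0) (XT.nd (nat_lit 78) (nat_lit 912) (nat_lit 0) (XT.lf (nat_lit 0) (nat_lit 10317813718) (nat_lit 532) (nat_lit 75110714) (nat_lit 76) (nat_lit 192306907) (nat_lit 200) (nat_lit 5) (nat_lit 207) (nat_lit 5) (nat_lit 201) (nat_lit 5) (nat_lit 602) (nat_lit 514) (nat_lit 444)) (XT.nd (nat_lit 78) (nat_lit 456) (nat_lit 0) (XT.lf (nat_lit 0) (nat_lit 3167335822) (nat_lit 456) (nat_lit 3205232687) (nat_lit 76) (nat_lit 4324090615) (nat_lit 194) (nat_lit 5) (nat_lit 200) (nat_lit 5) (nat_lit 195) (nat_lit 5) (nat_lit 603) (nat_lit 514) (nat_lit 443)) (XT.lf (nat_lit 0) (nat_lit 4406662862) (nat_lit 456) (nat_lit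 2256725446) (nat_lit 532) (nat_lit 4146969335) (nat_lit 188) (nat_lit 5) (nat_lit 194) (nat_lit 5) (nat_lit 195) (nat_lit 5) (nat_lit 604) (nat_lit 514) (nat_lit 442)))) (XT.nd (nat_lit 156) (nat_lit 760) (nat_lit 0) (XT.nd (nat_lit 78) (nat_lit 76) (nat_lit 0) (XT.lf (nat_lit 0) (nat_lit 1242303601) (nat_lit 380) (nat_lit 8996664181) (nat_lit 456) (nat_lit 687171437) (nat_lit 183) (nat_lit 5) (nat_lit 188) (nat_lit 5) (nat_lit 189) (nat_lit 5) (nat_lit 605) (nat_lit 514) (nat_lit 441)) (XT.lf (nat_lit 0) (nat_lit 2830143081) (nat_lit 456) (nat_lit 1998726397) (nat_lit 76) (nat_lit 6214487248) (nat_lit 182) (nat_lit 5) (nat_lit 188) (nat_lit 5) (nat_lit 183) (nat_lit 5) (nat_lit 606) (nat_lit 514) (nat_lit 440))) (XT.nd (nat_lit 78) (nat_lit 380) (nat_lit 0) (XT.lf (nat_lit 0) (nat_lit 5863717964) (nat_lit 380) (nat_lit 550993589) (nat_lit 456) (nat_lit 4747995141) (nat_lit 177) (nat_lit 5) (nat_lit 182) (nat_lit 5) (nat_lit 183) (nat_lit 5) (nat_lit 607)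 (nat_lit 514) (nat_lit 439)) (XT.lf (nat_lit 0) (nat_lit 2586484549) (nat_lit 380) (nat_lit 7507767326) (nat_lit 456) (nat_lit 1189727290) (nat_lit 172) (nat_lit 5) (nat_lit 177) (nat_lit 5) (nat_lit 178) (nat_lit 5) (nat_lit 608) (nat_lit 514) (nat_lit 438)))))) (XT.nd (nat_lit 546) (nat_lit 1748) (nat_lit 0) (XT.nd (nat_lit 234) (nat_lit 1216) (nat_lit 0) (XT.nd (nat_lit 78) (nat_lit 760) (nat_lit 0) (XT.lf (nat_lit 0) (nat_lit 2415483180) (nat_lit 456) (nat_lit 774219131) (nat_lit 76) (nat_lit 8217503549) (nat_lit 171) (nat_lit 5) (nat_lit 177) (nat_lit 5) (nat_lit 172) (nat_lit 5) (nat_lit 609) (nat_lit 514) (nat_lit 437)) (XT.nd (nat_lit 78) (nat_lit 380) (nat_lit 0) (XT.lf (nat_lit 0) (nat_lit 6101686449) (nat_lit 456) (nat_lit 4192603049) (nat_lit 76) (nat_lit 1237954974) (nat_lit 166) (nat_lit 5) (nat_lit 172) (nat_lit 5) (nat_lit 167) (nat_lit 5) (nat_lit 610) (nat_lit 514) (nat_lit 436)) (XT.lf (nat_lit 0) (nat_lit 3948973996) (nat_lit 380) (nat_lit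 5933773185) (nat_lit 456) (nat_lit 1776615034) (nat_lit 161) (nat_lit 5) (nat_lit 166) (nat_lit 5) (nat_lit 167) (nat_lit 5) (nat_lit 611) (nat_lit 514) (nat_lit 435)))) (XT.nd (nat_lit 156) (nat_lit 760) (nat_lit 0) (XT.nd (nat_lit 78) (nat_lit 0) (nat_lit 0) (XT.lf (nat_lit 0) (nat_lit 466680069) (nat_lit 380) (nat_lit 1458728506) (nat_lit 456) (nat_lit 9863349824) (nat_lit 155) (nat_lit 5) (nat_lit 160) (nat_lit 5) (nat_lit 161) (nat_lit 5) (nat_lit 612) (nat_lit 514) (nat_lit 434)) (XT.lf (nat_lit 0) (nat_lit 5719362811) (nat_lit 456) (nat_lit 3088699146) (nat_lit 76) (nat_lit 3111613068) (nat_lit 155) (nat_lit 5) (nat_lit 161) (nat_lit 5) (nat_lit 156) (nat_lit 5) (nat_lit 613) (nat_lit 514) (nat_lit 433))) (XT.nd (nat_lit 78) (nat_lit 456) (nat_lit 0) (XT.lf (nat_lit 0) (nat_lit 5321912281) (nat_lit 304) (nat_lit 4281505874) (nat_lit 380) (nat_lit 2449508336) (nat_lit 151) (nat_lit 5) (nat_lit 155) (nat_lit 5) (nat_lit 156) (nat_lit 5) (nat_lit 614)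 (nat_lit 514) (nat_lit 432)) (XT.lf (nat_lit 0) (nat_lit 1362719125) (nat_lit 456) (nat_lit 10470955151) (nat_lit 76) (nat_lit 354901741) (nat_lit 145) (nat_lit 5) (nat_lit 151) (nat_lit 5) (nat_lit 146) (nat_lit 5) (nat_lit 615) (nat_lit 514) (nat_lit 431))))) (XT.nd (nat_lit 312) (nat_lit 988) (nat_lit 0) (XT.nd (nat_lit 156) (nat_lit 456) (nat_lit 0) (XT.nd (nat_lit 78) (nat_lit 304) (nat_lit 0) (XT.lf (nat_lit 0) (nat_lit 5262500767) (nat_lit 456) (nat_lit 1992264268) (nat_lit 76) (nat_lit 5070968396) (nat_lit 145) (nat_lit 5) (nat_lit 151) (nat_lit 5) (nat_lit 146) (nat_lit 5) (nat_lit 616) (nat_lit 514) (nat_lit 430)) (XT.lf (nat_lit 0) (nat_lit 6696946759) (nat_lit 304) (nat_lit 2557651290) (nat_lit 380) (nat_lit 3210750420) (nat_lit 141) (nat_lit 5) (nat_lit 145) (nat_lit 5) (nat_lit 146) (nat_lit 5) (nat_lit 617) (nat_lit 514) (nat_lit 429))) (XT.nd (nat_lit 78) (nat_lit 0) (nat_lit 0) (XT.lf (nat_lit 0) (nat_lit 727622068) (nat_lit 456) (nat_lit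 9655575054) (nat_lit 76) (nat_lit 2224100842) (nat_lit 135) (nat_lit 5) (nat_lit 141) (nat_lit 5) (nat_lit 136) (nat_lit 5) (nat_lit 618) (nat_lit 514) (nat_lit 428)) (XT.lf (nat_lit 0) (nat_lit 4728781411) (nat_lit 456) (nat_lit 912444312) (nat_lit 76) (nat_lit 7109896862) (nat_lit 135) (nat_lit 5) (nat_lit 141) (nat_lit 5) (nat_lit 136) (nat_lit 5) (nat_lit 619) (nat_lit 514) (nat_lit 427)))) (XT.nd (nat_lit 156) (nat_lit 304) (nat_lit 0) (XT.nd (nat_lit 78) (nat_lit 380) (nat_lit 0) (XT.lf (nat_lit 0) (nat_lit 8065131969) (nat_lit 304) (nat_lit 768831170) (nat_lit 380) (nat_lit 4063381383) (nat_lit 131) (nat_lit 5) (nat_lit 135) (nat_lit 5) (nat_lit 136) (nat_lit 5) (nat_lit 620) (nat_lit 514) (nat_lit 426)) (XT.lf (nat_lit 0) (nat_lit 7588561) (nat_lit 380) (nat_lit 8876607768) (nat_lit 76) (nat_lit 4161648629) (nat_lit 126) (nat_lit 5) (nat_lit 131) (nat_lit 5) (nat_lit 127) (nat_lit 5) (nat_lit 621) (nat_lit 514) (nat_lit 425))) (XT.nd (nat_lit 78) (nat_lit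 0) (nat_lit 0) (XT.lf (nat_lit 0) (nat_lit 142801313) (nat_lit 304) (nat_lit 3973325290) (nat_lit 380) (nat_lit 9080441235) (nat_lit 122) (nat_lit 5) (nat_lit 126) (nat_lit 5) (nat_lit 127) (nat_lit 5) (nat_lit 622) (nat_lit 514) (nat_lit 424)) (XT.lf (nat_lit 0) (nat_lit 8345502329) (nat_lit 380) (nat_lit 3939851520) (nat_lit 76) (nat_lit 1064178735) (nat_lit 122) (nat_lit 5) (nat_lit 127) (nat_lit 5) (nat_lit 123) (nat_lit 5) (nat_lit 623) (nat_lit 514) (nat_lit 423))))))))
noncomputable def xc61 : XT := (XT.nd (nat_lit 74178) (nat_lit 0) (nat_lit 28880) (XT.nd (nat_lit 1092) (nat_lit 1824) (nat_lit 0) (XT.nd (nat_lit 546) (nat_lit 1368) (nat_lit 0) (XT.nd (nat_lit 234) (nat_lit 912) (nat_lit 0) (XT.nd (nat_lit 78) (nat_lit 304) (nat_lit 0) (XT.lf (nat_lit 0) (nat_lit 5354626171) (nat_lit 304) (nat_lit 7338448857) (nat_lit 380) (nat_lit 811810140) (nat_lit 118) (nat_lit 5) (nat_lit 122) (nat_lit 5) (nat_lit 123) (nat_lit 5) (nat_lit 624) (nat_lit 514) (nat_lit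 422)) (XT.nd (nat_lit 78) (nat_lit 0) (nat_lit 0) (XT.lf (nat_lit 0) (nat_lit 1172600833) (nat_lit 228) (nat_lit 2253039663) (nat_lit 304) (nat_lit 10237118761) (nat_lit 114) (nat_lit 5) (nat_lit 117) (nat_lit 5) (nat_lit 118) (nat_lit 5) (nat_lit 625) (nat_lit 514) (nat_lit 421)) (XT.lf (nat_lit 0) (nat_lit 7783802750) (nat_lit 304) (nat_lit 3100907423) (nat_lit 76) (nat_lit 2938037368) (nat_lit 114) (nat_lit 5) (nat_lit 118) (nat_lit 5) (nat_lit 115) (nat_lit 5) (nat_lit 626) (nat_lit 514) (nat_lit 420)))) (XT.nd (nat_lit 156) (nat_lit 304) (nat_lit 0) (XT.nd (nat_lit 78) (nat_lit 304) (nat_lit 0) (XT.lf (nat_lit 0) (nat_lit 6501556489) (nat_lit 304) (nat_lit 5757957784) (nat_lit 380) (nat_lit 1725814274) (nat_lit 110) (nat_lit 5) (nat_lit 114) (nat_lit 5) (nat_lit 115) (nat_lit 5) (nat_lit 627) (nat_lit 514) (nat_lit 419)) (XT.lf (nat_lit 0) (nat_lit 2153120201) (nat_lit 228) (nat_lit 493631495) (nat_lit 304) (nat_lit 11503898209) (nat_lit 106) (nat_lit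 5) (nat_lit 109) (nat_lit 5) (nat_lit 110) (nat_lit 5) (nat_lit 628) (nat_lit 514) (nat_lit 418))) (XT.nd (nat_lit 78) (nat_lit 304) (nat_lit 0) (XT.lf (nat_lit 0) (nat_lit 7139318810) (nat_lit 304) (nat_lit 2322594077) (nat_lit 76) (nat_lit 4856024120) (nat_lit 106) (nat_lit 5) (nat_lit 110) (nat_lit 5) (nat_lit 107) (nat_lit 5) (nat_lit 629) (nat_lit 514) (nat_lit 417)) (XT.lf (nat_lit 0) (nat_lit 7598008991) (nat_lit 304) (nat_lit 4150275861) (nat_lit 380) (nat_lit 2739754671) (nat_lit 102) (nat_lit 5) (nat_lit 106) (nat_lit 5) (nat_lit 107) (nat_lit 5) (nat_lit 630) (nat_lit 514) (nat_lit 416))))) (XT.nd (nat_lit 234) (nat_lit 760) (nat_lit 0) (XT.nd (nat_lit 78) (nat_lit 304) (nat_lit 0) (XT.lf (nat_lit 0) (nat_lit 1782494991) (nat_lit 304) (nat_lit 11597962758) (nat_lit 76) (nat_lit 1280493635) (nat_lit 98) (nat_lit 5) (nat_lit 102) (nat_lit 5) (nat_lit 99) (nat_lit 5) (nat_lit 631) (nat_lit 514) (nat_lit 415)) (XT.nd (nat_lit 78) (nat_lit 304) (nat_lit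 0) (XT.lf (nat_lit 0) (nat_lit 6406673136) (nat_lit 304) (nat_lit 1618241327) (nat_lit 76) (nat_lit 6811082035) (nat_lit 98) (nat_lit 5) (nat_lit 102) (nat_lit 5) (nat_lit 99) (nat_lit 5) (nat_lit 632) (nat_lit 514) (nat_lit 414)) (XT.lf (nat_lit 0) (nat_lit 8630765268) (nat_lit 304) (nat_lit 2523221241) (nat_lit 380) (nat_lit 3859943550) (nat_lit 94) (nat_lit 5) (nat_lit 98) (nat_lit 5) (nat_lit 99) (nat_lit 5) (nat_lit 633) (nat_lit 514) (nat_lit 413)))) (XT.nd (nat_lit 156) (nat_lit 456) (nat_lit 0) (XT.nd (nat_lit 78) (nat_lit 0) (nat_lit 0) (XT.lf (nat_lit 0) (nat_lit 821538676) (nat_lit 304) (nat_lit 11301318635) (nat_lit 76) (nat_lit 3071837192) (nat_lit 90) (nat_lit 5) (nat_lit 94) (nat_lit 5) (nat_lit 91) (nat_lit 5) (nat_lit 634) (nat_lit 514) (nat_lit 412)) (XT.lf (nat_lit 0) (nat_lit 5579605299) (nat_lit 304) (nat_lit 1002453908) (nat_lit 76) (nat_lit 8795812500) (nat_lit 90) (nat_lit 5) (nat_lit 94) (nat_lit 5) (nat_lit 91) (nat_lit 5) (nat_lit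 635) (nat_lit 514) (nat_lit 411))) (XT.nd (nat_lit 78) (nat_lit 228) (nat_lit 0) (XT.lf (nat_lit 0) (nat_lit 9585304142) (nat_lit 228) (nat_lit 885021049) (nat_lit 304) (nat_lit 5093637959) (nat_lit 87) (nat_lit 5) (nat_lit 90) (nat_lit 5) (nat_lit 91) (nat_lit 5) (nat_lit 636) (nat_lit 514) (nat_lit 410)) (XT.lf (nat_lit 0) (nat_lit 4630577891) (nat_lit 228) (nat_lit 10872450637) (nat_lit 304) (nat_lit 249865037) (nat_lit 84) (nat_lit 5) (nat_lit 87) (nat_lit 5) (nat_lit 88) (nat_lit 5) (nat_lit 637) (nat_lit 514) (nat_lit 409)))))) (XT.nd (nat_lit 546) (nat_lit 456) (nat_lit 0) (XT.nd (nat_lit 234) (nat_lit 836) (nat_lit 0) (XT.nd (nat_lit 78) (nat_lit 456) (nat_lit 0) (XT.lf (nat_lit 0) (nat_lit 4650904033) (nat_lit 304) (nat_lit 491275961) (nat_lit 76) (nat_lit 10802381161) (nat_lit 83) (nat_lit 5) (nat_lit 87) (nat_lit 5) (nat_lit 84) (nat_lit 5) (nat_lit 638) (nat_lit 514) (nat_lit 408)) (XT.nd (nat_lit 78) (nat_lit 228) (nat_lit 0) (XT.lf (nat_lit 0)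 (nat_lit 9694948597) (nat_lit 304) (nat_lit 5698428479) (nat_lit 76) (nat_lit 745680365) (nat_lit 80) (nat_lit 5) (nat_lit 84) (nat_lit 5) (nat_lit 81) (nat_lit 5) (nat_lit 639) (nat_lit 514) (nat_lit 407)) (XT.lf (nat_lit 0) (nat_lit 5253093811) (nat_lit 228) (nat_lit 9634221761) (nat_lit 304) (nat_lit 1449179734) (nat_lit 77) (nat_lit 5) (nat_lit 80) (nat_lit 5) (nat_lit 81) (nat_lit 5) (nat_lit 640) (nat_lit 514) (nat_lit 406)))) (XT.nd (nat_lit 156) (nat_lit 532) (nat_lit 0) (XT.nd (nat_lit 78) (nat_lit 228) (nat_lit 0) (XT.lf (nat_lit 0) (nat_lit 3612330488) (nat_lit 304) (nat_lit 102371072) (nat_lit 76) (nat_lit 12822417518) (nat_lit 76) (nat_lit 5) (nat_lit 80) (nat_lit 5) (nat_lit 77) (nat_lit 5) (nat_lit 641) (nat_lit 514) (nat_lit 405)) (XT.lf (nat_lit 0) (nat_lit 8820350454) (nat_lit 304) (nat_lit 5561991162) (nat_lit 76) (nat_lit 2357928901) (nat_lit 73) (nat_lit 5) (nat_lit 77) (nat_lit 5) (nat_lit 74) (nat_lit 5) (nat_lit 642) (nat_lit 514) (nat_lit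 404))) (XT.nd (nat_lit 78) (nat_lit 304) (nat_lit 0) (XT.lf (nat_lit 0) (nat_lit 5747764581) (nat_lit 228) (nat_lit 8423929235) (nat_lit 304) (nat_lit 2775008357) (nat_lit 70) (nat_lit 5) (nat_lit 73) (nat_lit 5) (nat_lit 74) (nat_lit 5) (nat_lit 643) (nat_lit 514) (nat_lit 403)) (XT.lf (nat_lit 0) (nat_lit 146704456) (nat_lit 228) (nat_lit 2308779787) (nat_lit 304) (nat_lit 14701155267) (nat_lit 66) (nat_lit 5) (nat_lit 69) (nat_lit 5) (nat_lit 70) (nat_lit 5) (nat_lit 644) (nat_lit 514) (nat_lit 402))))) (XT.nd (nat_lit 72228) (nat_lit 0) (nat_lit 52440) (XT.nd (nat_lit 156) (nat_lit 304) (nat_lit 0) (XT.nd (nat_lit 78) (nat_lit 152) (nat_lit 0) (XT.lf (nat_lit 0) (nat_lit 7831284673) (nat_lit 304) (nat_lit 5584177221) (nat_lit 76) (nat_lit 3953390160) (nat_lit 66) (nat_lit 5) (nat_lit 70) (nat_lit 5) (nat_lit 67) (nat_lit 5) (nat_lit 645) (nat_lit 514) (nat_lit 401)) (XT.lf (nat_lit 0) (nat_lit 6093958853) (nat_lit 152) (nat_lit 7252620373) (nat_lit 228)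 (nat_lit 4238090472) (nat_lit 64) (nat_lit 5) (nat_lit 66) (nat_lit 5) (nat_lit 67) (nat_lit 5) (nat_lit 646) (nat_lit 514) (nat_lit 400))) (XT.nd (nat_lit 78) (nat_lit 0) (nat_lit 0) (XT.lf (nat_lit 0) (nat_lit 231703599) (nat_lit 228) (nat_lit 936744434) (nat_lit 304) (nat_lit 16635876822) (nat_lit 60) (nat_lit 5) (nat_lit 63) (nat_lit 5) (nat_lit 64) (nat_lit 5) (nat_lit 647) (nat_lit 514) (nat_lit 399)) (XT.lf (nat_lit 0) (nat_lit 6717012441) (nat_lit 304) (nat_lit 5787702603) (nat_lit 76) (nat_lit 5521285324) (nat_lit 60) (nat_lit 5) (nat_lit 64) (nat_lit 5) (nat_lit 61) (nat_lit 5) (nat_lit 648) (nat_lit 514) (nat_lit 398)))) (XT.nd (nat_lit 156) (nat_lit 1064) (nat_lit 0) (XT.nd (nat_lit 78) (nat_lit 76) (nat_lit 0) (XT.lf (nat_lit 0) (nat_lit 1092697650) (nat_lit 380) (nat_lit 1076090752) (nat_lit 380) (nat_lit 1076090752) (nat_lit 765) (nat_lit 4) (nat_lit 770) (nat_lit 5) (nat_lit 770) (nat_lit 4) (nat_lit 530) (nat_lit 515) (nat_lit 515)) (XT.lf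 (nat_lit 0) (nat_lit 1058785701) (nat_lit 456) (nat_lit 594042096) (nat_lit 76) (nat_lit 4847195035) (nat_lit 764) (nat_lit 5) (nat_lit 770) (nat_lit 5) (nat_lit 765) (nat_lit 4) (nat_lit 531) (nat_lit 515) (nat_lit 514))) (XT.nd (nat_lit 78) (nat_lit 608) (nat_lit 0) (XT.lf (nat_lit 0) (nat_lit 3168749587) (nat_lit 456) (nat_lit 1079143439) (nat_lit 532) (nat_lit 2263468872) (nat_lit 758) (nat_lit 5) (nat_lit 764) (nat_lit 5) (nat_lit 765) (nat_lit 4) (nat_lit 532) (nat_lit 515) (nat_lit 513)) (XT.lf (nat_lit 0) (nat_lit 441666137) (nat_lit 532) (nat_lit 453076621) (nat_lit 608) (nat_lit 5629471962) (nat_lit 750) (nat_lit 5) (nat_lit 757) (nat_lit 5) (nat_lit 758) (nat_lit 5) (nat_lit 533) (nat_lit 515) (nat_lit 512))))))) (XT.nd (nat_lit 1170) (nat_lit 14896) (nat_lit 0) (XT.nd (nat_lit 546) (nat_lit 5548) (nat_lit 0) (XT.nd (nat_lit 234) (nat_lit 2432) (nat_lit 0) (XT.nd (nat_lit 78) (nat_lit 684) (nat_lit 0) (XT.lf (nat_lit 0) (nat_lit 4033819798) (nat_lit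 608) (nat_lit 2257403925) (nat_lit 76) (nat_lit 246849513) (nat_lit 750) (nat_lit 5) (nat_lit 758) (nat_lit 5) (nat_lit 751) (nat_lit 4) (nat_lit 534) (nat_lit 515) (nat_lit 511)) (XT.nd (nat_lit 78) (nat_lit 0) (nat_lit 0) (XT.lf (nat_lit 0) (nat_lit 613246604) (nat_lit 684) (nat_lit 4945202783) (nat_lit 76) (nat_lit 994903702) (nat_lit 741) (nat_lit 5) (nat_lit 750) (nat_lit 5) (nat_lit 742) (nat_lit 5) (nat_lit 535) (nat_lit 515) (nat_lit 510)) (XT.lf (nat_lit 0) (nat_lit 3701169667) (nat_lit 684) (nat_lit 1054484712) (nat_lit 76) (nat_lit 1814128580) (nat_lit 741) (nat_lit 5) (nat_lit 750) (nat_lit 5) (nat_lit 742) (nat_lit 5) (nat_lit 536) (nat_lit 515) (nat_lit 509)))) (XT.nd (nat_lit 156) (nat_lit 912) (nat_lit 0) (XT.nd (nat_lit 78) (nat_lit 760) (nat_lit 0) (XT.lf (nat_lit 0) (nat_lit 207095788) (nat_lit 760) (nat_lit 3686650801) (nat_lit 76) (nat_lit 2693842756) (nat_lit 731) (nat_lit 5) (nat_lit 741) (nat_lit 5) (nat_lit 732) (nat_lit 5) (nat_lit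 537) (nat_lit 515) (nat_lit 508)) (XT.lf (nat_lit 0) (nat_lit 278344653) (nat_lit 760) (nat_lit 2964916218) (nat_lit 836) (nat_lit 3363371854) (nat_lit 721) (nat_lit 5) (nat_lit 731) (nat_lit 5) (nat_lit 732) (nat_lit 5) (nat_lit 538) (nat_lit 515) (nat_lit 507))) (XT.nd (nat_lit 78) (nat_lit 912) (nat_lit 0) (XT.lf (nat_lit 0) (nat_lit 4322529883) (nat_lit 760) (nat_lit 1971824189) (nat_lit 836) (nat_lit 332625809) (nat_lit 721) (nat_lit 5) (nat_lit 731) (nat_lit 5) (nat_lit 732) (nat_lit 5) (nat_lit 539) (nat_lit 515) (nat_lit 506)) (XT.lf (nat_lit 0) (nat_lit 1754936080) (nat_lit 836) (nat_lit 909395721) (nat_lit 912) (nat_lit 3984215124) (nat_lit 709) (nat_lit 5) (nat_lit 720) (nat_lit 5) (nat_lit 721) (nat_lit 5) (nat_lit 540) (nat_lit 515) (nat_lit 505))))) (XT.nd (nat_lit 312) (nat_lit 3496) (nat_lit 0) (XT.nd (nat_lit 156) (nat_lit 1064) (nat_lit 0) (XT.nd (nat_lit 78) (nat_lit 988) (nat_lit 0) (XT.lf (nat_lit 0) (nat_lit 5665025470) (nat_lit 912)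 (nat_lit 798130451) (nat_lit 76) (nat_lit 208387002) (nat_lit 709) (nat_lit 5) (nat_lit 721) (nat_lit 5) (nat_lit 710) (nat_lit 5) (nat_lit 541) (nat_lit 515) (nat_lit 504)) (XT.lf (nat_lit 0) (nat_lit 1964609894) (nat_lit 988) (nat_lit 3341517339) (nat_lit 76) (nat_lit 1389404074) (nat_lit 696) (nat_lit 5) (nat_lit 709) (nat_lit 5) (nat_lit 697) (nat_lit 5) (nat_lit 542) (nat_lit 515) (nat_lit 503))) (XT.nd (nat_lit 78) (nat_lit 76) (nat_lit 0) (XT.lf (nat_lit 0) (nat_lit 833597998) (nat_lit 988) (nat_lit 4092339439) (nat_lit 1064) (nat_lit 1795050082) (nat_lit 683) (nat_lit 5) (nat_lit 696) (nat_lit 5) (nat_lit 697) (nat_lit 5) (nat_lit 543) (nat_lit 515) (nat_lit 502)) (XT.lf (nat_lit 0) (nat_lit 1140354418) (nat_lit 1064) (nat_lit 1668241193) (nat_lit 76) (nat_lit 3939076502) (nat_lit 682) (nat_lit 5) (nat_lit 696) (nat_lit 5) (nat_lit 683) (nat_lit 5) (nat_lit 544) (nat_lit 515) (nat_lit 501)))) (XT.nd (nat_lit 156) (nat_lit 1216) (nat_lit 0) (XT.nd (nat_lit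 78) (nat_lit 1216) (nat_lit 0) (XT.lf (nat_lit 0) (nat_lit 2607292669) (nat_lit 1064) (nat_lit 1455360018) (nat_lit 1140) (nat_lit 2712961842) (nat_lit 668) (nat_lit 5) (nat_lit 682) (nat_lit 5) (nat_lit 683) (nat_lit 5) (nat_lit 545) (nat_lit 515) (nat_lit 500)) (XT.lf (nat_lit 0) (nat_lit 136386958) (nat_lit 1140) (nat_lit 47697693) (nat_lit 1216) (nat_lit 6621046870) (nat_lit 652) (nat_lit 5) (nat_lit 667) (nat_lit 5) (nat_lit 668) (nat_lit 5) (nat_lit 546) (nat_lit 515) (nat_lit 499))) (XT.nd (nat_lit 78) (nat_lit 1216) (nat_lit 0) (XT.lf (nat_lit 0) (nat_lit 3076750441) (nat_lit 1216) (nat_lit 2330003782) (nat_lit 76) (nat_lit 1428651403) (nat_lit 652) (nat_lit 5) (nat_lit 668) (nat_lit 5) (nat_lit 653) (nat_lit 5) (nat_lit 547) (nat_lit 515) (nat_lit 498)) (XT.lf (nat_lit 0) (nat_lit 2071528567) (nat_lit 1216) (nat_lit 3907547291) (nat_lit 1292) (nat_lit 888178645) (nat_lit 636) (nat_lit 5) (nat_lit 652) (nat_lit 5) (nat_lit 653) (nat_lit 5) (nat_lit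 548) (nat_lit 515) (nat_lit 497)))))) (XT.nd (nat_lit 546) (nat_lit 9044) (nat_lit 0) (XT.nd (nat_lit 234) (nat_lit 3040) (nat_lit 0) (XT.nd (nat_lit 78) (nat_lit 2736) (nat_lit 0) (XT.lf (nat_lit 0) (nat_lit 1967213397) (nat_lit 1292) (nat_lit 371422609) (nat_lit 76) (nat_lit 4561759552) (nat_lit 635) (nat_lit 5) (nat_lit 652) (nat_lit 5) (nat_lit 636) (nat_lit 5) (nat_lit 549) (nat_lit 515) (nat_lit 496)) (XT.nd (nat_lit 78) (nat_lit 1444) (nat_lit 0) (XT.lf (nat_lit 0) (nat_lit 4139457217) (nat_lit 1292) (nat_lit 694974102) (nat_lit 1368) (nat_lit 2100323587) (nat_lit 618) (nat_lit 5) (nat_lit 635) (nat_lit 5) (nat_lit 636) (nat_lit 5) (nat_lit 550) (nat_lit 515) (nat_lit 495)) (XT.lf (nat_lit 0) (nat_lit 739405418) (nat_lit 1444) (nat_lit 5234412904) (nat_lit 76) (nat_lit 996674271) (nat_lit 599) (nat_lit 5) (nat_lit 618) (nat_lit 5) (nat_lit 600) (nat_lit 5) (nat_lit 551) (nat_lit 515) (nat_lit 494)))) (XT.nd (nat_lit 156) (nat_lit 1596) (nat_lit 0) (XT.nd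 (nat_lit 78) (nat_lit 1444) (nat_lit 0) (XT.lf (nat_lit 0) (nat_lit 3572399663) (nat_lit 1444) (nat_lit 680921978) (nat_lit 76) (nat_lit 2754058661) (nat_lit 599) (nat_lit 5) (nat_lit 618) (nat_lit 5) (nat_lit 600) (nat_lit 5) (nat_lit 552) (nat_lit 515) (nat_lit 493)) (XT.lf (nat_lit 0) (nat_lit 3964961932) (nat_lit 1444) (nat_lit 2465073338) (nat_lit 1520) (nat_lit 615615580) (nat_lit 580) (nat_lit 5) (nat_lit 599) (nat_lit 5) (nat_lit 600) (nat_lit 5) (nat_lit 553) (nat_lit 515) (nat_lit 492))) (XT.nd (nat_lit 78) (nat_lit 0) (nat_lit 0) (XT.lf (nat_lit 0) (nat_lit 1583348371) (nat_lit 1520) (nat_lit 604688335) (nat_lit 1596) (nat_lit 4897210309) (nat_lit 559) (nat_lit 5) (nat_lit 579) (nat_lit 5) (nat_lit 580) (nat_lit 5) (nat_lit 554) (nat_lit 515) (nat_lit 491)) (XT.lf (nat_lit 0) (nat_lit 5012225324) (nat_lit 1596) (nat_lit 807351545) (nat_lit 76) (nat_lit 1306527164) (nat_lit 559) (nat_lit 5) (nat_lit 580) (nat_lit 5) (nat_lit 560) (nat_lit 5) (nat_lit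 555) (nat_lit 515) (nat_lit 490))))) (XT.nd (nat_lit 312) (nat_lit 3876) (nat_lit 0) (XT.nd (nat_lit 156) (nat_lit 1824) (nat_lit 0) (XT.nd (nat_lit 78) (nat_lit 1672) (nat_lit 0) (XT.lf (nat_lit 0) (nat_lit 689872653) (nat_lit 1672) (nat_lit 3194503059) (nat_lit 76) (nat_lit 3283827327) (nat_lit 537) (nat_lit 5) (nat_lit 559) (nat_lit 5) (nat_lit 538) (nat_lit 5) (nat_lit 556) (nat_lit 515) (nat_lit 489)) (XT.lf (nat_lit 0) (nat_lit 1605979176) (nat_lit 1672) (nat_lit 1876316158) (nat_lit 1748) (nat_lit 3729355401) (nat_lit 515) (nat_lit 5) (nat_lit 537) (nat_lit 5) (nat_lit 538) (nat_lit 5) (nat_lit 557) (nat_lit 515) (nat_lit 488))) (XT.nd (nat_lit 78) (nat_lit 1824) (nat_lit 0) (XT.lf (nat_lit 0) (nat_lit 6299023998) (nat_lit 1748) (nat_lit 763125325) (nat_lit 76) (nat_lit 194453016) (nat_lit 515) (nat_lit 5) (nat_lit 538) (nat_lit 5) (nat_lit 516) (nat_lit 5) (nat_lit 558) (nat_lit 515) (nat_lit 487)) (XT.lf (nat_lit 0) (nat_lit 1831328758) (nat_lit 1824)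 (nat_lit 3147357005) (nat_lit 76) (nat_lit 2323804078) (nat_lit 491) (nat_lit 5) (nat_lit 515) (nat_lit 5) (nat_lit 492) (nat_lit 5) (nat_lit 559) (nat_lit 515) (nat_lit 486)))) (XT.nd (nat_lit 156) (nat_lit 1976) (nat_lit 0) (XT.nd (nat_lit 78) (nat_lit 76) (nat_lit 0) (XT.lf (nat_lit 0) (nat_lit 1798672243) (nat_lit 1824) (nat_lit 2828552796) (nat_lit 1900) (nat_lit 2722666669) (nat_lit 467) (nat_lit 5) (nat_lit 491) (nat_lit 5) (nat_lit 492) (nat_lit 5) (nat_lit 560) (nat_lit 515) (nat_lit 485)) (XT.lf (nat_lit 0) (nat_lit 48541066) (nat_lit 1900) (nat_lit 564010724) (nat_lit 76) (nat_lit 6786306987) (nat_lit 466) (nat_lit 5) (nat_lit 491) (nat_lit 5) (nat_lit 467) (nat_lit 5) (nat_lit 561) (nat_lit 515) (nat_lit 484))) (XT.nd (nat_lit 78) (nat_lit 912) (nat_lit 0) (XT.lf (nat_lit 0) (nat_lit 2827641292) (nat_lit 1140) (nat_lit 2946599036) (nat_lit 76) (nat_lit 1674430071) (nat_lit 452) (nat_lit 5) (nat_lit 467) (nat_lit 5) (nat_lit 453) (nat_lit 5) (nat_lit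 562) (nat_lit 515) (nat_lit 483)) (XT.lf (nat_lit 0) (nat_lit 2150355798) (nat_lit 912) (nat_lit 3483049780) (nat_lit 988) (nat_lit 1866654607) (nat_lit 440) (nat_lit 5) (nat_lit 452) (nat_lit 5) (nat_lit 453) (nat_lit 5) (nat_lit 563) (nat_lit 515) (nat_lit 482))))))))
noncomputable def xc62 : XT := (XT.nd (nat_lit 2262) (nat_lit 9196) (nat_lit 0) (XT.nd (nat_lit 1092) (nat_lit 6384) (nat_lit 0) (XT.nd (nat_lit 546) (nat_lit 3800) (nat_lit 0) (XT.nd (nat_lit 234) (nat_lit 2660) (nat_lit 0) (XT.nd (nat_lit 78) (nat_lit 1748) (nat_lit 0) (XT.lf (nat_lit 0) (nat_lit 899928311) (nat_lit 988) (nat_lit 220960345) (nat_lit 76) (nat_lit 6432080398) (nat_lit 439) (nat_lit 5) (nat_lit 452) (nat_lit 5) (nat_lit 440) (nat_lit 5) (nat_lit 564) (nat_lit 515) (nat_lit 481)) (XT.nd (nat_lit 78) (nat_lit 836) (nat_lit 0) (XT.lf (nat_lit 0) (nat_lit 3688643919) (nat_lit 988) (nat_lit 2602743424) (nat_lit 76) (nat_lit 1315469444) (nat_lit 427) (nat_lit 5) (nat_lit 440) (nat_lit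 5) (nat_lit 428) (nat_lit 5) (nat_lit 565) (nat_lit 515) (nat_lit 480)) (XT.lf (nat_lit 0) (nat_lit 2650788416) (nat_lit 836) (nat_lit 3859672851) (nat_lit 912) (nat_lit 1151817758) (nat_lit 416) (nat_lit 5) (nat_lit 427) (nat_lit 5) (nat_lit 428) (nat_lit 5) (nat_lit 566) (nat_lit 515) (nat_lit 479)))) (XT.nd (nat_lit 156) (nat_lit 1748) (nat_lit 0) (XT.nd (nat_lit 78) (nat_lit 0) (nat_lit 0) (XT.lf (nat_lit 0) (nat_lit 267010865) (nat_lit 836) (nat_lit 1351812265) (nat_lit 912) (nat_lit 6100356531) (nat_lit 404) (nat_lit 5) (nat_lit 415) (nat_lit 5) (nat_lit 416) (nat_lit 5) (nat_lit 567) (nat_lit 515) (nat_lit 478)) (XT.lf (nat_lit 0) (nat_lit 4423250549) (nat_lit 912) (nat_lit 2125555377) (nat_lit 76) (nat_lit 1228387291) (nat_lit 404) (nat_lit 5) (nat_lit 416) (nat_lit 5) (nat_lit 405) (nat_lit 5) (nat_lit 568) (nat_lit 515) (nat_lit 477))) (XT.nd (nat_lit 78) (nat_lit 912) (nat_lit 0) (XT.lf (nat_lit 0) (nat_lit 3290477450) (nat_lit 836) (nat_lit 3976642872)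 (nat_lit 912) (nat_lit 569582698) (nat_lit 393) (nat_lit 5) (nat_lit 404) (nat_lit 5) (nat_lit 405) (nat_lit 5) (nat_lit 569) (nat_lit 515) (nat_lit 476)) (XT.lf (nat_lit 0) (nat_lit 891784358) (nat_lit 836) (nat_lit 1322367916) (nat_lit 912) (nat_lit 5683489541) (nat_lit 381) (nat_lit 5) (nat_lit 392) (nat_lit 5) (nat_lit 393) (nat_lit 5) (nat_lit 570) (nat_lit 515) (nat_lit 475))))) (XT.nd (nat_lit 234) (nat_lit 2204) (nat_lit 0) (XT.nd (nat_lit 78) (nat_lit 1596) (nat_lit 0) (XT.lf (nat_lit 0) (nat_lit 5039510508) (nat_lit 912) (nat_lit 1524129126) (nat_lit 76) (nat_lit 1396215821) (nat_lit 381) (nat_lit 5) (nat_lit 393) (nat_lit 5) (nat_lit 382) (nat_lit 5) (nat_lit 571) (nat_lit 515) (nat_lit 474)) (XT.nd (nat_lit 78) (nat_lit 836) (nat_lit 0) (XT.lf (nat_lit 0) (nat_lit 4060601232) (nat_lit 760) (nat_lit 3850667028) (nat_lit 836) (nat_lit 112250080) (nat_lit 371) (nat_lit 5) (nat_lit 381) (nat_lit 5) (nat_lit 382) (nat_lit 5) (nat_lit 572) (nat_lit 515)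 (nat_lit 473)) (XT.lf (nat_lit 0) (nat_lit 1641636401) (nat_lit 760) (nat_lit 1050260577) (nat_lit 836) (nat_lit 5396683188) (nat_lit 360) (nat_lit 5) (nat_lit 370) (nat_lit 5) (nat_lit 371) (nat_lit 5) (nat_lit 573) (nat_lit 515) (nat_lit 472)))) (XT.nd (nat_lit 156) (nat_lit 1444) (nat_lit 0) (XT.nd (nat_lit 78) (nat_lit 760) (nat_lit 0) (XT.lf (nat_lit 0) (nat_lit 5544658000) (nat_lit 836) (nat_lit 806962704) (nat_lit 76) (nat_lit 1803429658) (nat_lit 360) (nat_lit 5) (nat_lit 371) (nat_lit 5) (nat_lit 361) (nat_lit 5) (nat_lit 574) (nat_lit 515) (nat_lit 471)) (XT.lf (nat_lit 0) (nat_lit 224075714) (nat_lit 760) (nat_lit 3271481814) (nat_lit 76) (nat_lit 4727355126) (nat_lit 350) (nat_lit 5) (nat_lit 360) (nat_lit 5) (nat_lit 351) (nat_lit 5) (nat_lit 575) (nat_lit 515) (nat_lit 470))) (XT.nd (nat_lit 78) (nat_lit 684) (nat_lit 0) (XT.lf (nat_lit 0) (nat_lit 2508350613) (nat_lit 760) (nat_lit 550346099) (nat_lit 836) (nat_lit 5233524552) (nat_lit 340)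 (nat_lit 5) (nat_lit 350) (nat_lit 5) (nat_lit 351) (nat_lit 5) (nat_lit 576) (nat_lit 515) (nat_lit 469)) (XT.lf (nat_lit 0) (nat_lit 18208816) (nat_lit 684) (nat_lit 5927065520) (nat_lit 760) (nat_lit 2417738879) (nat_lit 331) (nat_lit 5) (nat_lit 340) (nat_lit 5) (nat_lit 341) (nat_lit 5) (nat_lit 577) (nat_lit 515) (nat_lit 468)))))) (XT.nd (nat_lit 546) (nat_lit 3572) (nat_lit 0) (XT.nd (nat_lit 234) (nat_lit 1444) (nat_lit 0) (XT.nd (nat_lit 78) (nat_lit 1292) (nat_lit 0) (XT.lf (nat_lit 0) (nat_lit 448458753) (nat_lit 760) (nat_lit 2478396131) (nat_lit 76) (nat_lit 5508308374) (nat_lit 330) (nat_lit 5) (nat_lit 340) (nat_lit 5) (nat_lit 331) (nat_lit 5) (nat_lit 578) (nat_lit 515) (nat_lit 467)) (XT.nd (nat_lit 78) (nat_lit 608) (nat_lit 0) (XT.lf (nat_lit 0) (nat_lit 3321499421) (nat_lit 760) (nat_lit 5025676010) (nat_lit 76) (nat_lit 161625704) (nat_lit 321) (nat_lit 5) (nat_lit 331) (nat_lit 5) (nat_lit 322) (nat_lit 5) (nat_lit 579) (nat_lit 515)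 (nat_lit 466)) (XT.lf (nat_lit 0) (nat_lit 955683389) (nat_lit 608) (nat_lit 5297257179) (nat_lit 684) (nat_lit 2330954674) (nat_lit 313) (nat_lit 5) (nat_lit 321) (nat_lit 5) (nat_lit 322) (nat_lit 5) (nat_lit 580) (nat_lit 515) (nat_lit 465)))) (XT.nd (nat_lit 156) (nat_lit 684) (nat_lit 0) (XT.nd (nat_lit 78) (nat_lit 684) (nat_lit 0) (XT.lf (nat_lit 0) (nat_lit 567645735) (nat_lit 684) (nat_lit 1590490394) (nat_lit 76) (nat_lit 6502426314) (nat_lit 312) (nat_lit 5) (nat_lit 321) (nat_lit 5) (nat_lit 313) (nat_lit 5) (nat_lit 581) (nat_lit 515) (nat_lit 464)) (XT.lf (nat_lit 0) (nat_lit 3489290157) (nat_lit 760) (nat_lit 4183755568) (nat_lit 76) (nat_lit 1065485575) (nat_lit 303) (nat_lit 5) (nat_lit 313) (nat_lit 5) (nat_lit 304) (nat_lit 5) (nat_lit 582) (nat_lit 515) (nat_lit 463))) (XT.nd (nat_lit 78) (nat_lit 76) (nat_lit 0) (XT.lf (nat_lit 0) (nat_lit 1987508681) (nat_lit 608) (nat_lit 4479824425) (nat_lit 684) (nat_lit 2350769209) (nat_lit 295) (nat_lit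 5) (nat_lit 303) (nat_lit 5) (nat_lit 304) (nat_lit 5) (nat_lit 583) (nat_lit 515) (nat_lit 462)) (XT.lf (nat_lit 0) (nat_lit 586207268) (nat_lit 684) (nat_lit 614963103) (nat_lit 76) (nat_lit 7698248173) (nat_lit 294) (nat_lit 5) (nat_lit 303) (nat_lit 5) (nat_lit 295) (nat_lit 5) (nat_lit 584) (nat_lit 515) (nat_lit 461))))) (XT.nd (nat_lit 312) (nat_lit 1672) (nat_lit 0) (XT.nd (nat_lit 156) (nat_lit 684) (nat_lit 0) (XT.nd (nat_lit 78) (nat_lit 608) (nat_lit 0) (XT.lf (nat_lit 0) (nat_lit 3562898151) (nat_lit 684) (nat_lit 3261707839) (nat_lit 76) (nat_lit 2157197272) (nat_lit 286) (nat_lit 5) (nat_lit 295) (nat_lit 5) (nat_lit 287) (nat_lit 5) (nat_lit 585) (nat_lit 515) (nat_lit 460)) (XT.lf (nat_lit 0) (nat_lit 3106779827) (nat_lit 608) (nat_lit 3485990117) (nat_lit 684) (nat_lit 2473194725) (nat_lit 278) (nat_lit 5) (nat_lit 286) (nat_lit 5) (nat_lit 287) (nat_lit 5) (nat_lit 586) (nat_lit 515) (nat_lit 459))) (XT.nd (nat_lit 78) (nat_lit 0) (nat_lit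 0) (XT.lf (nat_lit 0) (nat_lit 447144840) (nat_lit 608) (nat_lit 63795544) (nat_lit 684) (nat_lit 8641072164) (nat_lit 269) (nat_lit 5) (nat_lit 277) (nat_lit 5) (nat_lit 278) (nat_lit 5) (nat_lit 587) (nat_lit 515) (nat_lit 458)) (XT.lf (nat_lit 0) (nat_lit 3546069092) (nat_lit 684) (nat_lit 2266448288) (nat_lit 76) (nat_lit 3426450332) (nat_lit 269) (nat_lit 5) (nat_lit 278) (nat_lit 5) (nat_lit 270) (nat_lit 5) (nat_lit 588) (nat_lit 515) (nat_lit 457)))) (XT.nd (nat_lit 156) (nat_lit 532) (nat_lit 0) (XT.nd (nat_lit 78) (nat_lit 608) (nat_lit 0) (XT.lf (nat_lit 0) (nat_lit 4306848018) (nat_lit 532) (nat_lit 2326077543) (nat_lit 608) (nat_lit 2694917701) (nat_lit 262) (nat_lit 5) (nat_lit 269) (nat_lit 5) (nat_lit 270) (nat_lit 5) (nat_lit 589) (nat_lit 515) (nat_lit 456)) (XT.lf (nat_lit 0) (nat_lit 354802555) (nat_lit 608) (nat_lit 7834323533) (nat_lit 76) (nat_lit 1229393996) (nat_lit 254) (nat_lit 5) (nat_lit 262) (nat_lit 5) (nat_lit 255) (nat_lit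 5) (nat_lit 590) (nat_lit 515) (nat_lit 455))) (XT.nd (nat_lit 78) (nat_lit 532) (nat_lit 0) (XT.lf (nat_lit 0) (nat_lit 3441912496) (nat_lit 608) (nat_lit 1204703057) (nat_lit 76) (nat_lit 4863790700) (nat_lit 254) (nat_lit 5) (nat_lit 262) (nat_lit 5) (nat_lit 255) (nat_lit 5) (nat_lit 591) (nat_lit 515) (nat_lit 454)) (XT.lf (nat_lit 0) (nat_lit 5581253261) (nat_lit 532) (nat_lit 1009596956) (nat_lit 608) (nat_lit 3013279868) (nat_lit 247) (nat_lit 5) (nat_lit 254) (nat_lit 5) (nat_lit 255) (nat_lit 5) (nat_lit 592) (nat_lit 515) (nat_lit 453))))))) (XT.nd (nat_lit 1170) (nat_lit 3876) (nat_lit 0) (XT.nd (nat_lit 546) (nat_lit 2736) (nat_lit 0) (XT.nd (nat_lit 234) (nat_lit 1520) (nat_lit 0) (XT.nd (nat_lit 78) (nat_lit 456) (nat_lit 0) (XT.lf (nat_lit 0) (nat_lit 109665812) (nat_lit 608) (nat_lit 6911368810) (nat_lit 76) (nat_lit 2678522400) (nat_lit 239) (nat_lit 5) (nat_lit 247) (nat_lit 5) (nat_lit 240) (nat_lit 5) (nat_lit 593) (nat_lit 515) (nat_lit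 452)) (XT.nd (nat_lit 78) (nat_lit 456) (nat_lit 0) (XT.lf (nat_lit 0) (nat_lit 3252917750) (nat_lit 608) (nat_lit 83076282) (nat_lit 76) (nat_lit 6460537764) (nat_lit 239) (nat_lit 5) (nat_lit 247) (nat_lit 5) (nat_lit 240) (nat_lit 5) (nat_lit 594) (nat_lit 515) (nat_lit 451)) (XT.lf (nat_lit 0) (nat_lit 6471936760) (nat_lit 532) (nat_lit 2974543970) (nat_lit 76) (nat_lit 448708819) (nat_lit 233) (nat_lit 5) (nat_lit 240) (nat_lit 5) (nat_lit 234) (nat_lit 5) (nat_lit 595) (nat_lit 515) (nat_lit 450)))) (XT.nd (nat_lit 156) (nat_lit 456) (nat_lit 0) (XT.nd (nat_lit 78) (nat_lit 532) (nat_lit 0) (XT.lf (nat_lit 0) (nat_lit 4051587694) (nat_lit 532) (nat_lit 5717984926) (nat_lit 608) (nat_lit 225964603) (nat_lit 226) (nat_lit 5) (nat_lit 233) (nat_lit 5) (nat_lit 234) (nat_lit 5) (nat_lit 596) (nat_lit 515) (nat_lit 449)) (XT.lf (nat_lit 0) (nat_lit 1106392174) (nat_lit 456) (nat_lit 1881756904) (nat_lit 532) (nat_lit 7109496314) (nat_lit 219) (nat_lit 5)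 (nat_lit 225) (nat_lit 5) (nat_lit 226) (nat_lit 5) (nat_lit 597) (nat_lit 515) (nat_lit 448))) (XT.nd (nat_lit 78) (nat_lit 456) (nat_lit 0) (XT.lf (nat_lit 0) (nat_lit 6282536546) (nat_lit 532) (nat_lit 1887248466) (nat_lit 76) (nat_lit 2031601904) (nat_lit 219) (nat_lit 5) (nat_lit 226) (nat_lit 5) (nat_lit 220) (nat_lit 5) (nat_lit 598) (nat_lit 515) (nat_lit 447)) (XT.lf (nat_lit 0) (nat_lit 5368136809) (nat_lit 456) (nat_lit 4288338757) (nat_lit 532) (nat_lit 650455810) (nat_lit 213) (nat_lit 5) (nat_lit 219) (nat_lit 5) (nat_lit 220) (nat_lit 5) (nat_lit 599) (nat_lit 515) (nat_lit 446))))) (XT.nd (nat_lit 312) (nat_lit 1292) (nat_lit 0) (XT.nd (nat_lit 156) (nat_lit 912) (nat_lit 0) (XT.nd (nat_lit 78) (nat_lit 0) (nat_lit 0) (XT.lf (nat_lit 0) (nat_lit 2344350844) (nat_lit 456) (nat_lit 298205657) (nat_lit 532) (nat_lit 7771794278) (nat_lit 206) (nat_lit 5) (nat_lit 212) (nat_lit 5) (nat_lit 213) (nat_lit 5) (nat_lit 600) (nat_lit 515) (nat_lit 445))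 (XT.lf (nat_lit 0) (nat_lit 6017293842) (nat_lit 532) (nat_lit 761179232) (nat_lit 76) (nat_lit 3744869318) (nat_lit 206) (nat_lit 5) (nat_lit 213) (nat_lit 5) (nat_lit 207) (nat_lit 5) (nat_lit 601) (nat_lit 515) (nat_lit 444))) (XT.nd (nat_lit 78) (nat_lit 456) (nat_lit 0) (XT.lf (nat_lit 0) (nat_lit 6732082928) (nat_lit 456) (nat_lit 2740495921) (nat_lit 532) (nat_lit 1161675208) (nat_lit 200) (nat_lit 5) (nat_lit 206) (nat_lit 5) (nat_lit 207) (nat_lit 5) (nat_lit 602) (nat_lit 515) (nat_lit 443)) (XT.lf (nat_lit 0) (nat_lit 2225363251) (nat_lit 456) (nat_lit 7133350695) (nat_lit 76) (nat_lit 1388273491) (nat_lit 194) (nat_lit 5) (nat_lit 200) (nat_lit 5) (nat_lit 195) (nat_lit 5) (nat_lit 603) (nat_lit 515) (nat_lit 442)))) (XT.nd (nat_lit 156) (nat_lit 836) (nat_lit 0) (XT.nd (nat_lit 78) (nat_lit 0) (nat_lit 0) (XT.lf (nat_lit 0) (nat_lit 402065338) (nat_lit 456) (nat_lit 5277364165) (nat_lit 532) (nat_lit 5182096773) (nat_lit 188) (nat_lit 5) (nat_lit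 194) (nat_lit 5) (nat_lit 195) (nat_lit 5) (nat_lit 604) (nat_lit 515) (nat_lit 441)) (XT.lf (nat_lit 0) (nat_lit 8136806367) (nat_lit 456) (nat_lit 1081669084) (nat_lit 532) (nat_lit 1759563654) (nat_lit 188) (nat_lit 5) (nat_lit 194) (nat_lit 5) (nat_lit 195) (nat_lit 5) (nat_lit 605) (nat_lit 515) (nat_lit 440))) (XT.nd (nat_lit 78) (nat_lit 380) (nat_lit 0) (XT.lf (nat_lit 0) (nat_lit 1730149300) (nat_lit 456) (nat_lit 6182304362) (nat_lit 76) (nat_lit 3183776089) (nat_lit 182) (nat_lit 5) (nat_lit 188) (nat_lit 5) (nat_lit 183) (nat_lit 5) (nat_lit 606) (nat_lit 515) (nat_lit 439)) (XT.lf (nat_lit 0) (nat_lit 1600582336) (nat_lit 380) (nat_lit 3670939512) (nat_lit 456) (nat_lit 5944922341) (nat_lit 177) (nat_lit 5) (nat_lit 182) (nat_lit 5) (nat_lit 183) (nat_lit 5) (nat_lit 607) (nat_lit 515) (nat_lit 438)))))) (XT.nd (nat_lit 546) (nat_lit 1900) (nat_lit 0) (XT.nd (nat_lit 234) (nat_lit 1140) (nat_lit 0) (XT.nd (nat_lit 78) (nat_lit 836) (nat_lit 0)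 (XT.lf (nat_lit 0) (nat_lit 8898594400) (nat_lit 456) (nat_lit 1767799417) (nat_lit 76) (nat_lit 672372736) (nat_lit 177) (nat_lit 5) (nat_lit 183) (nat_lit 5) (nat_lit 178) (nat_lit 5) (nat_lit 608) (nat_lit 515) (nat_lit 437)) (XT.nd (nat_lit 78) (nat_lit 380) (nat_lit 0) (XT.lf (nat_lit 0) (nat_lit 1154360522) (nat_lit 456) (nat_lit 5222614433) (nat_lit 76) (nat_lit 5085722739) (nat_lit 171) (nat_lit 5) (nat_lit 177) (nat_lit 5) (nat_lit 172) (nat_lit 5) (nat_lit 609) (nat_lit 515) (nat_lit 436)) (XT.lf (nat_lit 0) (nat_lit 2816799203) (nat_lit 380) (nat_lit 1971131974) (nat_lit 456) (nat_lit 6800858289) (nat_lit 166) (nat_lit 5) (nat_lit 171) (nat_lit 5) (nat_lit 172) (nat_lit 5) (nat_lit 610) (nat_lit 515) (nat_lit 435)))) (XT.nd (nat_lit 156) (nat_lit 684) (nat_lit 0) (XT.nd (nat_lit 78) (nat_lit 456) (nat_lit 0) (XT.lf (nat_lit 0) (nat_lit 8515577157) (nat_lit 456) (nat_lit 692826175) (nat_lit 76) (nat_lit 2508572671) (nat_lit 166) (nat_lit 5) (nat_lit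 172) (nat_lit 5) (nat_lit 167) (nat_lit 5) (nat_lit 611) (nat_lit 515) (nat_lit 434)) (XT.lf (nat_lit 0) (nat_lit 496759207) (nat_lit 456) (nat_lit 4262336325) (nat_lit 76) (nat_lit 7087913182) (nat_lit 160) (nat_lit 5) (nat_lit 166) (nat_lit 5) (nat_lit 161) (nat_lit 5) (nat_lit 612) (nat_lit 515) (nat_lit 433))) (XT.nd (nat_lit 78) (nat_lit 304) (nat_lit 0) (XT.lf (nat_lit 0) (nat_lit 4042885995) (nat_lit 380) (nat_lit 184522492) (nat_lit 456) (nat_lit 7751783422) (nat_lit 155) (nat_lit 5) (nat_lit 160) (nat_lit 5) (nat_lit 161) (nat_lit 5) (nat_lit 613) (nat_lit 515) (nat_lit 432)) (XT.lf (nat_lit 0) (nat_lit 387701420) (nat_lit 304) (nat_lit 7675971892) (nat_lit 380) (nat_lit 4049726333) (nat_lit 151) (nat_lit 5) (nat_lit 155) (nat_lit 5) (nat_lit 156) (nat_lit 5) (nat_lit 614) (nat_lit 515) (nat_lit 431))))) (XT.nd (nat_lit 312) (nat_lit 1140) (nat_lit 0) (XT.nd (nat_lit 156) (nat_lit 304) (nat_lit 0) (XT.nd (nat_lit 78) (nat_lit 456) (nat_lit 0) (XT.lf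 (nat_lit 0) (nat_lit 8938196291) (nat_lit 304) (nat_lit 3063809876) (nat_lit 380) (nat_lit 247779425) (nat_lit 151) (nat_lit 5) (nat_lit 155) (nat_lit 5) (nat_lit 156) (nat_lit 5) (nat_lit 615) (nat_lit 515) (nat_lit 430)) (XT.lf (nat_lit 0) (nat_lit 3598992402) (nat_lit 456) (nat_lit 7128694271) (nat_lit 76) (nat_lit 1660414133) (nat_lit 145) (nat_lit 5) (nat_lit 151) (nat_lit 5) (nat_lit 146) (nat_lit 5) (nat_lit 616) (nat_lit 515) (nat_lit 429))) (XT.nd (nat_lit 78) (nat_lit 0) (nat_lit 0) (XT.lf (nat_lit 0) (nat_lit 1469198446) (nat_lit 304) (nat_lit 6073796145) (nat_lit 380) (nat_lit 4985683579) (nat_lit 141) (nat_lit 5) (nat_lit 145) (nat_lit 5) (nat_lit 146) (nat_lit 5) (nat_lit 617) (nat_lit 515) (nat_lit 428)) (XT.lf (nat_lit 0) (nat_lit 10290016741) (nat_lit 304) (nat_lit 1295372241) (nat_lit 380) (nat_lit 1086288700) (nat_lit 141) (nat_lit 5) (nat_lit 145) (nat_lit 5) (nat_lit 146) (nat_lit 5) (nat_lit 618) (nat_lit 515) (nat_lit 427)))) (XT.nd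 (nat_lit 156) (nat_lit 380) (nat_lit 0) (XT.nd (nat_lit 78) (nat_lit 304) (nat_lit 0) (XT.lf (nat_lit 0) (nat_lit 2890892436) (nat_lit 456) (nat_lit 6349472879) (nat_lit 76) (nat_lit 3576042948) (nat_lit 135) (nat_lit 5) (nat_lit 141) (nat_lit 5) (nat_lit 136) (nat_lit 5) (nat_lit 619) (nat_lit 515) (nat_lit 426)) (XT.lf (nat_lit 0) (nat_lit 2533130912) (nat_lit 304) (nat_lit 4413259096) (nat_lit 380) (nat_lit 6017234270) (nat_lit 131) (nat_lit 5) (nat_lit 135) (nat_lit 5) (nat_lit 136) (nat_lit 5) (nat_lit 620) (nat_lit 515) (nat_lit 425))) (XT.nd (nat_lit 78) (nat_lit 380) (nat_lit 0) (XT.lf (nat_lit 0) (nat_lit 11101532968) (nat_lit 380) (nat_lit 1482500604) (nat_lit 76) (nat_lit 529381110) (nat_lit 131) (nat_lit 5) (nat_lit 136) (nat_lit 5) (nat_lit 132) (nat_lit 5) (nat_lit 621) (nat_lit 515) (nat_lit 424)) (XT.lf (nat_lit 0) (nat_lit 2098633292) (nat_lit 380) (nat_lit 5607671718) (nat_lit 76) (nat_lit 5558582356) (nat_lit 126) (nat_lit 5) (nat_lit 131)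 (nat_lit 5) (nat_lit 127) (nat_lit 5) (nat_lit 622) (nat_lit 515) (nat_lit 423))))))))
noncomputable def xc63 : XT := (XT.nd (nat_lit 74022) (nat_lit 0) (nat_lit 30932) (XT.nd (nat_lit 1092) (nat_lit 2052) (nat_lit 0) (XT.nd (nat_lit 546) (nat_lit 1444) (nat_lit 0) (XT.nd (nat_lit 234) (nat_lit 836) (nat_lit 0) (XT.nd (nat_lit 78) (nat_lit 380) (nat_lit 0) (XT.lf (nat_lit 0) (nat_lit 3569451412) (nat_lit 304) (nat_lit 2701122324) (nat_lit 380) (nat_lit 7148427445) (nat_lit 122) (nat_lit 5) (nat_lit 126) (nat_lit 5) (nat_lit 127) (nat_lit 5) (nat_lit 623) (nat_lit 515) (nat_lit 422)) (XT.nd (nat_lit 78) (nat_lit 380) (nat_lit 0) (XT.lf (nat_lit 0) (nat_lit 10552510939) (nat_lit 380) (nat_lit 629907225) (nat_lit 76) (nat_lit 2393248667) (nat_lit 122) (nat_lit 5) (nat_lit 127) (nat_lit 5) (nat_lit 123) (nat_lit 5) (nat_lit 624) (nat_lit 515) (nat_lit 421)) (XT.lf (nat_lit 0) (nat_lit 1218210559) (nat_lit 380) (nat_lit 4914339304) (nat_lit 76) (nat_lit 7601780275)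 (nat_lit 117) (nat_lit 5) (nat_lit 122) (nat_lit 5) (nat_lit 118) (nat_lit 5) (nat_lit 625) (nat_lit 515) (nat_lit 420)))) (XT.nd (nat_lit 156) (nat_lit 304) (nat_lit 0) (XT.nd (nat_lit 78) (nat_lit 304) (nat_lit 0) (XT.lf (nat_lit 0) (nat_lit 4567275520) (nat_lit 228) (nat_lit 944253183) (nat_lit 304) (nat_lit 8384086937) (nat_lit 114) (nat_lit 5) (nat_lit 117) (nat_lit 5) (nat_lit 118) (nat_lit 5) (nat_lit 626) (nat_lit 515) (nat_lit 419)) (XT.lf (nat_lit 0) (nat_lit 175485160) (nat_lit 304) (nat_lit 9751569747) (nat_lit 380) (nat_lit 4132345774) (nat_lit 110) (nat_lit 5) (nat_lit 114) (nat_lit 5) (nat_lit 115) (nat_lit 5) (nat_lit 627) (nat_lit 515) (nat_lit 418))) (XT.nd (nat_lit 78) (nat_lit 228) (nat_lit 0) (XT.lf (nat_lit 0) (nat_lit 244849642) (nat_lit 380) (nat_lit 4281467830) (nat_lit 76) (nat_lit 9699256033) (nat_lit 109) (nat_lit 5) (nat_lit 114) (nat_lit 5) (nat_lit 110) (nat_lit 5) (nat_lit 628) (nat_lit 515) (nat_lit 417)) (XT.lf (nat_lit 0)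 (nat_lit 4669982361) (nat_lit 304) (nat_lit 8885084954) (nat_lit 76) (nat_lit 839142288) (nat_lit 106) (nat_lit 5) (nat_lit 110) (nat_lit 5) (nat_lit 107) (nat_lit 5) (nat_lit 629) (nat_lit 515) (nat_lit 416))))) (XT.nd (nat_lit 234) (nat_lit 836) (nat_lit 0) (XT.nd (nat_lit 78) (nat_lit 304) (nat_lit 0) (XT.lf (nat_lit 0) (nat_lit 926563203) (nat_lit 304) (nat_lit 8296425211) (nat_lit 380) (nat_lit 5342443210) (nat_lit 102) (nat_lit 5) (nat_lit 106) (nat_lit 5) (nat_lit 107) (nat_lit 5) (nat_lit 630) (nat_lit 515) (nat_lit 415)) (XT.nd (nat_lit 78) (nat_lit 304) (nat_lit 0) (XT.lf (nat_lit 0) (nat_lit 11011824599) (nat_lit 304) (nat_lit 2889532870) (nat_lit 380) (nat_lit 838035160) (nat_lit 102) (nat_lit 5) (nat_lit 106) (nat_lit 5) (nat_lit 107) (nat_lit 5) (nat_lit 631) (nat_lit 515) (nat_lit 414)) (XT.lf (nat_lit 0) (nat_lit 3741120496) (nat_lit 304) (nat_lit 8534439153) (nat_lit 76) (nat_lit 2640107471) (nat_lit 98) (nat_lit 5) (nat_lit 102) (nat_lit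 5) (nat_lit 99) (nat_lit 5) (nat_lit 632) (nat_lit 515) (nat_lit 413)))) (XT.nd (nat_lit 156) (nat_lit 532) (nat_lit 0) (XT.nd (nat_lit 78) (nat_lit 0) (nat_lit 0) (XT.lf (nat_lit 0) (nat_lit 1601260211) (nat_lit 304) (nat_lit 6829213032) (nat_lit 380) (nat_lit 6664286932) (nat_lit 94) (nat_lit 5) (nat_lit 98) (nat_lit 5) (nat_lit 99) (nat_lit 5) (nat_lit 633) (nat_lit 515) (nat_lit 412)) (XT.lf (nat_lit 0) (nat_lit 12012990428) (nat_lit 304) (nat_lit 1233218846) (nat_lit 380) (nat_lit 2030574447) (nat_lit 94) (nat_lit 5) (nat_lit 98) (nat_lit 5) (nat_lit 99) (nat_lit 5) (nat_lit 634) (nat_lit 515) (nat_lit 411))) (XT.nd (nat_lit 78) (nat_lit 228) (nat_lit 0) (XT.lf (nat_lit 0) (nat_lit 2712253503) (nat_lit 304) (nat_lit 8285369532) (nat_lit 76) (nat_lit 4463439232) (nat_lit 90) (nat_lit 5) (nat_lit 94) (nat_lit 5) (nat_lit 91) (nat_lit 5) (nat_lit 635) (nat_lit 515) (nat_lit 410)) (XT.lf (nat_lit 0) (nat_lit 2184555176) (nat_lit 228) (nat_lit 5358359196)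 (nat_lit 304) (nat_lit 8105440779) (nat_lit 87) (nat_lit 5) (nat_lit 90) (nat_lit 5) (nat_lit 91) (nat_lit 5) (nat_lit 636) (nat_lit 515) (nat_lit 409)))))) (XT.nd (nat_lit 546) (nat_lit 988) (nat_lit 0) (XT.nd (nat_lit 234) (nat_lit 532) (nat_lit 0) (XT.nd (nat_lit 78) (nat_lit 532) (nat_lit 0) (XT.lf (nat_lit 0) (nat_lit 12504545417) (nat_lit 304) (nat_lit 2907066322) (nat_lit 76) (nat_lit 427095526) (nat_lit 87) (nat_lit 5) (nat_lit 91) (nat_lit 5) (nat_lit 88) (nat_lit 5) (nat_lit 637) (nat_lit 515) (nat_lit 408)) (XT.nd (nat_lit 78) (nat_lit 228) (nat_lit 0) (XT.lf (nat_lit 0) (nat_lit 1575864109) (nat_lit 304) (nat_lit 8154436070) (nat_lit 76) (nat_lit 6301099310) (nat_lit 83) (nat_lit 5) (nat_lit 87) (nat_lit 5) (nat_lit 84) (nat_lit 5) (nat_lit 638) (nat_lit 515) (nat_lit 407)) (XT.lf (nat_lit 0) (nat_lit 2659932227) (nat_lit 228) (nat_lit 3892812756) (nat_lit 304) (nat_lit 9674494305) (nat_lit 80) (nat_lit 5) (nat_lit 83) (nat_lit 5) (nat_lit 84)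 (nat_lit 5) (nat_lit 639) (nat_lit 515) (nat_lit 406)))) (XT.nd (nat_lit 156) (nat_lit 228) (nat_lit 0) (XT.nd (nat_lit 78) (nat_lit 304) (nat_lit 0) (XT.lf (nat_lit 0) (nat_lit 11674064111) (nat_lit 304) (nat_lit 2679876632) (nat_lit 76) (nat_lit 2072157602) (nat_lit 80) (nat_lit 5) (nat_lit 84) (nat_lit 5) (nat_lit 81) (nat_lit 5) (nat_lit 640) (nat_lit 515) (nat_lit 405)) (XT.lf (nat_lit 0) (nat_lit 323399302) (nat_lit 304) (nat_lit 8159841876) (nat_lit 76) (nat_lit 8144497934) (nat_lit 76) (nat_lit 5) (nat_lit 80) (nat_lit 5) (nat_lit 77) (nat_lit 5) (nat_lit 641) (nat_lit 515) (nat_lit 404))) (XT.nd (nat_lit 78) (nat_lit 0) (nat_lit 0) (XT.lf (nat_lit 0) (nat_lit 3009195125) (nat_lit 228) (nat_lit 2442151285) (nat_lit 304) (nat_lit 11381145821) (nat_lit 73) (nat_lit 5) (nat_lit 76) (nat_lit 5) (nat_lit 77) (nat_lit 5) (nat_lit 642) (nat_lit 515) (nat_lit 403)) (XT.lf (nat_lit 0) (nat_lit 10738135338) (nat_lit 304) (nat_lit 2593196576) (nat_lit 76) (nat_lit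 3708883277) (nat_lit 73) (nat_lit 5) (nat_lit 77) (nat_lit 5) (nat_lit 74) (nat_lit 5) (nat_lit 643) (nat_lit 515) (nat_lit 402))))) (XT.nd (nat_lit 312) (nat_lit 304) (nat_lit 0) (XT.nd (nat_lit 156) (nat_lit 152) (nat_lit 0) (XT.nd (nat_lit 78) (nat_lit 304) (nat_lit 0) (XT.lf (nat_lit 0) (nat_lit 8922490897) (nat_lit 228) (nat_lit 7259736068) (nat_lit 304) (nat_lit 1068834736) (nat_lit 70) (nat_lit 5) (nat_lit 73) (nat_lit 5) (nat_lit 74) (nat_lit 5) (nat_lit 644) (nat_lit 515) (nat_lit 401)) (XT.lf (nat_lit 0) (nat_lit 3212263843) (nat_lit 228) (nat_lit 1016694209) (nat_lit 304) (nat_lit 13236295701) (nat_lit 66) (nat_lit 5) (nat_lit 69) (nat_lit 5) (nat_lit 70) (nat_lit 5) (nat_lit 645) (nat_lit 515) (nat_lit 400))) (XT.nd (nat_lit 78) (nat_lit 152) (nat_lit 0) (XT.lf (nat_lit 0) (nat_lit 9686981937) (nat_lit 304) (nat_lit 2667963740) (nat_lit 76) (nat_lit 5327271334) (nat_lit 66) (nat_lit 5) (nat_lit 70) (nat_lit 5) (nat_lit 67) (nat_lit 5) (nat_lit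 646) (nat_lit 515) (nat_lit 399)) (XT.lf (nat_lit 0) (nat_lit 9223814680) (nat_lit 152) (nat_lit 6074982352) (nat_lit 228) (nat_lit 2603830284) (nat_lit 64) (nat_lit 5) (nat_lit 66) (nat_lit 5) (nat_lit 67) (nat_lit 5) (nat_lit 647) (nat_lit 515) (nat_lit 398)))) (XT.nd (nat_lit 71916) (nat_lit 0) (nat_lit 53504) (XT.nd (nat_lit 71838) (nat_lit 0) (nat_lit 53960) (XT.lf (nat_lit 0) (nat_lit 2876994065) (nat_lit 304) (nat_lit 14882193758) (nat_lit 76) (nat_lit 367491104) (nat_lit 60) (nat_lit 5) (nat_lit 64) (nat_lit 5) (nat_lit 61) (nat_lit 5) (nat_lit 648) (nat_lit 515) (nat_lit 397)) (XT.lf (nat_lit 0) (nat_lit 342285638) (nat_lit 380) (nat_lit 2551805295) (nat_lit 0) (nat_lit 342285638) (nat_lit 770) (nat_lit 5) (nat_lit 775) (nat_lit 4) (nat_lit 770) (nat_lit 4) (nat_lit 528) (nat_lit 516) (nat_lit 516))) (XT.nd (nat_lit 78) (nat_lit 456) (nat_lit 0) (XT.lf (nat_lit 0) (nat_lit 3885529482) (nat_lit 380) (nat_lit 1497303029) (nat_lit 0) (nat_lit 1098084484)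 (nat_lit 770) (nat_lit 5) (nat_lit 775) (nat_lit 4) (nat_lit 770) (nat_lit 4) (nat_lit 529) (nat_lit 516) (nat_lit 515)) (XT.lf (nat_lit 0) (nat_lit 587615403) (nat_lit 456) (nat_lit 4333251097) (nat_lit 76) (nat_lit 1569599962) (nat_lit 764) (nat_lit 5) (nat_lit 770) (nat_lit 5) (nat_lit 765) (nat_lit 4) (nat_lit 530) (nat_lit 516) (nat_lit 514))))))) (XT.nd (nat_lit 1170) (nat_lit 15276) (nat_lit 0) (XT.nd (nat_lit 546) (nat_lit 4788) (nat_lit 0) (XT.nd (nat_lit 234) (nat_lit 1444) (nat_lit 0) (XT.nd (nat_lit 78) (nat_lit 1064) (nat_lit 0) (XT.lf (nat_lit 0) (nat_lit 3731810779) (nat_lit 456) (nat_lit 661181549) (nat_lit 76) (nat_lit 2108234327) (nat_lit 764) (nat_lit 5) (nat_lit 770) (nat_lit 5) (nat_lit 765) (nat_lit 4) (nat_lit 531) (nat_lit 516) (nat_lit 513)) (XT.nd (nat_lit 78) (nat_lit 532) (nat_lit 0) (XT.lf (nat_lit 0) (nat_lit 364350364) (nat_lit 532) (nat_lit 3439135036) (nat_lit 76) (nat_lit 2709804286) (nat_lit 757) (nat_lit 5) (nat_lit 764)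 (nat_lit 5) (nat_lit 758) (nat_lit 5) (nat_lit 532) (nat_lit 516) (nat_lit 512)) (XT.lf (nat_lit 0) (nat_lit 304501475) (nat_lit 532) (nat_lit 3150031439) (nat_lit 608) (nat_lit 3072086526) (nat_lit 750) (nat_lit 5) (nat_lit 757) (nat_lit 5) (nat_lit 758) (nat_lit 5) (nat_lit 533) (nat_lit 516) (nat_lit 511)))) (XT.nd (nat_lit 156) (nat_lit 760) (nat_lit 0) (XT.nd (nat_lit 78) (nat_lit 608) (nat_lit 0) (XT.lf (nat_lit 0) (nat_lit 13678244) (nat_lit 608) (nat_lit 2420168868) (nat_lit 76) (nat_lit 4107402913) (nat_lit 749) (nat_lit 5) (nat_lit 757) (nat_lit 5) (nat_lit 750) (nat_lit 5) (nat_lit 534) (nat_lit 516) (nat_lit 510)) (XT.lf (nat_lit 0) (nat_lit 1407442518) (nat_lit 608) (nat_lit 1648240641) (nat_lit 684) (nat_lit 3501378315) (nat_lit 741) (nat_lit 5) (nat_lit 749) (nat_lit 5) (nat_lit 750) (nat_lit 5) (nat_lit 535) (nat_lit 516) (nat_lit 509))) (XT.nd (nat_lit 78) (nat_lit 760) (nat_lit 0) (XT.lf (nat_lit 0) (nat_lit 5296240566) (nat_lit 608) (nat_lit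 806140533) (nat_lit 684) (nat_lit 471938428) (nat_lit 741) (nat_lit 5) (nat_lit 749) (nat_lit 5) (nat_lit 750) (nat_lit 5) (nat_lit 536) (nat_lit 516) (nat_lit 508)) (XT.lf (nat_lit 0) (nat_lit 2530170817) (nat_lit 760) (nat_lit 3953057638) (nat_lit 76) (nat_lit 109433121) (nat_lit 731) (nat_lit 5) (nat_lit 741) (nat_lit 5) (nat_lit 732) (nat_lit 5) (nat_lit 537) (nat_lit 516) (nat_lit 507))))) (XT.nd (nat_lit 312) (nat_lit 3040) (nat_lit 0) (XT.nd (nat_lit 156) (nat_lit 912) (nat_lit 0) (XT.nd (nat_lit 78) (nat_lit 836) (nat_lit 0) (XT.lf (nat_lit 0) (nat_lit 5529771586) (nat_lit 760) (nat_lit 16181436) (nat_lit 76) (nat_lit 1066486688) (nat_lit 731) (nat_lit 5) (nat_lit 741) (nat_lit 5) (nat_lit 732) (nat_lit 5) (nat_lit 538) (nat_lit 516) (nat_lit 506)) (XT.lf (nat_lit 0) (nat_lit 1887957872) (nat_lit 836) (nat_lit 2642416824) (nat_lit 76) (nat_lit 2102853953) (nat_lit 720) (nat_lit 5) (nat_lit 731) (nat_lit 5) (nat_lit 721) (nat_lit 5) (nat_lit 539) (nat_lit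 516) (nat_lit 505))) (XT.nd (nat_lit 78) (nat_lit 76) (nat_lit 0) (XT.lf (nat_lit 0) (nat_lit 1385683410) (nat_lit 836) (nat_lit 3458684454) (nat_lit 912) (nat_lit 1811111609) (nat_lit 709) (nat_lit 5) (nat_lit 720) (nat_lit 5) (nat_lit 721) (nat_lit 5) (nat_lit 540) (nat_lit 516) (nat_lit 504)) (XT.lf (nat_lit 0) (nat_lit 1116400596) (nat_lit 912) (nat_lit 1205081926) (nat_lit 76) (nat_lit 4357542315) (nat_lit 708) (nat_lit 5) (nat_lit 720) (nat_lit 5) (nat_lit 709) (nat_lit 5) (nat_lit 541) (nat_lit 516) (nat_lit 503)))) (XT.nd (nat_lit 156) (nat_lit 1064) (nat_lit 0) (XT.nd (nat_lit 78) (nat_lit 1064) (nat_lit 0) (XT.lf (nat_lit 0) (nat_lit 2918547348) (nat_lit 912) (nat_lit 1112282832) (nat_lit 988) (nat_lit 2672925362) (nat_lit 696) (nat_lit 5) (nat_lit 708) (nat_lit 5) (nat_lit 709) (nat_lit 5) (nat_lit 542) (nat_lit 516) (nat_lit 502)) (XT.lf (nat_lit 0) (nat_lit 216652242) (nat_lit 1064) (nat_lit 6365127055) (nat_lit 76) (nat_lit 148258177) (nat_lit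 682) (nat_lit 5) (nat_lit 696) (nat_lit 5) (nat_lit 683) (nat_lit 5) (nat_lit 543) (nat_lit 516) (nat_lit 501))) (XT.nd (nat_lit 78) (nat_lit 1064) (nat_lit 0) (XT.lf (nat_lit 0) (nat_lit 3096470110) (nat_lit 1064) (nat_lit 2182536746) (nat_lit 76) (nat_lit 1478125906) (nat_lit 682) (nat_lit 5) (nat_lit 696) (nat_lit 5) (nat_lit 683) (nat_lit 5) (nat_lit 544) (nat_lit 516) (nat_lit 500)) (XT.lf (nat_lit 0) (nat_lit 2061422872) (nat_lit 1064) (nat_lit 3922385447) (nat_lit 1140) (nat_lit 801968905) (nat_lit 668) (nat_lit 5) (nat_lit 682) (nat_lit 5) (nat_lit 683) (nat_lit 5) (nat_lit 545) (nat_lit 516) (nat_lit 499)))))) (XT.nd (nat_lit 546) (nat_lit 10032) (nat_lit 0) (XT.nd (nat_lit 234) (nat_lit 2736) (nat_lit 0) (XT.nd (nat_lit 78) (nat_lit 2432) (nat_lit 0) (XT.lf (nat_lit 0) (nat_lit 2037963901) (nat_lit 1140) (nat_lit 458513047) (nat_lit 76) (nat_lit 4319212868) (nat_lit 667) (nat_lit 5) (nat_lit 682) (nat_lit 5) (nat_lit 668) (nat_lit 5) (nat_lit 546)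 (nat_lit 516) (nat_lit 498)) (XT.nd (nat_lit 78) (nat_lit 1292) (nat_lit 0) (XT.lf (nat_lit 0) (nat_lit 3889486415) (nat_lit 1140) (nat_lit 998014515) (nat_lit 1216) (nat_lit 1959328247) (nat_lit 652) (nat_lit 5) (nat_lit 667) (nat_lit 5) (nat_lit 668) (nat_lit 5) (nat_lit 547) (nat_lit 516) (nat_lit 497)) (XT.lf (nat_lit 0) (nat_lit 858127451) (nat_lit 1292) (nat_lit 5467724445) (nat_lit 76) (nat_lit 553531839) (nat_lit 635) (nat_lit 5) (nat_lit 652) (nat_lit 5) (nat_lit 636) (nat_lit 5) (nat_lit 548) (nat_lit 516) (nat_lit 496)))) (XT.nd (nat_lit 156) (nat_lit 1444) (nat_lit 0) (XT.nd (nat_lit 78) (nat_lit 1292) (nat_lit 0) (XT.lf (nat_lit 0) (nat_lit 3672031035) (nat_lit 1292) (nat_lit 1074097324) (nat_lit 76) (nat_lit 2166880421) (nat_lit 635) (nat_lit 5) (nat_lit 652) (nat_lit 5) (nat_lit 636) (nat_lit 5) (nat_lit 549) (nat_lit 516) (nat_lit 495)) (XT.lf (nat_lit 0) (nat_lit 3402698641) (nat_lit 1292) (nat_lit 3102512049) (nat_lit 1368) (nat_lit 442840680)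 (nat_lit 618) (nat_lit 5) (nat_lit 635) (nat_lit 5) (nat_lit 636) (nat_lit 5) (nat_lit 550) (nat_lit 516) (nat_lit 494))) (XT.nd (nat_lit 78) (nat_lit 0) (nat_lit 0) (XT.lf (nat_lit 0) (nat_lit 946864285) (nat_lit 1368) (nat_lit 1387529237) (nat_lit 1444) (nat_lit 4649997820) (nat_lit 599) (nat_lit 5) (nat_lit 617) (nat_lit 5) (nat_lit 618) (nat_lit 5) (nat_lit 551) (nat_lit 516) (nat_lit 493)) (XT.lf (nat_lit 0) (nat_lit 5129784113) (nat_lit 1444) (nat_lit 1500115500) (nat_lit 76) (nat_lit 392133844) (nat_lit 599) (nat_lit 5) (nat_lit 618) (nat_lit 5) (nat_lit 600) (nat_lit 5) (nat_lit 552) (nat_lit 516) (nat_lit 492))))) (XT.nd (nat_lit 312) (nat_lit 5320) (nat_lit 0) (XT.nd (nat_lit 156) (nat_lit 1672) (nat_lit 0) (XT.nd (nat_lit 78) (nat_lit 1520) (nat_lit 0) (XT.lf (nat_lit 0) (nat_lit 881146289) (nat_lit 1520) (nat_lit 3956816336) (nat_lit 76) (nat_lit 2222899438) (nat_lit 579) (nat_lit 5) (nat_lit 599) (nat_lit 5) (nat_lit 580) (nat_lit 5) (nat_lit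 553) (nat_lit 516) (nat_lit 491)) (XT.lf (nat_lit 0) (nat_lit 666391500) (nat_lit 1520) (nat_lit 2976551229) (nat_lit 1596) (nat_lit 3458113396) (nat_lit 559) (nat_lit 5) (nat_lit 579) (nat_lit 5) (nat_lit 580) (nat_lit 5) (nat_lit 554) (nat_lit 516) (nat_lit 490))) (XT.nd (nat_lit 78) (nat_lit 1672) (nat_lit 0) (XT.lf (nat_lit 0) (nat_lit 5385919889) (nat_lit 1520) (nat_lit 1045173096) (nat_lit 1596) (nat_lit 711543082) (nat_lit 559) (nat_lit 5) (nat_lit 579) (nat_lit 5) (nat_lit 580) (nat_lit 5) (nat_lit 555) (nat_lit 516) (nat_lit 489)) (XT.lf (nat_lit 0) (nat_lit 2033512540) (nat_lit 1672) (nat_lit 4200829260) (nat_lit 76) (nat_lit 951019326) (nat_lit 537) (nat_lit 5) (nat_lit 559) (nat_lit 5) (nat_lit 538) (nat_lit 5) (nat_lit 556) (nat_lit 516) (nat_lit 488)))) (XT.nd (nat_lit 156) (nat_lit 3572) (nat_lit 0) (XT.nd (nat_lit 78) (nat_lit 76) (nat_lit 0) (XT.lf (nat_lit 0) (nat_lit 561036118) (nat_lit 1672) (nat_lit 4231417861) (nat_lit 1748) (nat_lit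 2437026501) (nat_lit 515) (nat_lit 5) (nat_lit 537) (nat_lit 5) (nat_lit 538) (nat_lit 5) (nat_lit 557) (nat_lit 516) (nat_lit 487)) (XT.lf (nat_lit 0) (nat_lit 302562115) (nat_lit 1748) (nat_lit 1851886389) (nat_lit 76) (nat_lit 5120498027) (nat_lit 514) (nat_lit 5) (nat_lit 537) (nat_lit 5) (nat_lit 515) (nat_lit 5) (nat_lit 558) (nat_lit 516) (nat_lit 486))) (XT.nd (nat_lit 78) (nat_lit 1824) (nat_lit 0) (XT.lf (nat_lit 0) (nat_lit 3031567387) (nat_lit 1824) (nat_lit 4286726578) (nat_lit 76) (nat_lit 3364498) (nat_lit 491) (nat_lit 5) (nat_lit 515) (nat_lit 5) (nat_lit 492) (nat_lit 5) (nat_lit 559) (nat_lit 516) (nat_lit 485)) (XT.lf (nat_lit 0) (nat_lit 618858305) (nat_lit 1824) (nat_lit 5175313296) (nat_lit 1900) (nat_lit 1575556447) (nat_lit 467) (nat_lit 5) (nat_lit 491) (nat_lit 5) (nat_lit 492) (nat_lit 5) (nat_lit 560) (nat_lit 516) (nat_lit 484))))))))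
noncomputable def xc64 : XT := (XT.nd (nat_lit 2262) (nat_lit 9196) (nat_lit 0) (XT.nd (nat_lit 1092) (nat_lit 7448) (nat_lit 0) (XT.nd (nat_lit 546) (nat_lit 4180) (nat_lit 0) (XT.nd (nat_lit 234) (nat_lit 1900) (nat_lit 0) (XT.nd (nat_lit 78) (nat_lit 1976) (nat_lit 0) (XT.lf (nat_lit 0) (nat_lit 1155147022) (nat_lit 1900) (nat_lit 1796255564) (nat_lit 76) (nat_lit 4467654573) (nat_lit 466) (nat_lit 5) (nat_lit 491) (nat_lit 5) (nat_lit 467) (nat_lit 5) (nat_lit 561) (nat_lit 516) (nat_lit 483)) (XT.nd (nat_lit 78) (nat_lit 912) (nat_lit 0) (XT.lf (nat_lit 0) (nat_lit 3239705623) (nat_lit 1064) (nat_lit 650296069) (nat_lit 1140) (nat_lit 3579753770) (nat_lit 452) (nat_lit 5) (nat_lit 466) (nat_lit 5) (nat_lit 467) (nat_lit 5) (nat_lit 562) (nat_lit 516) (nat_lit 482)) (XT.lf (nat_lit 0) (nat_lit 828808084) (nat_lit 912) (nat_lit 5829526185) (nat_lit 988) (nat_lit 863561347) (nat_lit 440) (nat_lit 5) (nat_lit 452) (nat_lit 5) (nat_lit 453) (nat_lit 5) (nat_lit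 563) (nat_lit 516) (nat_lit 481)))) (XT.nd (nat_lit 156) (nat_lit 912) (nat_lit 0) (XT.nd (nat_lit 78) (nat_lit 912) (nat_lit 0) (XT.lf (nat_lit 0) (nat_lit 1865395738) (nat_lit 988) (nat_lit 1596005441) (nat_lit 76) (nat_lit 4113764121) (nat_lit 439) (nat_lit 5) (nat_lit 452) (nat_lit 5) (nat_lit 440) (nat_lit 5) (nat_lit 564) (nat_lit 516) (nat_lit 480)) (XT.lf (nat_lit 0) (nat_lit 3594638387) (nat_lit 912) (nat_lit 1017619716) (nat_lit 988) (nat_lit 3017633629) (nat_lit 427) (nat_lit 5) (nat_lit 439) (nat_lit 5) (nat_lit 440) (nat_lit 5) (nat_lit 565) (nat_lit 516) (nat_lit 479))) (XT.nd (nat_lit 78) (nat_lit 76) (nat_lit 0) (XT.lf (nat_lit 0) (nat_lit 1180640544) (nat_lit 836) (nat_lit 6213598467) (nat_lit 912) (nat_lit 291873290) (nat_lit 416) (nat_lit 5) (nat_lit 427) (nat_lit 5) (nat_lit 428) (nat_lit 5) (nat_lit 566) (nat_lit 516) (nat_lit 478)) (XT.lf (nat_lit 0) (nat_lit 2442218449) (nat_lit 912) (nat_lit 1261169369) (nat_lit 76) (nat_lit 4040020408)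 (nat_lit 415) (nat_lit 5) (nat_lit 427) (nat_lit 5) (nat_lit 416) (nat_lit 5) (nat_lit 567) (nat_lit 516) (nat_lit 477))))) (XT.nd (nat_lit 234) (nat_lit 2432) (nat_lit 0) (XT.nd (nat_lit 78) (nat_lit 912) (nat_lit 0) (XT.lf (nat_lit 0) (nat_lit 4089991815) (nat_lit 836) (nat_lit 1117037709) (nat_lit 912) (nat_lit 2595186096) (nat_lit 404) (nat_lit 5) (nat_lit 415) (nat_lit 5) (nat_lit 416) (nat_lit 5) (nat_lit 568) (nat_lit 516) (nat_lit 476)) (XT.nd (nat_lit 78) (nat_lit 0) (nat_lit 0) (XT.lf (nat_lit 0) (nat_lit 145822260) (nat_lit 912) (nat_lit 6198662962) (nat_lit 76) (nat_lit 1518034497) (nat_lit 392) (nat_lit 5) (nat_lit 404) (nat_lit 5) (nat_lit 393) (nat_lit 5) (nat_lit 569) (nat_lit 516) (nat_lit 475)) (XT.lf (nat_lit 0) (nat_lit 2893639865) (nat_lit 912) (nat_lit 801091404) (nat_lit 76) (nat_lit 4229223650) (nat_lit 392) (nat_lit 5) (nat_lit 404) (nat_lit 5) (nat_lit 393) (nat_lit 5) (nat_lit 570) (nat_lit 516) (nat_lit 474)))) (XT.nd (nat_lit 156)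 (nat_lit 760) (nat_lit 0) (XT.nd (nat_lit 78) (nat_lit 836) (nat_lit 0) (XT.lf (nat_lit 0) (nat_lit 4716694241) (nat_lit 836) (nat_lit 965473478) (nat_lit 912) (nat_lit 2304738844) (nat_lit 381) (nat_lit 5) (nat_lit 392) (nat_lit 5) (nat_lit 393) (nat_lit 5) (nat_lit 571) (nat_lit 516) (nat_lit 473)) (XT.lf (nat_lit 0) (nat_lit 456659747) (nat_lit 836) (nat_lit 5781852113) (nat_lit 76) (nat_lit 1812795457) (nat_lit 370) (nat_lit 5) (nat_lit 381) (nat_lit 5) (nat_lit 371) (nat_lit 5) (nat_lit 572) (nat_lit 516) (nat_lit 472))) (XT.nd (nat_lit 78) (nat_lit 760) (nat_lit 0) (XT.lf (nat_lit 0) (nat_lit 3226849846) (nat_lit 836) (nat_lit 224501758) (nat_lit 76) (nat_lit 4665653974) (nat_lit 370) (nat_lit 5) (nat_lit 381) (nat_lit 5) (nat_lit 371) (nat_lit 5) (nat_lit 573) (nat_lit 516) (nat_lit 471)) (XT.lf (nat_lit 0) (nat_lit 5466288060) (nat_lit 760) (nat_lit 578422042) (nat_lit 836) (nat_lit 2139464977) (nat_lit 360) (nat_lit 5) (nat_lit 370) (nat_lit 5) (nat_lit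 371) (nat_lit 5) (nat_lit 574) (nat_lit 516) (nat_lit 470)))))) (XT.nd (nat_lit 546) (nat_lit 3800) (nat_lit 0) (XT.nd (nat_lit 234) (nat_lit 2128) (nat_lit 0) (XT.nd (nat_lit 78) (nat_lit 760) (nat_lit 0) (XT.lf (nat_lit 0) (nat_lit 650954372) (nat_lit 760) (nat_lit 5261708449) (nat_lit 76) (nat_lit 2340072084) (nat_lit 350) (nat_lit 5) (nat_lit 360) (nat_lit 5) (nat_lit 351) (nat_lit 5) (nat_lit 575) (nat_lit 516) (nat_lit 469)) (XT.nd (nat_lit 78) (nat_lit 0) (nat_lit 0) (XT.lf (nat_lit 0) (nat_lit 466529269) (nat_lit 760) (nat_lit 2984748259) (nat_lit 836) (nat_lit 4871453159) (nat_lit 340) (nat_lit 5) (nat_lit 350) (nat_lit 5) (nat_lit 351) (nat_lit 5) (nat_lit 576) (nat_lit 516) (nat_lit 468)) (XT.lf (nat_lit 0) (nat_lit 6301117612) (nat_lit 836) (nat_lit 2063599473) (nat_lit 76) (nat_lit 29541496) (nat_lit 340) (nat_lit 5) (nat_lit 351) (nat_lit 5) (nat_lit 341) (nat_lit 5) (nat_lit 577) (nat_lit 516) (nat_lit 467)))) (XT.nd (nat_lit 156) (nat_lit 684)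 (nat_lit 0) (XT.nd (nat_lit 78) (nat_lit 684) (nat_lit 0) (XT.lf (nat_lit 0) (nat_lit 734428933) (nat_lit 760) (nat_lit 4646319050) (nat_lit 76) (nat_lit 3086307044) (nat_lit 330) (nat_lit 5) (nat_lit 340) (nat_lit 5) (nat_lit 331) (nat_lit 5) (nat_lit 578) (nat_lit 516) (nat_lit 466)) (XT.lf (nat_lit 0) (nat_lit 1262485753) (nat_lit 684) (nat_lit 2309197234) (nat_lit 760) (nat_lit 4969726771) (nat_lit 321) (nat_lit 5) (nat_lit 330) (nat_lit 5) (nat_lit 331) (nat_lit 5) (nat_lit 579) (nat_lit 516) (nat_lit 465))) (XT.nd (nat_lit 78) (nat_lit 684) (nat_lit 0) (XT.lf (nat_lit 0) (nat_lit 6461838085) (nat_lit 760) (nat_lit 1319979662) (nat_lit 76) (nat_lit 835512940) (nat_lit 321) (nat_lit 5) (nat_lit 331) (nat_lit 5) (nat_lit 322) (nat_lit 5) (nat_lit 580) (nat_lit 516) (nat_lit 464)) (XT.lf (nat_lit 0) (nat_lit 712077621) (nat_lit 684) (nat_lit 3943363086) (nat_lit 76) (nat_lit 4039110033) (nat_lit 312) (nat_lit 5) (nat_lit 321) (nat_lit 5) (nat_lit 313) (nat_lit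 5) (nat_lit 581) (nat_lit 516) (nat_lit 463))))) (XT.nd (nat_lit 312) (nat_lit 1824) (nat_lit 0) (XT.nd (nat_lit 156) (nat_lit 1292) (nat_lit 0) (XT.nd (nat_lit 78) (nat_lit 0) (nat_lit 0) (XT.lf (nat_lit 0) (nat_lit 2152971920) (nat_lit 684) (nat_lit 1438504351) (nat_lit 760) (nat_lit 5181889278) (nat_lit 303) (nat_lit 5) (nat_lit 312) (nat_lit 5) (nat_lit 313) (nat_lit 5) (nat_lit 582) (nat_lit 516) (nat_lit 462)) (XT.lf (nat_lit 0) (nat_lit 6527873901) (nat_lit 760) (nat_lit 490538531) (nat_lit 76) (nat_lit 1835358055) (nat_lit 303) (nat_lit 5) (nat_lit 313) (nat_lit 5) (nat_lit 304) (nat_lit 5) (nat_lit 583) (nat_lit 516) (nat_lit 461))) (XT.nd (nat_lit 78) (nat_lit 608) (nat_lit 0) (XT.lf (nat_lit 0) (nat_lit 588196926) (nat_lit 684) (nat_lit 3160179679) (nat_lit 76) (nat_lit 5187158992) (nat_lit 294) (nat_lit 5) (nat_lit 303) (nat_lit 5) (nat_lit 295) (nat_lit 5) (nat_lit 584) (nat_lit 516) (nat_lit 460)) (XT.lf (nat_lit 0) (nat_lit 3130915667) (nat_lit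 608) (nat_lit 383945829) (nat_lit 684) (nat_lit 5504060304) (nat_lit 286) (nat_lit 5) (nat_lit 294) (nat_lit 5) (nat_lit 295) (nat_lit 5) (nat_lit 585) (nat_lit 516) (nat_lit 459)))) (XT.nd (nat_lit 156) (nat_lit 1140) (nat_lit 0) (XT.nd (nat_lit 78) (nat_lit 76) (nat_lit 0) (XT.lf (nat_lit 0) (nat_lit 423308196) (nat_lit 608) (nat_lit 6082759137) (nat_lit 684) (nat_lit 2597790131) (nat_lit 278) (nat_lit 5) (nat_lit 286) (nat_lit 5) (nat_lit 287) (nat_lit 5) (nat_lit 586) (nat_lit 516) (nat_lit 458)) (XT.lf (nat_lit 0) (nat_lit 366411778) (nat_lit 684) (nat_lit 2303834907) (nat_lit 76) (nat_lit 6520107085) (nat_lit 277) (nat_lit 5) (nat_lit 286) (nat_lit 5) (nat_lit 278) (nat_lit 5) (nat_lit 587) (nat_lit 516) (nat_lit 457))) (XT.nd (nat_lit 78) (nat_lit 532) (nat_lit 0) (XT.lf (nat_lit 0) (nat_lit 3350865336) (nat_lit 684) (nat_lit 5094395715) (nat_lit 76) (nat_lit 833062270) (nat_lit 269) (nat_lit 5) (nat_lit 278) (nat_lit 5) (nat_lit 270) (nat_lit 5) (nat_lit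 588) (nat_lit 516) (nat_lit 456)) (XT.lf (nat_lit 0) (nat_lit 1416751600) (nat_lit 532) (nat_lit 4984073277) (nat_lit 608) (nat_lit 2967112800) (nat_lit 262) (nat_lit 5) (nat_lit 269) (nat_lit 5) (nat_lit 270) (nat_lit 5) (nat_lit 589) (nat_lit 516) (nat_lit 455))))))) (XT.nd (nat_lit 1092) (nat_lit 4408) (nat_lit 0) (XT.nd (nat_lit 546) (nat_lit 2052) (nat_lit 0) (XT.nd (nat_lit 234) (nat_lit 1596) (nat_lit 0) (XT.nd (nat_lit 78) (nat_lit 1064) (nat_lit 0) (XT.lf (nat_lit 0) (nat_lit 49697060) (nat_lit 608) (nat_lit 1381188449) (nat_lit 76) (nat_lit 8028494775) (nat_lit 261) (nat_lit 5) (nat_lit 269) (nat_lit 5) (nat_lit 262) (nat_lit 5) (nat_lit 590) (nat_lit 516) (nat_lit 454)) (XT.nd (nat_lit 78) (nat_lit 532) (nat_lit 0) (XT.lf (nat_lit 0) (nat_lit 3100472960) (nat_lit 608) (nat_lit 4244617849) (nat_lit 76) (nat_lit 2206903142) (nat_lit 254) (nat_lit 5) (nat_lit 262) (nat_lit 5) (nat_lit 255) (nat_lit 5) (nat_lit 591) (nat_lit 516) (nat_lit 453)) (XT.lf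 (nat_lit 0) (nat_lit 2476617652) (nat_lit 532) (nat_lit 3735089756) (nat_lit 608) (nat_lit 3434765242) (nat_lit 247) (nat_lit 5) (nat_lit 254) (nat_lit 5) (nat_lit 255) (nat_lit 5) (nat_lit 592) (nat_lit 516) (nat_lit 452)))) (XT.nd (nat_lit 156) (nat_lit 988) (nat_lit 0) (XT.nd (nat_lit 78) (nat_lit 608) (nat_lit 0) (XT.lf (nat_lit 0) (nat_lit 9341647776) (nat_lit 532) (nat_lit 36941852) (nat_lit 608) (nat_lit 364384419) (nat_lit 247) (nat_lit 5) (nat_lit 254) (nat_lit 5) (nat_lit 255) (nat_lit 5) (nat_lit 593) (nat_lit 516) (nat_lit 451)) (XT.lf (nat_lit 0) (nat_lit 2763420641) (nat_lit 608) (nat_lit 3342993845) (nat_lit 76) (nat_lit 3733986923) (nat_lit 239) (nat_lit 5) (nat_lit 247) (nat_lit 5) (nat_lit 240) (nat_lit 5) (nat_lit 594) (nat_lit 516) (nat_lit 450))) (XT.nd (nat_lit 78) (nat_lit 532) (nat_lit 0) (XT.lf (nat_lit 0) (nat_lit 3596352869) (nat_lit 456) (nat_lit 2344543253) (nat_lit 532) (nat_lit 3998994650) (nat_lit 233) (nat_lit 5) (nat_lit 239)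 (nat_lit 5) (nat_lit 240) (nat_lit 5) (nat_lit 595) (nat_lit 516) (nat_lit 449)) (XT.lf (nat_lit 0) (nat_lit 629044168) (nat_lit 532) (nat_lit 8555191521) (nat_lit 608) (nat_lit 857089410) (nat_lit 226) (nat_lit 5) (nat_lit 233) (nat_lit 5) (nat_lit 234) (nat_lit 5) (nat_lit 596) (nat_lit 516) (nat_lit 448))))) (XT.nd (nat_lit 234) (nat_lit 1064) (nat_lit 0) (XT.nd (nat_lit 78) (nat_lit 912) (nat_lit 0) (XT.lf (nat_lit 0) (nat_lit 2341330859) (nat_lit 608) (nat_lit 2396303384) (nat_lit 76) (nat_lit 5406361089) (nat_lit 225) (nat_lit 5) (nat_lit 233) (nat_lit 5) (nat_lit 226) (nat_lit 5) (nat_lit 597) (nat_lit 516) (nat_lit 447)) (XT.nd (nat_lit 78) (nat_lit 456) (nat_lit 0) (XT.lf (nat_lit 0) (nat_lit 4769436669) (nat_lit 456) (nat_lit 820538085) (nat_lit 532) (nat_lit 4658677658) (nat_lit 219) (nat_lit 5) (nat_lit 225) (nat_lit 5) (nat_lit 226) (nat_lit 5) (nat_lit 598) (nat_lit 516) (nat_lit 446)) (XT.lf (nat_lit 0) (nat_lit 1709910833) (nat_lit 456) (nat_lit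 7208591244) (nat_lit 532) (nat_lit 1436603700) (nat_lit 213) (nat_lit 5) (nat_lit 219) (nat_lit 5) (nat_lit 220) (nat_lit 5) (nat_lit 599) (nat_lit 516) (nat_lit 445)))) (XT.nd (nat_lit 156) (nat_lit 532) (nat_lit 0) (XT.nd (nat_lit 78) (nat_lit 456) (nat_lit 0) (XT.lf (nat_lit 0) (nat_lit 1835225690) (nat_lit 532) (nat_lit 1411361385) (nat_lit 76) (nat_lit 7216670699) (nat_lit 212) (nat_lit 5) (nat_lit 219) (nat_lit 5) (nat_lit 213) (nat_lit 5) (nat_lit 600) (nat_lit 516) (nat_lit 444)) (XT.lf (nat_lit 0) (nat_lit 5165319409) (nat_lit 532) (nat_lit 4589324472) (nat_lit 76) (nat_lit 818499012) (nat_lit 206) (nat_lit 5) (nat_lit 213) (nat_lit 5) (nat_lit 207) (nat_lit 5) (nat_lit 601) (nat_lit 516) (nat_lit 443))) (XT.nd (nat_lit 78) (nat_lit 76) (nat_lit 0) (XT.lf (nat_lit 0) (nat_lit 2829431758) (nat_lit 456) (nat_lit 5749996793) (nat_lit 532) (nat_lit 2105450143) (nat_lit 200) (nat_lit 5) (nat_lit 206) (nat_lit 5) (nat_lit 207) (nat_lit 5) (nat_lit 602)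 (nat_lit 516) (nat_lit 442)) (XT.lf (nat_lit 0) (nat_lit 1245528525) (nat_lit 532) (nat_lit 395089931) (nat_lit 76) (nat_lit 9158085516) (nat_lit 199) (nat_lit 5) (nat_lit 206) (nat_lit 5) (nat_lit 200) (nat_lit 5) (nat_lit 603) (nat_lit 516) (nat_lit 441)))))) (XT.nd (nat_lit 546) (nat_lit 2280) (nat_lit 0) (XT.nd (nat_lit 234) (nat_lit 836) (nat_lit 0) (XT.nd (nat_lit 78) (nat_lit 912) (nat_lit 0) (XT.lf (nat_lit 0) (nat_lit 4668043546) (nat_lit 456) (nat_lit 3681773081) (nat_lit 76) (nat_lit 2564057794) (nat_lit 194) (nat_lit 5) (nat_lit 200) (nat_lit 5) (nat_lit 195) (nat_lit 5) (nat_lit 604) (nat_lit 516) (nat_lit 440)) (XT.nd (nat_lit 78) (nat_lit 456) (nat_lit 0) (XT.lf (nat_lit 0) (nat_lit 3980704927) (nat_lit 456) (nat_lit 4186645889) (nat_lit 532) (nat_lit 2863831779) (nat_lit 188) (nat_lit 5) (nat_lit 194) (nat_lit 5) (nat_lit 195) (nat_lit 5) (nat_lit 605) (nat_lit 516) (nat_lit 439)) (XT.lf (nat_lit 0) (nat_lit 576811666) (nat_lit 456) (nat_lit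 10497318549) (nat_lit 76) (nat_lit 76658013) (nat_lit 182) (nat_lit 5) (nat_lit 188) (nat_lit 5) (nat_lit 183) (nat_lit 5) (nat_lit 606) (nat_lit 516) (nat_lit 438)))) (XT.nd (nat_lit 156) (nat_lit 456) (nat_lit 0) (XT.nd (nat_lit 78) (nat_lit 380) (nat_lit 0) (XT.lf (nat_lit 0) (nat_lit 4092579603) (nat_lit 456) (nat_lit 2758606002) (nat_lit 76) (nat_lit 4420329692) (nat_lit 182) (nat_lit 5) (nat_lit 188) (nat_lit 5) (nat_lit 183) (nat_lit 5) (nat_lit 607) (nat_lit 516) (nat_lit 437)) (XT.lf (nat_lit 0) (nat_lit 5156600638) (nat_lit 380) (nat_lit 2525415480) (nat_lit 456) (nat_lit 3712574792) (nat_lit 177) (nat_lit 5) (nat_lit 182) (nat_lit 5) (nat_lit 183) (nat_lit 5) (nat_lit 608) (nat_lit 516) (nat_lit 436))) (XT.nd (nat_lit 78) (nat_lit 76) (nat_lit 0) (XT.lf (nat_lit 0) (nat_lit 1711720222) (nat_lit 380) (nat_lit 9643585197) (nat_lit 456) (nat_lit 164582383) (nat_lit 172) (nat_lit 5) (nat_lit 177) (nat_lit 5) (nat_lit 178) (nat_lit 5) (nat_lit 609) (nat_lit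 516) (nat_lit 435)) (XT.lf (nat_lit 0) (nat_lit 3438084796) (nat_lit 456) (nat_lit 1827498202) (nat_lit 76) (nat_lit 6381079687) (nat_lit 171) (nat_lit 5) (nat_lit 177) (nat_lit 5) (nat_lit 172) (nat_lit 5) (nat_lit 610) (nat_lit 516) (nat_lit 434))))) (XT.nd (nat_lit 312) (nat_lit 1064) (nat_lit 0) (XT.nd (nat_lit 156) (nat_lit 456) (nat_lit 0) (XT.nd (nat_lit 78) (nat_lit 380) (nat_lit 0) (XT.lf (nat_lit 0) (nat_lit 6349680229) (nat_lit 380) (nat_lit 772892455) (nat_lit 456) (nat_lit 4653140188) (nat_lit 166) (nat_lit 5) (nat_lit 171) (nat_lit 5) (nat_lit 172) (nat_lit 5) (nat_lit 611) (nat_lit 516) (nat_lit 433)) (XT.lf (nat_lit 0) (nat_lit 2774173339) (nat_lit 380) (nat_lit 8132588513) (nat_lit 456) (nat_lit 1000062947) (nat_lit 161) (nat_lit 5) (nat_lit 166) (nat_lit 5) (nat_lit 167) (nat_lit 5) (nat_lit 612) (nat_lit 516) (nat_lit 432))) (XT.nd (nat_lit 78) (nat_lit 380) (nat_lit 0) (XT.lf (nat_lit 0) (nat_lit 2703099528) (nat_lit 456) (nat_lit 896512314)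 (nat_lit 76) (nat_lit 8440338530) (nat_lit 160) (nat_lit 5) (nat_lit 166) (nat_lit 5) (nat_lit 161) (nat_lit 5) (nat_lit 613) (nat_lit 516) (nat_lit 431)) (XT.lf (nat_lit 0) (nat_lit 6494466057) (nat_lit 456) (nat_lit 4629996522) (nat_lit 76) (nat_lit 1050593945) (nat_lit 155) (nat_lit 5) (nat_lit 161) (nat_lit 5) (nat_lit 156) (nat_lit 5) (nat_lit 614) (nat_lit 516) (nat_lit 430)))) (XT.nd (nat_lit 156) (nat_lit 304) (nat_lit 0) (XT.nd (nat_lit 78) (nat_lit 456) (nat_lit 0) (XT.lf (nat_lit 0) (nat_lit 3836480709) (nat_lit 304) (nat_lit 6551720628) (nat_lit 380) (nat_lit 1924133529) (nat_lit 151) (nat_lit 5) (nat_lit 155) (nat_lit 5) (nat_lit 156) (nat_lit 5) (nat_lit 615) (nat_lit 516) (nat_lit 429)) (XT.lf (nat_lit 0) (nat_lit 26154427) (nat_lit 380) (nat_lit 1859543604) (nat_lit 456) (nat_lit 10566348671) (nat_lit 145) (nat_lit 5) (nat_lit 150) (nat_lit 5) (nat_lit 151) (nat_lit 5) (nat_lit 616) (nat_lit 516) (nat_lit 428))) (XT.nd (nat_lit 78) (nat_lit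 304) (nat_lit 0) (XT.lf (nat_lit 0) (nat_lit 5794212249) (nat_lit 456) (nat_lit 3857504236) (nat_lit 76) (nat_lit 2941617760) (nat_lit 145) (nat_lit 5) (nat_lit 151) (nat_lit 5) (nat_lit 146) (nat_lit 5) (nat_lit 617) (nat_lit 516) (nat_lit 427)) (XT.lf (nat_lit 0) (nat_lit 4889887363) (nat_lit 304) (nat_lit 4907593564) (nat_lit 380) (nat_lit 2939635752) (nat_lit 141) (nat_lit 5) (nat_lit 145) (nat_lit 5) (nat_lit 146) (nat_lit 5) (nat_lit 618) (nat_lit 516) (nat_lit 426))))))))
noncomputable def xc65 : XT := (XT.nd (nat_lit 73944) (nat_lit 0) (nat_lit 37544) (XT.nd (nat_lit 1092) (nat_lit 2812) (nat_lit 0) (XT.nd (nat_lit 546) (nat_lit 1292) (nat_lit 0) (XT.nd (nat_lit 234) (nat_lit 988) (nat_lit 0) (XT.nd (nat_lit 78) (nat_lit 304) (nat_lit 0) (XT.lf (nat_lit 0) (nat_lit 942722898) (nat_lit 380) (nat_lit 46012719) (nat_lit 456) (nat_lit 11894815033) (nat_lit 135) (nat_lit 5) (nat_lit 140) (nat_lit 5) (nat_lit 141) (nat_lit 5) (nat_lit 619) (nat_lit 516)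 (nat_lit 425)) (XT.nd (nat_lit 78) (nat_lit 304) (nat_lit 0) (XT.lf (nat_lit 0) (nat_lit 5013990877) (nat_lit 456) (nat_lit 3113127392) (nat_lit 76) (nat_lit 4904253628) (nat_lit 135) (nat_lit 5) (nat_lit 141) (nat_lit 5) (nat_lit 136) (nat_lit 5) (nat_lit 620) (nat_lit 516) (nat_lit 424)) (XT.lf (nat_lit 0) (nat_lit 5925001271) (nat_lit 304) (nat_lit 3206794767) (nat_lit 380) (nat_lit 4050113395) (nat_lit 131) (nat_lit 5) (nat_lit 135) (nat_lit 5) (nat_lit 136) (nat_lit 5) (nat_lit 621) (nat_lit 516) (nat_lit 423)))) (XT.nd (nat_lit 156) (nat_lit 608) (nat_lit 0) (XT.nd (nat_lit 78) (nat_lit 0) (nat_lit 0) (XT.lf (nat_lit 0) (nat_lit 14675381) (nat_lit 380) (nat_lit 11515848245) (nat_lit 76) (nat_lit 1804572685) (nat_lit 126) (nat_lit 5) (nat_lit 131) (nat_lit 5) (nat_lit 127) (nat_lit 5) (nat_lit 622) (nat_lit 516) (nat_lit 422)) (XT.lf (nat_lit 0) (nat_lit 4150306995) (nat_lit 380) (nat_lit 2407187508) (nat_lit 76) (nat_lit 6932442155) (nat_lit 126) (nat_lit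 5) (nat_lit 131) (nat_lit 5) (nat_lit 127) (nat_lit 5) (nat_lit 623) (nat_lit 516) (nat_lit 421))) (XT.nd (nat_lit 78) (nat_lit 304) (nat_lit 0) (XT.lf (nat_lit 0) (nat_lit 6931684416) (nat_lit 304) (nat_lit 1455962271) (nat_lit 380) (nat_lit 5259847921) (nat_lit 122) (nat_lit 5) (nat_lit 126) (nat_lit 5) (nat_lit 127) (nat_lit 5) (nat_lit 624) (nat_lit 516) (nat_lit 420)) (XT.lf (nat_lit 0) (nat_lit 2649394281) (nat_lit 304) (nat_lit 10092247551) (nat_lit 380) (nat_lit 1065924402) (nat_lit 118) (nat_lit 5) (nat_lit 122) (nat_lit 5) (nat_lit 123) (nat_lit 5) (nat_lit 625) (nat_lit 516) (nat_lit 419))))) (XT.nd (nat_lit 234) (nat_lit 684) (nat_lit 0) (XT.nd (nat_lit 78) (nat_lit 532) (nat_lit 0) (XT.lf (nat_lit 0) (nat_lit 3198934754) (nat_lit 380) (nat_lit 1750853072) (nat_lit 76) (nat_lit 9020051428) (nat_lit 117) (nat_lit 5) (nat_lit 122) (nat_lit 5) (nat_lit 118) (nat_lit 5) (nat_lit 626) (nat_lit 516) (nat_lit 418)) (XT.nd (nat_lit 78) (nat_lit 304) (nat_lit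 0) (XT.lf (nat_lit 0) (nat_lit 7562992942) (nat_lit 304) (nat_lit 6237958284) (nat_lit 76) (nat_lit 333702752) (nat_lit 114) (nat_lit 5) (nat_lit 118) (nat_lit 5) (nat_lit 115) (nat_lit 5) (nat_lit 627) (nat_lit 516) (nat_lit 417)) (XT.lf (nat_lit 0) (nat_lit 3428172438) (nat_lit 304) (nat_lit 8627820361) (nat_lit 380) (nat_lit 2245939625) (nat_lit 110) (nat_lit 5) (nat_lit 114) (nat_lit 5) (nat_lit 115) (nat_lit 5) (nat_lit 628) (nat_lit 516) (nat_lit 416)))) (XT.nd (nat_lit 156) (nat_lit 380) (nat_lit 0) (XT.nd (nat_lit 78) (nat_lit 228) (nat_lit 0) (XT.lf (nat_lit 0) (nat_lit 2154872693) (nat_lit 380) (nat_lit 1156264395) (nat_lit 76) (nat_lit 11160798907) (nat_lit 109) (nat_lit 5) (nat_lit 114) (nat_lit 5) (nat_lit 110) (nat_lit 5) (nat_lit 629) (nat_lit 516) (nat_lit 415)) (XT.lf (nat_lit 0) (nat_lit 6660310798) (nat_lit 304) (nat_lit 5843711046) (nat_lit 76) (nat_lit 2140087828) (nat_lit 106) (nat_lit 5) (nat_lit 110) (nat_lit 5) (nat_lit 107) (nat_lit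 5) (nat_lit 630) (nat_lit 516) (nat_lit 414))) (XT.nd (nat_lit 78) (nat_lit 76) (nat_lit 0) (XT.lf (nat_lit 0) (nat_lit 4142991946) (nat_lit 304) (nat_lit 7144953216) (nat_lit 380) (nat_lit 3531140501) (nat_lit 102) (nat_lit 5) (nat_lit 106) (nat_lit 5) (nat_lit 107) (nat_lit 5) (nat_lit 631) (nat_lit 516) (nat_lit 413)) (XT.lf (nat_lit 0) (nat_lit 1012292065) (nat_lit 380) (nat_lit 636669332) (nat_lit 76) (nat_lit 13348169619) (nat_lit 101) (nat_lit 5) (nat_lit 106) (nat_lit 5) (nat_lit 102) (nat_lit 5) (nat_lit 632) (nat_lit 516) (nat_lit 412)))))) (XT.nd (nat_lit 546) (nat_lit 1444) (nat_lit 0) (XT.nd (nat_lit 234) (nat_lit 836) (nat_lit 0) (XT.nd (nat_lit 78) (nat_lit 304) (nat_lit 0) (XT.lf (nat_lit 0) (nat_lit 5664247025) (nat_lit 304) (nat_lit 5537612691) (nat_lit 76) (nat_lit 3975112585) (nat_lit 98) (nat_lit 5) (nat_lit 102) (nat_lit 5) (nat_lit 99) (nat_lit 5) (nat_lit 633) (nat_lit 516) (nat_lit 411)) (XT.nd (nat_lit 78) (nat_lit 0) (nat_lit 0)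 (XT.lf (nat_lit 0) (nat_lit 4779961743) (nat_lit 304) (nat_lit 5651614136) (nat_lit 380) (nat_lit 4928388381) (nat_lit 94) (nat_lit 5) (nat_lit 98) (nat_lit 5) (nat_lit 99) (nat_lit 5) (nat_lit 634) (nat_lit 516) (nat_lit 410)) (XT.lf (nat_lit 0) (nat_lit 15307893625) (nat_lit 380) (nat_lit 208318915) (nat_lit 76) (nat_lit 30131207) (nat_lit 94) (nat_lit 5) (nat_lit 99) (nat_lit 5) (nat_lit 95) (nat_lit 5) (nat_lit 635) (nat_lit 516) (nat_lit 409)))) (XT.nd (nat_lit 156) (nat_lit 304) (nat_lit 0) (XT.nd (nat_lit 78) (nat_lit 228) (nat_lit 0) (XT.lf (nat_lit 0) (nat_lit 4568001892) (nat_lit 304) (nat_lit 5334991306) (nat_lit 76) (nat_lit 5831221373) (nat_lit 90) (nat_lit 5) (nat_lit 94) (nat_lit 5) (nat_lit 91) (nat_lit 5) (nat_lit 636) (nat_lit 516) (nat_lit 408)) (XT.lf (nat_lit 0) (nat_lit 5323831332) (nat_lit 228) (nat_lit 4156219643) (nat_lit 304) (nat_lit 6445507600) (nat_lit 87) (nat_lit 5) (nat_lit 90) (nat_lit 5) (nat_lit 91) (nat_lit 5) (nat_lit 637)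 (nat_lit 516) (nat_lit 407))) (XT.nd (nat_lit 78) (nat_lit 76) (nat_lit 0) (XT.lf (nat_lit 0) (nat_lit 97689094) (nat_lit 228) (nat_lit 14417168948) (nat_lit 304) (nat_lit 1605381569) (nat_lit 84) (nat_lit 5) (nat_lit 87) (nat_lit 5) (nat_lit 88) (nat_lit 5) (nat_lit 638) (nat_lit 516) (nat_lit 406)) (XT.lf (nat_lit 0) (nat_lit 3363805731) (nat_lit 304) (nat_lit 5252673596) (nat_lit 76) (nat_lit 7700383751) (nat_lit 83) (nat_lit 5) (nat_lit 87) (nat_lit 5) (nat_lit 84) (nat_lit 5) (nat_lit 639) (nat_lit 516) (nat_lit 405))))) (XT.nd (nat_lit 312) (nat_lit 684) (nat_lit 0) (XT.nd (nat_lit 156) (nat_lit 304) (nat_lit 0) (XT.nd (nat_lit 78) (nat_lit 228) (nat_lit 0) (XT.lf (nat_lit 0) (nat_lit 5757818571) (nat_lit 228) (nat_lit 2667734090) (nat_lit 304) (nat_lit 8091361148) (nat_lit 80) (nat_lit 5) (nat_lit 83) (nat_lit 5) (nat_lit 84) (nat_lit 5) (nat_lit 640) (nat_lit 516) (nat_lit 404)) (XT.lf (nat_lit 0) (nat_lit 281093254) (nat_lit 228) (nat_lit 13344171591)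 (nat_lit 304) (nat_lit 3094966559) (nat_lit 77) (nat_lit 5) (nat_lit 80) (nat_lit 5) (nat_lit 81) (nat_lit 5) (nat_lit 641) (nat_lit 516) (nat_lit 403))) (XT.nd (nat_lit 78) (nat_lit 228) (nat_lit 0) (XT.lf (nat_lit 0) (nat_lit 2042839467) (nat_lit 304) (nat_lit 5309168632) (nat_lit 76) (nat_lit 9573993174) (nat_lit 76) (nat_lit 5) (nat_lit 80) (nat_lit 5) (nat_lit 77) (nat_lit 5) (nat_lit 642) (nat_lit 516) (nat_lit 402)) (XT.lf (nat_lit 0) (nat_lit 6063421016) (nat_lit 228) (nat_lit 1195776117) (nat_lit 304) (nat_lit 9875935938) (nat_lit 73) (nat_lit 5) (nat_lit 76) (nat_lit 5) (nat_lit 77) (nat_lit 5) (nat_lit 643) (nat_lit 516) (nat_lit 401)))) (XT.nd (nat_lit 156) (nat_lit 380) (nat_lit 0) (XT.nd (nat_lit 78) (nat_lit 76) (nat_lit 0) (XT.lf (nat_lit 0) (nat_lit 319563545) (nat_lit 228) (nat_lit 12309167368) (nat_lit 304) (nat_lit 4718740034) (nat_lit 70) (nat_lit 5) (nat_lit 73) (nat_lit 5) (nat_lit 74) (nat_lit 5) (nat_lit 644) (nat_lit 516) (nat_lit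 400)) (XT.lf (nat_lit 0) (nat_lit 595145248) (nat_lit 304) (nat_lit 5524869320) (nat_lit 76) (nat_lit 11442758116) (nat_lit 69) (nat_lit 5) (nat_lit 73) (nat_lit 5) (nat_lit 70) (nat_lit 5) (nat_lit 645) (nat_lit 516) (nat_lit 399))) (XT.nd (nat_lit 78) (nat_lit 152) (nat_lit 0) (XT.lf (nat_lit 0) (nat_lit 5972560581) (nat_lit 304) (nat_lit 11562790139) (nat_lit 76) (nat_lit 245997590) (nat_lit 66) (nat_lit 5) (nat_lit 70) (nat_lit 5) (nat_lit 67) (nat_lit 5) (nat_lit 646) (nat_lit 516) (nat_lit 398)) (XT.lf (nat_lit 0) (nat_lit 191508750) (nat_lit 152) (nat_lit 11323550778) (nat_lit 228) (nat_lit 6488085601) (nat_lit 64) (nat_lit 5) (nat_lit 66) (nat_lit 5) (nat_lit 67) (nat_lit 5) (nat_lit 647) (nat_lit 516) (nat_lit 397))))))) (XT.nd (nat_lit 1170) (nat_lit 11400) (nat_lit 0) (XT.nd (nat_lit 546) (nat_lit 3724) (nat_lit 0) (XT.nd (nat_lit 234) (nat_lit 988) (nat_lit 0) (XT.nd (nat_lit 78) (nat_lit 380) (nat_lit 0) (XT.lf (nat_lit 0) (nat_lit 366262670)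 (nat_lit 228) (nat_lit 1431700648) (nat_lit 228) (nat_lit 1431700648) (nat_lit 775) (nat_lit 4) (nat_lit 778) (nat_lit 5) (nat_lit 778) (nat_lit 4) (nat_lit 526) (nat_lit 517) (nat_lit 517)) (XT.nd (nat_lit 78) (nat_lit 304) (nat_lit 0) (XT.lf (nat_lit 0) (nat_lit 342191560) (nat_lit 304) (nat_lit 2208830824) (nat_lit 76) (nat_lit 3914683457) (nat_lit 774) (nat_lit 5) (nat_lit 778) (nat_lit 5) (nat_lit 775) (nat_lit 4) (nat_lit 527) (nat_lit 517) (nat_lit 516)) (XT.lf (nat_lit 0) (nat_lit 1331165663) (nat_lit 304) (nat_lit 2171021137) (nat_lit 380) (nat_lit 2971082398) (nat_lit 770) (nat_lit 5) (nat_lit 774) (nat_lit 5) (nat_lit 775) (nat_lit 4) (nat_lit 528) (nat_lit 517) (nat_lit 515)))) (XT.nd (nat_lit 156) (nat_lit 532) (nat_lit 0) (XT.nd (nat_lit 78) (nat_lit 380) (nat_lit 0) (XT.lf (nat_lit 0) (nat_lit 176803206) (nat_lit 380) (nat_lit 1558053847) (nat_lit 76) (nat_lit 4747391538) (nat_lit 769) (nat_lit 5) (nat_lit 774) (nat_lit 5) (nat_lit 770) (nat_lit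 5) (nat_lit 529) (nat_lit 517) (nat_lit 514)) (XT.lf (nat_lit 0) (nat_lit 2058344508) (nat_lit 380) (nat_lit 1225165478) (nat_lit 456) (nat_lit 3208800424) (nat_lit 764) (nat_lit 5) (nat_lit 769) (nat_lit 5) (nat_lit 770) (nat_lit 5) (nat_lit 530) (nat_lit 517) (nat_lit 513))) (XT.nd (nat_lit 78) (nat_lit 532) (nat_lit 0) (XT.lf (nat_lit 0) (nat_lit 5721845740) (nat_lit 380) (nat_lit 664429163) (nat_lit 456) (nat_lit 117628455) (nat_lit 764) (nat_lit 5) (nat_lit 769) (nat_lit 5) (nat_lit 770) (nat_lit 5) (nat_lit 531) (nat_lit 517) (nat_lit 512)) (XT.lf (nat_lit 0) (nat_lit 2914963406) (nat_lit 456) (nat_lit 23984297) (nat_lit 532) (nat_lit 3577526555) (nat_lit 757) (nat_lit 5) (nat_lit 763) (nat_lit 5) (nat_lit 764) (nat_lit 5) (nat_lit 532) (nat_lit 517) (nat_lit 511))))) (XT.nd (nat_lit 312) (nat_lit 2432) (nat_lit 0) (XT.nd (nat_lit 156) (nat_lit 684) (nat_lit 0) (XT.nd (nat_lit 78) (nat_lit 76) (nat_lit 0) (XT.lf (nat_lit 0) (nat_lit 116137367) (nat_lit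 532) (nat_lit 5874895831) (nat_lit 608) (nat_lit 539536661) (nat_lit 750) (nat_lit 5) (nat_lit 757) (nat_lit 5) (nat_lit 758) (nat_lit 5) (nat_lit 533) (nat_lit 517) (nat_lit 510)) (XT.lf (nat_lit 0) (nat_lit 2476618997) (nat_lit 608) (nat_lit 2652931641) (nat_lit 76) (nat_lit 1416052585) (nat_lit 749) (nat_lit 5) (nat_lit 757) (nat_lit 5) (nat_lit 750) (nat_lit 5) (nat_lit 534) (nat_lit 517) (nat_lit 509))) (XT.nd (nat_lit 78) (nat_lit 76) (nat_lit 0) (XT.lf (nat_lit 0) (nat_lit 1147739128) (nat_lit 608) (nat_lit 4333517965) (nat_lit 684) (nat_lit 1080908596) (nat_lit 741) (nat_lit 5) (nat_lit 749) (nat_lit 5) (nat_lit 750) (nat_lit 5) (nat_lit 535) (nat_lit 517) (nat_lit 508)) (XT.lf (nat_lit 0) (nat_lit 1887606894) (nat_lit 684) (nat_lit 1579391028) (nat_lit 76) (nat_lit 3112883717) (nat_lit 740) (nat_lit 5) (nat_lit 749) (nat_lit 5) (nat_lit 741) (nat_lit 5) (nat_lit 536) (nat_lit 517) (nat_lit 507)))) (XT.nd (nat_lit 156) (nat_lit 1672) (nat_lit 0) (XT.nd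 (nat_lit 78) (nat_lit 76) (nat_lit 0) (XT.lf (nat_lit 0) (nat_lit 2308220716) (nat_lit 684) (nat_lit 2537754037) (nat_lit 760) (nat_lit 1752942156) (nat_lit 731) (nat_lit 5) (nat_lit 740) (nat_lit 5) (nat_lit 741) (nat_lit 5) (nat_lit 537) (nat_lit 517) (nat_lit 506)) (XT.lf (nat_lit 0) (nat_lit 1170075656) (nat_lit 760) (nat_lit 379139521) (nat_lit 76) (nat_lit 5070138167) (nat_lit 730) (nat_lit 5) (nat_lit 740) (nat_lit 5) (nat_lit 731) (nat_lit 5) (nat_lit 538) (nat_lit 517) (nat_lit 505))) (XT.nd (nat_lit 78) (nat_lit 912) (nat_lit 0) (XT.lf (nat_lit 0) (nat_lit 3599325929) (nat_lit 760) (nat_lit 484069269) (nat_lit 836) (nat_lit 2557471907) (nat_lit 720) (nat_lit 5) (nat_lit 730) (nat_lit 5) (nat_lit 731) (nat_lit 5) (nat_lit 539) (nat_lit 517) (nat_lit 504)) (XT.lf (nat_lit 0) (nat_lit 332455401) (nat_lit 912) (nat_lit 5705773009) (nat_lit 76) (nat_lit 625629576) (nat_lit 708) (nat_lit 5) (nat_lit 720) (nat_lit 5) (nat_lit 709) (nat_lit 5) (nat_lit 540)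 (nat_lit 517) (nat_lit 503)))))) (XT.nd (nat_lit 546) (nat_lit 7144) (nat_lit 0) (XT.nd (nat_lit 234) (nat_lit 3268) (nat_lit 0) (XT.nd (nat_lit 78) (nat_lit 988) (nat_lit 0) (XT.lf (nat_lit 0) (nat_lit 3203366089) (nat_lit 912) (nat_lit 1676908058) (nat_lit 76) (nat_lit 1807554074) (nat_lit 708) (nat_lit 5) (nat_lit 720) (nat_lit 5) (nat_lit 709) (nat_lit 5) (nat_lit 541) (nat_lit 517) (nat_lit 502)) (XT.nd (nat_lit 78) (nat_lit 76) (nat_lit 0) (XT.lf (nat_lit 0) (nat_lit 2416519135) (nat_lit 912) (nat_lit 3665812662) (nat_lit 988) (nat_lit 630939427) (nat_lit 696) (nat_lit 5) (nat_lit 708) (nat_lit 5) (nat_lit 709) (nat_lit 5) (nat_lit 542) (nat_lit 517) (nat_lit 501)) (XT.lf (nat_lit 0) (nat_lit 2196567809) (nat_lit 988) (nat_lit 187585280) (nat_lit 76) (nat_lit 4355843598) (nat_lit 695) (nat_lit 5) (nat_lit 708) (nat_lit 5) (nat_lit 696) (nat_lit 5) (nat_lit 543) (nat_lit 517) (nat_lit 500)))) (XT.nd (nat_lit 156) (nat_lit 1140) (nat_lit 0) (XT.nd (nat_lit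 78) (nat_lit 1140) (nat_lit 0) (XT.lf (nat_lit 0) (nat_lit 4004798834) (nat_lit 988) (nat_lit 1030137476) (nat_lit 1064) (nat_lit 1732987496) (nat_lit 682) (nat_lit 5) (nat_lit 695) (nat_lit 5) (nat_lit 696) (nat_lit 5) (nat_lit 544) (nat_lit 517) (nat_lit 499)) (XT.lf (nat_lit 0) (nat_lit 1069243962) (nat_lit 1140) (nat_lit 5348792271) (nat_lit 76) (nat_lit 379222563) (nat_lit 667) (nat_lit 5) (nat_lit 682) (nat_lit 5) (nat_lit 668) (nat_lit 5) (nat_lit 545) (nat_lit 517) (nat_lit 498))) (XT.nd (nat_lit 78) (nat_lit 1140) (nat_lit 0) (XT.lf (nat_lit 0) (nat_lit 3868104726) (nat_lit 1140) (nat_lit 1112345469) (nat_lit 76) (nat_lit 1847230817) (nat_lit 667) (nat_lit 5) (nat_lit 682) (nat_lit 5) (nat_lit 668) (nat_lit 5) (nat_lit 546) (nat_lit 517) (nat_lit 497)) (XT.lf (nat_lit 0) (nat_lit 3202936443) (nat_lit 1140) (nat_lit 3480292798) (nat_lit 1216) (nat_lit 176282012) (nat_lit 652) (nat_lit 5) (nat_lit 667) (nat_lit 5) (nat_lit 668) (nat_lit 5) (nat_lit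 547) (nat_lit 517) (nat_lit 496))))) (XT.nd (nat_lit 312) (nat_lit 3116) (nat_lit 0) (XT.nd (nat_lit 156) (nat_lit 2736) (nat_lit 0) (XT.nd (nat_lit 78) (nat_lit 0) (nat_lit 0) (XT.lf (nat_lit 0) (nat_lit 670845608) (nat_lit 1216) (nat_lit 1908748861) (nat_lit 1292) (nat_lit 4313006218) (nat_lit 635) (nat_lit 5) (nat_lit 651) (nat_lit 5) (nat_lit 652) (nat_lit 5) (nat_lit 548) (nat_lit 517) (nat_lit 495)) (XT.lf (nat_lit 0) (nat_lit 5085127003) (nat_lit 1216) (nat_lit 268466508) (nat_lit 1292) (nat_lit 1573432789) (nat_lit 635) (nat_lit 5) (nat_lit 651) (nat_lit 5) (nat_lit 652) (nat_lit 5) (nat_lit 549) (nat_lit 517) (nat_lit 494))) (XT.nd (nat_lit 78) (nat_lit 1368) (nat_lit 0) (XT.lf (nat_lit 0) (nat_lit 1172782200) (nat_lit 1368) (nat_lit 4368300686) (nat_lit 76) (nat_lit 1421546550) (nat_lit 617) (nat_lit 5) (nat_lit 635) (nat_lit 5) (nat_lit 618) (nat_lit 5) (nat_lit 550) (nat_lit 517) (nat_lit 493)) (XT.lf (nat_lit 0) (nat_lit 85579845) (nat_lit 1368)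 (nat_lit 3824573833) (nat_lit 1444) (nat_lit 3089441656) (nat_lit 599) (nat_lit 5) (nat_lit 617) (nat_lit 5) (nat_lit 618) (nat_lit 5) (nat_lit 551) (nat_lit 517) (nat_lit 492)))) (XT.nd (nat_lit 156) (nat_lit 1596) (nat_lit 0) (XT.nd (nat_lit 78) (nat_lit 1520) (nat_lit 0) (XT.lf (nat_lit 0) (nat_lit 4639258557) (nat_lit 1368) (nat_lit 2035645353) (nat_lit 1444) (nat_lit 362948635) (nat_lit 599) (nat_lit 5) (nat_lit 617) (nat_lit 5) (nat_lit 618) (nat_lit 5) (nat_lit 552) (nat_lit 517) (nat_lit 491)) (XT.lf (nat_lit 0) (nat_lit 2171627528) (nat_lit 1444) (nat_lit 172889536) (nat_lit 1520) (nat_lit 4732885159) (nat_lit 579) (nat_lit 5) (nat_lit 598) (nat_lit 5) (nat_lit 599) (nat_lit 5) (nat_lit 553) (nat_lit 517) (nat_lit 490))) (XT.nd (nat_lit 78) (nat_lit 1596) (nat_lit 0) (XT.lf (nat_lit 0) (nat_lit 5073581548) (nat_lit 1520) (nat_lit 314504203) (nat_lit 76) (nat_lit 1730167331) (nat_lit 579) (nat_lit 5) (nat_lit 599) (nat_lit 5) (nat_lit 580) (nat_lit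 5) (nat_lit 554) (nat_lit 517) (nat_lit 489)) (XT.lf (nat_lit 0) (nat_lit 663525482) (nat_lit 1596) (nat_lit 2788095337) (nat_lit 76) (nat_lit 3708706489) (nat_lit 558) (nat_lit 5) (nat_lit 579) (nat_lit 5) (nat_lit 559) (nat_lit 5) (nat_lit 555) (nat_lit 517) (nat_lit 488))))))))
noncomputable def xc66 : XT := (XT.nd (nat_lit 2262) (nat_lit 10184) (nat_lit 0) (XT.nd (nat_lit 1092) (nat_lit 8284) (nat_lit 0) (XT.nd (nat_lit 546) (nat_lit 3724) (nat_lit 0) (XT.nd (nat_lit 234) (nat_lit 4712) (nat_lit 0) (XT.nd (nat_lit 78) (nat_lit 1748) (nat_lit 0) (XT.lf (nat_lit 0) (nat_lit 1916786156) (nat_lit 1596) (nat_lit 1442678398) (nat_lit 1672) (nat_lit 3844293139) (nat_lit 537) (nat_lit 5) (nat_lit 558) (nat_lit 5) (nat_lit 559) (nat_lit 5) (nat_lit 556) (nat_lit 517) (nat_lit 487)) (XT.nd (nat_lit 78) (nat_lit 1748) (nat_lit 0) (XT.lf (nat_lit 0) (nat_lit 6079223236) (nat_lit 1672) (nat_lit 547521189) (nat_lit 76) (nat_lit 621918268) (nat_lit 537) (nat_lit 5) (nat_lit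 559) (nat_lit 5) (nat_lit 538) (nat_lit 5) (nat_lit 557) (nat_lit 517) (nat_lit 486)) (XT.lf (nat_lit 0) (nat_lit 1523908010) (nat_lit 1748) (nat_lit 3019790781) (nat_lit 76) (nat_lit 2750859599) (nat_lit 514) (nat_lit 5) (nat_lit 537) (nat_lit 5) (nat_lit 515) (nat_lit 5) (nat_lit 558) (nat_lit 517) (nat_lit 485)))) (XT.nd (nat_lit 156) (nat_lit 2964) (nat_lit 0) (XT.nd (nat_lit 78) (nat_lit 0) (nat_lit 0) (XT.lf (nat_lit 0) (nat_lit 1827080747) (nat_lit 1748) (nat_lit 2392487151) (nat_lit 1824) (nat_lit 3122371208) (nat_lit 491) (nat_lit 5) (nat_lit 514) (nat_lit 5) (nat_lit 515) (nat_lit 5) (nat_lit 559) (nat_lit 517) (nat_lit 484)) (XT.lf (nat_lit 0) (nat_lit 6763406172) (nat_lit 1748) (nat_lit 175222606) (nat_lit 1824) (nat_lit 452252622) (nat_lit 491) (nat_lit 5) (nat_lit 514) (nat_lit 5) (nat_lit 515) (nat_lit 5) (nat_lit 560) (nat_lit 517) (nat_lit 483))) (XT.nd (nat_lit 78) (nat_lit 1064) (nat_lit 0) (XT.lf (nat_lit 0) (nat_lit 2233464891) (nat_lit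 1900) (nat_lit 3102945750) (nat_lit 76) (nat_lit 2104260848) (nat_lit 466) (nat_lit 5) (nat_lit 491) (nat_lit 5) (nat_lit 467) (nat_lit 5) (nat_lit 561) (nat_lit 517) (nat_lit 482)) (XT.lf (nat_lit 0) (nat_lit 1891158721) (nat_lit 1064) (nat_lit 3043934102) (nat_lit 1140) (nat_lit 2556943236) (nat_lit 452) (nat_lit 5) (nat_lit 466) (nat_lit 5) (nat_lit 467) (nat_lit 5) (nat_lit 562) (nat_lit 517) (nat_lit 481))))) (XT.nd (nat_lit 234) (nat_lit 1824) (nat_lit 0) (XT.nd (nat_lit 78) (nat_lit 1824) (nat_lit 0) (XT.lf (nat_lit 0) (nat_lit 116262945) (nat_lit 1140) (nat_lit 567051572) (nat_lit 76) (nat_lit 6861660638) (nat_lit 451) (nat_lit 5) (nat_lit 466) (nat_lit 5) (nat_lit 452) (nat_lit 5) (nat_lit 563) (nat_lit 517) (nat_lit 480)) (XT.nd (nat_lit 78) (nat_lit 912) (nat_lit 0) (XT.lf (nat_lit 0) (nat_lit 2801712151) (nat_lit 988) (nat_lit 3048356723) (nat_lit 76) (nat_lit 1748709105) (nat_lit 439) (nat_lit 5) (nat_lit 452) (nat_lit 5) (nat_lit 440) (nat_lit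 5) (nat_lit 564) (nat_lit 517) (nat_lit 479)) (XT.lf (nat_lit 0) (nat_lit 2098492250) (nat_lit 912) (nat_lit 3416848411) (nat_lit 988) (nat_lit 2138830029) (nat_lit 427) (nat_lit 5) (nat_lit 439) (nat_lit 5) (nat_lit 440) (nat_lit 5) (nat_lit 565) (nat_lit 517) (nat_lit 478)))) (XT.nd (nat_lit 156) (nat_lit 912) (nat_lit 0) (XT.nd (nat_lit 78) (nat_lit 836) (nat_lit 0) (XT.lf (nat_lit 0) (nat_lit 538445455) (nat_lit 988) (nat_lit 373653570) (nat_lit 76) (nat_lit 6799033304) (nat_lit 426) (nat_lit 5) (nat_lit 439) (nat_lit 5) (nat_lit 427) (nat_lit 5) (nat_lit 566) (nat_lit 517) (nat_lit 477)) (XT.lf (nat_lit 0) (nat_lit 3237237048) (nat_lit 912) (nat_lit 2866076570) (nat_lit 76) (nat_lit 1665707687) (nat_lit 415) (nat_lit 5) (nat_lit 427) (nat_lit 5) (nat_lit 416) (nat_lit 5) (nat_lit 567) (nat_lit 517) (nat_lit 476))) (XT.nd (nat_lit 78) (nat_lit 76) (nat_lit 0) (XT.lf (nat_lit 0) (nat_lit 2439296791) (nat_lit 836) (nat_lit 3529410691) (nat_lit 912) (nat_lit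 1859789509) (nat_lit 404) (nat_lit 5) (nat_lit 415) (nat_lit 5) (nat_lit 416) (nat_lit 5) (nat_lit 568) (nat_lit 517) (nat_lit 475)) (XT.lf (nat_lit 0) (nat_lit 828233236) (nat_lit 912) (nat_lit 53942976) (nat_lit 76) (nat_lit 7007397623) (nat_lit 403) (nat_lit 5) (nat_lit 415) (nat_lit 5) (nat_lit 404) (nat_lit 5) (nat_lit 569) (nat_lit 517) (nat_lit 474)))))) (XT.nd (nat_lit 546) (nat_lit 4256) (nat_lit 0) (XT.nd (nat_lit 234) (nat_lit 1520) (nat_lit 0) (XT.nd (nat_lit 78) (nat_lit 1672) (nat_lit 0) (XT.lf (nat_lit 0) (nat_lit 3547753053) (nat_lit 912) (nat_lit 2565492489) (nat_lit 76) (nat_lit 1838330843) (nat_lit 392) (nat_lit 5) (nat_lit 404) (nat_lit 5) (nat_lit 393) (nat_lit 5) (nat_lit 570) (nat_lit 517) (nat_lit 473)) (XT.nd (nat_lit 78) (nat_lit 836) (nat_lit 0) (XT.lf (nat_lit 0) (nat_lit 2904453443) (nat_lit 836) (nat_lit 3398283865) (nat_lit 912) (nat_lit 1712462961) (nat_lit 381) (nat_lit 5) (nat_lit 392) (nat_lit 5) (nat_lit 393) (nat_lit 5)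 (nat_lit 571) (nat_lit 517) (nat_lit 472)) (XT.lf (nat_lit 0) (nat_lit 388205084) (nat_lit 760) (nat_lit 607093820) (nat_lit 836) (nat_lit 7085143904) (nat_lit 370) (nat_lit 5) (nat_lit 380) (nat_lit 5) (nat_lit 381) (nat_lit 5) (nat_lit 572) (nat_lit 517) (nat_lit 471)))) (XT.nd (nat_lit 156) (nat_lit 760) (nat_lit 0) (XT.nd (nat_lit 78) (nat_lit 760) (nat_lit 0) (XT.lf (nat_lit 0) (nat_lit 3740149123) (nat_lit 836) (nat_lit 2155400612) (nat_lit 76) (nat_lit 2251099419) (nat_lit 370) (nat_lit 5) (nat_lit 381) (nat_lit 5) (nat_lit 371) (nat_lit 5) (nat_lit 573) (nat_lit 517) (nat_lit 470)) (XT.lf (nat_lit 0) (nat_lit 3485434566) (nat_lit 760) (nat_lit 3038735148) (nat_lit 836) (nat_lit 1690326998) (nat_lit 360) (nat_lit 5) (nat_lit 370) (nat_lit 5) (nat_lit 371) (nat_lit 5) (nat_lit 574) (nat_lit 517) (nat_lit 469))) (XT.nd (nat_lit 78) (nat_lit 0) (nat_lit 0) (XT.lf (nat_lit 0) (nat_lit 941455811) (nat_lit 684) (nat_lit 103081278) (nat_lit 760) (nat_lit 7239455637)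 (nat_lit 350) (nat_lit 5) (nat_lit 359) (nat_lit 5) (nat_lit 360) (nat_lit 5) (nat_lit 575) (nat_lit 517) (nat_lit 468)) (XT.lf (nat_lit 0) (nat_lit 3820533541) (nat_lit 760) (nat_lit 1644077810) (nat_lit 76) (nat_lit 2889864881) (nat_lit 350) (nat_lit 5) (nat_lit 360) (nat_lit 5) (nat_lit 351) (nat_lit 5) (nat_lit 576) (nat_lit 517) (nat_lit 467))))) (XT.nd (nat_lit 312) (nat_lit 2052) (nat_lit 0) (XT.nd (nat_lit 156) (nat_lit 684) (nat_lit 0) (XT.nd (nat_lit 78) (nat_lit 760) (nat_lit 0) (XT.lf (nat_lit 0) (nat_lit 4174232131) (nat_lit 760) (nat_lit 2464749981) (nat_lit 836) (nat_lit 1787651011) (nat_lit 340) (nat_lit 5) (nat_lit 350) (nat_lit 5) (nat_lit 351) (nat_lit 5) (nat_lit 577) (nat_lit 517) (nat_lit 466)) (XT.lf (nat_lit 0) (nat_lit 985115789) (nat_lit 760) (nat_lit 6907419157) (nat_lit 76) (nat_lit 607872008) (nat_lit 330) (nat_lit 5) (nat_lit 340) (nat_lit 5) (nat_lit 331) (nat_lit 5) (nat_lit 578) (nat_lit 517) (nat_lit 465))) (XT.nd (nat_lit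 78) (nat_lit 684) (nat_lit 0) (XT.lf (nat_lit 0) (nat_lit 3794272576) (nat_lit 760) (nat_lit 1039351234) (nat_lit 76) (nat_lit 3741700919) (nat_lit 330) (nat_lit 5) (nat_lit 340) (nat_lit 5) (nat_lit 331) (nat_lit 5) (nat_lit 579) (nat_lit 517) (nat_lit 464)) (XT.lf (nat_lit 0) (nat_lit 4963288256) (nat_lit 684) (nat_lit 1689138660) (nat_lit 760) (nat_lit 1999459836) (nat_lit 321) (nat_lit 5) (nat_lit 330) (nat_lit 5) (nat_lit 331) (nat_lit 5) (nat_lit 580) (nat_lit 517) (nat_lit 463)))) (XT.nd (nat_lit 156) (nat_lit 1368) (nat_lit 0) (XT.nd (nat_lit 78) (nat_lit 0) (nat_lit 0) (XT.lf (nat_lit 0) (nat_lit 819815293) (nat_lit 684) (nat_lit 6392757430) (nat_lit 76) (nat_lit 1517439831) (nat_lit 312) (nat_lit 5) (nat_lit 321) (nat_lit 5) (nat_lit 313) (nat_lit 5) (nat_lit 581) (nat_lit 517) (nat_lit 462)) (XT.lf (nat_lit 0) (nat_lit 3666024175) (nat_lit 684) (nat_lit 348666123) (nat_lit 76) (nat_lit 4794801877) (nat_lit 312) (nat_lit 5) (nat_lit 321) (nat_lit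 5) (nat_lit 313) (nat_lit 5) (nat_lit 582) (nat_lit 517) (nat_lit 461))) (XT.nd (nat_lit 78) (nat_lit 684) (nat_lit 0) (XT.lf (nat_lit 0) (nat_lit 5845427397) (nat_lit 684) (nat_lit 723636426) (nat_lit 760) (nat_lit 2321501445) (nat_lit 303) (nat_lit 5) (nat_lit 312) (nat_lit 5) (nat_lit 313) (nat_lit 5) (nat_lit 583) (nat_lit 517) (nat_lit 460)) (XT.lf (nat_lit 0) (nat_lit 551988654) (nat_lit 684) (nat_lit 5805369816) (nat_lit 76) (nat_lit 2615783209) (nat_lit 294) (nat_lit 5) (nat_lit 303) (nat_lit 5) (nat_lit 295) (nat_lit 5) (nat_lit 584) (nat_lit 517) (nat_lit 459))))))) (XT.nd (nat_lit 1092) (nat_lit 4484) (nat_lit 0) (XT.nd (nat_lit 546) (nat_lit 2660) (nat_lit 0) (XT.nd (nat_lit 234) (nat_lit 1748) (nat_lit 0) (XT.nd (nat_lit 78) (nat_lit 684) (nat_lit 0) (XT.lf (nat_lit 0) (nat_lit 426440462) (nat_lit 608) (nat_lit 3016095119) (nat_lit 684) (nat_lit 5614715594) (nat_lit 286) (nat_lit 5) (nat_lit 294) (nat_lit 5) (nat_lit 295) (nat_lit 5) (nat_lit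 585) (nat_lit 517) (nat_lit 458)) (XT.nd (nat_lit 78) (nat_lit 684) (nat_lit 0) (XT.lf (nat_lit 0) (nat_lit 6395520766) (nat_lit 684) (nat_lit 2331950598) (nat_lit 76) (nat_lit 415480807) (nat_lit 286) (nat_lit 5) (nat_lit 295) (nat_lit 5) (nat_lit 287) (nat_lit 5) (nat_lit 586) (nat_lit 517) (nat_lit 457)) (XT.lf (nat_lit 0) (nat_lit 184991526) (nat_lit 684) (nat_lit 5152490797) (nat_lit 76) (nat_lit 3892661302) (nat_lit 277) (nat_lit 5) (nat_lit 286) (nat_lit 5) (nat_lit 278) (nat_lit 5) (nat_lit 587) (nat_lit 517) (nat_lit 456)))) (XT.nd (nat_lit 156) (nat_lit 1140) (nat_lit 0) (XT.nd (nat_lit 78) (nat_lit 0) (nat_lit 0) (XT.lf (nat_lit 0) (nat_lit 1279084949) (nat_lit 608) (nat_lit 1848043621) (nat_lit 684) (nat_lit 6191831804) (nat_lit 269) (nat_lit 5) (nat_lit 277) (nat_lit 5) (nat_lit 278) (nat_lit 5) (nat_lit 588) (nat_lit 517) (nat_lit 455)) (XT.lf (nat_lit 0) (nat_lit 6138113930) (nat_lit 684) (nat_lit 1559079804) (nat_lit 76) (nat_lit 1712161330)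 (nat_lit 269) (nat_lit 5) (nat_lit 278) (nat_lit 5) (nat_lit 270) (nat_lit 5) (nat_lit 589) (nat_lit 517) (nat_lit 454))) (XT.nd (nat_lit 78) (nat_lit 608) (nat_lit 0) (XT.lf (nat_lit 0) (nat_lit 5058361485) (nat_lit 532) (nat_lit 4160833085) (nat_lit 608) (nat_lit 282167248) (nat_lit 262) (nat_lit 5) (nat_lit 269) (nat_lit 5) (nat_lit 270) (nat_lit 5) (nat_lit 590) (nat_lit 517) (nat_lit 453)) (XT.lf (nat_lit 0) (nat_lit 2197847981) (nat_lit 532) (nat_lit 522305044) (nat_lit 608) (nat_lit 6874903029) (nat_lit 254) (nat_lit 5) (nat_lit 261) (nat_lit 5) (nat_lit 262) (nat_lit 5) (nat_lit 591) (nat_lit 517) (nat_lit 452))))) (XT.nd (nat_lit 234) (nat_lit 1520) (nat_lit 0) (XT.nd (nat_lit 78) (nat_lit 1140) (nat_lit 0) (XT.lf (nat_lit 0) (nat_lit 5794714594) (nat_lit 608) (nat_lit 728595024) (nat_lit 76) (nat_lit 3166959377) (nat_lit 254) (nat_lit 5) (nat_lit 262) (nat_lit 5) (nat_lit 255) (nat_lit 5) (nat_lit 592) (nat_lit 517) (nat_lit 451)) (XT.nd (nat_lit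 78) (nat_lit 608) (nat_lit 0) (XT.lf (nat_lit 0) (nat_lit 6103374955) (nat_lit 532) (nat_lit 2836412097) (nat_lit 608) (nat_lit 847420306) (nat_lit 247) (nat_lit 5) (nat_lit 254) (nat_lit 5) (nat_lit 255) (nat_lit 5) (nat_lit 593) (nat_lit 517) (nat_lit 450)) (XT.lf (nat_lit 0) (nat_lit 2229816954) (nat_lit 608) (nat_lit 6716080784) (nat_lit 76) (nat_lit 939938503) (nat_lit 239) (nat_lit 5) (nat_lit 247) (nat_lit 5) (nat_lit 240) (nat_lit 5) (nat_lit 594) (nat_lit 517) (nat_lit 449)))) (XT.nd (nat_lit 156) (nat_lit 1064) (nat_lit 0) (XT.nd (nat_lit 78) (nat_lit 0) (nat_lit 0) (XT.lf (nat_lit 0) (nat_lit 154847585) (nat_lit 456) (nat_lit 5213444988) (nat_lit 532) (nat_lit 4617813755) (nat_lit 233) (nat_lit 5) (nat_lit 239) (nat_lit 5) (nat_lit 240) (nat_lit 5) (nat_lit 595) (nat_lit 517) (nat_lit 448)) (XT.lf (nat_lit 0) (nat_lit 7207511760) (nat_lit 456) (nat_lit 1373806960) (nat_lit 532) (nat_lit 1506828914) (nat_lit 233) (nat_lit 5) (nat_lit 239) (nat_lit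 5) (nat_lit 240) (nat_lit 5) (nat_lit 596) (nat_lit 517) (nat_lit 447))) (XT.nd (nat_lit 78) (nat_lit 456) (nat_lit 0) (XT.lf (nat_lit 0) (nat_lit 1655657949) (nat_lit 608) (nat_lit 6001685086) (nat_lit 76) (nat_lit 2534448985) (nat_lit 225) (nat_lit 5) (nat_lit 233) (nat_lit 5) (nat_lit 226) (nat_lit 5) (nat_lit 597) (nat_lit 517) (nat_lit 446)) (XT.lf (nat_lit 0) (nat_lit 1092814154) (nat_lit 456) (nat_lit 3771481193) (nat_lit 532) (nat_lit 5432954553) (nat_lit 219) (nat_lit 5) (nat_lit 225) (nat_lit 5) (nat_lit 226) (nat_lit 5) (nat_lit 598) (nat_lit 517) (nat_lit 445)))))) (XT.nd (nat_lit 546) (nat_lit 2584) (nat_lit 0) (XT.nd (nat_lit 234) (nat_lit 912) (nat_lit 0) (XT.nd (nat_lit 78) (nat_lit 988) (nat_lit 0) (XT.lf (nat_lit 0) (nat_lit 8146548972) (nat_lit 532) (nat_lit 2041720462) (nat_lit 76) (nat_lit 216359961) (nat_lit 219) (nat_lit 5) (nat_lit 226) (nat_lit 5) (nat_lit 220) (nat_lit 5) (nat_lit 599) (nat_lit 517) (nat_lit 444)) (XT.nd (nat_lit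 78) (nat_lit 456) (nat_lit 0) (XT.lf (nat_lit 0) (nat_lit 995048206) (nat_lit 532) (nat_lit 5257701167) (nat_lit 76) (nat_lit 4260728815) (nat_lit 212) (nat_lit 5) (nat_lit 219) (nat_lit 5) (nat_lit 213) (nat_lit 5) (nat_lit 600) (nat_lit 517) (nat_lit 443)) (XT.lf (nat_lit 0) (nat_lit 2068802678) (nat_lit 456) (nat_lit 2209859407) (nat_lit 532) (nat_lit 6345631438) (nat_lit 206) (nat_lit 5) (nat_lit 212) (nat_lit 5) (nat_lit 213) (nat_lit 5) (nat_lit 601) (nat_lit 517) (nat_lit 442)))) (XT.nd (nat_lit 156) (nat_lit 380) (nat_lit 0) (XT.nd (nat_lit 78) (nat_lit 532) (nat_lit 0) (XT.lf (nat_lit 0) (nat_lit 7644526076) (nat_lit 532) (nat_lit 1182359913) (nat_lit 76) (nat_lit 1910108844) (nat_lit 206) (nat_lit 5) (nat_lit 213) (nat_lit 5) (nat_lit 207) (nat_lit 5) (nat_lit 602) (nat_lit 517) (nat_lit 441)) (XT.lf (nat_lit 0) (nat_lit 248152504) (nat_lit 532) (nat_lit 4491326803) (nat_lit 76) (nat_lit 6111935603) (nat_lit 199) (nat_lit 5) (nat_lit 206) (nat_lit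 5) (nat_lit 200) (nat_lit 5) (nat_lit 603) (nat_lit 517) (nat_lit 440))) (XT.nd (nat_lit 78) (nat_lit 0) (nat_lit 0) (XT.lf (nat_lit 0) (nat_lit 3075864166) (nat_lit 380) (nat_lit 535669035) (nat_lit 456) (nat_lit 7356235416) (nat_lit 194) (nat_lit 5) (nat_lit 199) (nat_lit 5) (nat_lit 200) (nat_lit 5) (nat_lit 604) (nat_lit 517) (nat_lit 439)) (XT.lf (nat_lit 0) (nat_lit 7066453466) (nat_lit 456) (nat_lit 300732814) (nat_lit 76) (nat_lit 3718778813) (nat_lit 194) (nat_lit 5) (nat_lit 200) (nat_lit 5) (nat_lit 195) (nat_lit 5) (nat_lit 605) (nat_lit 517) (nat_lit 438))))) (XT.nd (nat_lit 312) (nat_lit 1292) (nat_lit 0) (XT.nd (nat_lit 156) (nat_lit 380) (nat_lit 0) (XT.nd (nat_lit 78) (nat_lit 456) (nat_lit 0) (XT.lf (nat_lit 0) (nat_lit 7492266625) (nat_lit 456) (nat_lit 3120565697) (nat_lit 532) (nat_lit 593247083) (nat_lit 188) (nat_lit 5) (nat_lit 194) (nat_lit 5) (nat_lit 195) (nat_lit 5) (nat_lit 606) (nat_lit 517) (nat_lit 437)) (XT.lf (nat_lit 0) (nat_lit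 2870531544) (nat_lit 456) (nat_lit 7229476246) (nat_lit 76) (nat_lit 1228071645) (nat_lit 182) (nat_lit 5) (nat_lit 188) (nat_lit 5) (nat_lit 183) (nat_lit 5) (nat_lit 607) (nat_lit 517) (nat_lit 436))) (XT.nd (nat_lit 78) (nat_lit 0) (nat_lit 0) (XT.lf (nat_lit 0) (nat_lit 603736732) (nat_lit 380) (nat_lit 5812049268) (nat_lit 456) (nat_lit 5036253207) (nat_lit 177) (nat_lit 5) (nat_lit 182) (nat_lit 5) (nat_lit 183) (nat_lit 5) (nat_lit 608) (nat_lit 517) (nat_lit 435)) (XT.lf (nat_lit 0) (nat_lit 8646897833) (nat_lit 380) (nat_lit 1404314003) (nat_lit 456) (nat_lit 1526882040) (nat_lit 177) (nat_lit 5) (nat_lit 182) (nat_lit 5) (nat_lit 183) (nat_lit 5) (nat_lit 609) (nat_lit 517) (nat_lit 434)))) (XT.nd (nat_lit 156) (nat_lit 456) (nat_lit 0) (XT.nd (nat_lit 78) (nat_lit 380) (nat_lit 0) (XT.lf (nat_lit 0) (nat_lit 2050638513) (nat_lit 456) (nat_lit 6572291455) (nat_lit 76) (nat_lit 3082976448) (nat_lit 171) (nat_lit 5) (nat_lit 177) (nat_lit 5) (nat_lit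 172) (nat_lit 5) (nat_lit 610) (nat_lit 517) (nat_lit 433)) (XT.lf (nat_lit 0) (nat_lit 1519557106) (nat_lit 380) (nat_lit 4170009130) (nat_lit 456) (nat_lit 6146302049) (nat_lit 166) (nat_lit 5) (nat_lit 171) (nat_lit 5) (nat_lit 172) (nat_lit 5) (nat_lit 611) (nat_lit 517) (nat_lit 432))) (XT.nd (nat_lit 78) (nat_lit 456) (nat_lit 0) (XT.lf (nat_lit 0) (nat_lit 9419573664) (nat_lit 456) (nat_lit 2152501219) (nat_lit 76) (nat_lit 395989432) (nat_lit 166) (nat_lit 5) (nat_lit 172) (nat_lit 5) (nat_lit 167) (nat_lit 5) (nat_lit 612) (nat_lit 517) (nat_lit 431)) (XT.lf (nat_lit 0) (nat_lit 1146652488) (nat_lit 456) (nat_lit 5925278871) (nat_lit 76) (nat_lit 5030026592) (nat_lit 160) (nat_lit 5) (nat_lit 166) (nat_lit 5) (nat_lit 161) (nat_lit 5) (nat_lit 613) (nat_lit 517) (nat_lit 430))))))))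
noncomputable def xc67 : XT := (XT.nd (nat_lit 2262) (nat_lit 836) (nat_lit 0) (XT.nd (nat_lit 1092) (nat_lit 2812) (nat_lit 0) (XT.nd (nat_lit 546) (nat_lit 1596) (nat_lit 0) (XT.nd (nat_lit 234) (nat_lit 1140) (nat_lit 0) (XT.nd (nat_lit 78) (nat_lit 380) (nat_lit 0) (XT.lf (nat_lit 0) (nat_lit 2434548435) (nat_lit 380) (nat_lit 2449535834) (nat_lit 456) (nat_lit 7354058973) (nat_lit 155) (nat_lit 5) (nat_lit 160) (nat_lit 5) (nat_lit 161) (nat_lit 5) (nat_lit 614) (nat_lit 517) (nat_lit 429)) (XT.nd (nat_lit 78) (nat_lit 380) (nat_lit 0) (XT.lf (nat_lit 0) (nat_lit 8723289829) (nat_lit 456) (nat_lit 1393287046) (nat_lit 76) (nat_lit 2259935737) (nat_lit 155) (nat_lit 5) (nat_lit 161) (nat_lit 5) (nat_lit 156) (nat_lit 5) (nat_lit 615) (nat_lit 517) (nat_lit 428)) (XT.lf (nat_lit 0) (nat_lit 156210697) (nat_lit 380) (nat_lit 5297342779) (nat_lit 76) (nat_lit 7063357425) (nat_lit 150) (nat_lit 5) (nat_lit 155) (nat_lit 5) (nat_lit 151) (nat_lit 5) (nat_lit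 616) (nat_lit 517) (nat_lit 427)))) (XT.nd (nat_lit 156) (nat_lit 760) (nat_lit 0) (XT.nd (nat_lit 78) (nat_lit 0) (nat_lit 0) (XT.lf (nat_lit 0) (nat_lit 3340020701) (nat_lit 380) (nat_lit 656949628) (nat_lit 456) (nat_lit 8662583614) (nat_lit 145) (nat_lit 5) (nat_lit 150) (nat_lit 5) (nat_lit 151) (nat_lit 5) (nat_lit 617) (nat_lit 517) (nat_lit 426)) (XT.lf (nat_lit 0) (nat_lit 7950888496) (nat_lit 456) (nat_lit 653451013) (nat_lit 76) (nat_lit 4199984279) (nat_lit 145) (nat_lit 5) (nat_lit 151) (nat_lit 5) (nat_lit 146) (nat_lit 5) (nat_lit 618) (nat_lit 517) (nat_lit 425))) (XT.nd (nat_lit 78) (nat_lit 456) (nat_lit 0) (XT.lf (nat_lit 0) (nat_lit 8247301553) (nat_lit 304) (nat_lit 3768069056) (nat_lit 380) (nat_lit 935989502) (nat_lit 141) (nat_lit 5) (nat_lit 145) (nat_lit 5) (nat_lit 146) (nat_lit 5) (nat_lit 619) (nat_lit 517) (nat_lit 424)) (XT.lf (nat_lit 0) (nat_lit 3032990504) (nat_lit 456) (nat_lit 8881952387) (nat_lit 76) (nat_lit 1185731404)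 (nat_lit 135) (nat_lit 5) (nat_lit 141) (nat_lit 5) (nat_lit 136) (nat_lit 5) (nat_lit 620) (nat_lit 517) (nat_lit 423))))) (XT.nd (nat_lit 234) (nat_lit 912) (nat_lit 0) (XT.nd (nat_lit 78) (nat_lit 380) (nat_lit 0) (XT.lf (nat_lit 0) (nat_lit 58104662) (nat_lit 304) (nat_lit 7041626515) (nat_lit 380) (nat_lit 6152502315) (nat_lit 131) (nat_lit 5) (nat_lit 135) (nat_lit 5) (nat_lit 136) (nat_lit 5) (nat_lit 621) (nat_lit 517) (nat_lit 422)) (XT.nd (nat_lit 78) (nat_lit 380) (nat_lit 0) (XT.lf (nat_lit 0) (nat_lit 9254965868) (nat_lit 304) (nat_lit 2026477077) (nat_lit 380) (nat_lit 2124708935) (nat_lit 131) (nat_lit 5) (nat_lit 135) (nat_lit 5) (nat_lit 136) (nat_lit 5) (nat_lit 622) (nat_lit 517) (nat_lit 421)) (XT.lf (nat_lit 0) (nat_lit 1985264024) (nat_lit 380) (nat_lit 8498481245) (nat_lit 76) (nat_lit 3078593700) (nat_lit 126) (nat_lit 5) (nat_lit 131) (nat_lit 5) (nat_lit 127) (nat_lit 5) (nat_lit 623) (nat_lit 517) (nat_lit 420)))) (XT.nd (nat_lit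 156) (nat_lit 608) (nat_lit 0) (XT.nd (nat_lit 78) (nat_lit 0) (nat_lit 0) (XT.lf (nat_lit 0) (nat_lit 738356304) (nat_lit 304) (nat_lit 5431412626) (nat_lit 380) (nat_lit 7551185025) (nat_lit 122) (nat_lit 5) (nat_lit 126) (nat_lit 5) (nat_lit 127) (nat_lit 5) (nat_lit 624) (nat_lit 517) (nat_lit 419)) (XT.lf (nat_lit 0) (nat_lit 10233374598) (nat_lit 304) (nat_lit 236347858) (nat_lit 380) (nat_lit 3412384295) (nat_lit 122) (nat_lit 5) (nat_lit 126) (nat_lit 5) (nat_lit 127) (nat_lit 5) (nat_lit 625) (nat_lit 517) (nat_lit 418))) (XT.nd (nat_lit 78) (nat_lit 228) (nat_lit 0) (XT.lf (nat_lit 0) (nat_lit 845016479) (nat_lit 380) (nat_lit 8176459606) (nat_lit 76) (nat_lit 5023973354) (nat_lit 117) (nat_lit 5) (nat_lit 122) (nat_lit 5) (nat_lit 118) (nat_lit 5) (nat_lit 626) (nat_lit 517) (nat_lit 417)) (XT.lf (nat_lit 0) (nat_lit 1367175008) (nat_lit 228) (nat_lit 3785007189) (nat_lit 304) (nat_lit 9059220131) (nat_lit 114) (nat_lit 5) (nat_lit 117) (nat_lit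 5) (nat_lit 118) (nat_lit 5) (nat_lit 627) (nat_lit 517) (nat_lit 416)))))) (XT.nd (nat_lit 546) (nat_lit 1596) (nat_lit 0) (XT.nd (nat_lit 234) (nat_lit 608) (nat_lit 0) (XT.nd (nat_lit 78) (nat_lit 608) (nat_lit 0) (XT.lf (nat_lit 0) (nat_lit 9586116504) (nat_lit 304) (nat_lit 3219027228) (nat_lit 76) (nat_lit 1574718664) (nat_lit 114) (nat_lit 5) (nat_lit 118) (nat_lit 5) (nat_lit 115) (nat_lit 5) (nat_lit 628) (nat_lit 517) (nat_lit 415)) (XT.nd (nat_lit 78) (nat_lit 304) (nat_lit 0) (XT.lf (nat_lit 0) (nat_lit 6619743937) (nat_lit 304) (nat_lit 7532805851) (nat_lit 380) (nat_lit 398266083) (nat_lit 110) (nat_lit 5) (nat_lit 114) (nat_lit 5) (nat_lit 115) (nat_lit 5) (nat_lit 629) (nat_lit 517) (nat_lit 414)) (XT.lf (nat_lit 0) (nat_lit 1932102428) (nat_lit 228) (nat_lit 2109559900) (nat_lit 304) (nat_lit 10682793888) (nat_lit 106) (nat_lit 5) (nat_lit 109) (nat_lit 5) (nat_lit 110) (nat_lit 5) (nat_lit 630) (nat_lit 517) (nat_lit 413)))) (XT.nd (nat_lit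 156) (nat_lit 304) (nat_lit 0) (XT.nd (nat_lit 78) (nat_lit 304) (nat_lit 0) (XT.lf (nat_lit 0) (nat_lit 8616785748) (nat_lit 304) (nat_lit 2866510288) (nat_lit 76) (nat_lit 3417186677) (nat_lit 106) (nat_lit 5) (nat_lit 110) (nat_lit 5) (nat_lit 107) (nat_lit 5) (nat_lit 631) (nat_lit 517) (nat_lit 412)) (XT.lf (nat_lit 0) (nat_lit 7299571007) (nat_lit 304) (nat_lit 6021608048) (nat_lit 380) (nat_lit 1758095901) (nat_lit 102) (nat_lit 5) (nat_lit 106) (nat_lit 5) (nat_lit 107) (nat_lit 5) (nat_lit 632) (nat_lit 517) (nat_lit 411))) (XT.nd (nat_lit 78) (nat_lit 0) (nat_lit 0) (XT.lf (nat_lit 0) (nat_lit 2419527198) (nat_lit 228) (nat_lit 412531041) (nat_lit 304) (nat_lit 12428983737) (nat_lit 98) (nat_lit 5) (nat_lit 101) (nat_lit 5) (nat_lit 102) (nat_lit 5) (nat_lit 633) (nat_lit 517) (nat_lit 410)) (XT.lf (nat_lit 0) (nat_lit 7554064183) (nat_lit 304) (nat_lit 2603848178) (nat_lit 76) (nat_lit 5287028297) (nat_lit 98) (nat_lit 5) (nat_lit 102) (nat_lit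 5) (nat_lit 99) (nat_lit 5) (nat_lit 634) (nat_lit 517) (nat_lit 409))))) (XT.nd (nat_lit 312) (nat_lit 760) (nat_lit 0) (XT.nd (nat_lit 156) (nat_lit 228) (nat_lit 0) (XT.nd (nat_lit 78) (nat_lit 304) (nat_lit 0) (XT.lf (nat_lit 0) (nat_lit 7900048030) (nat_lit 304) (nat_lit 4501494596) (nat_lit 380) (nat_lit 3230354564) (nat_lit 94) (nat_lit 5) (nat_lit 98) (nat_lit 5) (nat_lit 99) (nat_lit 5) (nat_lit 635) (nat_lit 517) (nat_lit 408)) (XT.lf (nat_lit 0) (nat_lit 1524743274) (nat_lit 304) (nat_lit 13016033397) (nat_lit 76) (nat_lit 1281191972) (nat_lit 90) (nat_lit 5) (nat_lit 94) (nat_lit 5) (nat_lit 91) (nat_lit 5) (nat_lit 636) (nat_lit 517) (nat_lit 407))) (XT.nd (nat_lit 78) (nat_lit 228) (nat_lit 0) (XT.lf (nat_lit 0) (nat_lit 6390910680) (nat_lit 304) (nat_lit 2446606918) (nat_lit 76) (nat_lit 7176712925) (nat_lit 90) (nat_lit 5) (nat_lit 94) (nat_lit 5) (nat_lit 91) (nat_lit 5) (nat_lit 637) (nat_lit 517) (nat_lit 406)) (XT.lf (nat_lit 0) (nat_lit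 8405687672) (nat_lit 228) (nat_lit 2980879275) (nat_lit 304) (nat_lit 4823127868) (nat_lit 87) (nat_lit 5) (nat_lit 90) (nat_lit 5) (nat_lit 91) (nat_lit 5) (nat_lit 638) (nat_lit 517) (nat_lit 405)))) (XT.nd (nat_lit 156) (nat_lit 456) (nat_lit 0) (XT.nd (nat_lit 78) (nat_lit 0) (nat_lit 0) (XT.lf (nat_lit 0) (nat_lit 105971410) (nat_lit 304) (nat_lit 13327613788) (nat_lit 76) (nat_lit 2974796935) (nat_lit 83) (nat_lit 5) (nat_lit 87) (nat_lit 5) (nat_lit 84) (nat_lit 5) (nat_lit 639) (nat_lit 517) (nat_lit 404)) (XT.lf (nat_lit 0) (nat_lit 5119302087) (nat_lit 304) (nat_lit 2411887781) (nat_lit 76) (nat_lit 9078211548) (nat_lit 83) (nat_lit 5) (nat_lit 87) (nat_lit 5) (nat_lit 84) (nat_lit 5) (nat_lit 640) (nat_lit 517) (nat_lit 403))) (XT.nd (nat_lit 78) (nat_lit 228) (nat_lit 0) (XT.lf (nat_lit 0) (nat_lit 8799433709) (nat_lit 228) (nat_lit 1468748401) (nat_lit 304) (nat_lit 6545553765) (nat_lit 80) (nat_lit 5) (nat_lit 83) (nat_lit 5) (nat_lit 84) (nat_lit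 5) (nat_lit 641) (nat_lit 517) (nat_lit 402)) (XT.lf (nat_lit 0) (nat_lit 3219139045) (nat_lit 228) (nat_lit 12346934475) (nat_lit 304) (nat_lit 1455163266) (nat_lit 77) (nat_lit 5) (nat_lit 80) (nat_lit 5) (nat_lit 81) (nat_lit 5) (nat_lit 642) (nat_lit 517) (nat_lit 401))))))) (XT.nd (nat_lit 72696) (nat_lit 0) (nat_lit 44460) (XT.nd (nat_lit 72072) (nat_lit 0) (nat_lit 52440) (XT.nd (nat_lit 234) (nat_lit 304) (nat_lit 0) (XT.nd (nat_lit 78) (nat_lit 456) (nat_lit 0) (XT.lf (nat_lit 0) (nat_lit 3730151637) (nat_lit 304) (nat_lit 2518514171) (nat_lit 76) (nat_lit 10982894492) (nat_lit 76) (nat_lit 5) (nat_lit 80) (nat_lit 5) (nat_lit 77) (nat_lit 5) (nat_lit 643) (nat_lit 517) (nat_lit 400)) (XT.nd (nat_lit 78) (nat_lit 228) (nat_lit 0) (XT.lf (nat_lit 0) (nat_lit 9037401294) (nat_lit 304) (nat_lit 8382842034) (nat_lit 76) (nat_lit 24900735) (nat_lit 73) (nat_lit 5) (nat_lit 77) (nat_lit 5) (nat_lit 74) (nat_lit 5) (nat_lit 644) (nat_lit 517) (nat_lit 399))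 (XT.lf (nat_lit 0) (nat_lit 3209245391) (nat_lit 228) (nat_lit 11299544360) (nat_lit 304) (nat_lit 3153050278) (nat_lit 70) (nat_lit 5) (nat_lit 73) (nat_lit 5) (nat_lit 74) (nat_lit 5) (nat_lit 645) (nat_lit 517) (nat_lit 398)))) (XT.nd (nat_lit 71682) (nat_lit 0) (nat_lit 54112) (XT.nd (nat_lit 78) (nat_lit 228) (nat_lit 0) (XT.lf (nat_lit 0) (nat_lit 2213217282) (nat_lit 304) (nat_lit 2787236635) (nat_lit 76) (nat_lit 12881421376) (nat_lit 69) (nat_lit 5) (nat_lit 73) (nat_lit 5) (nat_lit 70) (nat_lit 5) (nat_lit 646) (nat_lit 517) (nat_lit 397)) (XT.lf (nat_lit 0) (nat_lit 7693084882) (nat_lit 304) (nat_lit 8940790948) (nat_lit 76) (nat_lit 1471049100) (nat_lit 66) (nat_lit 5) (nat_lit 70) (nat_lit 5) (nat_lit 67) (nat_lit 5) (nat_lit 647) (nat_lit 517) (nat_lit 396))) (XT.nd (nat_lit 78) (nat_lit 0) (nat_lit 0) (XT.lf (nat_lit 0) (nat_lit 75828709) (nat_lit 228) (nat_lit 3073354523) (nat_lit 0) (nat_lit 75828709) (nat_lit 778) (nat_lit 5) (nat_lit 781)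 (nat_lit 4) (nat_lit 778) (nat_lit 4) (nat_lit 524) (nat_lit 518) (nat_lit 518)) (XT.lf (nat_lit 0) (nat_lit 3338970017) (nat_lit 228) (nat_lit 2734389525) (nat_lit 0) (nat_lit 380911085) (nat_lit 778) (nat_lit 5) (nat_lit 781) (nat_lit 4) (nat_lit 778) (nat_lit 4) (nat_lit 525) (nat_lit 518) (nat_lit 517))))) (XT.nd (nat_lit 312) (nat_lit 988) (nat_lit 0) (XT.nd (nat_lit 156) (nat_lit 380) (nat_lit 0) (XT.nd (nat_lit 78) (nat_lit 0) (nat_lit 0) (XT.lf (nat_lit 0) (nat_lit 52996319) (nat_lit 304) (nat_lit 5751064142) (nat_lit 76) (nat_lit 656068154) (nat_lit 774) (nat_lit 5) (nat_lit 778) (nat_lit 5) (nat_lit 775) (nat_lit 4) (nat_lit 526) (nat_lit 518) (nat_lit 516)) (XT.lf (nat_lit 0) (nat_lit 3181407837) (nat_lit 304) (nat_lit 2274866776) (nat_lit 76) (nat_lit 1010657122) (nat_lit 774) (nat_lit 5) (nat_lit 778) (nat_lit 5) (nat_lit 775) (nat_lit 4) (nat_lit 527) (nat_lit 518) (nat_lit 515))) (XT.nd (nat_lit 78) (nat_lit 76) (nat_lit 0) (XT.lf (nat_lit 0)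 (nat_lit 1241221348) (nat_lit 304) (nat_lit 5060747440) (nat_lit 380) (nat_lit 173319389) (nat_lit 770) (nat_lit 5) (nat_lit 774) (nat_lit 5) (nat_lit 775) (nat_lit 4) (nat_lit 528) (nat_lit 518) (nat_lit 514)) (XT.lf (nat_lit 0) (nat_lit 2899380442) (nat_lit 380) (nat_lit 1691277045) (nat_lit 76) (nat_lit 1894020863) (nat_lit 769) (nat_lit 5) (nat_lit 774) (nat_lit 5) (nat_lit 770) (nat_lit 5) (nat_lit 529) (nat_lit 518) (nat_lit 513)))) (XT.nd (nat_lit 156) (nat_lit 532) (nat_lit 0) (XT.nd (nat_lit 78) (nat_lit 76) (nat_lit 0) (XT.lf (nat_lit 0) (nat_lit 1900407813) (nat_lit 380) (nat_lit 4066916128) (nat_lit 456) (nat_lit 528195638) (nat_lit 764) (nat_lit 5) (nat_lit 769) (nat_lit 5) (nat_lit 770) (nat_lit 5) (nat_lit 530) (nat_lit 518) (nat_lit 512)) (XT.lf (nat_lit 0) (nat_lit 2491968503) (nat_lit 456) (nat_lit 982838124) (nat_lit 76) (nat_lit 3032724954) (nat_lit 763) (nat_lit 5) (nat_lit 769) (nat_lit 5) (nat_lit 764) (nat_lit 5) (nat_lit 531) (nat_lit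 518) (nat_lit 511))) (XT.nd (nat_lit 78) (nat_lit 76) (nat_lit 0) (XT.lf (nat_lit 0) (nat_lit 2687897942) (nat_lit 456) (nat_lit 2820969026) (nat_lit 532) (nat_lit 1011986843) (nat_lit 757) (nat_lit 5) (nat_lit 763) (nat_lit 5) (nat_lit 764) (nat_lit 5) (nat_lit 532) (nat_lit 518) (nat_lit 510)) (XT.lf (nat_lit 0) (nat_lit 1958005353) (nat_lit 532) (nat_lit 148524239) (nat_lit 76) (nat_lit 4428989018) (nat_lit 756) (nat_lit 5) (nat_lit 763) (nat_lit 5) (nat_lit 757) (nat_lit 5) (nat_lit 533) (nat_lit 518) (nat_lit 509)))))) (XT.nd (nat_lit 546) (nat_lit 4332) (nat_lit 0) (XT.nd (nat_lit 234) (nat_lit 2432) (nat_lit 0) (XT.nd (nat_lit 78) (nat_lit 684) (nat_lit 0) (XT.lf (nat_lit 0) (nat_lit 3604858177) (nat_lit 532) (nat_lit 1320458765) (nat_lit 608) (nat_lit 1626004011) (nat_lit 749) (nat_lit 5) (nat_lit 756) (nat_lit 5) (nat_lit 757) (nat_lit 5) (nat_lit 534) (nat_lit 518) (nat_lit 508)) (XT.nd (nat_lit 78) (nat_lit 0) (nat_lit 0) (XT.lf (nat_lit 0) (nat_lit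 823738725) (nat_lit 608) (nat_lit 477684255) (nat_lit 684) (nat_lit 5267142804) (nat_lit 740) (nat_lit 5) (nat_lit 748) (nat_lit 5) (nat_lit 749) (nat_lit 5) (nat_lit 535) (nat_lit 518) (nat_lit 507)) (XT.lf (nat_lit 0) (nat_lit 4217985172) (nat_lit 684) (nat_lit 1937093649) (nat_lit 76) (nat_lit 431821562) (nat_lit 740) (nat_lit 5) (nat_lit 749) (nat_lit 5) (nat_lit 741) (nat_lit 5) (nat_lit 536) (nat_lit 518) (nat_lit 506)))) (XT.nd (nat_lit 156) (nat_lit 1672) (nat_lit 0) (XT.nd (nat_lit 78) (nat_lit 0) (nat_lit 0) (XT.lf (nat_lit 0) (nat_lit 526191398) (nat_lit 760) (nat_lit 4687598158) (nat_lit 76) (nat_lit 1392810258) (nat_lit 730) (nat_lit 5) (nat_lit 740) (nat_lit 5) (nat_lit 731) (nat_lit 5) (nat_lit 537) (nat_lit 518) (nat_lit 505)) (XT.lf (nat_lit 0) (nat_lit 3392517137) (nat_lit 760) (nat_lit 810650111) (nat_lit 76) (nat_lit 2424318681) (nat_lit 730) (nat_lit 5) (nat_lit 740) (nat_lit 5) (nat_lit 731) (nat_lit 5) (nat_lit 538) (nat_lit 518) (nat_lit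 504))) (XT.nd (nat_lit 78) (nat_lit 912) (nat_lit 0) (XT.lf (nat_lit 0) (nat_lit 3139006238) (nat_lit 760) (nat_lit 3130800639) (nat_lit 836) (nat_lit 379916613) (nat_lit 720) (nat_lit 5) (nat_lit 730) (nat_lit 5) (nat_lit 731) (nat_lit 5) (nat_lit 539) (nat_lit 518) (nat_lit 503)) (XT.lf (nat_lit 0) (nat_lit 449179083) (nat_lit 836) (nat_lit 1992066474) (nat_lit 912) (nat_lit 4231993254) (nat_lit 708) (nat_lit 5) (nat_lit 719) (nat_lit 5) (nat_lit 720) (nat_lit 5) (nat_lit 540) (nat_lit 518) (nat_lit 502))))) (XT.nd (nat_lit 312) (nat_lit 2280) (nat_lit 0) (XT.nd (nat_lit 156) (nat_lit 1064) (nat_lit 0) (XT.nd (nat_lit 78) (nat_lit 988) (nat_lit 0) (XT.lf (nat_lit 0) (nat_lit 4487036783) (nat_lit 836) (nat_lit 785078521) (nat_lit 912) (nat_lit 1425897581) (nat_lit 708) (nat_lit 5) (nat_lit 719) (nat_lit 5) (nat_lit 720) (nat_lit 5) (nat_lit 541) (nat_lit 518) (nat_lit 501)) (XT.lf (nat_lit 0) (nat_lit 1368329164) (nat_lit 988) (nat_lit 4876210977) (nat_lit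 76) (nat_lit 479544714) (nat_lit 695) (nat_lit 5) (nat_lit 708) (nat_lit 5) (nat_lit 696) (nat_lit 5) (nat_lit 542) (nat_lit 518) (nat_lit 500))) (XT.nd (nat_lit 78) (nat_lit 1064) (nat_lit 0) (XT.lf (nat_lit 0) (nat_lit 4156249484) (nat_lit 988) (nat_lit 794562071) (nat_lit 76) (nat_lit 1800545920) (nat_lit 695) (nat_lit 5) (nat_lit 708) (nat_lit 5) (nat_lit 696) (nat_lit 5) (nat_lit 543) (nat_lit 518) (nat_lit 499)) (XT.lf (nat_lit 0) (nat_lit 177433349) (nat_lit 1064) (nat_lit 3414663255) (nat_lit 76) (nat_lit 3187864283) (nat_lit 681) (nat_lit 5) (nat_lit 695) (nat_lit 5) (nat_lit 682) (nat_lit 5) (nat_lit 544) (nat_lit 518) (nat_lit 498)))) (XT.nd (nat_lit 156) (nat_lit 1216) (nat_lit 0) (XT.nd (nat_lit 78) (nat_lit 0) (nat_lit 0) (XT.lf (nat_lit 0) (nat_lit 755886207) (nat_lit 1064) (nat_lit 2163594814) (nat_lit 1140) (nat_lit 3890341609) (nat_lit 667) (nat_lit 5) (nat_lit 681) (nat_lit 5) (nat_lit 682) (nat_lit 5) (nat_lit 545) (nat_lit 518) (nat_lit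 497)) (XT.lf (nat_lit 0) (nat_lit 5009540661) (nat_lit 1064) (nat_lit 669143176) (nat_lit 1140) (nat_lit 1162356797) (nat_lit 667) (nat_lit 5) (nat_lit 681) (nat_lit 5) (nat_lit 682) (nat_lit 5) (nat_lit 546) (nat_lit 518) (nat_lit 496))) (XT.nd (nat_lit 78) (nat_lit 0) (nat_lit 0) (XT.lf (nat_lit 0) (nat_lit 1560852840) (nat_lit 1216) (nat_lit 4428843878) (nat_lit 76) (nat_lit 883742713) (nat_lit 651) (nat_lit 5) (nat_lit 667) (nat_lit 5) (nat_lit 652) (nat_lit 5) (nat_lit 547) (nat_lit 518) (nat_lit 495)) (XT.lf (nat_lit 0) (nat_lit 4280925878) (nat_lit 1216) (nat_lit 134851344) (nat_lit 76) (nat_lit 2491401060) (nat_lit 651) (nat_lit 5) (nat_lit 667) (nat_lit 5) (nat_lit 652) (nat_lit 5) (nat_lit 548) (nat_lit 518) (nat_lit 494))))))))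
noncomputable def xc68 : XT := (XT.nd (nat_lit 2262) (nat_lit 11552) (nat_lit 0) (XT.nd (nat_lit 1092) (nat_lit 8512) (nat_lit 0) (XT.nd (nat_lit 546) (nat_lit 8056) (nat_lit 0) (XT.nd (nat_lit 234) (nat_lit 4484) (nat_lit 0) (XT.nd (nat_lit 78) (nat_lit 1292) (nat_lit 0) (XT.lf (nat_lit 0) (nat_lit 82033088) (nat_lit 1292) (nat_lit 2688430710) (nat_lit 76) (nat_lit 4171723797) (nat_lit 634) (nat_lit 5) (nat_lit 651) (nat_lit 5) (nat_lit 635) (nat_lit 5) (nat_lit 549) (nat_lit 518) (nat_lit 493)) (XT.nd (nat_lit 78) (nat_lit 0) (nat_lit 0) (XT.lf (nat_lit 0) (nat_lit 1712174071) (nat_lit 1292) (nat_lit 1051954586) (nat_lit 1368) (nat_lit 4214329764) (nat_lit 617) (nat_lit 5) (nat_lit 634) (nat_lit 5) (nat_lit 635) (nat_lit 5) (nat_lit 550) (nat_lit 518) (nat_lit 492)) (XT.lf (nat_lit 0) (nat_lit 5466209843) (nat_lit 1368) (nat_lit 830387763) (nat_lit 76) (nat_lit 719534807) (nat_lit 617) (nat_lit 5) (nat_lit 635) (nat_lit 5) (nat_lit 618) (nat_lit 5) (nat_lit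 551) (nat_lit 518) (nat_lit 491)))) (XT.nd (nat_lit 156) (nat_lit 1596) (nat_lit 0) (XT.nd (nat_lit 78) (nat_lit 1444) (nat_lit 0) (XT.lf (nat_lit 0) (nat_lit 1127945532) (nat_lit 1444) (nat_lit 3373752170) (nat_lit 76) (nat_lit 2553205219) (nat_lit 598) (nat_lit 5) (nat_lit 617) (nat_lit 5) (nat_lit 599) (nat_lit 5) (nat_lit 552) (nat_lit 518) (nat_lit 490)) (XT.lf (nat_lit 0) (nat_lit 1157373544) (nat_lit 1444) (nat_lit 2639540650) (nat_lit 1520) (nat_lit 3298168171) (nat_lit 579) (nat_lit 5) (nat_lit 598) (nat_lit 5) (nat_lit 599) (nat_lit 5) (nat_lit 553) (nat_lit 518) (nat_lit 489))) (XT.nd (nat_lit 78) (nat_lit 1596) (nat_lit 0) (XT.lf (nat_lit 0) (nat_lit 5777822245) (nat_lit 1444) (nat_lit 710003276) (nat_lit 1520) (nat_lit 648872879) (nat_lit 579) (nat_lit 5) (nat_lit 598) (nat_lit 5) (nat_lit 599) (nat_lit 5) (nat_lit 554) (nat_lit 518) (nat_lit 488)) (XT.lf (nat_lit 0) (nat_lit 2002937925) (nat_lit 1596) (nat_lit 3893377522) (nat_lit 76) (nat_lit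 1283039564) (nat_lit 558) (nat_lit 5) (nat_lit 579) (nat_lit 5) (nat_lit 559) (nat_lit 5) (nat_lit 555) (nat_lit 518) (nat_lit 487))))) (XT.nd (nat_lit 234) (nat_lit 4712) (nat_lit 0) (XT.nd (nat_lit 78) (nat_lit 1748) (nat_lit 0) (XT.lf (nat_lit 0) (nat_lit 772932312) (nat_lit 1596) (nat_lit 3892484811) (nat_lit 1672) (nat_lit 2558039463) (nat_lit 537) (nat_lit 5) (nat_lit 558) (nat_lit 5) (nat_lit 559) (nat_lit 5) (nat_lit 556) (nat_lit 518) (nat_lit 486)) (XT.nd (nat_lit 78) (nat_lit 1672) (nat_lit 0) (XT.lf (nat_lit 0) (nat_lit 85316770) (nat_lit 1672) (nat_lit 1731473847) (nat_lit 76) (nat_lit 5452157023) (nat_lit 536) (nat_lit 5) (nat_lit 558) (nat_lit 5) (nat_lit 537) (nat_lit 5) (nat_lit 557) (nat_lit 518) (nat_lit 485)) (XT.lf (nat_lit 0) (nat_lit 2718209343) (nat_lit 1748) (nat_lit 4259791502) (nat_lit 76) (nat_lit 337594863) (nat_lit 514) (nat_lit 5) (nat_lit 537) (nat_lit 5) (nat_lit 515) (nat_lit 5) (nat_lit 558) (nat_lit 518) (nat_lit 484))))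 (XT.nd (nat_lit 156) (nat_lit 2888) (nat_lit 0) (XT.nd (nat_lit 78) (nat_lit 76) (nat_lit 0) (XT.lf (nat_lit 0) (nat_lit 546631964) (nat_lit 1748) (nat_lit 4833942442) (nat_lit 1824) (nat_lit 1983069757) (nat_lit 491) (nat_lit 5) (nat_lit 514) (nat_lit 5) (nat_lit 515) (nat_lit 5) (nat_lit 559) (nat_lit 518) (nat_lit 483)) (XT.lf (nat_lit 0) (nat_lit 653229027) (nat_lit 1824) (nat_lit 1957920436) (nat_lit 76) (nat_lit 4801845727) (nat_lit 490) (nat_lit 5) (nat_lit 514) (nat_lit 5) (nat_lit 491) (nat_lit 5) (nat_lit 560) (nat_lit 518) (nat_lit 482))) (XT.nd (nat_lit 78) (nat_lit 1064) (nat_lit 0) (XT.lf (nat_lit 0) (nat_lit 2977071155) (nat_lit 1824) (nat_lit 308851655) (nat_lit 1900) (nat_lit 4177747322) (nat_lit 466) (nat_lit 5) (nat_lit 490) (nat_lit 5) (nat_lit 491) (nat_lit 5) (nat_lit 561) (nat_lit 518) (nat_lit 481)) (XT.lf (nat_lit 0) (nat_lit 467138122) (nat_lit 1064) (nat_lit 5485170413) (nat_lit 1140) (nat_lit 1563432713) (nat_lit 452) (nat_lit 5)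 (nat_lit 466) (nat_lit 5) (nat_lit 467) (nat_lit 5) (nat_lit 562) (nat_lit 518) (nat_lit 480)))))) (XT.nd (nat_lit 546) (nat_lit 4788) (nat_lit 0) (XT.nd (nat_lit 234) (nat_lit 1824) (nat_lit 0) (XT.nd (nat_lit 78) (nat_lit 1824) (nat_lit 0) (XT.lf (nat_lit 0) (nat_lit 1072911299) (nat_lit 1140) (nat_lit 2045086697) (nat_lit 76) (nat_lit 4451031613) (nat_lit 451) (nat_lit 5) (nat_lit 466) (nat_lit 5) (nat_lit 452) (nat_lit 5) (nat_lit 563) (nat_lit 518) (nat_lit 479)) (XT.nd (nat_lit 78) (nat_lit 912) (nat_lit 0) (XT.lf (nat_lit 0) (nat_lit 3040776739) (nat_lit 912) (nat_lit 672836494) (nat_lit 988) (nat_lit 3910115749) (nat_lit 439) (nat_lit 5) (nat_lit 451) (nat_lit 5) (nat_lit 452) (nat_lit 5) (nat_lit 564) (nat_lit 518) (nat_lit 478)) (XT.lf (nat_lit 0) (nat_lit 523915721) (nat_lit 912) (nat_lit 5865675619) (nat_lit 988) (nat_lit 1290284931) (nat_lit 427) (nat_lit 5) (nat_lit 439) (nat_lit 5) (nat_lit 440) (nat_lit 5) (nat_lit 565) (nat_lit 518) (nat_lit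 477)))) (XT.nd (nat_lit 156) (nat_lit 912) (nat_lit 0) (XT.nd (nat_lit 78) (nat_lit 836) (nat_lit 0) (XT.lf (nat_lit 0) (nat_lit 1352950056) (nat_lit 988) (nat_lit 2003293735) (nat_lit 76) (nat_lit 4380943675) (nat_lit 426) (nat_lit 5) (nat_lit 439) (nat_lit 5) (nat_lit 427) (nat_lit 5) (nat_lit 566) (nat_lit 518) (nat_lit 476)) (XT.lf (nat_lit 0) (nat_lit 3239133447) (nat_lit 836) (nat_lit 768312031) (nat_lit 912) (nat_lit 3788518368) (nat_lit 415) (nat_lit 5) (nat_lit 426) (nat_lit 5) (nat_lit 427) (nat_lit 5) (nat_lit 567) (nat_lit 518) (nat_lit 475))) (XT.nd (nat_lit 78) (nat_lit 76) (nat_lit 0) (XT.lf (nat_lit 0) (nat_lit 707148565) (nat_lit 836) (nat_lit 5993353062) (nat_lit 912) (nat_lit 1155707643) (nat_lit 404) (nat_lit 5) (nat_lit 415) (nat_lit 5) (nat_lit 416) (nat_lit 5) (nat_lit 568) (nat_lit 518) (nat_lit 474)) (XT.lf (nat_lit 0) (nat_lit 1501037137) (nat_lit 912) (nat_lit 1842178853) (nat_lit 76) (nat_lit 4574420968) (nat_lit 403) (nat_lit 5)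 (nat_lit 415) (nat_lit 5) (nat_lit 404) (nat_lit 5) (nat_lit 569) (nat_lit 518) (nat_lit 473))))) (XT.nd (nat_lit 312) (nat_lit 2280) (nat_lit 0) (XT.nd (nat_lit 156) (nat_lit 836) (nat_lit 0) (XT.nd (nat_lit 78) (nat_lit 836) (nat_lit 0) (XT.lf (nat_lit 0) (nat_lit 3562772074) (nat_lit 836) (nat_lit 612160778) (nat_lit 912) (nat_lit 3805620505) (nat_lit 392) (nat_lit 5) (nat_lit 403) (nat_lit 5) (nat_lit 404) (nat_lit 5) (nat_lit 570) (nat_lit 518) (nat_lit 472)) (XT.lf (nat_lit 0) (nat_lit 1007662598) (nat_lit 836) (nat_lit 5884614408) (nat_lit 912) (nat_lit 1152654377) (nat_lit 381) (nat_lit 5) (nat_lit 392) (nat_lit 5) (nat_lit 393) (nat_lit 5) (nat_lit 571) (nat_lit 518) (nat_lit 471))) (XT.nd (nat_lit 78) (nat_lit 760) (nat_lit 0) (XT.lf (nat_lit 0) (nat_lit 1524020180) (nat_lit 912) (nat_lit 1570770847) (nat_lit 76) (nat_lit 5015786397) (nat_lit 380) (nat_lit 5) (nat_lit 392) (nat_lit 5) (nat_lit 381) (nat_lit 5) (nat_lit 572) (nat_lit 518) (nat_lit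 470)) (XT.lf (nat_lit 0) (nat_lit 4002932115) (nat_lit 760) (nat_lit 219832697) (nat_lit 836) (nat_lit 3954942334) (nat_lit 370) (nat_lit 5) (nat_lit 380) (nat_lit 5) (nat_lit 381) (nat_lit 5) (nat_lit 573) (nat_lit 518) (nat_lit 469)))) (XT.nd (nat_lit 156) (nat_lit 1444) (nat_lit 0) (XT.nd (nat_lit 78) (nat_lit 76) (nat_lit 0) (XT.lf (nat_lit 0) (nat_lit 1416852333) (nat_lit 760) (nat_lit 5554507857) (nat_lit 836) (nat_lit 1274904256) (nat_lit 360) (nat_lit 5) (nat_lit 370) (nat_lit 5) (nat_lit 371) (nat_lit 5) (nat_lit 574) (nat_lit 518) (nat_lit 468)) (XT.lf (nat_lit 0) (nat_lit 1427947561) (nat_lit 836) (nat_lit 1197562341) (nat_lit 76) (nat_lit 5690729083) (nat_lit 359) (nat_lit 5) (nat_lit 370) (nat_lit 5) (nat_lit 360) (nat_lit 5) (nat_lit 575) (nat_lit 518) (nat_lit 467))) (XT.nd (nat_lit 78) (nat_lit 760) (nat_lit 0) (XT.lf (nat_lit 0) (nat_lit 4159411920) (nat_lit 760) (nat_lit 3838837537) (nat_lit 76) (nat_lit 389364843) (nat_lit 350) (nat_lit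 5) (nat_lit 360) (nat_lit 5) (nat_lit 351) (nat_lit 5) (nat_lit 576) (nat_lit 518) (nat_lit 466)) (XT.lf (nat_lit 0) (nat_lit 1926609899) (nat_lit 760) (nat_lit 5016830148) (nat_lit 836) (nat_lit 1517020697) (nat_lit 340) (nat_lit 5) (nat_lit 350) (nat_lit 5) (nat_lit 351) (nat_lit 5) (nat_lit 577) (nat_lit 518) (nat_lit 465))))))) (XT.nd (nat_lit 1092) (nat_lit 5548) (nat_lit 0) (XT.nd (nat_lit 546) (nat_lit 2508) (nat_lit 0) (XT.nd (nat_lit 234) (nat_lit 2052) (nat_lit 0) (XT.nd (nat_lit 78) (nat_lit 1368) (nat_lit 0) (XT.lf (nat_lit 0) (nat_lit 1218108079) (nat_lit 836) (nat_lit 730579706) (nat_lit 76) (nat_lit 6586194522) (nat_lit 339) (nat_lit 5) (nat_lit 350) (nat_lit 5) (nat_lit 340) (nat_lit 5) (nat_lit 578) (nat_lit 518) (nat_lit 464)) (XT.nd (nat_lit 78) (nat_lit 684) (nat_lit 0) (XT.lf (nat_lit 0) (nat_lit 3990264247) (nat_lit 760) (nat_lit 3418220289) (nat_lit 76) (nat_lit 1202056638) (nat_lit 330) (nat_lit 5) (nat_lit 340) (nat_lit 5) (nat_lit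 331) (nat_lit 5) (nat_lit 579) (nat_lit 518) (nat_lit 463)) (XT.lf (nat_lit 0) (nat_lit 2529256185) (nat_lit 684) (nat_lit 4284231433) (nat_lit 760) (nat_lit 1874315253) (nat_lit 321) (nat_lit 5) (nat_lit 330) (nat_lit 5) (nat_lit 331) (nat_lit 5) (nat_lit 580) (nat_lit 518) (nat_lit 462)))) (XT.nd (nat_lit 156) (nat_lit 1368) (nat_lit 0) (XT.nd (nat_lit 78) (nat_lit 608) (nat_lit 0) (XT.lf (nat_lit 0) (nat_lit 899065632) (nat_lit 760) (nat_lit 177451087) (nat_lit 76) (nat_lit 7690281778) (nat_lit 320) (nat_lit 5) (nat_lit 330) (nat_lit 5) (nat_lit 321) (nat_lit 5) (nat_lit 581) (nat_lit 518) (nat_lit 461)) (XT.lf (nat_lit 0) (nat_lit 3718275325) (nat_lit 684) (nat_lit 2919079025) (nat_lit 76) (nat_lit 2209464748) (nat_lit 312) (nat_lit 5) (nat_lit 321) (nat_lit 5) (nat_lit 313) (nat_lit 5) (nat_lit 582) (nat_lit 518) (nat_lit 460))) (XT.nd (nat_lit 78) (nat_lit 684) (nat_lit 0) (XT.lf (nat_lit 0) (nat_lit 3217473546) (nat_lit 684) (nat_lit 3368313756) (nat_lit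 760) (nat_lit 2342816419) (nat_lit 303) (nat_lit 5) (nat_lit 312) (nat_lit 5) (nat_lit 313) (nat_lit 5) (nat_lit 583) (nat_lit 518) (nat_lit 459)) (XT.lf (nat_lit 0) (nat_lit 460567374) (nat_lit 608) (nat_lit 17111983) (nat_lit 684) (nat_lit 8534569961) (nat_lit 294) (nat_lit 5) (nat_lit 302) (nat_lit 5) (nat_lit 303) (nat_lit 5) (nat_lit 584) (nat_lit 518) (nat_lit 458))))) (XT.nd (nat_lit 234) (nat_lit 1292) (nat_lit 0) (XT.nd (nat_lit 78) (nat_lit 1216) (nat_lit 0) (XT.lf (nat_lit 0) (nat_lit 3347151940) (nat_lit 684) (nat_lit 2348701828) (nat_lit 76) (nat_lit 3400927452) (nat_lit 294) (nat_lit 5) (nat_lit 303) (nat_lit 5) (nat_lit 295) (nat_lit 5) (nat_lit 585) (nat_lit 518) (nat_lit 457)) (XT.nd (nat_lit 78) (nat_lit 608) (nat_lit 0) (XT.lf (nat_lit 0) (nat_lit 3984239554) (nat_lit 608) (nat_lit 2279723810) (nat_lit 684) (nat_lit 2919243231) (nat_lit 286) (nat_lit 5) (nat_lit 294) (nat_lit 5) (nat_lit 295) (nat_lit 5) (nat_lit 586) (nat_lit 518) (nat_lit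 456)) (XT.lf (nat_lit 0) (nat_lit 1165407889) (nat_lit 608) (nat_lit 8069266101) (nat_lit 684) (nat_lit 36777014) (nat_lit 278) (nat_lit 5) (nat_lit 286) (nat_lit 5) (nat_lit 287) (nat_lit 5) (nat_lit 587) (nat_lit 518) (nat_lit 455)))) (XT.nd (nat_lit 156) (nat_lit 608) (nat_lit 0) (XT.nd (nat_lit 78) (nat_lit 608) (nat_lit 0) (XT.lf (nat_lit 0) (nat_lit 2879950071) (nat_lit 684) (nat_lit 1714147353) (nat_lit 76) (nat_lit 4766693801) (nat_lit 277) (nat_lit 5) (nat_lit 286) (nat_lit 5) (nat_lit 278) (nat_lit 5) (nat_lit 588) (nat_lit 518) (nat_lit 454)) (XT.lf (nat_lit 0) (nat_lit 4822761268) (nat_lit 608) (nat_lit 1028240613) (nat_lit 684) (nat_lit 3600983538) (nat_lit 269) (nat_lit 5) (nat_lit 277) (nat_lit 5) (nat_lit 278) (nat_lit 5) (nat_lit 589) (nat_lit 518) (nat_lit 453))) (XT.nd (nat_lit 78) (nat_lit 76) (nat_lit 0) (XT.lf (nat_lit 0) (nat_lit 1931031189) (nat_lit 532) (nat_lit 6956983945) (nat_lit 608) (nat_lit 656859204) (nat_lit 262) (nat_lit 5)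 (nat_lit 269) (nat_lit 5) (nat_lit 270) (nat_lit 5) (nat_lit 590) (nat_lit 518) (nat_lit 452)) (XT.lf (nat_lit 0) (nat_lit 2319093639) (nat_lit 608) (nat_lit 1022310283) (nat_lit 76) (nat_lit 6297839724) (nat_lit 261) (nat_lit 5) (nat_lit 269) (nat_lit 5) (nat_lit 262) (nat_lit 5) (nat_lit 591) (nat_lit 518) (nat_lit 451)))))) (XT.nd (nat_lit 546) (nat_lit 2812) (nat_lit 0) (XT.nd (nat_lit 234) (nat_lit 1596) (nat_lit 0) (XT.nd (nat_lit 78) (nat_lit 608) (nat_lit 0) (XT.lf (nat_lit 0) (nat_lit 5351716891) (nat_lit 608) (nat_lit 4011384260) (nat_lit 76) (nat_lit 372194974) (nat_lit 254) (nat_lit 5) (nat_lit 262) (nat_lit 5) (nat_lit 255) (nat_lit 5) (nat_lit 592) (nat_lit 518) (nat_lit 450)) (XT.nd (nat_lit 78) (nat_lit 76) (nat_lit 0) (XT.lf (nat_lit 0) (nat_lit 2754040061) (nat_lit 532) (nat_lit 5704469270) (nat_lit 608) (nat_lit 1374491511) (nat_lit 247) (nat_lit 5) (nat_lit 254) (nat_lit 5) (nat_lit 255) (nat_lit 5) (nat_lit 593) (nat_lit 518) (nat_lit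 449)) (XT.lf (nat_lit 0) (nat_lit 1666388817) (nat_lit 608) (nat_lit 279987232) (nat_lit 76) (nat_lit 7986188236) (nat_lit 246) (nat_lit 5) (nat_lit 254) (nat_lit 5) (nat_lit 247) (nat_lit 5) (nat_lit 594) (nat_lit 518) (nat_lit 448)))) (XT.nd (nat_lit 156) (nat_lit 608) (nat_lit 0) (XT.nd (nat_lit 78) (nat_lit 456) (nat_lit 0) (XT.lf (nat_lit 0) (nat_lit 4773038928) (nat_lit 608) (nat_lit 3357588229) (nat_lit 76) (nat_lit 1902844437) (nat_lit 239) (nat_lit 5) (nat_lit 247) (nat_lit 5) (nat_lit 240) (nat_lit 5) (nat_lit 595) (nat_lit 518) (nat_lit 447)) (XT.lf (nat_lit 0) (nat_lit 3627779668) (nat_lit 456) (nat_lit 4320040204) (nat_lit 532) (nat_lit 2188458629) (nat_lit 233) (nat_lit 5) (nat_lit 239) (nat_lit 5) (nat_lit 240) (nat_lit 5) (nat_lit 596) (nat_lit 518) (nat_lit 446))) (XT.nd (nat_lit 78) (nat_lit 0) (nat_lit 0) (XT.lf (nat_lit 0) (nat_lit 512781573) (nat_lit 532) (nat_lit 413581696) (nat_lit 608) (nat_lit 9314780892) (nat_lit 225) (nat_lit 5)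 (nat_lit 232) (nat_lit 5) (nat_lit 233) (nat_lit 5) (nat_lit 597) (nat_lit 518) (nat_lit 445)) (XT.lf (nat_lit 0) (nat_lit 4109401104) (nat_lit 608) (nat_lit 2668080404) (nat_lit 76) (nat_lit 3569633181) (nat_lit 225) (nat_lit 5) (nat_lit 233) (nat_lit 5) (nat_lit 226) (nat_lit 5) (nat_lit 598) (nat_lit 518) (nat_lit 444))))) (XT.nd (nat_lit 312) (nat_lit 1368) (nat_lit 0) (XT.nd (nat_lit 156) (nat_lit 456) (nat_lit 0) (XT.nd (nat_lit 78) (nat_lit 532) (nat_lit 0) (XT.lf (nat_lit 0) (nat_lit 4545587516) (nat_lit 456) (nat_lit 2811436190) (nat_lit 532) (nat_lit 3098163743) (nat_lit 219) (nat_lit 5) (nat_lit 225) (nat_lit 5) (nat_lit 226) (nat_lit 5) (nat_lit 599) (nat_lit 518) (nat_lit 443)) (XT.lf (nat_lit 0) (nat_lit 106473488) (nat_lit 532) (nat_lit 9226923451) (nat_lit 76) (nat_lit 1231939195) (nat_lit 212) (nat_lit 5) (nat_lit 219) (nat_lit 5) (nat_lit 213) (nat_lit 5) (nat_lit 600) (nat_lit 518) (nat_lit 442))) (XT.nd (nat_lit 78) (nat_lit 456) (nat_lit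 0) (XT.lf (nat_lit 0) (nat_lit 3361321565) (nat_lit 532) (nat_lit 1949856589) (nat_lit 76) (nat_lit 5365549238) (nat_lit 212) (nat_lit 5) (nat_lit 219) (nat_lit 5) (nat_lit 213) (nat_lit 5) (nat_lit 601) (nat_lit 518) (nat_lit 441)) (XT.lf (nat_lit 0) (nat_lit 5500723394) (nat_lit 456) (nat_lit 1185890689) (nat_lit 532) (nat_lit 4103626644) (nat_lit 206) (nat_lit 5) (nat_lit 212) (nat_lit 5) (nat_lit 213) (nat_lit 5) (nat_lit 602) (nat_lit 518) (nat_lit 440)))) (XT.nd (nat_lit 156) (nat_lit 836) (nat_lit 0) (XT.nd (nat_lit 78) (nat_lit 76) (nat_lit 0) (XT.lf (nat_lit 0) (nat_lit 2185547010) (nat_lit 456) (nat_lit 7909700783) (nat_lit 532) (nat_lit 810441009) (nat_lit 200) (nat_lit 5) (nat_lit 206) (nat_lit 5) (nat_lit 207) (nat_lit 5) (nat_lit 603) (nat_lit 518) (nat_lit 439)) (XT.lf (nat_lit 0) (nat_lit 2528726884) (nat_lit 532) (nat_lit 1210059824) (nat_lit 76) (nat_lit 7284058438) (nat_lit 199) (nat_lit 5) (nat_lit 206) (nat_lit 5) (nat_lit 200) (nat_lit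 5) (nat_lit 604) (nat_lit 518) (nat_lit 438))) (XT.nd (nat_lit 78) (nat_lit 456) (nat_lit 0) (XT.lf (nat_lit 0) (nat_lit 5940068398) (nat_lit 456) (nat_lit 4659258074) (nat_lit 76) (nat_lit 542587274) (nat_lit 194) (nat_lit 5) (nat_lit 200) (nat_lit 5) (nat_lit 195) (nat_lit 5) (nat_lit 605) (nat_lit 518) (nat_lit 437)) (XT.lf (nat_lit 0) (nat_lit 3053830525) (nat_lit 456) (nat_lit 6389320688) (nat_lit 532) (nat_lit 1819743304) (nat_lit 188) (nat_lit 5) (nat_lit 194) (nat_lit 5) (nat_lit 195) (nat_lit 5) (nat_lit 606) (nat_lit 518) (nat_lit 436))))))))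
noncomputable def xc69 : XT := (XT.nd (nat_lit 2262) (nat_lit 1900) (nat_lit 0) (XT.nd (nat_lit 1092) (nat_lit 3496) (nat_lit 0) (XT.nd (nat_lit 546) (nat_lit 1596) (nat_lit 0) (XT.nd (nat_lit 234) (nat_lit 1216) (nat_lit 0) (XT.nd (nat_lit 78) (nat_lit 760) (nat_lit 0) (XT.lf (nat_lit 0) (nat_lit 1610946976) (nat_lit 532) (nat_lit 456055266) (nat_lit 76) (nat_lit 9319035569) (nat_lit 187) (nat_lit 5) (nat_lit 194) (nat_lit 5) (nat_lit 188) (nat_lit 5) (nat_lit 607) (nat_lit 518) (nat_lit 435)) (XT.nd (nat_lit 78) (nat_lit 380) (nat_lit 0) (XT.lf (nat_lit 0) (nat_lit 5121505847) (nat_lit 456) (nat_lit 4031323869) (nat_lit 76) (nat_lit 2357862289) (nat_lit 182) (nat_lit 5) (nat_lit 188) (nat_lit 5) (nat_lit 183) (nat_lit 5) (nat_lit 608) (nat_lit 518) (nat_lit 434)) (XT.lf (nat_lit 0) (nat_lit 3936561645) (nat_lit 380) (nat_lit 4779653208) (nat_lit 456) (nat_lit 2921346656) (nat_lit 177) (nat_lit 5) (nat_lit 182) (nat_lit 5) (nat_lit 183) (nat_lit 5) (nat_lit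 609) (nat_lit 518) (nat_lit 433)))) (XT.nd (nat_lit 156) (nat_lit 760) (nat_lit 0) (XT.nd (nat_lit 78) (nat_lit 0) (nat_lit 0) (XT.lf (nat_lit 0) (nat_lit 308537687) (nat_lit 380) (nat_lit 300170924) (nat_lit 456) (nat_lit 11158162069) (nat_lit 171) (nat_lit 5) (nat_lit 176) (nat_lit 5) (nat_lit 177) (nat_lit 5) (nat_lit 610) (nat_lit 518) (nat_lit 432)) (XT.lf (nat_lit 0) (nat_lit 4221900079) (nat_lit 456) (nat_lit 3406015707) (nat_lit 76) (nat_lit 4269431958) (nat_lit 171) (nat_lit 5) (nat_lit 177) (nat_lit 5) (nat_lit 172) (nat_lit 5) (nat_lit 611) (nat_lit 518) (nat_lit 431))) (XT.nd (nat_lit 78) (nat_lit 380) (nat_lit 0) (XT.lf (nat_lit 0) (nat_lit 4825974288) (nat_lit 380) (nat_lit 3087132618) (nat_lit 456) (nat_lit 4117213342) (nat_lit 166) (nat_lit 5) (nat_lit 171) (nat_lit 5) (nat_lit 172) (nat_lit 5) (nat_lit 612) (nat_lit 518) (nat_lit 430)) (XT.lf (nat_lit 0) (nat_lit 1064209188) (nat_lit 380) (nat_lit 10626470978) (nat_lit 456) (nat_lit 475022100)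 (nat_lit 161) (nat_lit 5) (nat_lit 166) (nat_lit 5) (nat_lit 167) (nat_lit 5) (nat_lit 613) (nat_lit 518) (nat_lit 429))))) (XT.nd (nat_lit 234) (nat_lit 836) (nat_lit 0) (XT.nd (nat_lit 78) (nat_lit 684) (nat_lit 0) (XT.lf (nat_lit 0) (nat_lit 3239307154) (nat_lit 456) (nat_lit 2791763414) (nat_lit 76) (nat_lit 6271465756) (nat_lit 160) (nat_lit 5) (nat_lit 166) (nat_lit 5) (nat_lit 161) (nat_lit 5) (nat_lit 614) (nat_lit 518) (nat_lit 428)) (XT.nd (nat_lit 78) (nat_lit 304) (nat_lit 0) (XT.lf (nat_lit 0) (nat_lit 5713865564) (nat_lit 380) (nat_lit 1318014598) (nat_lit 456) (nat_lit 5409958608) (nat_lit 155) (nat_lit 5) (nat_lit 160) (nat_lit 5) (nat_lit 161) (nat_lit 5) (nat_lit 615) (nat_lit 518) (nat_lit 427)) (XT.lf (nat_lit 0) (nat_lit 1802515796) (nat_lit 304) (nat_lit 9124373226) (nat_lit 380) (nat_lit 1656507397) (nat_lit 151) (nat_lit 5) (nat_lit 155) (nat_lit 5) (nat_lit 156) (nat_lit 5) (nat_lit 616) (nat_lit 518) (nat_lit 426)))) (XT.nd (nat_lit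 156) (nat_lit 380) (nat_lit 0) (XT.nd (nat_lit 78) (nat_lit 380) (nat_lit 0) (XT.lf (nat_lit 0) (nat_lit 2171144632) (nat_lit 380) (nat_lit 2197516994) (nat_lit 76) (nat_lit 8358289998) (nat_lit 150) (nat_lit 5) (nat_lit 155) (nat_lit 5) (nat_lit 151) (nat_lit 5) (nat_lit 617) (nat_lit 518) (nat_lit 425)) (XT.lf (nat_lit 0) (nat_lit 6073335548) (nat_lit 456) (nat_lit 6284707260) (nat_lit 76) (nat_lit 514713598) (nat_lit 145) (nat_lit 5) (nat_lit 151) (nat_lit 5) (nat_lit 146) (nat_lit 5) (nat_lit 618) (nat_lit 518) (nat_lit 424))) (XT.nd (nat_lit 78) (nat_lit 76) (nat_lit 0) (XT.lf (nat_lit 0) (nat_lit 2520324661) (nat_lit 304) (nat_lit 7567490785) (nat_lit 380) (nat_lit 2932977714) (nat_lit 141) (nat_lit 5) (nat_lit 145) (nat_lit 5) (nat_lit 146) (nat_lit 5) (nat_lit 619) (nat_lit 518) (nat_lit 423)) (XT.lf (nat_lit 0) (nat_lit 1014164935) (nat_lit 380) (nat_lit 1632844025) (nat_lit 76) (nat_lit 10524318632) (nat_lit 140) (nat_lit 5) (nat_lit 145) (nat_lit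 5) (nat_lit 141) (nat_lit 5) (nat_lit 620) (nat_lit 518) (nat_lit 422)))))) (XT.nd (nat_lit 546) (nat_lit 1748) (nat_lit 0) (XT.nd (nat_lit 234) (nat_lit 1064) (nat_lit 0) (XT.nd (nat_lit 78) (nat_lit 304) (nat_lit 0) (XT.lf (nat_lit 0) (nat_lit 5039810342) (nat_lit 456) (nat_lit 5890245798) (nat_lit 76) (nat_lit 2393652918) (nat_lit 135) (nat_lit 5) (nat_lit 141) (nat_lit 5) (nat_lit 136) (nat_lit 5) (nat_lit 621) (nat_lit 518) (nat_lit 421)) (XT.nd (nat_lit 78) (nat_lit 0) (nat_lit 0) (XT.lf (nat_lit 0) (nat_lit 3207761434) (nat_lit 304) (nat_lit 5962406510) (nat_lit 380) (nat_lit 4308486942) (nat_lit 131) (nat_lit 5) (nat_lit 135) (nat_lit 5) (nat_lit 136) (nat_lit 5) (nat_lit 622) (nat_lit 518) (nat_lit 420)) (XT.lf (nat_lit 0) (nat_lit 12526824674) (nat_lit 304) (nat_lit 870876682) (nat_lit 380) (nat_lit 238707604) (nat_lit 131) (nat_lit 5) (nat_lit 135) (nat_lit 5) (nat_lit 136) (nat_lit 5) (nat_lit 623) (nat_lit 518) (nat_lit 419)))) (XT.nd (nat_lit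 156) (nat_lit 380) (nat_lit 0) (XT.nd (nat_lit 78) (nat_lit 304) (nat_lit 0) (XT.lf (nat_lit 0) (nat_lit 3918755478) (nat_lit 380) (nat_lit 5546878431) (nat_lit 76) (nat_lit 4330024822) (nat_lit 126) (nat_lit 5) (nat_lit 131) (nat_lit 5) (nat_lit 127) (nat_lit 5) (nat_lit 624) (nat_lit 518) (nat_lit 418)) (XT.lf (nat_lit 0) (nat_lit 3854159208) (nat_lit 304) (nat_lit 4315792193) (nat_lit 380) (nat_lit 5787835603) (nat_lit 122) (nat_lit 5) (nat_lit 126) (nat_lit 5) (nat_lit 127) (nat_lit 5) (nat_lit 625) (nat_lit 518) (nat_lit 417))) (XT.nd (nat_lit 78) (nat_lit 380) (nat_lit 0) (XT.lf (nat_lit 0) (nat_lit 12525331812) (nat_lit 380) (nat_lit 650854153) (nat_lit 76) (nat_lit 946589320) (nat_lit 122) (nat_lit 5) (nat_lit 127) (nat_lit 5) (nat_lit 123) (nat_lit 5) (nat_lit 626) (nat_lit 518) (nat_lit 416)) (XT.lf (nat_lit 0) (nat_lit 2705438516) (nat_lit 380) (nat_lit 5266347233) (nat_lit 76) (nat_lit 6317654857) (nat_lit 117) (nat_lit 5) (nat_lit 122) (nat_lit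 5) (nat_lit 118) (nat_lit 5) (nat_lit 627) (nat_lit 518) (nat_lit 415))))) (XT.nd (nat_lit 312) (nat_lit 912) (nat_lit 0) (XT.nd (nat_lit 156) (nat_lit 608) (nat_lit 0) (XT.nd (nat_lit 78) (nat_lit 0) (nat_lit 0) (XT.lf (nat_lit 0) (nat_lit 4447938748) (nat_lit 228) (nat_lit 2634486145) (nat_lit 304) (nat_lit 7376615042) (nat_lit 114) (nat_lit 5) (nat_lit 117) (nat_lit 5) (nat_lit 118) (nat_lit 5) (nat_lit 628) (nat_lit 518) (nat_lit 414)) (XT.lf (nat_lit 0) (nat_lit 11577015789) (nat_lit 304) (nat_lit 261790873) (nat_lit 76) (nat_lit 2792623896) (nat_lit 114) (nat_lit 5) (nat_lit 118) (nat_lit 5) (nat_lit 115) (nat_lit 5) (nat_lit 629) (nat_lit 518) (nat_lit 413))) (XT.nd (nat_lit 78) (nat_lit 228) (nat_lit 0) (XT.lf (nat_lit 0) (nat_lit 1394339227) (nat_lit 380) (nat_lit 5061416398) (nat_lit 76) (nat_lit 8350180679) (nat_lit 109) (nat_lit 5) (nat_lit 114) (nat_lit 5) (nat_lit 110) (nat_lit 5) (nat_lit 630) (nat_lit 518) (nat_lit 412)) (XT.lf (nat_lit 0)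 (nat_lit 4976478406) (nat_lit 228) (nat_lit 925574382) (nat_lit 304) (nat_lit 9081258488) (nat_lit 106) (nat_lit 5) (nat_lit 109) (nat_lit 5) (nat_lit 110) (nat_lit 5) (nat_lit 631) (nat_lit 518) (nat_lit 411)))) (XT.nd (nat_lit 156) (nat_lit 608) (nat_lit 0) (XT.nd (nat_lit 78) (nat_lit 0) (nat_lit 0) (XT.lf (nat_lit 0) (nat_lit 50753421) (nat_lit 304) (nat_lit 10491166552) (nat_lit 380) (nat_lit 4621474344) (nat_lit 102) (nat_lit 5) (nat_lit 106) (nat_lit 5) (nat_lit 107) (nat_lit 5) (nat_lit 632) (nat_lit 518) (nat_lit 410)) (XT.lf (nat_lit 0) (nat_lit 10399925385) (nat_lit 304) (nat_lit 4924965784) (nat_lit 380) (nat_lit 21182261) (nat_lit 102) (nat_lit 5) (nat_lit 106) (nat_lit 5) (nat_lit 107) (nat_lit 5) (nat_lit 633) (nat_lit 518) (nat_lit 409))) (XT.nd (nat_lit 78) (nat_lit 304) (nat_lit 0) (XT.lf (nat_lit 0) (nat_lit 4627665663) (nat_lit 304) (nat_lit 10110792721) (nat_lit 76) (nat_lit 792985455) (nat_lit 98) (nat_lit 5) (nat_lit 102) (nat_lit 5)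 (nat_lit 99) (nat_lit 5) (nat_lit 634) (nat_lit 518) (nat_lit 408)) (XT.lf (nat_lit 0) (nat_lit 273962395) (nat_lit 304) (nat_lit 9140509124) (nat_lit 380) (nat_lit 6305142558) (nat_lit 94) (nat_lit 5) (nat_lit 98) (nat_lit 5) (nat_lit 99) (nat_lit 5) (nat_lit 635) (nat_lit 518) (nat_lit 407))))))) (XT.nd (nat_lit 72618) (nat_lit 0) (nat_lit 49400) (XT.nd (nat_lit 546) (nat_lit 836) (nat_lit 0) (XT.nd (nat_lit 234) (nat_lit 532) (nat_lit 0) (XT.nd (nat_lit 78) (nat_lit 532) (nat_lit 0) (XT.lf (nat_lit 0) (nat_lit 10965091524) (nat_lit 304) (nat_lit 3377422389) (nat_lit 380) (nat_lit 1568124300) (nat_lit 94) (nat_lit 5) (nat_lit 98) (nat_lit 5) (nat_lit 99) (nat_lit 5) (nat_lit 636) (nat_lit 518) (nat_lit 406)) (XT.nd (nat_lit 78) (nat_lit 228) (nat_lit 0) (XT.lf (nat_lit 0) (nat_lit 3252834953) (nat_lit 304) (nat_lit 10339996992) (nat_lit 76) (nat_lit 2511587502) (nat_lit 90) (nat_lit 5) (nat_lit 94) (nat_lit 5) (nat_lit 91) (nat_lit 5) (nat_lit 637) (nat_lit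 518) (nat_lit 405)) (XT.lf (nat_lit 0) (nat_lit 388335476) (nat_lit 228) (nat_lit 7797225350) (nat_lit 304) (nat_lit 8115581755) (nat_lit 87) (nat_lit 5) (nat_lit 90) (nat_lit 5) (nat_lit 91) (nat_lit 5) (nat_lit 638) (nat_lit 518) (nat_lit 404)))) (XT.nd (nat_lit 156) (nat_lit 228) (nat_lit 0) (XT.nd (nat_lit 78) (nat_lit 304) (nat_lit 0) (XT.lf (nat_lit 0) (nat_lit 11433643518) (nat_lit 228) (nat_lit 1830899820) (nat_lit 304) (nat_lit 3236305263) (nat_lit 87) (nat_lit 5) (nat_lit 90) (nat_lit 5) (nat_lit 91) (nat_lit 5) (nat_lit 639) (nat_lit 518) (nat_lit 403)) (XT.lf (nat_lit 0) (nat_lit 1763208723) (nat_lit 304) (nat_lit 10706088331) (nat_lit 76) (nat_lit 4234116523) (nat_lit 83) (nat_lit 5) (nat_lit 87) (nat_lit 5) (nat_lit 84) (nat_lit 5) (nat_lit 640) (nat_lit 518) (nat_lit 402))) (XT.nd (nat_lit 78) (nat_lit 0) (nat_lit 0) (XT.lf (nat_lit 0) (nat_lit 376257910) (nat_lit 228) (nat_lit 6470537726) (nat_lit 304) (nat_lit 10062258478) (nat_lit 80) (nat_lit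 5) (nat_lit 83) (nat_lit 5) (nat_lit 84) (nat_lit 5) (nat_lit 641) (nat_lit 518) (nat_lit 401)) (XT.lf (nat_lit 0) (nat_lit 11788243188) (nat_lit 228) (nat_lit 294412902) (nat_lit 304) (nat_lit 5035139767) (nat_lit 80) (nat_lit 5) (nat_lit 83) (nat_lit 5) (nat_lit 84) (nat_lit 5) (nat_lit 642) (nat_lit 518) (nat_lit 400))))) (XT.nd (nat_lit 71760) (nat_lit 0) (nat_lit 53884) (XT.nd (nat_lit 156) (nat_lit 304) (nat_lit 0) (XT.nd (nat_lit 78) (nat_lit 228) (nat_lit 0) (XT.lf (nat_lit 0) (nat_lit 149371832) (nat_lit 304) (nat_lit 11228465762) (nat_lit 76) (nat_lit 5951701960) (nat_lit 76) (nat_lit 5) (nat_lit 80) (nat_lit 5) (nat_lit 77) (nat_lit 5) (nat_lit 643) (nat_lit 518) (nat_lit 399)) (XT.lf (nat_lit 0) (nat_lit 218329060) (nat_lit 228) (nat_lit 5170364659) (nat_lit 304) (nat_lit 12155788354) (nat_lit 73) (nat_lit 5) (nat_lit 76) (nat_lit 5) (nat_lit 77) (nat_lit 5) (nat_lit 644) (nat_lit 518) (nat_lit 398))) (XT.nd (nat_lit 156) (nat_lit 304) (nat_lit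 0) (XT.lf (nat_lit 0) (nat_lit 10795368912) (nat_lit 304) (nat_lit 5760816814) (nat_lit 76) (nat_lit 1206286774) (nat_lit 73) (nat_lit 5) (nat_lit 77) (nat_lit 5) (nat_lit 74) (nat_lit 5) (nat_lit 645) (nat_lit 518) (nat_lit 397)) (XT.lf (nat_lit 0) (nat_lit 3801281251) (nat_lit 304) (nat_lit 105447659) (nat_lit 76) (nat_lit 14301879578) (nat_lit 69) (nat_lit 5) (nat_lit 73) (nat_lit 5) (nat_lit 70) (nat_lit 5) (nat_lit 647) (nat_lit 518) (nat_lit 395)))) (XT.nd (nat_lit 156) (nat_lit 152) (nat_lit 0) (XT.nd (nat_lit 78) (nat_lit 76) (nat_lit 0) (XT.lf (nat_lit 0) (nat_lit 22959606) (nat_lit 76) (nat_lit 1599555191) (nat_lit 76) (nat_lit 1599555191) (nat_lit 781) (nat_lit 4) (nat_lit 782) (nat_lit 5) (nat_lit 782) (nat_lit 4) (nat_lit 522) (nat_lit 519) (nat_lit 519)) (XT.lf (nat_lit 0) (nat_lit 3554290) (nat_lit 152) (nat_lit 3070384846) (nat_lit 76) (nat_lit 3372740841) (nat_lit 780) (nat_lit 5) (nat_lit 782) (nat_lit 5) (nat_lit 781) (nat_lit 4) (nat_lit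 523) (nat_lit 519) (nat_lit 518))) (XT.nd (nat_lit 78) (nat_lit 0) (nat_lit 0) (XT.lf (nat_lit 0) (nat_lit 261771120) (nat_lit 152) (nat_lit 2885038653) (nat_lit 228) (nat_lit 3303660226) (nat_lit 778) (nat_lit 5) (nat_lit 780) (nat_lit 5) (nat_lit 781) (nat_lit 4) (nat_lit 524) (nat_lit 519) (nat_lit 517)) (XT.lf (nat_lit 0) (nat_lit 3657999052) (nat_lit 152) (nat_lit 2634497288) (nat_lit 228) (nat_lit 163057592) (nat_lit 778) (nat_lit 5) (nat_lit 780) (nat_lit 5) (nat_lit 781) (nat_lit 4) (nat_lit 525) (nat_lit 519) (nat_lit 516)))))) (XT.nd (nat_lit 546) (nat_lit 2812) (nat_lit 0) (XT.nd (nat_lit 234) (nat_lit 988) (nat_lit 0) (XT.nd (nat_lit 78) (nat_lit 380) (nat_lit 0) (XT.lf (nat_lit 0) (nat_lit 605212908) (nat_lit 228) (nat_lit 2319214575) (nat_lit 304) (nat_lit 3537447419) (nat_lit 774) (nat_lit 5) (nat_lit 777) (nat_lit 5) (nat_lit 778) (nat_lit 5) (nat_lit 526) (nat_lit 519) (nat_lit 515)) (XT.nd (nat_lit 78) (nat_lit 380) (nat_lit 0) (XT.lf (nat_lit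 0) (nat_lit 4068758977) (nat_lit 228) (nat_lit 1942785687) (nat_lit 304) (nat_lit 457963643) (nat_lit 774) (nat_lit 5) (nat_lit 777) (nat_lit 5) (nat_lit 778) (nat_lit 5) (nat_lit 527) (nat_lit 519) (nat_lit 514)) (XT.lf (nat_lit 0) (nat_lit 1076701671) (nat_lit 304) (nat_lit 1500530668) (nat_lit 380) (nat_lit 3901135930) (nat_lit 769) (nat_lit 5) (nat_lit 773) (nat_lit 5) (nat_lit 774) (nat_lit 5) (nat_lit 528) (nat_lit 519) (nat_lit 513)))) (XT.nd (nat_lit 156) (nat_lit 532) (nat_lit 0) (XT.nd (nat_lit 78) (nat_lit 456) (nat_lit 0) (XT.lf (nat_lit 0) (nat_lit 4609182100) (nat_lit 304) (nat_lit 997472920) (nat_lit 380) (nat_lit 881905143) (nat_lit 769) (nat_lit 5) (nat_lit 773) (nat_lit 5) (nat_lit 774) (nat_lit 5) (nat_lit 529) (nat_lit 519) (nat_lit 512)) (XT.lf (nat_lit 0) (nat_lit 1676943296) (nat_lit 380) (nat_lit 427384705) (nat_lit 456) (nat_lit 4395641739) (nat_lit 763) (nat_lit 5) (nat_lit 768) (nat_lit 5) (nat_lit 769) (nat_lit 5) (nat_lit 530)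 (nat_lit 519) (nat_lit 511))) (XT.nd (nat_lit 78) (nat_lit 532) (nat_lit 0) (XT.lf (nat_lit 0) (nat_lit 5078129182) (nat_lit 456) (nat_lit 1233950565) (nat_lit 76) (nat_lit 200626023) (nat_lit 763) (nat_lit 5) (nat_lit 769) (nat_lit 5) (nat_lit 764) (nat_lit 5) (nat_lit 531) (nat_lit 519) (nat_lit 510)) (XT.lf (nat_lit 0) (nat_lit 1510428887) (nat_lit 532) (nat_lit 4125670223) (nat_lit 76) (nat_lit 890488767) (nat_lit 756) (nat_lit 5) (nat_lit 763) (nat_lit 5) (nat_lit 757) (nat_lit 5) (nat_lit 532) (nat_lit 519) (nat_lit 509))))) (XT.nd (nat_lit 312) (nat_lit 1596) (nat_lit 0) (XT.nd (nat_lit 156) (nat_lit 608) (nat_lit 0) (XT.nd (nat_lit 78) (nat_lit 608) (nat_lit 0) (XT.lf (nat_lit 0) (nat_lit 4431530999) (nat_lit 532) (nat_lit 470241909) (nat_lit 76) (nat_lit 1640064392) (nat_lit 756) (nat_lit 5) (nat_lit 763) (nat_lit 5) (nat_lit 757) (nat_lit 5) (nat_lit 533) (nat_lit 519) (nat_lit 508)) (XT.lf (nat_lit 0) (nat_lit 792740062) (nat_lit 608) (nat_lit 3307022454)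 (nat_lit 76) (nat_lit 2458520040) (nat_lit 748) (nat_lit 5) (nat_lit 756) (nat_lit 5) (nat_lit 749) (nat_lit 5) (nat_lit 534) (nat_lit 519) (nat_lit 507))) (XT.nd (nat_lit 78) (nat_lit 0) (nat_lit 0) (XT.lf (nat_lit 0) (nat_lit 425081832) (nat_lit 608) (nat_lit 3236563922) (nat_lit 684) (nat_lit 2914417878) (nat_lit 740) (nat_lit 5) (nat_lit 748) (nat_lit 5) (nat_lit 749) (nat_lit 5) (nat_lit 535) (nat_lit 519) (nat_lit 506)) (XT.lf (nat_lit 0) (nat_lit 4231882716) (nat_lit 608) (nat_lit 2309411349) (nat_lit 684) (nat_lit 53845844) (nat_lit 740) (nat_lit 5) (nat_lit 748) (nat_lit 5) (nat_lit 749) (nat_lit 5) (nat_lit 536) (nat_lit 519) (nat_lit 505)))) (XT.nd (nat_lit 156) (nat_lit 836) (nat_lit 0) (XT.nd (nat_lit 78) (nat_lit 0) (nat_lit 0) (XT.lf (nat_lit 0) (nat_lit 1455917422) (nat_lit 684) (nat_lit 1311980612) (nat_lit 760) (nat_lit 3847503959) (nat_lit 730) (nat_lit 5) (nat_lit 739) (nat_lit 5) (nat_lit 740) (nat_lit 5) (nat_lit 537) (nat_lit 519) (nat_lit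 504)) (XT.lf (nat_lit 0) (nat_lit 5338639017) (nat_lit 684) (nat_lit 255685486) (nat_lit 760) (nat_lit 1042764794) (nat_lit 730) (nat_lit 5) (nat_lit 739) (nat_lit 5) (nat_lit 740) (nat_lit 5) (nat_lit 538) (nat_lit 519) (nat_lit 503))) (XT.nd (nat_lit 78) (nat_lit 0) (nat_lit 0) (XT.lf (nat_lit 0) (nat_lit 1750869654) (nat_lit 836) (nat_lit 4047813357) (nat_lit 76) (nat_lit 861164582) (nat_lit 719) (nat_lit 5) (nat_lit 730) (nat_lit 5) (nat_lit 720) (nat_lit 5) (nat_lit 539) (nat_lit 519) (nat_lit 502)) (XT.lf (nat_lit 0) (nat_lit 4532016399) (nat_lit 836) (nat_lit 118883124) (nat_lit 76) (nat_lit 2033117732) (nat_lit 719) (nat_lit 5) (nat_lit 730) (nat_lit 5) (nat_lit 720) (nat_lit 5) (nat_lit 540) (nat_lit 519) (nat_lit 501))))))))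
noncomputable def xc70 : XT := (XT.nd (nat_lit 2262) (nat_lit 13528) (nat_lit 0) (XT.nd (nat_lit 1092) (nat_lit 13300) (nat_lit 0) (XT.nd (nat_lit 546) (nat_lit 5548) (nat_lit 0) (XT.nd (nat_lit 234) (nat_lit 3344) (nat_lit 0) (XT.nd (nat_lit 78) (nat_lit 912) (nat_lit 0) (XT.lf (nat_lit 0) (nat_lit 612884058) (nat_lit 912) (nat_lit 2818539660) (nat_lit 76) (nat_lit 3277938220) (nat_lit 707) (nat_lit 5) (nat_lit 719) (nat_lit 5) (nat_lit 708) (nat_lit 5) (nat_lit 541) (nat_lit 519) (nat_lit 500)) (XT.nd (nat_lit 78) (nat_lit 0) (nat_lit 0) (XT.lf (nat_lit 0) (nat_lit 1203338045) (nat_lit 912) (nat_lit 2146490837) (nat_lit 988) (nat_lit 3386194336) (nat_lit 695) (nat_lit 5) (nat_lit 707) (nat_lit 5) (nat_lit 708) (nat_lit 5) (nat_lit 542) (nat_lit 519) (nat_lit 499)) (XT.lf (nat_lit 0) (nat_lit 5298834802) (nat_lit 912) (nat_lit 799470578) (nat_lit 988) (nat_lit 665782122) (nat_lit 695) (nat_lit 5) (nat_lit 707) (nat_lit 5) (nat_lit 708) (nat_lit 5) (nat_lit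 543) (nat_lit 519) (nat_lit 498)))) (XT.nd (nat_lit 156) (nat_lit 1216) (nat_lit 0) (XT.nd (nat_lit 78) (nat_lit 1064) (nat_lit 0) (XT.lf (nat_lit 0) (nat_lit 2041376164) (nat_lit 1064) (nat_lit 4137610260) (nat_lit 76) (nat_lit 614258235) (nat_lit 681) (nat_lit 5) (nat_lit 695) (nat_lit 5) (nat_lit 682) (nat_lit 5) (nat_lit 544) (nat_lit 519) (nat_lit 497)) (XT.lf (nat_lit 0) (nat_lit 265946) (nat_lit 1064) (nat_lit 4748401661) (nat_lit 1140) (nat_lit 2075136548) (nat_lit 667) (nat_lit 5) (nat_lit 681) (nat_lit 5) (nat_lit 682) (nat_lit 5) (nat_lit 545) (nat_lit 519) (nat_lit 496))) (XT.nd (nat_lit 78) (nat_lit 1140) (nat_lit 0) (XT.lf (nat_lit 0) (nat_lit 614676955) (nat_lit 1140) (nat_lit 2628349903) (nat_lit 76) (nat_lit 3612505234) (nat_lit 666) (nat_lit 5) (nat_lit 681) (nat_lit 5) (nat_lit 667) (nat_lit 5) (nat_lit 546) (nat_lit 519) (nat_lit 495)) (XT.lf (nat_lit 0) (nat_lit 1612581161) (nat_lit 1140) (nat_lit 1669777807) (nat_lit 1216) (nat_lit 3606229126)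 (nat_lit 651) (nat_lit 5) (nat_lit 666) (nat_lit 5) (nat_lit 667) (nat_lit 5) (nat_lit 547) (nat_lit 519) (nat_lit 494))))) (XT.nd (nat_lit 234) (nat_lit 2964) (nat_lit 0) (XT.nd (nat_lit 78) (nat_lit 2584) (nat_lit 0) (XT.lf (nat_lit 0) (nat_lit 5928690934) (nat_lit 1140) (nat_lit 34559543) (nat_lit 1216) (nat_lit 959862526) (nat_lit 651) (nat_lit 5) (nat_lit 666) (nat_lit 5) (nat_lit 667) (nat_lit 5) (nat_lit 548) (nat_lit 519) (nat_lit 493)) (XT.nd (nat_lit 78) (nat_lit 1292) (nat_lit 0) (XT.lf (nat_lit 0) (nat_lit 1692309241) (nat_lit 1292) (nat_lit 3609282071) (nat_lit 76) (nat_lit 1657002126) (nat_lit 634) (nat_lit 5) (nat_lit 651) (nat_lit 5) (nat_lit 635) (nat_lit 5) (nat_lit 549) (nat_lit 519) (nat_lit 492)) (XT.lf (nat_lit 0) (nat_lit 755985958) (nat_lit 1292) (nat_lit 3584424548) (nat_lit 1368) (nat_lit 2655135932) (nat_lit 617) (nat_lit 5) (nat_lit 634) (nat_lit 5) (nat_lit 635) (nat_lit 5) (nat_lit 550) (nat_lit 519) (nat_lit 491)))) (XT.nd (nat_lit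 156) (nat_lit 1520) (nat_lit 0) (XT.nd (nat_lit 78) (nat_lit 1444) (nat_lit 0) (XT.lf (nat_lit 0) (nat_lit 5211738797) (nat_lit 1292) (nat_lit 1798630808) (nat_lit 1368) (nat_lit 23495511) (nat_lit 617) (nat_lit 5) (nat_lit 634) (nat_lit 5) (nat_lit 635) (nat_lit 5) (nat_lit 551) (nat_lit 519) (nat_lit 490)) (XT.lf (nat_lit 0) (nat_lit 2588955825) (nat_lit 1444) (nat_lit 4418160244) (nat_lit 76) (nat_lit 66231449) (nat_lit 598) (nat_lit 5) (nat_lit 617) (nat_lit 5) (nat_lit 599) (nat_lit 5) (nat_lit 552) (nat_lit 519) (nat_lit 489))) (XT.nd (nat_lit 78) (nat_lit 76) (nat_lit 0) (XT.lf (nat_lit 0) (nat_lit 75802853) (nat_lit 1444) (nat_lit 5148480052) (nat_lit 1520) (nat_lit 1889919000) (nat_lit 579) (nat_lit 5) (nat_lit 598) (nat_lit 5) (nat_lit 599) (nat_lit 5) (nat_lit 553) (nat_lit 519) (nat_lit 488)) (XT.lf (nat_lit 0) (nat_lit 722995513) (nat_lit 1520) (nat_lit 2487676376) (nat_lit 76) (nat_lit 3945577905) (nat_lit 578) (nat_lit 5) (nat_lit 598) (nat_lit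 5) (nat_lit 579) (nat_lit 5) (nat_lit 554) (nat_lit 519) (nat_lit 487)))))) (XT.nd (nat_lit 546) (nat_lit 4788) (nat_lit 0) (XT.nd (nat_lit 234) (nat_lit 5320) (nat_lit 0) (XT.nd (nat_lit 78) (nat_lit 1672) (nat_lit 0) (XT.lf (nat_lit 0) (nat_lit 2123489962) (nat_lit 1520) (nat_lit 1200858325) (nat_lit 1596) (nat_lit 3875314811) (nat_lit 558) (nat_lit 5) (nat_lit 578) (nat_lit 5) (nat_lit 579) (nat_lit 5) (nat_lit 555) (nat_lit 519) (nat_lit 486)) (XT.nd (nat_lit 78) (nat_lit 1672) (nat_lit 0) (XT.lf (nat_lit 0) (nat_lit 5948489567) (nat_lit 1596) (nat_lit 435311337) (nat_lit 76) (nat_lit 860732480) (nat_lit 558) (nat_lit 5) (nat_lit 579) (nat_lit 5) (nat_lit 559) (nat_lit 5) (nat_lit 556) (nat_lit 519) (nat_lit 485)) (XT.lf (nat_lit 0) (nat_lit 1302538313) (nat_lit 1672) (nat_lit 2998105644) (nat_lit 76) (nat_lit 2989782941) (nat_lit 536) (nat_lit 5) (nat_lit 558) (nat_lit 5) (nat_lit 537) (nat_lit 5) (nat_lit 557) (nat_lit 519) (nat_lit 484)))) (XT.nd (nat_lit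 156) (nat_lit 3648) (nat_lit 0) (XT.nd (nat_lit 78) (nat_lit 0) (nat_lit 0) (XT.lf (nat_lit 0) (nat_lit 1751463966) (nat_lit 1672) (nat_lit 2148419467) (nat_lit 1748) (nat_lit 3437904322) (nat_lit 514) (nat_lit 5) (nat_lit 536) (nat_lit 5) (nat_lit 537) (nat_lit 5) (nat_lit 558) (nat_lit 519) (nat_lit 483)) (XT.lf (nat_lit 0) (nat_lit 6520258960) (nat_lit 1748) (nat_lit 796311465) (nat_lit 76) (nat_lit 70107380) (nat_lit 514) (nat_lit 5) (nat_lit 537) (nat_lit 5) (nat_lit 515) (nat_lit 5) (nat_lit 559) (nat_lit 519) (nat_lit 482))) (XT.nd (nat_lit 78) (nat_lit 1824) (nat_lit 0) (XT.lf (nat_lit 0) (nat_lit 1725638694) (nat_lit 1824) (nat_lit 3365163515) (nat_lit 76) (nat_lit 2345675280) (nat_lit 490) (nat_lit 5) (nat_lit 514) (nat_lit 5) (nat_lit 491) (nat_lit 5) (nat_lit 560) (nat_lit 519) (nat_lit 481)) (XT.lf (nat_lit 0) (nat_lit 1527916938) (nat_lit 1824) (nat_lit 2797161001) (nat_lit 1900) (nat_lit 3162741284) (nat_lit 466) (nat_lit 5) (nat_lit 490) (nat_lit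 5) (nat_lit 491) (nat_lit 5) (nat_lit 561) (nat_lit 519) (nat_lit 480))))) (XT.nd (nat_lit 312) (nat_lit 2736) (nat_lit 0) (XT.nd (nat_lit 156) (nat_lit 912) (nat_lit 0) (XT.nd (nat_lit 78) (nat_lit 1140) (nat_lit 0) (XT.lf (nat_lit 0) (nat_lit 6518510530) (nat_lit 1824) (nat_lit 433055255) (nat_lit 1900) (nat_lit 589124178) (nat_lit 466) (nat_lit 5) (nat_lit 490) (nat_lit 5) (nat_lit 491) (nat_lit 5) (nat_lit 562) (nat_lit 519) (nat_lit 479)) (XT.lf (nat_lit 0) (nat_lit 2001495716) (nat_lit 1140) (nat_lit 3599932321) (nat_lit 76) (nat_lit 1993084290) (nat_lit 451) (nat_lit 5) (nat_lit 466) (nat_lit 5) (nat_lit 452) (nat_lit 5) (nat_lit 563) (nat_lit 519) (nat_lit 478))) (XT.nd (nat_lit 78) (nat_lit 0) (nat_lit 0) (XT.lf (nat_lit 0) (nat_lit 1442030935) (nat_lit 912) (nat_lit 3166879926) (nat_lit 988) (nat_lit 3040968145) (nat_lit 439) (nat_lit 5) (nat_lit 451) (nat_lit 5) (nat_lit 452) (nat_lit 5) (nat_lit 564) (nat_lit 519) (nat_lit 477)) (XT.lf (nat_lit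 0) (nat_lit 6587612916) (nat_lit 912) (nat_lit 659355860) (nat_lit 988) (nat_lit 459817463) (nat_lit 439) (nat_lit 5) (nat_lit 451) (nat_lit 5) (nat_lit 452) (nat_lit 5) (nat_lit 565) (nat_lit 519) (nat_lit 476)))) (XT.nd (nat_lit 156) (nat_lit 912) (nat_lit 0) (XT.nd (nat_lit 78) (nat_lit 836) (nat_lit 0) (XT.lf (nat_lit 0) (nat_lit 2138370647) (nat_lit 988) (nat_lit 3712756556) (nat_lit 76) (nat_lit 1913546975) (nat_lit 426) (nat_lit 5) (nat_lit 439) (nat_lit 5) (nat_lit 427) (nat_lit 5) (nat_lit 566) (nat_lit 519) (nat_lit 475)) (XT.lf (nat_lit 0) (nat_lit 1483725472) (nat_lit 836) (nat_lit 3275721338) (nat_lit 912) (nat_lit 3064673586) (nat_lit 415) (nat_lit 5) (nat_lit 426) (nat_lit 5) (nat_lit 427) (nat_lit 5) (nat_lit 567) (nat_lit 519) (nat_lit 474))) (XT.nd (nat_lit 78) (nat_lit 912) (nat_lit 0) (XT.lf (nat_lit 0) (nat_lit 6788465388) (nat_lit 836) (nat_lit 625482833) (nat_lit 912) (nat_lit 471190116) (nat_lit 415) (nat_lit 5) (nat_lit 426) (nat_lit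 5) (nat_lit 427) (nat_lit 5) (nat_lit 568) (nat_lit 519) (nat_lit 473)) (XT.lf (nat_lit 0) (nat_lit 2143641735) (nat_lit 912) (nat_lit 3713320712) (nat_lit 76) (nat_lit 2090174765) (nat_lit 403) (nat_lit 5) (nat_lit 415) (nat_lit 5) (nat_lit 404) (nat_lit 5) (nat_lit 569) (nat_lit 519) (nat_lit 472))))))) (XT.nd (nat_lit 1092) (nat_lit 5928) (nat_lit 0) (XT.nd (nat_lit 546) (nat_lit 3572) (nat_lit 0) (XT.nd (nat_lit 234) (nat_lit 2280) (nat_lit 0) (XT.nd (nat_lit 78) (nat_lit 912) (nat_lit 0) (XT.lf (nat_lit 0) (nat_lit 1643579999) (nat_lit 836) (nat_lit 3140308966) (nat_lit 912) (nat_lit 3226838957) (nat_lit 392) (nat_lit 5) (nat_lit 403) (nat_lit 5) (nat_lit 404) (nat_lit 5) (nat_lit 570) (nat_lit 519) (nat_lit 471)) (XT.nd (nat_lit 78) (nat_lit 912) (nat_lit 0) (XT.lf (nat_lit 0) (nat_lit 7112040898) (nat_lit 836) (nat_lit 347560294) (nat_lit 912) (nat_lit 616338709) (nat_lit 392) (nat_lit 5) (nat_lit 403) (nat_lit 5) (nat_lit 404) (nat_lit 5) (nat_lit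 571) (nat_lit 519) (nat_lit 470)) (XT.lf (nat_lit 0) (nat_lit 2023853283) (nat_lit 912) (nat_lit 3610723727) (nat_lit 76) (nat_lit 2507529527) (nat_lit 380) (nat_lit 5) (nat_lit 392) (nat_lit 5) (nat_lit 381) (nat_lit 5) (nat_lit 572) (nat_lit 519) (nat_lit 469)))) (XT.nd (nat_lit 156) (nat_lit 1520) (nat_lit 0) (XT.nd (nat_lit 78) (nat_lit 0) (nat_lit 0) (XT.lf (nat_lit 0) (nat_lit 1912759688) (nat_lit 760) (nat_lit 2775866793) (nat_lit 836) (nat_lit 3521290444) (nat_lit 370) (nat_lit 5) (nat_lit 380) (nat_lit 5) (nat_lit 381) (nat_lit 5) (nat_lit 573) (nat_lit 519) (nat_lit 468)) (XT.lf (nat_lit 0) (nat_lit 7391263223) (nat_lit 836) (nat_lit 730561074) (nat_lit 76) (nat_lit 157570316) (nat_lit 370) (nat_lit 5) (nat_lit 381) (nat_lit 5) (nat_lit 371) (nat_lit 5) (nat_lit 574) (nat_lit 519) (nat_lit 467))) (XT.nd (nat_lit 78) (nat_lit 684) (nat_lit 0) (XT.lf (nat_lit 0) (nat_lit 1784759314) (nat_lit 836) (nat_lit 3413550585) (nat_lit 76) (nat_lit 3151507967)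 (nat_lit 359) (nat_lit 5) (nat_lit 370) (nat_lit 5) (nat_lit 360) (nat_lit 5) (nat_lit 575) (nat_lit 519) (nat_lit 466)) (XT.lf (nat_lit 0) (nat_lit 2282944001) (nat_lit 684) (nat_lit 2196332588) (nat_lit 760) (nat_lit 3942656678) (nat_lit 350) (nat_lit 5) (nat_lit 359) (nat_lit 5) (nat_lit 360) (nat_lit 5) (nat_lit 576) (nat_lit 519) (nat_lit 465))))) (XT.nd (nat_lit 234) (nat_lit 2052) (nat_lit 0) (XT.nd (nat_lit 78) (nat_lit 1520) (nat_lit 0) (XT.lf (nat_lit 0) (nat_lit 7217097224) (nat_lit 760) (nat_lit 407475630) (nat_lit 76) (nat_lit 871132128) (nat_lit 350) (nat_lit 5) (nat_lit 360) (nat_lit 5) (nat_lit 351) (nat_lit 5) (nat_lit 577) (nat_lit 519) (nat_lit 464)) (XT.nd (nat_lit 78) (nat_lit 684) (nat_lit 0) (XT.lf (nat_lit 0) (nat_lit 1431362062) (nat_lit 836) (nat_lit 3129941605) (nat_lit 76) (nat_lit 4009233640) (nat_lit 339) (nat_lit 5) (nat_lit 350) (nat_lit 5) (nat_lit 340) (nat_lit 5) (nat_lit 578) (nat_lit 519) (nat_lit 463)) (XT.lf (nat_lit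 0) (nat_lit 2746257500) (nat_lit 684) (nat_lit 1414464103) (nat_lit 760) (nat_lit 4486331561) (nat_lit 330) (nat_lit 5) (nat_lit 339) (nat_lit 5) (nat_lit 340) (nat_lit 5) (nat_lit 579) (nat_lit 519) (nat_lit 462)))) (XT.nd (nat_lit 156) (nat_lit 1292) (nat_lit 0) (XT.nd (nat_lit 78) (nat_lit 760) (nat_lit 0) (XT.lf (nat_lit 0) (nat_lit 6939587161) (nat_lit 760) (nat_lit 91757) (nat_lit 76) (nat_lit 1785524136) (nat_lit 330) (nat_lit 5) (nat_lit 340) (nat_lit 5) (nat_lit 331) (nat_lit 5) (nat_lit 580) (nat_lit 519) (nat_lit 461)) (XT.lf (nat_lit 0) (nat_lit 967945518) (nat_lit 760) (nat_lit 2767659914) (nat_lit 76) (nat_lit 5068955851) (nat_lit 320) (nat_lit 5) (nat_lit 330) (nat_lit 5) (nat_lit 321) (nat_lit 5) (nat_lit 581) (nat_lit 519) (nat_lit 460))) (XT.nd (nat_lit 78) (nat_lit 684) (nat_lit 0) (XT.lf (nat_lit 0) (nat_lit 3295202379) (nat_lit 608) (nat_lit 441938671) (nat_lit 684) (nat_lit 5148442093) (nat_lit 312) (nat_lit 5) (nat_lit 320) (nat_lit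 5) (nat_lit 321) (nat_lit 5) (nat_lit 582) (nat_lit 519) (nat_lit 459)) (XT.lf (nat_lit 0) (nat_lit 490656052) (nat_lit 684) (nat_lit 6075320123) (nat_lit 760) (nat_lit 2402166086) (nat_lit 303) (nat_lit 5) (nat_lit 312) (nat_lit 5) (nat_lit 313) (nat_lit 5) (nat_lit 583) (nat_lit 519) (nat_lit 458)))))) (XT.nd (nat_lit 546) (nat_lit 3344) (nat_lit 0) (XT.nd (nat_lit 234) (nat_lit 1292) (nat_lit 0) (XT.nd (nat_lit 78) (nat_lit 1216) (nat_lit 0) (XT.lf (nat_lit 0) (nat_lit 398104196) (nat_lit 760) (nat_lit 2334157638) (nat_lit 76) (nat_lit 6319954727) (nat_lit 302) (nat_lit 5) (nat_lit 312) (nat_lit 5) (nat_lit 303) (nat_lit 5) (nat_lit 584) (nat_lit 519) (nat_lit 457)) (XT.nd (nat_lit 78) (nat_lit 608) (nat_lit 0) (XT.lf (nat_lit 0) (nat_lit 3216652475) (nat_lit 684) (nat_lit 5219881294) (nat_lit 76) (nat_lit 701234083) (nat_lit 294) (nat_lit 5) (nat_lit 303) (nat_lit 5) (nat_lit 295) (nat_lit 5) (nat_lit 585) (nat_lit 519) (nat_lit 456)) (XT.lf (nat_lit 0)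 (nat_lit 1052163612) (nat_lit 608) (nat_lit 5044775313) (nat_lit 684) (nat_lit 3127985685) (nat_lit 286) (nat_lit 5) (nat_lit 294) (nat_lit 5) (nat_lit 295) (nat_lit 5) (nat_lit 586) (nat_lit 519) (nat_lit 455)))) (XT.nd (nat_lit 156) (nat_lit 608) (nat_lit 0) (XT.nd (nat_lit 78) (nat_lit 684) (nat_lit 0) (XT.lf (nat_lit 0) (nat_lit 7475372138) (nat_lit 608) (nat_lit 1559561643) (nat_lit 684) (nat_lit 278890422) (nat_lit 286) (nat_lit 5) (nat_lit 294) (nat_lit 5) (nat_lit 295) (nat_lit 5) (nat_lit 587) (nat_lit 519) (nat_lit 454)) (XT.lf (nat_lit 0) (nat_lit 2601468364) (nat_lit 684) (nat_lit 4795966244) (nat_lit 76) (nat_lit 2006552960) (nat_lit 277) (nat_lit 5) (nat_lit 286) (nat_lit 5) (nat_lit 278) (nat_lit 5) (nat_lit 588) (nat_lit 519) (nat_lit 453))) (XT.nd (nat_lit 78) (nat_lit 0) (nat_lit 0) (XT.lf (nat_lit 0) (nat_lit 1677446354) (nat_lit 608) (nat_lit 3857747671) (nat_lit 684) (nat_lit 3960735078) (nat_lit 269) (nat_lit 5) (nat_lit 277) (nat_lit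 5) (nat_lit 278) (nat_lit 5) (nat_lit 589) (nat_lit 519) (nat_lit 452)) (XT.lf (nat_lit 0) (nat_lit 8300699213) (nat_lit 608) (nat_lit 225310729) (nat_lit 684) (nat_lit 1063732830) (nat_lit 269) (nat_lit 5) (nat_lit 277) (nat_lit 5) (nat_lit 278) (nat_lit 5) (nat_lit 590) (nat_lit 519) (nat_lit 451))))) (XT.nd (nat_lit 312) (nat_lit 1596) (nat_lit 0) (XT.nd (nat_lit 156) (nat_lit 608) (nat_lit 0) (XT.nd (nat_lit 78) (nat_lit 532) (nat_lit 0) (XT.lf (nat_lit 0) (nat_lit 1890878524) (nat_lit 608) (nat_lit 4322866619) (nat_lit 76) (nat_lit 3470954094) (nat_lit 261) (nat_lit 5) (nat_lit 269) (nat_lit 5) (nat_lit 262) (nat_lit 5) (nat_lit 591) (nat_lit 519) (nat_lit 450)) (XT.lf (nat_lit 0) (nat_lit 2359664795) (nat_lit 532) (nat_lit 2523178079) (nat_lit 608) (nat_lit 4898722774) (nat_lit 254) (nat_lit 5) (nat_lit 261) (nat_lit 5) (nat_lit 262) (nat_lit 5) (nat_lit 592) (nat_lit 519) (nat_lit 449))) (XT.nd (nat_lit 78) (nat_lit 608) (nat_lit 0) (XT.lf (nat_lit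 0) (nat_lit 7939162397) (nat_lit 608) (nat_lit 698389145) (nat_lit 76) (nat_lit 1242729023) (nat_lit 254) (nat_lit 5) (nat_lit 262) (nat_lit 5) (nat_lit 255) (nat_lit 5) (nat_lit 593) (nat_lit 519) (nat_lit 448)) (XT.lf (nat_lit 0) (nat_lit 1086426660) (nat_lit 608) (nat_lit 3807604301) (nat_lit 76) (nat_lit 5086302674) (nat_lit 246) (nat_lit 5) (nat_lit 254) (nat_lit 5) (nat_lit 247) (nat_lit 5) (nat_lit 594) (nat_lit 519) (nat_lit 447)))) (XT.nd (nat_lit 156) (nat_lit 1064) (nat_lit 0) (XT.nd (nat_lit 78) (nat_lit 0) (nat_lit 0) (XT.lf (nat_lit 0) (nat_lit 3092057186) (nat_lit 532) (nat_lit 1049324078) (nat_lit 608) (nat_lit 5940894287) (nat_lit 239) (nat_lit 5) (nat_lit 246) (nat_lit 5) (nat_lit 247) (nat_lit 5) (nat_lit 595) (nat_lit 519) (nat_lit 446)) (XT.lf (nat_lit 0) (nat_lit 7270100662) (nat_lit 608) (nat_lit 67556053) (nat_lit 76) (nat_lit 2848347657) (nat_lit 239) (nat_lit 5) (nat_lit 247) (nat_lit 5) (nat_lit 240) (nat_lit 5) (nat_lit 596) (nat_lit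 519) (nat_lit 445))) (XT.nd (nat_lit 78) (nat_lit 532) (nat_lit 0) (XT.lf (nat_lit 0) (nat_lit 189050096) (nat_lit 532) (nat_lit 3257189486) (nat_lit 76) (nat_lit 6845113743) (nat_lit 232) (nat_lit 5) (nat_lit 239) (nat_lit 5) (nat_lit 233) (nat_lit 5) (nat_lit 597) (nat_lit 519) (nat_lit 444)) (XT.lf (nat_lit 0) (nat_lit 3315318247) (nat_lit 608) (nat_lit 6534270904) (nat_lit 76) (nat_lit 548870741) (nat_lit 225) (nat_lit 5) (nat_lit 233) (nat_lit 5) (nat_lit 226) (nat_lit 5) (nat_lit 598) (nat_lit 519) (nat_lit 443))))))))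
noncomputable def xc71 : XT := (XT.nd (nat_lit 2262) (nat_lit 3572) (nat_lit 0) (XT.nd (nat_lit 1092) (nat_lit 4104) (nat_lit 0) (XT.nd (nat_lit 546) (nat_lit 1748) (nat_lit 0) (XT.nd (nat_lit 234) (nat_lit 1368) (nat_lit 0) (XT.nd (nat_lit 78) (nat_lit 532) (nat_lit 0) (XT.lf (nat_lit 0) (nat_lit 606035650) (nat_lit 456) (nat_lit 5916122245) (nat_lit 532) (nat_lit 3985191048) (nat_lit 219) (nat_lit 5) (nat_lit 225) (nat_lit 5) (nat_lit 226) (nat_lit 5) (nat_lit 599) (nat_lit 519) (nat_lit 442)) (XT.nd (nat_lit 78) (nat_lit 532) (nat_lit 0) (XT.lf (nat_lit 0) (nat_lit 7934189653) (nat_lit 456) (nat_lit 1872399030) (nat_lit 532) (nat_lit 811559256) (nat_lit 219) (nat_lit 5) (nat_lit 225) (nat_lit 5) (nat_lit 226) (nat_lit 5) (nat_lit 600) (nat_lit 519) (nat_lit 441)) (XT.lf (nat_lit 0) (nat_lit 2408968050) (nat_lit 532) (nat_lit 6065384861) (nat_lit 76) (nat_lit 2256191555) (nat_lit 212) (nat_lit 5) (nat_lit 219) (nat_lit 5) (nat_lit 213) (nat_lit 5) (nat_lit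 601) (nat_lit 519) (nat_lit 440)))) (XT.nd (nat_lit 156) (nat_lit 912) (nat_lit 0) (XT.nd (nat_lit 78) (nat_lit 0) (nat_lit 0) (XT.lf (nat_lit 0) (nat_lit 1308778853) (nat_lit 456) (nat_lit 4383526497) (nat_lit 532) (nat_lit 5152592139) (nat_lit 206) (nat_lit 5) (nat_lit 212) (nat_lit 5) (nat_lit 213) (nat_lit 5) (nat_lit 602) (nat_lit 519) (nat_lit 439)) (XT.lf (nat_lit 0) (nat_lit 8869623543) (nat_lit 456) (nat_lit 182920782) (nat_lit 532) (nat_lit 1908769706) (nat_lit 206) (nat_lit 5) (nat_lit 212) (nat_lit 5) (nat_lit 213) (nat_lit 5) (nat_lit 603) (nat_lit 519) (nat_lit 438))) (XT.nd (nat_lit 78) (nat_lit 380) (nat_lit 0) (XT.lf (nat_lit 0) (nat_lit 1415183330) (nat_lit 532) (nat_lit 5584183827) (nat_lit 76) (nat_lit 4079838781) (nat_lit 199) (nat_lit 5) (nat_lit 206) (nat_lit 5) (nat_lit 200) (nat_lit 5) (nat_lit 604) (nat_lit 519) (nat_lit 437)) (XT.lf (nat_lit 0) (nat_lit 2032586562) (nat_lit 380) (nat_lit 2747158327) (nat_lit 456) (nat_lit 6419465787)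 (nat_lit 194) (nat_lit 5) (nat_lit 199) (nat_lit 5) (nat_lit 200) (nat_lit 5) (nat_lit 605) (nat_lit 519) (nat_lit 436))))) (XT.nd (nat_lit 234) (nat_lit 836) (nat_lit 0) (XT.nd (nat_lit 78) (nat_lit 912) (nat_lit 0) (XT.lf (nat_lit 0) (nat_lit 8230968967) (nat_lit 456) (nat_lit 1497025138) (nat_lit 76) (nat_lit 1593235047) (nat_lit 194) (nat_lit 5) (nat_lit 200) (nat_lit 5) (nat_lit 195) (nat_lit 5) (nat_lit 606) (nat_lit 519) (nat_lit 435)) (XT.nd (nat_lit 78) (nat_lit 380) (nat_lit 0) (XT.lf (nat_lit 0) (nat_lit 333031737) (nat_lit 532) (nat_lit 5098345972) (nat_lit 76) (nat_lit 6013641454) (nat_lit 187) (nat_lit 5) (nat_lit 194) (nat_lit 5) (nat_lit 188) (nat_lit 5) (nat_lit 607) (nat_lit 519) (nat_lit 434)) (XT.lf (nat_lit 0) (nat_lit 2770023593) (nat_lit 380) (nat_lit 1013505900) (nat_lit 456) (nat_lit 7787345583) (nat_lit 182) (nat_lit 5) (nat_lit 187) (nat_lit 5) (nat_lit 188) (nat_lit 5) (nat_lit 608) (nat_lit 519) (nat_lit 433)))) (XT.nd (nat_lit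 156) (nat_lit 456) (nat_lit 0) (XT.nd (nat_lit 78) (nat_lit 380) (nat_lit 0) (XT.lf (nat_lit 0) (nat_lit 7332320885) (nat_lit 456) (nat_lit 899011187) (nat_lit 76) (nat_lit 3467331348) (nat_lit 182) (nat_lit 5) (nat_lit 188) (nat_lit 5) (nat_lit 183) (nat_lit 5) (nat_lit 609) (nat_lit 519) (nat_lit 432)) (XT.lf (nat_lit 0) (nat_lit 7207094280) (nat_lit 380) (nat_lit 3771212203) (nat_lit 456) (nat_lit 850177650) (nat_lit 177) (nat_lit 5) (nat_lit 182) (nat_lit 5) (nat_lit 183) (nat_lit 5) (nat_lit 610) (nat_lit 519) (nat_lit 431))) (XT.nd (nat_lit 78) (nat_lit 0) (nat_lit 0) (XT.lf (nat_lit 0) (nat_lit 2707374109) (nat_lit 456) (nat_lit 8452451398) (nat_lit 76) (nat_lit 800582346) (nat_lit 171) (nat_lit 5) (nat_lit 177) (nat_lit 5) (nat_lit 172) (nat_lit 5) (nat_lit 611) (nat_lit 519) (nat_lit 430)) (XT.lf (nat_lit 0) (nat_lit 6353866719) (nat_lit 456) (nat_lit 304468993) (nat_lit 76) (nat_lit 5435939380) (nat_lit 171) (nat_lit 5) (nat_lit 177) (nat_lit 5)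 (nat_lit 172) (nat_lit 5) (nat_lit 612) (nat_lit 519) (nat_lit 429)))))) (XT.nd (nat_lit 546) (nat_lit 2128) (nat_lit 0) (XT.nd (nat_lit 234) (nat_lit 760) (nat_lit 0) (XT.nd (nat_lit 78) (nat_lit 836) (nat_lit 0) (XT.lf (nat_lit 0) (nat_lit 8071307730) (nat_lit 380) (nat_lit 2027886521) (nat_lit 456) (nat_lit 2131108217) (nat_lit 166) (nat_lit 5) (nat_lit 171) (nat_lit 5) (nat_lit 172) (nat_lit 5) (nat_lit 613) (nat_lit 519) (nat_lit 428)) (XT.nd (nat_lit 78) (nat_lit 380) (nat_lit 0) (XT.lf (nat_lit 0) (nat_lit 1550970896) (nat_lit 456) (nat_lit 8132121182) (nat_lit 76) (nat_lit 2685339320) (nat_lit 160) (nat_lit 5) (nat_lit 166) (nat_lit 5) (nat_lit 161) (nat_lit 5) (nat_lit 614) (nat_lit 519) (nat_lit 427)) (XT.lf (nat_lit 0) (nat_lit 281838777) (nat_lit 380) (nat_lit 5013436206) (nat_lit 456) (nat_lit 7213424656) (nat_lit 155) (nat_lit 5) (nat_lit 160) (nat_lit 5) (nat_lit 161) (nat_lit 5) (nat_lit 615) (nat_lit 519) (nat_lit 426)))) (XT.nd (nat_lit 156)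 (nat_lit 380) (nat_lit 0) (XT.nd (nat_lit 78) (nat_lit 380) (nat_lit 0) (XT.lf (nat_lit 0) (nat_lit 8933319883) (nat_lit 380) (nat_lit 209703655) (nat_lit 456) (nat_lit 3508179364) (nat_lit 155) (nat_lit 5) (nat_lit 160) (nat_lit 5) (nat_lit 161) (nat_lit 5) (nat_lit 616) (nat_lit 519) (nat_lit 425)) (XT.lf (nat_lit 0) (nat_lit 304884825) (nat_lit 380) (nat_lit 7842613634) (nat_lit 76) (nat_lit 4648277944) (nat_lit 150) (nat_lit 5) (nat_lit 155) (nat_lit 5) (nat_lit 151) (nat_lit 5) (nat_lit 617) (nat_lit 519) (nat_lit 424))) (XT.nd (nat_lit 78) (nat_lit 0) (nat_lit 0) (XT.lf (nat_lit 0) (nat_lit 850982030) (nat_lit 380) (nat_lit 3302799331) (nat_lit 456) (nat_lit 8788866098) (nat_lit 145) (nat_lit 5) (nat_lit 150) (nat_lit 5) (nat_lit 151) (nat_lit 5) (nat_lit 618) (nat_lit 519) (nat_lit 423)) (XT.lf (nat_lit 0) (nat_lit 8117886143) (nat_lit 456) (nat_lit 3318450245) (nat_lit 76) (nat_lit 1655355704) (nat_lit 145) (nat_lit 5) (nat_lit 151) (nat_lit 5) (nat_lit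 146) (nat_lit 5) (nat_lit 619) (nat_lit 519) (nat_lit 422))))) (XT.nd (nat_lit 312) (nat_lit 1064) (nat_lit 0) (XT.nd (nat_lit 156) (nat_lit 304) (nat_lit 0) (XT.nd (nat_lit 78) (nat_lit 456) (nat_lit 0) (XT.lf (nat_lit 0) (nat_lit 5642340530) (nat_lit 304) (nat_lit 6552550506) (nat_lit 380) (nat_lit 1048154968) (nat_lit 141) (nat_lit 5) (nat_lit 145) (nat_lit 5) (nat_lit 146) (nat_lit 5) (nat_lit 620) (nat_lit 519) (nat_lit 421)) (XT.lf (nat_lit 0) (nat_lit 1389143468) (nat_lit 380) (nat_lit 1534709476) (nat_lit 456) (nat_lit 10473058672) (nat_lit 135) (nat_lit 5) (nat_lit 140) (nat_lit 5) (nat_lit 141) (nat_lit 5) (nat_lit 621) (nat_lit 519) (nat_lit 420))) (XT.nd (nat_lit 78) (nat_lit 304) (nat_lit 0) (XT.lf (nat_lit 0) (nat_lit 7011194811) (nat_lit 456) (nat_lit 2961774631) (nat_lit 76) (nat_lit 3579748665) (nat_lit 135) (nat_lit 5) (nat_lit 141) (nat_lit 5) (nat_lit 136) (nat_lit 5) (nat_lit 622) (nat_lit 519) (nat_lit 419)) (XT.lf (nat_lit 0) (nat_lit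 6298151455) (nat_lit 304) (nat_lit 4908978232) (nat_lit 380) (nat_lit 2503974808) (nat_lit 131) (nat_lit 5) (nat_lit 135) (nat_lit 5) (nat_lit 136) (nat_lit 5) (nat_lit 623) (nat_lit 519) (nat_lit 418)))) (XT.nd (nat_lit 156) (nat_lit 684) (nat_lit 0) (XT.nd (nat_lit 78) (nat_lit 0) (nat_lit 0) (XT.lf (nat_lit 0) (nat_lit 1603102061) (nat_lit 380) (nat_lit 11988340052) (nat_lit 76) (nat_lit 280808545) (nat_lit 126) (nat_lit 5) (nat_lit 131) (nat_lit 5) (nat_lit 127) (nat_lit 5) (nat_lit 624) (nat_lit 519) (nat_lit 417)) (XT.lf (nat_lit 0) (nat_lit 5817378736) (nat_lit 380) (nat_lit 2657458023) (nat_lit 76) (nat_lit 5560280882) (nat_lit 126) (nat_lit 5) (nat_lit 131) (nat_lit 5) (nat_lit 127) (nat_lit 5) (nat_lit 625) (nat_lit 519) (nat_lit 416))) (XT.nd (nat_lit 78) (nat_lit 380) (nat_lit 0) (XT.lf (nat_lit 0) (nat_lit 6911861172) (nat_lit 304) (nat_lit 3225398420) (nat_lit 380) (nat_lit 4063556635) (nat_lit 122) (nat_lit 5) (nat_lit 126) (nat_lit 5) (nat_lit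 127) (nat_lit 5) (nat_lit 626) (nat_lit 519) (nat_lit 415)) (XT.lf (nat_lit 0) (nat_lit 194955154) (nat_lit 380) (nat_lit 12054029775) (nat_lit 76) (nat_lit 2120351430) (nat_lit 117) (nat_lit 5) (nat_lit 122) (nat_lit 5) (nat_lit 118) (nat_lit 5) (nat_lit 627) (nat_lit 519) (nat_lit 414))))))) (XT.nd (nat_lit 1170) (nat_lit 760) (nat_lit 0) (XT.nd (nat_lit 546) (nat_lit 1596) (nat_lit 0) (XT.nd (nat_lit 234) (nat_lit 684) (nat_lit 0) (XT.nd (nat_lit 78) (nat_lit 532) (nat_lit 0) (XT.lf (nat_lit 0) (nat_lit 4531482799) (nat_lit 380) (nat_lit 2417385860) (nat_lit 76) (nat_lit 7590876502) (nat_lit 117) (nat_lit 5) (nat_lit 122) (nat_lit 5) (nat_lit 118) (nat_lit 5) (nat_lit 628) (nat_lit 519) (nat_lit 413)) (XT.nd (nat_lit 78) (nat_lit 304) (nat_lit 0) (XT.lf (nat_lit 0) (nat_lit 7471749733) (nat_lit 228) (nat_lit 1508570344) (nat_lit 304) (nat_lit 5732731069) (nat_lit 114) (nat_lit 5) (nat_lit 117) (nat_lit 5) (nat_lit 118) (nat_lit 5) (nat_lit 629) (nat_lit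 519) (nat_lit 412)) (XT.lf (nat_lit 0) (nat_lit 2672304901) (nat_lit 304) (nat_lit 10882914299) (nat_lit 380) (nat_lit 1333862927) (nat_lit 110) (nat_lit 5) (nat_lit 114) (nat_lit 5) (nat_lit 115) (nat_lit 5) (nat_lit 630) (nat_lit 519) (nat_lit 411)))) (XT.nd (nat_lit 156) (nat_lit 380) (nat_lit 0) (XT.nd (nat_lit 78) (nat_lit 228) (nat_lit 0) (XT.lf (nat_lit 0) (nat_lit 3147757379) (nat_lit 380) (nat_lit 2254494541) (nat_lit 76) (nat_lit 9665250403) (nat_lit 109) (nat_lit 5) (nat_lit 114) (nat_lit 5) (nat_lit 110) (nat_lit 5) (nat_lit 631) (nat_lit 519) (nat_lit 410)) (XT.lf (nat_lit 0) (nat_lit 7732071062) (nat_lit 304) (nat_lit 7285223940) (nat_lit 76) (nat_lit 231401702) (nat_lit 106) (nat_lit 5) (nat_lit 110) (nat_lit 5) (nat_lit 107) (nat_lit 5) (nat_lit 632) (nat_lit 519) (nat_lit 409))) (XT.nd (nat_lit 78) (nat_lit 76) (nat_lit 0) (XT.lf (nat_lit 0) (nat_lit 2948202763) (nat_lit 304) (nat_lit 9507779662) (nat_lit 380) (nat_lit 2976574853) (nat_lit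 102) (nat_lit 5) (nat_lit 106) (nat_lit 5) (nat_lit 107) (nat_lit 5) (nat_lit 633) (nat_lit 519) (nat_lit 408)) (XT.lf (nat_lit 0) (nat_lit 1659602552) (nat_lit 380) (nat_lit 2182911798) (nat_lit 76) (nat_lit 11776825978) (nat_lit 101) (nat_lit 5) (nat_lit 106) (nat_lit 5) (nat_lit 102) (nat_lit 5) (nat_lit 634) (nat_lit 519) (nat_lit 407))))) (XT.nd (nat_lit 312) (nat_lit 760) (nat_lit 0) (XT.nd (nat_lit 156) (nat_lit 304) (nat_lit 0) (XT.nd (nat_lit 78) (nat_lit 304) (nat_lit 0) (XT.lf (nat_lit 0) (nat_lit 6394284963) (nat_lit 304) (nat_lit 7444092427) (nat_lit 76) (nat_lit 1970175893) (nat_lit 98) (nat_lit 5) (nat_lit 102) (nat_lit 5) (nat_lit 99) (nat_lit 5) (nat_lit 635) (nat_lit 519) (nat_lit 406)) (XT.lf (nat_lit 0) (nat_lit 3129483342) (nat_lit 304) (nat_lit 8133023131) (nat_lit 380) (nat_lit 4738267609) (nat_lit 94) (nat_lit 5) (nat_lit 98) (nat_lit 5) (nat_lit 99) (nat_lit 5) (nat_lit 636) (nat_lit 519) (nat_lit 405))) (XT.nd (nat_lit 78) (nat_lit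 228) (nat_lit 0) (XT.lf (nat_lit 0) (nat_lit 59504585) (nat_lit 380) (nat_lit 2218109910) (nat_lit 76) (nat_lit 13918647990) (nat_lit 93) (nat_lit 5) (nat_lit 98) (nat_lit 5) (nat_lit 94) (nat_lit 5) (nat_lit 637) (nat_lit 519) (nat_lit 404)) (XT.lf (nat_lit 0) (nat_lit 4949568712) (nat_lit 304) (nat_lit 7724462183) (nat_lit 76) (nat_lit 3719808190) (nat_lit 90) (nat_lit 5) (nat_lit 94) (nat_lit 5) (nat_lit 91) (nat_lit 5) (nat_lit 638) (nat_lit 519) (nat_lit 403)))) (XT.nd (nat_lit 156) (nat_lit 532) (nat_lit 0) (XT.nd (nat_lit 78) (nat_lit 0) (nat_lit 0) (XT.lf (nat_lit 0) (nat_lit 3199868943) (nat_lit 228) (nat_lit 6767290405) (nat_lit 304) (nat_lit 6627613819) (nat_lit 87) (nat_lit 5) (nat_lit 90) (nat_lit 5) (nat_lit 91) (nat_lit 5) (nat_lit 639) (nat_lit 519) (nat_lit 402)) (XT.lf (nat_lit 0) (nat_lit 14411107326) (nat_lit 228) (nat_lit 704890903) (nat_lit 304) (nat_lit 1683110220) (nat_lit 87) (nat_lit 5) (nat_lit 90) (nat_lit 5) (nat_lit 91) (nat_lit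 5) (nat_lit 640) (nat_lit 519) (nat_lit 401))) (XT.nd (nat_lit 78) (nat_lit 228) (nat_lit 0) (XT.lf (nat_lit 0) (nat_lit 3389320536) (nat_lit 304) (nat_lit 8144279943) (nat_lit 76) (nat_lit 5472031887) (nat_lit 83) (nat_lit 5) (nat_lit 87) (nat_lit 5) (nat_lit 84) (nat_lit 5) (nat_lit 641) (nat_lit 519) (nat_lit 400)) (XT.lf (nat_lit 0) (nat_lit 3141450525) (nat_lit 228) (nat_lit 5419840179) (nat_lit 304) (nat_lit 8654361420) (nat_lit 80) (nat_lit 5) (nat_lit 83) (nat_lit 5) (nat_lit 84) (nat_lit 5) (nat_lit 642) (nat_lit 519) (nat_lit 399)))))) (XT.nd (nat_lit 71760) (nat_lit 0) (nat_lit 53048) (XT.nd (nat_lit 234) (nat_lit 228) (nat_lit 0) (XT.nd (nat_lit 78) (nat_lit 532) (nat_lit 0) (XT.lf (nat_lit 0) (nat_lit 13876497890) (nat_lit 304) (nat_lit 2707146435) (nat_lit 76) (nat_lit 845432411) (nat_lit 80) (nat_lit 5) (nat_lit 84) (nat_lit 5) (nat_lit 81) (nat_lit 5) (nat_lit 643) (nat_lit 519) (nat_lit 398)) (XT.nd (nat_lit 78) (nat_lit 228) (nat_lit 0) (XT.lf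 (nat_lit 0) (nat_lit 1703850947) (nat_lit 304) (nat_lit 8723280087) (nat_lit 76) (nat_lit 7217939426) (nat_lit 76) (nat_lit 5) (nat_lit 80) (nat_lit 5) (nat_lit 77) (nat_lit 5) (nat_lit 644) (nat_lit 519) (nat_lit 397)) (XT.lf (nat_lit 0) (nat_lit 2934491717) (nat_lit 228) (nat_lit 4100652928) (nat_lit 304) (nat_lit 10829424067) (nat_lit 73) (nat_lit 5) (nat_lit 76) (nat_lit 5) (nat_lit 77) (nat_lit 5) (nat_lit 645) (nat_lit 519) (nat_lit 396)))) (XT.nd (nat_lit 71370) (nat_lit 0) (nat_lit 54112) (XT.nd (nat_lit 78) (nat_lit 228) (nat_lit 0) (XT.lf (nat_lit 0) (nat_lit 12527250525) (nat_lit 304) (nat_lit 3194677845) (nat_lit 76) (nat_lit 2365445213) (nat_lit 73) (nat_lit 5) (nat_lit 77) (nat_lit 5) (nat_lit 74) (nat_lit 5) (nat_lit 646) (nat_lit 519) (nat_lit 395)) (XT.lf (nat_lit 0) (nat_lit 8829369182) (nat_lit 228) (nat_lit 9364692292) (nat_lit 304) (nat_lit 119276192) (nat_lit 70) (nat_lit 5) (nat_lit 73) (nat_lit 5) (nat_lit 74) (nat_lit 5) (nat_lit 647)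 (nat_lit 519) (nat_lit 394))) (XT.nd (nat_lit 78) (nat_lit 76) (nat_lit 0) (XT.lf (nat_lit 0) (nat_lit 0) (nat_lit 0) (nat_lit 0) (nat_lit 0) (nat_lit 1073741823) (nat_lit 1) (nat_lit 0) (nat_lit 1) (nat_lit 0) (nat_lit 783) (nat_lit 0) (nat_lit 520) (nat_lit 520) (nat_lit 520)) (XT.lf (nat_lit 0) (nat_lit 3181109272) (nat_lit 76) (nat_lit 3219769031) (nat_lit 0) (nat_lit 41993469) (nat_lit 782) (nat_lit 5) (nat_lit 783) (nat_lit 0) (nat_lit 782) (nat_lit 4) (nat_lit 521) (nat_lit 520) (nat_lit 519))))) (XT.nd (nat_lit 312) (nat_lit 684) (nat_lit 0) (XT.nd (nat_lit 156) (nat_lit 228) (nat_lit 0) (XT.nd (nat_lit 78) (nat_lit 76) (nat_lit 0) (XT.lf (nat_lit 0) (nat_lit 24014729) (nat_lit 76) (nat_lit 6318818382) (nat_lit 76) (nat_lit 102138066) (nat_lit 781) (nat_lit 4) (nat_lit 782) (nat_lit 5) (nat_lit 782) (nat_lit 4) (nat_lit 522) (nat_lit 520) (nat_lit 518)) (XT.lf (nat_lit 0) (nat_lit 3019133996) (nat_lit 152) (nat_lit 3135249753) (nat_lit 76) (nat_lit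 293545542) (nat_lit 780) (nat_lit 5) (nat_lit 782) (nat_lit 5) (nat_lit 781) (nat_lit 4) (nat_lit 523) (nat_lit 520) (nat_lit 517))) (XT.nd (nat_lit 78) (nat_lit 76) (nat_lit 0) (XT.lf (nat_lit 0) (nat_lit 174167445) (nat_lit 152) (nat_lit 5947677506) (nat_lit 228) (nat_lit 330689921) (nat_lit 778) (nat_lit 5) (nat_lit 780) (nat_lit 5) (nat_lit 781) (nat_lit 4) (nat_lit 524) (nat_lit 520) (nat_lit 516)) (XT.lf (nat_lit 0) (nat_lit 2733464052) (nat_lit 228) (nat_lit 2927445736) (nat_lit 76) (nat_lit 797140551) (nat_lit 777) (nat_lit 5) (nat_lit 780) (nat_lit 5) (nat_lit 778) (nat_lit 5) (nat_lit 525) (nat_lit 520) (nat_lit 515)))) (XT.nd (nat_lit 156) (nat_lit 380) (nat_lit 0) (XT.nd (nat_lit 78) (nat_lit 76) (nat_lit 0) (XT.lf (nat_lit 0) (nat_lit 450689230) (nat_lit 228) (nat_lit 5328298344) (nat_lit 304) (nat_lit 686163420) (nat_lit 774) (nat_lit 5) (nat_lit 777) (nat_lit 5) (nat_lit 778) (nat_lit 5) (nat_lit 526) (nat_lit 520) (nat_lit 514)) (XT.lf (nat_lit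 0) (nat_lit 2323476744) (nat_lit 304) (nat_lit 2596009175) (nat_lit 76) (nat_lit 1553761022) (nat_lit 773) (nat_lit 5) (nat_lit 777) (nat_lit 5) (nat_lit 774) (nat_lit 5) (nat_lit 527) (nat_lit 520) (nat_lit 513))) (XT.nd (nat_lit 78) (nat_lit 76) (nat_lit 0) (XT.lf (nat_lit 0) (nat_lit 854057172) (nat_lit 304) (nat_lit 4459462955) (nat_lit 380) (nat_lit 1169314381) (nat_lit 769) (nat_lit 5) (nat_lit 773) (nat_lit 5) (nat_lit 774) (nat_lit 5) (nat_lit 528) (nat_lit 520) (nat_lit 512)) (XT.lf (nat_lit 0) (nat_lit 1788304558) (nat_lit 380) (nat_lit 2140349866) (nat_lit 76) (nat_lit 2564882742) (nat_lit 768) (nat_lit 5) (nat_lit 773) (nat_lit 5) (nat_lit 769) (nat_lit 5) (nat_lit 529) (nat_lit 520) (nat_lit 511))))))))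
noncomputable def xc72 : XT := (XT.nd (nat_lit 2262) (nat_lit 17328) (nat_lit 0) (XT.nd (nat_lit 1092) (nat_lit 13680) (nat_lit 0) (XT.nd (nat_lit 546) (nat_lit 3420) (nat_lit 0) (XT.nd (nat_lit 234) (nat_lit 1292) (nat_lit 0) (XT.nd (nat_lit 78) (nat_lit 532) (nat_lit 0) (XT.lf (nat_lit 0) (nat_lit 1384994878) (nat_lit 380) (nat_lit 3339463446) (nat_lit 456) (nat_lit 1781148067) (nat_lit 763) (nat_lit 5) (nat_lit 768) (nat_lit 5) (nat_lit 769) (nat_lit 5) (nat_lit 530) (nat_lit 520) (nat_lit 510)) (XT.nd (nat_lit 78) (nat_lit 456) (nat_lit 0) (XT.lf (nat_lit 0) (nat_lit 1126833478) (nat_lit 456) (nat_lit 1559634502) (nat_lit 76) (nat_lit 3832477155) (nat_lit 762) (nat_lit 5) (nat_lit 768) (nat_lit 5) (nat_lit 763) (nat_lit 5) (nat_lit 531) (nat_lit 520) (nat_lit 509)) (XT.lf (nat_lit 0) (nat_lit 2044473378) (nat_lit 456) (nat_lit 1966099192) (nat_lit 532) (nat_lit 2522921102) (nat_lit 756) (nat_lit 5) (nat_lit 762) (nat_lit 5) (nat_lit 763) (nat_lit 5) (nat_lit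 532) (nat_lit 520) (nat_lit 508)))) (XT.nd (nat_lit 156) (nat_lit 684) (nat_lit 0) (XT.nd (nat_lit 78) (nat_lit 532) (nat_lit 0) (XT.lf (nat_lit 0) (nat_lit 337700915) (nat_lit 532) (nat_lit 852785586) (nat_lit 76) (nat_lit 5359014576) (nat_lit 755) (nat_lit 5) (nat_lit 762) (nat_lit 5) (nat_lit 756) (nat_lit 5) (nat_lit 533) (nat_lit 520) (nat_lit 507)) (XT.lf (nat_lit 0) (nat_lit 2833712435) (nat_lit 532) (nat_lit 336673253) (nat_lit 608) (nat_lit 3396143774) (nat_lit 748) (nat_lit 5) (nat_lit 755) (nat_lit 5) (nat_lit 756) (nat_lit 5) (nat_lit 534) (nat_lit 520) (nat_lit 506))) (XT.nd (nat_lit 78) (nat_lit 684) (nat_lit 0) (XT.lf (nat_lit 0) (nat_lit 6000416522) (nat_lit 608) (nat_lit 25976038) (nat_lit 76) (nat_lit 558698876) (nat_lit 748) (nat_lit 5) (nat_lit 756) (nat_lit 5) (nat_lit 749) (nat_lit 5) (nat_lit 535) (nat_lit 520) (nat_lit 505)) (XT.lf (nat_lit 0) (nat_lit 2212246926) (nat_lit 684) (nat_lit 2860647451) (nat_lit 76) (nat_lit 1531657099)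 (nat_lit 739) (nat_lit 5) (nat_lit 748) (nat_lit 5) (nat_lit 740) (nat_lit 5) (nat_lit 536) (nat_lit 520) (nat_lit 504))))) (XT.nd (nat_lit 234) (nat_lit 1900) (nat_lit 0) (XT.nd (nat_lit 78) (nat_lit 836) (nat_lit 0) (XT.lf (nat_lit 0) (nat_lit 929528330) (nat_lit 684) (nat_lit 4067368643) (nat_lit 760) (nat_lit 1628640551) (nat_lit 730) (nat_lit 5) (nat_lit 739) (nat_lit 5) (nat_lit 740) (nat_lit 5) (nat_lit 537) (nat_lit 520) (nat_lit 503)) (XT.nd (nat_lit 78) (nat_lit 760) (nat_lit 0) (XT.lf (nat_lit 0) (nat_lit 1127992021) (nat_lit 760) (nat_lit 1864650802) (nat_lit 76) (nat_lit 3655086003) (nat_lit 729) (nat_lit 5) (nat_lit 739) (nat_lit 5) (nat_lit 730) (nat_lit 5) (nat_lit 538) (nat_lit 520) (nat_lit 502)) (XT.lf (nat_lit 0) (nat_lit 2015332894) (nat_lit 760) (nat_lit 1850999244) (nat_lit 836) (nat_lit 2804854961) (nat_lit 719) (nat_lit 5) (nat_lit 729) (nat_lit 5) (nat_lit 730) (nat_lit 5) (nat_lit 539) (nat_lit 520) (nat_lit 501)))) (XT.nd (nat_lit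 156) (nat_lit 988) (nat_lit 0) (XT.nd (nat_lit 78) (nat_lit 912) (nat_lit 0) (XT.lf (nat_lit 0) (nat_lit 5954831637) (nat_lit 760) (nat_lit 653384889) (nat_lit 836) (nat_lit 87928443) (nat_lit 719) (nat_lit 5) (nat_lit 729) (nat_lit 5) (nat_lit 730) (nat_lit 5) (nat_lit 540) (nat_lit 520) (nat_lit 500)) (XT.lf (nat_lit 0) (nat_lit 2610301055) (nat_lit 912) (nat_lit 3493020246) (nat_lit 76) (nat_lit 618694865) (nat_lit 707) (nat_lit 5) (nat_lit 719) (nat_lit 5) (nat_lit 708) (nat_lit 5) (nat_lit 541) (nat_lit 520) (nat_lit 499))) (XT.nd (nat_lit 78) (nat_lit 76) (nat_lit 0) (XT.lf (nat_lit 0) (nat_lit 497604586) (nat_lit 912) (nat_lit 4814450897) (nat_lit 988) (nat_lit 1437328559) (nat_lit 695) (nat_lit 5) (nat_lit 707) (nat_lit 5) (nat_lit 708) (nat_lit 5) (nat_lit 542) (nat_lit 520) (nat_lit 498)) (XT.lf (nat_lit 0) (nat_lit 1235903390) (nat_lit 988) (nat_lit 2214935997) (nat_lit 76) (nat_lit 3327052057) (nat_lit 694) (nat_lit 5) (nat_lit 707) (nat_lit 5)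 (nat_lit 695) (nat_lit 5) (nat_lit 543) (nat_lit 520) (nat_lit 497)))))) (XT.nd (nat_lit 546) (nat_lit 9120) (nat_lit 0) (XT.nd (nat_lit 234) (nat_lit 2432) (nat_lit 0) (XT.nd (nat_lit 78) (nat_lit 1140) (nat_lit 0) (XT.lf (nat_lit 0) (nat_lit 1873618110) (nat_lit 988) (nat_lit 2021809164) (nat_lit 1064) (nat_lit 2912315552) (nat_lit 681) (nat_lit 5) (nat_lit 694) (nat_lit 5) (nat_lit 695) (nat_lit 5) (nat_lit 544) (nat_lit 520) (nat_lit 496)) (XT.nd (nat_lit 78) (nat_lit 1140) (nat_lit 0) (XT.lf (nat_lit 0) (nat_lit 6030177016) (nat_lit 988) (nat_lit 533612674) (nat_lit 1064) (nat_lit 275293790) (nat_lit 681) (nat_lit 5) (nat_lit 694) (nat_lit 5) (nat_lit 695) (nat_lit 5) (nat_lit 545) (nat_lit 520) (nat_lit 495)) (XT.lf (nat_lit 0) (nat_lit 2353064371) (nat_lit 1140) (nat_lit 3494402232) (nat_lit 76) (nat_lit 1023870577) (nat_lit 666) (nat_lit 5) (nat_lit 681) (nat_lit 5) (nat_lit 667) (nat_lit 5) (nat_lit 546) (nat_lit 520) (nat_lit 494)))) (XT.nd (nat_lit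 156) (nat_lit 1216) (nat_lit 0) (XT.nd (nat_lit 78) (nat_lit 76) (nat_lit 0) (XT.lf (nat_lit 0) (nat_lit 712609606) (nat_lit 1140) (nat_lit 4273834235) (nat_lit 1216) (nat_lit 1918637819) (nat_lit 651) (nat_lit 5) (nat_lit 666) (nat_lit 5) (nat_lit 667) (nat_lit 5) (nat_lit 547) (nat_lit 520) (nat_lit 493)) (XT.lf (nat_lit 0) (nat_lit 689952464) (nat_lit 1216) (nat_lit 1937960048) (nat_lit 76) (nat_lit 4312166534) (nat_lit 650) (nat_lit 5) (nat_lit 666) (nat_lit 5) (nat_lit 651) (nat_lit 5) (nat_lit 548) (nat_lit 520) (nat_lit 492))) (XT.nd (nat_lit 78) (nat_lit 0) (nat_lit 0) (XT.lf (nat_lit 0) (nat_lit 2375837804) (nat_lit 1216) (nat_lit 908725246) (nat_lit 1292) (nat_lit 3691773529) (nat_lit 634) (nat_lit 5) (nat_lit 650) (nat_lit 5) (nat_lit 651) (nat_lit 5) (nat_lit 549) (nat_lit 520) (nat_lit 491)) (XT.lf (nat_lit 0) (nat_lit 5894614637) (nat_lit 1292) (nat_lit 261594779) (nat_lit 76) (nat_lit 857843401) (nat_lit 634) (nat_lit 5) (nat_lit 651) (nat_lit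 5) (nat_lit 635) (nat_lit 5) (nat_lit 550) (nat_lit 520) (nat_lit 490))))) (XT.nd (nat_lit 312) (nat_lit 4864) (nat_lit 0) (XT.nd (nat_lit 156) (nat_lit 1520) (nat_lit 0) (XT.nd (nat_lit 78) (nat_lit 1368) (nat_lit 0) (XT.lf (nat_lit 0) (nat_lit 1463605748) (nat_lit 1368) (nat_lit 2894094677) (nat_lit 76) (nat_lit 2695052134) (nat_lit 616) (nat_lit 5) (nat_lit 634) (nat_lit 5) (nat_lit 617) (nat_lit 5) (nat_lit 551) (nat_lit 520) (nat_lit 489)) (XT.lf (nat_lit 0) (nat_lit 1546847795) (nat_lit 1368) (nat_lit 2494765200) (nat_lit 1444) (nat_lit 3051303748) (nat_lit 598) (nat_lit 5) (nat_lit 616) (nat_lit 5) (nat_lit 617) (nat_lit 5) (nat_lit 552) (nat_lit 520) (nat_lit 488))) (XT.nd (nat_lit 78) (nat_lit 1520) (nat_lit 0) (XT.lf (nat_lit 0) (nat_lit 6071448647) (nat_lit 1368) (nat_lit 566381561) (nat_lit 1444) (nat_lit 496725193) (nat_lit 598) (nat_lit 5) (nat_lit 616) (nat_lit 5) (nat_lit 617) (nat_lit 5) (nat_lit 553) (nat_lit 520) (nat_lit 487)) (XT.lf (nat_lit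 0) (nat_lit 2061296212) (nat_lit 1520) (nat_lit 3689254497) (nat_lit 76) (nat_lit 1426606084) (nat_lit 578) (nat_lit 5) (nat_lit 598) (nat_lit 5) (nat_lit 579) (nat_lit 5) (nat_lit 554) (nat_lit 520) (nat_lit 486)))) (XT.nd (nat_lit 156) (nat_lit 3344) (nat_lit 0) (XT.nd (nat_lit 78) (nat_lit 0) (nat_lit 0) (XT.lf (nat_lit 0) (nat_lit 883367896) (nat_lit 1520) (nat_lit 3745833950) (nat_lit 1596) (nat_lit 2592039147) (nat_lit 558) (nat_lit 5) (nat_lit 578) (nat_lit 5) (nat_lit 579) (nat_lit 5) (nat_lit 555) (nat_lit 520) (nat_lit 485)) (XT.lf (nat_lit 0) (nat_lit 5552743005) (nat_lit 1520) (nat_lit 1669896210) (nat_lit 1596) (nat_lit 44088057) (nat_lit 558) (nat_lit 5) (nat_lit 578) (nat_lit 5) (nat_lit 579) (nat_lit 5) (nat_lit 556) (nat_lit 520) (nat_lit 484))) (XT.nd (nat_lit 78) (nat_lit 1672) (nat_lit 0) (XT.lf (nat_lit 0) (nat_lit 2493921259) (nat_lit 1672) (nat_lit 4336201857) (nat_lit 76) (nat_lit 483220004) (nat_lit 536) (nat_lit 5) (nat_lit 558) (nat_lit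 5) (nat_lit 537) (nat_lit 5) (nat_lit 557) (nat_lit 520) (nat_lit 483)) (XT.lf (nat_lit 0) (nat_lit 372897890) (nat_lit 1672) (nat_lit 4685061958) (nat_lit 1748) (nat_lit 2303412063) (nat_lit 514) (nat_lit 5) (nat_lit 536) (nat_lit 5) (nat_lit 537) (nat_lit 5) (nat_lit 558) (nat_lit 520) (nat_lit 482))))))) (XT.nd (nat_lit 1092) (nat_lit 7144) (nat_lit 0) (XT.nd (nat_lit 546) (nat_lit 4408) (nat_lit 0) (XT.nd (nat_lit 234) (nat_lit 2128) (nat_lit 0) (XT.nd (nat_lit 78) (nat_lit 3572) (nat_lit 0) (XT.lf (nat_lit 0) (nat_lit 239909649) (nat_lit 1748) (nat_lit 2222303461) (nat_lit 76) (nat_lit 4948508734) (nat_lit 513) (nat_lit 5) (nat_lit 536) (nat_lit 5) (nat_lit 514) (nat_lit 5) (nat_lit 559) (nat_lit 520) (nat_lit 481)) (XT.nd (nat_lit 78) (nat_lit 1824) (nat_lit 0) (XT.lf (nat_lit 0) (nat_lit 2613524345) (nat_lit 1748) (nat_lit 158835224) (nat_lit 1824) (nat_lit 4689016040) (nat_lit 490) (nat_lit 5) (nat_lit 513) (nat_lit 5) (nat_lit 514) (nat_lit 5) (nat_lit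 560) (nat_lit 520) (nat_lit 480)) (XT.lf (nat_lit 0) (nat_lit 3815488) (nat_lit 1824) (nat_lit 5333678479) (nat_lit 1900) (nat_lit 2175911140) (nat_lit 466) (nat_lit 5) (nat_lit 490) (nat_lit 5) (nat_lit 491) (nat_lit 5) (nat_lit 561) (nat_lit 520) (nat_lit 479)))) (XT.nd (nat_lit 156) (nat_lit 988) (nat_lit 0) (XT.nd (nat_lit 78) (nat_lit 1064) (nat_lit 0) (XT.lf (nat_lit 0) (nat_lit 369271070) (nat_lit 1900) (nat_lit 2597067469) (nat_lit 76) (nat_lit 4600351645) (nat_lit 465) (nat_lit 5) (nat_lit 490) (nat_lit 5) (nat_lit 466) (nat_lit 5) (nat_lit 562) (nat_lit 520) (nat_lit 478)) (XT.lf (nat_lit 0) (nat_lit 2385791642) (nat_lit 1064) (nat_lit 519964660) (nat_lit 1140) (nat_lit 4715609481) (nat_lit 451) (nat_lit 5) (nat_lit 465) (nat_lit 5) (nat_lit 466) (nat_lit 5) (nat_lit 563) (nat_lit 520) (nat_lit 477))) (XT.nd (nat_lit 78) (nat_lit 988) (nat_lit 0) (XT.lf (nat_lit 0) (nat_lit 5477975351) (nat_lit 1140) (nat_lit 231630112) (nat_lit 76) (nat_lit 1967832460)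 (nat_lit 451) (nat_lit 5) (nat_lit 466) (nat_lit 5) (nat_lit 452) (nat_lit 5) (nat_lit 564) (nat_lit 520) (nat_lit 476)) (XT.lf (nat_lit 0) (nat_lit 352837777) (nat_lit 988) (nat_lit 2848602839) (nat_lit 76) (nat_lit 4533333345) (nat_lit 438) (nat_lit 5) (nat_lit 451) (nat_lit 5) (nat_lit 439) (nat_lit 5) (nat_lit 565) (nat_lit 520) (nat_lit 475))))) (XT.nd (nat_lit 234) (nat_lit 2584) (nat_lit 0) (XT.nd (nat_lit 78) (nat_lit 912) (nat_lit 0) (XT.lf (nat_lit 0) (nat_lit 2286836842) (nat_lit 912) (nat_lit 612152898) (nat_lit 988) (nat_lit 4894534016) (nat_lit 426) (nat_lit 5) (nat_lit 438) (nat_lit 5) (nat_lit 439) (nat_lit 5) (nat_lit 566) (nat_lit 520) (nat_lit 474)) (XT.nd (nat_lit 78) (nat_lit 912) (nat_lit 0) (XT.lf (nat_lit 0) (nat_lit 5484867888) (nat_lit 988) (nat_lit 348162906) (nat_lit 76) (nat_lit 2020644561) (nat_lit 426) (nat_lit 5) (nat_lit 439) (nat_lit 5) (nat_lit 427) (nat_lit 5) (nat_lit 567) (nat_lit 520) (nat_lit 473)) (XT.lf (nat_lit 0)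 (nat_lit 197969308) (nat_lit 912) (nat_lit 2986844411) (nat_lit 76) (nat_lit 4730326971) (nat_lit 414) (nat_lit 5) (nat_lit 426) (nat_lit 5) (nat_lit 415) (nat_lit 5) (nat_lit 568) (nat_lit 520) (nat_lit 472)))) (XT.nd (nat_lit 156) (nat_lit 1748) (nat_lit 0) (XT.nd (nat_lit 78) (nat_lit 0) (nat_lit 0) (XT.lf (nat_lit 0) (nat_lit 2306988823) (nat_lit 836) (nat_lit 452246494) (nat_lit 912) (nat_lit 5218792125) (nat_lit 403) (nat_lit 5) (nat_lit 414) (nat_lit 5) (nat_lit 415) (nat_lit 5) (nat_lit 569) (nat_lit 520) (nat_lit 471)) (XT.lf (nat_lit 0) (nat_lit 5365102682) (nat_lit 912) (nat_lit 355188516) (nat_lit 76) (nat_lit 2322015866) (nat_lit 403) (nat_lit 5) (nat_lit 415) (nat_lit 5) (nat_lit 404) (nat_lit 5) (nat_lit 570) (nat_lit 520) (nat_lit 470))) (XT.nd (nat_lit 78) (nat_lit 912) (nat_lit 0) (XT.lf (nat_lit 0) (nat_lit 5086268640) (nat_lit 836) (nat_lit 2931699754) (nat_lit 912) (nat_lit 90008867) (nat_lit 392) (nat_lit 5) (nat_lit 403) (nat_lit 5)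 (nat_lit 404) (nat_lit 5) (nat_lit 571) (nat_lit 520) (nat_lit 469)) (XT.lf (nat_lit 0) (nat_lit 2437179426) (nat_lit 836) (nat_lit 55655668) (nat_lit 912) (nat_lit 5682250599) (nat_lit 380) (nat_lit 5) (nat_lit 391) (nat_lit 5) (nat_lit 392) (nat_lit 5) (nat_lit 572) (nat_lit 520) (nat_lit 468)))))) (XT.nd (nat_lit 546) (nat_lit 3344) (nat_lit 0) (XT.nd (nat_lit 234) (nat_lit 2204) (nat_lit 0) (XT.nd (nat_lit 78) (nat_lit 1596) (nat_lit 0) (XT.lf (nat_lit 0) (nat_lit 5124827401) (nat_lit 912) (nat_lit 261507058) (nat_lit 76) (nat_lit 2857218454) (nat_lit 380) (nat_lit 5) (nat_lit 392) (nat_lit 5) (nat_lit 381) (nat_lit 5) (nat_lit 573) (nat_lit 520) (nat_lit 467)) (XT.nd (nat_lit 78) (nat_lit 836) (nat_lit 0) (XT.lf (nat_lit 0) (nat_lit 5349936610) (nat_lit 760) (nat_lit 2455017762) (nat_lit 836) (nat_lit 508527615) (nat_lit 370) (nat_lit 5) (nat_lit 380) (nat_lit 5) (nat_lit 381) (nat_lit 5) (nat_lit 574) (nat_lit 520) (nat_lit 466)) (XT.lf (nat_lit 0) (nat_lit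 2108999719) (nat_lit 836) (nat_lit 5719725298) (nat_lit 76) (nat_lit 556139770) (nat_lit 359) (nat_lit 5) (nat_lit 370) (nat_lit 5) (nat_lit 360) (nat_lit 5) (nat_lit 575) (nat_lit 520) (nat_lit 465)))) (XT.nd (nat_lit 156) (nat_lit 1520) (nat_lit 0) (XT.nd (nat_lit 78) (nat_lit 684) (nat_lit 0) (XT.lf (nat_lit 0) (nat_lit 4769422825) (nat_lit 836) (nat_lit 75433000) (nat_lit 76) (nat_lit 3612807369) (nat_lit 359) (nat_lit 5) (nat_lit 370) (nat_lit 5) (nat_lit 360) (nat_lit 5) (nat_lit 576) (nat_lit 520) (nat_lit 464)) (XT.lf (nat_lit 0) (nat_lit 5712581027) (nat_lit 684) (nat_lit 1769397541) (nat_lit 760) (nat_lit 1049962739) (nat_lit 350) (nat_lit 5) (nat_lit 359) (nat_lit 5) (nat_lit 360) (nat_lit 5) (nat_lit 577) (nat_lit 520) (nat_lit 463))) (XT.nd (nat_lit 78) (nat_lit 684) (nat_lit 0) (XT.lf (nat_lit 0) (nat_lit 1610592992) (nat_lit 836) (nat_lit 5622905504) (nat_lit 76) (nat_lit 1374174809) (nat_lit 339) (nat_lit 5) (nat_lit 350) (nat_lit 5) (nat_lit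 340) (nat_lit 5) (nat_lit 578) (nat_lit 520) (nat_lit 462)) (XT.lf (nat_lit 0) (nat_lit 197730420) (nat_lit 684) (nat_lit 4107092520) (nat_lit 760) (nat_lit 4380069850) (nat_lit 330) (nat_lit 5) (nat_lit 339) (nat_lit 5) (nat_lit 340) (nat_lit 5) (nat_lit 579) (nat_lit 520) (nat_lit 461))))) (XT.nd (nat_lit 312) (nat_lit 1976) (nat_lit 0) (XT.nd (nat_lit 156) (nat_lit 608) (nat_lit 0) (XT.nd (nat_lit 78) (nat_lit 760) (nat_lit 0) (XT.lf (nat_lit 0) (nat_lit 6166572885) (nat_lit 684) (nat_lit 887007456) (nat_lit 760) (nat_lit 1710065519) (nat_lit 330) (nat_lit 5) (nat_lit 339) (nat_lit 5) (nat_lit 340) (nat_lit 5) (nat_lit 580) (nat_lit 520) (nat_lit 460)) (XT.lf (nat_lit 0) (nat_lit 1001257681) (nat_lit 760) (nat_lit 5454991374) (nat_lit 76) (nat_lit 2387571146) (nat_lit 320) (nat_lit 5) (nat_lit 330) (nat_lit 5) (nat_lit 321) (nat_lit 5) (nat_lit 581) (nat_lit 520) (nat_lit 459))) (XT.nd (nat_lit 78) (nat_lit 0) (nat_lit 0) (XT.lf (nat_lit 0) (nat_lit 549870416)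 (nat_lit 608) (nat_lit 3184827142) (nat_lit 684) (nat_lit 5190860575) (nat_lit 312) (nat_lit 5) (nat_lit 320) (nat_lit 5) (nat_lit 321) (nat_lit 5) (nat_lit 582) (nat_lit 520) (nat_lit 458)) (XT.lf (nat_lit 0) (nat_lit 6524790144) (nat_lit 684) (nat_lit 2305456127) (nat_lit 76) (nat_lit 178646769) (nat_lit 312) (nat_lit 5) (nat_lit 321) (nat_lit 5) (nat_lit 313) (nat_lit 5) (nat_lit 583) (nat_lit 520) (nat_lit 457)))) (XT.nd (nat_lit 156) (nat_lit 608) (nat_lit 0) (XT.nd (nat_lit 78) (nat_lit 608) (nat_lit 0) (XT.lf (nat_lit 0) (nat_lit 284313721) (nat_lit 760) (nat_lit 5223598332) (nat_lit 76) (nat_lit 3585725395) (nat_lit 302) (nat_lit 5) (nat_lit 312) (nat_lit 5) (nat_lit 303) (nat_lit 5) (nat_lit 584) (nat_lit 520) (nat_lit 456)) (XT.lf (nat_lit 0) (nat_lit 972630349) (nat_lit 608) (nat_lit 2089151081) (nat_lit 684) (nat_lit 6118229804) (nat_lit 294) (nat_lit 5) (nat_lit 302) (nat_lit 5) (nat_lit 303) (nat_lit 5) (nat_lit 585) (nat_lit 520) (nat_lit 455)))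 (XT.nd (nat_lit 78) (nat_lit 608) (nat_lit 0) (XT.lf (nat_lit 0) (nat_lit 5904527292) (nat_lit 684) (nat_lit 1957572878) (nat_lit 76) (nat_lit 1405819502) (nat_lit 294) (nat_lit 5) (nat_lit 303) (nat_lit 5) (nat_lit 295) (nat_lit 5) (nat_lit 586) (nat_lit 520) (nat_lit 454)) (XT.lf (nat_lit 0) (nat_lit 4417763543) (nat_lit 608) (nat_lit 4394929013) (nat_lit 684) (nat_lit 544724151) (nat_lit 286) (nat_lit 5) (nat_lit 294) (nat_lit 5) (nat_lit 295) (nat_lit 5) (nat_lit 587) (nat_lit 520) (nat_lit 453))))))))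
noncomputable def xc73 : XT := (XT.nd (nat_lit 2262) (nat_lit 6232) (nat_lit 0) (XT.nd (nat_lit 1092) (nat_lit 4332) (nat_lit 0) (XT.nd (nat_lit 546) (nat_lit 2584) (nat_lit 0) (XT.nd (nat_lit 234) (nat_lit 1748) (nat_lit 0) (XT.nd (nat_lit 78) (nat_lit 608) (nat_lit 0) (XT.lf (nat_lit 0) (nat_lit 1458881528) (nat_lit 608) (nat_lit 829775498) (nat_lit 684) (nat_lit 7159967665) (nat_lit 277) (nat_lit 5) (nat_lit 285) (nat_lit 5) (nat_lit 286) (nat_lit 5) (nat_lit 588) (nat_lit 520) (nat_lit 452)) (XT.nd (nat_lit 78) (nat_lit 608) (nat_lit 0) (XT.lf (nat_lit 0) (nat_lit 5189530926) (nat_lit 684) (nat_lit 1554751604) (nat_lit 76) (nat_lit 2796941531) (nat_lit 277) (nat_lit 5) (nat_lit 286) (nat_lit 5) (nat_lit 278) (nat_lit 5) (nat_lit 589) (nat_lit 520) (nat_lit 451)) (XT.lf (nat_lit 0) (nat_lit 5026174417) (nat_lit 608) (nat_lit 3127554884) (nat_lit 684) (nat_lit 1481841565) (nat_lit 269) (nat_lit 5) (nat_lit 277) (nat_lit 5) (nat_lit 278) (nat_lit 5) (nat_lit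 590) (nat_lit 520) (nat_lit 450)))) (XT.nd (nat_lit 156) (nat_lit 1140) (nat_lit 0) (XT.nd (nat_lit 78) (nat_lit 0) (nat_lit 0) (XT.lf (nat_lit 0) (nat_lit 1421069864) (nat_lit 608) (nat_lit 7733940532) (nat_lit 76) (nat_lit 576715653) (nat_lit 261) (nat_lit 5) (nat_lit 269) (nat_lit 5) (nat_lit 262) (nat_lit 5) (nat_lit 591) (nat_lit 520) (nat_lit 449)) (XT.lf (nat_lit 0) (nat_lit 4381683205) (nat_lit 608) (nat_lit 1103957425) (nat_lit 76) (nat_lit 4343579590) (nat_lit 261) (nat_lit 5) (nat_lit 269) (nat_lit 5) (nat_lit 262) (nat_lit 5) (nat_lit 592) (nat_lit 520) (nat_lit 448))) (XT.nd (nat_lit 78) (nat_lit 608) (nat_lit 0) (XT.lf (nat_lit 0) (nat_lit 5690478784) (nat_lit 532) (nat_lit 1716229715) (nat_lit 608) (nat_lit 2521853248) (nat_lit 254) (nat_lit 5) (nat_lit 261) (nat_lit 5) (nat_lit 262) (nat_lit 5) (nat_lit 593) (nat_lit 520) (nat_lit 447)) (XT.lf (nat_lit 0) (nat_lit 462898132) (nat_lit 608) (nat_lit 7449826283) (nat_lit 76) (nat_lit 2116974708)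 (nat_lit 246) (nat_lit 5) (nat_lit 254) (nat_lit 5) (nat_lit 247) (nat_lit 5) (nat_lit 594) (nat_lit 520) (nat_lit 446))))) (XT.nd (nat_lit 234) (nat_lit 1596) (nat_lit 0) (XT.nd (nat_lit 78) (nat_lit 988) (nat_lit 0) (XT.lf (nat_lit 0) (nat_lit 3482262041) (nat_lit 608) (nat_lit 612098272) (nat_lit 76) (nat_lit 6037993224) (nat_lit 246) (nat_lit 5) (nat_lit 254) (nat_lit 5) (nat_lit 247) (nat_lit 5) (nat_lit 595) (nat_lit 520) (nat_lit 445)) (XT.nd (nat_lit 78) (nat_lit 456) (nat_lit 0) (XT.lf (nat_lit 0) (nat_lit 6404032379) (nat_lit 532) (nat_lit 168834270) (nat_lit 608) (nat_lit 3663978676) (nat_lit 239) (nat_lit 5) (nat_lit 246) (nat_lit 5) (nat_lit 247) (nat_lit 5) (nat_lit 596) (nat_lit 520) (nat_lit 444)) (XT.lf (nat_lit 0) (nat_lit 3199880225) (nat_lit 456) (nat_lit 6544742058) (nat_lit 532) (nat_lit 598419213) (nat_lit 233) (nat_lit 5) (nat_lit 239) (nat_lit 5) (nat_lit 240) (nat_lit 5) (nat_lit 597) (nat_lit 520) (nat_lit 443)))) (XT.nd (nat_lit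 156) (nat_lit 988) (nat_lit 0) (XT.nd (nat_lit 78) (nat_lit 532) (nat_lit 0) (XT.lf (nat_lit 0) (nat_lit 2491948581) (nat_lit 532) (nat_lit 86091235) (nat_lit 76) (nat_lit 7873061561) (nat_lit 232) (nat_lit 5) (nat_lit 239) (nat_lit 5) (nat_lit 233) (nat_lit 5) (nat_lit 598) (nat_lit 520) (nat_lit 442)) (XT.lf (nat_lit 0) (nat_lit 5662638321) (nat_lit 608) (nat_lit 3410515737) (nat_lit 76) (nat_lit 1487559987) (nat_lit 225) (nat_lit 5) (nat_lit 233) (nat_lit 5) (nat_lit 226) (nat_lit 5) (nat_lit 599) (nat_lit 520) (nat_lit 441))) (XT.nd (nat_lit 78) (nat_lit 532) (nat_lit 0) (XT.lf (nat_lit 0) (nat_lit 3851186154) (nat_lit 456) (nat_lit 5058693822) (nat_lit 532) (nat_lit 1762377454) (nat_lit 219) (nat_lit 5) (nat_lit 225) (nat_lit 5) (nat_lit 226) (nat_lit 5) (nat_lit 600) (nat_lit 520) (nat_lit 440)) (XT.lf (nat_lit 0) (nat_lit 473276385) (nat_lit 456) (nat_lit 940626818) (nat_lit 532) (nat_lit 9372009141) (nat_lit 212) (nat_lit 5) (nat_lit 218) (nat_lit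 5) (nat_lit 219) (nat_lit 5) (nat_lit 601) (nat_lit 520) (nat_lit 439)))))) (XT.nd (nat_lit 546) (nat_lit 2432) (nat_lit 0) (XT.nd (nat_lit 234) (nat_lit 912) (nat_lit 0) (XT.nd (nat_lit 78) (nat_lit 988) (nat_lit 0) (XT.lf (nat_lit 0) (nat_lit 4668186523) (nat_lit 532) (nat_lit 2970547749) (nat_lit 76) (nat_lit 3262112748) (nat_lit 212) (nat_lit 5) (nat_lit 219) (nat_lit 5) (nat_lit 213) (nat_lit 5) (nat_lit 602) (nat_lit 520) (nat_lit 438)) (XT.nd (nat_lit 78) (nat_lit 532) (nat_lit 0) (XT.lf (nat_lit 0) (nat_lit 4529940392) (nat_lit 456) (nat_lit 3464640437) (nat_lit 532) (nat_lit 3023360186) (nat_lit 206) (nat_lit 5) (nat_lit 212) (nat_lit 5) (nat_lit 213) (nat_lit 5) (nat_lit 603) (nat_lit 520) (nat_lit 437)) (XT.lf (nat_lit 0) (nat_lit 250495306) (nat_lit 532) (nat_lit 10088563696) (nat_lit 76) (nat_lit 798213506) (nat_lit 199) (nat_lit 5) (nat_lit 206) (nat_lit 5) (nat_lit 200) (nat_lit 5) (nat_lit 604) (nat_lit 520) (nat_lit 436)))) (XT.nd (nat_lit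 156) (nat_lit 532) (nat_lit 0) (XT.nd (nat_lit 78) (nat_lit 380) (nat_lit 0) (XT.lf (nat_lit 0) (nat_lit 3587846377) (nat_lit 532) (nat_lit 2519210792) (nat_lit 76) (nat_lit 5150764815) (nat_lit 199) (nat_lit 5) (nat_lit 206) (nat_lit 5) (nat_lit 200) (nat_lit 5) (nat_lit 605) (nat_lit 520) (nat_lit 435)) (XT.lf (nat_lit 0) (nat_lit 5228995947) (nat_lit 380) (nat_lit 1769146229) (nat_lit 456) (nat_lit 4382517366) (nat_lit 194) (nat_lit 5) (nat_lit 199) (nat_lit 5) (nat_lit 200) (nat_lit 5) (nat_lit 606) (nat_lit 520) (nat_lit 434))) (XT.nd (nat_lit 78) (nat_lit 76) (nat_lit 0) (XT.lf (nat_lit 0) (nat_lit 1623330880) (nat_lit 456) (nat_lit 8870551148) (nat_lit 532) (nat_lit 1011728088) (nat_lit 188) (nat_lit 5) (nat_lit 194) (nat_lit 5) (nat_lit 195) (nat_lit 5) (nat_lit 607) (nat_lit 520) (nat_lit 433)) (XT.lf (nat_lit 0) (nat_lit 2420455849) (nat_lit 532) (nat_lit 2064165236) (nat_lit 76) (nat_lit 7147608465) (nat_lit 187) (nat_lit 5) (nat_lit 194) (nat_lit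 5) (nat_lit 188) (nat_lit 5) (nat_lit 608) (nat_lit 520) (nat_lit 432))))) (XT.nd (nat_lit 312) (nat_lit 1216) (nat_lit 0) (XT.nd (nat_lit 156) (nat_lit 456) (nat_lit 0) (XT.nd (nat_lit 78) (nat_lit 380) (nat_lit 0) (XT.lf (nat_lit 0) (nat_lit 5919532165) (nat_lit 456) (nat_lit 5820216201) (nat_lit 76) (nat_lit 21264310) (nat_lit 182) (nat_lit 5) (nat_lit 188) (nat_lit 5) (nat_lit 183) (nat_lit 5) (nat_lit 609) (nat_lit 520) (nat_lit 431)) (XT.lf (nat_lit 0) (nat_lit 2200039315) (nat_lit 380) (nat_lit 7319725867) (nat_lit 456) (nat_lit 2371983725) (nat_lit 177) (nat_lit 5) (nat_lit 182) (nat_lit 5) (nat_lit 183) (nat_lit 5) (nat_lit 610) (nat_lit 520) (nat_lit 430))) (XT.nd (nat_lit 78) (nat_lit 380) (nat_lit 0) (XT.lf (nat_lit 0) (nat_lit 1164247691) (nat_lit 456) (nat_lit 1613412960) (nat_lit 76) (nat_lit 9247035623) (nat_lit 176) (nat_lit 5) (nat_lit 182) (nat_lit 5) (nat_lit 177) (nat_lit 5) (nat_lit 611) (nat_lit 520) (nat_lit 429)) (XT.lf (nat_lit 0)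 (nat_lit 4768902609) (nat_lit 456) (nat_lit 5513983731) (nat_lit 76) (nat_lit 1876514368) (nat_lit 171) (nat_lit 5) (nat_lit 177) (nat_lit 5) (nat_lit 172) (nat_lit 5) (nat_lit 612) (nat_lit 520) (nat_lit 428)))) (XT.nd (nat_lit 156) (nat_lit 836) (nat_lit 0) (XT.nd (nat_lit 78) (nat_lit 0) (nat_lit 0) (XT.lf (nat_lit 0) (nat_lit 2772386975) (nat_lit 380) (nat_lit 5694577859) (nat_lit 456) (nat_lit 3829408990) (nat_lit 166) (nat_lit 5) (nat_lit 171) (nat_lit 5) (nat_lit 172) (nat_lit 5) (nat_lit 613) (nat_lit 520) (nat_lit 427)) (XT.lf (nat_lit 0) (nat_lit 11259275557) (nat_lit 380) (nat_lit 990984861) (nat_lit 456) (nat_lit 185601400) (nat_lit 166) (nat_lit 5) (nat_lit 171) (nat_lit 5) (nat_lit 172) (nat_lit 5) (nat_lit 614) (nat_lit 520) (nat_lit 426))) (XT.nd (nat_lit 78) (nat_lit 380) (nat_lit 0) (XT.lf (nat_lit 0) (nat_lit 3532335219) (nat_lit 456) (nat_lit 5230311552) (nat_lit 76) (nat_lit 3814083830) (nat_lit 160) (nat_lit 5) (nat_lit 166) (nat_lit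 5) (nat_lit 161) (nat_lit 5) (nat_lit 615) (nat_lit 520) (nat_lit 425)) (XT.lf (nat_lit 0) (nat_lit 3331766738) (nat_lit 380) (nat_lit 4001282151) (nat_lit 456) (nat_lit 5387126074) (nat_lit 155) (nat_lit 5) (nat_lit 160) (nat_lit 5) (nat_lit 161) (nat_lit 5) (nat_lit 616) (nat_lit 520) (nat_lit 424))))))) (XT.nd (nat_lit 1170) (nat_lit 2736) (nat_lit 0) (XT.nd (nat_lit 546) (nat_lit 1976) (nat_lit 0) (XT.nd (nat_lit 234) (nat_lit 760) (nat_lit 0) (XT.nd (nat_lit 78) (nat_lit 760) (nat_lit 0) (XT.lf (nat_lit 0) (nat_lit 11225564844) (nat_lit 456) (nat_lit 775393809) (nat_lit 76) (nat_lit 865214592) (nat_lit 155) (nat_lit 5) (nat_lit 161) (nat_lit 5) (nat_lit 156) (nat_lit 5) (nat_lit 617) (nat_lit 520) (nat_lit 423)) (XT.nd (nat_lit 78) (nat_lit 380) (nat_lit 0) (XT.lf (nat_lit 0) (nat_lit 2206755754) (nat_lit 380) (nat_lit 4978594748) (nat_lit 76) (nat_lit 5828368199) (nat_lit 150) (nat_lit 5) (nat_lit 155) (nat_lit 5) (nat_lit 151) (nat_lit 5) (nat_lit 618)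 (nat_lit 520) (nat_lit 422)) (XT.lf (nat_lit 0) (nat_lit 3868998676) (nat_lit 380) (nat_lit 2245943983) (nat_lit 456) (nat_lit 7048939403) (nat_lit 145) (nat_lit 5) (nat_lit 150) (nat_lit 5) (nat_lit 151) (nat_lit 5) (nat_lit 619) (nat_lit 520) (nat_lit 421)))) (XT.nd (nat_lit 156) (nat_lit 380) (nat_lit 0) (XT.nd (nat_lit 78) (nat_lit 380) (nat_lit 0) (XT.lf (nat_lit 0) (nat_lit 10128652058) (nat_lit 456) (nat_lit 412932321) (nat_lit 76) (nat_lit 2774917868) (nat_lit 145) (nat_lit 5) (nat_lit 151) (nat_lit 5) (nat_lit 146) (nat_lit 5) (nat_lit 620) (nat_lit 520) (nat_lit 420)) (XT.lf (nat_lit 0) (nat_lit 788418775) (nat_lit 380) (nat_lit 4768890407) (nat_lit 76) (nat_lit 7913812901) (nat_lit 140) (nat_lit 5) (nat_lit 145) (nat_lit 5) (nat_lit 141) (nat_lit 5) (nat_lit 621) (nat_lit 520) (nat_lit 419))) (XT.nd (nat_lit 78) (nat_lit 0) (nat_lit 0) (XT.lf (nat_lit 0) (nat_lit 4374229303) (nat_lit 380) (nat_lit 434669284) (nat_lit 456) (nat_lit 8819367570) (nat_lit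 135) (nat_lit 5) (nat_lit 140) (nat_lit 5) (nat_lit 141) (nat_lit 5) (nat_lit 622) (nat_lit 520) (nat_lit 418)) (XT.lf (nat_lit 0) (nat_lit 8949369748) (nat_lit 456) (nat_lit 93024654) (nat_lit 76) (nat_lit 4745367753) (nat_lit 135) (nat_lit 5) (nat_lit 141) (nat_lit 5) (nat_lit 136) (nat_lit 5) (nat_lit 623) (nat_lit 520) (nat_lit 417))))) (XT.nd (nat_lit 312) (nat_lit 988) (nat_lit 0) (XT.nd (nat_lit 156) (nat_lit 304) (nat_lit 0) (XT.nd (nat_lit 78) (nat_lit 380) (nat_lit 0) (XT.lf (nat_lit 0) (nat_lit 9332836892) (nat_lit 304) (nat_lit 3880017843) (nat_lit 380) (nat_lit 736789913) (nat_lit 131) (nat_lit 5) (nat_lit 135) (nat_lit 5) (nat_lit 136) (nat_lit 5) (nat_lit 624) (nat_lit 520) (nat_lit 416)) (XT.lf (nat_lit 0) (nat_lit 3419721110) (nat_lit 380) (nat_lit 9286579425) (nat_lit 76) (nat_lit 1407655661) (nat_lit 126) (nat_lit 5) (nat_lit 131) (nat_lit 5) (nat_lit 127) (nat_lit 5) (nat_lit 625) (nat_lit 520) (nat_lit 415))) (XT.nd (nat_lit 78) (nat_lit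 0) (nat_lit 0) (XT.lf (nat_lit 0) (nat_lit 175545546) (nat_lit 304) (nat_lit 7508886216) (nat_lit 380) (nat_lit 6596326734) (nat_lit 122) (nat_lit 5) (nat_lit 126) (nat_lit 5) (nat_lit 127) (nat_lit 5) (nat_lit 626) (nat_lit 520) (nat_lit 414)) (XT.lf (nat_lit 0) (nat_lit 9914976114) (nat_lit 304) (nat_lit 2158889840) (nat_lit 380) (nat_lit 2376242914) (nat_lit 122) (nat_lit 5) (nat_lit 126) (nat_lit 5) (nat_lit 127) (nat_lit 5) (nat_lit 627) (nat_lit 520) (nat_lit 413)))) (XT.nd (nat_lit 156) (nat_lit 380) (nat_lit 0) (XT.nd (nat_lit 78) (nat_lit 228) (nat_lit 0) (XT.lf (nat_lit 0) (nat_lit 1936045936) (nat_lit 380) (nat_lit 9398749275) (nat_lit 76) (nat_lit 3287139387) (nat_lit 117) (nat_lit 5) (nat_lit 122) (nat_lit 5) (nat_lit 118) (nat_lit 5) (nat_lit 628) (nat_lit 520) (nat_lit 412)) (XT.lf (nat_lit 0) (nat_lit 378804208) (nat_lit 228) (nat_lit 5948896791) (nat_lit 304) (nat_lit 8468683515) (nat_lit 114) (nat_lit 5) (nat_lit 117) (nat_lit 5) (nat_lit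 118) (nat_lit 5) (nat_lit 629) (nat_lit 520) (nat_lit 411))) (XT.nd (nat_lit 78) (nat_lit 380) (nat_lit 0) (XT.lf (nat_lit 0) (nat_lit 10442073049) (nat_lit 228) (nat_lit 405902916) (nat_lit 304) (nat_lit 4125532294) (nat_lit 114) (nat_lit 5) (nat_lit 117) (nat_lit 5) (nat_lit 118) (nat_lit 5) (nat_lit 630) (nat_lit 520) (nat_lit 410)) (XT.lf (nat_lit 0) (nat_lit 349000962) (nat_lit 380) (nat_lit 9601151610) (nat_lit 76) (nat_lit 5203012666) (nat_lit 109) (nat_lit 5) (nat_lit 114) (nat_lit 5) (nat_lit 110) (nat_lit 5) (nat_lit 631) (nat_lit 520) (nat_lit 409)))))) (XT.nd (nat_lit 546) (nat_lit 1292) (nat_lit 0) (XT.nd (nat_lit 234) (nat_lit 912) (nat_lit 0) (XT.nd (nat_lit 78) (nat_lit 304) (nat_lit 0) (XT.lf (nat_lit 0) (nat_lit 502225513) (nat_lit 228) (nat_lit 4370274675) (nat_lit 304) (nat_lit 10463075983) (nat_lit 106) (nat_lit 5) (nat_lit 109) (nat_lit 5) (nat_lit 110) (nat_lit 5) (nat_lit 632) (nat_lit 520) (nat_lit 408)) (XT.nd (nat_lit 78) (nat_lit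 304) (nat_lit 0) (XT.lf (nat_lit 0) (nat_lit 9538103150) (nat_lit 304) (nat_lit 4628529383) (nat_lit 76) (nat_lit 1353970640) (nat_lit 106) (nat_lit 5) (nat_lit 110) (nat_lit 5) (nat_lit 107) (nat_lit 5) (nat_lit 633) (nat_lit 520) (nat_lit 407)) (XT.lf (nat_lit 0) (nat_lit 5791129018) (nat_lit 304) (nat_lit 8551058841) (nat_lit 380) (nat_lit 1366239974) (nat_lit 102) (nat_lit 5) (nat_lit 106) (nat_lit 5) (nat_lit 107) (nat_lit 5) (nat_lit 634) (nat_lit 520) (nat_lit 406)))) (XT.nd (nat_lit 156) (nat_lit 608) (nat_lit 0) (XT.nd (nat_lit 78) (nat_lit 0) (nat_lit 0) (XT.lf (nat_lit 0) (nat_lit 531281057) (nat_lit 228) (nat_lit 2780615699) (nat_lit 304) (nat_lit 12587410971) (nat_lit 98) (nat_lit 5) (nat_lit 101) (nat_lit 5) (nat_lit 102) (nat_lit 5) (nat_lit 635) (nat_lit 520) (nat_lit 405)) (XT.lf (nat_lit 0) (nat_lit 8131230626) (nat_lit 304) (nat_lit 4835461639) (nat_lit 76) (nat_lit 3125814253) (nat_lit 98) (nat_lit 5) (nat_lit 102) (nat_lit 5) (nat_lit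 99) (nat_lit 5) (nat_lit 636) (nat_lit 520) (nat_lit 404))) (XT.nd (nat_lit 78) (nat_lit 304) (nat_lit 0) (XT.lf (nat_lit 0) (nat_lit 5931444115) (nat_lit 304) (nat_lit 7151608070) (nat_lit 380) (nat_lit 3205795553) (nat_lit 94) (nat_lit 5) (nat_lit 98) (nat_lit 5) (nat_lit 99) (nat_lit 5) (nat_lit 637) (nat_lit 520) (nat_lit 403)) (XT.lf (nat_lit 0) (nat_lit 450045841) (nat_lit 228) (nat_lit 1187978575) (nat_lit 304) (nat_lit 14850582206) (nat_lit 90) (nat_lit 5) (nat_lit 93) (nat_lit 5) (nat_lit 94) (nat_lit 5) (nat_lit 638) (nat_lit 520) (nat_lit 402))))) (XT.nd (nat_lit 312) (nat_lit 760) (nat_lit 0) (XT.nd (nat_lit 156) (nat_lit 304) (nat_lit 0) (XT.nd (nat_lit 78) (nat_lit 228) (nat_lit 0) (XT.lf (nat_lit 0) (nat_lit 6616877137) (nat_lit 304) (nat_lit 5166211376) (nat_lit 76) (nat_lit 4907227170) (nat_lit 90) (nat_lit 5) (nat_lit 94) (nat_lit 5) (nat_lit 91) (nat_lit 5) (nat_lit 639) (nat_lit 520) (nat_lit 401)) (XT.lf (nat_lit 0) (nat_lit 5958759399)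 (nat_lit 228) (nat_lit 5762805906) (nat_lit 304) (nat_lit 5173968891) (nat_lit 87) (nat_lit 5) (nat_lit 90) (nat_lit 5) (nat_lit 91) (nat_lit 5) (nat_lit 640) (nat_lit 520) (nat_lit 400))) (XT.nd (nat_lit 78) (nat_lit 76) (nat_lit 0) (XT.lf (nat_lit 0) (nat_lit 237340331) (nat_lit 228) (nat_lit 16709677451) (nat_lit 304) (nat_lit 157466316) (nat_lit 84) (nat_lit 5) (nat_lit 87) (nat_lit 5) (nat_lit 88) (nat_lit 5) (nat_lit 641) (nat_lit 520) (nat_lit 399)) (XT.lf (nat_lit 0) (nat_lit 4986180034) (nat_lit 304) (nat_lit 5639028139) (nat_lit 76) (nat_lit 6689924115) (nat_lit 83) (nat_lit 5) (nat_lit 87) (nat_lit 5) (nat_lit 84) (nat_lit 5) (nat_lit 642) (nat_lit 520) (nat_lit 398)))) (XT.nd (nat_lit 156) (nat_lit 532) (nat_lit 0) (XT.nd (nat_lit 78) (nat_lit 0) (nat_lit 0) (XT.lf (nat_lit 0) (nat_lit 5854863403) (nat_lit 228) (nat_lit 4393953724) (nat_lit 304) (nat_lit 7280791374) (nat_lit 80) (nat_lit 5) (nat_lit 83) (nat_lit 5) (nat_lit 84) (nat_lit 5) (nat_lit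 643) (nat_lit 520) (nat_lit 397)) (XT.lf (nat_lit 0) (nat_lit 15647817190) (nat_lit 304) (nat_lit 140136410) (nat_lit 76) (nat_lit 1959798832) (nat_lit 80) (nat_lit 5) (nat_lit 84) (nat_lit 5) (nat_lit 81) (nat_lit 5) (nat_lit 644) (nat_lit 520) (nat_lit 396))) (XT.nd (nat_lit 78) (nat_lit 228) (nat_lit 0) (XT.lf (nat_lit 0) (nat_lit 3229173332) (nat_lit 304) (nat_lit 6273990412) (nat_lit 76) (nat_lit 8464954335) (nat_lit 76) (nat_lit 5) (nat_lit 80) (nat_lit 5) (nat_lit 77) (nat_lit 5) (nat_lit 645) (nat_lit 520) (nat_lit 395)) (XT.lf (nat_lit 0) (nat_lit 5599675280) (nat_lit 228) (nat_lit 3055100604) (nat_lit 304) (nat_lit 9537477317) (nat_lit 73) (nat_lit 5) (nat_lit 76) (nat_lit 5) (nat_lit 77) (nat_lit 5) (nat_lit 646) (nat_lit 520) (nat_lit 394))))))))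
noncomputable def xc74 : XT := (XT.nd (nat_lit 73554) (nat_lit 0) (nat_lit 21052) (XT.nd (nat_lit 72384) (nat_lit 0) (nat_lit 43852) (XT.nd (nat_lit 71838) (nat_lit 0) (nat_lit 51832) (XT.nd (nat_lit 71526) (nat_lit 0) (nat_lit 53124) (XT.nd (nat_lit 71370) (nat_lit 0) (nat_lit 53656) (XT.lf (nat_lit 0) (nat_lit 14234902642) (nat_lit 304) (nat_lit 681336391) (nat_lit 76) (nat_lit 3503712117) (nat_lit 73) (nat_lit 5) (nat_lit 77) (nat_lit 5) (nat_lit 74) (nat_lit 5) (nat_lit 647) (nat_lit 520) (nat_lit 393)) (XT.nd (nat_lit 78) (nat_lit 228) (nat_lit 0) (XT.lf (nat_lit 0) (nat_lit 1580090461) (nat_lit 0) (nat_lit 1580090461) (nat_lit 76) (nat_lit 61886423) (nat_lit 782) (nat_lit 5) (nat_lit 782) (nat_lit 3) (nat_lit 783) (nat_lit 0) (nat_lit 521) (nat_lit 521) (nat_lit 518)) (XT.lf (nat_lit 0) (nat_lit 2954555344) (nat_lit 228) (nat_lit 80432052) (nat_lit 228) (nat_lit 3411686855) (nat_lit 779) (nat_lit 3) (nat_lit 782) (nat_lit 3) (nat_lit 782) (nat_lit 5)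 (nat_lit 522) (nat_lit 521) (nat_lit 517)))) (XT.nd (nat_lit 156) (nat_lit 304) (nat_lit 0) (XT.nd (nat_lit 78) (nat_lit 228) (nat_lit 0) (XT.lf (nat_lit 76) (nat_lit 3186958317) (nat_lit 0) (nat_lit 2845792744) (nat_lit 228) (nat_lit 417707445) (nat_lit 780) (nat_lit 5) (nat_lit 779) (nat_lit 3) (nat_lit 782) (nat_lit 5) (nat_lit 523) (nat_lit 521) (nat_lit 516)) (XT.lf (nat_lit 76) (nat_lit 6937933) (nat_lit 0) (nat_lit 2596240345) (nat_lit 304) (nat_lit 3852383552) (nat_lit 777) (nat_lit 5) (nat_lit 776) (nat_lit 5) (nat_lit 780) (nat_lit 5) (nat_lit 524) (nat_lit 521) (nat_lit 515))) (XT.nd (nat_lit 78) (nat_lit 304) (nat_lit 0) (XT.lf (nat_lit 76) (nat_lit 3342515273) (nat_lit 0) (nat_lit 2279604355) (nat_lit 304) (nat_lit 839736637) (nat_lit 777) (nat_lit 5) (nat_lit 776) (nat_lit 5) (nat_lit 780) (nat_lit 5) (nat_lit 525) (nat_lit 521) (nat_lit 514)) (XT.lf (nat_lit 76) (nat_lit 223026804) (nat_lit 0) (nat_lit 1904663280) (nat_lit 380) (nat_lit 4341828759)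 (nat_lit 773) (nat_lit 5) (nat_lit 772) (nat_lit 5) (nat_lit 777) (nat_lit 5) (nat_lit 526) (nat_lit 521) (nat_lit 513))))) (XT.nd (nat_lit 234) (nat_lit 912) (nat_lit 0) (XT.nd (nat_lit 78) (nat_lit 380) (nat_lit 0) (XT.lf (nat_lit 76) (nat_lit 3627239579) (nat_lit 0) (nat_lit 1460506989) (nat_lit 380) (nat_lit 1390594958) (nat_lit 773) (nat_lit 5) (nat_lit 772) (nat_lit 5) (nat_lit 777) (nat_lit 5) (nat_lit 527) (nat_lit 521) (nat_lit 512)) (XT.nd (nat_lit 78) (nat_lit 0) (nat_lit 0) (XT.lf (nat_lit 76) (nat_lit 567275925) (nat_lit 0) (nat_lit 959441152) (nat_lit 456) (nat_lit 4961855399) (nat_lit 768) (nat_lit 5) (nat_lit 767) (nat_lit 5) (nat_lit 773) (nat_lit 5) (nat_lit 528) (nat_lit 521) (nat_lit 511)) (XT.lf (nat_lit 76) (nat_lit 4041768442) (nat_lit 0) (nat_lit 386896958) (nat_lit 456) (nat_lit 2071268497) (nat_lit 768) (nat_lit 5) (nat_lit 767) (nat_lit 5) (nat_lit 773) (nat_lit 5) (nat_lit 529) (nat_lit 521) (nat_lit 510)))) (XT.nd (nat_lit 156)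 (nat_lit 532) (nat_lit 0) (XT.nd (nat_lit 78) (nat_lit 0) (nat_lit 0) (XT.lf (nat_lit 0) (nat_lit 800734346) (nat_lit 456) (nat_lit 5473867176) (nat_lit 76) (nat_lit 238112552) (nat_lit 762) (nat_lit 5) (nat_lit 768) (nat_lit 5) (nat_lit 763) (nat_lit 5) (nat_lit 530) (nat_lit 521) (nat_lit 509)) (XT.lf (nat_lit 0) (nat_lit 3649787061) (nat_lit 456) (nat_lit 1945794472) (nat_lit 76) (nat_lit 930955053) (nat_lit 762) (nat_lit 5) (nat_lit 768) (nat_lit 5) (nat_lit 763) (nat_lit 5) (nat_lit 531) (nat_lit 521) (nat_lit 508))) (XT.nd (nat_lit 78) (nat_lit 76) (nat_lit 0) (XT.lf (nat_lit 0) (nat_lit 1631982025) (nat_lit 456) (nat_lit 4863994632) (nat_lit 532) (nat_lit 45863063) (nat_lit 756) (nat_lit 5) (nat_lit 762) (nat_lit 5) (nat_lit 763) (nat_lit 5) (nat_lit 532) (nat_lit 521) (nat_lit 507)) (XT.lf (nat_lit 0) (nat_lit 2747718580) (nat_lit 532) (nat_lit 1310952197) (nat_lit 76) (nat_lit 2499549229) (nat_lit 755) (nat_lit 5) (nat_lit 762) (nat_lit 5) (nat_lit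 756) (nat_lit 5) (nat_lit 533) (nat_lit 521) (nat_lit 506)))))) (XT.nd (nat_lit 546) (nat_lit 5168) (nat_lit 0) (XT.nd (nat_lit 234) (nat_lit 1596) (nat_lit 0) (XT.nd (nat_lit 78) (nat_lit 684) (nat_lit 0) (XT.lf (nat_lit 0) (nat_lit 2348350303) (nat_lit 532) (nat_lit 3195025961) (nat_lit 608) (nat_lit 1032616069) (nat_lit 748) (nat_lit 5) (nat_lit 755) (nat_lit 5) (nat_lit 756) (nat_lit 5) (nat_lit 534) (nat_lit 521) (nat_lit 505)) (XT.nd (nat_lit 78) (nat_lit 608) (nat_lit 0) (XT.lf (nat_lit 0) (nat_lit 1718252782) (nat_lit 608) (nat_lit 549792808) (nat_lit 76) (nat_lit 4327026397) (nat_lit 747) (nat_lit 5) (nat_lit 755) (nat_lit 5) (nat_lit 748) (nat_lit 5) (nat_lit 535) (nat_lit 521) (nat_lit 504)) (XT.lf (nat_lit 0) (nat_lit 3194805351) (nat_lit 608) (nat_lit 1269780806) (nat_lit 684) (nat_lit 2150731560) (nat_lit 739) (nat_lit 5) (nat_lit 747) (nat_lit 5) (nat_lit 748) (nat_lit 5) (nat_lit 536) (nat_lit 521) (nat_lit 503)))) (XT.nd (nat_lit 156) (nat_lit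 836) (nat_lit 0) (XT.nd (nat_lit 78) (nat_lit 0) (nat_lit 0) (XT.lf (nat_lit 0) (nat_lit 343771740) (nat_lit 684) (nat_lit 217902929) (nat_lit 760) (nat_lit 6075416965) (nat_lit 729) (nat_lit 5) (nat_lit 738) (nat_lit 5) (nat_lit 739) (nat_lit 5) (nat_lit 537) (nat_lit 521) (nat_lit 502)) (XT.lf (nat_lit 0) (nat_lit 3263491533) (nat_lit 760) (nat_lit 2492728678) (nat_lit 76) (nat_lit 903523377) (nat_lit 729) (nat_lit 5) (nat_lit 739) (nat_lit 5) (nat_lit 730) (nat_lit 5) (nat_lit 538) (nat_lit 521) (nat_lit 501))) (XT.nd (nat_lit 78) (nat_lit 76) (nat_lit 0) (XT.lf (nat_lit 0) (nat_lit 1357442620) (nat_lit 760) (nat_lit 4608704800) (nat_lit 836) (nat_lit 717771086) (nat_lit 719) (nat_lit 5) (nat_lit 729) (nat_lit 5) (nat_lit 730) (nat_lit 5) (nat_lit 539) (nat_lit 521) (nat_lit 500)) (XT.lf (nat_lit 0) (nat_lit 1941794956) (nat_lit 836) (nat_lit 1446376233) (nat_lit 76) (nat_lit 3321071259) (nat_lit 718) (nat_lit 5) (nat_lit 729) (nat_lit 5) (nat_lit 719)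 (nat_lit 5) (nat_lit 540) (nat_lit 521) (nat_lit 499))))) (XT.nd (nat_lit 312) (nat_lit 2356) (nat_lit 0) (XT.nd (nat_lit 156) (nat_lit 1900) (nat_lit 0) (XT.nd (nat_lit 78) (nat_lit 76) (nat_lit 0) (XT.lf (nat_lit 0) (nat_lit 2496816213) (nat_lit 836) (nat_lit 2102673352) (nat_lit 912) (nat_lit 2136403085) (nat_lit 707) (nat_lit 5) (nat_lit 718) (nat_lit 5) (nat_lit 719) (nat_lit 5) (nat_lit 541) (nat_lit 521) (nat_lit 498)) (XT.lf (nat_lit 0) (nat_lit 488710653) (nat_lit 912) (nat_lit 271061001) (nat_lit 76) (nat_lit 6004266037) (nat_lit 706) (nat_lit 5) (nat_lit 718) (nat_lit 5) (nat_lit 707) (nat_lit 5) (nat_lit 542) (nat_lit 521) (nat_lit 497))) (XT.nd (nat_lit 78) (nat_lit 988) (nat_lit 0) (XT.lf (nat_lit 0) (nat_lit 3106606487) (nat_lit 988) (nat_lit 3028102440) (nat_lit 76) (nat_lit 658381858) (nat_lit 694) (nat_lit 5) (nat_lit 707) (nat_lit 5) (nat_lit 695) (nat_lit 5) (nat_lit 543) (nat_lit 521) (nat_lit 496)) (XT.lf (nat_lit 0) (nat_lit 1027966734)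 (nat_lit 988) (nat_lit 4703499336) (nat_lit 1064) (nat_lit 1092171959) (nat_lit 681) (nat_lit 5) (nat_lit 694) (nat_lit 5) (nat_lit 695) (nat_lit 5) (nat_lit 544) (nat_lit 521) (nat_lit 495)))) (XT.nd (nat_lit 156) (nat_lit 1216) (nat_lit 0) (XT.nd (nat_lit 78) (nat_lit 1064) (nat_lit 0) (XT.lf (nat_lit 0) (nat_lit 1495656270) (nat_lit 1064) (nat_lit 1702123521) (nat_lit 76) (nat_lit 3657579417) (nat_lit 680) (nat_lit 5) (nat_lit 694) (nat_lit 5) (nat_lit 681) (nat_lit 5) (nat_lit 545) (nat_lit 521) (nat_lit 494)) (XT.lf (nat_lit 0) (nat_lit 2455409158) (nat_lit 1064) (nat_lit 1623865745) (nat_lit 1140) (nat_lit 2809127266) (nat_lit 666) (nat_lit 5) (nat_lit 680) (nat_lit 5) (nat_lit 681) (nat_lit 5) (nat_lit 546) (nat_lit 521) (nat_lit 493))) (XT.nd (nat_lit 78) (nat_lit 1216) (nat_lit 0) (XT.lf (nat_lit 0) (nat_lit 6669583123) (nat_lit 1140) (nat_lit 246466252) (nat_lit 76) (nat_lit 6961080) (nat_lit 666) (nat_lit 5) (nat_lit 681) (nat_lit 5) (nat_lit 667)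 (nat_lit 5) (nat_lit 547) (nat_lit 521) (nat_lit 492)) (XT.lf (nat_lit 0) (nat_lit 2304012737) (nat_lit 1216) (nat_lit 2950983216) (nat_lit 76) (nat_lit 1703384158) (nat_lit 650) (nat_lit 5) (nat_lit 666) (nat_lit 5) (nat_lit 651) (nat_lit 5) (nat_lit 548) (nat_lit 521) (nat_lit 491))))))) (XT.nd (nat_lit 1092) (nat_lit 8740) (nat_lit 0) (XT.nd (nat_lit 546) (nat_lit 8588) (nat_lit 0) (XT.nd (nat_lit 234) (nat_lit 2888) (nat_lit 0) (XT.nd (nat_lit 78) (nat_lit 1368) (nat_lit 0) (XT.lf (nat_lit 0) (nat_lit 1327586471) (nat_lit 1216) (nat_lit 3537095171) (nat_lit 1292) (nat_lit 2130637077) (nat_lit 634) (nat_lit 5) (nat_lit 650) (nat_lit 5) (nat_lit 651) (nat_lit 5) (nat_lit 549) (nat_lit 521) (nat_lit 490)) (XT.nd (nat_lit 78) (nat_lit 1292) (nat_lit 0) (XT.lf (nat_lit 0) (nat_lit 403302754) (nat_lit 1292) (nat_lit 1347713741) (nat_lit 76) (nat_lit 5282615314) (nat_lit 633) (nat_lit 5) (nat_lit 650) (nat_lit 5) (nat_lit 634) (nat_lit 5) (nat_lit 550) (nat_lit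 521) (nat_lit 489)) (XT.lf (nat_lit 0) (nat_lit 2926602201) (nat_lit 1368) (nat_lit 4032342665) (nat_lit 76) (nat_lit 114144694) (nat_lit 616) (nat_lit 5) (nat_lit 634) (nat_lit 5) (nat_lit 617) (nat_lit 5) (nat_lit 551) (nat_lit 521) (nat_lit 488)))) (XT.nd (nat_lit 156) (nat_lit 1444) (nat_lit 0) (XT.nd (nat_lit 78) (nat_lit 76) (nat_lit 0) (XT.lf (nat_lit 0) (nat_lit 371497503) (nat_lit 1368) (nat_lit 5099499175) (nat_lit 1444) (nat_lit 1642931393) (nat_lit 598) (nat_lit 5) (nat_lit 616) (nat_lit 5) (nat_lit 617) (nat_lit 5) (nat_lit 552) (nat_lit 521) (nat_lit 487)) (XT.lf (nat_lit 0) (nat_lit 873907068) (nat_lit 1444) (nat_lit 2287276729) (nat_lit 76) (nat_lit 3994782217) (nat_lit 597) (nat_lit 5) (nat_lit 616) (nat_lit 5) (nat_lit 598) (nat_lit 5) (nat_lit 553) (nat_lit 521) (nat_lit 486))) (XT.nd (nat_lit 78) (nat_lit 0) (nat_lit 0) (XT.lf (nat_lit 0) (nat_lit 2232023768) (nat_lit 1444) (nat_lit 1150510233) (nat_lit 1520) (nat_lit 3816828455) (nat_lit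 578) (nat_lit 5) (nat_lit 597) (nat_lit 5) (nat_lit 598) (nat_lit 5) (nat_lit 554) (nat_lit 521) (nat_lit 485)) (XT.lf (nat_lit 0) (nat_lit 5912336855) (nat_lit 1520) (nat_lit 420674615) (nat_lit 76) (nat_lit 911199156) (nat_lit 578) (nat_lit 5) (nat_lit 598) (nat_lit 5) (nat_lit 579) (nat_lit 5) (nat_lit 555) (nat_lit 521) (nat_lit 484))))) (XT.nd (nat_lit 234) (nat_lit 5396) (nat_lit 0) (XT.nd (nat_lit 78) (nat_lit 1596) (nat_lit 0) (XT.lf (nat_lit 0) (nat_lit 1172627690) (nat_lit 1596) (nat_lit 3076548811) (nat_lit 76) (nat_lit 3040914344) (nat_lit 557) (nat_lit 5) (nat_lit 578) (nat_lit 5) (nat_lit 558) (nat_lit 5) (nat_lit 556) (nat_lit 521) (nat_lit 483)) (XT.nd (nat_lit 78) (nat_lit 0) (nat_lit 0) (XT.lf (nat_lit 0) (nat_lit 1577537240) (nat_lit 1596) (nat_lit 2096004224) (nat_lit 1672) (nat_lit 3663891654) (nat_lit 536) (nat_lit 5) (nat_lit 557) (nat_lit 5) (nat_lit 558) (nat_lit 5) (nat_lit 557) (nat_lit 521) (nat_lit 482)) (XT.lf (nat_lit 0) (nat_lit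 6197671908) (nat_lit 1672) (nat_lit 1064028810) (nat_lit 76) (nat_lit 124561124) (nat_lit 536) (nat_lit 5) (nat_lit 558) (nat_lit 5) (nat_lit 537) (nat_lit 5) (nat_lit 558) (nat_lit 521) (nat_lit 481)))) (XT.nd (nat_lit 156) (nat_lit 1900) (nat_lit 0) (XT.nd (nat_lit 78) (nat_lit 1748) (nat_lit 0) (XT.lf (nat_lit 0) (nat_lit 1309354679) (nat_lit 1748) (nat_lit 3727715366) (nat_lit 76) (nat_lit 2399013786) (nat_lit 513) (nat_lit 5) (nat_lit 536) (nat_lit 5) (nat_lit 514) (nat_lit 5) (nat_lit 559) (nat_lit 521) (nat_lit 480)) (XT.lf (nat_lit 0) (nat_lit 1066128774) (nat_lit 1748) (nat_lit 2742384541) (nat_lit 1824) (nat_lit 3678891775) (nat_lit 490) (nat_lit 5) (nat_lit 513) (nat_lit 5) (nat_lit 514) (nat_lit 5) (nat_lit 560) (nat_lit 521) (nat_lit 479))) (XT.nd (nat_lit 78) (nat_lit 1900) (nat_lit 0) (XT.lf (nat_lit 0) (nat_lit 5962855825) (nat_lit 1748) (nat_lit 373498287) (nat_lit 1824) (nat_lit 1203827982) (nat_lit 490) (nat_lit 5) (nat_lit 513) (nat_lit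 5) (nat_lit 514) (nat_lit 5) (nat_lit 561) (nat_lit 521) (nat_lit 478)) (XT.lf (nat_lit 0) (nat_lit 1292970677) (nat_lit 1900) (nat_lit 4252148310) (nat_lit 76) (nat_lit 2048936217) (nat_lit 465) (nat_lit 5) (nat_lit 490) (nat_lit 5) (nat_lit 466) (nat_lit 5) (nat_lit 562) (nat_lit 521) (nat_lit 477)))))) (XT.nd (nat_lit 546) (nat_lit 4028) (nat_lit 0) (XT.nd (nat_lit 234) (nat_lit 2660) (nat_lit 0) (XT.nd (nat_lit 78) (nat_lit 988) (nat_lit 0) (XT.lf (nat_lit 0) (nat_lit 686686506) (nat_lit 1064) (nat_lit 3109420394) (nat_lit 1140) (nat_lit 3853292423) (nat_lit 451) (nat_lit 5) (nat_lit 465) (nat_lit 5) (nat_lit 466) (nat_lit 5) (nat_lit 563) (nat_lit 521) (nat_lit 476)) (XT.nd (nat_lit 78) (nat_lit 988) (nat_lit 0) (XT.lf (nat_lit 0) (nat_lit 5738310669) (nat_lit 1064) (nat_lit 595049092) (nat_lit 1140) (nat_lit 1372812536) (nat_lit 451) (nat_lit 5) (nat_lit 465) (nat_lit 5) (nat_lit 466) (nat_lit 5) (nat_lit 564) (nat_lit 521) (nat_lit 475)) (XT.lf (nat_lit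 0) (nat_lit 1131411487) (nat_lit 988) (nat_lit 4660487814) (nat_lit 76) (nat_lit 1972247836) (nat_lit 438) (nat_lit 5) (nat_lit 451) (nat_lit 5) (nat_lit 439) (nat_lit 5) (nat_lit 565) (nat_lit 521) (nat_lit 474)))) (XT.nd (nat_lit 156) (nat_lit 1748) (nat_lit 0) (XT.nd (nat_lit 78) (nat_lit 0) (nat_lit 0) (XT.lf (nat_lit 0) (nat_lit 428829879) (nat_lit 912) (nat_lit 3215226049) (nat_lit 988) (nat_lit 4179512574) (nat_lit 426) (nat_lit 5) (nat_lit 438) (nat_lit 5) (nat_lit 439) (nat_lit 5) (nat_lit 566) (nat_lit 521) (nat_lit 473)) (XT.lf (nat_lit 0) (nat_lit 5639454301) (nat_lit 912) (nat_lit 556022116) (nat_lit 988) (nat_lit 1688934234) (nat_lit 426) (nat_lit 5) (nat_lit 438) (nat_lit 5) (nat_lit 439) (nat_lit 5) (nat_lit 567) (nat_lit 521) (nat_lit 472))) (XT.nd (nat_lit 78) (nat_lit 836) (nat_lit 0) (XT.lf (nat_lit 0) (nat_lit 831720633) (nat_lit 912) (nat_lit 4962720061) (nat_lit 76) (nat_lit 2152092454) (nat_lit 414) (nat_lit 5) (nat_lit 426) (nat_lit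 5) (nat_lit 415) (nat_lit 5) (nat_lit 568) (nat_lit 521) (nat_lit 471)) (XT.lf (nat_lit 0) (nat_lit 282832208) (nat_lit 836) (nat_lit 3076391052) (nat_lit 912) (nat_lit 4650873222) (nat_lit 403) (nat_lit 5) (nat_lit 414) (nat_lit 5) (nat_lit 415) (nat_lit 5) (nat_lit 569) (nat_lit 521) (nat_lit 470))))) (XT.nd (nat_lit 312) (nat_lit 2280) (nat_lit 0) (XT.nd (nat_lit 156) (nat_lit 836) (nat_lit 0) (XT.nd (nat_lit 78) (nat_lit 912) (nat_lit 0) (XT.lf (nat_lit 0) (nat_lit 5656953081) (nat_lit 836) (nat_lit 272504065) (nat_lit 912) (nat_lit 2145632916) (nat_lit 403) (nat_lit 5) (nat_lit 414) (nat_lit 5) (nat_lit 415) (nat_lit 5) (nat_lit 570) (nat_lit 521) (nat_lit 469)) (XT.lf (nat_lit 0) (nat_lit 400098232) (nat_lit 912) (nat_lit 5168251571) (nat_lit 76) (nat_lit 2573067821) (nat_lit 391) (nat_lit 5) (nat_lit 403) (nat_lit 5) (nat_lit 392) (nat_lit 5) (nat_lit 571) (nat_lit 521) (nat_lit 468))) (XT.nd (nat_lit 78) (nat_lit 0) (nat_lit 0) (XT.lf (nat_lit 0) (nat_lit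 239546605) (nat_lit 836) (nat_lit 2708101513) (nat_lit 912) (nat_lit 5261549736) (nat_lit 380) (nat_lit 5) (nat_lit 391) (nat_lit 5) (nat_lit 392) (nat_lit 5) (nat_lit 572) (nat_lit 521) (nat_lit 467)) (XT.lf (nat_lit 0) (nat_lit 5542810523) (nat_lit 912) (nat_lit 2497951554) (nat_lit 76) (nat_lit 237640786) (nat_lit 380) (nat_lit 5) (nat_lit 392) (nat_lit 5) (nat_lit 381) (nat_lit 5) (nat_lit 573) (nat_lit 521) (nat_lit 466)))) (XT.nd (nat_lit 156) (nat_lit 684) (nat_lit 0) (XT.nd (nat_lit 78) (nat_lit 836) (nat_lit 0) (XT.lf (nat_lit 0) (nat_lit 3061994207) (nat_lit 760) (nat_lit 5126864462) (nat_lit 836) (nat_lit 160156011) (nat_lit 370) (nat_lit 5) (nat_lit 380) (nat_lit 5) (nat_lit 381) (nat_lit 5) (nat_lit 574) (nat_lit 521) (nat_lit 465)) (XT.lf (nat_lit 0) (nat_lit 290334728) (nat_lit 760) (nat_lit 2124253262) (nat_lit 836) (nat_lit 6006529662) (nat_lit 359) (nat_lit 5) (nat_lit 369) (nat_lit 5) (nat_lit 370) (nat_lit 5) (nat_lit 575) (nat_lit 521)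 (nat_lit 464))) (XT.nd (nat_lit 78) (nat_lit 684) (nat_lit 0) (XT.lf (nat_lit 0) (nat_lit 5042325130) (nat_lit 836) (nat_lit 2494523141) (nat_lit 76) (nat_lit 957722607) (nat_lit 359) (nat_lit 5) (nat_lit 370) (nat_lit 5) (nat_lit 360) (nat_lit 5) (nat_lit 576) (nat_lit 521) (nat_lit 463)) (XT.lf (nat_lit 0) (nat_lit 3239661458) (nat_lit 684) (nat_lit 4480640144) (nat_lit 760) (nat_lit 849240052) (nat_lit 350) (nat_lit 5) (nat_lit 359) (nat_lit 5) (nat_lit 360) (nat_lit 5) (nat_lit 577) (nat_lit 521) (nat_lit 462))))))))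
noncomputable def xc75 : XT := (XT.nd (nat_lit 2262) (nat_lit 7296) (nat_lit 0) (XT.nd (nat_lit 1092) (nat_lit 5624) (nat_lit 0) (XT.nd (nat_lit 546) (nat_lit 2584) (nat_lit 0) (XT.nd (nat_lit 234) (nat_lit 2128) (nat_lit 0) (XT.nd (nat_lit 78) (nat_lit 684) (nat_lit 0) (XT.lf (nat_lit 0) (nat_lit 426997831) (nat_lit 760) (nat_lit 1337557635) (nat_lit 836) (nat_lit 6881575713) (nat_lit 339) (nat_lit 5) (nat_lit 349) (nat_lit 5) (nat_lit 350) (nat_lit 5) (nat_lit 578) (nat_lit 521) (nat_lit 461)) (XT.nd (nat_lit 78) (nat_lit 684) (nat_lit 0) (XT.lf (nat_lit 0) (nat_lit 4430598813) (nat_lit 836) (nat_lit 2414111077) (nat_lit 76) (nat_lit 1879205522) (nat_lit 339) (nat_lit 5) (nat_lit 350) (nat_lit 5) (nat_lit 340) (nat_lit 5) (nat_lit 579) (nat_lit 521) (nat_lit 460)) (XT.lf (nat_lit 0) (nat_lit 3501087220) (nat_lit 684) (nat_lit 3644385421) (nat_lit 760) (nat_lit 1657874509) (nat_lit 330) (nat_lit 5) (nat_lit 339) (nat_lit 5) (nat_lit 340) (nat_lit 5) (nat_lit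 580) (nat_lit 521) (nat_lit 459)))) (XT.nd (nat_lit 156) (nat_lit 1368) (nat_lit 0) (XT.nd (nat_lit 78) (nat_lit 0) (nat_lit 0) (XT.lf (nat_lit 0) (nat_lit 641709602) (nat_lit 684) (nat_lit 359640608) (nat_lit 760) (nat_lit 7883193741) (nat_lit 320) (nat_lit 5) (nat_lit 329) (nat_lit 5) (nat_lit 330) (nat_lit 5) (nat_lit 581) (nat_lit 521) (nat_lit 458)) (XT.lf (nat_lit 0) (nat_lit 3711305390) (nat_lit 760) (nat_lit 2264412889) (nat_lit 76) (nat_lit 2991034236) (nat_lit 320) (nat_lit 5) (nat_lit 330) (nat_lit 5) (nat_lit 321) (nat_lit 5) (nat_lit 582) (nat_lit 521) (nat_lit 457))) (XT.nd (nat_lit 78) (nat_lit 760) (nat_lit 0) (XT.lf (nat_lit 0) (nat_lit 3838837727) (nat_lit 608) (nat_lit 2629113551) (nat_lit 684) (nat_lit 2582805999) (nat_lit 312) (nat_lit 5) (nat_lit 320) (nat_lit 5) (nat_lit 321) (nat_lit 5) (nat_lit 583) (nat_lit 521) (nat_lit 456)) (XT.lf (nat_lit 0) (nat_lit 133272999) (nat_lit 760) (nat_lit 8214928247) (nat_lit 76) (nat_lit 788386782)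 (nat_lit 302) (nat_lit 5) (nat_lit 312) (nat_lit 5) (nat_lit 303) (nat_lit 5) (nat_lit 584) (nat_lit 521) (nat_lit 455))))) (XT.nd (nat_lit 234) (nat_lit 1368) (nat_lit 0) (XT.nd (nat_lit 78) (nat_lit 1216) (nat_lit 0) (XT.lf (nat_lit 0) (nat_lit 2887451161) (nat_lit 760) (nat_lit 2052859594) (nat_lit 76) (nat_lit 4283117717) (nat_lit 302) (nat_lit 5) (nat_lit 312) (nat_lit 5) (nat_lit 303) (nat_lit 5) (nat_lit 585) (nat_lit 521) (nat_lit 454)) (XT.nd (nat_lit 78) (nat_lit 608) (nat_lit 0) (XT.lf (nat_lit 0) (nat_lit 4245746222) (nat_lit 608) (nat_lit 1444916528) (nat_lit 684) (nat_lit 3621465696) (nat_lit 294) (nat_lit 5) (nat_lit 302) (nat_lit 5) (nat_lit 303) (nat_lit 5) (nat_lit 586) (nat_lit 521) (nat_lit 453)) (XT.lf (nat_lit 0) (nat_lit 1255717364) (nat_lit 608) (nat_lit 7296719866) (nat_lit 684) (nat_lit 850116899) (nat_lit 286) (nat_lit 5) (nat_lit 294) (nat_lit 5) (nat_lit 295) (nat_lit 5) (nat_lit 587) (nat_lit 521) (nat_lit 452)))) (XT.nd (nat_lit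 156) (nat_lit 684) (nat_lit 0) (XT.nd (nat_lit 78) (nat_lit 608) (nat_lit 0) (XT.lf (nat_lit 0) (nat_lit 1961396226) (nat_lit 684) (nat_lit 1786679777) (nat_lit 76) (nat_lit 5746244034) (nat_lit 285) (nat_lit 5) (nat_lit 294) (nat_lit 5) (nat_lit 286) (nat_lit 5) (nat_lit 588) (nat_lit 521) (nat_lit 451)) (XT.lf (nat_lit 0) (nat_lit 4714848696) (nat_lit 608) (nat_lit 101049401) (nat_lit 684) (nat_lit 4771949537) (nat_lit 277) (nat_lit 5) (nat_lit 285) (nat_lit 5) (nat_lit 286) (nat_lit 5) (nat_lit 589) (nat_lit 521) (nat_lit 450))) (XT.nd (nat_lit 78) (nat_lit 76) (nat_lit 0) (XT.lf (nat_lit 0) (nat_lit 1643253919) (nat_lit 608) (nat_lit 6098292654) (nat_lit 684) (nat_lit 1941419634) (nat_lit 269) (nat_lit 5) (nat_lit 277) (nat_lit 5) (nat_lit 278) (nat_lit 5) (nat_lit 590) (nat_lit 521) (nat_lit 449)) (XT.lf (nat_lit 0) (nat_lit 934871409) (nat_lit 684) (nat_lit 1472963649) (nat_lit 76) (nat_lit 7371999707) (nat_lit 268) (nat_lit 5) (nat_lit 277) (nat_lit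 5) (nat_lit 269) (nat_lit 5) (nat_lit 591) (nat_lit 521) (nat_lit 448)))))) (XT.nd (nat_lit 546) (nat_lit 2888) (nat_lit 0) (XT.nd (nat_lit 234) (nat_lit 1672) (nat_lit 0) (XT.nd (nat_lit 78) (nat_lit 532) (nat_lit 0) (XT.lf (nat_lit 0) (nat_lit 3854380585) (nat_lit 608) (nat_lit 4648063925) (nat_lit 76) (nat_lit 1375707235) (nat_lit 261) (nat_lit 5) (nat_lit 269) (nat_lit 5) (nat_lit 262) (nat_lit 5) (nat_lit 592) (nat_lit 521) (nat_lit 447)) (XT.nd (nat_lit 78) (nat_lit 0) (nat_lit 0) (XT.lf (nat_lit 0) (nat_lit 2078234966) (nat_lit 532) (nat_lit 4762309814) (nat_lit 608) (nat_lit 3137726425) (nat_lit 254) (nat_lit 5) (nat_lit 261) (nat_lit 5) (nat_lit 262) (nat_lit 5) (nat_lit 593) (nat_lit 521) (nat_lit 446)) (XT.lf (nat_lit 0) (nat_lit 8960402060) (nat_lit 532) (nat_lit 926436734) (nat_lit 608) (nat_lit 193547540) (nat_lit 254) (nat_lit 5) (nat_lit 261) (nat_lit 5) (nat_lit 262) (nat_lit 5) (nat_lit 594) (nat_lit 521) (nat_lit 445)))) (XT.nd (nat_lit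 156) (nat_lit 532) (nat_lit 0) (XT.nd (nat_lit 78) (nat_lit 532) (nat_lit 0) (XT.lf (nat_lit 0) (nat_lit 2799711828) (nat_lit 608) (nat_lit 4391314852) (nat_lit 76) (nat_lit 2992612729) (nat_lit 246) (nat_lit 5) (nat_lit 254) (nat_lit 5) (nat_lit 247) (nat_lit 5) (nat_lit 595) (nat_lit 521) (nat_lit 444)) (XT.lf (nat_lit 0) (nat_lit 2553768539) (nat_lit 532) (nat_lit 3296636887) (nat_lit 608) (nat_lit 4438524648) (nat_lit 239) (nat_lit 5) (nat_lit 246) (nat_lit 5) (nat_lit 247) (nat_lit 5) (nat_lit 596) (nat_lit 521) (nat_lit 443))) (XT.nd (nat_lit 78) (nat_lit 532) (nat_lit 0) (XT.lf (nat_lit 0) (nat_lit 8966288094) (nat_lit 608) (nat_lit 744801690) (nat_lit 76) (nat_lit 685154567) (nat_lit 239) (nat_lit 5) (nat_lit 247) (nat_lit 5) (nat_lit 240) (nat_lit 5) (nat_lit 597) (nat_lit 521) (nat_lit 442)) (XT.lf (nat_lit 0) (nat_lit 1651654492) (nat_lit 532) (nat_lit 4109275141) (nat_lit 76) (nat_lit 4743876449) (nat_lit 232) (nat_lit 5) (nat_lit 239) (nat_lit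 5) (nat_lit 233) (nat_lit 5) (nat_lit 598) (nat_lit 521) (nat_lit 441))))) (XT.nd (nat_lit 312) (nat_lit 1368) (nat_lit 0) (XT.nd (nat_lit 156) (nat_lit 988) (nat_lit 0) (XT.nd (nat_lit 78) (nat_lit 0) (nat_lit 0) (XT.lf (nat_lit 0) (nat_lit 3062932671) (nat_lit 532) (nat_lit 1708581420) (nat_lit 608) (nat_lit 5843921870) (nat_lit 225) (nat_lit 5) (nat_lit 232) (nat_lit 5) (nat_lit 233) (nat_lit 5) (nat_lit 599) (nat_lit 521) (nat_lit 440)) (XT.lf (nat_lit 0) (nat_lit 7968330254) (nat_lit 608) (nat_lit 350659362) (nat_lit 76) (nat_lit 2408998837) (nat_lit 225) (nat_lit 5) (nat_lit 233) (nat_lit 5) (nat_lit 226) (nat_lit 5) (nat_lit 600) (nat_lit 521) (nat_lit 439))) (XT.nd (nat_lit 78) (nat_lit 456) (nat_lit 0) (XT.lf (nat_lit 0) (nat_lit 410033720) (nat_lit 532) (nat_lit 3809221164) (nat_lit 76) (nat_lit 6622911919) (nat_lit 218) (nat_lit 5) (nat_lit 225) (nat_lit 5) (nat_lit 219) (nat_lit 5) (nat_lit 601) (nat_lit 521) (nat_lit 438)) (XT.lf (nat_lit 0) (nat_lit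 3598706550) (nat_lit 456) (nat_lit 4963028) (nat_lit 532) (nat_lit 7354645411) (nat_lit 212) (nat_lit 5) (nat_lit 218) (nat_lit 5) (nat_lit 219) (nat_lit 5) (nat_lit 602) (nat_lit 521) (nat_lit 437)))) (XT.nd (nat_lit 156) (nat_lit 912) (nat_lit 0) (XT.nd (nat_lit 78) (nat_lit 0) (nat_lit 0) (XT.lf (nat_lit 0) (nat_lit 62113917) (nat_lit 456) (nat_lit 6825021390) (nat_lit 532) (nat_lit 4189132799) (nat_lit 206) (nat_lit 5) (nat_lit 212) (nat_lit 5) (nat_lit 213) (nat_lit 5) (nat_lit 603) (nat_lit 521) (nat_lit 436)) (XT.lf (nat_lit 0) (nat_lit 7691459963) (nat_lit 456) (nat_lit 2566462476) (nat_lit 532) (nat_lit 938225894) (nat_lit 206) (nat_lit 5) (nat_lit 212) (nat_lit 5) (nat_lit 213) (nat_lit 5) (nat_lit 604) (nat_lit 521) (nat_lit 435))) (XT.nd (nat_lit 78) (nat_lit 380) (nat_lit 0) (XT.lf (nat_lit 0) (nat_lit 2357818330) (nat_lit 532) (nat_lit 7175965645) (nat_lit 76) (nat_lit 1784108421) (nat_lit 199) (nat_lit 5) (nat_lit 206) (nat_lit 5) (nat_lit 200)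 (nat_lit 5) (nat_lit 605) (nat_lit 521) (nat_lit 434)) (XT.lf (nat_lit 0) (nat_lit 490136479) (nat_lit 380) (nat_lit 5233740409) (nat_lit 456) (nat_lit 5717738321) (nat_lit 194) (nat_lit 5) (nat_lit 199) (nat_lit 5) (nat_lit 200) (nat_lit 5) (nat_lit 606) (nat_lit 521) (nat_lit 433))))))) (XT.nd (nat_lit 1170) (nat_lit 3268) (nat_lit 0) (XT.nd (nat_lit 546) (nat_lit 2280) (nat_lit 0) (XT.nd (nat_lit 234) (nat_lit 836) (nat_lit 0) (XT.nd (nat_lit 78) (nat_lit 912) (nat_lit 0) (XT.lf (nat_lit 0) (nat_lit 8366791605) (nat_lit 380) (nat_lit 811684802) (nat_lit 456) (nat_lit 2388912680) (nat_lit 194) (nat_lit 5) (nat_lit 199) (nat_lit 5) (nat_lit 200) (nat_lit 5) (nat_lit 607) (nat_lit 521) (nat_lit 432)) (XT.nd (nat_lit 78) (nat_lit 380) (nat_lit 0) (XT.lf (nat_lit 0) (nat_lit 1021535919) (nat_lit 532) (nat_lit 6998570072) (nat_lit 76) (nat_lit 3674877788) (nat_lit 187) (nat_lit 5) (nat_lit 194) (nat_lit 5) (nat_lit 188) (nat_lit 5) (nat_lit 608) (nat_lit 521)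 (nat_lit 431)) (XT.lf (nat_lit 0) (nat_lit 920997728) (nat_lit 380) (nat_lit 3553811862) (nat_lit 456) (nat_lit 7349873836) (nat_lit 182) (nat_lit 5) (nat_lit 187) (nat_lit 5) (nat_lit 188) (nat_lit 5) (nat_lit 609) (nat_lit 521) (nat_lit 430)))) (XT.nd (nat_lit 156) (nat_lit 456) (nat_lit 0) (XT.nd (nat_lit 78) (nat_lit 380) (nat_lit 0) (XT.lf (nat_lit 0) (nat_lit 8024701009) (nat_lit 456) (nat_lit 2908996196) (nat_lit 76) (nat_lit 1022729745) (nat_lit 182) (nat_lit 5) (nat_lit 188) (nat_lit 5) (nat_lit 183) (nat_lit 5) (nat_lit 610) (nat_lit 521) (nat_lit 429)) (XT.lf (nat_lit 0) (nat_lit 5251745850) (nat_lit 380) (nat_lit 6425764423) (nat_lit 456) (nat_lit 412657583) (nat_lit 177) (nat_lit 5) (nat_lit 182) (nat_lit 5) (nat_lit 183) (nat_lit 5) (nat_lit 611) (nat_lit 521) (nat_lit 428))) (XT.nd (nat_lit 78) (nat_lit 0) (nat_lit 0) (XT.lf (nat_lit 0) (nat_lit 1346579932) (nat_lit 380) (nat_lit 1791310037) (nat_lit 456) (nat_lit 9088226730) (nat_lit 171) (nat_lit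 5) (nat_lit 176) (nat_lit 5) (nat_lit 177) (nat_lit 5) (nat_lit 612) (nat_lit 521) (nat_lit 427)) (XT.lf (nat_lit 0) (nat_lit 6793712628) (nat_lit 456) (nat_lit 2637415371) (nat_lit 76) (nat_lit 2932807030) (nat_lit 171) (nat_lit 5) (nat_lit 177) (nat_lit 5) (nat_lit 172) (nat_lit 5) (nat_lit 613) (nat_lit 521) (nat_lit 426))))) (XT.nd (nat_lit 312) (nat_lit 1064) (nat_lit 0) (XT.nd (nat_lit 156) (nat_lit 380) (nat_lit 0) (XT.nd (nat_lit 78) (nat_lit 456) (nat_lit 0) (XT.lf (nat_lit 0) (nat_lit 5795032433) (nat_lit 380) (nat_lit 4752136681) (nat_lit 456) (nat_lit 1956851109) (nat_lit 166) (nat_lit 5) (nat_lit 171) (nat_lit 5) (nat_lit 172) (nat_lit 5) (nat_lit 614) (nat_lit 521) (nat_lit 425)) (XT.lf (nat_lit 0) (nat_lit 1710761684) (nat_lit 456) (nat_lit 10888594880) (nat_lit 76) (nat_lit 47233927) (nat_lit 160) (nat_lit 5) (nat_lit 166) (nat_lit 5) (nat_lit 161) (nat_lit 5) (nat_lit 615) (nat_lit 521) (nat_lit 424))) (XT.nd (nat_lit 78) (nat_lit 380) (nat_lit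 0) (XT.lf (nat_lit 0) (nat_lit 5477592559) (nat_lit 456) (nat_lit 2389462137) (nat_lit 76) (nat_lit 4923658205) (nat_lit 160) (nat_lit 5) (nat_lit 166) (nat_lit 5) (nat_lit 161) (nat_lit 5) (nat_lit 616) (nat_lit 521) (nat_lit 423)) (XT.lf (nat_lit 0) (nat_lit 6324479720) (nat_lit 380) (nat_lit 3012081747) (nat_lit 456) (nat_lit 3600821042) (nat_lit 155) (nat_lit 5) (nat_lit 160) (nat_lit 5) (nat_lit 161) (nat_lit 5) (nat_lit 617) (nat_lit 521) (nat_lit 422)))) (XT.nd (nat_lit 156) (nat_lit 684) (nat_lit 0) (XT.nd (nat_lit 78) (nat_lit 0) (nat_lit 0) (XT.lf (nat_lit 0) (nat_lit 201890090) (nat_lit 380) (nat_lit 10952475324) (nat_lit 76) (nat_lit 1932224694) (nat_lit 150) (nat_lit 5) (nat_lit 155) (nat_lit 5) (nat_lit 151) (nat_lit 5) (nat_lit 618) (nat_lit 521) (nat_lit 421)) (XT.lf (nat_lit 0) (nat_lit 4073048917) (nat_lit 380) (nat_lit 2174599594) (nat_lit 76) (nat_lit 6989845882) (nat_lit 150) (nat_lit 5) (nat_lit 155) (nat_lit 5) (nat_lit 151) (nat_lit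 5) (nat_lit 619) (nat_lit 521) (nat_lit 420))) (XT.nd (nat_lit 78) (nat_lit 304) (nat_lit 0) (XT.lf (nat_lit 0) (nat_lit 6830843285) (nat_lit 380) (nat_lit 1211555543) (nat_lit 456) (nat_lit 5348603295) (nat_lit 145) (nat_lit 5) (nat_lit 150) (nat_lit 5) (nat_lit 151) (nat_lit 5) (nat_lit 620) (nat_lit 521) (nat_lit 419)) (XT.lf (nat_lit 0) (nat_lit 2467657744) (nat_lit 304) (nat_lit 9656221276) (nat_lit 380) (nat_lit 1423046828) (nat_lit 141) (nat_lit 5) (nat_lit 145) (nat_lit 5) (nat_lit 146) (nat_lit 5) (nat_lit 621) (nat_lit 521) (nat_lit 418)))))) (XT.nd (nat_lit 546) (nat_lit 1824) (nat_lit 0) (XT.nd (nat_lit 234) (nat_lit 684) (nat_lit 0) (XT.nd (nat_lit 78) (nat_lit 684) (nat_lit 0) (XT.lf (nat_lit 0) (nat_lit 2576116378) (nat_lit 380) (nat_lit 2002976641) (nat_lit 76) (nat_lit 9125961628) (nat_lit 140) (nat_lit 5) (nat_lit 145) (nat_lit 5) (nat_lit 141) (nat_lit 5) (nat_lit 622) (nat_lit 521) (nat_lit 417)) (XT.nd (nat_lit 78) (nat_lit 304) (nat_lit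 0) (XT.lf (nat_lit 0) (nat_lit 6664895054) (nat_lit 456) (nat_lit 6565664997) (nat_lit 76) (nat_lit 635024772) (nat_lit 135) (nat_lit 5) (nat_lit 141) (nat_lit 5) (nat_lit 136) (nat_lit 5) (nat_lit 623) (nat_lit 521) (nat_lit 416)) (XT.lf (nat_lit 0) (nat_lit 2755542514) (nat_lit 304) (nat_lit 8118839849) (nat_lit 380) (nat_lit 3154165229) (nat_lit 131) (nat_lit 5) (nat_lit 135) (nat_lit 5) (nat_lit 136) (nat_lit 5) (nat_lit 624) (nat_lit 521) (nat_lit 415)))) (XT.nd (nat_lit 156) (nat_lit 304) (nat_lit 0) (XT.nd (nat_lit 78) (nat_lit 304) (nat_lit 0) (XT.lf (nat_lit 0) (nat_lit 982120226) (nat_lit 380) (nat_lit 1885535693) (nat_lit 76) (nat_lit 11326556031) (nat_lit 130) (nat_lit 5) (nat_lit 135) (nat_lit 5) (nat_lit 131) (nat_lit 5) (nat_lit 625) (nat_lit 521) (nat_lit 414)) (XT.lf (nat_lit 0) (nat_lit 5203376017) (nat_lit 380) (nat_lit 6645006681) (nat_lit 76) (nat_lit 2513500954) (nat_lit 126) (nat_lit 5) (nat_lit 131) (nat_lit 5) (nat_lit 127) (nat_lit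 5) (nat_lit 626) (nat_lit 521) (nat_lit 413))) (XT.nd (nat_lit 78) (nat_lit 0) (nat_lit 0) (XT.lf (nat_lit 0) (nat_lit 2987760104) (nat_lit 304) (nat_lit 6550224187) (nat_lit 380) (nat_lit 4994346550) (nat_lit 122) (nat_lit 5) (nat_lit 126) (nat_lit 5) (nat_lit 127) (nat_lit 5) (nat_lit 627) (nat_lit 521) (nat_lit 412)) (XT.lf (nat_lit 0) (nat_lit 12866906662) (nat_lit 304) (nat_lit 1114969840) (nat_lit 380) (nat_lit 723859225) (nat_lit 122) (nat_lit 5) (nat_lit 126) (nat_lit 5) (nat_lit 127) (nat_lit 5) (nat_lit 628) (nat_lit 521) (nat_lit 411))))) (XT.nd (nat_lit 312) (nat_lit 836) (nat_lit 0) (XT.nd (nat_lit 156) (nat_lit 380) (nat_lit 0) (XT.nd (nat_lit 78) (nat_lit 228) (nat_lit 0) (XT.lf (nat_lit 0) (nat_lit 3644501263) (nat_lit 380) (nat_lit 6802832397) (nat_lit 76) (nat_lit 4433602022) (nat_lit 117) (nat_lit 5) (nat_lit 122) (nat_lit 5) (nat_lit 118) (nat_lit 5) (nat_lit 629) (nat_lit 521) (nat_lit 410)) (XT.lf (nat_lit 0) (nat_lit 3151957078) (nat_lit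 228) (nat_lit 4957248418) (nat_lit 304) (nat_lit 6949965620) (nat_lit 114) (nat_lit 5) (nat_lit 117) (nat_lit 5) (nat_lit 118) (nat_lit 5) (nat_lit 630) (nat_lit 521) (nat_lit 409))) (XT.nd (nat_lit 78) (nat_lit 380) (nat_lit 0) (XT.lf (nat_lit 0) (nat_lit 12691817386) (nat_lit 304) (nat_lit 1882604295) (nat_lit 76) (nat_lit 665977852) (nat_lit 114) (nat_lit 5) (nat_lit 118) (nat_lit 5) (nat_lit 115) (nat_lit 5) (nat_lit 631) (nat_lit 521) (nat_lit 408)) (XT.lf (nat_lit 0) (nat_lit 1981987728) (nat_lit 380) (nat_lit 7052759771) (nat_lit 76) (nat_lit 6388921257) (nat_lit 109) (nat_lit 5) (nat_lit 114) (nat_lit 5) (nat_lit 110) (nat_lit 5) (nat_lit 632) (nat_lit 521) (nat_lit 407)))) (XT.nd (nat_lit 156) (nat_lit 608) (nat_lit 0) (XT.nd (nat_lit 78) (nat_lit 0) (nat_lit 0) (XT.lf (nat_lit 0) (nat_lit 3234655850) (nat_lit 228) (nat_lit 3347094139) (nat_lit 304) (nat_lit 9028262837) (nat_lit 106) (nat_lit 5) (nat_lit 109) (nat_lit 5) (nat_lit 110) (nat_lit 5)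 (nat_lit 633) (nat_lit 521) (nat_lit 406)) (XT.lf (nat_lit 0) (nat_lit 11316130367) (nat_lit 304) (nat_lit 2027521505) (nat_lit 76) (nat_lit 2455579950) (nat_lit 106) (nat_lit 5) (nat_lit 110) (nat_lit 5) (nat_lit 107) (nat_lit 5) (nat_lit 634) (nat_lit 521) (nat_lit 405))) (XT.nd (nat_lit 78) (nat_lit 228) (nat_lit 0) (XT.lf (nat_lit 0) (nat_lit 208685337) (nat_lit 380) (nat_lit 7409652487) (nat_lit 76) (nat_lit 8372723427) (nat_lit 101) (nat_lit 5) (nat_lit 106) (nat_lit 5) (nat_lit 102) (nat_lit 5) (nat_lit 635) (nat_lit 521) (nat_lit 404)) (XT.lf (nat_lit 0) (nat_lit 3221107981) (nat_lit 228) (nat_lit 1727336821) (nat_lit 304) (nat_lit 11237406963) (nat_lit 98) (nat_lit 5) (nat_lit 101) (nat_lit 5) (nat_lit 102) (nat_lit 5) (nat_lit 636) (nat_lit 521) (nat_lit 403))))))))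
noncomputable def xc76 : XT := (XT.nd (nat_lit 73632) (nat_lit 0) (nat_lit 25916) (XT.nd (nat_lit 72462) (nat_lit 0) (nat_lit 49020) (XT.nd (nat_lit 546) (nat_lit 760) (nat_lit 0) (XT.nd (nat_lit 234) (nat_lit 532) (nat_lit 0) (XT.nd (nat_lit 78) (nat_lit 608) (nat_lit 0) (XT.lf (nat_lit 0) (nat_lit 9840433443) (nat_lit 304) (nat_lit 2281735811) (nat_lit 76) (nat_lit 4261220620) (nat_lit 98) (nat_lit 5) (nat_lit 102) (nat_lit 5) (nat_lit 99) (nat_lit 5) (nat_lit 637) (nat_lit 521) (nat_lit 402)) (XT.nd (nat_lit 78) (nat_lit 304) (nat_lit 0) (XT.lf (nat_lit 0) (nat_lit 8683070986) (nat_lit 304) (nat_lit 6194990555) (nat_lit 380) (nat_lit 1705861667) (nat_lit 94) (nat_lit 5) (nat_lit 98) (nat_lit 5) (nat_lit 99) (nat_lit 5) (nat_lit 638) (nat_lit 521) (nat_lit 401)) (XT.lf (nat_lit 0) (nat_lit 3095133852) (nat_lit 228) (nat_lit 106037849) (nat_lit 304) (nat_lit 13586566138) (nat_lit 90) (nat_lit 5) (nat_lit 93) (nat_lit 5) (nat_lit 94) (nat_lit 5) (nat_lit 639)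 (nat_lit 521) (nat_lit 400)))) (XT.nd (nat_lit 156) (nat_lit 304) (nat_lit 0) (XT.nd (nat_lit 78) (nat_lit 228) (nat_lit 0) (XT.lf (nat_lit 0) (nat_lit 8256632069) (nat_lit 304) (nat_lit 2662134555) (nat_lit 76) (nat_lit 6075174497) (nat_lit 90) (nat_lit 5) (nat_lit 94) (nat_lit 5) (nat_lit 91) (nat_lit 5) (nat_lit 640) (nat_lit 521) (nat_lit 399)) (XT.lf (nat_lit 0) (nat_lit 8668181681) (nat_lit 228) (nat_lit 4782492718) (nat_lit 304) (nat_lit 3752845036) (nat_lit 87) (nat_lit 5) (nat_lit 90) (nat_lit 5) (nat_lit 91) (nat_lit 5) (nat_lit 641) (nat_lit 521) (nat_lit 398))) (XT.nd (nat_lit 78) (nat_lit 0) (nat_lit 0) (XT.lf (nat_lit 0) (nat_lit 1340582121) (nat_lit 304) (nat_lit 14587622836) (nat_lit 76) (nat_lit 1488377203) (nat_lit 83) (nat_lit 5) (nat_lit 87) (nat_lit 5) (nat_lit 84) (nat_lit 5) (nat_lit 642) (nat_lit 521) (nat_lit 397)) (XT.lf (nat_lit 0) (nat_lit 6555600949) (nat_lit 304) (nat_lit 3187278325) (nat_lit 76) (nat_lit 7889131661) (nat_lit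 83) (nat_lit 5) (nat_lit 87) (nat_lit 5) (nat_lit 84) (nat_lit 5) (nat_lit 643) (nat_lit 521) (nat_lit 396))))) (XT.nd (nat_lit 234) (nat_lit 228) (nat_lit 0) (XT.nd (nat_lit 78) (nat_lit 304) (nat_lit 0) (XT.lf (nat_lit 0) (nat_lit 8519619137) (nat_lit 228) (nat_lit 3391595142) (nat_lit 304) (nat_lit 5939808514) (nat_lit 80) (nat_lit 5) (nat_lit 83) (nat_lit 5) (nat_lit 84) (nat_lit 5) (nat_lit 644) (nat_lit 521) (nat_lit 395)) (XT.nd (nat_lit 78) (nat_lit 76) (nat_lit 0) (XT.lf (nat_lit 0) (nat_lit 2408012771) (nat_lit 228) (nat_lit 15004178860) (nat_lit 304) (nat_lit 661458604) (nat_lit 77) (nat_lit 5) (nat_lit 80) (nat_lit 5) (nat_lit 81) (nat_lit 5) (nat_lit 645) (nat_lit 521) (nat_lit 394)) (XT.lf (nat_lit 0) (nat_lit 4727095289) (nat_lit 304) (nat_lit 3877598559) (nat_lit 76) (nat_lit 9694092060) (nat_lit 76) (nat_lit 5) (nat_lit 80) (nat_lit 5) (nat_lit 77) (nat_lit 5) (nat_lit 646) (nat_lit 521) (nat_lit 393)))) (XT.nd (nat_lit 71526) (nat_lit 0)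 (nat_lit 53428) (XT.nd (nat_lit 71448) (nat_lit 0) (nat_lit 53656) (XT.lf (nat_lit 0) (nat_lit 8216949186) (nat_lit 228) (nat_lit 2032421972) (nat_lit 304) (nat_lit 8278269894) (nat_lit 73) (nat_lit 5) (nat_lit 76) (nat_lit 5) (nat_lit 77) (nat_lit 5) (nat_lit 647) (nat_lit 521) (nat_lit 392)) (XT.lf (nat_lit 0) (nat_lit 2995646177) (nat_lit 228) (nat_lit 114677353) (nat_lit 228) (nat_lit 114677353) (nat_lit 779) (nat_lit 3) (nat_lit 782) (nat_lit 3) (nat_lit 782) (nat_lit 5) (nat_lit 522) (nat_lit 522) (nat_lit 516))) (XT.nd (nat_lit 78) (nat_lit 0) (nat_lit 0) (XT.lf (nat_lit 0) (nat_lit 2540829834) (nat_lit 228) (nat_lit 3455507768) (nat_lit 304) (nat_lit 457924585) (nat_lit 776) (nat_lit 5) (nat_lit 779) (nat_lit 3) (nat_lit 780) (nat_lit 5) (nat_lit 523) (nat_lit 522) (nat_lit 515)) (XT.lf (nat_lit 0) (nat_lit 5517387725) (nat_lit 228) (nat_lit 208247500) (nat_lit 304) (nat_lit 734457435) (nat_lit 776) (nat_lit 5) (nat_lit 779) (nat_lit 3) (nat_lit 780)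 (nat_lit 5) (nat_lit 524) (nat_lit 522) (nat_lit 514)))))) (XT.nd (nat_lit 546) (nat_lit 3268) (nat_lit 0) (XT.nd (nat_lit 234) (nat_lit 456) (nat_lit 0) (XT.nd (nat_lit 78) (nat_lit 380) (nat_lit 0) (XT.lf (nat_lit 0) (nat_lit 2002983100) (nat_lit 304) (nat_lit 3376038276) (nat_lit 380) (nat_lit 1087897384) (nat_lit 772) (nat_lit 5) (nat_lit 776) (nat_lit 5) (nat_lit 777) (nat_lit 5) (nat_lit 525) (nat_lit 522) (nat_lit 513)) (XT.nd (nat_lit 78) (nat_lit 380) (nat_lit 0) (XT.lf (nat_lit 0) (nat_lit 4920269963) (nat_lit 304) (nat_lit 62396421) (nat_lit 380) (nat_lit 1492592585) (nat_lit 772) (nat_lit 5) (nat_lit 776) (nat_lit 5) (nat_lit 777) (nat_lit 5) (nat_lit 526) (nat_lit 522) (nat_lit 512)) (XT.lf (nat_lit 0) (nat_lit 1340199078) (nat_lit 380) (nat_lit 3172880214) (nat_lit 456) (nat_lit 1971579711) (nat_lit 767) (nat_lit 5) (nat_lit 772) (nat_lit 5) (nat_lit 773) (nat_lit 5) (nat_lit 527) (nat_lit 522) (nat_lit 511)))) (XT.nd (nat_lit 156) (nat_lit 0)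 (nat_lit 0) (XT.nd (nat_lit 78) (nat_lit 456) (nat_lit 0) (XT.lf (nat_lit 76) (nat_lit 211494166) (nat_lit 0) (nat_lit 3988880357) (nat_lit 456) (nat_lit 2295116738) (nat_lit 768) (nat_lit 5) (nat_lit 767) (nat_lit 5) (nat_lit 773) (nat_lit 5) (nat_lit 528) (nat_lit 522) (nat_lit 510)) (XT.lf (nat_lit 0) (nat_lit 551415977) (nat_lit 456) (nat_lit 2845392688) (nat_lit 532) (nat_lit 3110695337) (nat_lit 761) (nat_lit 5) (nat_lit 767) (nat_lit 5) (nat_lit 768) (nat_lit 5) (nat_lit 529) (nat_lit 522) (nat_lit 509))) (XT.nd (nat_lit 78) (nat_lit 0) (nat_lit 0) (XT.lf (nat_lit 76) (nat_lit 613920138) (nat_lit 0) (nat_lit 2742464004) (nat_lit 532) (nat_lit 3164432150) (nat_lit 762) (nat_lit 5) (nat_lit 761) (nat_lit 5) (nat_lit 768) (nat_lit 5) (nat_lit 530) (nat_lit 522) (nat_lit 508)) (XT.lf (nat_lit 76) (nat_lit 4140342557) (nat_lit 0) (nat_lit 2025568409) (nat_lit 532) (nat_lit 369521963) (nat_lit 762) (nat_lit 5) (nat_lit 761) (nat_lit 5) (nat_lit 768) (nat_lit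 5) (nat_lit 531) (nat_lit 522) (nat_lit 507))))) (XT.nd (nat_lit 312) (nat_lit 2204) (nat_lit 0) (XT.nd (nat_lit 156) (nat_lit 532) (nat_lit 0) (XT.nd (nat_lit 78) (nat_lit 0) (nat_lit 0) (XT.lf (nat_lit 76) (nat_lit 1145076041) (nat_lit 0) (nat_lit 1241387011) (nat_lit 608) (nat_lit 4164809269) (nat_lit 755) (nat_lit 5) (nat_lit 754) (nat_lit 5) (nat_lit 762) (nat_lit 5) (nat_lit 532) (nat_lit 522) (nat_lit 506)) (XT.lf (nat_lit 76) (nat_lit 4745517284) (nat_lit 0) (nat_lit 394551899) (nat_lit 608) (nat_lit 1428368349) (nat_lit 755) (nat_lit 5) (nat_lit 754) (nat_lit 5) (nat_lit 762) (nat_lit 5) (nat_lit 533) (nat_lit 522) (nat_lit 505))) (XT.nd (nat_lit 78) (nat_lit 0) (nat_lit 0) (XT.lf (nat_lit 0) (nat_lit 1292295599) (nat_lit 608) (nat_lit 4784018985) (nat_lit 76) (nat_lit 510513749) (nat_lit 747) (nat_lit 5) (nat_lit 755) (nat_lit 5) (nat_lit 748) (nat_lit 5) (nat_lit 534) (nat_lit 522) (nat_lit 504)) (XT.lf (nat_lit 0) (nat_lit 3996709702) (nat_lit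 608) (nat_lit 1133601902) (nat_lit 76) (nat_lit 1476123735) (nat_lit 747) (nat_lit 5) (nat_lit 755) (nat_lit 5) (nat_lit 748) (nat_lit 5) (nat_lit 535) (nat_lit 522) (nat_lit 503)))) (XT.nd (nat_lit 156) (nat_lit 1520) (nat_lit 0) (XT.nd (nat_lit 78) (nat_lit 0) (nat_lit 0) (XT.lf (nat_lit 0) (nat_lit 78351775) (nat_lit 684) (nat_lit 4045278107) (nat_lit 76) (nat_lit 2503768839) (nat_lit 738) (nat_lit 5) (nat_lit 747) (nat_lit 5) (nat_lit 739) (nat_lit 5) (nat_lit 536) (nat_lit 522) (nat_lit 502)) (XT.lf (nat_lit 0) (nat_lit 2728340507) (nat_lit 684) (nat_lit 320082191) (nat_lit 76) (nat_lit 3601157886) (nat_lit 738) (nat_lit 5) (nat_lit 747) (nat_lit 5) (nat_lit 739) (nat_lit 5) (nat_lit 537) (nat_lit 522) (nat_lit 501))) (XT.nd (nat_lit 78) (nat_lit 836) (nat_lit 0) (XT.lf (nat_lit 0) (nat_lit 3484490414) (nat_lit 684) (nat_lit 1906132702) (nat_lit 760) (nat_lit 1282403067) (nat_lit 729) (nat_lit 5) (nat_lit 738) (nat_lit 5) (nat_lit 739) (nat_lit 5) (nat_lit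 538) (nat_lit 522) (nat_lit 500)) (XT.lf (nat_lit 0) (nat_lit 630300001) (nat_lit 760) (nat_lit 703913295) (nat_lit 836) (nat_lit 5363680460) (nat_lit 718) (nat_lit 5) (nat_lit 728) (nat_lit 5) (nat_lit 729) (nat_lit 5) (nat_lit 539) (nat_lit 522) (nat_lit 499))))))) (XT.nd (nat_lit 1092) (nat_lit 13908) (nat_lit 0) (XT.nd (nat_lit 546) (nat_lit 5244) (nat_lit 0) (XT.nd (nat_lit 234) (nat_lit 3040) (nat_lit 0) (XT.nd (nat_lit 78) (nat_lit 912) (nat_lit 0) (XT.lf (nat_lit 0) (nat_lit 3949264792) (nat_lit 836) (nat_lit 2208624642) (nat_lit 76) (nat_lit 565939867) (nat_lit 718) (nat_lit 5) (nat_lit 729) (nat_lit 5) (nat_lit 719) (nat_lit 5) (nat_lit 540) (nat_lit 522) (nat_lit 498)) (XT.nd (nat_lit 78) (nat_lit 76) (nat_lit 0) (XT.lf (nat_lit 0) (nat_lit 1703535784) (nat_lit 836) (nat_lit 4868341173) (nat_lit 912) (nat_lit 179306929) (nat_lit 707) (nat_lit 5) (nat_lit 718) (nat_lit 5) (nat_lit 719) (nat_lit 5) (nat_lit 541) (nat_lit 522) (nat_lit 497)) (XT.lf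 (nat_lit 0) (nat_lit 2390463186) (nat_lit 912) (nat_lit 1113228734) (nat_lit 76) (nat_lit 3275979020) (nat_lit 706) (nat_lit 5) (nat_lit 718) (nat_lit 5) (nat_lit 707) (nat_lit 5) (nat_lit 542) (nat_lit 522) (nat_lit 496)))) (XT.nd (nat_lit 156) (nat_lit 1064) (nat_lit 0) (XT.nd (nat_lit 78) (nat_lit 1064) (nat_lit 0) (XT.lf (nat_lit 0) (nat_lit 2895294863) (nat_lit 912) (nat_lit 2073963310) (nat_lit 988) (nat_lit 1840250453) (nat_lit 694) (nat_lit 5) (nat_lit 706) (nat_lit 5) (nat_lit 707) (nat_lit 5) (nat_lit 543) (nat_lit 522) (nat_lit 495)) (XT.lf (nat_lit 0) (nat_lit 113921356) (nat_lit 988) (nat_lit 585787813) (nat_lit 1064) (nat_lit 6141140524) (nat_lit 680) (nat_lit 5) (nat_lit 693) (nat_lit 5) (nat_lit 694) (nat_lit 5) (nat_lit 544) (nat_lit 522) (nat_lit 494))) (XT.nd (nat_lit 78) (nat_lit 1064) (nat_lit 0) (XT.lf (nat_lit 0) (nat_lit 3241044800) (nat_lit 1064) (nat_lit 2657884313) (nat_lit 76) (nat_lit 974145736) (nat_lit 680) (nat_lit 5) (nat_lit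 694) (nat_lit 5) (nat_lit 681) (nat_lit 5) (nat_lit 545) (nat_lit 522) (nat_lit 493)) (XT.lf (nat_lit 0) (nat_lit 1465870419) (nat_lit 1064) (nat_lit 4324559210) (nat_lit 1140) (nat_lit 1116375239) (nat_lit 666) (nat_lit 5) (nat_lit 680) (nat_lit 5) (nat_lit 681) (nat_lit 5) (nat_lit 546) (nat_lit 522) (nat_lit 492))))) (XT.nd (nat_lit 234) (nat_lit 2812) (nat_lit 0) (XT.nd (nat_lit 78) (nat_lit 2356) (nat_lit 0) (XT.lf (nat_lit 0) (nat_lit 1392819898) (nat_lit 1140) (nat_lit 1284738602) (nat_lit 76) (nat_lit 4264222597) (nat_lit 665) (nat_lit 5) (nat_lit 680) (nat_lit 5) (nat_lit 666) (nat_lit 5) (nat_lit 547) (nat_lit 522) (nat_lit 491)) (XT.nd (nat_lit 78) (nat_lit 1216) (nat_lit 0) (XT.lf (nat_lit 0) (nat_lit 2944149466) (nat_lit 1140) (nat_lit 957607985) (nat_lit 1216) (nat_lit 3076266212) (nat_lit 650) (nat_lit 5) (nat_lit 665) (nat_lit 5) (nat_lit 666) (nat_lit 5) (nat_lit 548) (nat_lit 522) (nat_lit 490)) (XT.lf (nat_lit 0) (nat_lit 215265647) (nat_lit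 1216) (nat_lit 6207117694) (nat_lit 1292) (nat_lit 593381990) (nat_lit 634) (nat_lit 5) (nat_lit 650) (nat_lit 5) (nat_lit 651) (nat_lit 5) (nat_lit 549) (nat_lit 522) (nat_lit 489)))) (XT.nd (nat_lit 156) (nat_lit 1444) (nat_lit 0) (XT.nd (nat_lit 78) (nat_lit 1292) (nat_lit 0) (XT.lf (nat_lit 0) (nat_lit 1894002855) (nat_lit 1292) (nat_lit 2511735362) (nat_lit 76) (nat_lit 2648670571) (nat_lit 633) (nat_lit 5) (nat_lit 650) (nat_lit 5) (nat_lit 634) (nat_lit 5) (nat_lit 550) (nat_lit 522) (nat_lit 488)) (XT.lf (nat_lit 0) (nat_lit 1840888659) (nat_lit 1292) (nat_lit 2541991354) (nat_lit 1368) (nat_lit 2711677045) (nat_lit 616) (nat_lit 5) (nat_lit 633) (nat_lit 5) (nat_lit 634) (nat_lit 5) (nat_lit 551) (nat_lit 522) (nat_lit 487))) (XT.nd (nat_lit 78) (nat_lit 1444) (nat_lit 0) (XT.lf (nat_lit 0) (nat_lit 6272760074) (nat_lit 1292) (nat_lit 614113173) (nat_lit 1368) (nat_lit 249332381) (nat_lit 616) (nat_lit 5) (nat_lit 633) (nat_lit 5) (nat_lit 634) (nat_lit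 5) (nat_lit 552) (nat_lit 522) (nat_lit 486)) (XT.lf (nat_lit 0) (nat_lit 2214245253) (nat_lit 1444) (nat_lit 3582569145) (nat_lit 76) (nat_lit 1381949833) (nat_lit 597) (nat_lit 5) (nat_lit 616) (nat_lit 5) (nat_lit 598) (nat_lit 5) (nat_lit 553) (nat_lit 522) (nat_lit 485)))))) (XT.nd (nat_lit 546) (nat_lit 7524) (nat_lit 0) (XT.nd (nat_lit 234) (nat_lit 3344) (nat_lit 0) (XT.nd (nat_lit 78) (nat_lit 1596) (nat_lit 0) (XT.lf (nat_lit 0) (nat_lit 898198649) (nat_lit 1444) (nat_lit 3791230995) (nat_lit 1520) (nat_lit 2533401794) (nat_lit 578) (nat_lit 5) (nat_lit 597) (nat_lit 5) (nat_lit 598) (nat_lit 5) (nat_lit 554) (nat_lit 522) (nat_lit 484)) (XT.nd (nat_lit 78) (nat_lit 1596) (nat_lit 0) (XT.lf (nat_lit 0) (nat_lit 5474924589) (nat_lit 1444) (nat_lit 1713880941) (nat_lit 1520) (nat_lit 79484495) (nat_lit 578) (nat_lit 5) (nat_lit 597) (nat_lit 5) (nat_lit 598) (nat_lit 5) (nat_lit 555) (nat_lit 522) (nat_lit 483)) (XT.lf (nat_lit 0) (nat_lit 2364143307)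 (nat_lit 1596) (nat_lit 4510283175) (nat_lit 76) (nat_lit 440471907) (nat_lit 557) (nat_lit 5) (nat_lit 578) (nat_lit 5) (nat_lit 558) (nat_lit 5) (nat_lit 556) (nat_lit 522) (nat_lit 482)))) (XT.nd (nat_lit 156) (nat_lit 1748) (nat_lit 0) (XT.nd (nat_lit 78) (nat_lit 0) (nat_lit 0) (XT.lf (nat_lit 0) (nat_lit 103294084) (nat_lit 1596) (nat_lit 4728436301) (nat_lit 1672) (nat_lit 2531178578) (nat_lit 536) (nat_lit 5) (nat_lit 557) (nat_lit 5) (nat_lit 558) (nat_lit 5) (nat_lit 557) (nat_lit 522) (nat_lit 481)) (XT.lf (nat_lit 0) (nat_lit 4827791222) (nat_lit 1596) (nat_lit 2503824409) (nat_lit 1672) (nat_lit 80608696) (nat_lit 536) (nat_lit 5) (nat_lit 557) (nat_lit 5) (nat_lit 558) (nat_lit 5) (nat_lit 558) (nat_lit 522) (nat_lit 480))) (XT.nd (nat_lit 78) (nat_lit 0) (nat_lit 0) (XT.lf (nat_lit 0) (nat_lit 2154523053) (nat_lit 1672) (nat_lit 200010132) (nat_lit 1748) (nat_lit 5108336350) (nat_lit 513) (nat_lit 5) (nat_lit 535) (nat_lit 5) (nat_lit 536) (nat_lit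 5) (nat_lit 559) (nat_lit 522) (nat_lit 479)) (XT.lf (nat_lit 0) (nat_lit 4822682418) (nat_lit 1748) (nat_lit 548450228) (nat_lit 76) (nat_lit 2143679969) (nat_lit 513) (nat_lit 5) (nat_lit 536) (nat_lit 5) (nat_lit 514) (nat_lit 5) (nat_lit 560) (nat_lit 522) (nat_lit 478))))) (XT.nd (nat_lit 312) (nat_lit 2812) (nat_lit 0) (XT.nd (nat_lit 156) (nat_lit 1064) (nat_lit 0) (XT.nd (nat_lit 78) (nat_lit 1900) (nat_lit 0) (XT.lf (nat_lit 0) (nat_lit 4319864088) (nat_lit 1748) (nat_lit 3004571799) (nat_lit 1824) (nat_lit 243677081) (nat_lit 490) (nat_lit 5) (nat_lit 513) (nat_lit 5) (nat_lit 514) (nat_lit 5) (nat_lit 561) (nat_lit 522) (nat_lit 477)) (XT.lf (nat_lit 0) (nat_lit 1634925797) (nat_lit 1824) (nat_lit 558765425) (nat_lit 1900) (nat_lit 5429108474) (nat_lit 465) (nat_lit 5) (nat_lit 489) (nat_lit 5) (nat_lit 490) (nat_lit 5) (nat_lit 562) (nat_lit 522) (nat_lit 476))) (XT.nd (nat_lit 78) (nat_lit 1064) (nat_lit 0) (XT.lf (nat_lit 0) (nat_lit 4666861448)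 (nat_lit 1900) (nat_lit 1075731170) (nat_lit 76) (nat_lit 1936152027) (nat_lit 465) (nat_lit 5) (nat_lit 490) (nat_lit 5) (nat_lit 466) (nat_lit 5) (nat_lit 563) (nat_lit 522) (nat_lit 475)) (XT.lf (nat_lit 0) (nat_lit 3940423368) (nat_lit 1064) (nat_lit 3235025604) (nat_lit 1140) (nat_lit 560643434) (nat_lit 451) (nat_lit 5) (nat_lit 465) (nat_lit 5) (nat_lit 466) (nat_lit 5) (nat_lit 564) (nat_lit 522) (nat_lit 474)))) (XT.nd (nat_lit 156) (nat_lit 1824) (nat_lit 0) (XT.nd (nat_lit 78) (nat_lit 0) (nat_lit 0) (XT.lf (nat_lit 0) (nat_lit 1238130139) (nat_lit 912) (nat_lit 648318751) (nat_lit 988) (nat_lit 5908443914) (nat_lit 438) (nat_lit 5) (nat_lit 450) (nat_lit 5) (nat_lit 451) (nat_lit 5) (nat_lit 565) (nat_lit 522) (nat_lit 473)) (XT.lf (nat_lit 0) (nat_lit 4371076136) (nat_lit 988) (nat_lit 1490187182) (nat_lit 76) (nat_lit 1993612591) (nat_lit 438) (nat_lit 5) (nat_lit 451) (nat_lit 5) (nat_lit 439) (nat_lit 5) (nat_lit 566) (nat_lit 522) (nat_lit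 472))) (XT.nd (nat_lit 78) (nat_lit 912) (nat_lit 0) (XT.lf (nat_lit 0) (nat_lit 3679446401) (nat_lit 912) (nat_lit 3212497394) (nat_lit 988) (nat_lit 1024386687) (nat_lit 426) (nat_lit 5) (nat_lit 438) (nat_lit 5) (nat_lit 439) (nat_lit 5) (nat_lit 567) (nat_lit 522) (nat_lit 471)) (XT.lf (nat_lit 0) (nat_lit 954158597) (nat_lit 836) (nat_lit 485485628) (nat_lit 912) (nat_lit 6539681940) (nat_lit 414) (nat_lit 5) (nat_lit 425) (nat_lit 5) (nat_lit 426) (nat_lit 5) (nat_lit 568) (nat_lit 522) (nat_lit 470))))))))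
noncomputable def xc77 : XT := (XT.nd (nat_lit 2262) (nat_lit 8588) (nat_lit 0) (XT.nd (nat_lit 1092) (nat_lit 6156) (nat_lit 0) (XT.nd (nat_lit 546) (nat_lit 3724) (nat_lit 0) (XT.nd (nat_lit 234) (nat_lit 1672) (nat_lit 0) (XT.nd (nat_lit 78) (nat_lit 1748) (nat_lit 0) (XT.lf (nat_lit 0) (nat_lit 3941941548) (nat_lit 912) (nat_lit 1801480233) (nat_lit 76) (nat_lit 2299973113) (nat_lit 414) (nat_lit 5) (nat_lit 426) (nat_lit 5) (nat_lit 415) (nat_lit 5) (nat_lit 569) (nat_lit 522) (nat_lit 469)) (XT.nd (nat_lit 78) (nat_lit 912) (nat_lit 0) (XT.lf (nat_lit 0) (nat_lit 3527532462) (nat_lit 836) (nat_lit 2952833228) (nat_lit 912) (nat_lit 1628660243) (nat_lit 403) (nat_lit 5) (nat_lit 414) (nat_lit 5) (nat_lit 415) (nat_lit 5) (nat_lit 570) (nat_lit 522) (nat_lit 468)) (XT.lf (nat_lit 0) (nat_lit 773630527) (nat_lit 836) (nat_lit 85641788) (nat_lit 912) (nat_lit 7317035631) (nat_lit 391) (nat_lit 5) (nat_lit 402) (nat_lit 5) (nat_lit 403) (nat_lit 5) (nat_lit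 571) (nat_lit 522) (nat_lit 467)))) (XT.nd (nat_lit 156) (nat_lit 836) (nat_lit 0) (XT.nd (nat_lit 78) (nat_lit 836) (nat_lit 0) (XT.lf (nat_lit 0) (nat_lit 3385254879) (nat_lit 912) (nat_lit 2018722859) (nat_lit 76) (nat_lit 2840542974) (nat_lit 391) (nat_lit 5) (nat_lit 403) (nat_lit 5) (nat_lit 392) (nat_lit 5) (nat_lit 572) (nat_lit 522) (nat_lit 466)) (XT.lf (nat_lit 0) (nat_lit 3475830664) (nat_lit 836) (nat_lit 2470530514) (nat_lit 912) (nat_lit 2368046833) (nat_lit 380) (nat_lit 5) (nat_lit 391) (nat_lit 5) (nat_lit 392) (nat_lit 5) (nat_lit 573) (nat_lit 522) (nat_lit 465))) (XT.nd (nat_lit 78) (nat_lit 0) (nat_lit 0) (XT.lf (nat_lit 0) (nat_lit 154015866) (nat_lit 836) (nat_lit 7701874143) (nat_lit 76) (nat_lit 530117083) (nat_lit 369) (nat_lit 5) (nat_lit 380) (nat_lit 5) (nat_lit 370) (nat_lit 5) (nat_lit 574) (nat_lit 522) (nat_lit 464)) (XT.lf (nat_lit 0) (nat_lit 2706036581) (nat_lit 836) (nat_lit 2150547806) (nat_lit 76) (nat_lit 3601918438)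 (nat_lit 369) (nat_lit 5) (nat_lit 380) (nat_lit 5) (nat_lit 370) (nat_lit 5) (nat_lit 575) (nat_lit 522) (nat_lit 463))))) (XT.nd (nat_lit 234) (nat_lit 2204) (nat_lit 0) (XT.nd (nat_lit 78) (nat_lit 760) (nat_lit 0) (XT.lf (nat_lit 0) (nat_lit 3515970492) (nat_lit 760) (nat_lit 1778847101) (nat_lit 836) (nat_lit 3237918658) (nat_lit 359) (nat_lit 5) (nat_lit 369) (nat_lit 5) (nat_lit 370) (nat_lit 5) (nat_lit 576) (nat_lit 522) (nat_lit 462)) (XT.nd (nat_lit 78) (nat_lit 76) (nat_lit 0) (XT.lf (nat_lit 0) (nat_lit 674346628) (nat_lit 684) (nat_lit 7252082026) (nat_lit 760) (nat_lit 682206740) (nat_lit 350) (nat_lit 5) (nat_lit 359) (nat_lit 5) (nat_lit 360) (nat_lit 5) (nat_lit 577) (nat_lit 522) (nat_lit 461)) (XT.lf (nat_lit 0) (nat_lit 1908566476) (nat_lit 760) (nat_lit 2205175489) (nat_lit 76) (nat_lit 4571878911) (nat_lit 349) (nat_lit 5) (nat_lit 359) (nat_lit 5) (nat_lit 350) (nat_lit 5) (nat_lit 578) (nat_lit 522) (nat_lit 460)))) (XT.nd (nat_lit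 156) (nat_lit 760) (nat_lit 0) (XT.nd (nat_lit 78) (nat_lit 684) (nat_lit 0) (XT.lf (nat_lit 0) (nat_lit 3639994426) (nat_lit 760) (nat_lit 889903329) (nat_lit 836) (nat_lit 4234402592) (nat_lit 339) (nat_lit 5) (nat_lit 349) (nat_lit 5) (nat_lit 350) (nat_lit 5) (nat_lit 579) (nat_lit 522) (nat_lit 459)) (XT.lf (nat_lit 0) (nat_lit 739590820) (nat_lit 684) (nat_lit 6463962407) (nat_lit 760) (nat_lit 1641004202) (nat_lit 330) (nat_lit 5) (nat_lit 339) (nat_lit 5) (nat_lit 340) (nat_lit 5) (nat_lit 580) (nat_lit 522) (nat_lit 458))) (XT.nd (nat_lit 78) (nat_lit 684) (nat_lit 0) (XT.lf (nat_lit 0) (nat_lit 996415075) (nat_lit 760) (nat_lit 2190479784) (nat_lit 76) (nat_lit 5739289802) (nat_lit 329) (nat_lit 5) (nat_lit 339) (nat_lit 5) (nat_lit 330) (nat_lit 5) (nat_lit 581) (nat_lit 522) (nat_lit 457)) (XT.lf (nat_lit 0) (nat_lit 3656272503) (nat_lit 760) (nat_lit 5170330572) (nat_lit 76) (nat_lit 182793025) (nat_lit 320) (nat_lit 5) (nat_lit 330) (nat_lit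 5) (nat_lit 321) (nat_lit 5) (nat_lit 582) (nat_lit 522) (nat_lit 456)))))) (XT.nd (nat_lit 546) (nat_lit 2888) (nat_lit 0) (XT.nd (nat_lit 234) (nat_lit 1900) (nat_lit 0) (XT.nd (nat_lit 78) (nat_lit 760) (nat_lit 0) (XT.lf (nat_lit 0) (nat_lit 873300123) (nat_lit 608) (nat_lit 5503467118) (nat_lit 684) (nat_lit 2717357547) (nat_lit 312) (nat_lit 5) (nat_lit 320) (nat_lit 5) (nat_lit 321) (nat_lit 5) (nat_lit 583) (nat_lit 522) (nat_lit 455)) (XT.nd (nat_lit 78) (nat_lit 760) (nat_lit 0) (XT.lf (nat_lit 0) (nat_lit 7066296818) (nat_lit 608) (nat_lit 2086338139) (nat_lit 684) (nat_lit 27895617) (nat_lit 312) (nat_lit 5) (nat_lit 320) (nat_lit 5) (nat_lit 321) (nat_lit 5) (nat_lit 584) (nat_lit 522) (nat_lit 454)) (XT.lf (nat_lit 0) (nat_lit 2682459210) (nat_lit 760) (nat_lit 5168235925) (nat_lit 76) (nat_lit 1417564140) (nat_lit 302) (nat_lit 5) (nat_lit 312) (nat_lit 5) (nat_lit 303) (nat_lit 5) (nat_lit 585) (nat_lit 522) (nat_lit 453)))) (XT.nd (nat_lit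 156) (nat_lit 1292) (nat_lit 0) (XT.nd (nat_lit 78) (nat_lit 0) (nat_lit 0) (XT.lf (nat_lit 0) (nat_lit 1068122107) (nat_lit 608) (nat_lit 4380602006) (nat_lit 684) (nat_lit 3908974903) (nat_lit 294) (nat_lit 5) (nat_lit 302) (nat_lit 5) (nat_lit 303) (nat_lit 5) (nat_lit 586) (nat_lit 522) (nat_lit 452)) (XT.lf (nat_lit 0) (nat_lit 7457980702) (nat_lit 608) (nat_lit 814436183) (nat_lit 684) (nat_lit 1176470266) (nat_lit 294) (nat_lit 5) (nat_lit 302) (nat_lit 5) (nat_lit 303) (nat_lit 5) (nat_lit 587) (nat_lit 522) (nat_lit 451))) (XT.nd (nat_lit 78) (nat_lit 608) (nat_lit 0) (XT.lf (nat_lit 0) (nat_lit 1604770660) (nat_lit 684) (nat_lit 5119673975) (nat_lit 76) (nat_lit 2816942635) (nat_lit 285) (nat_lit 5) (nat_lit 294) (nat_lit 5) (nat_lit 286) (nat_lit 5) (nat_lit 588) (nat_lit 522) (nat_lit 450)) (XT.lf (nat_lit 0) (nat_lit 1316886866) (nat_lit 608) (nat_lit 3104559420) (nat_lit 684) (nat_lit 5214225876) (nat_lit 277) (nat_lit 5) (nat_lit 285) (nat_lit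 5) (nat_lit 286) (nat_lit 5) (nat_lit 589) (nat_lit 522) (nat_lit 449))))) (XT.nd (nat_lit 312) (nat_lit 1672) (nat_lit 0) (XT.nd (nat_lit 156) (nat_lit 532) (nat_lit 0) (XT.nd (nat_lit 78) (nat_lit 684) (nat_lit 0) (XT.lf (nat_lit 0) (nat_lit 7301307579) (nat_lit 684) (nat_lit 1825133848) (nat_lit 76) (nat_lit 605265806) (nat_lit 277) (nat_lit 5) (nat_lit 286) (nat_lit 5) (nat_lit 278) (nat_lit 5) (nat_lit 590) (nat_lit 522) (nat_lit 448)) (XT.lf (nat_lit 0) (nat_lit 424670826) (nat_lit 684) (nat_lit 5031956109) (nat_lit 76) (nat_lit 4372565750) (nat_lit 268) (nat_lit 5) (nat_lit 277) (nat_lit 5) (nat_lit 269) (nat_lit 5) (nat_lit 591) (nat_lit 522) (nat_lit 447))) (XT.nd (nat_lit 78) (nat_lit 0) (nat_lit 0) (XT.lf (nat_lit 0) (nat_lit 1612542869) (nat_lit 532) (nat_lit 1683797179) (nat_lit 608) (nat_lit 6632127127) (nat_lit 261) (nat_lit 5) (nat_lit 268) (nat_lit 5) (nat_lit 269) (nat_lit 5) (nat_lit 592) (nat_lit 522) (nat_lit 446)) (XT.lf (nat_lit 0) (nat_lit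 6242972738) (nat_lit 608) (nat_lit 1626304503) (nat_lit 76) (nat_lit 2160100722) (nat_lit 261) (nat_lit 5) (nat_lit 269) (nat_lit 5) (nat_lit 262) (nat_lit 5) (nat_lit 593) (nat_lit 522) (nat_lit 445)))) (XT.nd (nat_lit 156) (nat_lit 532) (nat_lit 0) (XT.nd (nat_lit 78) (nat_lit 608) (nat_lit 0) (XT.lf (nat_lit 0) (nat_lit 5214028783) (nat_lit 532) (nat_lit 4049597603) (nat_lit 608) (nat_lit 868380196) (nat_lit 254) (nat_lit 5) (nat_lit 261) (nat_lit 5) (nat_lit 262) (nat_lit 5) (nat_lit 594) (nat_lit 522) (nat_lit 444)) (XT.lf (nat_lit 0) (nat_lit 1948092116) (nat_lit 532) (nat_lit 126113973) (nat_lit 608) (nat_lit 8162332328) (nat_lit 246) (nat_lit 5) (nat_lit 253) (nat_lit 5) (nat_lit 254) (nat_lit 5) (nat_lit 595) (nat_lit 522) (nat_lit 443))) (XT.nd (nat_lit 78) (nat_lit 532) (nat_lit 0) (XT.lf (nat_lit 0) (nat_lit 5092879972) (nat_lit 608) (nat_lit 1396184636) (nat_lit 76) (nat_lit 3853405512) (nat_lit 246) (nat_lit 5) (nat_lit 254) (nat_lit 5) (nat_lit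 247) (nat_lit 5) (nat_lit 596) (nat_lit 522) (nat_lit 442)) (XT.lf (nat_lit 0) (nat_lit 5667517814) (nat_lit 532) (nat_lit 2513088383) (nat_lit 608) (nat_lit 2269741960) (nat_lit 239) (nat_lit 5) (nat_lit 246) (nat_lit 5) (nat_lit 247) (nat_lit 5) (nat_lit 597) (nat_lit 522) (nat_lit 441))))))) (XT.nd (nat_lit 1170) (nat_lit 3800) (nat_lit 0) (XT.nd (nat_lit 546) (nat_lit 2280) (nat_lit 0) (XT.nd (nat_lit 234) (nat_lit 1444) (nat_lit 0) (XT.nd (nat_lit 78) (nat_lit 532) (nat_lit 0) (XT.lf (nat_lit 0) (nat_lit 765382671) (nat_lit 532) (nat_lit 8253985078) (nat_lit 76) (nat_lit 1540801797) (nat_lit 232) (nat_lit 5) (nat_lit 239) (nat_lit 5) (nat_lit 233) (nat_lit 5) (nat_lit 598) (nat_lit 522) (nat_lit 440)) (XT.nd (nat_lit 78) (nat_lit 532) (nat_lit 0) (XT.lf (nat_lit 0) (nat_lit 3851197336) (nat_lit 532) (nat_lit 1141877489) (nat_lit 76) (nat_lit 5678406095) (nat_lit 232) (nat_lit 5) (nat_lit 239) (nat_lit 5) (nat_lit 233) (nat_lit 5) (nat_lit 599) (nat_lit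 522) (nat_lit 439)) (XT.lf (nat_lit 0) (nat_lit 6153711433) (nat_lit 532) (nat_lit 856931765) (nat_lit 608) (nat_lit 3774138203) (nat_lit 225) (nat_lit 5) (nat_lit 232) (nat_lit 5) (nat_lit 233) (nat_lit 5) (nat_lit 600) (nat_lit 522) (nat_lit 438)))) (XT.nd (nat_lit 156) (nat_lit 912) (nat_lit 0) (XT.nd (nat_lit 78) (nat_lit 76) (nat_lit 0) (XT.lf (nat_lit 0) (nat_lit 2684130351) (nat_lit 456) (nat_lit 7568297745) (nat_lit 532) (nat_lit 647537948) (nat_lit 219) (nat_lit 5) (nat_lit 225) (nat_lit 5) (nat_lit 226) (nat_lit 5) (nat_lit 601) (nat_lit 522) (nat_lit 437)) (XT.lf (nat_lit 0) (nat_lit 2517506357) (nat_lit 532) (nat_lit 870603430) (nat_lit 76) (nat_lit 7628830760) (nat_lit 218) (nat_lit 5) (nat_lit 225) (nat_lit 5) (nat_lit 219) (nat_lit 5) (nat_lit 602) (nat_lit 522) (nat_lit 436))) (XT.nd (nat_lit 78) (nat_lit 456) (nat_lit 0) (XT.lf (nat_lit 0) (nat_lit 5759221640) (nat_lit 532) (nat_lit 4476122655) (nat_lit 76) (nat_lit 900384917) (nat_lit 212)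 (nat_lit 5) (nat_lit 219) (nat_lit 5) (nat_lit 213) (nat_lit 5) (nat_lit 603) (nat_lit 522) (nat_lit 435)) (XT.lf (nat_lit 0) (nat_lit 3074062826) (nat_lit 456) (nat_lit 6013021062) (nat_lit 532) (nat_lit 2169384578) (nat_lit 206) (nat_lit 5) (nat_lit 212) (nat_lit 5) (nat_lit 213) (nat_lit 5) (nat_lit 604) (nat_lit 522) (nat_lit 434))))) (XT.nd (nat_lit 312) (nat_lit 1368) (nat_lit 0) (XT.nd (nat_lit 156) (nat_lit 380) (nat_lit 0) (XT.nd (nat_lit 78) (nat_lit 456) (nat_lit 0) (XT.lf (nat_lit 0) (nat_lit 1090798621) (nat_lit 532) (nat_lit 589770569) (nat_lit 76) (nat_lit 9698843874) (nat_lit 205) (nat_lit 5) (nat_lit 212) (nat_lit 5) (nat_lit 206) (nat_lit 5) (nat_lit 605) (nat_lit 522) (nat_lit 433)) (XT.lf (nat_lit 0) (nat_lit 4425652434) (nat_lit 532) (nat_lit 4326050390) (nat_lit 76) (nat_lit 2752057645) (nat_lit 199) (nat_lit 5) (nat_lit 206) (nat_lit 5) (nat_lit 200) (nat_lit 5) (nat_lit 606) (nat_lit 522) (nat_lit 432))) (XT.nd (nat_lit 78) (nat_lit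 0) (nat_lit 0) (XT.lf (nat_lit 0) (nat_lit 3473680128) (nat_lit 380) (nat_lit 4365038401) (nat_lit 456) (nat_lit 3791646976) (nat_lit 194) (nat_lit 5) (nat_lit 199) (nat_lit 5) (nat_lit 200) (nat_lit 5) (nat_lit 607) (nat_lit 522) (nat_lit 431)) (XT.lf (nat_lit 0) (nat_lit 11324007707) (nat_lit 456) (nat_lit 310701566) (nat_lit 76) (nat_lit 124715099) (nat_lit 194) (nat_lit 5) (nat_lit 200) (nat_lit 5) (nat_lit 195) (nat_lit 5) (nat_lit 608) (nat_lit 522) (nat_lit 430)))) (XT.nd (nat_lit 156) (nat_lit 456) (nat_lit 0) (XT.nd (nat_lit 78) (nat_lit 380) (nat_lit 0) (XT.lf (nat_lit 0) (nat_lit 3002716535) (nat_lit 532) (nat_lit 4183279494) (nat_lit 76) (nat_lit 4703602012) (nat_lit 187) (nat_lit 5) (nat_lit 194) (nat_lit 5) (nat_lit 188) (nat_lit 5) (nat_lit 609) (nat_lit 522) (nat_lit 429)) (XT.lf (nat_lit 0) (nat_lit 3875237149) (nat_lit 380) (nat_lit 2630433741) (nat_lit 456) (nat_lit 5516609867) (nat_lit 182) (nat_lit 5) (nat_lit 187) (nat_lit 5) (nat_lit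 188) (nat_lit 5) (nat_lit 610) (nat_lit 522) (nat_lit 428))) (XT.nd (nat_lit 78) (nat_lit 456) (nat_lit 0) (XT.lf (nat_lit 0) (nat_lit 10094824212) (nat_lit 456) (nat_lit 57118133) (nat_lit 76) (nat_lit 2005352879) (nat_lit 182) (nat_lit 5) (nat_lit 188) (nat_lit 5) (nat_lit 183) (nat_lit 5) (nat_lit 611) (nat_lit 522) (nat_lit 427)) (XT.lf (nat_lit 0) (nat_lit 1488153148) (nat_lit 456) (nat_lit 4056182601) (nat_lit 76) (nat_lit 6749554196) (nat_lit 176) (nat_lit 5) (nat_lit 182) (nat_lit 5) (nat_lit 177) (nat_lit 5) (nat_lit 612) (nat_lit 522) (nat_lit 426)))))) (XT.nd (nat_lit 546) (nat_lit 1824) (nat_lit 0) (XT.nd (nat_lit 234) (nat_lit 1216) (nat_lit 0) (XT.nd (nat_lit 78) (nat_lit 380) (nat_lit 0) (XT.lf (nat_lit 0) (nat_lit 4270600524) (nat_lit 380) (nat_lit 815076246) (nat_lit 456) (nat_lit 7347197904) (nat_lit 171) (nat_lit 5) (nat_lit 176) (nat_lit 5) (nat_lit 177) (nat_lit 5) (nat_lit 613) (nat_lit 522) (nat_lit 425)) (XT.nd (nat_lit 78) (nat_lit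 0) (nat_lit 0) (XT.lf (nat_lit 0) (nat_lit 183102831) (nat_lit 380) (nat_lit 8602182645) (nat_lit 456) (nat_lit 3788751755) (nat_lit 166) (nat_lit 5) (nat_lit 171) (nat_lit 5) (nat_lit 172) (nat_lit 5) (nat_lit 614) (nat_lit 522) (nat_lit 424)) (XT.lf (nat_lit 0) (nat_lit 8762910896) (nat_lit 380) (nat_lit 3831865367) (nat_lit 456) (nat_lit 122529788) (nat_lit 166) (nat_lit 5) (nat_lit 171) (nat_lit 5) (nat_lit 172) (nat_lit 5) (nat_lit 615) (nat_lit 522) (nat_lit 423)))) (XT.nd (nat_lit 156) (nat_lit 380) (nat_lit 0) (XT.nd (nat_lit 78) (nat_lit 380) (nat_lit 0) (XT.lf (nat_lit 0) (nat_lit 3582830482) (nat_lit 456) (nat_lit 8218665165) (nat_lit 76) (nat_lit 1061210663) (nat_lit 160) (nat_lit 5) (nat_lit 166) (nat_lit 5) (nat_lit 161) (nat_lit 5) (nat_lit 616) (nat_lit 522) (nat_lit 422)) (XT.lf (nat_lit 0) (nat_lit 399062407) (nat_lit 380) (nat_lit 6992490200) (nat_lit 456) (nat_lit 5618828624) (nat_lit 155) (nat_lit 5) (nat_lit 160) (nat_lit 5) (nat_lit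 161) (nat_lit 5) (nat_lit 617) (nat_lit 522) (nat_lit 421))) (XT.nd (nat_lit 78) (nat_lit 380) (nat_lit 0) (XT.lf (nat_lit 0) (nat_lit 9263423801) (nat_lit 380) (nat_lit 2044616686) (nat_lit 456) (nat_lit 1852338085) (nat_lit 155) (nat_lit 5) (nat_lit 160) (nat_lit 5) (nat_lit 161) (nat_lit 5) (nat_lit 618) (nat_lit 522) (nat_lit 420)) (XT.lf (nat_lit 0) (nat_lit 1992357350) (nat_lit 380) (nat_lit 8324890468) (nat_lit 76) (nat_lit 2995291070) (nat_lit 150) (nat_lit 5) (nat_lit 155) (nat_lit 5) (nat_lit 151) (nat_lit 5) (nat_lit 619) (nat_lit 522) (nat_lit 419))))) (XT.nd (nat_lit 312) (nat_lit 684) (nat_lit 0) (XT.nd (nat_lit 156) (nat_lit 760) (nat_lit 0) (XT.nd (nat_lit 78) (nat_lit 0) (nat_lit 0) (XT.lf (nat_lit 0) (nat_lit 580337649) (nat_lit 380) (nat_lit 5329341612) (nat_lit 456) (nat_lit 7557408266) (nat_lit 145) (nat_lit 5) (nat_lit 150) (nat_lit 5) (nat_lit 151) (nat_lit 5) (nat_lit 620) (nat_lit 522) (nat_lit 418)) (XT.lf (nat_lit 0) (nat_lit 9739917509)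 (nat_lit 380) (nat_lit 198390153) (nat_lit 456) (nat_lit 3685760967) (nat_lit 145) (nat_lit 5) (nat_lit 150) (nat_lit 5) (nat_lit 151) (nat_lit 5) (nat_lit 621) (nat_lit 522) (nat_lit 417))) (XT.nd (nat_lit 78) (nat_lit 380) (nat_lit 0) (XT.lf (nat_lit 0) (nat_lit 304714536) (nat_lit 380) (nat_lit 8486241498) (nat_lit 76) (nat_lit 4992302815) (nat_lit 140) (nat_lit 5) (nat_lit 145) (nat_lit 5) (nat_lit 141) (nat_lit 5) (nat_lit 622) (nat_lit 522) (nat_lit 416)) (XT.lf (nat_lit 0) (nat_lit 716545584) (nat_lit 380) (nat_lit 3618868465) (nat_lit 456) (nat_lit 9609536882) (nat_lit 135) (nat_lit 5) (nat_lit 140) (nat_lit 5) (nat_lit 141) (nat_lit 5) (nat_lit 623) (nat_lit 522) (nat_lit 415)))) (XT.nd (nat_lit 156) (nat_lit 380) (nat_lit 0) (XT.nd (nat_lit 78) (nat_lit 304) (nat_lit 0) (XT.lf (nat_lit 0) (nat_lit 8492442377) (nat_lit 456) (nat_lit 3937872193) (nat_lit 76) (nat_lit 1678648625) (nat_lit 135) (nat_lit 5) (nat_lit 141) (nat_lit 5) (nat_lit 136) (nat_lit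 5) (nat_lit 624) (nat_lit 522) (nat_lit 414)) (XT.lf (nat_lit 0) (nat_lit 5551607454) (nat_lit 304) (nat_lit 7219087493) (nat_lit 380) (nat_lit 1504799710) (nat_lit 131) (nat_lit 5) (nat_lit 135) (nat_lit 5) (nat_lit 136) (nat_lit 5) (nat_lit 625) (nat_lit 522) (nat_lit 413))) (XT.nd (nat_lit 78) (nat_lit 0) (nat_lit 0) (XT.lf (nat_lit 0) (nat_lit 796473626) (nat_lit 304) (nat_lit 1867312934) (nat_lit 380) (nat_lit 11781023603) (nat_lit 126) (nat_lit 5) (nat_lit 130) (nat_lit 5) (nat_lit 131) (nat_lit 5) (nat_lit 626) (nat_lit 522) (nat_lit 412)) (XT.lf (nat_lit 0) (nat_lit 6956098367) (nat_lit 380) (nat_lit 4060390155) (nat_lit 76) (nat_lit 3599615052) (nat_lit 126) (nat_lit 5) (nat_lit 131) (nat_lit 5) (nat_lit 127) (nat_lit 5) (nat_lit 627) (nat_lit 522) (nat_lit 411))))))))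
noncomputable def xc78 : XT := (XT.nd (nat_lit 73710) (nat_lit 0) (nat_lit 31388) (XT.nd (nat_lit 1092) (nat_lit 1064) (nat_lit 0) (XT.nd (nat_lit 546) (nat_lit 1216) (nat_lit 0) (XT.nd (nat_lit 234) (nat_lit 836) (nat_lit 0) (XT.nd (nat_lit 78) (nat_lit 380) (nat_lit 0) (XT.lf (nat_lit 0) (nat_lit 5747153567) (nat_lit 304) (nat_lit 5615446516) (nat_lit 380) (nat_lit 3427656474) (nat_lit 122) (nat_lit 5) (nat_lit 126) (nat_lit 5) (nat_lit 127) (nat_lit 5) (nat_lit 628) (nat_lit 522) (nat_lit 410)) (XT.nd (nat_lit 78) (nat_lit 0) (nat_lit 0) (XT.lf (nat_lit 0) (nat_lit 807959795) (nat_lit 304) (nat_lit 81103166) (nat_lit 380) (nat_lit 14078486958) (nat_lit 117) (nat_lit 5) (nat_lit 121) (nat_lit 5) (nat_lit 122) (nat_lit 5) (nat_lit 629) (nat_lit 522) (nat_lit 409)) (XT.lf (nat_lit 0) (nat_lit 5322287875) (nat_lit 380) (nat_lit 4263099095) (nat_lit 76) (nat_lit 5561028240) (nat_lit 117) (nat_lit 5) (nat_lit 122) (nat_lit 5) (nat_lit 118) (nat_lit 5) (nat_lit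 630) (nat_lit 522) (nat_lit 408)))) (XT.nd (nat_lit 156) (nat_lit 304) (nat_lit 0) (XT.nd (nat_lit 78) (nat_lit 304) (nat_lit 0) (XT.lf (nat_lit 0) (nat_lit 5873182289) (nat_lit 228) (nat_lit 3988894051) (nat_lit 304) (nat_lit 5466424019) (nat_lit 114) (nat_lit 5) (nat_lit 117) (nat_lit 5) (nat_lit 118) (nat_lit 5) (nat_lit 631) (nat_lit 522) (nat_lit 407)) (XT.lf (nat_lit 0) (nat_lit 719681721) (nat_lit 304) (nat_lit 13796936474) (nat_lit 380) (nat_lit 997130387) (nat_lit 110) (nat_lit 5) (nat_lit 114) (nat_lit 5) (nat_lit 115) (nat_lit 5) (nat_lit 632) (nat_lit 522) (nat_lit 406))) (XT.nd (nat_lit 78) (nat_lit 228) (nat_lit 0) (XT.lf (nat_lit 0) (nat_lit 3584494405) (nat_lit 380) (nat_lit 4559813745) (nat_lit 76) (nat_lit 7556538531) (nat_lit 109) (nat_lit 5) (nat_lit 114) (nat_lit 5) (nat_lit 110) (nat_lit 5) (nat_lit 633) (nat_lit 522) (nat_lit 405)) (XT.lf (nat_lit 0) (nat_lit 5916021233) (nat_lit 228) (nat_lit 2346575401) (nat_lit 304) (nat_lit 7628594850)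 (nat_lit 106) (nat_lit 5) (nat_lit 109) (nat_lit 5) (nat_lit 110) (nat_lit 5) (nat_lit 634) (nat_lit 522) (nat_lit 404))))) (XT.nd (nat_lit 234) (nat_lit 608) (nat_lit 0) (XT.nd (nat_lit 78) (nat_lit 304) (nat_lit 0) (XT.lf (nat_lit 0) (nat_lit 527834236) (nat_lit 304) (nat_lit 12543675501) (nat_lit 380) (nat_lit 3013088953) (nat_lit 102) (nat_lit 5) (nat_lit 106) (nat_lit 5) (nat_lit 107) (nat_lit 5) (nat_lit 635) (nat_lit 522) (nat_lit 403)) (XT.nd (nat_lit 78) (nat_lit 228) (nat_lit 0) (XT.lf (nat_lit 0) (nat_lit 1735324690) (nat_lit 380) (nat_lit 4965626816) (nat_lit 76) (nat_lit 9579446448) (nat_lit 101) (nat_lit 5) (nat_lit 106) (nat_lit 5) (nat_lit 102) (nat_lit 5) (nat_lit 636) (nat_lit 522) (nat_lit 402)) (XT.lf (nat_lit 0) (nat_lit 5860694791) (nat_lit 228) (nat_lit 696051963) (nat_lit 304) (nat_lit 9922600866) (nat_lit 98) (nat_lit 5) (nat_lit 101) (nat_lit 5) (nat_lit 102) (nat_lit 5) (nat_lit 637) (nat_lit 522) (nat_lit 401)))) (XT.nd (nat_lit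 156) (nat_lit 304) (nat_lit 0) (XT.nd (nat_lit 78) (nat_lit 0) (nat_lit 0) (XT.lf (nat_lit 0) (nat_lit 223070519) (nat_lit 304) (nat_lit 11302142603) (nat_lit 380) (nat_lit 5156051288) (nat_lit 94) (nat_lit 5) (nat_lit 98) (nat_lit 5) (nat_lit 99) (nat_lit 5) (nat_lit 638) (nat_lit 522) (nat_lit 400)) (XT.lf (nat_lit 0) (nat_lit 11387487873) (nat_lit 304) (nat_lit 5261941426) (nat_lit 380) (nat_lit 236663064) (nat_lit 94) (nat_lit 5) (nat_lit 98) (nat_lit 5) (nat_lit 99) (nat_lit 5) (nat_lit 639) (nat_lit 522) (nat_lit 399))) (XT.nd (nat_lit 78) (nat_lit 0) (nat_lit 0) (XT.lf (nat_lit 0) (nat_lit 4742353083) (nat_lit 304) (nat_lit 11409478292) (nat_lit 76) (nat_lit 942086171) (nat_lit 90) (nat_lit 5) (nat_lit 94) (nat_lit 5) (nat_lit 91) (nat_lit 5) (nat_lit 640) (nat_lit 522) (nat_lit 398)) (XT.lf (nat_lit 0) (nat_lit 9870647245) (nat_lit 304) (nat_lit 209224758) (nat_lit 76) (nat_lit 7224939025) (nat_lit 90) (nat_lit 5) (nat_lit 94) (nat_lit 5) (nat_lit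 91) (nat_lit 5) (nat_lit 641) (nat_lit 522) (nat_lit 397)))))) (XT.nd (nat_lit 71994) (nat_lit 0) (nat_lit 51528) (XT.nd (nat_lit 234) (nat_lit 532) (nat_lit 0) (XT.nd (nat_lit 78) (nat_lit 304) (nat_lit 0) (XT.lf (nat_lit 0) (nat_lit 11331209957) (nat_lit 228) (nat_lit 3825115557) (nat_lit 304) (nat_lit 2362500905) (nat_lit 87) (nat_lit 5) (nat_lit 90) (nat_lit 5) (nat_lit 91) (nat_lit 5) (nat_lit 642) (nat_lit 522) (nat_lit 396)) (XT.nd (nat_lit 78) (nat_lit 0) (nat_lit 0) (XT.lf (nat_lit 0) (nat_lit 2808273484) (nat_lit 304) (nat_lit 12365129826) (nat_lit 76) (nat_lit 2562663437) (nat_lit 83) (nat_lit 5) (nat_lit 87) (nat_lit 5) (nat_lit 84) (nat_lit 5) (nat_lit 643) (nat_lit 522) (nat_lit 395)) (XT.lf (nat_lit 0) (nat_lit 8099340146) (nat_lit 304) (nat_lit 786077356) (nat_lit 76) (nat_lit 9070952225) (nat_lit 83) (nat_lit 5) (nat_lit 87) (nat_lit 5) (nat_lit 84) (nat_lit 5) (nat_lit 644) (nat_lit 522) (nat_lit 394)))) (XT.nd (nat_lit 156) (nat_lit 0) (nat_lit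 0) (XT.nd (nat_lit 78) (nat_lit 304) (nat_lit 0) (XT.lf (nat_lit 0) (nat_lit 11138741303) (nat_lit 228) (nat_lit 2411524646) (nat_lit 304) (nat_lit 4629732436) (nat_lit 80) (nat_lit 5) (nat_lit 83) (nat_lit 5) (nat_lit 84) (nat_lit 5) (nat_lit 645) (nat_lit 522) (nat_lit 393)) (XT.lf (nat_lit 0) (nat_lit 739394689) (nat_lit 304) (nat_lit 13502146495) (nat_lit 76) (nat_lit 4165537772) (nat_lit 76) (nat_lit 5) (nat_lit 80) (nat_lit 5) (nat_lit 77) (nat_lit 5) (nat_lit 646) (nat_lit 522) (nat_lit 392))) (XT.nd (nat_lit 71526) (nat_lit 0) (nat_lit 53200) (XT.lf (nat_lit 0) (nat_lit 6199317405) (nat_lit 304) (nat_lit 1531206218) (nat_lit 76) (nat_lit 10906657714) (nat_lit 76) (nat_lit 5) (nat_lit 80) (nat_lit 5) (nat_lit 77) (nat_lit 5) (nat_lit 647) (nat_lit 522) (nat_lit 391)) (XT.lf (nat_lit 0) (nat_lit 1373098768) (nat_lit 0) (nat_lit 1373098768) (nat_lit 228) (nat_lit 483455764) (nat_lit 776) (nat_lit 5) (nat_lit 776) (nat_lit 3) (nat_lit 779) (nat_lit 3)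 (nat_lit 523) (nat_lit 523) (nat_lit 514))))) (XT.nd (nat_lit 312) (nat_lit 912) (nat_lit 0) (XT.nd (nat_lit 156) (nat_lit 380) (nat_lit 0) (XT.nd (nat_lit 78) (nat_lit 0) (nat_lit 0) (XT.lf (nat_lit 0) (nat_lit 1937279607) (nat_lit 380) (nat_lit 496626181) (nat_lit 380) (nat_lit 4031780428) (nat_lit 771) (nat_lit 3) (nat_lit 776) (nat_lit 3) (nat_lit 776) (nat_lit 5) (nat_lit 524) (nat_lit 523) (nat_lit 513)) (XT.lf (nat_lit 76) (nat_lit 2775369477) (nat_lit 0) (nat_lit 2053174142) (nat_lit 380) (nat_lit 1644691634) (nat_lit 772) (nat_lit 5) (nat_lit 771) (nat_lit 3) (nat_lit 776) (nat_lit 5) (nat_lit 525) (nat_lit 523) (nat_lit 512))) (XT.nd (nat_lit 78) (nat_lit 0) (nat_lit 0) (XT.lf (nat_lit 0) (nat_lit 1207688175) (nat_lit 380) (nat_lit 409339891) (nat_lit 456) (nat_lit 4865186932) (nat_lit 766) (nat_lit 5) (nat_lit 771) (nat_lit 3) (nat_lit 772) (nat_lit 5) (nat_lit 526) (nat_lit 523) (nat_lit 511)) (XT.lf (nat_lit 76) (nat_lit 2933749868) (nat_lit 0)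 (nat_lit 1106531595) (nat_lit 456) (nat_lit 2451979572) (nat_lit 767) (nat_lit 5) (nat_lit 766) (nat_lit 5) (nat_lit 772) (nat_lit 5) (nat_lit 527) (nat_lit 523) (nat_lit 510)))) (XT.nd (nat_lit 156) (nat_lit 456) (nat_lit 0) (XT.nd (nat_lit 78) (nat_lit 0) (nat_lit 76) (XT.lf (nat_lit 0) (nat_lit 351012599) (nat_lit 456) (nat_lit 195509682) (nat_lit 532) (nat_lit 5957345957) (nat_lit 760) (nat_lit 5) (nat_lit 766) (nat_lit 5) (nat_lit 767) (nat_lit 5) (nat_lit 528) (nat_lit 523) (nat_lit 509)) (XT.lf (nat_lit 0) (nat_lit 3127067485) (nat_lit 456) (nat_lit 3294997369) (nat_lit 532) (nat_lit 94329317) (nat_lit 761) (nat_lit 5) (nat_lit 767) (nat_lit 5) (nat_lit 768) (nat_lit 5) (nat_lit 529) (nat_lit 523) (nat_lit 508))) (XT.nd (nat_lit 78) (nat_lit 532) (nat_lit 0) (XT.lf (nat_lit 76) (nat_lit 138218313) (nat_lit 0) (nat_lit 5755891695) (nat_lit 532) (nat_lit 636358573) (nat_lit 762) (nat_lit 5) (nat_lit 761) (nat_lit 5) (nat_lit 768) (nat_lit 5) (nat_lit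 530) (nat_lit 523) (nat_lit 507)) (XT.lf (nat_lit 0) (nat_lit 2095729222) (nat_lit 532) (nat_lit 2914648940) (nat_lit 608) (nat_lit 1535120483) (nat_lit 754) (nat_lit 5) (nat_lit 761) (nat_lit 5) (nat_lit 762) (nat_lit 5) (nat_lit 531) (nat_lit 523) (nat_lit 506))))))) (XT.nd (nat_lit 1170) (nat_lit 13376) (nat_lit 0) (XT.nd (nat_lit 546) (nat_lit 4788) (nat_lit 0) (XT.nd (nat_lit 234) (nat_lit 1368) (nat_lit 0) (XT.nd (nat_lit 78) (nat_lit 608) (nat_lit 0) (XT.lf (nat_lit 76) (nat_lit 596124870) (nat_lit 0) (nat_lit 4213342985) (nat_lit 608) (nat_lit 1752573599) (nat_lit 755) (nat_lit 5) (nat_lit 754) (nat_lit 5) (nat_lit 762) (nat_lit 5) (nat_lit 532) (nat_lit 523) (nat_lit 505)) (XT.nd (nat_lit 78) (nat_lit 0) (nat_lit 0) (XT.lf (nat_lit 0) (nat_lit 937439800) (nat_lit 608) (nat_lit 2409140861) (nat_lit 684) (nat_lit 3233171992) (nat_lit 746) (nat_lit 5) (nat_lit 754) (nat_lit 5) (nat_lit 755) (nat_lit 5) (nat_lit 533) (nat_lit 523) (nat_lit 504)) (XT.lf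 (nat_lit 76) (nat_lit 1182846757) (nat_lit 0) (nat_lit 2416250999) (nat_lit 684) (nat_lit 2999668877) (nat_lit 747) (nat_lit 5) (nat_lit 746) (nat_lit 5) (nat_lit 755) (nat_lit 5) (nat_lit 534) (nat_lit 523) (nat_lit 503)))) (XT.nd (nat_lit 156) (nat_lit 684) (nat_lit 0) (XT.nd (nat_lit 78) (nat_lit 684) (nat_lit 0) (XT.lf (nat_lit 76) (nat_lit 4839762292) (nat_lit 0) (nat_lit 1425047542) (nat_lit 684) (nat_lit 354340987) (nat_lit 747) (nat_lit 5) (nat_lit 746) (nat_lit 5) (nat_lit 755) (nat_lit 5) (nat_lit 535) (nat_lit 523) (nat_lit 502)) (XT.lf (nat_lit 76) (nat_lit 1899917364) (nat_lit 0) (nat_lit 361076272) (nat_lit 760) (nat_lit 4379693978) (nat_lit 738) (nat_lit 5) (nat_lit 737) (nat_lit 5) (nat_lit 747) (nat_lit 5) (nat_lit 536) (nat_lit 523) (nat_lit 501))) (XT.nd (nat_lit 78) (nat_lit 760) (nat_lit 0) (XT.lf (nat_lit 0) (nat_lit 4877286775) (nat_lit 684) (nat_lit 1033441348) (nat_lit 76) (nat_lit 752818227) (nat_lit 738) (nat_lit 5) (nat_lit 747)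 (nat_lit 5) (nat_lit 739) (nat_lit 5) (nat_lit 537) (nat_lit 523) (nat_lit 500)) (XT.lf (nat_lit 0) (nat_lit 805597334) (nat_lit 760) (nat_lit 3951433337) (nat_lit 76) (nat_lit 1930569381) (nat_lit 728) (nat_lit 5) (nat_lit 738) (nat_lit 5) (nat_lit 729) (nat_lit 5) (nat_lit 538) (nat_lit 523) (nat_lit 499))))) (XT.nd (nat_lit 312) (nat_lit 3116) (nat_lit 0) (XT.nd (nat_lit 156) (nat_lit 912) (nat_lit 0) (XT.nd (nat_lit 78) (nat_lit 760) (nat_lit 0) (XT.lf (nat_lit 0) (nat_lit 3370837563) (nat_lit 760) (nat_lit 169282622) (nat_lit 76) (nat_lit 3172874850) (nat_lit 728) (nat_lit 5) (nat_lit 738) (nat_lit 5) (nat_lit 729) (nat_lit 5) (nat_lit 539) (nat_lit 523) (nat_lit 498)) (XT.lf (nat_lit 0) (nat_lit 3697209950) (nat_lit 760) (nat_lit 2253845010) (nat_lit 836) (nat_lit 788575035) (nat_lit 718) (nat_lit 5) (nat_lit 728) (nat_lit 5) (nat_lit 729) (nat_lit 5) (nat_lit 540) (nat_lit 523) (nat_lit 497))) (XT.nd (nat_lit 78) (nat_lit 0) (nat_lit 0) (XT.lf (nat_lit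 0) (nat_lit 835380530) (nat_lit 836) (nat_lit 903642859) (nat_lit 912) (nat_lit 5028608501) (nat_lit 706) (nat_lit 5) (nat_lit 717) (nat_lit 5) (nat_lit 718) (nat_lit 5) (nat_lit 541) (nat_lit 523) (nat_lit 496)) (XT.lf (nat_lit 0) (nat_lit 4271480741) (nat_lit 912) (nat_lit 2013608829) (nat_lit 76) (nat_lit 511707889) (nat_lit 706) (nat_lit 5) (nat_lit 718) (nat_lit 5) (nat_lit 707) (nat_lit 5) (nat_lit 542) (nat_lit 523) (nat_lit 495)))) (XT.nd (nat_lit 156) (nat_lit 2128) (nat_lit 0) (XT.nd (nat_lit 78) (nat_lit 76) (nat_lit 0) (XT.lf (nat_lit 0) (nat_lit 1962604218) (nat_lit 912) (nat_lit 4853092263) (nat_lit 988) (nat_lit 11632778) (nat_lit 694) (nat_lit 5) (nat_lit 706) (nat_lit 5) (nat_lit 707) (nat_lit 5) (nat_lit 543) (nat_lit 523) (nat_lit 494)) (XT.lf (nat_lit 0) (nat_lit 2475322228) (nat_lit 988) (nat_lit 870280954) (nat_lit 76) (nat_lit 3513412558) (nat_lit 693) (nat_lit 5) (nat_lit 706) (nat_lit 5) (nat_lit 694) (nat_lit 5) (nat_lit 544) (nat_lit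 523) (nat_lit 493))) (XT.nd (nat_lit 78) (nat_lit 1140) (nat_lit 0) (XT.lf (nat_lit 0) (nat_lit 3205769056) (nat_lit 988) (nat_lit 1770895566) (nat_lit 1064) (nat_lit 1915378520) (nat_lit 680) (nat_lit 5) (nat_lit 693) (nat_lit 5) (nat_lit 694) (nat_lit 5) (nat_lit 545) (nat_lit 523) (nat_lit 492)) (XT.lf (nat_lit 0) (nat_lit 410225527) (nat_lit 1064) (nat_lit 137178635) (nat_lit 1140) (nat_lit 6379193327) (nat_lit 665) (nat_lit 5) (nat_lit 679) (nat_lit 5) (nat_lit 680) (nat_lit 5) (nat_lit 546) (nat_lit 523) (nat_lit 491)))))) (XT.nd (nat_lit 546) (nat_lit 8208) (nat_lit 0) (XT.nd (nat_lit 234) (nat_lit 3952) (nat_lit 0) (XT.nd (nat_lit 78) (nat_lit 1216) (nat_lit 0) (XT.lf (nat_lit 0) (nat_lit 3014026309) (nat_lit 1140) (nat_lit 2387153279) (nat_lit 76) (nat_lit 1560810040) (nat_lit 665) (nat_lit 5) (nat_lit 680) (nat_lit 5) (nat_lit 666) (nat_lit 5) (nat_lit 547) (nat_lit 523) (nat_lit 490)) (XT.nd (nat_lit 78) (nat_lit 76) (nat_lit 0) (XT.lf (nat_lit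 0) (nat_lit 1806600363) (nat_lit 1140) (nat_lit 3682467113) (nat_lit 1216) (nat_lit 1509844845) (nat_lit 650) (nat_lit 5) (nat_lit 665) (nat_lit 5) (nat_lit 666) (nat_lit 5) (nat_lit 548) (nat_lit 523) (nat_lit 489)) (XT.lf (nat_lit 0) (nat_lit 927228511) (nat_lit 1216) (nat_lit 967391544) (nat_lit 76) (nat_lit 5142570681) (nat_lit 649) (nat_lit 5) (nat_lit 665) (nat_lit 5) (nat_lit 650) (nat_lit 5) (nat_lit 549) (nat_lit 523) (nat_lit 488)))) (XT.nd (nat_lit 156) (nat_lit 1444) (nat_lit 0) (XT.nd (nat_lit 78) (nat_lit 1292) (nat_lit 0) (XT.lf (nat_lit 0) (nat_lit 3335304389) (nat_lit 1216) (nat_lit 27118946) (nat_lit 1292) (nat_lit 3714224034) (nat_lit 633) (nat_lit 5) (nat_lit 649) (nat_lit 5) (nat_lit 650) (nat_lit 5) (nat_lit 550) (nat_lit 523) (nat_lit 487)) (XT.lf (nat_lit 0) (nat_lit 574399646) (nat_lit 1292) (nat_lit 5243133173) (nat_lit 1368) (nat_lit 1299940204) (nat_lit 616) (nat_lit 5) (nat_lit 633) (nat_lit 5) (nat_lit 634) (nat_lit 5) (nat_lit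 551) (nat_lit 523) (nat_lit 486))) (XT.nd (nat_lit 78) (nat_lit 1368) (nat_lit 0) (XT.lf (nat_lit 0) (nat_lit 1121988595) (nat_lit 1368) (nat_lit 2181046808) (nat_lit 76) (nat_lit 3856440616) (nat_lit 615) (nat_lit 5) (nat_lit 633) (nat_lit 5) (nat_lit 616) (nat_lit 5) (nat_lit 552) (nat_lit 523) (nat_lit 485)) (XT.lf (nat_lit 0) (nat_lit 2248203546) (nat_lit 1368) (nat_lit 1291511425) (nat_lit 1444) (nat_lit 3663140813) (nat_lit 597) (nat_lit 5) (nat_lit 615) (nat_lit 5) (nat_lit 616) (nat_lit 5) (nat_lit 553) (nat_lit 523) (nat_lit 484))))) (XT.nd (nat_lit 312) (nat_lit 5168) (nat_lit 0) (XT.nd (nat_lit 156) (nat_lit 1520) (nat_lit 0) (XT.nd (nat_lit 78) (nat_lit 1520) (nat_lit 0) (XT.lf (nat_lit 0) (nat_lit 5976385779) (nat_lit 1444) (nat_lit 497905942) (nat_lit 76) (nat_lit 773403419) (nat_lit 597) (nat_lit 5) (nat_lit 616) (nat_lit 5) (nat_lit 598) (nat_lit 5) (nat_lit 554) (nat_lit 523) (nat_lit 483)) (XT.lf (nat_lit 0) (nat_lit 1139686810) (nat_lit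 1520) (nat_lit 3249486104) (nat_lit 76) (nat_lit 2904377271) (nat_lit 577) (nat_lit 5) (nat_lit 597) (nat_lit 5) (nat_lit 578) (nat_lit 5) (nat_lit 555) (nat_lit 523) (nat_lit 482))) (XT.nd (nat_lit 78) (nat_lit 0) (nat_lit 0) (XT.lf (nat_lit 0) (nat_lit 1310899903) (nat_lit 1520) (nat_lit 2235116230) (nat_lit 1596) (nat_lit 3794858985) (nat_lit 557) (nat_lit 5) (nat_lit 577) (nat_lit 5) (nat_lit 578) (nat_lit 5) (nat_lit 556) (nat_lit 523) (nat_lit 481)) (XT.lf (nat_lit 0) (nat_lit 5965593812) (nat_lit 1520) (nat_lit 9600072) (nat_lit 1596) (nat_lit 1414461731) (nat_lit 557) (nat_lit 5) (nat_lit 577) (nat_lit 5) (nat_lit 578) (nat_lit 5) (nat_lit 557) (nat_lit 523) (nat_lit 480)))) (XT.nd (nat_lit 156) (nat_lit 1824) (nat_lit 0) (XT.nd (nat_lit 78) (nat_lit 1672) (nat_lit 0) (XT.lf (nat_lit 0) (nat_lit 989906039) (nat_lit 1672) (nat_lit 4185181786) (nat_lit 76) (nat_lit 2264402544) (nat_lit 535) (nat_lit 5) (nat_lit 557) (nat_lit 5) (nat_lit 536) (nat_lit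 5) (nat_lit 558) (nat_lit 523) (nat_lit 479)) (XT.lf (nat_lit 0) (nat_lit 511177642) (nat_lit 1672) (nat_lit 2879476566) (nat_lit 1748) (nat_lit 4100139266) (nat_lit 513) (nat_lit 5) (nat_lit 535) (nat_lit 5) (nat_lit 536) (nat_lit 5) (nat_lit 559) (nat_lit 523) (nat_lit 478))) (XT.nd (nat_lit 78) (nat_lit 1824) (nat_lit 0) (XT.lf (nat_lit 0) (nat_lit 5317016608) (nat_lit 1672) (nat_lit 505328940) (nat_lit 1748) (nat_lit 1721121768) (nat_lit 513) (nat_lit 5) (nat_lit 535) (nat_lit 5) (nat_lit 536) (nat_lit 5) (nat_lit 560) (nat_lit 523) (nat_lit 477)) (XT.lf (nat_lit 0) (nat_lit 681212914) (nat_lit 1824) (nat_lit 4999799170) (nat_lit 76) (nat_lit 1916394264) (nat_lit 489) (nat_lit 5) (nat_lit 513) (nat_lit 5) (nat_lit 490) (nat_lit 5) (nat_lit 561) (nat_lit 523) (nat_lit 476))))))))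
noncomputable def xc79 : XT := (XT.nd (nat_lit 2262) (nat_lit 9652) (nat_lit 0) (XT.nd (nat_lit 1092) (nat_lit 6992) (nat_lit 0) (XT.nd (nat_lit 546) (nat_lit 4256) (nat_lit 0) (XT.nd (nat_lit 234) (nat_lit 1900) (nat_lit 0) (XT.nd (nat_lit 78) (nat_lit 2964) (nat_lit 0) (XT.lf (nat_lit 0) (nat_lit 3083019508) (nat_lit 1824) (nat_lit 160243362) (nat_lit 76) (nat_lit 4409447391) (nat_lit 489) (nat_lit 5) (nat_lit 513) (nat_lit 5) (nat_lit 490) (nat_lit 5) (nat_lit 562) (nat_lit 523) (nat_lit 475)) (XT.nd (nat_lit 78) (nat_lit 1140) (nat_lit 0) (XT.lf (nat_lit 0) (nat_lit 4798248444) (nat_lit 1824) (nat_lit 722692050) (nat_lit 1900) (nat_lit 2188421182) (nat_lit 465) (nat_lit 5) (nat_lit 489) (nat_lit 5) (nat_lit 490) (nat_lit 5) (nat_lit 563) (nat_lit 523) (nat_lit 474)) (XT.lf (nat_lit 0) (nat_lit 221218166) (nat_lit 1140) (nat_lit 5704278246) (nat_lit 76) (nat_lit 1841943388) (nat_lit 450) (nat_lit 5) (nat_lit 465) (nat_lit 5) (nat_lit 451) (nat_lit 5) (nat_lit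 564) (nat_lit 523) (nat_lit 473)))) (XT.nd (nat_lit 156) (nat_lit 988) (nat_lit 0) (XT.nd (nat_lit 78) (nat_lit 912) (nat_lit 0) (XT.lf (nat_lit 0) (nat_lit 2632030106) (nat_lit 1140) (nat_lit 710987953) (nat_lit 76) (nat_lit 4483729283) (nat_lit 450) (nat_lit 5) (nat_lit 465) (nat_lit 5) (nat_lit 451) (nat_lit 5) (nat_lit 565) (nat_lit 523) (nat_lit 472)) (XT.lf (nat_lit 0) (nat_lit 4399005380) (nat_lit 912) (nat_lit 679246379) (nat_lit 988) (nat_lit 2809248168) (nat_lit 438) (nat_lit 5) (nat_lit 450) (nat_lit 5) (nat_lit 451) (nat_lit 5) (nat_lit 566) (nat_lit 523) (nat_lit 471))) (XT.nd (nat_lit 78) (nat_lit 76) (nat_lit 0) (XT.lf (nat_lit 0) (nat_lit 1638279708) (nat_lit 912) (nat_lit 5922969724) (nat_lit 988) (nat_lit 388463808) (nat_lit 426) (nat_lit 5) (nat_lit 438) (nat_lit 5) (nat_lit 439) (nat_lit 5) (nat_lit 567) (nat_lit 523) (nat_lit 470)) (XT.lf (nat_lit 0) (nat_lit 2040955202) (nat_lit 988) (nat_lit 1157666059) (nat_lit 76) (nat_lit 4814531807)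 (nat_lit 425) (nat_lit 5) (nat_lit 438) (nat_lit 5) (nat_lit 426) (nat_lit 5) (nat_lit 568) (nat_lit 523) (nat_lit 469))))) (XT.nd (nat_lit 234) (nat_lit 2508) (nat_lit 0) (XT.nd (nat_lit 78) (nat_lit 912) (nat_lit 0) (XT.lf (nat_lit 0) (nat_lit 4109642589) (nat_lit 836) (nat_lit 391046260) (nat_lit 912) (nat_lit 3577385485) (nat_lit 414) (nat_lit 5) (nat_lit 425) (nat_lit 5) (nat_lit 426) (nat_lit 5) (nat_lit 569) (nat_lit 523) (nat_lit 468)) (XT.nd (nat_lit 78) (nat_lit 76) (nat_lit 0) (XT.lf (nat_lit 0) (nat_lit 1313603572) (nat_lit 836) (nat_lit 5689164361) (nat_lit 912) (nat_lit 1141665579) (nat_lit 403) (nat_lit 5) (nat_lit 414) (nat_lit 5) (nat_lit 415) (nat_lit 5) (nat_lit 570) (nat_lit 523) (nat_lit 467)) (XT.lf (nat_lit 0) (nat_lit 1315545886) (nat_lit 912) (nat_lit 1509617456) (nat_lit 76) (nat_lit 5386976817) (nat_lit 402) (nat_lit 5) (nat_lit 414) (nat_lit 5) (nat_lit 403) (nat_lit 5) (nat_lit 571) (nat_lit 523) (nat_lit 466)))) (XT.nd (nat_lit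 156) (nat_lit 836) (nat_lit 0) (XT.nd (nat_lit 78) (nat_lit 836) (nat_lit 0) (XT.lf (nat_lit 0) (nat_lit 3794669699) (nat_lit 912) (nat_lit 4361052290) (nat_lit 76) (nat_lit 125569279) (nat_lit 391) (nat_lit 5) (nat_lit 403) (nat_lit 5) (nat_lit 392) (nat_lit 5) (nat_lit 572) (nat_lit 523) (nat_lit 465)) (XT.lf (nat_lit 0) (nat_lit 1081668879) (nat_lit 836) (nat_lit 5239862147) (nat_lit 912) (nat_lit 2030333583) (nat_lit 380) (nat_lit 5) (nat_lit 391) (nat_lit 5) (nat_lit 392) (nat_lit 5) (nat_lit 573) (nat_lit 523) (nat_lit 464))) (XT.nd (nat_lit 78) (nat_lit 760) (nat_lit 0) (XT.lf (nat_lit 0) (nat_lit 460758399) (nat_lit 912) (nat_lit 1775686114) (nat_lit 76) (nat_lit 6187507257) (nat_lit 379) (nat_lit 5) (nat_lit 391) (nat_lit 5) (nat_lit 380) (nat_lit 5) (nat_lit 574) (nat_lit 523) (nat_lit 463)) (XT.lf (nat_lit 0) (nat_lit 2968128761) (nat_lit 836) (nat_lit 4678311194) (nat_lit 76) (nat_lit 850901632) (nat_lit 369) (nat_lit 5) (nat_lit 380) (nat_lit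 5) (nat_lit 370) (nat_lit 5) (nat_lit 575) (nat_lit 523) (nat_lit 462)))))) (XT.nd (nat_lit 546) (nat_lit 3268) (nat_lit 0) (XT.nd (nat_lit 234) (nat_lit 2204) (nat_lit 0) (XT.nd (nat_lit 78) (nat_lit 760) (nat_lit 0) (XT.lf (nat_lit 0) (nat_lit 933985161) (nat_lit 760) (nat_lit 4588150493) (nat_lit 836) (nat_lit 3050135898) (nat_lit 359) (nat_lit 5) (nat_lit 369) (nat_lit 5) (nat_lit 370) (nat_lit 5) (nat_lit 576) (nat_lit 523) (nat_lit 461)) (XT.nd (nat_lit 78) (nat_lit 760) (nat_lit 0) (XT.lf (nat_lit 0) (nat_lit 6681089085) (nat_lit 760) (nat_lit 1441595106) (nat_lit 836) (nat_lit 526108791) (nat_lit 359) (nat_lit 5) (nat_lit 369) (nat_lit 5) (nat_lit 370) (nat_lit 5) (nat_lit 577) (nat_lit 523) (nat_lit 460)) (XT.lf (nat_lit 0) (nat_lit 2022521055) (nat_lit 760) (nat_lit 4926027003) (nat_lit 76) (nat_lit 1778013055) (nat_lit 349) (nat_lit 5) (nat_lit 359) (nat_lit 5) (nat_lit 350) (nat_lit 5) (nat_lit 578) (nat_lit 523) (nat_lit 459)))) (XT.nd (nat_lit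 156) (nat_lit 1444) (nat_lit 0) (XT.nd (nat_lit 78) (nat_lit 0) (nat_lit 0) (XT.lf (nat_lit 0) (nat_lit 862453421) (nat_lit 760) (nat_lit 3746007261) (nat_lit 836) (nat_lit 4197488712) (nat_lit 339) (nat_lit 5) (nat_lit 349) (nat_lit 5) (nat_lit 350) (nat_lit 5) (nat_lit 579) (nat_lit 523) (nat_lit 458)) (XT.lf (nat_lit 0) (nat_lit 6792817996) (nat_lit 760) (nat_lit 451717679) (nat_lit 836) (nat_lit 1642423367) (nat_lit 339) (nat_lit 5) (nat_lit 349) (nat_lit 5) (nat_lit 350) (nat_lit 5) (nat_lit 580) (nat_lit 523) (nat_lit 457))) (XT.nd (nat_lit 78) (nat_lit 684) (nat_lit 0) (XT.lf (nat_lit 0) (nat_lit 961136931) (nat_lit 760) (nat_lit 5112231654) (nat_lit 76) (nat_lit 2895896346) (nat_lit 329) (nat_lit 5) (nat_lit 339) (nat_lit 5) (nat_lit 330) (nat_lit 5) (nat_lit 581) (nat_lit 523) (nat_lit 456)) (XT.lf (nat_lit 0) (nat_lit 859300807) (nat_lit 684) (nat_lit 2724394966) (nat_lit 760) (nat_lit 5469527471) (nat_lit 320) (nat_lit 5) (nat_lit 329) (nat_lit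 5) (nat_lit 330) (nat_lit 5) (nat_lit 582) (nat_lit 523) (nat_lit 455))))) (XT.nd (nat_lit 312) (nat_lit 1900) (nat_lit 0) (XT.nd (nat_lit 156) (nat_lit 760) (nat_lit 0) (XT.nd (nat_lit 78) (nat_lit 608) (nat_lit 0) (XT.lf (nat_lit 0) (nat_lit 6264266288) (nat_lit 760) (nat_lit 2164376613) (nat_lit 76) (nat_lit 710108401) (nat_lit 320) (nat_lit 5) (nat_lit 330) (nat_lit 5) (nat_lit 321) (nat_lit 5) (nat_lit 583) (nat_lit 523) (nat_lit 454)) (XT.lf (nat_lit 0) (nat_lit 3979670377) (nat_lit 608) (nat_lit 5029852458) (nat_lit 684) (nat_lit 216247343) (nat_lit 312) (nat_lit 5) (nat_lit 320) (nat_lit 5) (nat_lit 321) (nat_lit 5) (nat_lit 584) (nat_lit 523) (nat_lit 453))) (XT.nd (nat_lit 78) (nat_lit 0) (nat_lit 0) (XT.lf (nat_lit 0) (nat_lit 917016310) (nat_lit 684) (nat_lit 1533349438) (nat_lit 760) (nat_lit 6864082663) (nat_lit 302) (nat_lit 5) (nat_lit 311) (nat_lit 5) (nat_lit 312) (nat_lit 5) (nat_lit 585) (nat_lit 523) (nat_lit 452)) (XT.lf (nat_lit 0) (nat_lit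 5183744641) (nat_lit 760) (nat_lit 2185296446) (nat_lit 76) (nat_lit 2035505601) (nat_lit 302) (nat_lit 5) (nat_lit 312) (nat_lit 5) (nat_lit 303) (nat_lit 5) (nat_lit 586) (nat_lit 523) (nat_lit 451)))) (XT.nd (nat_lit 156) (nat_lit 608) (nat_lit 0) (XT.nd (nat_lit 78) (nat_lit 684) (nat_lit 0) (XT.lf (nat_lit 0) (nat_lit 4155484114) (nat_lit 608) (nat_lit 3821764363) (nat_lit 684) (nat_lit 1519090926) (nat_lit 294) (nat_lit 5) (nat_lit 302) (nat_lit 5) (nat_lit 303) (nat_lit 5) (nat_lit 587) (nat_lit 523) (nat_lit 450)) (XT.lf (nat_lit 0) (nat_lit 1028286951) (nat_lit 608) (nat_lit 182063573) (nat_lit 684) (nat_lit 8379660119) (nat_lit 285) (nat_lit 5) (nat_lit 293) (nat_lit 5) (nat_lit 294) (nat_lit 5) (nat_lit 588) (nat_lit 523) (nat_lit 449))) (XT.nd (nat_lit 78) (nat_lit 608) (nat_lit 0) (XT.lf (nat_lit 0) (nat_lit 4001838654) (nat_lit 684) (nat_lit 2161254678) (nat_lit 76) (nat_lit 3521706707) (nat_lit 285) (nat_lit 5) (nat_lit 294) (nat_lit 5) (nat_lit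 286) (nat_lit 5) (nat_lit 589) (nat_lit 523) (nat_lit 448)) (XT.lf (nat_lit 0) (nat_lit 4383900454) (nat_lit 608) (nat_lit 2464317412) (nat_lit 684) (nat_lit 2933287627) (nat_lit 277) (nat_lit 5) (nat_lit 285) (nat_lit 5) (nat_lit 286) (nat_lit 5) (nat_lit 590) (nat_lit 523) (nat_lit 447))))))) (XT.nd (nat_lit 1170) (nat_lit 4256) (nat_lit 0) (XT.nd (nat_lit 546) (nat_lit 2508) (nat_lit 0) (XT.nd (nat_lit 234) (nat_lit 1672) (nat_lit 0) (XT.nd (nat_lit 78) (nat_lit 608) (nat_lit 0) (XT.lf (nat_lit 0) (nat_lit 1176336386) (nat_lit 608) (nat_lit 8575598300) (nat_lit 684) (nat_lit 128203635) (nat_lit 269) (nat_lit 5) (nat_lit 277) (nat_lit 5) (nat_lit 278) (nat_lit 5) (nat_lit 591) (nat_lit 523) (nat_lit 446)) (XT.nd (nat_lit 78) (nat_lit 532) (nat_lit 0) (XT.lf (nat_lit 0) (nat_lit 2719734354) (nat_lit 684) (nat_lit 2099441307) (nat_lit 76) (nat_lit 5160762748) (nat_lit 268) (nat_lit 5) (nat_lit 277) (nat_lit 5) (nat_lit 269) (nat_lit 5) (nat_lit 592) (nat_lit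 523) (nat_lit 445)) (XT.lf (nat_lit 0) (nat_lit 4657992690) (nat_lit 532) (nat_lit 965573249) (nat_lit 608) (nat_lit 4458139964) (nat_lit 261) (nat_lit 5) (nat_lit 268) (nat_lit 5) (nat_lit 269) (nat_lit 5) (nat_lit 593) (nat_lit 523) (nat_lit 444)))) (XT.nd (nat_lit 156) (nat_lit 1064) (nat_lit 0) (XT.nd (nat_lit 78) (nat_lit 76) (nat_lit 0) (XT.lf (nat_lit 0) (nat_lit 1352682379) (nat_lit 532) (nat_lit 7245678327) (nat_lit 608) (nat_lit 1586891664) (nat_lit 254) (nat_lit 5) (nat_lit 261) (nat_lit 5) (nat_lit 262) (nat_lit 5) (nat_lit 594) (nat_lit 523) (nat_lit 443)) (XT.lf (nat_lit 0) (nat_lit 1338013153) (nat_lit 608) (nat_lit 2007013232) (nat_lit 76) (nat_lit 6945393863) (nat_lit 253) (nat_lit 5) (nat_lit 261) (nat_lit 5) (nat_lit 254) (nat_lit 5) (nat_lit 595) (nat_lit 523) (nat_lit 442))) (XT.nd (nat_lit 78) (nat_lit 532) (nat_lit 0) (XT.lf (nat_lit 0) (nat_lit 4308162771) (nat_lit 608) (nat_lit 5430873650) (nat_lit 76) (nat_lit 658286647) (nat_lit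 246) (nat_lit 5) (nat_lit 254) (nat_lit 5) (nat_lit 247) (nat_lit 5) (nat_lit 596) (nat_lit 523) (nat_lit 441)) (XT.lf (nat_lit 0) (nat_lit 1559587495) (nat_lit 532) (nat_lit 5795577671) (nat_lit 608) (nat_lit 3150851036) (nat_lit 239) (nat_lit 5) (nat_lit 246) (nat_lit 5) (nat_lit 247) (nat_lit 5) (nat_lit 597) (nat_lit 523) (nat_lit 440))))) (XT.nd (nat_lit 312) (nat_lit 1444) (nat_lit 0) (XT.nd (nat_lit 156) (nat_lit 532) (nat_lit 0) (XT.nd (nat_lit 78) (nat_lit 532) (nat_lit 0) (XT.lf (nat_lit 0) (nat_lit 8724614714) (nat_lit 532) (nat_lit 1746855301) (nat_lit 608) (nat_lit 145247160) (nat_lit 239) (nat_lit 5) (nat_lit 246) (nat_lit 5) (nat_lit 247) (nat_lit 5) (nat_lit 598) (nat_lit 523) (nat_lit 439)) (XT.lf (nat_lit 0) (nat_lit 2904719495) (nat_lit 532) (nat_lit 5429277373) (nat_lit 76) (nat_lit 2394806183) (nat_lit 232) (nat_lit 5) (nat_lit 239) (nat_lit 5) (nat_lit 233) (nat_lit 5) (nat_lit 599) (nat_lit 523) (nat_lit 438))) (XT.nd (nat_lit 78) (nat_lit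 0) (nat_lit 0) (XT.lf (nat_lit 0) (nat_lit 1789924264) (nat_lit 532) (nat_lit 4232299934) (nat_lit 608) (nat_lit 4820718729) (nat_lit 225) (nat_lit 5) (nat_lit 232) (nat_lit 5) (nat_lit 233) (nat_lit 5) (nat_lit 600) (nat_lit 523) (nat_lit 437)) (XT.lf (nat_lit 0) (nat_lit 9188665812) (nat_lit 532) (nat_lit 22646636) (nat_lit 608) (nat_lit 1747869617) (nat_lit 225) (nat_lit 5) (nat_lit 232) (nat_lit 5) (nat_lit 233) (nat_lit 5) (nat_lit 601) (nat_lit 523) (nat_lit 436)))) (XT.nd (nat_lit 156) (nat_lit 456) (nat_lit 0) (XT.nd (nat_lit 78) (nat_lit 456) (nat_lit 0) (XT.lf (nat_lit 0) (nat_lit 1406283487) (nat_lit 532) (nat_lit 5420175687) (nat_lit 76) (nat_lit 4250347260) (nat_lit 218) (nat_lit 5) (nat_lit 225) (nat_lit 5) (nat_lit 219) (nat_lit 5) (nat_lit 602) (nat_lit 523) (nat_lit 435)) (XT.lf (nat_lit 0) (nat_lit 2036426313) (nat_lit 456) (nat_lit 2562406674) (nat_lit 532) (nat_lit 6597745955) (nat_lit 212) (nat_lit 5) (nat_lit 218) (nat_lit 5) (nat_lit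 219) (nat_lit 5) (nat_lit 603) (nat_lit 523) (nat_lit 434))) (XT.nd (nat_lit 78) (nat_lit 456) (nat_lit 0) (XT.lf (nat_lit 0) (nat_lit 7877012318) (nat_lit 532) (nat_lit 1652683666) (nat_lit 76) (nat_lit 1788616388) (nat_lit 212) (nat_lit 5) (nat_lit 219) (nat_lit 5) (nat_lit 213) (nat_lit 5) (nat_lit 604) (nat_lit 523) (nat_lit 433)) (XT.lf (nat_lit 0) (nat_lit 6029341305) (nat_lit 456) (nat_lit 5221612168) (nat_lit 532) (nat_lit 190924059) (nat_lit 206) (nat_lit 5) (nat_lit 212) (nat_lit 5) (nat_lit 213) (nat_lit 5) (nat_lit 605) (nat_lit 523) (nat_lit 432)))))) (XT.nd (nat_lit 546) (nat_lit 2052) (nat_lit 0) (XT.nd (nat_lit 234) (nat_lit 1292) (nat_lit 0) (XT.nd (nat_lit 78) (nat_lit 380) (nat_lit 0) (XT.lf (nat_lit 0) (nat_lit 2291616774) (nat_lit 456) (nat_lit 792083679) (nat_lit 532) (nat_lit 8483804430) (nat_lit 199) (nat_lit 5) (nat_lit 205) (nat_lit 5) (nat_lit 206) (nat_lit 5) (nat_lit 606) (nat_lit 523) (nat_lit 431)) (XT.nd (nat_lit 78) (nat_lit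 380) (nat_lit 0) (XT.lf (nat_lit 0) (nat_lit 6456377841) (nat_lit 532) (nat_lit 1535375542) (nat_lit 76) (nat_lit 3703164788) (nat_lit 199) (nat_lit 5) (nat_lit 206) (nat_lit 5) (nat_lit 200) (nat_lit 5) (nat_lit 607) (nat_lit 523) (nat_lit 430)) (XT.lf (nat_lit 0) (nat_lit 6401420666) (nat_lit 380) (nat_lit 3516759761) (nat_lit 456) (nat_lit 1906266813) (nat_lit 194) (nat_lit 5) (nat_lit 199) (nat_lit 5) (nat_lit 200) (nat_lit 5) (nat_lit 608) (nat_lit 523) (nat_lit 429)))) (XT.nd (nat_lit 156) (nat_lit 760) (nat_lit 0) (XT.nd (nat_lit 78) (nat_lit 0) (nat_lit 0) (XT.lf (nat_lit 0) (nat_lit 1481904822) (nat_lit 532) (nat_lit 9415568771) (nat_lit 76) (nat_lit 1058723802) (nat_lit 187) (nat_lit 5) (nat_lit 194) (nat_lit 5) (nat_lit 188) (nat_lit 5) (nat_lit 609) (nat_lit 523) (nat_lit 428)) (XT.lf (nat_lit 0) (nat_lit 4947382455) (nat_lit 532) (nat_lit 1426439528) (nat_lit 76) (nat_lit 5715808105) (nat_lit 187) (nat_lit 5) (nat_lit 194) (nat_lit 5) (nat_lit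 188) (nat_lit 5) (nat_lit 610) (nat_lit 523) (nat_lit 427))) (XT.nd (nat_lit 78) (nat_lit 380) (nat_lit 0) (XT.lf (nat_lit 0) (nat_lit 6774559911) (nat_lit 380) (nat_lit 1727203933) (nat_lit 456) (nat_lit 3723576584) (nat_lit 182) (nat_lit 5) (nat_lit 187) (nat_lit 5) (nat_lit 188) (nat_lit 5) (nat_lit 611) (nat_lit 523) (nat_lit 426)) (XT.lf (nat_lit 0) (nat_lit 2775193554) (nat_lit 380) (nat_lit 9375021493) (nat_lit 456) (nat_lit 213091142) (nat_lit 177) (nat_lit 5) (nat_lit 182) (nat_lit 5) (nat_lit 183) (nat_lit 5) (nat_lit 612) (nat_lit 523) (nat_lit 425))))) (XT.nd (nat_lit 312) (nat_lit 1140) (nat_lit 0) (XT.nd (nat_lit 156) (nat_lit 456) (nat_lit 0) (XT.nd (nat_lit 78) (nat_lit 380) (nat_lit 0) (XT.lf (nat_lit 0) (nat_lit 3347542857) (nat_lit 456) (nat_lit 1334273753) (nat_lit 76) (nat_lit 7821296075) (nat_lit 176) (nat_lit 5) (nat_lit 182) (nat_lit 5) (nat_lit 177) (nat_lit 5) (nat_lit 613) (nat_lit 523) (nat_lit 424)) (XT.lf (nat_lit 0) (nat_lit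 7000139286) (nat_lit 456) (nat_lit 5505548165) (nat_lit 76) (nat_lit 139528437) (nat_lit 171) (nat_lit 5) (nat_lit 177) (nat_lit 5) (nat_lit 172) (nat_lit 5) (nat_lit 614) (nat_lit 523) (nat_lit 423))) (XT.nd (nat_lit 78) (nat_lit 76) (nat_lit 0) (XT.lf (nat_lit 0) (nat_lit 2982821569) (nat_lit 380) (nat_lit 7778820369) (nat_lit 456) (nat_lit 2027802924) (nat_lit 166) (nat_lit 5) (nat_lit 171) (nat_lit 5) (nat_lit 172) (nat_lit 5) (nat_lit 615) (nat_lit 523) (nat_lit 422)) (XT.lf (nat_lit 0) (nat_lit 1653751796) (nat_lit 456) (nat_lit 1267765167) (nat_lit 76) (nat_lit 10014551812) (nat_lit 165) (nat_lit 5) (nat_lit 171) (nat_lit 5) (nat_lit 166) (nat_lit 5) (nat_lit 616) (nat_lit 523) (nat_lit 421)))) (XT.nd (nat_lit 156) (nat_lit 380) (nat_lit 0) (XT.nd (nat_lit 78) (nat_lit 380) (nat_lit 0) (XT.lf (nat_lit 0) (nat_lit 5420974562) (nat_lit 456) (nat_lit 5607469828) (nat_lit 76) (nat_lit 2056129664) (nat_lit 160) (nat_lit 5) (nat_lit 166) (nat_lit 5) (nat_lit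 161) (nat_lit 5) (nat_lit 617) (nat_lit 523) (nat_lit 420)) (XT.lf (nat_lit 0) (nat_lit 3164351975) (nat_lit 380) (nat_lit 6124784419) (nat_lit 456) (nat_lit 3946401884) (nat_lit 155) (nat_lit 5) (nat_lit 160) (nat_lit 5) (nat_lit 161) (nat_lit 5) (nat_lit 618) (nat_lit 523) (nat_lit 419))) (XT.nd (nat_lit 78) (nat_lit 380) (nat_lit 0) (XT.lf (nat_lit 0) (nat_lit 12151935728) (nat_lit 380) (nat_lit 1097709427) (nat_lit 456) (nat_lit 139577677) (nat_lit 155) (nat_lit 5) (nat_lit 160) (nat_lit 5) (nat_lit 161) (nat_lit 5) (nat_lit 619) (nat_lit 523) (nat_lit 418)) (XT.lf (nat_lit 0) (nat_lit 3749264722) (nat_lit 380) (nat_lit 5755292196) (nat_lit 76) (nat_lit 4039839223) (nat_lit 150) (nat_lit 5) (nat_lit 155) (nat_lit 5) (nat_lit 151) (nat_lit 5) (nat_lit 620) (nat_lit 523) (nat_lit 417))))))))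
noncomputable def xc80 : XT := (XT.nd (nat_lit 73788) (nat_lit 0) (nat_lit 39596) (XT.nd (nat_lit 1092) (nat_lit 2508) (nat_lit 0) (XT.nd (nat_lit 546) (nat_lit 1292) (nat_lit 0) (XT.nd (nat_lit 234) (nat_lit 1064) (nat_lit 0) (XT.nd (nat_lit 78) (nat_lit 380) (nat_lit 0) (XT.lf (nat_lit 0) (nat_lit 3310039851) (nat_lit 380) (nat_lit 4418873051) (nat_lit 456) (nat_lit 5973444280) (nat_lit 145) (nat_lit 5) (nat_lit 150) (nat_lit 5) (nat_lit 151) (nat_lit 5) (nat_lit 621) (nat_lit 523) (nat_lit 416)) (XT.nd (nat_lit 78) (nat_lit 380) (nat_lit 0) (XT.lf (nat_lit 0) (nat_lit 11809920223) (nat_lit 456) (nat_lit 1268790747) (nat_lit 76) (nat_lit 784331816) (nat_lit 145) (nat_lit 5) (nat_lit 151) (nat_lit 5) (nat_lit 146) (nat_lit 5) (nat_lit 622) (nat_lit 523) (nat_lit 415)) (XT.lf (nat_lit 0) (nat_lit 1980537312) (nat_lit 380) (nat_lit 5959707373) (nat_lit 76) (nat_lit 6085236436) (nat_lit 140) (nat_lit 5) (nat_lit 145) (nat_lit 5) (nat_lit 141) (nat_lit 5) (nat_lit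 623) (nat_lit 523) (nat_lit 414)))) (XT.nd (nat_lit 156) (nat_lit 684) (nat_lit 0) (XT.nd (nat_lit 78) (nat_lit 0) (nat_lit 0) (XT.lf (nat_lit 0) (nat_lit 3409396905) (nat_lit 380) (nat_lit 2667104867) (nat_lit 456) (nat_lit 8114213200) (nat_lit 135) (nat_lit 5) (nat_lit 140) (nat_lit 5) (nat_lit 141) (nat_lit 5) (nat_lit 624) (nat_lit 523) (nat_lit 413)) (XT.lf (nat_lit 0) (nat_lit 10290750876) (nat_lit 456) (nat_lit 1364662986) (nat_lit 76) (nat_lit 2703112945) (nat_lit 135) (nat_lit 5) (nat_lit 141) (nat_lit 5) (nat_lit 136) (nat_lit 5) (nat_lit 625) (nat_lit 523) (nat_lit 412))) (XT.nd (nat_lit 78) (nat_lit 304) (nat_lit 0) (XT.lf (nat_lit 0) (nat_lit 109600115) (nat_lit 380) (nat_lit 6232248270) (nat_lit 76) (nat_lit 8186823514) (nat_lit 130) (nat_lit 5) (nat_lit 135) (nat_lit 5) (nat_lit 131) (nat_lit 5) (nat_lit 626) (nat_lit 523) (nat_lit 411)) (XT.lf (nat_lit 0) (nat_lit 3451079538) (nat_lit 304) (nat_lit 875629877) (nat_lit 380) (nat_lit 10374760231)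 (nat_lit 126) (nat_lit 5) (nat_lit 130) (nat_lit 5) (nat_lit 131) (nat_lit 5) (nat_lit 627) (nat_lit 523) (nat_lit 410))))) (XT.nd (nat_lit 234) (nat_lit 608) (nat_lit 0) (XT.nd (nat_lit 78) (nat_lit 684) (nat_lit 0) (XT.lf (nat_lit 0) (nat_lit 8679855888) (nat_lit 380) (nat_lit 1529605782) (nat_lit 76) (nat_lit 4667228344) (nat_lit 126) (nat_lit 5) (nat_lit 131) (nat_lit 5) (nat_lit 127) (nat_lit 5) (nat_lit 628) (nat_lit 523) (nat_lit 409)) (XT.nd (nat_lit 78) (nat_lit 380) (nat_lit 0) (XT.lf (nat_lit 0) (nat_lit 8456904655) (nat_lit 304) (nat_lit 4703358912) (nat_lit 380) (nat_lit 1894347812) (nat_lit 122) (nat_lit 5) (nat_lit 126) (nat_lit 5) (nat_lit 127) (nat_lit 5) (nat_lit 629) (nat_lit 523) (nat_lit 408)) (XT.lf (nat_lit 0) (nat_lit 2479735140) (nat_lit 380) (nat_lit 11818921340) (nat_lit 76) (nat_lit 936746175) (nat_lit 117) (nat_lit 5) (nat_lit 122) (nat_lit 5) (nat_lit 118) (nat_lit 5) (nat_lit 630) (nat_lit 523) (nat_lit 407)))) (XT.nd (nat_lit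 156) (nat_lit 380) (nat_lit 0) (XT.nd (nat_lit 78) (nat_lit 228) (nat_lit 0) (XT.lf (nat_lit 0) (nat_lit 6971310129) (nat_lit 380) (nat_lit 1776475311) (nat_lit 76) (nat_lit 6670666892) (nat_lit 117) (nat_lit 5) (nat_lit 122) (nat_lit 5) (nat_lit 118) (nat_lit 5) (nat_lit 631) (nat_lit 523) (nat_lit 406)) (XT.lf (nat_lit 0) (nat_lit 8545611399) (nat_lit 228) (nat_lit 3042624897) (nat_lit 304) (nat_lit 4016216828) (nat_lit 114) (nat_lit 5) (nat_lit 117) (nat_lit 5) (nat_lit 118) (nat_lit 5) (nat_lit 632) (nat_lit 523) (nat_lit 405))) (XT.nd (nat_lit 78) (nat_lit 0) (nat_lit 0) (XT.lf (nat_lit 0) (nat_lit 528488573) (nat_lit 380) (nat_lit 12500990547) (nat_lit 76) (nat_lit 2763994690) (nat_lit 109) (nat_lit 5) (nat_lit 114) (nat_lit 5) (nat_lit 110) (nat_lit 5) (nat_lit 633) (nat_lit 523) (nat_lit 404)) (XT.lf (nat_lit 0) (nat_lit 5158363189) (nat_lit 380) (nat_lit 2119290276) (nat_lit 76) (nat_lit 8707129940) (nat_lit 109) (nat_lit 5) (nat_lit 114) (nat_lit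 5) (nat_lit 110) (nat_lit 5) (nat_lit 634) (nat_lit 523) (nat_lit 403)))))) (XT.nd (nat_lit 546) (nat_lit 1064) (nat_lit 0) (XT.nd (nat_lit 234) (nat_lit 836) (nat_lit 0) (XT.nd (nat_lit 78) (nat_lit 380) (nat_lit 0) (XT.lf (nat_lit 0) (nat_lit 8549405351) (nat_lit 228) (nat_lit 1367497085) (nat_lit 304) (nat_lit 6262295887) (nat_lit 106) (nat_lit 5) (nat_lit 109) (nat_lit 5) (nat_lit 110) (nat_lit 5) (nat_lit 635) (nat_lit 523) (nat_lit 402)) (XT.nd (nat_lit 78) (nat_lit 76) (nat_lit 0) (XT.lf (nat_lit 0) (nat_lit 3059911259) (nat_lit 304) (nat_lit 11755787708) (nat_lit 380) (nat_lit 1560901307) (nat_lit 102) (nat_lit 5) (nat_lit 106) (nat_lit 5) (nat_lit 107) (nat_lit 5) (nat_lit 636) (nat_lit 523) (nat_lit 401)) (XT.lf (nat_lit 0) (nat_lit 3233377634) (nat_lit 380) (nat_lit 2573379643) (nat_lit 76) (nat_lit 10769947865) (nat_lit 101) (nat_lit 5) (nat_lit 106) (nat_lit 5) (nat_lit 102) (nat_lit 5) (nat_lit 637) (nat_lit 523) (nat_lit 400)))) (XT.nd (nat_lit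 156) (nat_lit 304) (nat_lit 0) (XT.nd (nat_lit 78) (nat_lit 304) (nat_lit 0) (XT.lf (nat_lit 0) (nat_lit 8140647259) (nat_lit 304) (nat_lit 8328852116) (nat_lit 76) (nat_lit 310346708) (nat_lit 98) (nat_lit 5) (nat_lit 102) (nat_lit 5) (nat_lit 99) (nat_lit 5) (nat_lit 638) (nat_lit 523) (nat_lit 399)) (XT.lf (nat_lit 0) (nat_lit 2708664740) (nat_lit 304) (nat_lit 10491961004) (nat_lit 380) (nat_lit 3785333258) (nat_lit 94) (nat_lit 5) (nat_lit 98) (nat_lit 5) (nat_lit 99) (nat_lit 5) (nat_lit 639) (nat_lit 523) (nat_lit 398))) (XT.nd (nat_lit 78) (nat_lit 228) (nat_lit 0) (XT.lf (nat_lit 0) (nat_lit 1187759230) (nat_lit 380) (nat_lit 3155544211) (nat_lit 76) (nat_lit 12851991058) (nat_lit 93) (nat_lit 5) (nat_lit 98) (nat_lit 5) (nat_lit 94) (nat_lit 5) (nat_lit 640) (nat_lit 523) (nat_lit 397)) (XT.lf (nat_lit 0) (nat_lit 6257673217) (nat_lit 304) (nat_lit 9180655615) (nat_lit 76) (nat_lit 1969026952) (nat_lit 90) (nat_lit 5) (nat_lit 94) (nat_lit 5) (nat_lit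 91) (nat_lit 5) (nat_lit 641) (nat_lit 523) (nat_lit 396))))) (XT.nd (nat_lit 312) (nat_lit 304) (nat_lit 0) (XT.nd (nat_lit 156) (nat_lit 532) (nat_lit 0) (XT.nd (nat_lit 78) (nat_lit 0) (nat_lit 0) (XT.lf (nat_lit 0) (nat_lit 2224602338) (nat_lit 228) (nat_lit 9250522105) (nat_lit 304) (nat_lit 6147611469) (nat_lit 87) (nat_lit 5) (nat_lit 90) (nat_lit 5) (nat_lit 91) (nat_lit 5) (nat_lit 642) (nat_lit 523) (nat_lit 395)) (XT.lf (nat_lit 0) (nat_lit 13950822087) (nat_lit 228) (nat_lit 2889481175) (nat_lit 304) (nat_lit 1001253199) (nat_lit 87) (nat_lit 5) (nat_lit 90) (nat_lit 5) (nat_lit 91) (nat_lit 5) (nat_lit 643) (nat_lit 523) (nat_lit 394))) (XT.nd (nat_lit 78) (nat_lit 228) (nat_lit 0) (XT.lf (nat_lit 0) (nat_lit 4249367559) (nat_lit 304) (nat_lit 10195818171) (nat_lit 76) (nat_lit 3617875462) (nat_lit 83) (nat_lit 5) (nat_lit 87) (nat_lit 5) (nat_lit 84) (nat_lit 5) (nat_lit 644) (nat_lit 523) (nat_lit 393)) (XT.lf (nat_lit 0) (nat_lit 1588261084)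 (nat_lit 228) (nat_lit 8041151050) (nat_lit 304) (nat_lit 8658695520) (nat_lit 80) (nat_lit 5) (nat_lit 83) (nat_lit 5) (nat_lit 84) (nat_lit 5) (nat_lit 645) (nat_lit 523) (nat_lit 392)))) (XT.nd (nat_lit 71682) (nat_lit 0) (nat_lit 52440) (XT.nd (nat_lit 78) (nat_lit 304) (nat_lit 0) (XT.lf (nat_lit 0) (nat_lit 13715158750) (nat_lit 228) (nat_lit 1452544066) (nat_lit 304) (nat_lit 3348939687) (nat_lit 80) (nat_lit 5) (nat_lit 83) (nat_lit 5) (nat_lit 84) (nat_lit 5) (nat_lit 646) (nat_lit 523) (nat_lit 391)) (XT.lf (nat_lit 0) (nat_lit 2104849455) (nat_lit 304) (nat_lit 11395773433) (nat_lit 76) (nat_lit 5247558148) (nat_lit 76) (nat_lit 5) (nat_lit 80) (nat_lit 5) (nat_lit 77) (nat_lit 5) (nat_lit 647) (nat_lit 523) (nat_lit 390))) (XT.nd (nat_lit 78) (nat_lit 380) (nat_lit 0) (XT.lf (nat_lit 0) (nat_lit 2395559207) (nat_lit 380) (nat_lit 420394857) (nat_lit 380) (nat_lit 420394857) (nat_lit 771) (nat_lit 3) (nat_lit 776) (nat_lit 3) (nat_lit 776) (nat_lit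 5) (nat_lit 524) (nat_lit 524) (nat_lit 512)) (XT.lf (nat_lit 0) (nat_lit 1146784282) (nat_lit 380) (nat_lit 4081037728) (nat_lit 456) (nat_lit 1253064453) (nat_lit 766) (nat_lit 5) (nat_lit 771) (nat_lit 3) (nat_lit 772) (nat_lit 5) (nat_lit 525) (nat_lit 524) (nat_lit 511))))))) (XT.nd (nat_lit 1092) (nat_lit 9880) (nat_lit 0) (XT.nd (nat_lit 546) (nat_lit 1368) (nat_lit 0) (XT.nd (nat_lit 234) (nat_lit 1140) (nat_lit 0) (XT.nd (nat_lit 78) (nat_lit 456) (nat_lit 0) (XT.lf (nat_lit 0) (nat_lit 3941019342) (nat_lit 380) (nat_lit 822393887) (nat_lit 456) (nat_lit 1726974804) (nat_lit 766) (nat_lit 5) (nat_lit 771) (nat_lit 3) (nat_lit 772) (nat_lit 5) (nat_lit 526) (nat_lit 524) (nat_lit 510)) (XT.nd (nat_lit 78) (nat_lit 0) (nat_lit 0) (XT.lf (nat_lit 0) (nat_lit 230637210) (nat_lit 456) (nat_lit 4006599894) (nat_lit 532) (nat_lit 2263944419) (nat_lit 760) (nat_lit 5) (nat_lit 766) (nat_lit 5) (nat_lit 767) (nat_lit 5) (nat_lit 527) (nat_lit 524) (nat_lit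 509)) (XT.lf (nat_lit 0) (nat_lit 2965958380) (nat_lit 456) (nat_lit 678697126) (nat_lit 532) (nat_lit 2868528760) (nat_lit 760) (nat_lit 5) (nat_lit 766) (nat_lit 5) (nat_lit 767) (nat_lit 5) (nat_lit 528) (nat_lit 524) (nat_lit 508)))) (XT.nd (nat_lit 156) (nat_lit 608) (nat_lit 0) (XT.nd (nat_lit 78) (nat_lit 532) (nat_lit 0) (XT.lf (nat_lit 76) (nat_lit 2713368389) (nat_lit 0) (nat_lit 2989905202) (nat_lit 532) (nat_lit 823215010) (nat_lit 761) (nat_lit 5) (nat_lit 760) (nat_lit 5) (nat_lit 767) (nat_lit 5) (nat_lit 529) (nat_lit 524) (nat_lit 507)) (XT.lf (nat_lit 0) (nat_lit 1864556222) (nat_lit 532) (nat_lit 408882417) (nat_lit 608) (nat_lit 4267675012) (nat_lit 753) (nat_lit 5) (nat_lit 760) (nat_lit 5) (nat_lit 761) (nat_lit 5) (nat_lit 530) (nat_lit 524) (nat_lit 506))) (XT.nd (nat_lit 78) (nat_lit 608) (nat_lit 0) (XT.lf (nat_lit 76) (nat_lit 3060217303) (nat_lit 0) (nat_lit 1486427245) (nat_lit 608) (nat_lit 2010253004) (nat_lit 754) (nat_lit 5)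 (nat_lit 753) (nat_lit 5) (nat_lit 761) (nat_lit 5) (nat_lit 531) (nat_lit 524) (nat_lit 505)) (XT.lf (nat_lit 0) (nat_lit 635184075) (nat_lit 608) (nat_lit 11887299) (nat_lit 684) (nat_lit 5927138040) (nat_lit 745) (nat_lit 5) (nat_lit 753) (nat_lit 5) (nat_lit 754) (nat_lit 5) (nat_lit 532) (nat_lit 524) (nat_lit 504))))) (XT.nd (nat_lit 234) (nat_lit 760) (nat_lit 0) (XT.nd (nat_lit 78) (nat_lit 684) (nat_lit 0) (XT.lf (nat_lit 0) (nat_lit 3265065627) (nat_lit 608) (nat_lit 3056375697) (nat_lit 684) (nat_lit 270997848) (nat_lit 746) (nat_lit 5) (nat_lit 754) (nat_lit 5) (nat_lit 755) (nat_lit 5) (nat_lit 533) (nat_lit 524) (nat_lit 503)) (XT.nd (nat_lit 78) (nat_lit 684) (nat_lit 0) (XT.lf (nat_lit 76) (nat_lit 507422206) (nat_lit 0) (nat_lit 5382693926) (nat_lit 684) (nat_lit 722072312) (nat_lit 747) (nat_lit 5) (nat_lit 746) (nat_lit 5) (nat_lit 755) (nat_lit 5) (nat_lit 534) (nat_lit 524) (nat_lit 502)) (XT.lf (nat_lit 0) (nat_lit 1866103635) (nat_lit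 684) (nat_lit 2500353489) (nat_lit 760) (nat_lit 2266507348) (nat_lit 737) (nat_lit 5) (nat_lit 746) (nat_lit 5) (nat_lit 747) (nat_lit 5) (nat_lit 535) (nat_lit 524) (nat_lit 501)))) (XT.nd (nat_lit 156) (nat_lit 0) (nat_lit 0) (XT.nd (nat_lit 78) (nat_lit 760) (nat_lit 0) (XT.lf (nat_lit 76) (nat_lit 1147537577) (nat_lit 0) (nat_lit 3293066430) (nat_lit 760) (nat_lit 2214577946) (nat_lit 738) (nat_lit 5) (nat_lit 737) (nat_lit 5) (nat_lit 747) (nat_lit 5) (nat_lit 536) (nat_lit 524) (nat_lit 500)) (XT.lf (nat_lit 0) (nat_lit 337882780) (nat_lit 760) (nat_lit 1817324779) (nat_lit 836) (nat_lit 4523506876) (nat_lit 727) (nat_lit 5) (nat_lit 737) (nat_lit 5) (nat_lit 738) (nat_lit 5) (nat_lit 537) (nat_lit 524) (nat_lit 499))) (XT.nd (nat_lit 78) (nat_lit 0) (nat_lit 76) (XT.lf (nat_lit 76) (nat_lit 1918610960) (nat_lit 0) (nat_lit 944182694) (nat_lit 836) (nat_lit 3840615700) (nat_lit 728) (nat_lit 5) (nat_lit 727) (nat_lit 5) (nat_lit 738) (nat_lit 5) (nat_lit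 538) (nat_lit 524) (nat_lit 498)) (XT.lf (nat_lit 0) (nat_lit 5392036111) (nat_lit 760) (nat_lit 1016215800) (nat_lit 76) (nat_lit 321275117) (nat_lit 728) (nat_lit 5) (nat_lit 738) (nat_lit 5) (nat_lit 729) (nat_lit 5) (nat_lit 539) (nat_lit 524) (nat_lit 497)))))) (XT.nd (nat_lit 546) (nat_lit 6232) (nat_lit 0) (XT.nd (nat_lit 234) (nat_lit 2052) (nat_lit 0) (XT.nd (nat_lit 78) (nat_lit 836) (nat_lit 0) (XT.lf (nat_lit 0) (nat_lit 1164927094) (nat_lit 836) (nat_lit 3945075591) (nat_lit 76) (nat_lit 1646708321) (nat_lit 717) (nat_lit 5) (nat_lit 728) (nat_lit 5) (nat_lit 718) (nat_lit 5) (nat_lit 540) (nat_lit 524) (nat_lit 496)) (XT.nd (nat_lit 78) (nat_lit 836) (nat_lit 0) (XT.lf (nat_lit 0) (nat_lit 3647733553) (nat_lit 836) (nat_lit 102924531) (nat_lit 76) (nat_lit 3034643988) (nat_lit 717) (nat_lit 5) (nat_lit 728) (nat_lit 5) (nat_lit 718) (nat_lit 5) (nat_lit 541) (nat_lit 524) (nat_lit 495)) (XT.lf (nat_lit 0) (nat_lit 3827504958) (nat_lit 836) (nat_lit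 2320059378) (nat_lit 912) (nat_lit 667558364) (nat_lit 706) (nat_lit 5) (nat_lit 717) (nat_lit 5) (nat_lit 718) (nat_lit 5) (nat_lit 542) (nat_lit 524) (nat_lit 494)))) (XT.nd (nat_lit 156) (nat_lit 1064) (nat_lit 0) (XT.nd (nat_lit 78) (nat_lit 0) (nat_lit 0) (XT.lf (nat_lit 0) (nat_lit 953620969) (nat_lit 912) (nat_lit 823845219) (nat_lit 988) (nat_lit 5068839956) (nat_lit 693) (nat_lit 5) (nat_lit 705) (nat_lit 5) (nat_lit 706) (nat_lit 5) (nat_lit 543) (nat_lit 524) (nat_lit 493)) (XT.lf (nat_lit 0) (nat_lit 4231191920) (nat_lit 988) (nat_lit 1912893487) (nat_lit 76) (nat_lit 734569623) (nat_lit 693) (nat_lit 5) (nat_lit 706) (nat_lit 5) (nat_lit 694) (nat_lit 5) (nat_lit 544) (nat_lit 524) (nat_lit 492))) (XT.nd (nat_lit 78) (nat_lit 76) (nat_lit 0) (XT.lf (nat_lit 0) (nat_lit 2129506022) (nat_lit 988) (nat_lit 4568856401) (nat_lit 1064) (nat_lit 214005781) (nat_lit 680) (nat_lit 5) (nat_lit 693) (nat_lit 5) (nat_lit 694) (nat_lit 5) (nat_lit 545) (nat_lit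 524) (nat_lit 491)) (XT.lf (nat_lit 0) (nat_lit 2196842988) (nat_lit 1064) (nat_lit 722556271) (nat_lit 76) (nat_lit 4027897008) (nat_lit 679) (nat_lit 5) (nat_lit 693) (nat_lit 5) (nat_lit 680) (nat_lit 5) (nat_lit 546) (nat_lit 524) (nat_lit 490))))) (XT.nd (nat_lit 312) (nat_lit 2736) (nat_lit 0) (XT.nd (nat_lit 156) (nat_lit 1216) (nat_lit 0) (XT.nd (nat_lit 78) (nat_lit 1216) (nat_lit 0) (XT.lf (nat_lit 0) (nat_lit 3423288980) (nat_lit 1064) (nat_lit 1198598425) (nat_lit 1140) (nat_lit 2361634755) (nat_lit 665) (nat_lit 5) (nat_lit 679) (nat_lit 5) (nat_lit 680) (nat_lit 5) (nat_lit 547) (nat_lit 524) (nat_lit 489)) (XT.lf (nat_lit 0) (nat_lit 33633434) (nat_lit 1216) (nat_lit 6415765585) (nat_lit 76) (nat_lit 571874960) (nat_lit 649) (nat_lit 5) (nat_lit 665) (nat_lit 5) (nat_lit 650) (nat_lit 5) (nat_lit 548) (nat_lit 524) (nat_lit 488))) (XT.nd (nat_lit 78) (nat_lit 1216) (nat_lit 0) (XT.lf (nat_lit 0) (nat_lit 2425124170) (nat_lit 1216) (nat_lit 2220681270)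 (nat_lit 76) (nat_lit 2414068584) (nat_lit 649) (nat_lit 5) (nat_lit 665) (nat_lit 5) (nat_lit 650) (nat_lit 5) (nat_lit 549) (nat_lit 524) (nat_lit 487)) (XT.lf (nat_lit 0) (nat_lit 2045457714) (nat_lit 1216) (nat_lit 2781211510) (nat_lit 1292) (nat_lit 2273336460) (nat_lit 633) (nat_lit 5) (nat_lit 649) (nat_lit 5) (nat_lit 650) (nat_lit 5) (nat_lit 550) (nat_lit 524) (nat_lit 486)))) (XT.nd (nat_lit 156) (nat_lit 1368) (nat_lit 0) (XT.nd (nat_lit 78) (nat_lit 1292) (nat_lit 0) (XT.lf (nat_lit 0) (nat_lit 97883362) (nat_lit 1292) (nat_lit 754687303) (nat_lit 76) (nat_lit 6289068634) (nat_lit 632) (nat_lit 5) (nat_lit 649) (nat_lit 5) (nat_lit 633) (nat_lit 5) (nat_lit 551) (nat_lit 524) (nat_lit 485)) (XT.lf (nat_lit 0) (nat_lit 2467552651) (nat_lit 1368) (nat_lit 3567544760) (nat_lit 76) (nat_lit 1149082207) (nat_lit 615) (nat_lit 5) (nat_lit 633) (nat_lit 5) (nat_lit 616) (nat_lit 5) (nat_lit 552) (nat_lit 524) (nat_lit 484))) (XT.nd (nat_lit 78) (nat_lit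 0) (nat_lit 0) (XT.lf (nat_lit 0) (nat_lit 823168662) (nat_lit 1368) (nat_lit 4028664783) (nat_lit 1444) (nat_lit 2376396728) (nat_lit 597) (nat_lit 5) (nat_lit 615) (nat_lit 5) (nat_lit 616) (nat_lit 5) (nat_lit 553) (nat_lit 524) (nat_lit 483)) (XT.lf (nat_lit 0) (nat_lit 5310227490) (nat_lit 1368) (nat_lit 1949341634) (nat_lit 1444) (nat_lit 14080947) (nat_lit 597) (nat_lit 5) (nat_lit 615) (nat_lit 5) (nat_lit 616) (nat_lit 5) (nat_lit 554) (nat_lit 524) (nat_lit 482))))))))
noncomputable def xc81 : XT := (XT.nd (nat_lit 2262) (nat_lit 10944) (nat_lit 0) (XT.nd (nat_lit 1092) (nat_lit 7980) (nat_lit 0) (XT.nd (nat_lit 546) (nat_lit 4864) (nat_lit 0) (XT.nd (nat_lit 234) (nat_lit 5168) (nat_lit 0) (XT.nd (nat_lit 78) (nat_lit 1520) (nat_lit 0) (XT.lf (nat_lit 0) (nat_lit 2334423817) (nat_lit 1520) (nat_lit 4776474207) (nat_lit 76) (nat_lit 209365660) (nat_lit 577) (nat_lit 5) (nat_lit 597) (nat_lit 5) (nat_lit 578) (nat_lit 5) (nat_lit 555) (nat_lit 524)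 (nat_lit 481)) (XT.nd (nat_lit 78) (nat_lit 1520) (nat_lit 0) (XT.lf (nat_lit 0) (nat_lit 4709064650) (nat_lit 1520) (nat_lit 253286048) (nat_lit 76) (nat_lit 2405873422) (nat_lit 577) (nat_lit 5) (nat_lit 597) (nat_lit 5) (nat_lit 578) (nat_lit 5) (nat_lit 556) (nat_lit 524) (nat_lit 480)) (XT.lf (nat_lit 0) (nat_lit 4378168273) (nat_lit 1520) (nat_lit 2735555937) (nat_lit 1596) (nat_lit 303772472) (nat_lit 557) (nat_lit 5) (nat_lit 577) (nat_lit 5) (nat_lit 578) (nat_lit 5) (nat_lit 557) (nat_lit 524) (nat_lit 479)))) (XT.nd (nat_lit 156) (nat_lit 3496) (nat_lit 0) (XT.nd (nat_lit 78) (nat_lit 0) (nat_lit 0) (XT.lf (nat_lit 0) (nat_lit 1605415934) (nat_lit 1596) (nat_lit 432356953) (nat_lit 1672) (nat_lit 5430381068) (nat_lit 535) (nat_lit 5) (nat_lit 556) (nat_lit 5) (nat_lit 557) (nat_lit 5) (nat_lit 558) (nat_lit 524) (nat_lit 478)) (XT.lf (nat_lit 0) (nat_lit 4410172625) (nat_lit 1672) (nat_lit 1190393860) (nat_lit 76) (nat_lit 1919459145) (nat_lit 535)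 (nat_lit 5) (nat_lit 557) (nat_lit 5) (nat_lit 536) (nat_lit 5) (nat_lit 559) (nat_lit 524) (nat_lit 477))) (XT.nd (nat_lit 78) (nat_lit 1824) (nat_lit 0) (XT.lf (nat_lit 0) (nat_lit 3579639522) (nat_lit 1672) (nat_lit 3232476495) (nat_lit 1748) (nat_lit 761179983) (nat_lit 513) (nat_lit 5) (nat_lit 535) (nat_lit 5) (nat_lit 536) (nat_lit 5) (nat_lit 560) (nat_lit 524) (nat_lit 476)) (XT.lf (nat_lit 0) (nat_lit 793313586) (nat_lit 1748) (nat_lit 789214789) (nat_lit 1824) (nat_lit 6045504248) (nat_lit 489) (nat_lit 5) (nat_lit 512) (nat_lit 5) (nat_lit 513) (nat_lit 5) (nat_lit 561) (nat_lit 524) (nat_lit 475))))) (XT.nd (nat_lit 234) (nat_lit 1900) (nat_lit 0) (XT.nd (nat_lit 78) (nat_lit 2964) (nat_lit 0) (XT.lf (nat_lit 0) (nat_lit 3957886531) (nat_lit 1824) (nat_lit 2010229722) (nat_lit 76) (nat_lit 1715750731) (nat_lit 489) (nat_lit 5) (nat_lit 513) (nat_lit 5) (nat_lit 490) (nat_lit 5) (nat_lit 562) (nat_lit 524) (nat_lit 474)) (XT.nd (nat_lit 78) (nat_lit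 1140) (nat_lit 0) (XT.lf (nat_lit 0) (nat_lit 2903618973) (nat_lit 1824) (nat_lit 3458981144) (nat_lit 1900) (nat_lit 1378583880) (nat_lit 465) (nat_lit 5) (nat_lit 489) (nat_lit 5) (nat_lit 490) (nat_lit 5) (nat_lit 563) (nat_lit 524) (nat_lit 473)) (XT.lf (nat_lit 0) (nat_lit 97933962) (nat_lit 1064) (nat_lit 876780538) (nat_lit 1140) (nat_lit 6825358255) (nat_lit 450) (nat_lit 5) (nat_lit 464) (nat_lit 5) (nat_lit 465) (nat_lit 5) (nat_lit 564) (nat_lit 524) (nat_lit 472)))) (XT.nd (nat_lit 156) (nat_lit 988) (nat_lit 0) (XT.nd (nat_lit 78) (nat_lit 912) (nat_lit 0) (XT.lf (nat_lit 0) (nat_lit 3359354697) (nat_lit 1140) (nat_lit 2723381855) (nat_lit 76) (nat_lit 1777168546) (nat_lit 450) (nat_lit 5) (nat_lit 465) (nat_lit 5) (nat_lit 451) (nat_lit 5) (nat_lit 565) (nat_lit 524) (nat_lit 471)) (XT.lf (nat_lit 0) (nat_lit 2339774891) (nat_lit 912) (nat_lit 3432354017) (nat_lit 988) (nat_lit 2149199063) (nat_lit 438) (nat_lit 5) (nat_lit 450) (nat_lit 5) (nat_lit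 451) (nat_lit 5) (nat_lit 566) (nat_lit 524) (nat_lit 470))) (XT.nd (nat_lit 78) (nat_lit 912) (nat_lit 0) (XT.lf (nat_lit 0) (nat_lit 224020192) (nat_lit 988) (nat_lit 484571616) (nat_lit 76) (nat_lit 7275795563) (nat_lit 437) (nat_lit 5) (nat_lit 450) (nat_lit 5) (nat_lit 438) (nat_lit 5) (nat_lit 567) (nat_lit 524) (nat_lit 469)) (XT.lf (nat_lit 0) (nat_lit 2620851728) (nat_lit 988) (nat_lit 3339823236) (nat_lit 76) (nat_lit 2087652909) (nat_lit 425) (nat_lit 5) (nat_lit 438) (nat_lit 5) (nat_lit 426) (nat_lit 5) (nat_lit 568) (nat_lit 524) (nat_lit 468)))))) (XT.nd (nat_lit 546) (nat_lit 3724) (nat_lit 0) (XT.nd (nat_lit 234) (nat_lit 2508) (nat_lit 0) (XT.nd (nat_lit 78) (nat_lit 912) (nat_lit 0) (XT.lf (nat_lit 0) (nat_lit 1878390915) (nat_lit 836) (nat_lit 3168410665) (nat_lit 912) (nat_lit 3067124475) (nat_lit 414) (nat_lit 5) (nat_lit 425) (nat_lit 5) (nat_lit 426) (nat_lit 5) (nat_lit 569) (nat_lit 524) (nat_lit 467)) (XT.nd (nat_lit 78) (nat_lit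 912) (nat_lit 0) (XT.lf (nat_lit 0) (nat_lit 7206445994) (nat_lit 836) (nat_lit 298762341) (nat_lit 912) (nat_lit 675951559) (nat_lit 414) (nat_lit 5) (nat_lit 425) (nat_lit 5) (nat_lit 426) (nat_lit 5) (nat_lit 570) (nat_lit 524) (nat_lit 466)) (XT.lf (nat_lit 0) (nat_lit 1747824663) (nat_lit 912) (nat_lit 3868983824) (nat_lit 76) (nat_lit 2632545293) (nat_lit 402) (nat_lit 5) (nat_lit 414) (nat_lit 5) (nat_lit 403) (nat_lit 5) (nat_lit 571) (nat_lit 524) (nat_lit 465)))) (XT.nd (nat_lit 156) (nat_lit 1672) (nat_lit 0) (XT.nd (nat_lit 78) (nat_lit 0) (nat_lit 0) (XT.lf (nat_lit 0) (nat_lit 1510294066) (nat_lit 836) (nat_lit 2681614589) (nat_lit 912) (nat_lit 4127298173) (nat_lit 391) (nat_lit 5) (nat_lit 402) (nat_lit 5) (nat_lit 403) (nat_lit 5) (nat_lit 572) (nat_lit 524) (nat_lit 464)) (XT.lf (nat_lit 0) (nat_lit 6676002444) (nat_lit 912) (nat_lit 1382998909) (nat_lit 76) (nat_lit 331635290) (nat_lit 391) (nat_lit 5) (nat_lit 403) (nat_lit 5) (nat_lit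 392) (nat_lit 5) (nat_lit 573) (nat_lit 524) (nat_lit 463))) (XT.nd (nat_lit 78) (nat_lit 760) (nat_lit 0) (XT.lf (nat_lit 0) (nat_lit 744933892) (nat_lit 912) (nat_lit 4319820051) (nat_lit 76) (nat_lit 3398477613) (nat_lit 379) (nat_lit 5) (nat_lit 391) (nat_lit 5) (nat_lit 380) (nat_lit 5) (nat_lit 574) (nat_lit 524) (nat_lit 462)) (XT.lf (nat_lit 0) (nat_lit 1226785436) (nat_lit 760) (nat_lit 1985185974) (nat_lit 836) (nat_lit 5325457676) (nat_lit 369) (nat_lit 5) (nat_lit 379) (nat_lit 5) (nat_lit 380) (nat_lit 5) (nat_lit 575) (nat_lit 524) (nat_lit 461))))) (XT.nd (nat_lit 312) (nat_lit 2204) (nat_lit 0) (XT.nd (nat_lit 156) (nat_lit 760) (nat_lit 0) (XT.nd (nat_lit 78) (nat_lit 760) (nat_lit 0) (XT.lf (nat_lit 0) (nat_lit 5729368092) (nat_lit 836) (nat_lit 1717667083) (nat_lit 76) (nat_lit 1166057117) (nat_lit 369) (nat_lit 5) (nat_lit 380) (nat_lit 5) (nat_lit 370) (nat_lit 5) (nat_lit 576) (nat_lit 524) (nat_lit 460)) (XT.lf (nat_lit 0) (nat_lit 3986781710)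 (nat_lit 760) (nat_lit 4314394937) (nat_lit 836) (nat_lit 389012890) (nat_lit 359) (nat_lit 5) (nat_lit 369) (nat_lit 5) (nat_lit 370) (nat_lit 5) (nat_lit 577) (nat_lit 524) (nat_lit 459))) (XT.nd (nat_lit 78) (nat_lit 0) (nat_lit 0) (XT.lf (nat_lit 0) (nat_lit 1019573018) (nat_lit 684) (nat_lit 1091203335) (nat_lit 760) (nat_lit 6658105342) (nat_lit 349) (nat_lit 5) (nat_lit 358) (nat_lit 5) (nat_lit 359) (nat_lit 5) (nat_lit 578) (nat_lit 524) (nat_lit 458)) (XT.lf (nat_lit 0) (nat_lit 4667013885) (nat_lit 760) (nat_lit 1984918926) (nat_lit 76) (nat_lit 2196932164) (nat_lit 349) (nat_lit 5) (nat_lit 359) (nat_lit 5) (nat_lit 350) (nat_lit 5) (nat_lit 579) (nat_lit 524) (nat_lit 457)))) (XT.nd (nat_lit 156) (nat_lit 684) (nat_lit 0) (XT.nd (nat_lit 78) (nat_lit 760) (nat_lit 0) (XT.lf (nat_lit 0) (nat_lit 3899333549) (nat_lit 760) (nat_lit 3373884547) (nat_lit 836) (nat_lit 1657254882) (nat_lit 339) (nat_lit 5) (nat_lit 349) (nat_lit 5) (nat_lit 350) (nat_lit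 5) (nat_lit 580) (nat_lit 524) (nat_lit 456)) (XT.lf (nat_lit 0) (nat_lit 880706201) (nat_lit 684) (nat_lit 10698803) (nat_lit 760) (nat_lit 8122478589) (nat_lit 329) (nat_lit 5) (nat_lit 338) (nat_lit 5) (nat_lit 339) (nat_lit 5) (nat_lit 581) (nat_lit 524) (nat_lit 455))) (XT.nd (nat_lit 78) (nat_lit 684) (nat_lit 0) (XT.lf (nat_lit 0) (nat_lit 3491902069) (nat_lit 760) (nat_lit 2192593637) (nat_lit 76) (nat_lit 3413788321) (nat_lit 329) (nat_lit 5) (nat_lit 339) (nat_lit 5) (nat_lit 330) (nat_lit 5) (nat_lit 582) (nat_lit 524) (nat_lit 454)) (XT.lf (nat_lit 0) (nat_lit 3878488667) (nat_lit 684) (nat_lit 2258668478) (nat_lit 760) (nat_lit 3047362114) (nat_lit 320) (nat_lit 5) (nat_lit 329) (nat_lit 5) (nat_lit 330) (nat_lit 5) (nat_lit 583) (nat_lit 524) (nat_lit 453))))))) (XT.nd (nat_lit 1170) (nat_lit 4788) (nat_lit 0) (XT.nd (nat_lit 546) (nat_lit 2888) (nat_lit 0) (XT.nd (nat_lit 234) (nat_lit 1900) (nat_lit 0) (XT.nd (nat_lit 78) (nat_lit 760) (nat_lit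 0) (XT.lf (nat_lit 0) (nat_lit 791334661) (nat_lit 608) (nat_lit 8039791129) (nat_lit 684) (nat_lit 441438955) (nat_lit 312) (nat_lit 5) (nat_lit 320) (nat_lit 5) (nat_lit 321) (nat_lit 5) (nat_lit 584) (nat_lit 524) (nat_lit 452)) (XT.nd (nat_lit 78) (nat_lit 684) (nat_lit 0) (XT.lf (nat_lit 0) (nat_lit 2206332542) (nat_lit 684) (nat_lit 2348292470) (nat_lit 76) (nat_lit 4807083924) (nat_lit 311) (nat_lit 5) (nat_lit 320) (nat_lit 5) (nat_lit 312) (nat_lit 5) (nat_lit 585) (nat_lit 524) (nat_lit 451)) (XT.lf (nat_lit 0) (nat_lit 3916908485) (nat_lit 684) (nat_lit 978305131) (nat_lit 760) (nat_lit 4557484357) (nat_lit 302) (nat_lit 5) (nat_lit 311) (nat_lit 5) (nat_lit 312) (nat_lit 5) (nat_lit 586) (nat_lit 524) (nat_lit 450)))) (XT.nd (nat_lit 156) (nat_lit 1216) (nat_lit 0) (XT.nd (nat_lit 78) (nat_lit 76) (nat_lit 0) (XT.lf (nat_lit 0) (nat_lit 747257281) (nat_lit 608) (nat_lit 6897605490) (nat_lit 684) (nat_lit 1900505795) (nat_lit 294) (nat_lit 5) (nat_lit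 302) (nat_lit 5) (nat_lit 303) (nat_lit 5) (nat_lit 587) (nat_lit 524) (nat_lit 449)) (XT.lf (nat_lit 0) (nat_lit 811962265) (nat_lit 684) (nat_lit 2459441437) (nat_lit 76) (nat_lit 6368125901) (nat_lit 293) (nat_lit 5) (nat_lit 302) (nat_lit 5) (nat_lit 294) (nat_lit 5) (nat_lit 588) (nat_lit 524) (nat_lit 448))) (XT.nd (nat_lit 78) (nat_lit 608) (nat_lit 0) (XT.lf (nat_lit 0) (nat_lit 3551952386) (nat_lit 684) (nat_lit 5730955608) (nat_lit 76) (nat_lit 452441707) (nat_lit 285) (nat_lit 5) (nat_lit 294) (nat_lit 5) (nat_lit 286) (nat_lit 5) (nat_lit 589) (nat_lit 524) (nat_lit 447)) (XT.lf (nat_lit 0) (nat_lit 747278607) (nat_lit 608) (nat_lit 5612586462) (nat_lit 684) (nat_lit 3472960141) (nat_lit 277) (nat_lit 5) (nat_lit 285) (nat_lit 5) (nat_lit 286) (nat_lit 5) (nat_lit 590) (nat_lit 524) (nat_lit 446))))) (XT.nd (nat_lit 312) (nat_lit 1672) (nat_lit 0) (XT.nd (nat_lit 156) (nat_lit 532) (nat_lit 0) (XT.nd (nat_lit 78) (nat_lit 684) (nat_lit 0) (XT.lf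 (nat_lit 0) (nat_lit 7394181165) (nat_lit 608) (nat_lit 1838543018) (nat_lit 684) (nat_lit 699351720) (nat_lit 277) (nat_lit 5) (nat_lit 285) (nat_lit 5) (nat_lit 286) (nat_lit 5) (nat_lit 591) (nat_lit 524) (nat_lit 445)) (XT.lf (nat_lit 0) (nat_lit 2112682737) (nat_lit 684) (nat_lit 5903348626) (nat_lit 76) (nat_lit 2016787363) (nat_lit 268) (nat_lit 5) (nat_lit 277) (nat_lit 5) (nat_lit 269) (nat_lit 5) (nat_lit 592) (nat_lit 524) (nat_lit 444))) (XT.nd (nat_lit 78) (nat_lit 0) (nat_lit 0) (XT.lf (nat_lit 0) (nat_lit 784228017) (nat_lit 532) (nat_lit 4192772559) (nat_lit 608) (nat_lit 5158376589) (nat_lit 261) (nat_lit 5) (nat_lit 268) (nat_lit 5) (nat_lit 269) (nat_lit 5) (nat_lit 593) (nat_lit 524) (nat_lit 443)) (XT.lf (nat_lit 0) (nat_lit 7647345319) (nat_lit 532) (nat_lit 262182029) (nat_lit 608) (nat_lit 2330242301) (nat_lit 261) (nat_lit 5) (nat_lit 268) (nat_lit 5) (nat_lit 269) (nat_lit 5) (nat_lit 594) (nat_lit 524) (nat_lit 442)))) (XT.nd (nat_lit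 156) (nat_lit 532) (nat_lit 0) (XT.nd (nat_lit 78) (nat_lit 532) (nat_lit 0) (XT.lf (nat_lit 0) (nat_lit 571367953) (nat_lit 608) (nat_lit 6054032507) (nat_lit 76) (nat_lit 3720295099) (nat_lit 253) (nat_lit 5) (nat_lit 261) (nat_lit 5) (nat_lit 254) (nat_lit 5) (nat_lit 595) (nat_lit 524) (nat_lit 441)) (XT.lf (nat_lit 0) (nat_lit 850947685) (nat_lit 532) (nat_lit 2645594603) (nat_lit 608) (nat_lit 6956956218) (nat_lit 246) (nat_lit 5) (nat_lit 253) (nat_lit 5) (nat_lit 254) (nat_lit 5) (nat_lit 596) (nat_lit 524) (nat_lit 440))) (XT.nd (nat_lit 78) (nat_lit 532) (nat_lit 0) (XT.lf (nat_lit 0) (nat_lit 6502464966) (nat_lit 608) (nat_lit 2634352344) (nat_lit 76) (nat_lit 1426196529) (nat_lit 246) (nat_lit 5) (nat_lit 254) (nat_lit 5) (nat_lit 247) (nat_lit 5) (nat_lit 597) (nat_lit 524) (nat_lit 439)) (XT.lf (nat_lit 0) (nat_lit 4476805268) (nat_lit 532) (nat_lit 5111004077) (nat_lit 608) (nat_lit 1086525272) (nat_lit 239) (nat_lit 5) (nat_lit 246) (nat_lit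 5) (nat_lit 247) (nat_lit 5) (nat_lit 598) (nat_lit 524) (nat_lit 438)))))) (XT.nd (nat_lit 546) (nat_lit 2280) (nat_lit 0) (XT.nd (nat_lit 234) (nat_lit 1444) (nat_lit 0) (XT.nd (nat_lit 78) (nat_lit 532) (nat_lit 0) (XT.lf (nat_lit 0) (nat_lit 940226881) (nat_lit 456) (nat_lit 977945398) (nat_lit 532) (nat_lit 8869523297) (nat_lit 232) (nat_lit 5) (nat_lit 238) (nat_lit 5) (nat_lit 239) (nat_lit 5) (nat_lit 599) (nat_lit 524) (nat_lit 437)) (XT.nd (nat_lit 78) (nat_lit 532) (nat_lit 0) (XT.lf (nat_lit 0) (nat_lit 5004364414) (nat_lit 532) (nat_lit 2664172602) (nat_lit 76) (nat_lit 3233925249) (nat_lit 232) (nat_lit 5) (nat_lit 239) (nat_lit 5) (nat_lit 233) (nat_lit 5) (nat_lit 600) (nat_lit 524) (nat_lit 436)) (XT.lf (nat_lit 0) (nat_lit 4680507210) (nat_lit 532) (nat_lit 3482216752) (nat_lit 608) (nat_lit 2856592564) (nat_lit 225) (nat_lit 5) (nat_lit 232) (nat_lit 5) (nat_lit 233) (nat_lit 5) (nat_lit 601) (nat_lit 524) (nat_lit 435)))) (XT.nd (nat_lit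 156) (nat_lit 912) (nat_lit 0) (XT.nd (nat_lit 78) (nat_lit 0) (nat_lit 0) (XT.lf (nat_lit 0) (nat_lit 246200004) (nat_lit 532) (nat_lit 10098992050) (nat_lit 76) (nat_lit 793211374) (nat_lit 218) (nat_lit 5) (nat_lit 225) (nat_lit 5) (nat_lit 219) (nat_lit 5) (nat_lit 602) (nat_lit 524) (nat_lit 434)) (XT.lf (nat_lit 0) (nat_lit 3412600013) (nat_lit 532) (nat_lit 2687663793) (nat_lit 76) (nat_lit 5158435640) (nat_lit 218) (nat_lit 5) (nat_lit 225) (nat_lit 5) (nat_lit 219) (nat_lit 5) (nat_lit 603) (nat_lit 524) (nat_lit 433))) (XT.nd (nat_lit 78) (nat_lit 456) (nat_lit 0) (XT.lf (nat_lit 0) (nat_lit 4899380014) (nat_lit 456) (nat_lit 1749156191) (nat_lit 532) (nat_lit 4732742041) (nat_lit 212) (nat_lit 5) (nat_lit 218) (nat_lit 5) (nat_lit 219) (nat_lit 5) (nat_lit 604) (nat_lit 524) (nat_lit 432)) (XT.lf (nat_lit 0) (nat_lit 1128916198) (nat_lit 456) (nat_lit 8837808643) (nat_lit 532) (nat_lit 1539234113) (nat_lit 206) (nat_lit 5) (nat_lit 212) (nat_lit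 5) (nat_lit 213) (nat_lit 5) (nat_lit 605) (nat_lit 524) (nat_lit 431))))) (XT.nd (nat_lit 312) (nat_lit 1368) (nat_lit 0) (XT.nd (nat_lit 156) (nat_lit 380) (nat_lit 0) (XT.nd (nat_lit 78) (nat_lit 456) (nat_lit 0) (XT.lf (nat_lit 0) (nat_lit 1725661703) (nat_lit 532) (nat_lit 2712534525) (nat_lit 76) (nat_lit 7194113879) (nat_lit 205) (nat_lit 5) (nat_lit 212) (nat_lit 5) (nat_lit 206) (nat_lit 5) (nat_lit 606) (nat_lit 524) (nat_lit 430)) (XT.lf (nat_lit 0) (nat_lit 5044258638) (nat_lit 532) (nat_lit 6635380034) (nat_lit 76) (nat_lit 81166802) (nat_lit 199) (nat_lit 5) (nat_lit 206) (nat_lit 5) (nat_lit 200) (nat_lit 5) (nat_lit 607) (nat_lit 524) (nat_lit 429))) (XT.nd (nat_lit 78) (nat_lit 0) (nat_lit 0) (XT.lf (nat_lit 0) (nat_lit 1215327013) (nat_lit 380) (nat_lit 7244862979) (nat_lit 456) (nat_lit 3431062435) (nat_lit 194) (nat_lit 5) (nat_lit 199) (nat_lit 5) (nat_lit 200) (nat_lit 5) (nat_lit 608) (nat_lit 524) (nat_lit 428)) (XT.lf (nat_lit 0) (nat_lit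 9276726026) (nat_lit 380) (nat_lit 2687845237) (nat_lit 456) (nat_lit 59335342) (nat_lit 194) (nat_lit 5) (nat_lit 199) (nat_lit 5) (nat_lit 200) (nat_lit 5) (nat_lit 609) (nat_lit 524) (nat_lit 427)))) (XT.nd (nat_lit 156) (nat_lit 456) (nat_lit 0) (XT.nd (nat_lit 78) (nat_lit 380) (nat_lit 0) (XT.lf (nat_lit 0) (nat_lit 3359201340) (nat_lit 532) (nat_lit 6819070778) (nat_lit 76) (nat_lit 1980029702) (nat_lit 187) (nat_lit 5) (nat_lit 194) (nat_lit 5) (nat_lit 188) (nat_lit 5) (nat_lit 610) (nat_lit 524) (nat_lit 426)) (XT.lf (nat_lit 0) (nat_lit 1292184171) (nat_lit 380) (nat_lit 5573965475) (nat_lit 456) (nat_lit 5428811601) (nat_lit 182) (nat_lit 5) (nat_lit 187) (nat_lit 5) (nat_lit 188) (nat_lit 5) (nat_lit 611) (nat_lit 524) (nat_lit 425))) (XT.nd (nat_lit 78) (nat_lit 456) (nat_lit 0) (XT.lf (nat_lit 0) (nat_lit 9622294495) (nat_lit 380) (nat_lit 843025901) (nat_lit 456) (nat_lit 1968592637) (nat_lit 182) (nat_lit 5) (nat_lit 187) (nat_lit 5) (nat_lit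 188) (nat_lit 5) (nat_lit 612) (nat_lit 524) (nat_lit 424)) (XT.lf (nat_lit 0) (nat_lit 1579249272) (nat_lit 456) (nat_lit 7030392609) (nat_lit 76) (nat_lit 3965022322) (nat_lit 176) (nat_lit 5) (nat_lit 182) (nat_lit 5) (nat_lit 177) (nat_lit 5) (nat_lit 613) (nat_lit 524) (nat_lit 423))))))))
noncomputable def xc82 : XT := (XT.nd (nat_lit 2262) (nat_lit 760) (nat_lit 0) (XT.nd (nat_lit 1092) (nat_lit 3040) (nat_lit 0) (XT.nd (nat_lit 546) (nat_lit 1520) (nat_lit 0) (XT.nd (nat_lit 234) (nat_lit 1216) (nat_lit 0) (XT.nd (nat_lit 78) (nat_lit 380) (nat_lit 0) (XT.lf (nat_lit 0) (nat_lit 1350946003) (nat_lit 380) (nat_lit 3830898962) (nat_lit 456) (nat_lit 7535922849) (nat_lit 171) (nat_lit 5) (nat_lit 176) (nat_lit 5) (nat_lit 177) (nat_lit 5) (nat_lit 614) (nat_lit 524) (nat_lit 422)) (XT.nd (nat_lit 78) (nat_lit 380) (nat_lit 0) (XT.lf (nat_lit 0) (nat_lit 8887688049) (nat_lit 456) (nat_lit 2910378840) (nat_lit 76) (nat_lit 1065043476) (nat_lit 171) (nat_lit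 5) (nat_lit 177) (nat_lit 5) (nat_lit 172) (nat_lit 5) (nat_lit 615) (nat_lit 524) (nat_lit 421)) (XT.lf (nat_lit 0) (nat_lit 5729960393) (nat_lit 380) (nat_lit 6977643673) (nat_lit 456) (nat_lit 302957343) (nat_lit 166) (nat_lit 5) (nat_lit 171) (nat_lit 5) (nat_lit 172) (nat_lit 5) (nat_lit 616) (nat_lit 524) (nat_lit 420)))) (XT.nd (nat_lit 156) (nat_lit 760) (nat_lit 0) (XT.nd (nat_lit 78) (nat_lit 0) (nat_lit 0) (XT.lf (nat_lit 0) (nat_lit 1382553720) (nat_lit 380) (nat_lit 2021335920) (nat_lit 456) (nat_lit 9756503732) (nat_lit 160) (nat_lit 5) (nat_lit 165) (nat_lit 5) (nat_lit 166) (nat_lit 5) (nat_lit 617) (nat_lit 524) (nat_lit 419)) (XT.lf (nat_lit 0) (nat_lit 7227286662) (nat_lit 456) (nat_lit 3051829297) (nat_lit 76) (nat_lit 3033137290) (nat_lit 160) (nat_lit 5) (nat_lit 166) (nat_lit 5) (nat_lit 161) (nat_lit 5) (nat_lit 618) (nat_lit 524) (nat_lit 418))) (XT.nd (nat_lit 78) (nat_lit 380) (nat_lit 0) (XT.lf (nat_lit 0) (nat_lit 5877877692) (nat_lit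 380) (nat_lit 5278849135) (nat_lit 456) (nat_lit 2309832697) (nat_lit 155) (nat_lit 5) (nat_lit 160) (nat_lit 5) (nat_lit 161) (nat_lit 5) (nat_lit 619) (nat_lit 524) (nat_lit 417)) (XT.lf (nat_lit 0) (nat_lit 1377337947) (nat_lit 304) (nat_lit 150904738) (nat_lit 380) (nat_lit 12095356903) (nat_lit 150) (nat_lit 5) (nat_lit 154) (nat_lit 5) (nat_lit 155) (nat_lit 5) (nat_lit 620) (nat_lit 524) (nat_lit 416))))) (XT.nd (nat_lit 234) (nat_lit 836) (nat_lit 0) (XT.nd (nat_lit 78) (nat_lit 684) (nat_lit 0) (XT.lf (nat_lit 0) (nat_lit 5474634700) (nat_lit 380) (nat_lit 3240547905) (nat_lit 76) (nat_lit 5067043477) (nat_lit 150) (nat_lit 5) (nat_lit 155) (nat_lit 5) (nat_lit 151) (nat_lit 5) (nat_lit 621) (nat_lit 524) (nat_lit 415)) (XT.nd (nat_lit 78) (nat_lit 304) (nat_lit 0) (XT.lf (nat_lit 0) (nat_lit 5988789138) (nat_lit 380) (nat_lit 3529688620) (nat_lit 456) (nat_lit 4425177534) (nat_lit 145) (nat_lit 5) (nat_lit 150) (nat_lit 5) (nat_lit 151) (nat_lit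 5) (nat_lit 622) (nat_lit 524) (nat_lit 414)) (XT.lf (nat_lit 0) (nat_lit 1310223672) (nat_lit 304) (nat_lit 12353552362) (nat_lit 380) (nat_lit 444126123) (nat_lit 141) (nat_lit 5) (nat_lit 145) (nat_lit 5) (nat_lit 146) (nat_lit 5) (nat_lit 623) (nat_lit 524) (nat_lit 413)))) (XT.nd (nat_lit 156) (nat_lit 380) (nat_lit 0) (XT.nd (nat_lit 78) (nat_lit 380) (nat_lit 0) (XT.lf (nat_lit 0) (nat_lit 3625038952) (nat_lit 380) (nat_lit 3487341586) (nat_lit 76) (nat_lit 7161465930) (nat_lit 140) (nat_lit 5) (nat_lit 145) (nat_lit 5) (nat_lit 141) (nat_lit 5) (nat_lit 624) (nat_lit 524) (nat_lit 412)) (XT.lf (nat_lit 0) (nat_lit 6052095041) (nat_lit 380) (nat_lit 1736074639) (nat_lit 456) (nat_lit 6654511287) (nat_lit 135) (nat_lit 5) (nat_lit 140) (nat_lit 5) (nat_lit 141) (nat_lit 5) (nat_lit 625) (nat_lit 524) (nat_lit 411))) (XT.nd (nat_lit 78) (nat_lit 76) (nat_lit 0) (XT.lf (nat_lit 0) (nat_lit 1172407644) (nat_lit 304) (nat_lit 10896994877) (nat_lit 380) (nat_lit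 2544793437) (nat_lit 131) (nat_lit 5) (nat_lit 135) (nat_lit 5) (nat_lit 136) (nat_lit 5) (nat_lit 626) (nat_lit 524) (nat_lit 410)) (XT.lf (nat_lit 0) (nat_lit 1673081417) (nat_lit 380) (nat_lit 3803883703) (nat_lit 76) (nat_lit 9311011511) (nat_lit 130) (nat_lit 5) (nat_lit 135) (nat_lit 5) (nat_lit 131) (nat_lit 5) (nat_lit 627) (nat_lit 524) (nat_lit 409)))))) (XT.nd (nat_lit 546) (nat_lit 1444) (nat_lit 0) (XT.nd (nat_lit 234) (nat_lit 988) (nat_lit 0) (XT.nd (nat_lit 78) (nat_lit 304) (nat_lit 0) (XT.lf (nat_lit 0) (nat_lit 5961008998) (nat_lit 380) (nat_lit 8908822394) (nat_lit 76) (nat_lit 94670259) (nat_lit 126) (nat_lit 5) (nat_lit 131) (nat_lit 5) (nat_lit 127) (nat_lit 5) (nat_lit 628) (nat_lit 524) (nat_lit 408)) (XT.nd (nat_lit 78) (nat_lit 0) (nat_lit 0) (XT.lf (nat_lit 0) (nat_lit 962997321) (nat_lit 304) (nat_lit 9419810325) (nat_lit 380) (nat_lit 4760787822) (nat_lit 122) (nat_lit 5) (nat_lit 126) (nat_lit 5) (nat_lit 127) (nat_lit 5) (nat_lit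 629) (nat_lit 524) (nat_lit 407)) (XT.lf (nat_lit 0) (nat_lit 11120091207) (nat_lit 304) (nat_lit 3812808122) (nat_lit 380) (nat_lit 392575223) (nat_lit 122) (nat_lit 5) (nat_lit 126) (nat_lit 5) (nat_lit 127) (nat_lit 5) (nat_lit 630) (nat_lit 524) (nat_lit 406)))) (XT.nd (nat_lit 156) (nat_lit 380) (nat_lit 0) (XT.nd (nat_lit 78) (nat_lit 228) (nat_lit 0) (XT.lf (nat_lit 0) (nat_lit 4041659741) (nat_lit 380) (nat_lit 9533843134) (nat_lit 76) (nat_lit 1934322360) (nat_lit 117) (nat_lit 5) (nat_lit 122) (nat_lit 5) (nat_lit 118) (nat_lit 5) (nat_lit 631) (nat_lit 524) (nat_lit 405)) (XT.lf (nat_lit 0) (nat_lit 668782693) (nat_lit 228) (nat_lit 7928972189) (nat_lit 304) (nat_lit 7099288014) (nat_lit 114) (nat_lit 5) (nat_lit 117) (nat_lit 5) (nat_lit 118) (nat_lit 5) (nat_lit 632) (nat_lit 524) (nat_lit 404))) (XT.nd (nat_lit 78) (nat_lit 380) (nat_lit 0) (XT.lf (nat_lit 0) (nat_lit 11172276668) (nat_lit 228) (nat_lit 2117273016) (nat_lit 304) (nat_lit 2597564164)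 (nat_lit 114) (nat_lit 5) (nat_lit 117) (nat_lit 5) (nat_lit 118) (nat_lit 5) (nat_lit 633) (nat_lit 524) (nat_lit 403)) (XT.lf (nat_lit 0) (nat_lit 2011782752) (nat_lit 380) (nat_lit 10268932177) (nat_lit 76) (nat_lit 3799137954) (nat_lit 109) (nat_lit 5) (nat_lit 114) (nat_lit 5) (nat_lit 110) (nat_lit 5) (nat_lit 634) (nat_lit 524) (nat_lit 402))))) (XT.nd (nat_lit 312) (nat_lit 836) (nat_lit 0) (XT.nd (nat_lit 156) (nat_lit 380) (nat_lit 0) (XT.nd (nat_lit 78) (nat_lit 0) (nat_lit 0) (XT.lf (nat_lit 0) (nat_lit 275345099) (nat_lit 228) (nat_lit 6431820534) (nat_lit 304) (nat_lit 9568365526) (nat_lit 106) (nat_lit 5) (nat_lit 109) (nat_lit 5) (nat_lit 110) (nat_lit 5) (nat_lit 635) (nat_lit 524) (nat_lit 401)) (XT.lf (nat_lit 0) (nat_lit 11137794163) (nat_lit 228) (nat_lit 408678414) (nat_lit 304) (nat_lit 4927650551) (nat_lit 106) (nat_lit 5) (nat_lit 109) (nat_lit 5) (nat_lit 110) (nat_lit 5) (nat_lit 636) (nat_lit 524) (nat_lit 400))) (XT.nd (nat_lit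 78) (nat_lit 76) (nat_lit 0) (XT.lf (nat_lit 0) (nat_lit 5544716114) (nat_lit 304) (nat_lit 10992478526) (nat_lit 380) (nat_lit 138400162) (nat_lit 102) (nat_lit 5) (nat_lit 106) (nat_lit 5) (nat_lit 107) (nat_lit 5) (nat_lit 637) (nat_lit 524) (nat_lit 399)) (XT.lf (nat_lit 0) (nat_lit 4704568111) (nat_lit 380) (nat_lit 230037826) (nat_lit 76) (nat_lit 11945470321) (nat_lit 101) (nat_lit 5) (nat_lit 106) (nat_lit 5) (nat_lit 102) (nat_lit 5) (nat_lit 638) (nat_lit 524) (nat_lit 398)))) (XT.nd (nat_lit 156) (nat_lit 304) (nat_lit 0) (XT.nd (nat_lit 78) (nat_lit 304) (nat_lit 0) (XT.lf (nat_lit 0) (nat_lit 9704243734) (nat_lit 304) (nat_lit 6094848465) (nat_lit 76) (nat_lit 1288303245) (nat_lit 98) (nat_lit 5) (nat_lit 102) (nat_lit 5) (nat_lit 99) (nat_lit 5) (nat_lit 639) (nat_lit 524) (nat_lit 397)) (XT.lf (nat_lit 0) (nat_lit 5147625435) (nat_lit 304) (nat_lit 9705813632) (nat_lit 380) (nat_lit 2444431834) (nat_lit 94) (nat_lit 5) (nat_lit 98) (nat_lit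 5) (nat_lit 99) (nat_lit 5) (nat_lit 640) (nat_lit 524) (nat_lit 396))) (XT.nd (nat_lit 78) (nat_lit 228) (nat_lit 0) (XT.lf (nat_lit 0) (nat_lit 2582131100) (nat_lit 380) (nat_lit 862383407) (nat_lit 76) (nat_lit 14067243497) (nat_lit 93) (nat_lit 5) (nat_lit 98) (nat_lit 5) (nat_lit 94) (nat_lit 5) (nat_lit 641) (nat_lit 524) (nat_lit 395)) (XT.lf (nat_lit 0) (nat_lit 7748141054) (nat_lit 304) (nat_lit 7002665264) (nat_lit 76) (nat_lit 2977360832) (nat_lit 90) (nat_lit 5) (nat_lit 94) (nat_lit 5) (nat_lit 91) (nat_lit 5) (nat_lit 642) (nat_lit 524) (nat_lit 394))))))) (XT.nd (nat_lit 72696) (nat_lit 0) (nat_lit 44384) (XT.nd (nat_lit 72150) (nat_lit 0) (nat_lit 50540) (XT.nd (nat_lit 234) (nat_lit 228) (nat_lit 0) (XT.nd (nat_lit 78) (nat_lit 304) (nat_lit 0) (XT.lf (nat_lit 0) (nat_lit 4615160983) (nat_lit 228) (nat_lit 8443241671) (nat_lit 304) (nat_lit 4889683577) (nat_lit 87) (nat_lit 5) (nat_lit 90) (nat_lit 5) (nat_lit 91) (nat_lit 5) (nat_lit 643)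 (nat_lit 524) (nat_lit 393)) (XT.nd (nat_lit 78) (nat_lit 228) (nat_lit 0) (XT.lf (nat_lit 0) (nat_lit 328164641) (nat_lit 304) (nat_lit 1644069807) (nat_lit 76) (nat_lit 16199537021) (nat_lit 86) (nat_lit 5) (nat_lit 90) (nat_lit 5) (nat_lit 87) (nat_lit 5) (nat_lit 644) (nat_lit 524) (nat_lit 392)) (XT.lf (nat_lit 0) (nat_lit 5665505049) (nat_lit 304) (nat_lit 8076960360) (nat_lit 76) (nat_lit 4655206785) (nat_lit 83) (nat_lit 5) (nat_lit 87) (nat_lit 5) (nat_lit 84) (nat_lit 5) (nat_lit 645) (nat_lit 524) (nat_lit 391)))) (XT.nd (nat_lit 71760) (nat_lit 0) (nat_lit 51604) (XT.nd (nat_lit 78) (nat_lit 0) (nat_lit 0) (XT.lf (nat_lit 0) (nat_lit 3927519071) (nat_lit 228) (nat_lit 7214512236) (nat_lit 304) (nat_lit 7485411198) (nat_lit 80) (nat_lit 5) (nat_lit 83) (nat_lit 5) (nat_lit 84) (nat_lit 5) (nat_lit 646) (nat_lit 524) (nat_lit 390)) (XT.lf (nat_lit 0) (nat_lit 16251709734) (nat_lit 228) (nat_lit 513495109) (nat_lit 304) (nat_lit 2095861389) (nat_lit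 80) (nat_lit 5) (nat_lit 83) (nat_lit 5) (nat_lit 84) (nat_lit 5) (nat_lit 647) (nat_lit 524) (nat_lit 389))) (XT.nd (nat_lit 78) (nat_lit 532) (nat_lit 0) (XT.lf (nat_lit 0) (nat_lit 977725960) (nat_lit 0) (nat_lit 977725960) (nat_lit 380) (nat_lit 1289400295) (nat_lit 766) (nat_lit 5) (nat_lit 766) (nat_lit 3) (nat_lit 771) (nat_lit 3) (nat_lit 525) (nat_lit 525) (nat_lit 510)) (XT.lf (nat_lit 0) (nat_lit 163877592) (nat_lit 532) (nat_lit 1292279271) (nat_lit 532) (nat_lit 5043813239) (nat_lit 759) (nat_lit 3) (nat_lit 766) (nat_lit 3) (nat_lit 766) (nat_lit 5) (nat_lit 526) (nat_lit 525) (nat_lit 509))))) (XT.nd (nat_lit 234) (nat_lit 608) (nat_lit 0) (XT.nd (nat_lit 78) (nat_lit 456) (nat_lit 0) (XT.lf (nat_lit 76) (nat_lit 1986932401) (nat_lit 0) (nat_lit 881157715) (nat_lit 532) (nat_lit 3643193271) (nat_lit 760) (nat_lit 5) (nat_lit 759) (nat_lit 3) (nat_lit 766) (nat_lit 5) (nat_lit 527) (nat_lit 525) (nat_lit 508)) (XT.nd (nat_lit 78) (nat_lit 456)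 (nat_lit 0) (XT.lf (nat_lit 76) (nat_lit 5312904305) (nat_lit 0) (nat_lit 251602975) (nat_lit 532) (nat_lit 959560539) (nat_lit 760) (nat_lit 5) (nat_lit 759) (nat_lit 3) (nat_lit 766) (nat_lit 5) (nat_lit 528) (nat_lit 525) (nat_lit 507)) (XT.lf (nat_lit 0) (nat_lit 1701663947) (nat_lit 532) (nat_lit 4392556467) (nat_lit 608) (nat_lit 443718996) (nat_lit 753) (nat_lit 5) (nat_lit 760) (nat_lit 5) (nat_lit 761) (nat_lit 5) (nat_lit 529) (nat_lit 525) (nat_lit 506)))) (XT.nd (nat_lit 156) (nat_lit 0) (nat_lit 0) (XT.nd (nat_lit 78) (nat_lit 608) (nat_lit 0) (XT.lf (nat_lit 0) (nat_lit 4344829286) (nat_lit 532) (nat_lit 1012429062) (nat_lit 608) (nat_lit 1195878801) (nat_lit 753) (nat_lit 5) (nat_lit 760) (nat_lit 5) (nat_lit 761) (nat_lit 5) (nat_lit 530) (nat_lit 525) (nat_lit 505)) (XT.lf (nat_lit 0) (nat_lit 414501863) (nat_lit 608) (nat_lit 4142388366) (nat_lit 684) (nat_lit 2012724377) (nat_lit 745) (nat_lit 5) (nat_lit 753) (nat_lit 5) (nat_lit 754) (nat_lit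 5) (nat_lit 531) (nat_lit 525) (nat_lit 504))) (XT.nd (nat_lit 78) (nat_lit 0) (nat_lit 0) (XT.lf (nat_lit 0) (nat_lit 3000739806) (nat_lit 608) (nat_lit 689363411) (nat_lit 684) (nat_lit 2897222104) (nat_lit 745) (nat_lit 5) (nat_lit 753) (nat_lit 5) (nat_lit 754) (nat_lit 5) (nat_lit 532) (nat_lit 525) (nat_lit 503)) (XT.lf (nat_lit 76) (nat_lit 2832809634) (nat_lit 0) (nat_lit 2759260547) (nat_lit 684) (nat_lit 1014259061) (nat_lit 746) (nat_lit 5) (nat_lit 745) (nat_lit 5) (nat_lit 754) (nat_lit 5) (nat_lit 533) (nat_lit 525) (nat_lit 502)))))) (XT.nd (nat_lit 546) (nat_lit 3952) (nat_lit 0) (XT.nd (nat_lit 234) (nat_lit 1520) (nat_lit 0) (XT.nd (nat_lit 78) (nat_lit 0) (nat_lit 0) (XT.lf (nat_lit 0) (nat_lit 1528642698) (nat_lit 684) (nat_lit 239014306) (nat_lit 760) (nat_lit 4859048582) (nat_lit 736) (nat_lit 5) (nat_lit 745) (nat_lit 5) (nat_lit 746) (nat_lit 5) (nat_lit 534) (nat_lit 525) (nat_lit 501)) (XT.nd (nat_lit 78) (nat_lit 0) (nat_lit 76)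 (XT.lf (nat_lit 76) (nat_lit 3366674027) (nat_lit 0) (nat_lit 700863242) (nat_lit 760) (nat_lit 2580649766) (nat_lit 737) (nat_lit 5) (nat_lit 736) (nat_lit 5) (nat_lit 746) (nat_lit 5) (nat_lit 535) (nat_lit 525) (nat_lit 500)) (XT.lf (nat_lit 76) (nat_lit 341487808) (nat_lit 0) (nat_lit 6260077662) (nat_lit 760) (nat_lit 69651393) (nat_lit 738) (nat_lit 5) (nat_lit 737) (nat_lit 5) (nat_lit 747) (nat_lit 5) (nat_lit 536) (nat_lit 525) (nat_lit 499)))) (XT.nd (nat_lit 156) (nat_lit 836) (nat_lit 0) (XT.nd (nat_lit 78) (nat_lit 0) (nat_lit 0) (XT.lf (nat_lit 0) (nat_lit 2424267106) (nat_lit 760) (nat_lit 2672487772) (nat_lit 836) (nat_lit 1598326954) (nat_lit 727) (nat_lit 5) (nat_lit 737) (nat_lit 5) (nat_lit 738) (nat_lit 5) (nat_lit 537) (nat_lit 525) (nat_lit 498)) (XT.lf (nat_lit 76) (nat_lit 1033057272) (nat_lit 0) (nat_lit 3880556272) (nat_lit 836) (nat_lit 1806877229) (nat_lit 728) (nat_lit 5) (nat_lit 727) (nat_lit 5) (nat_lit 738) (nat_lit 5) (nat_lit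 538) (nat_lit 525) (nat_lit 497))) (XT.nd (nat_lit 78) (nat_lit 0) (nat_lit 0) (XT.lf (nat_lit 0) (nat_lit 655440129) (nat_lit 836) (nat_lit 1940292038) (nat_lit 912) (nat_lit 4151422019) (nat_lit 716) (nat_lit 5) (nat_lit 727) (nat_lit 5) (nat_lit 728) (nat_lit 5) (nat_lit 539) (nat_lit 525) (nat_lit 496)) (XT.lf (nat_lit 76) (nat_lit 1856450801) (nat_lit 0) (nat_lit 1239917528) (nat_lit 912) (nat_lit 3678677703) (nat_lit 717) (nat_lit 5) (nat_lit 716) (nat_lit 5) (nat_lit 728) (nat_lit 5) (nat_lit 540) (nat_lit 525) (nat_lit 495))))) (XT.nd (nat_lit 312) (nat_lit 2204) (nat_lit 0) (XT.nd (nat_lit 156) (nat_lit 912) (nat_lit 0) (XT.nd (nat_lit 78) (nat_lit 912) (nat_lit 0) (XT.lf (nat_lit 0) (nat_lit 5542667735) (nat_lit 836) (nat_lit 1087583412) (nat_lit 76) (nat_lit 174118618) (nat_lit 717) (nat_lit 5) (nat_lit 728) (nat_lit 5) (nat_lit 718) (nat_lit 5) (nat_lit 541) (nat_lit 525) (nat_lit 494)) (XT.lf (nat_lit 0) (nat_lit 1157729518) (nat_lit 912) (nat_lit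 4031802403) (nat_lit 76) (nat_lit 1645198625) (nat_lit 705) (nat_lit 5) (nat_lit 717) (nat_lit 5) (nat_lit 706) (nat_lit 5) (nat_lit 542) (nat_lit 525) (nat_lit 493))) (XT.nd (nat_lit 78) (nat_lit 912) (nat_lit 0) (XT.lf (nat_lit 0) (nat_lit 3560150023) (nat_lit 912) (nat_lit 126464335) (nat_lit 76) (nat_lit 3179892308) (nat_lit 705) (nat_lit 5) (nat_lit 717) (nat_lit 5) (nat_lit 706) (nat_lit 5) (nat_lit 543) (nat_lit 525) (nat_lit 492)) (XT.lf (nat_lit 0) (nat_lit 3869990834) (nat_lit 912) (nat_lit 2110982231) (nat_lit 988) (nat_lit 918542875) (nat_lit 693) (nat_lit 5) (nat_lit 705) (nat_lit 5) (nat_lit 706) (nat_lit 5) (nat_lit 544) (nat_lit 525) (nat_lit 491)))) (XT.nd (nat_lit 156) (nat_lit 1140) (nat_lit 0) (XT.nd (nat_lit 78) (nat_lit 0) (nat_lit 0) (XT.lf (nat_lit 0) (nat_lit 979691437) (nat_lit 988) (nat_lit 470351016) (nat_lit 1064) (nat_lit 5483892260) (nat_lit 679) (nat_lit 5) (nat_lit 692) (nat_lit 5) (nat_lit 693) (nat_lit 5) (nat_lit 545) (nat_lit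 525) (nat_lit 490)) (XT.lf (nat_lit 0) (nat_lit 3828602584) (nat_lit 1064) (nat_lit 1911652492) (nat_lit 76) (nat_lit 1229171749) (nat_lit 679) (nat_lit 5) (nat_lit 693) (nat_lit 5) (nat_lit 680) (nat_lit 5) (nat_lit 546) (nat_lit 525) (nat_lit 489))) (XT.nd (nat_lit 78) (nat_lit 76) (nat_lit 0) (XT.lf (nat_lit 0) (nat_lit 2199138302) (nat_lit 1064) (nat_lit 4020650813) (nat_lit 1140) (nat_lit 786542918) (nat_lit 665) (nat_lit 5) (nat_lit 679) (nat_lit 5) (nat_lit 680) (nat_lit 5) (nat_lit 547) (nat_lit 525) (nat_lit 488)) (XT.lf (nat_lit 0) (nat_lit 1554653527) (nat_lit 1140) (nat_lit 675050852) (nat_lit 76) (nat_lit 4814845296) (nat_lit 664) (nat_lit 5) (nat_lit 679) (nat_lit 5) (nat_lit 665) (nat_lit 5) (nat_lit 548) (nat_lit 525) (nat_lit 487))))))))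
noncomputable def xc83 : XT := (XT.nd (nat_lit 2262) (nat_lit 11704) (nat_lit 0) (XT.nd (nat_lit 1092) (nat_lit 9880) (nat_lit 0) (XT.nd (nat_lit 546) (nat_lit 6688) (nat_lit 0) (XT.nd (nat_lit 234) (nat_lit 4180) (nat_lit 0) (XT.nd (nat_lit 78) (nat_lit 1292) (nat_lit 0) (XT.lf (nat_lit 0) (nat_lit 3542932903) (nat_lit 1140) (nat_lit 361334900) (nat_lit 1216) (nat_lit 3179721479) (nat_lit 649) (nat_lit 5) (nat_lit 664) (nat_lit 5) (nat_lit 665) (nat_lit 5) (nat_lit 549) (nat_lit 525) (nat_lit 486)) (XT.nd (nat_lit 78) (nat_lit 76) (nat_lit 0) (XT.lf (nat_lit 0) (nat_lit 690401553) (nat_lit 1216) (nat_lit 5579487718) (nat_lit 1292) (nat_lit 854952135) (nat_lit 633) (nat_lit 5) (nat_lit 649) (nat_lit 5) (nat_lit 650) (nat_lit 5) (nat_lit 550) (nat_lit 525) (nat_lit 485)) (XT.lf (nat_lit 0) (nat_lit 1473083729) (nat_lit 1292) (nat_lit 2163245460) (nat_lit 76) (nat_lit 3530455196) (nat_lit 632) (nat_lit 5) (nat_lit 649) (nat_lit 5) (nat_lit 633) (nat_lit 5) (nat_lit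 551) (nat_lit 525) (nat_lit 484)))) (XT.nd (nat_lit 156) (nat_lit 2888) (nat_lit 0) (XT.nd (nat_lit 78) (nat_lit 0) (nat_lit 0) (XT.lf (nat_lit 0) (nat_lit 2177739475) (nat_lit 1292) (nat_lit 1623961862) (nat_lit 1368) (nat_lit 3408446278) (nat_lit 615) (nat_lit 5) (nat_lit 632) (nat_lit 5) (nat_lit 633) (nat_lit 5) (nat_lit 552) (nat_lit 525) (nat_lit 483)) (XT.lf (nat_lit 0) (nat_lit 6146374805) (nat_lit 1368) (nat_lit 661405065) (nat_lit 76) (nat_lit 447212288) (nat_lit 615) (nat_lit 5) (nat_lit 633) (nat_lit 5) (nat_lit 616) (nat_lit 5) (nat_lit 553) (nat_lit 525) (nat_lit 482))) (XT.nd (nat_lit 78) (nat_lit 1444) (nat_lit 0) (XT.lf (nat_lit 0) (nat_lit 1209339809) (nat_lit 1444) (nat_lit 3511390786) (nat_lit 76) (nat_lit 2580078756) (nat_lit 596) (nat_lit 5) (nat_lit 615) (nat_lit 5) (nat_lit 597) (nat_lit 5) (nat_lit 554) (nat_lit 525) (nat_lit 481)) (XT.lf (nat_lit 0) (nat_lit 957046434) (nat_lit 1444) (nat_lit 2565850269) (nat_lit 1520) (nat_lit 3825221430)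 (nat_lit 577) (nat_lit 5) (nat_lit 596) (nat_lit 5) (nat_lit 597) (nat_lit 5) (nat_lit 555) (nat_lit 525) (nat_lit 480))))) (XT.nd (nat_lit 234) (nat_lit 5092) (nat_lit 0) (XT.nd (nat_lit 78) (nat_lit 1596) (nat_lit 0) (XT.lf (nat_lit 0) (nat_lit 5523801935) (nat_lit 1444) (nat_lit 336538628) (nat_lit 1520) (nat_lit 1536483646) (nat_lit 577) (nat_lit 5) (nat_lit 596) (nat_lit 5) (nat_lit 597) (nat_lit 5) (nat_lit 556) (nat_lit 525) (nat_lit 479)) (XT.nd (nat_lit 78) (nat_lit 0) (nat_lit 0) (XT.lf (nat_lit 0) (nat_lit 772697752) (nat_lit 1596) (nat_lit 4732249783) (nat_lit 76) (nat_lit 1941753843) (nat_lit 556) (nat_lit 5) (nat_lit 577) (nat_lit 5) (nat_lit 557) (nat_lit 5) (nat_lit 557) (nat_lit 525) (nat_lit 478)) (XT.lf (nat_lit 0) (nat_lit 3077724113) (nat_lit 1596) (nat_lit 129930338) (nat_lit 76) (nat_lit 4290317056) (nat_lit 556) (nat_lit 5) (nat_lit 577) (nat_lit 5) (nat_lit 557) (nat_lit 5) (nat_lit 558) (nat_lit 525) (nat_lit 477)))) (XT.nd (nat_lit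 156) (nat_lit 1748) (nat_lit 0) (XT.nd (nat_lit 78) (nat_lit 1748) (nat_lit 0) (XT.lf (nat_lit 0) (nat_lit 4586169700) (nat_lit 1596) (nat_lit 828668230) (nat_lit 1672) (nat_lit 2135712542) (nat_lit 535) (nat_lit 5) (nat_lit 556) (nat_lit 5) (nat_lit 557) (nat_lit 5) (nat_lit 559) (nat_lit 525) (nat_lit 476)) (XT.lf (nat_lit 0) (nat_lit 171408453) (nat_lit 1748) (nat_lit 5837785091) (nat_lit 76) (nat_lit 1595376335) (nat_lit 512) (nat_lit 5) (nat_lit 535) (nat_lit 5) (nat_lit 513) (nat_lit 5) (nat_lit 560) (nat_lit 525) (nat_lit 475))) (XT.nd (nat_lit 78) (nat_lit 1748) (nat_lit 0) (XT.lf (nat_lit 0) (nat_lit 2478776720) (nat_lit 1748) (nat_lit 1085654660) (nat_lit 76) (nat_lit 4095304902) (nat_lit 512) (nat_lit 5) (nat_lit 535) (nat_lit 5) (nat_lit 513) (nat_lit 5) (nat_lit 561) (nat_lit 525) (nat_lit 474)) (XT.lf (nat_lit 0) (nat_lit 3772389972) (nat_lit 1748) (nat_lit 1042398323) (nat_lit 1824) (nat_lit 2901570730) (nat_lit 489) (nat_lit 5) (nat_lit 512)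 (nat_lit 5) (nat_lit 513) (nat_lit 5) (nat_lit 562) (nat_lit 525) (nat_lit 473)))))) (XT.nd (nat_lit 546) (nat_lit 5016) (nat_lit 0) (XT.nd (nat_lit 234) (nat_lit 1900) (nat_lit 0) (XT.nd (nat_lit 78) (nat_lit 1140) (nat_lit 0) (XT.lf (nat_lit 0) (nat_lit 931374671) (nat_lit 1824) (nat_lit 6248057868) (nat_lit 1900) (nat_lit 595046309) (nat_lit 465) (nat_lit 5) (nat_lit 489) (nat_lit 5) (nat_lit 490) (nat_lit 5) (nat_lit 563) (nat_lit 525) (nat_lit 472)) (XT.nd (nat_lit 78) (nat_lit 1064) (nat_lit 0) (XT.lf (nat_lit 0) (nat_lit 1726985136) (nat_lit 1900) (nat_lit 1933527629) (nat_lit 76) (nat_lit 4173174277) (nat_lit 464) (nat_lit 5) (nat_lit 489) (nat_lit 5) (nat_lit 465) (nat_lit 5) (nat_lit 564) (nat_lit 525) (nat_lit 471)) (XT.lf (nat_lit 0) (nat_lit 3071869676) (nat_lit 1064) (nat_lit 995261347) (nat_lit 1140) (nat_lit 3827279588) (nat_lit 450) (nat_lit 5) (nat_lit 464) (nat_lit 5) (nat_lit 465) (nat_lit 5) (nat_lit 565) (nat_lit 525) (nat_lit 470))))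 (XT.nd (nat_lit 156) (nat_lit 912) (nat_lit 0) (XT.nd (nat_lit 78) (nat_lit 76) (nat_lit 0) (XT.lf (nat_lit 0) (nat_lit 199567911) (nat_lit 912) (nat_lit 6240295911) (nat_lit 988) (nat_lit 1516771806) (nat_lit 438) (nat_lit 5) (nat_lit 450) (nat_lit 5) (nat_lit 451) (nat_lit 5) (nat_lit 566) (nat_lit 525) (nat_lit 469)) (XT.lf (nat_lit 0) (nat_lit 828599843) (nat_lit 988) (nat_lit 2683766203) (nat_lit 76) (nat_lit 4507639187) (nat_lit 437) (nat_lit 5) (nat_lit 450) (nat_lit 5) (nat_lit 438) (nat_lit 5) (nat_lit 567) (nat_lit 525) (nat_lit 468))) (XT.nd (nat_lit 78) (nat_lit 0) (nat_lit 0) (XT.lf (nat_lit 0) (nat_lit 2474648124) (nat_lit 912) (nat_lit 703284247) (nat_lit 988) (nat_lit 4906964583) (nat_lit 425) (nat_lit 5) (nat_lit 437) (nat_lit 5) (nat_lit 438) (nat_lit 5) (nat_lit 568) (nat_lit 525) (nat_lit 467)) (XT.lf (nat_lit 0) (nat_lit 5568201620) (nat_lit 988) (nat_lit 431546308) (nat_lit 76) (nat_lit 2151462034) (nat_lit 425) (nat_lit 5) (nat_lit 438)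 (nat_lit 5) (nat_lit 426) (nat_lit 5) (nat_lit 569) (nat_lit 525) (nat_lit 466))))) (XT.nd (nat_lit 312) (nat_lit 2432) (nat_lit 0) (XT.nd (nat_lit 156) (nat_lit 836) (nat_lit 0) (XT.nd (nat_lit 78) (nat_lit 912) (nat_lit 0) (XT.lf (nat_lit 0) (nat_lit 4871459275) (nat_lit 836) (nat_lit 3133636873) (nat_lit 912) (nat_lit 213779086) (nat_lit 414) (nat_lit 5) (nat_lit 425) (nat_lit 5) (nat_lit 426) (nat_lit 5) (nat_lit 570) (nat_lit 525) (nat_lit 465)) (XT.lf (nat_lit 0) (nat_lit 1971324356) (nat_lit 836) (nat_lit 181106751) (nat_lit 912) (nat_lit 6135609234) (nat_lit 402) (nat_lit 5) (nat_lit 413) (nat_lit 5) (nat_lit 414) (nat_lit 5) (nat_lit 571) (nat_lit 525) (nat_lit 464))) (XT.nd (nat_lit 78) (nat_lit 836) (nat_lit 0) (XT.lf (nat_lit 0) (nat_lit 4567336078) (nat_lit 912) (nat_lit 975484977) (nat_lit 76) (nat_lit 2815657038) (nat_lit 402) (nat_lit 5) (nat_lit 414) (nat_lit 5) (nat_lit 403) (nat_lit 5) (nat_lit 572) (nat_lit 525) (nat_lit 463)) (XT.lf (nat_lit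 0) (nat_lit 4491833217) (nat_lit 836) (nat_lit 2533031431) (nat_lit 912) (nat_lit 1405575664) (nat_lit 391) (nat_lit 5) (nat_lit 402) (nat_lit 5) (nat_lit 403) (nat_lit 5) (nat_lit 573) (nat_lit 525) (nat_lit 462)))) (XT.nd (nat_lit 156) (nat_lit 1520) (nat_lit 0) (XT.nd (nat_lit 78) (nat_lit 0) (nat_lit 0) (XT.lf (nat_lit 0) (nat_lit 998701233) (nat_lit 912) (nat_lit 6954728376) (nat_lit 76) (nat_lit 550591297) (nat_lit 379) (nat_lit 5) (nat_lit 391) (nat_lit 5) (nat_lit 380) (nat_lit 5) (nat_lit 574) (nat_lit 525) (nat_lit 461)) (XT.lf (nat_lit 0) (nat_lit 3440256824) (nat_lit 912) (nat_lit 1443573548) (nat_lit 76) (nat_lit 3694898740) (nat_lit 379) (nat_lit 5) (nat_lit 391) (nat_lit 5) (nat_lit 380) (nat_lit 5) (nat_lit 575) (nat_lit 525) (nat_lit 460))) (XT.nd (nat_lit 78) (nat_lit 760) (nat_lit 0) (XT.lf (nat_lit 0) (nat_lit 4194472977) (nat_lit 760) (nat_lit 1728713671) (nat_lit 836) (nat_lit 2731896024) (nat_lit 369) (nat_lit 5) (nat_lit 379) (nat_lit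 5) (nat_lit 380) (nat_lit 5) (nat_lit 576) (nat_lit 525) (nat_lit 459)) (XT.lf (nat_lit 0) (nat_lit 1199320503) (nat_lit 760) (nat_lit 7249381324) (nat_lit 836) (nat_lit 284404953) (nat_lit 359) (nat_lit 5) (nat_lit 369) (nat_lit 5) (nat_lit 370) (nat_lit 5) (nat_lit 577) (nat_lit 525) (nat_lit 458))))))) (XT.nd (nat_lit 1170) (nat_lit 4788) (nat_lit 0) (XT.nd (nat_lit 546) (nat_lit 3952) (nat_lit 0) (XT.nd (nat_lit 234) (nat_lit 1444) (nat_lit 0) (XT.nd (nat_lit 78) (nat_lit 1444) (nat_lit 0) (XT.lf (nat_lit 0) (nat_lit 2190518282) (nat_lit 836) (nat_lit 1844139989) (nat_lit 76) (nat_lit 4777597922) (nat_lit 358) (nat_lit 5) (nat_lit 369) (nat_lit 5) (nat_lit 359) (nat_lit 5) (nat_lit 578) (nat_lit 525) (nat_lit 457)) (XT.nd (nat_lit 78) (nat_lit 760) (nat_lit 0) (XT.lf (nat_lit 0) (nat_lit 3971311337) (nat_lit 684) (nat_lit 732190652) (nat_lit 760) (nat_lit 4189603498) (nat_lit 349) (nat_lit 5) (nat_lit 358) (nat_lit 5) (nat_lit 359) (nat_lit 5) (nat_lit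 579) (nat_lit 525) (nat_lit 456)) (XT.lf (nat_lit 0) (nat_lit 908899204) (nat_lit 760) (nat_lit 6360280403) (nat_lit 836) (nat_lit 1706345336) (nat_lit 339) (nat_lit 5) (nat_lit 349) (nat_lit 5) (nat_lit 350) (nat_lit 5) (nat_lit 580) (nat_lit 525) (nat_lit 455)))) (XT.nd (nat_lit 156) (nat_lit 684) (nat_lit 0) (XT.nd (nat_lit 78) (nat_lit 684) (nat_lit 0) (XT.lf (nat_lit 0) (nat_lit 820973077) (nat_lit 836) (nat_lit 2185196359) (nat_lit 76) (nat_lit 6053213087) (nat_lit 338) (nat_lit 5) (nat_lit 349) (nat_lit 5) (nat_lit 339) (nat_lit 5) (nat_lit 581) (nat_lit 525) (nat_lit 454)) (XT.lf (nat_lit 0) (nat_lit 3371458721) (nat_lit 760) (nat_lit 5333140039) (nat_lit 76) (nat_lit 440185292) (nat_lit 329) (nat_lit 5) (nat_lit 339) (nat_lit 5) (nat_lit 330) (nat_lit 5) (nat_lit 582) (nat_lit 525) (nat_lit 453))) (XT.nd (nat_lit 78) (nat_lit 0) (nat_lit 0) (XT.lf (nat_lit 0) (nat_lit 676972368) (nat_lit 684) (nat_lit 5303179242) (nat_lit 760) (nat_lit 3251599769)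 (nat_lit 320) (nat_lit 5) (nat_lit 329) (nat_lit 5) (nat_lit 330) (nat_lit 5) (nat_lit 583) (nat_lit 525) (nat_lit 452)) (XT.lf (nat_lit 0) (nat_lit 6841488893) (nat_lit 684) (nat_lit 1803828020) (nat_lit 760) (nat_lit 675056851) (nat_lit 320) (nat_lit 5) (nat_lit 329) (nat_lit 5) (nat_lit 330) (nat_lit 5) (nat_lit 584) (nat_lit 525) (nat_lit 451))))) (XT.nd (nat_lit 312) (nat_lit 1900) (nat_lit 0) (XT.nd (nat_lit 156) (nat_lit 684) (nat_lit 0) (XT.nd (nat_lit 78) (nat_lit 684) (nat_lit 0) (XT.lf (nat_lit 0) (nat_lit 1932119948) (nat_lit 684) (nat_lit 5705482989) (nat_lit 76) (nat_lit 1772819329) (nat_lit 311) (nat_lit 5) (nat_lit 320) (nat_lit 5) (nat_lit 312) (nat_lit 5) (nat_lit 585) (nat_lit 525) (nat_lit 450)) (XT.lf (nat_lit 0) (nat_lit 496000004) (nat_lit 684) (nat_lit 4087564196) (nat_lit 760) (nat_lit 4918596623) (nat_lit 302) (nat_lit 5) (nat_lit 311) (nat_lit 5) (nat_lit 312) (nat_lit 5) (nat_lit 586) (nat_lit 525) (nat_lit 449))) (XT.nd (nat_lit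 78) (nat_lit 684) (nat_lit 0) (XT.lf (nat_lit 0) (nat_lit 6861021211) (nat_lit 684) (nat_lit 434903821) (nat_lit 760) (nat_lit 2299652922) (nat_lit 302) (nat_lit 5) (nat_lit 311) (nat_lit 5) (nat_lit 312) (nat_lit 5) (nat_lit 587) (nat_lit 525) (nat_lit 448)) (XT.lf (nat_lit 0) (nat_lit 382117286) (nat_lit 684) (nat_lit 6041712131) (nat_lit 76) (nat_lit 3266680800) (nat_lit 293) (nat_lit 5) (nat_lit 302) (nat_lit 5) (nat_lit 294) (nat_lit 5) (nat_lit 588) (nat_lit 525) (nat_lit 447)))) (XT.nd (nat_lit 156) (nat_lit 1292) (nat_lit 0) (XT.nd (nat_lit 78) (nat_lit 0) (nat_lit 0) (XT.lf (nat_lit 0) (nat_lit 358597558) (nat_lit 608) (nat_lit 2722137316) (nat_lit 684) (nat_lit 6706423616) (nat_lit 285) (nat_lit 5) (nat_lit 293) (nat_lit 5) (nat_lit 294) (nat_lit 5) (nat_lit 589) (nat_lit 525) (nat_lit 446)) (XT.lf (nat_lit 0) (nat_lit 5851557918) (nat_lit 684) (nat_lit 2961302478) (nat_lit 76) (nat_lit 1072516108) (nat_lit 285) (nat_lit 5) (nat_lit 294) (nat_lit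 5) (nat_lit 286) (nat_lit 5) (nat_lit 590) (nat_lit 525) (nat_lit 445))) (XT.nd (nat_lit 78) (nat_lit 684) (nat_lit 0) (XT.lf (nat_lit 0) (nat_lit 3627520945) (nat_lit 608) (nat_lit 5063013934) (nat_lit 684) (nat_lit 1294770658) (nat_lit 277) (nat_lit 5) (nat_lit 285) (nat_lit 5) (nat_lit 286) (nat_lit 5) (nat_lit 591) (nat_lit 525) (nat_lit 444)) (XT.lf (nat_lit 0) (nat_lit 257473008) (nat_lit 608) (nat_lit 1214892319) (nat_lit 684) (nat_lit 8614815170) (nat_lit 268) (nat_lit 5) (nat_lit 276) (nat_lit 5) (nat_lit 277) (nat_lit 5) (nat_lit 592) (nat_lit 525) (nat_lit 443)))))) (XT.nd (nat_lit 546) (nat_lit 2508) (nat_lit 0) (XT.nd (nat_lit 234) (nat_lit 1216) (nat_lit 0) (XT.nd (nat_lit 78) (nat_lit 1064) (nat_lit 0) (XT.lf (nat_lit 0) (nat_lit 4309622477) (nat_lit 684) (nat_lit 3163206912) (nat_lit 76) (nat_lit 2717451418) (nat_lit 268) (nat_lit 5) (nat_lit 277) (nat_lit 5) (nat_lit 269) (nat_lit 5) (nat_lit 593) (nat_lit 525) (nat_lit 442)) (XT.nd (nat_lit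 78) (nat_lit 532) (nat_lit 0) (XT.lf (nat_lit 0) (nat_lit 3639317259) (nat_lit 532) (nat_lit 3568095966) (nat_lit 608) (nat_lit 3087955432) (nat_lit 261) (nat_lit 5) (nat_lit 268) (nat_lit 5) (nat_lit 269) (nat_lit 5) (nat_lit 594) (nat_lit 525) (nat_lit 441)) (XT.lf (nat_lit 0) (nat_lit 180934985) (nat_lit 532) (nat_lit 9979822235) (nat_lit 608) (nat_lit 241850370) (nat_lit 254) (nat_lit 5) (nat_lit 261) (nat_lit 5) (nat_lit 262) (nat_lit 5) (nat_lit 595) (nat_lit 525) (nat_lit 440)))) (XT.nd (nat_lit 156) (nat_lit 608) (nat_lit 0) (XT.nd (nat_lit 78) (nat_lit 532) (nat_lit 0) (XT.lf (nat_lit 0) (nat_lit 2667348210) (nat_lit 608) (nat_lit 3344778990) (nat_lit 76) (nat_lit 4498698301) (nat_lit 253) (nat_lit 5) (nat_lit 261) (nat_lit 5) (nat_lit 254) (nat_lit 5) (nat_lit 596) (nat_lit 525) (nat_lit 439)) (XT.lf (nat_lit 0) (nat_lit 3679680186) (nat_lit 532) (nat_lit 1948727768) (nat_lit 608) (nat_lit 4992830735) (nat_lit 246) (nat_lit 5) (nat_lit 253) (nat_lit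 5) (nat_lit 254) (nat_lit 5) (nat_lit 597) (nat_lit 525) (nat_lit 438))) (XT.nd (nat_lit 78) (nat_lit 76) (nat_lit 0) (XT.lf (nat_lit 0) (nat_lit 106688547) (nat_lit 532) (nat_lit 8552795746) (nat_lit 608) (nat_lit 2074161120) (nat_lit 239) (nat_lit 5) (nat_lit 246) (nat_lit 5) (nat_lit 247) (nat_lit 5) (nat_lit 598) (nat_lit 525) (nat_lit 437)) (XT.lf (nat_lit 0) (nat_lit 924197593) (nat_lit 608) (nat_lit 3513423380) (nat_lit 76) (nat_lit 6409900044) (nat_lit 238) (nat_lit 5) (nat_lit 246) (nat_lit 5) (nat_lit 239) (nat_lit 5) (nat_lit 599) (nat_lit 525) (nat_lit 436))))) (XT.nd (nat_lit 312) (nat_lit 988) (nat_lit 0) (XT.nd (nat_lit 156) (nat_lit 532) (nat_lit 0) (XT.nd (nat_lit 78) (nat_lit 532) (nat_lit 0) (XT.lf (nat_lit 0) (nat_lit 3741465727) (nat_lit 456) (nat_lit 211486778) (nat_lit 532) (nat_lit 7010484495) (nat_lit 232) (nat_lit 5) (nat_lit 238) (nat_lit 5) (nat_lit 239) (nat_lit 5) (nat_lit 600) (nat_lit 525) (nat_lit 435)) (XT.lf (nat_lit 0) (nat_lit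 45238680) (nat_lit 532) (nat_lit 7021781375) (nat_lit 608) (nat_lit 4014157585) (nat_lit 225) (nat_lit 5) (nat_lit 232) (nat_lit 5) (nat_lit 233) (nat_lit 5) (nat_lit 601) (nat_lit 525) (nat_lit 434))) (XT.nd (nat_lit 78) (nat_lit 532) (nat_lit 0) (XT.lf (nat_lit 0) (nat_lit 7518047056) (nat_lit 532) (nat_lit 2749545458) (nat_lit 608) (nat_lit 933197177) (nat_lit 225) (nat_lit 5) (nat_lit 232) (nat_lit 5) (nat_lit 233) (nat_lit 5) (nat_lit 602) (nat_lit 525) (nat_lit 433)) (XT.lf (nat_lit 0) (nat_lit 2190526804) (nat_lit 532) (nat_lit 7515760707) (nat_lit 76) (nat_lit 1616018185) (nat_lit 218) (nat_lit 5) (nat_lit 225) (nat_lit 5) (nat_lit 219) (nat_lit 5) (nat_lit 603) (nat_lit 525) (nat_lit 432)))) (XT.nd (nat_lit 156) (nat_lit 532) (nat_lit 0) (XT.nd (nat_lit 78) (nat_lit 456) (nat_lit 0) (XT.lf (nat_lit 0) (nat_lit 5382227307) (nat_lit 532) (nat_lit 10817870) (nat_lit 76) (nat_lit 6052724532) (nat_lit 218) (nat_lit 5) (nat_lit 225) (nat_lit 5) (nat_lit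 219) (nat_lit 5) (nat_lit 604) (nat_lit 525) (nat_lit 431)) (XT.lf (nat_lit 0) (nat_lit 7710002346) (nat_lit 456) (nat_lit 953210233) (nat_lit 532) (nat_lit 2907982394) (nat_lit 212) (nat_lit 5) (nat_lit 218) (nat_lit 5) (nat_lit 219) (nat_lit 5) (nat_lit 605) (nat_lit 525) (nat_lit 430))) (XT.nd (nat_lit 78) (nat_lit 0) (nat_lit 0) (XT.lf (nat_lit 0) (nat_lit 330817538) (nat_lit 532) (nat_lit 7822440960) (nat_lit 76) (nat_lit 3545346778) (nat_lit 205) (nat_lit 5) (nat_lit 212) (nat_lit 5) (nat_lit 206) (nat_lit 5) (nat_lit 606) (nat_lit 525) (nat_lit 429)) (XT.lf (nat_lit 0) (nat_lit 3603552638) (nat_lit 532) (nat_lit 68795953) (nat_lit 76) (nat_lit 8155669748) (nat_lit 205) (nat_lit 5) (nat_lit 212) (nat_lit 5) (nat_lit 206) (nat_lit 5) (nat_lit 607) (nat_lit 525) (nat_lit 428))))))))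
noncomputable def xc84 : XT := (XT.nd (nat_lit 2262) (nat_lit 1976) (nat_lit 0) (XT.nd (nat_lit 1092) (nat_lit 3344) (nat_lit 0) (XT.nd (nat_lit 546) (nat_lit 1976) (nat_lit 0) (XT.nd (nat_lit 234) (nat_lit 1292) (nat_lit 0) (XT.nd (nat_lit 78) (nat_lit 456) (nat_lit 0) (XT.lf (nat_lit 0) (nat_lit 6975333895) (nat_lit 532) (nat_lit 4056841719) (nat_lit 76) (nat_lit 927173133) (nat_lit 199) (nat_lit 5) (nat_lit 206) (nat_lit 5) (nat_lit 200) (nat_lit 5) (nat_lit 608) (nat_lit 525) (nat_lit 427)) (XT.nd (nat_lit 78) (nat_lit 76) (nat_lit 0) (XT.lf (nat_lit 0) (nat_lit 3933042325) (nat_lit 380) (nat_lit 6508142867) (nat_lit 456) (nat_lit 1651588775) (nat_lit 194) (nat_lit 5) (nat_lit 199) (nat_lit 5) (nat_lit 200) (nat_lit 5) (nat_lit 609) (nat_lit 525) (nat_lit 426)) (XT.lf (nat_lit 0) (nat_lit 1728366621) (nat_lit 456) (nat_lit 137306514) (nat_lit 76) (nat_lit 10362892511) (nat_lit 193) (nat_lit 5) (nat_lit 199) (nat_lit 5) (nat_lit 194) (nat_lit 5) (nat_lit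 610) (nat_lit 525) (nat_lit 425)))) (XT.nd (nat_lit 156) (nat_lit 456) (nat_lit 0) (XT.nd (nat_lit 78) (nat_lit 380) (nat_lit 0) (XT.lf (nat_lit 0) (nat_lit 5202296960) (nat_lit 532) (nat_lit 4278780368) (nat_lit 76) (nat_lit 2884808520) (nat_lit 187) (nat_lit 5) (nat_lit 194) (nat_lit 5) (nat_lit 188) (nat_lit 5) (nat_lit 611) (nat_lit 525) (nat_lit 424)) (XT.lf (nat_lit 0) (nat_lit 3977089997) (nat_lit 380) (nat_lit 4784736833) (nat_lit 456) (nat_lit 3743804030) (nat_lit 182) (nat_lit 5) (nat_lit 187) (nat_lit 5) (nat_lit 188) (nat_lit 5) (nat_lit 612) (nat_lit 525) (nat_lit 423))) (XT.nd (nat_lit 78) (nat_lit 456) (nat_lit 0) (XT.lf (nat_lit 0) (nat_lit 12398653838) (nat_lit 456) (nat_lit 226538779) (nat_lit 76) (nat_lit 22856835) (nat_lit 182) (nat_lit 5) (nat_lit 188) (nat_lit 5) (nat_lit 183) (nat_lit 5) (nat_lit 613) (nat_lit 525) (nat_lit 422)) (XT.lf (nat_lit 0) (nat_lit 3334932310) (nat_lit 456) (nat_lit 4529640332) (nat_lit 76) (nat_lit 4927043964)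 (nat_lit 176) (nat_lit 5) (nat_lit 182) (nat_lit 5) (nat_lit 177) (nat_lit 5) (nat_lit 614) (nat_lit 525) (nat_lit 421))))) (XT.nd (nat_lit 234) (nat_lit 1140) (nat_lit 0) (XT.nd (nat_lit 78) (nat_lit 456) (nat_lit 0) (XT.lf (nat_lit 0) (nat_lit 4001947684) (nat_lit 380) (nat_lit 2990863025) (nat_lit 456) (nat_lit 5945108119) (nat_lit 171) (nat_lit 5) (nat_lit 176) (nat_lit 5) (nat_lit 177) (nat_lit 5) (nat_lit 615) (nat_lit 525) (nat_lit 420)) (XT.nd (nat_lit 78) (nat_lit 456) (nat_lit 0) (XT.lf (nat_lit 0) (nat_lit 10745128448) (nat_lit 456) (nat_lit 368355458) (nat_lit 76) (nat_lit 1973238301) (nat_lit 171) (nat_lit 5) (nat_lit 177) (nat_lit 5) (nat_lit 172) (nat_lit 5) (nat_lit 616) (nat_lit 525) (nat_lit 419)) (XT.lf (nat_lit 0) (nat_lit 1369630779) (nat_lit 456) (nat_lit 4818773609) (nat_lit 76) (nat_lit 7048862053) (nat_lit 165) (nat_lit 5) (nat_lit 171) (nat_lit 5) (nat_lit 166) (nat_lit 5) (nat_lit 617) (nat_lit 525) (nat_lit 418)))) (XT.nd (nat_lit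 156) (nat_lit 760) (nat_lit 0) (XT.nd (nat_lit 78) (nat_lit 0) (nat_lit 0) (XT.lf (nat_lit 0) (nat_lit 3998496875) (nat_lit 380) (nat_lit 1132034745) (nat_lit 456) (nat_lit 8259844970) (nat_lit 160) (nat_lit 5) (nat_lit 165) (nat_lit 5) (nat_lit 166) (nat_lit 5) (nat_lit 618) (nat_lit 525) (nat_lit 417)) (XT.lf (nat_lit 0) (nat_lit 9003793764) (nat_lit 456) (nat_lit 548669491) (nat_lit 76) (nat_lit 3993343512) (nat_lit 160) (nat_lit 5) (nat_lit 166) (nat_lit 5) (nat_lit 161) (nat_lit 5) (nat_lit 619) (nat_lit 525) (nat_lit 416))) (XT.nd (nat_lit 78) (nat_lit 380) (nat_lit 0) (XT.lf (nat_lit 0) (nat_lit 8542761926) (nat_lit 380) (nat_lit 4453600499) (nat_lit 456) (nat_lit 707146974) (nat_lit 155) (nat_lit 5) (nat_lit 160) (nat_lit 5) (nat_lit 161) (nat_lit 5) (nat_lit 620) (nat_lit 525) (nat_lit 415)) (XT.lf (nat_lit 0) (nat_lit 3175832369) (nat_lit 380) (nat_lit 9911903059) (nat_lit 76) (nat_lit 775946353) (nat_lit 150) (nat_lit 5) (nat_lit 155) (nat_lit 5)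 (nat_lit 151) (nat_lit 5) (nat_lit 621) (nat_lit 525) (nat_lit 414)))))) (XT.nd (nat_lit 546) (nat_lit 1824) (nat_lit 0) (XT.nd (nat_lit 234) (nat_lit 760) (nat_lit 0) (XT.nd (nat_lit 78) (nat_lit 760) (nat_lit 0) (XT.lf (nat_lit 0) (nat_lit 7170425629) (nat_lit 380) (nat_lit 777629013) (nat_lit 76) (nat_lit 6078041661) (nat_lit 150) (nat_lit 5) (nat_lit 155) (nat_lit 5) (nat_lit 151) (nat_lit 5) (nat_lit 622) (nat_lit 525) (nat_lit 413)) (XT.nd (nat_lit 78) (nat_lit 380) (nat_lit 0) (XT.lf (nat_lit 0) (nat_lit 8619664968) (nat_lit 380) (nat_lit 2660680420) (nat_lit 456) (nat_lit 2910705661) (nat_lit 145) (nat_lit 5) (nat_lit 150) (nat_lit 5) (nat_lit 151) (nat_lit 5) (nat_lit 623) (nat_lit 525) (nat_lit 412)) (XT.lf (nat_lit 0) (nat_lit 1126355088) (nat_lit 380) (nat_lit 10509945790) (nat_lit 76) (nat_lit 2722304152) (nat_lit 140) (nat_lit 5) (nat_lit 145) (nat_lit 5) (nat_lit 141) (nat_lit 5) (nat_lit 624) (nat_lit 525) (nat_lit 411)))) (XT.nd (nat_lit 156)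 (nat_lit 380) (nat_lit 0) (XT.nd (nat_lit 78) (nat_lit 380) (nat_lit 0) (XT.lf (nat_lit 0) (nat_lit 5240110755) (nat_lit 380) (nat_lit 1066161914) (nat_lit 76) (nat_lit 8222154653) (nat_lit 140) (nat_lit 5) (nat_lit 145) (nat_lit 5) (nat_lit 141) (nat_lit 5) (nat_lit 625) (nat_lit 525) (nat_lit 410)) (XT.lf (nat_lit 0) (nat_lit 8647675771) (nat_lit 380) (nat_lit 824648184) (nat_lit 456) (nat_lit 5228599035) (nat_lit 135) (nat_lit 5) (nat_lit 140) (nat_lit 5) (nat_lit 141) (nat_lit 5) (nat_lit 626) (nat_lit 525) (nat_lit 409))) (XT.nd (nat_lit 78) (nat_lit 76) (nat_lit 0) (XT.lf (nat_lit 0) (nat_lit 3678422364) (nat_lit 304) (nat_lit 10152931676) (nat_lit 380) (nat_lit 1044671646) (nat_lit 131) (nat_lit 5) (nat_lit 135) (nat_lit 5) (nat_lit 136) (nat_lit 5) (nat_lit 627) (nat_lit 525) (nat_lit 408)) (XT.lf (nat_lit 0) (nat_lit 3207205579) (nat_lit 380) (nat_lit 1426088317) (nat_lit 76) (nat_lit 10420387764) (nat_lit 130) (nat_lit 5) (nat_lit 135) (nat_lit 5)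 (nat_lit 131) (nat_lit 5) (nat_lit 628) (nat_lit 525) (nat_lit 407))))) (XT.nd (nat_lit 312) (nat_lit 836) (nat_lit 0) (XT.nd (nat_lit 156) (nat_lit 380) (nat_lit 0) (XT.nd (nat_lit 78) (nat_lit 304) (nat_lit 0) (XT.lf (nat_lit 0) (nat_lit 7573466652) (nat_lit 380) (nat_lit 6625660277) (nat_lit 76) (nat_lit 1034759561) (nat_lit 126) (nat_lit 5) (nat_lit 131) (nat_lit 5) (nat_lit 127) (nat_lit 5) (nat_lit 629) (nat_lit 525) (nat_lit 406)) (XT.lf (nat_lit 0) (nat_lit 3427402815) (nat_lit 304) (nat_lit 8642894798) (nat_lit 380) (nat_lit 3346533436) (nat_lit 122) (nat_lit 5) (nat_lit 126) (nat_lit 5) (nat_lit 127) (nat_lit 5) (nat_lit 630) (nat_lit 525) (nat_lit 405))) (XT.nd (nat_lit 78) (nat_lit 304) (nat_lit 0) (XT.lf (nat_lit 0) (nat_lit 1065288832) (nat_lit 380) (nat_lit 1870242751) (nat_lit 76) (nat_lit 12667257067) (nat_lit 121) (nat_lit 5) (nat_lit 126) (nat_lit 5) (nat_lit 122) (nat_lit 5) (nat_lit 631) (nat_lit 525) (nat_lit 404)) (XT.lf (nat_lit 0)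 (nat_lit 5576097221) (nat_lit 380) (nat_lit 7300974598) (nat_lit 76) (nat_lit 2913840470) (nat_lit 117) (nat_lit 5) (nat_lit 122) (nat_lit 5) (nat_lit 118) (nat_lit 5) (nat_lit 632) (nat_lit 525) (nat_lit 403)))) (XT.nd (nat_lit 156) (nat_lit 608) (nat_lit 0) (XT.nd (nat_lit 78) (nat_lit 0) (nat_lit 0) (XT.lf (nat_lit 0) (nat_lit 3089759368) (nat_lit 228) (nat_lit 7120684595) (nat_lit 304) (nat_lit 5771688479) (nat_lit 114) (nat_lit 5) (nat_lit 117) (nat_lit 5) (nat_lit 118) (nat_lit 5) (nat_lit 633) (nat_lit 525) (nat_lit 402)) (XT.lf (nat_lit 0) (nat_lit 13756115359) (nat_lit 228) (nat_lit 1211709616) (nat_lit 304) (nat_lit 1208745550) (nat_lit 114) (nat_lit 5) (nat_lit 117) (nat_lit 5) (nat_lit 118) (nat_lit 5) (nat_lit 634) (nat_lit 525) (nat_lit 401))) (XT.nd (nat_lit 78) (nat_lit 228) (nat_lit 0) (XT.lf (nat_lit 0) (nat_lit 3467555131) (nat_lit 380) (nat_lit 8088614761) (nat_lit 76) (nat_lit 4816934796) (nat_lit 109) (nat_lit 5) (nat_lit 114) (nat_lit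 5) (nat_lit 110) (nat_lit 5) (nat_lit 635) (nat_lit 525) (nat_lit 400)) (XT.lf (nat_lit 0) (nat_lit 2650852692) (nat_lit 228) (nat_lit 5593624972) (nat_lit 304) (nat_lit 8328466901) (nat_lit 106) (nat_lit 5) (nat_lit 109) (nat_lit 5) (nat_lit 110) (nat_lit 5) (nat_lit 636) (nat_lit 525) (nat_lit 399))))))) (XT.nd (nat_lit 72774) (nat_lit 0) (nat_lit 47424) (XT.nd (nat_lit 546) (nat_lit 760) (nat_lit 0) (XT.nd (nat_lit 234) (nat_lit 608) (nat_lit 0) (XT.nd (nat_lit 78) (nat_lit 608) (nat_lit 0) (XT.lf (nat_lit 0) (nat_lit 13156505385) (nat_lit 304) (nat_lit 3095426915) (nat_lit 76) (nat_lit 524058044) (nat_lit 106) (nat_lit 5) (nat_lit 110) (nat_lit 5) (nat_lit 107) (nat_lit 5) (nat_lit 637) (nat_lit 525) (nat_lit 398)) (XT.nd (nat_lit 78) (nat_lit 228) (nat_lit 0) (XT.lf (nat_lit 0) (nat_lit 1239627323) (nat_lit 380) (nat_lit 9004727344) (nat_lit 76) (nat_lit 6737159593) (nat_lit 101) (nat_lit 5) (nat_lit 106) (nat_lit 5) (nat_lit 102) (nat_lit 5) (nat_lit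 638) (nat_lit 525) (nat_lit 397)) (XT.lf (nat_lit 0) (nat_lit 2094649158) (nat_lit 228) (nat_lit 4069516091) (nat_lit 304) (nat_lit 11026171153) (nat_lit 98) (nat_lit 5) (nat_lit 101) (nat_lit 5) (nat_lit 102) (nat_lit 5) (nat_lit 639) (nat_lit 525) (nat_lit 396)))) (XT.nd (nat_lit 156) (nat_lit 304) (nat_lit 0) (XT.nd (nat_lit 78) (nat_lit 304) (nat_lit 0) (XT.lf (nat_lit 0) (nat_lit 11244718006) (nat_lit 304) (nat_lit 3909382214) (nat_lit 76) (nat_lit 2248084691) (nat_lit 98) (nat_lit 5) (nat_lit 102) (nat_lit 5) (nat_lit 99) (nat_lit 5) (nat_lit 640) (nat_lit 525) (nat_lit 395)) (XT.lf (nat_lit 0) (nat_lit 7542761143) (nat_lit 304) (nat_lit 8942618685) (nat_lit 380) (nat_lit 1131721000) (nat_lit 94) (nat_lit 5) (nat_lit 98) (nat_lit 5) (nat_lit 99) (nat_lit 5) (nat_lit 641) (nat_lit 525) (nat_lit 394))) (XT.nd (nat_lit 78) (nat_lit 0) (nat_lit 0) (XT.lf (nat_lit 0) (nat_lit 1403551542) (nat_lit 228) (nat_lit 2556728936) (nat_lit 304) (nat_lit 13875153667)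 (nat_lit 90) (nat_lit 5) (nat_lit 93) (nat_lit 5) (nat_lit 94) (nat_lit 5) (nat_lit 642) (nat_lit 525) (nat_lit 393)) (XT.lf (nat_lit 0) (nat_lit 9215401426) (nat_lit 304) (nat_lit 4872819047) (nat_lit 76) (nat_lit 3968235751) (nat_lit 90) (nat_lit 5) (nat_lit 94) (nat_lit 5) (nat_lit 91) (nat_lit 5) (nat_lit 643) (nat_lit 525) (nat_lit 392))))) (XT.nd (nat_lit 234) (nat_lit 228) (nat_lit 0) (XT.nd (nat_lit 78) (nat_lit 304) (nat_lit 0) (XT.lf (nat_lit 0) (nat_lit 6962430176) (nat_lit 228) (nat_lit 7658347493) (nat_lit 304) (nat_lit 3660218385) (nat_lit 87) (nat_lit 5) (nat_lit 90) (nat_lit 5) (nat_lit 91) (nat_lit 5) (nat_lit 644) (nat_lit 525) (nat_lit 391)) (XT.nd (nat_lit 78) (nat_lit 0) (nat_lit 0) (XT.lf (nat_lit 0) (nat_lit 558213424) (nat_lit 228) (nat_lit 1064307061) (nat_lit 304) (nat_lit 16886903878) (nat_lit 83) (nat_lit 5) (nat_lit 86) (nat_lit 5) (nat_lit 87) (nat_lit 5) (nat_lit 645) (nat_lit 525) (nat_lit 390)) (XT.lf (nat_lit 0) (nat_lit 7058275107)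 (nat_lit 304) (nat_lit 6005921545) (nat_lit 76) (nat_lit 5675813625) (nat_lit 83) (nat_lit 5) (nat_lit 87) (nat_lit 5) (nat_lit 84) (nat_lit 5) (nat_lit 646) (nat_lit 525) (nat_lit 389)))) (XT.nd (nat_lit 71838) (nat_lit 0) (nat_lit 51072) (XT.nd (nat_lit 71760) (nat_lit 0) (nat_lit 51604) (XT.lf (nat_lit 0) (nat_lit 6223959462) (nat_lit 228) (nat_lit 6409684991) (nat_lit 304) (nat_lit 6340945803) (nat_lit 80) (nat_lit 5) (nat_lit 83) (nat_lit 5) (nat_lit 84) (nat_lit 5) (nat_lit 647) (nat_lit 525) (nat_lit 388)) (XT.lf (nat_lit 0) (nat_lit 1418614239) (nat_lit 532) (nat_lit 918346557) (nat_lit 532) (nat_lit 918346557) (nat_lit 759) (nat_lit 3) (nat_lit 766) (nat_lit 3) (nat_lit 766) (nat_lit 5) (nat_lit 526) (nat_lit 526) (nat_lit 508))) (XT.nd (nat_lit 78) (nat_lit 532) (nat_lit 0) (XT.lf (nat_lit 76) (nat_lit 1417292898) (nat_lit 0) (nat_lit 4085639957) (nat_lit 532) (nat_lit 1019768908) (nat_lit 760) (nat_lit 5) (nat_lit 759) (nat_lit 3) (nat_lit 766)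 (nat_lit 5) (nat_lit 527) (nat_lit 526) (nat_lit 507)) (XT.lf (nat_lit 0) (nat_lit 1607570048) (nat_lit 532) (nat_lit 1821123812) (nat_lit 608) (nat_lit 3107269184) (nat_lit 752) (nat_lit 5) (nat_lit 759) (nat_lit 3) (nat_lit 760) (nat_lit 5) (nat_lit 528) (nat_lit 526) (nat_lit 506)))))) (XT.nd (nat_lit 546) (nat_lit 2432) (nat_lit 0) (XT.nd (nat_lit 234) (nat_lit 608) (nat_lit 0) (XT.nd (nat_lit 78) (nat_lit 608) (nat_lit 0) (XT.lf (nat_lit 76) (nat_lit 1506000849) (nat_lit 0) (nat_lit 2709323065) (nat_lit 608) (nat_lit 2335207234) (nat_lit 753) (nat_lit 5) (nat_lit 752) (nat_lit 5) (nat_lit 760) (nat_lit 5) (nat_lit 529) (nat_lit 526) (nat_lit 505)) (XT.nd (nat_lit 78) (nat_lit 0) (nat_lit 0) (XT.lf (nat_lit 0) (nat_lit 250468327) (nat_lit 608) (nat_lit 1679398459) (nat_lit 684) (nat_lit 4636596403) (nat_lit 744) (nat_lit 5) (nat_lit 752) (nat_lit 5) (nat_lit 753) (nat_lit 5) (nat_lit 530) (nat_lit 526) (nat_lit 504)) (XT.lf (nat_lit 76) (nat_lit 1724389254)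 (nat_lit 0) (nat_lit 1077138645) (nat_lit 684) (nat_lit 3781984951) (nat_lit 745) (nat_lit 5) (nat_lit 744) (nat_lit 5) (nat_lit 753) (nat_lit 5) (nat_lit 531) (nat_lit 526) (nat_lit 503)))) (XT.nd (nat_lit 156) (nat_lit 0) (nat_lit 0) (XT.nd (nat_lit 78) (nat_lit 608) (nat_lit 0) (XT.lf (nat_lit 76) (nat_lit 5183455428) (nat_lit 0) (nat_lit 166205534) (nat_lit 684) (nat_lit 1252327842) (nat_lit 745) (nat_lit 5) (nat_lit 744) (nat_lit 5) (nat_lit 753) (nat_lit 5) (nat_lit 532) (nat_lit 526) (nat_lit 502)) (XT.lf (nat_lit 0) (nat_lit 1264888047) (nat_lit 684) (nat_lit 4553253935) (nat_lit 760) (nat_lit 803438329) (nat_lit 736) (nat_lit 5) (nat_lit 745) (nat_lit 5) (nat_lit 746) (nat_lit 5) (nat_lit 533) (nat_lit 526) (nat_lit 501))) (XT.nd (nat_lit 78) (nat_lit 0) (nat_lit 0) (XT.lf (nat_lit 0) (nat_lit 3763222434) (nat_lit 684) (nat_lit 1043623311) (nat_lit 760) (nat_lit 1835607467) (nat_lit 736) (nat_lit 5) (nat_lit 745) (nat_lit 5) (nat_lit 746) (nat_lit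 5) (nat_lit 534) (nat_lit 526) (nat_lit 500)) (XT.lf (nat_lit 76) (nat_lit 2533203079) (nat_lit 0) (nat_lit 3732850338) (nat_lit 760) (nat_lit 398605419) (nat_lit 737) (nat_lit 5) (nat_lit 736) (nat_lit 5) (nat_lit 746) (nat_lit 5) (nat_lit 535) (nat_lit 526) (nat_lit 499))))) (XT.nd (nat_lit 312) (nat_lit 836) (nat_lit 0) (XT.nd (nat_lit 156) (nat_lit 836) (nat_lit 0) (XT.nd (nat_lit 78) (nat_lit 0) (nat_lit 0) (XT.lf (nat_lit 0) (nat_lit 2049379239) (nat_lit 760) (nat_lit 542145132) (nat_lit 836) (nat_lit 4096598966) (nat_lit 726) (nat_lit 5) (nat_lit 736) (nat_lit 5) (nat_lit 737) (nat_lit 5) (nat_lit 536) (nat_lit 526) (nat_lit 498)) (XT.lf (nat_lit 76) (nat_lit 3121165344) (nat_lit 0) (nat_lit 1379947344) (nat_lit 836) (nat_lit 2211694741) (nat_lit 727) (nat_lit 5) (nat_lit 726) (nat_lit 5) (nat_lit 737) (nat_lit 5) (nat_lit 537) (nat_lit 526) (nat_lit 497))) (XT.nd (nat_lit 78) (nat_lit 0) (nat_lit 76) (XT.lf (nat_lit 76) (nat_lit 89979991) (nat_lit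 0) (nat_lit 115106895) (nat_lit 912) (nat_lit 6533976312) (nat_lit 716) (nat_lit 5) (nat_lit 715) (nat_lit 5) (nat_lit 727) (nat_lit 5) (nat_lit 538) (nat_lit 526) (nat_lit 496)) (XT.lf (nat_lit 0) (nat_lit 2613990392) (nat_lit 836) (nat_lit 2931600624) (nat_lit 912) (nat_lit 1220497869) (nat_lit 716) (nat_lit 5) (nat_lit 727) (nat_lit 5) (nat_lit 728) (nat_lit 5) (nat_lit 539) (nat_lit 526) (nat_lit 495)))) (XT.nd (nat_lit 156) (nat_lit 0) (nat_lit 0) (XT.nd (nat_lit 78) (nat_lit 912) (nat_lit 0) (XT.lf (nat_lit 76) (nat_lit 833416322) (nat_lit 0) (nat_lit 4186459089) (nat_lit 912) (nat_lit 1774808710) (nat_lit 717) (nat_lit 5) (nat_lit 716) (nat_lit 5) (nat_lit 728) (nat_lit 5) (nat_lit 540) (nat_lit 526) (nat_lit 494)) (XT.lf (nat_lit 0) (nat_lit 604441926) (nat_lit 912) (nat_lit 2151836936) (nat_lit 988) (nat_lit 4068234092) (nat_lit 704) (nat_lit 5) (nat_lit 716) (nat_lit 5) (nat_lit 717) (nat_lit 5) (nat_lit 541) (nat_lit 526) (nat_lit 493))) (XT.nd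 (nat_lit 78) (nat_lit 0) (nat_lit 76) (XT.lf (nat_lit 76) (nat_lit 1707659753) (nat_lit 0) (nat_lit 1255214975) (nat_lit 988) (nat_lit 3892726579) (nat_lit 705) (nat_lit 5) (nat_lit 704) (nat_lit 5) (nat_lit 717) (nat_lit 5) (nat_lit 542) (nat_lit 526) (nat_lit 492)) (XT.lf (nat_lit 0) (nat_lit 5330030485) (nat_lit 912) (nat_lit 1253139582) (nat_lit 76) (nat_lit 304914987) (nat_lit 705) (nat_lit 5) (nat_lit 717) (nat_lit 5) (nat_lit 706) (nat_lit 5) (nat_lit 543) (nat_lit 526) (nat_lit 491))))))))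
noncomputable def xc85 : XT := (XT.nd (nat_lit 2262) (nat_lit 13452) (nat_lit 0) (XT.nd (nat_lit 1092) (nat_lit 11704) (nat_lit 0) (XT.nd (nat_lit 546) (nat_lit 6992) (nat_lit 0) (XT.nd (nat_lit 234) (nat_lit 2356) (nat_lit 0) (XT.nd (nat_lit 78) (nat_lit 988) (nat_lit 0) (XT.lf (nat_lit 0) (nat_lit 784532312) (nat_lit 988) (nat_lit 4217160526) (nat_lit 76) (nat_lit 1919982875) (nat_lit 692) (nat_lit 5) (nat_lit 705) (nat_lit 5) (nat_lit 693) (nat_lit 5) (nat_lit 544) (nat_lit 526) (nat_lit 490)) (XT.nd (nat_lit 78) (nat_lit 988) (nat_lit 0) (XT.lf (nat_lit 0) (nat_lit 3108354079) (nat_lit 988) (nat_lit 245307931) (nat_lit 76) (nat_lit 3602969734) (nat_lit 692) (nat_lit 5) (nat_lit 705) (nat_lit 5) (nat_lit 693) (nat_lit 5) (nat_lit 545) (nat_lit 526) (nat_lit 489)) (XT.lf (nat_lit 0) (nat_lit 3819334058) (nat_lit 988) (nat_lit 1631920852) (nat_lit 1064) (nat_lit 1541584290) (nat_lit 679) (nat_lit 5) (nat_lit 692) (nat_lit 5) (nat_lit 693) (nat_lit 5) (nat_lit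 546) (nat_lit 526) (nat_lit 488)))) (XT.nd (nat_lit 156) (nat_lit 1216) (nat_lit 0) (XT.nd (nat_lit 78) (nat_lit 0) (nat_lit 0) (XT.lf (nat_lit 0) (nat_lit 757390695) (nat_lit 1140) (nat_lit 6123238280) (nat_lit 76) (nat_lit 149904926) (nat_lit 664) (nat_lit 5) (nat_lit 679) (nat_lit 5) (nat_lit 665) (nat_lit 5) (nat_lit 547) (nat_lit 526) (nat_lit 487)) (XT.lf (nat_lit 0) (nat_lit 3063079804) (nat_lit 1140) (nat_lit 2015043392) (nat_lit 76) (nat_lit 1991032079) (nat_lit 664) (nat_lit 5) (nat_lit 679) (nat_lit 5) (nat_lit 665) (nat_lit 5) (nat_lit 548) (nat_lit 526) (nat_lit 486))) (XT.nd (nat_lit 78) (nat_lit 76) (nat_lit 0) (XT.lf (nat_lit 0) (nat_lit 2166415291) (nat_lit 1140) (nat_lit 3212643793) (nat_lit 1216) (nat_lit 1730210489) (nat_lit 649) (nat_lit 5) (nat_lit 664) (nat_lit 5) (nat_lit 665) (nat_lit 5) (nat_lit 549) (nat_lit 526) (nat_lit 485)) (XT.lf (nat_lit 0) (nat_lit 547548759) (nat_lit 1216) (nat_lit 732754950) (nat_lit 76) (nat_lit 5870526945)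 (nat_lit 648) (nat_lit 5) (nat_lit 664) (nat_lit 5) (nat_lit 649) (nat_lit 5) (nat_lit 550) (nat_lit 526) (nat_lit 484))))) (XT.nd (nat_lit 234) (nat_lit 4408) (nat_lit 0) (XT.nd (nat_lit 78) (nat_lit 1368) (nat_lit 0) (XT.lf (nat_lit 0) (nat_lit 2827106909) (nat_lit 1292) (nat_lit 3638507635) (nat_lit 76) (nat_lit 727795245) (nat_lit 632) (nat_lit 5) (nat_lit 649) (nat_lit 5) (nat_lit 633) (nat_lit 5) (nat_lit 551) (nat_lit 526) (nat_lit 483)) (XT.nd (nat_lit 78) (nat_lit 76) (nat_lit 0) (XT.lf (nat_lit 0) (nat_lit 663921670) (nat_lit 1292) (nat_lit 4458347078) (nat_lit 1368) (nat_lit 2115175227) (nat_lit 615) (nat_lit 5) (nat_lit 632) (nat_lit 5) (nat_lit 633) (nat_lit 5) (nat_lit 552) (nat_lit 526) (nat_lit 482)) (XT.lf (nat_lit 0) (nat_lit 155829868) (nat_lit 1368) (nat_lit 2219648333) (nat_lit 76) (nat_lit 4907316149) (nat_lit 614) (nat_lit 5) (nat_lit 632) (nat_lit 5) (nat_lit 615) (nat_lit 5) (nat_lit 553) (nat_lit 526) (nat_lit 481)))) (XT.nd (nat_lit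 156) (nat_lit 3040) (nat_lit 0) (XT.nd (nat_lit 78) (nat_lit 0) (nat_lit 0) (XT.lf (nat_lit 0) (nat_lit 2198718594) (nat_lit 1368) (nat_lit 213095123) (nat_lit 1444) (nat_lit 4917604276) (nat_lit 596) (nat_lit 5) (nat_lit 614) (nat_lit 5) (nat_lit 615) (nat_lit 5) (nat_lit 554) (nat_lit 526) (nat_lit 480)) (XT.lf (nat_lit 0) (nat_lit 4695151236) (nat_lit 1444) (nat_lit 692312346) (nat_lit 76) (nat_lit 1989869281) (nat_lit 596) (nat_lit 5) (nat_lit 615) (nat_lit 5) (nat_lit 597) (nat_lit 5) (nat_lit 555) (nat_lit 526) (nat_lit 479))) (XT.nd (nat_lit 78) (nat_lit 1596) (nat_lit 0) (XT.lf (nat_lit 0) (nat_lit 3846485025) (nat_lit 1444) (nat_lit 3159255126) (nat_lit 1520) (nat_lit 420837553) (nat_lit 577) (nat_lit 5) (nat_lit 596) (nat_lit 5) (nat_lit 597) (nat_lit 5) (nat_lit 556) (nat_lit 526) (nat_lit 478)) (XT.lf (nat_lit 0) (nat_lit 971453274) (nat_lit 1520) (nat_lit 856073273) (nat_lit 1596) (nat_lit 5649708765) (nat_lit 556) (nat_lit 5) (nat_lit 576) (nat_lit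 5) (nat_lit 577) (nat_lit 5) (nat_lit 557) (nat_lit 526) (nat_lit 477)))))) (XT.nd (nat_lit 546) (nat_lit 4712) (nat_lit 0) (XT.nd (nat_lit 234) (nat_lit 5320) (nat_lit 0) (XT.nd (nat_lit 78) (nat_lit 1672) (nat_lit 0) (XT.lf (nat_lit 0) (nat_lit 4105316730) (nat_lit 1596) (nat_lit 1916921347) (nat_lit 76) (nat_lit 1506813659) (nat_lit 556) (nat_lit 5) (nat_lit 577) (nat_lit 5) (nat_lit 557) (nat_lit 5) (nat_lit 558) (nat_lit 526) (nat_lit 476)) (XT.nd (nat_lit 78) (nat_lit 76) (nat_lit 0) (XT.lf (nat_lit 0) (nat_lit 2756538685) (nat_lit 1596) (nat_lit 3652759760) (nat_lit 1672) (nat_lit 1172996439) (nat_lit 535) (nat_lit 5) (nat_lit 556) (nat_lit 5) (nat_lit 557) (nat_lit 5) (nat_lit 559) (nat_lit 526) (nat_lit 475)) (XT.lf (nat_lit 0) (nat_lit 1078365087) (nat_lit 1672) (nat_lit 132250776) (nat_lit 76) (nat_lit 6426437560) (nat_lit 534) (nat_lit 5) (nat_lit 556) (nat_lit 5) (nat_lit 535) (nat_lit 5) (nat_lit 560) (nat_lit 526) (nat_lit 474)))) (XT.nd (nat_lit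 156) (nat_lit 1900) (nat_lit 0) (XT.nd (nat_lit 78) (nat_lit 1748) (nat_lit 0) (XT.lf (nat_lit 0) (nat_lit 3356206848) (nat_lit 1748) (nat_lit 3030193713) (nat_lit 76) (nat_lit 1306411246) (nat_lit 512) (nat_lit 5) (nat_lit 535) (nat_lit 5) (nat_lit 513) (nat_lit 5) (nat_lit 561) (nat_lit 526) (nat_lit 473)) (XT.lf (nat_lit 0) (nat_lit 1783023866) (nat_lit 1748) (nat_lit 3875895380) (nat_lit 1824) (nat_lit 2091182712) (nat_lit 489) (nat_lit 5) (nat_lit 512) (nat_lit 5) (nat_lit 513) (nat_lit 5) (nat_lit 562) (nat_lit 526) (nat_lit 472))) (XT.nd (nat_lit 78) (nat_lit 1824) (nat_lit 0) (XT.lf (nat_lit 0) (nat_lit 176123020) (nat_lit 1824) (nat_lit 1114122128) (nat_lit 76) (nat_lit 6518677926) (nat_lit 488) (nat_lit 5) (nat_lit 512) (nat_lit 5) (nat_lit 489) (nat_lit 5) (nat_lit 563) (nat_lit 526) (nat_lit 471)) (XT.lf (nat_lit 0) (nat_lit 2454639174) (nat_lit 1900) (nat_lit 4043026536) (nat_lit 76) (nat_lit 1371103853) (nat_lit 464) (nat_lit 5) (nat_lit 489)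 (nat_lit 5) (nat_lit 465) (nat_lit 5) (nat_lit 564) (nat_lit 526) (nat_lit 470))))) (XT.nd (nat_lit 312) (nat_lit 1748) (nat_lit 0) (XT.nd (nat_lit 156) (nat_lit 1900) (nat_lit 0) (XT.nd (nat_lit 78) (nat_lit 0) (nat_lit 0) (XT.lf (nat_lit 0) (nat_lit 915295317) (nat_lit 1064) (nat_lit 3845923389) (nat_lit 1140) (nat_lit 3168947068) (nat_lit 450) (nat_lit 5) (nat_lit 464) (nat_lit 5) (nat_lit 465) (nat_lit 5) (nat_lit 565) (nat_lit 526) (nat_lit 469)) (XT.lf (nat_lit 0) (nat_lit 5989878614) (nat_lit 1064) (nat_lit 1112191948) (nat_lit 1140) (nat_lit 890959137) (nat_lit 450) (nat_lit 5) (nat_lit 464) (nat_lit 5) (nat_lit 465) (nat_lit 5) (nat_lit 566) (nat_lit 526) (nat_lit 468))) (XT.nd (nat_lit 78) (nat_lit 912) (nat_lit 0) (XT.lf (nat_lit 0) (nat_lit 1406548065) (nat_lit 988) (nat_lit 4965708507) (nat_lit 76) (nat_lit 1684855842) (nat_lit 437) (nat_lit 5) (nat_lit 450) (nat_lit 5) (nat_lit 438) (nat_lit 5) (nat_lit 567) (nat_lit 526) (nat_lit 467)) (XT.lf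 (nat_lit 0) (nat_lit 143316246) (nat_lit 912) (nat_lit 3578633861) (nat_lit 988) (nat_lit 4400733852) (nat_lit 425) (nat_lit 5) (nat_lit 437) (nat_lit 5) (nat_lit 438) (nat_lit 5) (nat_lit 568) (nat_lit 526) (nat_lit 466)))) (XT.nd (nat_lit 156) (nat_lit 836) (nat_lit 0) (XT.nd (nat_lit 78) (nat_lit 912) (nat_lit 0) (XT.lf (nat_lit 0) (nat_lit 5384079254) (nat_lit 912) (nat_lit 695438972) (nat_lit 988) (nat_lit 2110133953) (nat_lit 425) (nat_lit 5) (nat_lit 437) (nat_lit 5) (nat_lit 438) (nat_lit 5) (nat_lit 569) (nat_lit 526) (nat_lit 465)) (XT.lf (nat_lit 0) (nat_lit 217030583) (nat_lit 912) (nat_lit 5807992083) (nat_lit 76) (nat_lit 2233035620) (nat_lit 413) (nat_lit 5) (nat_lit 425) (nat_lit 5) (nat_lit 414) (nat_lit 5) (nat_lit 570) (nat_lit 526) (nat_lit 464))) (XT.nd (nat_lit 78) (nat_lit 836) (nat_lit 0) (XT.lf (nat_lit 0) (nat_lit 2549569885) (nat_lit 912) (nat_lit 535299738) (nat_lit 76) (nat_lit 5242944473) (nat_lit 413) (nat_lit 5) (nat_lit 425)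 (nat_lit 5) (nat_lit 414) (nat_lit 5) (nat_lit 571) (nat_lit 526) (nat_lit 463)) (XT.lf (nat_lit 0) (nat_lit 4869467728) (nat_lit 836) (nat_lit 55126342) (nat_lit 912) (nat_lit 3474456495) (nat_lit 402) (nat_lit 5) (nat_lit 413) (nat_lit 5) (nat_lit 414) (nat_lit 5) (nat_lit 572) (nat_lit 526) (nat_lit 462))))))) (XT.nd (nat_lit 1170) (nat_lit 5852) (nat_lit 0) (XT.nd (nat_lit 546) (nat_lit 3572) (nat_lit 0) (XT.nd (nat_lit 234) (nat_lit 2280) (nat_lit 0) (XT.nd (nat_lit 78) (nat_lit 912) (nat_lit 0) (XT.lf (nat_lit 0) (nat_lit 1885246357) (nat_lit 836) (nat_lit 5462103974) (nat_lit 912) (nat_lit 1124358977) (nat_lit 391) (nat_lit 5) (nat_lit 402) (nat_lit 5) (nat_lit 403) (nat_lit 5) (nat_lit 573) (nat_lit 526) (nat_lit 461)) (XT.nd (nat_lit 78) (nat_lit 836) (nat_lit 0) (XT.lf (nat_lit 0) (nat_lit 1245140865) (nat_lit 912) (nat_lit 1135832466) (nat_lit 76) (nat_lit 6164902867) (nat_lit 390) (nat_lit 5) (nat_lit 402) (nat_lit 5) (nat_lit 391) (nat_lit 5)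 (nat_lit 574) (nat_lit 526) (nat_lit 460)) (XT.lf (nat_lit 0) (nat_lit 3646542173) (nat_lit 912) (nat_lit 4189271077) (nat_lit 76) (nat_lit 785575256) (nat_lit 379) (nat_lit 5) (nat_lit 391) (nat_lit 5) (nat_lit 380) (nat_lit 5) (nat_lit 575) (nat_lit 526) (nat_lit 459)))) (XT.nd (nat_lit 156) (nat_lit 1520) (nat_lit 0) (XT.nd (nat_lit 78) (nat_lit 0) (nat_lit 0) (XT.lf (nat_lit 0) (nat_lit 1393429934) (nat_lit 760) (nat_lit 4701019211) (nat_lit 836) (nat_lit 2603994374) (nat_lit 369) (nat_lit 5) (nat_lit 379) (nat_lit 5) (nat_lit 380) (nat_lit 5) (nat_lit 576) (nat_lit 526) (nat_lit 458)) (XT.lf (nat_lit 0) (nat_lit 7107228096) (nat_lit 760) (nat_lit 1478612797) (nat_lit 836) (nat_lit 191310179) (nat_lit 369) (nat_lit 5) (nat_lit 379) (nat_lit 5) (nat_lit 380) (nat_lit 5) (nat_lit 577) (nat_lit 526) (nat_lit 457))) (XT.nd (nat_lit 78) (nat_lit 684) (nat_lit 0) (XT.lf (nat_lit 0) (nat_lit 2245189430) (nat_lit 836) (nat_lit 4789676809) (nat_lit 76) (nat_lit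 1822167149) (nat_lit 358) (nat_lit 5) (nat_lit 369) (nat_lit 5) (nat_lit 359) (nat_lit 5) (nat_lit 578) (nat_lit 526) (nat_lit 456)) (XT.lf (nat_lit 0) (nat_lit 967848877) (nat_lit 684) (nat_lit 3754604726) (nat_lit 760) (nat_lit 4216144391) (nat_lit 349) (nat_lit 5) (nat_lit 358) (nat_lit 5) (nat_lit 359) (nat_lit 5) (nat_lit 579) (nat_lit 526) (nat_lit 455))))) (XT.nd (nat_lit 312) (nat_lit 2052) (nat_lit 0) (XT.nd (nat_lit 156) (nat_lit 684) (nat_lit 0) (XT.nd (nat_lit 78) (nat_lit 836) (nat_lit 0) (XT.lf (nat_lit 0) (nat_lit 6868256651) (nat_lit 684) (nat_lit 380786070) (nat_lit 760) (nat_lit 1772757400) (nat_lit 349) (nat_lit 5) (nat_lit 358) (nat_lit 5) (nat_lit 359) (nat_lit 5) (nat_lit 580) (nat_lit 526) (nat_lit 454)) (XT.lf (nat_lit 0) (nat_lit 722749615) (nat_lit 836) (nat_lit 5338627894) (nat_lit 76) (nat_lit 3044943332) (nat_lit 338) (nat_lit 5) (nat_lit 349) (nat_lit 5) (nat_lit 339) (nat_lit 5) (nat_lit 581) (nat_lit 526) (nat_lit 453))) (XT.nd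 (nat_lit 78) (nat_lit 0) (nat_lit 0) (XT.lf (nat_lit 0) (nat_lit 600574452) (nat_lit 684) (nat_lit 2633261778) (nat_lit 760) (nat_lit 5958674971) (nat_lit 329) (nat_lit 5) (nat_lit 338) (nat_lit 5) (nat_lit 339) (nat_lit 5) (nat_lit 582) (nat_lit 526) (nat_lit 452)) (XT.lf (nat_lit 0) (nat_lit 5805570392) (nat_lit 760) (nat_lit 2592215326) (nat_lit 76) (nat_lit 882432818) (nat_lit 329) (nat_lit 5) (nat_lit 339) (nat_lit 5) (nat_lit 330) (nat_lit 5) (nat_lit 583) (nat_lit 526) (nat_lit 451)))) (XT.nd (nat_lit 156) (nat_lit 684) (nat_lit 0) (XT.nd (nat_lit 78) (nat_lit 684) (nat_lit 0) (XT.lf (nat_lit 0) (nat_lit 3519365200) (nat_lit 684) (nat_lit 4919033191) (nat_lit 760) (nat_lit 931090093) (nat_lit 320) (nat_lit 5) (nat_lit 329) (nat_lit 5) (nat_lit 330) (nat_lit 5) (nat_lit 584) (nat_lit 526) (nat_lit 450)) (XT.lf (nat_lit 0) (nat_lit 283910750) (nat_lit 608) (nat_lit 1346498162) (nat_lit 684) (nat_lit 7830142820) (nat_lit 311) (nat_lit 5) (nat_lit 319)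 (nat_lit 5) (nat_lit 320) (nat_lit 5) (nat_lit 585) (nat_lit 526) (nat_lit 449))) (XT.nd (nat_lit 78) (nat_lit 684) (nat_lit 0) (XT.lf (nat_lit 0) (nat_lit 4254962982) (nat_lit 684) (nat_lit 2991403241) (nat_lit 76) (nat_lit 2306462642) (nat_lit 311) (nat_lit 5) (nat_lit 320) (nat_lit 5) (nat_lit 312) (nat_lit 5) (nat_lit 586) (nat_lit 526) (nat_lit 448)) (XT.lf (nat_lit 0) (nat_lit 3315502903) (nat_lit 684) (nat_lit 3617386644) (nat_lit 760) (nat_lit 2714045887) (nat_lit 302) (nat_lit 5) (nat_lit 311) (nat_lit 5) (nat_lit 312) (nat_lit 5) (nat_lit 587) (nat_lit 526) (nat_lit 447)))))) (XT.nd (nat_lit 546) (nat_lit 3268) (nat_lit 0) (XT.nd (nat_lit 234) (nat_lit 1292) (nat_lit 0) (XT.nd (nat_lit 78) (nat_lit 684) (nat_lit 0) (XT.lf (nat_lit 0) (nat_lit 9112591) (nat_lit 608) (nat_lit 9646809508) (nat_lit 684) (nat_lit 87172584) (nat_lit 294) (nat_lit 5) (nat_lit 302) (nat_lit 5) (nat_lit 303) (nat_lit 5) (nat_lit 588) (nat_lit 526) (nat_lit 446)) (XT.nd (nat_lit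 78) (nat_lit 608) (nat_lit 0) (XT.lf (nat_lit 0) (nat_lit 2595843073) (nat_lit 684) (nat_lit 3356149557) (nat_lit 76) (nat_lit 3888097261) (nat_lit 293) (nat_lit 5) (nat_lit 302) (nat_lit 5) (nat_lit 294) (nat_lit 5) (nat_lit 589) (nat_lit 526) (nat_lit 445)) (XT.lf (nat_lit 0) (nat_lit 3153703189) (nat_lit 608) (nat_lit 2169574400) (nat_lit 684) (nat_lit 4615898784) (nat_lit 285) (nat_lit 5) (nat_lit 293) (nat_lit 5) (nat_lit 294) (nat_lit 5) (nat_lit 590) (nat_lit 526) (nat_lit 444)))) (XT.nd (nat_lit 156) (nat_lit 608) (nat_lit 0) (XT.nd (nat_lit 78) (nat_lit 684) (nat_lit 0) (XT.lf (nat_lit 0) (nat_lit 8110617607) (nat_lit 684) (nat_lit 248256093) (nat_lit 76) (nat_lit 1681265129) (nat_lit 285) (nat_lit 5) (nat_lit 294) (nat_lit 5) (nat_lit 286) (nat_lit 5) (nat_lit 591) (nat_lit 526) (nat_lit 443)) (XT.lf (nat_lit 0) (nat_lit 828690810) (nat_lit 684) (nat_lit 3693897636) (nat_lit 76) (nat_lit 5619853402) (nat_lit 276) (nat_lit 5) (nat_lit 285) (nat_lit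 5) (nat_lit 277) (nat_lit 5) (nat_lit 592) (nat_lit 526) (nat_lit 442))) (XT.nd (nat_lit 78) (nat_lit 0) (nat_lit 0) (XT.lf (nat_lit 0) (nat_lit 3026784766) (nat_lit 608) (nat_lit 583206123) (nat_lit 684) (nat_lit 6636671054) (nat_lit 268) (nat_lit 5) (nat_lit 276) (nat_lit 5) (nat_lit 277) (nat_lit 5) (nat_lit 593) (nat_lit 526) (nat_lit 441)) (XT.lf (nat_lit 0) (nat_lit 6466831926) (nat_lit 684) (nat_lit 479250091) (nat_lit 76) (nat_lit 3406487402) (nat_lit 268) (nat_lit 5) (nat_lit 277) (nat_lit 5) (nat_lit 269) (nat_lit 5) (nat_lit 594) (nat_lit 526) (nat_lit 440))))) (XT.nd (nat_lit 312) (nat_lit 1596) (nat_lit 0) (XT.nd (nat_lit 156) (nat_lit 532) (nat_lit 0) (XT.nd (nat_lit 78) (nat_lit 608) (nat_lit 0) (XT.lf (nat_lit 0) (nat_lit 6441250741) (nat_lit 532) (nat_lit 2958439004) (nat_lit 608) (nat_lit 1060528949) (nat_lit 261) (nat_lit 5) (nat_lit 268) (nat_lit 5) (nat_lit 269) (nat_lit 5) (nat_lit 595) (nat_lit 526) (nat_lit 439)) (XT.lf (nat_lit 0)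 (nat_lit 1800227282) (nat_lit 608) (nat_lit 7649666981) (nat_lit 76) (nat_lit 1119832836) (nat_lit 253) (nat_lit 5) (nat_lit 261) (nat_lit 5) (nat_lit 254) (nat_lit 5) (nat_lit 596) (nat_lit 526) (nat_lit 438))) (XT.nd (nat_lit 78) (nat_lit 532) (nat_lit 0) (XT.lf (nat_lit 0) (nat_lit 4724302342) (nat_lit 608) (nat_lit 691245728) (nat_lit 76) (nat_lit 5265332494) (nat_lit 253) (nat_lit 5) (nat_lit 261) (nat_lit 5) (nat_lit 254) (nat_lit 5) (nat_lit 597) (nat_lit 526) (nat_lit 437)) (XT.lf (nat_lit 0) (nat_lit 6455805074) (nat_lit 532) (nat_lit 1267038418) (nat_lit 608) (nat_lit 3071095071) (nat_lit 246) (nat_lit 5) (nat_lit 253) (nat_lit 5) (nat_lit 254) (nat_lit 5) (nat_lit 598) (nat_lit 526) (nat_lit 436)))) (XT.nd (nat_lit 156) (nat_lit 988) (nat_lit 0) (XT.nd (nat_lit 78) (nat_lit 76) (nat_lit 0) (XT.lf (nat_lit 0) (nat_lit 2828389098) (nat_lit 532) (nat_lit 7969536628) (nat_lit 608) (nat_lit 111001723) (nat_lit 239) (nat_lit 5) (nat_lit 246) (nat_lit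 5) (nat_lit 247) (nat_lit 5) (nat_lit 599) (nat_lit 526) (nat_lit 435)) (XT.lf (nat_lit 0) (nat_lit 2882241711) (nat_lit 608) (nat_lit 891591670) (nat_lit 76) (nat_lit 7251764350) (nat_lit 238) (nat_lit 5) (nat_lit 246) (nat_lit 5) (nat_lit 239) (nat_lit 5) (nat_lit 600) (nat_lit 526) (nat_lit 434))) (XT.nd (nat_lit 78) (nat_lit 532) (nat_lit 0) (XT.lf (nat_lit 0) (nat_lit 5954409641) (nat_lit 532) (nat_lit 4657067554) (nat_lit 76) (nat_lit 532699697) (nat_lit 232) (nat_lit 5) (nat_lit 239) (nat_lit 5) (nat_lit 233) (nat_lit 5) (nat_lit 601) (nat_lit 526) (nat_lit 433)) (XT.lf (nat_lit 0) (nat_lit 2736270611) (nat_lit 532) (nat_lit 6375633053) (nat_lit 608) (nat_lit 2152747365) (nat_lit 225) (nat_lit 5) (nat_lit 232) (nat_lit 5) (nat_lit 233) (nat_lit 5) (nat_lit 602) (nat_lit 526) (nat_lit 432))))))))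
noncomputable def xc86 : XT := (XT.nd (nat_lit 2262) (nat_lit 2964) (nat_lit 0) (XT.nd (nat_lit 1092) (nat_lit 3724) (nat_lit 0) (XT.nd (nat_lit 546) (nat_lit 2128) (nat_lit 0) (XT.nd (nat_lit 234) (nat_lit 988) (nat_lit 0) (XT.nd (nat_lit 78) (nat_lit 912) (nat_lit 0) (XT.lf (nat_lit 0) (nat_lit 939277330) (nat_lit 608) (nat_lit 1087795256) (nat_lit 76) (nat_lit 9360207188) (nat_lit 224) (nat_lit 5) (nat_lit 232) (nat_lit 5) (nat_lit 225) (nat_lit 5) (nat_lit 603) (nat_lit 526) (nat_lit 431)) (XT.nd (nat_lit 78) (nat_lit 456) (nat_lit 0) (XT.lf (nat_lit 0) (nat_lit 4098430766) (nat_lit 532) (nat_lit 4989017882) (nat_lit 76) (nat_lit 2423946568) (nat_lit 218) (nat_lit 5) (nat_lit 225) (nat_lit 5) (nat_lit 219) (nat_lit 5) (nat_lit 604) (nat_lit 526) (nat_lit 430)) (XT.lf (nat_lit 0) (nat_lit 2648264948) (nat_lit 456) (nat_lit 4686343772) (nat_lit 532) (nat_lit 4303108385) (nat_lit 212) (nat_lit 5) (nat_lit 218) (nat_lit 5) (nat_lit 219) (nat_lit 5) (nat_lit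 605) (nat_lit 526) (nat_lit 429)))) (XT.nd (nat_lit 156) (nat_lit 456) (nat_lit 0) (XT.nd (nat_lit 78) (nat_lit 532) (nat_lit 0) (XT.lf (nat_lit 0) (nat_lit 10471502211) (nat_lit 456) (nat_lit 173611346) (nat_lit 532) (nat_lit 1121260757) (nat_lit 212) (nat_lit 5) (nat_lit 218) (nat_lit 5) (nat_lit 219) (nat_lit 5) (nat_lit 606) (nat_lit 526) (nat_lit 428)) (XT.lf (nat_lit 0) (nat_lit 2144666930) (nat_lit 532) (nat_lit 5333802267) (nat_lit 76) (nat_lit 4417894490) (nat_lit 205) (nat_lit 5) (nat_lit 212) (nat_lit 5) (nat_lit 206) (nat_lit 5) (nat_lit 607) (nat_lit 526) (nat_lit 427))) (XT.nd (nat_lit 78) (nat_lit 0) (nat_lit 0) (XT.lf (nat_lit 0) (nat_lit 2556581201) (nat_lit 456) (nat_lit 2907438610) (nat_lit 532) (nat_lit 6564723293) (nat_lit 199) (nat_lit 5) (nat_lit 205) (nat_lit 5) (nat_lit 206) (nat_lit 5) (nat_lit 608) (nat_lit 526) (nat_lit 426)) (XT.lf (nat_lit 0) (nat_lit 8873962145) (nat_lit 532) (nat_lit 1532013621) (nat_lit 76) (nat_lit 1757311171)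 (nat_lit 199) (nat_lit 5) (nat_lit 206) (nat_lit 5) (nat_lit 200) (nat_lit 5) (nat_lit 609) (nat_lit 526) (nat_lit 425))))) (XT.nd (nat_lit 234) (nat_lit 1216) (nat_lit 0) (XT.nd (nat_lit 78) (nat_lit 456) (nat_lit 0) (XT.lf (nat_lit 0) (nat_lit 90507779) (nat_lit 456) (nat_lit 5699807496) (nat_lit 76) (nat_lit 6509408463) (nat_lit 193) (nat_lit 5) (nat_lit 199) (nat_lit 5) (nat_lit 194) (nat_lit 5) (nat_lit 610) (nat_lit 526) (nat_lit 424)) (XT.nd (nat_lit 78) (nat_lit 0) (nat_lit 0) (XT.lf (nat_lit 0) (nat_lit 2453081833) (nat_lit 456) (nat_lit 1044440163) (nat_lit 532) (nat_lit 8940860675) (nat_lit 187) (nat_lit 5) (nat_lit 193) (nat_lit 5) (nat_lit 194) (nat_lit 5) (nat_lit 611) (nat_lit 526) (nat_lit 423)) (XT.lf (nat_lit 0) (nat_lit 7013293680) (nat_lit 532) (nat_lit 1791622578) (nat_lit 76) (nat_lit 3774086990) (nat_lit 187) (nat_lit 5) (nat_lit 194) (nat_lit 5) (nat_lit 188) (nat_lit 5) (nat_lit 612) (nat_lit 526) (nat_lit 422)))) (XT.nd (nat_lit 156)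 (nat_lit 380) (nat_lit 0) (XT.nd (nat_lit 78) (nat_lit 456) (nat_lit 0) (XT.lf (nat_lit 0) (nat_lit 6612439317) (nat_lit 380) (nat_lit 4014699206) (nat_lit 456) (nat_lit 2094743353) (nat_lit 182) (nat_lit 5) (nat_lit 187) (nat_lit 5) (nat_lit 188) (nat_lit 5) (nat_lit 613) (nat_lit 526) (nat_lit 421)) (XT.lf (nat_lit 0) (nat_lit 1437714704) (nat_lit 456) (nat_lit 10543950746) (nat_lit 76) (nat_lit 885545020) (nat_lit 176) (nat_lit 5) (nat_lit 182) (nat_lit 5) (nat_lit 177) (nat_lit 5) (nat_lit 614) (nat_lit 526) (nat_lit 420))) (XT.nd (nat_lit 78) (nat_lit 380) (nat_lit 0) (XT.lf (nat_lit 0) (nat_lit 5058780180) (nat_lit 456) (nat_lit 2081440242) (nat_lit 76) (nat_lit 5874028899) (nat_lit 176) (nat_lit 5) (nat_lit 182) (nat_lit 5) (nat_lit 177) (nat_lit 5) (nat_lit 615) (nat_lit 526) (nat_lit 419)) (XT.lf (nat_lit 0) (nat_lit 6604076949) (nat_lit 380) (nat_lit 2169621159) (nat_lit 456) (nat_lit 4390102950) (nat_lit 171) (nat_lit 5) (nat_lit 176) (nat_lit 5)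 (nat_lit 177) (nat_lit 5) (nat_lit 616) (nat_lit 526) (nat_lit 418)))))) (XT.nd (nat_lit 546) (nat_lit 1748) (nat_lit 0) (XT.nd (nat_lit 234) (nat_lit 1140) (nat_lit 0) (XT.nd (nat_lit 78) (nat_lit 456) (nat_lit 0) (XT.lf (nat_lit 0) (nat_lit 2151758958) (nat_lit 380) (nat_lit 10436705062) (nat_lit 456) (nat_lit 727369537) (nat_lit 166) (nat_lit 5) (nat_lit 171) (nat_lit 5) (nat_lit 172) (nat_lit 5) (nat_lit 617) (nat_lit 526) (nat_lit 417)) (XT.nd (nat_lit 78) (nat_lit 380) (nat_lit 0) (XT.lf (nat_lit 0) (nat_lit 3006591314) (nat_lit 456) (nat_lit 2410888135) (nat_lit 76) (nat_lit 8052288642) (nat_lit 165) (nat_lit 5) (nat_lit 171) (nat_lit 5) (nat_lit 166) (nat_lit 5) (nat_lit 618) (nat_lit 526) (nat_lit 416)) (XT.lf (nat_lit 0) (nat_lit 6566252357) (nat_lit 380) (nat_lit 261050013) (nat_lit 456) (nat_lit 6798947256) (nat_lit 160) (nat_lit 5) (nat_lit 165) (nat_lit 5) (nat_lit 166) (nat_lit 5) (nat_lit 619) (nat_lit 526) (nat_lit 415)))) (XT.nd (nat_lit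 156) (nat_lit 684) (nat_lit 0) (XT.nd (nat_lit 78) (nat_lit 76) (nat_lit 0) (XT.lf (nat_lit 0) (nat_lit 1930298857) (nat_lit 380) (nat_lit 8834693883) (nat_lit 456) (nat_lit 3020057412) (nat_lit 155) (nat_lit 5) (nat_lit 160) (nat_lit 5) (nat_lit 161) (nat_lit 5) (nat_lit 620) (nat_lit 526) (nat_lit 414)) (XT.lf (nat_lit 0) (nat_lit 852238548) (nat_lit 456) (nat_lit 2790034467) (nat_lit 76) (nat_lit 10304070527) (nat_lit 154) (nat_lit 5) (nat_lit 160) (nat_lit 5) (nat_lit 155) (nat_lit 5) (nat_lit 621) (nat_lit 526) (nat_lit 413))) (XT.nd (nat_lit 78) (nat_lit 380) (nat_lit 0) (XT.lf (nat_lit 0) (nat_lit 4794543365) (nat_lit 380) (nat_lit 7631974601) (nat_lit 76) (nat_lit 1683286176) (nat_lit 150) (nat_lit 5) (nat_lit 155) (nat_lit 5) (nat_lit 151) (nat_lit 5) (nat_lit 622) (nat_lit 526) (nat_lit 412)) (XT.lf (nat_lit 0) (nat_lit 1658140232) (nat_lit 380) (nat_lit 7191159997) (nat_lit 456) (nat_lit 5426562221) (nat_lit 145) (nat_lit 5) (nat_lit 150) (nat_lit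 5) (nat_lit 151) (nat_lit 5) (nat_lit 623) (nat_lit 526) (nat_lit 411))))) (XT.nd (nat_lit 312) (nat_lit 988) (nat_lit 0) (XT.nd (nat_lit 156) (nat_lit 380) (nat_lit 0) (XT.nd (nat_lit 78) (nat_lit 380) (nat_lit 0) (XT.lf (nat_lit 0) (nat_lit 11205649240) (nat_lit 380) (nat_lit 1810777945) (nat_lit 456) (nat_lit 1428189839) (nat_lit 145) (nat_lit 5) (nat_lit 150) (nat_lit 5) (nat_lit 151) (nat_lit 5) (nat_lit 624) (nat_lit 526) (nat_lit 410)) (XT.lf (nat_lit 0) (nat_lit 2661206723) (nat_lit 380) (nat_lit 8278059898) (nat_lit 76) (nat_lit 3676220239) (nat_lit 140) (nat_lit 5) (nat_lit 145) (nat_lit 5) (nat_lit 141) (nat_lit 5) (nat_lit 625) (nat_lit 526) (nat_lit 409))) (XT.nd (nat_lit 78) (nat_lit 0) (nat_lit 0) (XT.lf (nat_lit 0) (nat_lit 1324081201) (nat_lit 380) (nat_lit 5512099693) (nat_lit 456) (nat_lit 7952946695) (nat_lit 135) (nat_lit 5) (nat_lit 140) (nat_lit 5) (nat_lit 141) (nat_lit 5) (nat_lit 626) (nat_lit 526) (nat_lit 408)) (XT.lf (nat_lit 0)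 (nat_lit 11131255268) (nat_lit 456) (nat_lit 3766883015) (nat_lit 76) (nat_lit 67371392) (nat_lit 135) (nat_lit 5) (nat_lit 141) (nat_lit 5) (nat_lit 136) (nat_lit 5) (nat_lit 627) (nat_lit 526) (nat_lit 407)))) (XT.nd (nat_lit 156) (nat_lit 304) (nat_lit 0) (XT.nd (nat_lit 78) (nat_lit 304) (nat_lit 0) (XT.lf (nat_lit 0) (nat_lit 419647776) (nat_lit 380) (nat_lit 9008879132) (nat_lit 76) (nat_lit 5715692460) (nat_lit 130) (nat_lit 5) (nat_lit 135) (nat_lit 5) (nat_lit 131) (nat_lit 5) (nat_lit 628) (nat_lit 526) (nat_lit 406)) (XT.lf (nat_lit 0) (nat_lit 915989462) (nat_lit 304) (nat_lit 3803697418) (nat_lit 380) (nat_lit 10606062017) (nat_lit 126) (nat_lit 5) (nat_lit 130) (nat_lit 5) (nat_lit 131) (nat_lit 5) (nat_lit 629) (nat_lit 526) (nat_lit 405))) (XT.nd (nat_lit 78) (nat_lit 304) (nat_lit 0) (XT.lf (nat_lit 0) (nat_lit 9160189228) (nat_lit 380) (nat_lit 4392411694) (nat_lit 76) (nat_lit 1957219359) (nat_lit 126) (nat_lit 5) (nat_lit 131) (nat_lit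 5) (nat_lit 127) (nat_lit 5) (nat_lit 630) (nat_lit 526) (nat_lit 404)) (XT.lf (nat_lit 0) (nat_lit 5846148438) (nat_lit 304) (nat_lit 7887925191) (nat_lit 380) (nat_lit 1962608528) (nat_lit 122) (nat_lit 5) (nat_lit 126) (nat_lit 5) (nat_lit 127) (nat_lit 5) (nat_lit 631) (nat_lit 526) (nat_lit 403))))))) (XT.nd (nat_lit 1170) (nat_lit 0) (nat_lit 0) (XT.nd (nat_lit 546) (nat_lit 1748) (nat_lit 0) (XT.nd (nat_lit 234) (nat_lit 608) (nat_lit 0) (XT.nd (nat_lit 78) (nat_lit 228) (nat_lit 0) (XT.lf (nat_lit 0) (nat_lit 420676666) (nat_lit 304) (nat_lit 2072401554) (nat_lit 380) (nat_lit 13393599899) (nat_lit 117) (nat_lit 5) (nat_lit 121) (nat_lit 5) (nat_lit 122) (nat_lit 5) (nat_lit 632) (nat_lit 526) (nat_lit 402)) (XT.nd (nat_lit 78) (nat_lit 228) (nat_lit 0) (XT.lf (nat_lit 0) (nat_lit 7084778225) (nat_lit 380) (nat_lit 5117557913) (nat_lit 76) (nat_lit 3876415302) (nat_lit 117) (nat_lit 5) (nat_lit 122) (nat_lit 5) (nat_lit 118) (nat_lit 5) (nat_lit 633)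 (nat_lit 526) (nat_lit 401)) (XT.lf (nat_lit 0) (nat_lit 5465665494) (nat_lit 228) (nat_lit 6333775875) (nat_lit 304) (nat_lit 4474602742) (nat_lit 114) (nat_lit 5) (nat_lit 117) (nat_lit 5) (nat_lit 118) (nat_lit 5) (nat_lit 634) (nat_lit 526) (nat_lit 400)))) (XT.nd (nat_lit 156) (nat_lit 228) (nat_lit 0) (XT.nd (nat_lit 78) (nat_lit 304) (nat_lit 0) (XT.lf (nat_lit 0) (nat_lit 149910354) (nat_lit 304) (nat_lit 173927072) (nat_lit 76) (nat_lit 16149057549) (nat_lit 113) (nat_lit 5) (nat_lit 117) (nat_lit 5) (nat_lit 114) (nat_lit 5) (nat_lit 635) (nat_lit 526) (nat_lit 399)) (XT.lf (nat_lit 0) (nat_lit 4897475941) (nat_lit 380) (nat_lit 5957330482) (nat_lit 76) (nat_lit 5818515785) (nat_lit 109) (nat_lit 5) (nat_lit 114) (nat_lit 5) (nat_lit 110) (nat_lit 5) (nat_lit 636) (nat_lit 526) (nat_lit 398))) (XT.nd (nat_lit 78) (nat_lit 0) (nat_lit 0) (XT.lf (nat_lit 0) (nat_lit 4981840422) (nat_lit 228) (nat_lit 4776208763) (nat_lit 304) (nat_lit 7119348105) (nat_lit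 106) (nat_lit 5) (nat_lit 109) (nat_lit 5) (nat_lit 110) (nat_lit 5) (nat_lit 637) (nat_lit 526) (nat_lit 397)) (XT.lf (nat_lit 0) (nat_lit 14747787969) (nat_lit 304) (nat_lit 903469488) (nat_lit 76) (nat_lit 1433657754) (nat_lit 106) (nat_lit 5) (nat_lit 110) (nat_lit 5) (nat_lit 107) (nat_lit 5) (nat_lit 638) (nat_lit 526) (nat_lit 396))))) (XT.nd (nat_lit 312) (nat_lit 760) (nat_lit 0) (XT.nd (nat_lit 156) (nat_lit 380) (nat_lit 0) (XT.nd (nat_lit 78) (nat_lit 228) (nat_lit 0) (XT.lf (nat_lit 0) (nat_lit 2589817834) (nat_lit 380) (nat_lit 6928139497) (nat_lit 76) (nat_lit 7776648601) (nat_lit 101) (nat_lit 5) (nat_lit 106) (nat_lit 5) (nat_lit 102) (nat_lit 5) (nat_lit 639) (nat_lit 526) (nat_lit 395)) (XT.lf (nat_lit 0) (nat_lit 4378377940) (nat_lit 228) (nat_lit 3223035869) (nat_lit 304) (nat_lit 9906419965) (nat_lit 98) (nat_lit 5) (nat_lit 101) (nat_lit 5) (nat_lit 102) (nat_lit 5) (nat_lit 640) (nat_lit 526) (nat_lit 394))) (XT.nd (nat_lit 78) (nat_lit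 380) (nat_lit 0) (XT.lf (nat_lit 0) (nat_lit 12763719823) (nat_lit 304) (nat_lit 1769804364) (nat_lit 76) (nat_lit 3190792811) (nat_lit 98) (nat_lit 5) (nat_lit 102) (nat_lit 5) (nat_lit 99) (nat_lit 5) (nat_lit 641) (nat_lit 526) (nat_lit 393)) (XT.lf (nat_lit 0) (nat_lit 152346873) (nat_lit 380) (nat_lit 8047964201) (nat_lit 76) (nat_lit 9743422096) (nat_lit 93) (nat_lit 5) (nat_lit 98) (nat_lit 5) (nat_lit 94) (nat_lit 5) (nat_lit 642) (nat_lit 526) (nat_lit 392)))) (XT.nd (nat_lit 156) (nat_lit 532) (nat_lit 0) (XT.nd (nat_lit 78) (nat_lit 0) (nat_lit 0) (XT.lf (nat_lit 0) (nat_lit 3637382330) (nat_lit 228) (nat_lit 1682662968) (nat_lit 304) (nat_lit 12846458582) (nat_lit 90) (nat_lit 5) (nat_lit 93) (nat_lit 5) (nat_lit 94) (nat_lit 5) (nat_lit 643) (nat_lit 526) (nat_lit 391)) (XT.lf (nat_lit 0) (nat_lit 10661048893) (nat_lit 304) (nat_lit 2788518870) (nat_lit 76) (nat_lit 4942763579) (nat_lit 90) (nat_lit 5) (nat_lit 94) (nat_lit 5) (nat_lit 91) (nat_lit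 5) (nat_lit 644) (nat_lit 526) (nat_lit 390))) (XT.nd (nat_lit 78) (nat_lit 304) (nat_lit 0) (XT.lf (nat_lit 0) (nat_lit 9269081675) (nat_lit 228) (nat_lit 6894791056) (nat_lit 304) (nat_lit 2457702969) (nat_lit 87) (nat_lit 5) (nat_lit 90) (nat_lit 5) (nat_lit 91) (nat_lit 5) (nat_lit 645) (nat_lit 526) (nat_lit 389)) (XT.lf (nat_lit 0) (nat_lit 2739168569) (nat_lit 228) (nat_lit 164192489) (nat_lit 304) (nat_lit 15951258342) (nat_lit 83) (nat_lit 5) (nat_lit 86) (nat_lit 5) (nat_lit 87) (nat_lit 5) (nat_lit 646) (nat_lit 526) (nat_lit 388)))))) (XT.nd (nat_lit 72306) (nat_lit 0) (nat_lit 47120) (XT.nd (nat_lit 71994) (nat_lit 0) (nat_lit 49552) (XT.nd (nat_lit 71838) (nat_lit 0) (nat_lit 50844) (XT.lf (nat_lit 0) (nat_lit 8429217577) (nat_lit 304) (nat_lit 3980155679) (nat_lit 76) (nat_lit 6680816542) (nat_lit 83) (nat_lit 5) (nat_lit 87) (nat_lit 5) (nat_lit 84) (nat_lit 5) (nat_lit 647) (nat_lit 526) (nat_lit 387)) (XT.nd (nat_lit 78) (nat_lit 0) (nat_lit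 0) (XT.lf (nat_lit 0) (nat_lit 392466661) (nat_lit 0) (nat_lit 392466661) (nat_lit 532) (nat_lit 2482782277) (nat_lit 752) (nat_lit 5) (nat_lit 752) (nat_lit 3) (nat_lit 759) (nat_lit 3) (nat_lit 527) (nat_lit 527) (nat_lit 506)) (XT.lf (nat_lit 0) (nat_lit 4063315068) (nat_lit 0) (nat_lit 82157209) (nat_lit 532) (nat_lit 2403858359) (nat_lit 752) (nat_lit 5) (nat_lit 752) (nat_lit 3) (nat_lit 759) (nat_lit 3) (nat_lit 528) (nat_lit 527) (nat_lit 505)))) (XT.nd (nat_lit 156) (nat_lit 684) (nat_lit 0) (XT.nd (nat_lit 78) (nat_lit 0) (nat_lit 0) (XT.lf (nat_lit 0) (nat_lit 148436421) (nat_lit 608) (nat_lit 5750456008) (nat_lit 684) (nat_lit 665753154) (nat_lit 744) (nat_lit 5) (nat_lit 752) (nat_lit 5) (nat_lit 753) (nat_lit 5) (nat_lit 529) (nat_lit 527) (nat_lit 504)) (XT.lf (nat_lit 0) (nat_lit 2670670378) (nat_lit 608) (nat_lit 2418207412) (nat_lit 684) (nat_lit 1492056103) (nat_lit 744) (nat_lit 5) (nat_lit 752) (nat_lit 5) (nat_lit 753) (nat_lit 5) (nat_lit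 530) (nat_lit 527) (nat_lit 503))) (XT.nd (nat_lit 78) (nat_lit 684) (nat_lit 0) (XT.lf (nat_lit 76) (nat_lit 958156977) (nat_lit 0) (nat_lit 4226426571) (nat_lit 684) (nat_lit 1414146075) (nat_lit 745) (nat_lit 5) (nat_lit 744) (nat_lit 5) (nat_lit 753) (nat_lit 5) (nat_lit 531) (nat_lit 527) (nat_lit 502)) (XT.lf (nat_lit 0) (nat_lit 1069015485) (nat_lit 684) (nat_lit 2224911305) (nat_lit 760) (nat_lit 3323774264) (nat_lit 735) (nat_lit 5) (nat_lit 744) (nat_lit 5) (nat_lit 745) (nat_lit 5) (nat_lit 532) (nat_lit 527) (nat_lit 501))))) (XT.nd (nat_lit 312) (nat_lit 1672) (nat_lit 0) (XT.nd (nat_lit 156) (nat_lit 760) (nat_lit 0) (XT.nd (nat_lit 78) (nat_lit 0) (nat_lit 0) (XT.lf (nat_lit 76) (nat_lit 1230814722) (nat_lit 0) (nat_lit 2296993074) (nat_lit 760) (nat_lit 3110165086) (nat_lit 736) (nat_lit 5) (nat_lit 735) (nat_lit 5) (nat_lit 745) (nat_lit 5) (nat_lit 533) (nat_lit 527) (nat_lit 500)) (XT.lf (nat_lit 76) (nat_lit 4751019269) (nat_lit 0) (nat_lit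 1237592441) (nat_lit 760) (nat_lit 670987585) (nat_lit 736) (nat_lit 5) (nat_lit 735) (nat_lit 5) (nat_lit 745) (nat_lit 5) (nat_lit 534) (nat_lit 527) (nat_lit 499))) (XT.nd (nat_lit 78) (nat_lit 0) (nat_lit 76) (XT.lf (nat_lit 76) (nat_lit 1634678686) (nat_lit 0) (nat_lit 107792402) (nat_lit 836) (nat_lit 4939970293) (nat_lit 726) (nat_lit 5) (nat_lit 725) (nat_lit 5) (nat_lit 736) (nat_lit 5) (nat_lit 535) (nat_lit 527) (nat_lit 498)) (XT.lf (nat_lit 0) (nat_lit 4154754223) (nat_lit 760) (nat_lit 1478202218) (nat_lit 836) (nat_lit 1073509889) (nat_lit 726) (nat_lit 5) (nat_lit 736) (nat_lit 5) (nat_lit 737) (nat_lit 5) (nat_lit 536) (nat_lit 527) (nat_lit 497)))) (XT.nd (nat_lit 156) (nat_lit 912) (nat_lit 0) (XT.nd (nat_lit 78) (nat_lit 836) (nat_lit 0) (XT.lf (nat_lit 76) (nat_lit 2154924067) (nat_lit 0) (nat_lit 4416100046) (nat_lit 836) (nat_lit 160838263) (nat_lit 727) (nat_lit 5) (nat_lit 726) (nat_lit 5) (nat_lit 737) (nat_lit 5) (nat_lit 537) (nat_lit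 527) (nat_lit 496)) (XT.lf (nat_lit 0) (nat_lit 2199538263) (nat_lit 836) (nat_lit 927595365) (nat_lit 912) (nat_lit 3631310937) (nat_lit 715) (nat_lit 5) (nat_lit 726) (nat_lit 5) (nat_lit 727) (nat_lit 5) (nat_lit 538) (nat_lit 527) (nat_lit 495))) (XT.nd (nat_lit 78) (nat_lit 912) (nat_lit 0) (XT.lf (nat_lit 76) (nat_lit 2795109322) (nat_lit 0) (nat_lit 1770729141) (nat_lit 912) (nat_lit 2220486383) (nat_lit 716) (nat_lit 5) (nat_lit 715) (nat_lit 5) (nat_lit 727) (nat_lit 5) (nat_lit 539) (nat_lit 527) (nat_lit 494)) (XT.lf (nat_lit 0) (nat_lit 112045402) (nat_lit 912) (nat_lit 246652783) (nat_lit 988) (nat_lit 6457057994) (nat_lit 703) (nat_lit 5) (nat_lit 715) (nat_lit 5) (nat_lit 716) (nat_lit 5) (nat_lit 540) (nat_lit 527) (nat_lit 493))))))))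
noncomputable def xc87 : XT := (XT.nd (nat_lit 2262) (nat_lit 13604) (nat_lit 0) (XT.nd (nat_lit 1092) (nat_lit 12996) (nat_lit 0) (XT.nd (nat_lit 546) (nat_lit 6232) (nat_lit 0) (XT.nd (nat_lit 234) (nat_lit 988) (nat_lit 0) (XT.nd (nat_lit 78) (nat_lit 988) (nat_lit 0) (XT.lf (nat_lit 0) (nat_lit 2436458897) (nat_lit 912) (nat_lit 3283672694) (nat_lit 988) (nat_lit 1125856541) (nat_lit 704) (nat_lit 5) (nat_lit 716) (nat_lit 5) (nat_lit 717) (nat_lit 5) (nat_lit 541) (nat_lit 527) (nat_lit 492)) (XT.nd (nat_lit 78) (nat_lit 988) (nat_lit 0) (XT.lf (nat_lit 76) (nat_lit 542701562) (nat_lit 0) (nat_lit 4217569749) (nat_lit 988) (nat_lit 2117499914) (nat_lit 705) (nat_lit 5) (nat_lit 704) (nat_lit 5) (nat_lit 717) (nat_lit 5) (nat_lit 542) (nat_lit 527) (nat_lit 491)) (XT.lf (nat_lit 0) (nat_lit 185484575) (nat_lit 988) (nat_lit 2457743482) (nat_lit 1064) (nat_lit 4267577745) (nat_lit 691) (nat_lit 5) (nat_lit 704) (nat_lit 5) (nat_lit 705) (nat_lit 5) (nat_lit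 543) (nat_lit 527) (nat_lit 490)))) (XT.nd (nat_lit 156) (nat_lit 988) (nat_lit 0) (XT.nd (nat_lit 78) (nat_lit 0) (nat_lit 76) (XT.lf (nat_lit 76) (nat_lit 1466524244) (nat_lit 0) (nat_lit 996085293) (nat_lit 1064) (nat_lit 4482487361) (nat_lit 692) (nat_lit 5) (nat_lit 691) (nat_lit 5) (nat_lit 705) (nat_lit 5) (nat_lit 544) (nat_lit 527) (nat_lit 489)) (XT.lf (nat_lit 0) (nat_lit 4754124939) (nat_lit 988) (nat_lit 1518440392) (nat_lit 76) (nat_lit 708135882) (nat_lit 692) (nat_lit 5) (nat_lit 705) (nat_lit 5) (nat_lit 693) (nat_lit 5) (nat_lit 545) (nat_lit 527) (nat_lit 488))) (XT.nd (nat_lit 78) (nat_lit 0) (nat_lit 0) (XT.lf (nat_lit 0) (nat_lit 45014604) (nat_lit 1064) (nat_lit 4506669031) (nat_lit 76) (nat_lit 2465897737) (nat_lit 678) (nat_lit 5) (nat_lit 692) (nat_lit 5) (nat_lit 679) (nat_lit 5) (nat_lit 546) (nat_lit 527) (nat_lit 487)) (XT.lf (nat_lit 0) (nat_lit 2291769876) (nat_lit 1064) (nat_lit 464833340) (nat_lit 76) (nat_lit 4299114741)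 (nat_lit 678) (nat_lit 5) (nat_lit 692) (nat_lit 5) (nat_lit 679) (nat_lit 5) (nat_lit 547) (nat_lit 527) (nat_lit 486))))) (XT.nd (nat_lit 234) (nat_lit 3952) (nat_lit 0) (XT.nd (nat_lit 78) (nat_lit 1216) (nat_lit 0) (XT.lf (nat_lit 0) (nat_lit 3670229721) (nat_lit 1064) (nat_lit 887316517) (nat_lit 1140) (nat_lit 2537593340) (nat_lit 664) (nat_lit 5) (nat_lit 678) (nat_lit 5) (nat_lit 679) (nat_lit 5) (nat_lit 548) (nat_lit 527) (nat_lit 485)) (XT.nd (nat_lit 78) (nat_lit 76) (nat_lit 0) (XT.lf (nat_lit 0) (nat_lit 725299780) (nat_lit 1140) (nat_lit 6108894553) (nat_lit 1216) (nat_lit 301848120) (nat_lit 649) (nat_lit 5) (nat_lit 664) (nat_lit 5) (nat_lit 665) (nat_lit 5) (nat_lit 549) (nat_lit 527) (nat_lit 484)) (XT.lf (nat_lit 0) (nat_lit 1933162532) (nat_lit 1216) (nat_lit 2228228708) (nat_lit 76) (nat_lit 3016509001) (nat_lit 648) (nat_lit 5) (nat_lit 664) (nat_lit 5) (nat_lit 649) (nat_lit 5) (nat_lit 550) (nat_lit 527) (nat_lit 483)))) (XT.nd (nat_lit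 156) (nat_lit 2736) (nat_lit 0) (XT.nd (nat_lit 78) (nat_lit 0) (nat_lit 0) (XT.lf (nat_lit 0) (nat_lit 2026247206) (nat_lit 1216) (nat_lit 2148184120) (nat_lit 1292) (nat_lit 3046815677) (nat_lit 632) (nat_lit 5) (nat_lit 648) (nat_lit 5) (nat_lit 649) (nat_lit 5) (nat_lit 551) (nat_lit 527) (nat_lit 482)) (XT.lf (nat_lit 0) (nat_lit 6359991512) (nat_lit 1216) (nat_lit 68625375) (nat_lit 1292) (nat_lit 837485633) (nat_lit 632) (nat_lit 5) (nat_lit 648) (nat_lit 5) (nat_lit 649) (nat_lit 5) (nat_lit 552) (nat_lit 527) (nat_lit 481))) (XT.nd (nat_lit 78) (nat_lit 1368) (nat_lit 0) (XT.lf (nat_lit 0) (nat_lit 1387335262) (nat_lit 1368) (nat_lit 3856832540) (nat_lit 76) (nat_lit 2067709457) (nat_lit 614) (nat_lit 5) (nat_lit 632) (nat_lit 5) (nat_lit 615) (nat_lit 5) (nat_lit 553) (nat_lit 527) (nat_lit 480)) (XT.lf (nat_lit 0) (nat_lit 521377472) (nat_lit 1368) (nat_lit 3088521056) (nat_lit 1444) (nat_lit 3749272485) (nat_lit 596) (nat_lit 5) (nat_lit 614) (nat_lit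 5) (nat_lit 615) (nat_lit 5) (nat_lit 554) (nat_lit 527) (nat_lit 479)))))) (XT.nd (nat_lit 546) (nat_lit 6612) (nat_lit 0) (XT.nd (nat_lit 234) (nat_lit 4864) (nat_lit 0) (XT.nd (nat_lit 78) (nat_lit 1520) (nat_lit 0) (XT.lf (nat_lit 0) (nat_lit 5002993642) (nat_lit 1368) (nat_lit 854945634) (nat_lit 1444) (nat_lit 1549854208) (nat_lit 596) (nat_lit 5) (nat_lit 614) (nat_lit 5) (nat_lit 615) (nat_lit 5) (nat_lit 555) (nat_lit 527) (nat_lit 478)) (XT.nd (nat_lit 78) (nat_lit 0) (nat_lit 0) (XT.lf (nat_lit 0) (nat_lit 663257297) (nat_lit 1520) (nat_lit 5363702124) (nat_lit 76) (nat_lit 1430766143) (nat_lit 576) (nat_lit 5) (nat_lit 596) (nat_lit 5) (nat_lit 577) (nat_lit 5) (nat_lit 556) (nat_lit 527) (nat_lit 477)) (XT.lf (nat_lit 0) (nat_lit 2878216878) (nat_lit 1520) (nat_lit 845946920) (nat_lit 76) (nat_lit 3784724002) (nat_lit 576) (nat_lit 5) (nat_lit 596) (nat_lit 5) (nat_lit 577) (nat_lit 5) (nat_lit 557) (nat_lit 527) (nat_lit 476)))) (XT.nd (nat_lit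 156) (nat_lit 1748) (nat_lit 0) (XT.nd (nat_lit 78) (nat_lit 1596) (nat_lit 0) (XT.lf (nat_lit 0) (nat_lit 3775402419) (nat_lit 1520) (nat_lit 1343853057) (nat_lit 1596) (nat_lit 2442185318) (nat_lit 556) (nat_lit 5) (nat_lit 576) (nat_lit 5) (nat_lit 577) (nat_lit 5) (nat_lit 558) (nat_lit 527) (nat_lit 475)) (XT.lf (nat_lit 0) (nat_lit 852901803) (nat_lit 1596) (nat_lit 6528414328) (nat_lit 1672) (nat_lit 234207742) (nat_lit 535) (nat_lit 5) (nat_lit 556) (nat_lit 5) (nat_lit 557) (nat_lit 5) (nat_lit 559) (nat_lit 527) (nat_lit 474))) (XT.nd (nat_lit 78) (nat_lit 1672) (nat_lit 0) (XT.lf (nat_lit 0) (nat_lit 1984158334) (nat_lit 1672) (nat_lit 2093646449) (nat_lit 76) (nat_lit 3592770839) (nat_lit 534) (nat_lit 5) (nat_lit 556) (nat_lit 5) (nat_lit 535) (nat_lit 5) (nat_lit 560) (nat_lit 527) (nat_lit 473)) (XT.lf (nat_lit 0) (nat_lit 2665609932) (nat_lit 1672) (nat_lit 1554495014) (nat_lit 1748) (nat_lit 3507068385) (nat_lit 512) (nat_lit 5) (nat_lit 534)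 (nat_lit 5) (nat_lit 535) (nat_lit 5) (nat_lit 561) (nat_lit 527) (nat_lit 472))))) (XT.nd (nat_lit 312) (nat_lit 2964) (nat_lit 0) (XT.nd (nat_lit 156) (nat_lit 1824) (nat_lit 0) (XT.nd (nat_lit 78) (nat_lit 1824) (nat_lit 0) (XT.lf (nat_lit 0) (nat_lit 6481164729) (nat_lit 1748) (nat_lit 280006469) (nat_lit 76) (nat_lit 1024126731) (nat_lit 512) (nat_lit 5) (nat_lit 535) (nat_lit 5) (nat_lit 513) (nat_lit 5) (nat_lit 562) (nat_lit 527) (nat_lit 471)) (XT.lf (nat_lit 0) (nat_lit 931154131) (nat_lit 1824) (nat_lit 3239717226) (nat_lit 76) (nat_lit 3673580749) (nat_lit 488) (nat_lit 5) (nat_lit 512) (nat_lit 5) (nat_lit 489) (nat_lit 5) (nat_lit 563) (nat_lit 527) (nat_lit 470))) (XT.nd (nat_lit 78) (nat_lit 0) (nat_lit 0) (XT.lf (nat_lit 0) (nat_lit 1662709550) (nat_lit 1824) (nat_lit 1504384024) (nat_lit 1900) (nat_lit 4738057869) (nat_lit 464) (nat_lit 5) (nat_lit 488) (nat_lit 5) (nat_lit 489) (nat_lit 5) (nat_lit 564) (nat_lit 527) (nat_lit 469)) (XT.lf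 (nat_lit 0) (nat_lit 5438782118) (nat_lit 1900) (nat_lit 1304779972) (nat_lit 76) (nat_lit 1223684674) (nat_lit 464) (nat_lit 5) (nat_lit 489) (nat_lit 5) (nat_lit 465) (nat_lit 5) (nat_lit 565) (nat_lit 527) (nat_lit 468)))) (XT.nd (nat_lit 156) (nat_lit 912) (nat_lit 0) (XT.nd (nat_lit 78) (nat_lit 988) (nat_lit 0) (XT.lf (nat_lit 0) (nat_lit 3734161561) (nat_lit 1064) (nat_lit 4017964773) (nat_lit 1140) (nat_lit 278535771) (nat_lit 450) (nat_lit 5) (nat_lit 464) (nat_lit 5) (nat_lit 465) (nat_lit 5) (nat_lit 566) (nat_lit 527) (nat_lit 467)) (XT.lf (nat_lit 0) (nat_lit 756419963) (nat_lit 912) (nat_lit 1209524578) (nat_lit 988) (nat_lit 6129621865) (nat_lit 437) (nat_lit 5) (nat_lit 449) (nat_lit 5) (nat_lit 450) (nat_lit 5) (nat_lit 567) (nat_lit 527) (nat_lit 466))) (XT.nd (nat_lit 78) (nat_lit 912) (nat_lit 0) (XT.lf (nat_lit 0) (nat_lit 4254137618) (nat_lit 988) (nat_lit 2242593113) (nat_lit 76) (nat_lit 1664952589) (nat_lit 437) (nat_lit 5) (nat_lit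 450) (nat_lit 5) (nat_lit 438) (nat_lit 5) (nat_lit 568) (nat_lit 527) (nat_lit 465)) (XT.lf (nat_lit 0) (nat_lit 2950043519) (nat_lit 912) (nat_lit 3628725205) (nat_lit 988) (nat_lit 1650542724) (nat_lit 425) (nat_lit 5) (nat_lit 437) (nat_lit 5) (nat_lit 438) (nat_lit 5) (nat_lit 569) (nat_lit 527) (nat_lit 464))))))) (XT.nd (nat_lit 1170) (nat_lit 5624) (nat_lit 0) (XT.nd (nat_lit 546) (nat_lit 4484) (nat_lit 0) (XT.nd (nat_lit 234) (nat_lit 1748) (nat_lit 0) (XT.nd (nat_lit 78) (nat_lit 1672) (nat_lit 0) (XT.lf (nat_lit 0) (nat_lit 621952655) (nat_lit 988) (nat_lit 62161335) (nat_lit 76) (nat_lit 7614517838) (nat_lit 424) (nat_lit 5) (nat_lit 437) (nat_lit 5) (nat_lit 425) (nat_lit 5) (nat_lit 570) (nat_lit 527) (nat_lit 463)) (XT.nd (nat_lit 78) (nat_lit 836) (nat_lit 0) (XT.lf (nat_lit 0) (nat_lit 2931924849) (nat_lit 912) (nat_lit 3102927625) (nat_lit 76) (nat_lit 2333987607) (nat_lit 413) (nat_lit 5) (nat_lit 425) (nat_lit 5) (nat_lit 414) (nat_lit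 5) (nat_lit 571) (nat_lit 527) (nat_lit 462)) (XT.lf (nat_lit 0) (nat_lit 2249401750) (nat_lit 836) (nat_lit 3023169684) (nat_lit 912) (nat_lit 3168193745) (nat_lit 402) (nat_lit 5) (nat_lit 413) (nat_lit 5) (nat_lit 414) (nat_lit 5) (nat_lit 572) (nat_lit 527) (nat_lit 461)))) (XT.nd (nat_lit 156) (nat_lit 836) (nat_lit 0) (XT.nd (nat_lit 78) (nat_lit 912) (nat_lit 0) (XT.lf (nat_lit 0) (nat_lit 7646669172) (nat_lit 912) (nat_lit 800284233) (nat_lit 76) (nat_lit 67444745) (nat_lit 402) (nat_lit 5) (nat_lit 414) (nat_lit 5) (nat_lit 403) (nat_lit 5) (nat_lit 573) (nat_lit 527) (nat_lit 460)) (XT.lf (nat_lit 0) (nat_lit 1476062561) (nat_lit 912) (nat_lit 3894826200) (nat_lit 76) (nat_lit 3218090822) (nat_lit 390) (nat_lit 5) (nat_lit 402) (nat_lit 5) (nat_lit 391) (nat_lit 5) (nat_lit 574) (nat_lit 527) (nat_lit 459))) (XT.nd (nat_lit 78) (nat_lit 0) (nat_lit 0) (XT.lf (nat_lit 0) (nat_lit 1623448512) (nat_lit 836) (nat_lit 2213868641) (nat_lit 912) (nat_lit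 4827978668) (nat_lit 379) (nat_lit 5) (nat_lit 390) (nat_lit 5) (nat_lit 391) (nat_lit 5) (nat_lit 575) (nat_lit 527) (nat_lit 458)) (XT.lf (nat_lit 0) (nat_lit 6245296657) (nat_lit 912) (nat_lit 1481291921) (nat_lit 76) (nat_lit 1016561782) (nat_lit 379) (nat_lit 5) (nat_lit 391) (nat_lit 5) (nat_lit 380) (nat_lit 5) (nat_lit 576) (nat_lit 527) (nat_lit 457))))) (XT.nd (nat_lit 312) (nat_lit 2204) (nat_lit 0) (XT.nd (nat_lit 156) (nat_lit 684) (nat_lit 0) (XT.nd (nat_lit 78) (nat_lit 836) (nat_lit 0) (XT.lf (nat_lit 0) (nat_lit 4194696238) (nat_lit 760) (nat_lit 4515946314) (nat_lit 836) (nat_lit 111737237) (nat_lit 369) (nat_lit 5) (nat_lit 379) (nat_lit 5) (nat_lit 380) (nat_lit 5) (nat_lit 577) (nat_lit 527) (nat_lit 456)) (XT.lf (nat_lit 0) (nat_lit 1063770374) (nat_lit 760) (nat_lit 1212292123) (nat_lit 836) (nat_lit 6627143320) (nat_lit 358) (nat_lit 5) (nat_lit 368) (nat_lit 5) (nat_lit 369) (nat_lit 5) (nat_lit 578) (nat_lit 527) (nat_lit 455))) (XT.nd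 (nat_lit 78) (nat_lit 684) (nat_lit 0) (XT.lf (nat_lit 0) (nat_lit 4723270708) (nat_lit 836) (nat_lit 2104903528) (nat_lit 76) (nat_lit 2157198209) (nat_lit 358) (nat_lit 5) (nat_lit 369) (nat_lit 5) (nat_lit 359) (nat_lit 5) (nat_lit 579) (nat_lit 527) (nat_lit 454)) (XT.lf (nat_lit 0) (nat_lit 3749479470) (nat_lit 684) (nat_lit 3470825846) (nat_lit 760) (nat_lit 1848861231) (nat_lit 349) (nat_lit 5) (nat_lit 358) (nat_lit 5) (nat_lit 359) (nat_lit 5) (nat_lit 580) (nat_lit 527) (nat_lit 453)))) (XT.nd (nat_lit 156) (nat_lit 1368) (nat_lit 0) (XT.nd (nat_lit 78) (nat_lit 0) (nat_lit 0) (XT.lf (nat_lit 0) (nat_lit 562264256) (nat_lit 760) (nat_lit 28901362) (nat_lit 836) (nat_lit 8563661947) (nat_lit 338) (nat_lit 5) (nat_lit 348) (nat_lit 5) (nat_lit 349) (nat_lit 5) (nat_lit 581) (nat_lit 527) (nat_lit 452)) (XT.lf (nat_lit 0) (nat_lit 3082836337) (nat_lit 836) (nat_lit 2679127808) (nat_lit 76) (nat_lit 3479442931) (nat_lit 338) (nat_lit 5) (nat_lit 349)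 (nat_lit 5) (nat_lit 339) (nat_lit 5) (nat_lit 582) (nat_lit 527) (nat_lit 451))) (XT.nd (nat_lit 78) (nat_lit 684) (nat_lit 0) (XT.lf (nat_lit 0) (nat_lit 3360659423) (nat_lit 684) (nat_lit 2255334799) (nat_lit 760) (nat_lit 3713892531) (nat_lit 329) (nat_lit 5) (nat_lit 338) (nat_lit 5) (nat_lit 339) (nat_lit 5) (nat_lit 583) (nat_lit 527) (nat_lit 450)) (XT.lf (nat_lit 0) (nat_lit 94187878) (nat_lit 684) (nat_lit 8102886783) (nat_lit 760) (nat_lit 1223117793) (nat_lit 320) (nat_lit 5) (nat_lit 329) (nat_lit 5) (nat_lit 330) (nat_lit 5) (nat_lit 584) (nat_lit 527) (nat_lit 449)))))) (XT.nd (nat_lit 546) (nat_lit 2964) (nat_lit 0) (XT.nd (nat_lit 234) (nat_lit 1976) (nat_lit 0) (XT.nd (nat_lit 78) (nat_lit 608) (nat_lit 0) (XT.lf (nat_lit 0) (nat_lit 1325580025) (nat_lit 760) (nat_lit 3211764292) (nat_lit 76) (nat_lit 4974282700) (nat_lit 319) (nat_lit 5) (nat_lit 329) (nat_lit 5) (nat_lit 320) (nat_lit 5) (nat_lit 585) (nat_lit 527) (nat_lit 448)) (XT.nd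 (nat_lit 78) (nat_lit 0) (nat_lit 0) (XT.lf (nat_lit 0) (nat_lit 3020697453) (nat_lit 608) (nat_lit 878518746) (nat_lit 684) (nat_lit 5705707063) (nat_lit 311) (nat_lit 5) (nat_lit 319) (nat_lit 5) (nat_lit 320) (nat_lit 5) (nat_lit 586) (nat_lit 527) (nat_lit 447)) (XT.lf (nat_lit 0) (nat_lit 6535564582) (nat_lit 684) (nat_lit 332863939) (nat_lit 76) (nat_lit 2831433615) (nat_lit 311) (nat_lit 5) (nat_lit 320) (nat_lit 5) (nat_lit 312) (nat_lit 5) (nat_lit 587) (nat_lit 527) (nat_lit 446)))) (XT.nd (nat_lit 156) (nat_lit 608) (nat_lit 0) (XT.nd (nat_lit 78) (nat_lit 684) (nat_lit 0) (XT.lf (nat_lit 0) (nat_lit 6082296332) (nat_lit 684) (nat_lit 3159237611) (nat_lit 760) (nat_lit 554829431) (nat_lit 302) (nat_lit 5) (nat_lit 311) (nat_lit 5) (nat_lit 312) (nat_lit 5) (nat_lit 588) (nat_lit 527) (nat_lit 445)) (XT.lf (nat_lit 0) (nat_lit 2075077017) (nat_lit 684) (nat_lit 7176715004) (nat_lit 76) (nat_lit 642812837) (nat_lit 293) (nat_lit 5) (nat_lit 302) (nat_lit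 5) (nat_lit 294) (nat_lit 5) (nat_lit 589) (nat_lit 527) (nat_lit 444))) (XT.nd (nat_lit 78) (nat_lit 608) (nat_lit 0) (XT.lf (nat_lit 0) (nat_lit 4768178468) (nat_lit 684) (nat_lit 725851540) (nat_lit 76) (nat_lit 4500348678) (nat_lit 293) (nat_lit 5) (nat_lit 302) (nat_lit 5) (nat_lit 294) (nat_lit 5) (nat_lit 590) (nat_lit 527) (nat_lit 443)) (XT.lf (nat_lit 0) (nat_lit 5896452071) (nat_lit 608) (nat_lit 1629530996) (nat_lit 684) (nat_lit 2569949453) (nat_lit 285) (nat_lit 5) (nat_lit 293) (nat_lit 5) (nat_lit 294) (nat_lit 5) (nat_lit 591) (nat_lit 527) (nat_lit 442))))) (XT.nd (nat_lit 312) (nat_lit 1140) (nat_lit 0) (XT.nd (nat_lit 156) (nat_lit 1140) (nat_lit 0) (XT.nd (nat_lit 78) (nat_lit 0) (nat_lit 0) (XT.lf (nat_lit 0) (nat_lit 146255008) (nat_lit 684) (nat_lit 7756862186) (nat_lit 76) (nat_lit 2296210288) (nat_lit 276) (nat_lit 5) (nat_lit 285) (nat_lit 5) (nat_lit 277) (nat_lit 5) (nat_lit 592) (nat_lit 527) (nat_lit 441)) (XT.lf (nat_lit 0)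 (nat_lit 2894511176) (nat_lit 684) (nat_lit 1093354203) (nat_lit 76) (nat_lit 6316343709) (nat_lit 276) (nat_lit 5) (nat_lit 285) (nat_lit 5) (nat_lit 277) (nat_lit 5) (nat_lit 593) (nat_lit 527) (nat_lit 440))) (XT.nd (nat_lit 78) (nat_lit 532) (nat_lit 0) (XT.lf (nat_lit 0) (nat_lit 5708737238) (nat_lit 684) (nat_lit 4667058547) (nat_lit 76) (nat_lit 35173697) (nat_lit 268) (nat_lit 5) (nat_lit 277) (nat_lit 5) (nat_lit 269) (nat_lit 5) (nat_lit 594) (nat_lit 527) (nat_lit 439)) (XT.lf (nat_lit 0) (nat_lit 2180302994) (nat_lit 532) (nat_lit 6420618428) (nat_lit 608) (nat_lit 1918511416) (nat_lit 261) (nat_lit 5) (nat_lit 268) (nat_lit 5) (nat_lit 269) (nat_lit 5) (nat_lit 595) (nat_lit 527) (nat_lit 438)))) (XT.nd (nat_lit 156) (nat_lit 532) (nat_lit 0) (XT.nd (nat_lit 78) (nat_lit 532) (nat_lit 0) (XT.lf (nat_lit 0) (nat_lit 914171580) (nat_lit 608) (nat_lit 1442727543) (nat_lit 76) (nat_lit 8272940631) (nat_lit 260) (nat_lit 5) (nat_lit 268) (nat_lit 5)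 (nat_lit 261) (nat_lit 5) (nat_lit 596) (nat_lit 527) (nat_lit 437)) (XT.lf (nat_lit 0) (nat_lit 3800552581) (nat_lit 608) (nat_lit 5135573220) (nat_lit 76) (nat_lit 1805621872) (nat_lit 253) (nat_lit 5) (nat_lit 261) (nat_lit 5) (nat_lit 254) (nat_lit 5) (nat_lit 597) (nat_lit 527) (nat_lit 436))) (XT.nd (nat_lit 78) (nat_lit 0) (nat_lit 0) (XT.lf (nat_lit 0) (nat_lit 1935099813) (nat_lit 532) (nat_lit 4822057186) (nat_lit 608) (nat_lit 4098487967) (nat_lit 246) (nat_lit 5) (nat_lit 253) (nat_lit 5) (nat_lit 254) (nat_lit 5) (nat_lit 598) (nat_lit 527) (nat_lit 435)) (XT.lf (nat_lit 0) (nat_lit 9182509875) (nat_lit 532) (nat_lit 599699538) (nat_lit 608) (nat_lit 1189425586) (nat_lit 246) (nat_lit 5) (nat_lit 253) (nat_lit 5) (nat_lit 254) (nat_lit 5) (nat_lit 599) (nat_lit 527) (nat_lit 434))))))))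
noncomputable def xc88 : XT := (XT.nd (nat_lit 2262) (nat_lit 3952) (nat_lit 0) (XT.nd (nat_lit 1092) (nat_lit 3572) (nat_lit 0) (XT.nd (nat_lit 546) (nat_lit 2280) (nat_lit 0) (XT.nd (nat_lit 234) (nat_lit 1520) (nat_lit 0) (XT.nd (nat_lit 78) (nat_lit 456) (nat_lit 0) (XT.lf (nat_lit 0) (nat_lit 1789792740) (nat_lit 608) (nat_lit 5602100108) (nat_lit 76) (nat_lit 3697116375) (nat_lit 238) (nat_lit 5) (nat_lit 246) (nat_lit 5) (nat_lit 239) (nat_lit 5) (nat_lit 600) (nat_lit 527) (nat_lit 433)) (XT.nd (nat_lit 78) (nat_lit 0) (nat_lit 0) (XT.lf (nat_lit 0) (nat_lit 1700440729) (nat_lit 456) (nat_lit 3114730887) (nat_lit 532) (nat_lit 6393353068) (nat_lit 232) (nat_lit 5) (nat_lit 238) (nat_lit 5) (nat_lit 239) (nat_lit 5) (nat_lit 601) (nat_lit 527) (nat_lit 432)) (XT.lf (nat_lit 0) (nat_lit 7922593048) (nat_lit 532) (nat_lit 2147419046) (nat_lit 76) (nat_lit 1259988688) (nat_lit 232) (nat_lit 5) (nat_lit 239) (nat_lit 5) (nat_lit 233) (nat_lit 5) (nat_lit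 602) (nat_lit 527) (nat_lit 431)))) (XT.nd (nat_lit 156) (nat_lit 456) (nat_lit 0) (XT.nd (nat_lit 78) (nat_lit 532) (nat_lit 0) (XT.lf (nat_lit 0) (nat_lit 5376662266) (nat_lit 532) (nat_lit 5747105777) (nat_lit 608) (nat_lit 329507261) (nat_lit 225) (nat_lit 5) (nat_lit 232) (nat_lit 5) (nat_lit 233) (nat_lit 5) (nat_lit 603) (nat_lit 527) (nat_lit 430)) (XT.lf (nat_lit 0) (nat_lit 1468748764) (nat_lit 456) (nat_lit 1304554376) (nat_lit 532) (nat_lit 8805344164) (nat_lit 218) (nat_lit 5) (nat_lit 224) (nat_lit 5) (nat_lit 225) (nat_lit 5) (nat_lit 604) (nat_lit 527) (nat_lit 429))) (XT.nd (nat_lit 78) (nat_lit 456) (nat_lit 0) (XT.lf (nat_lit 0) (nat_lit 5972107788) (nat_lit 532) (nat_lit 2515693627) (nat_lit 76) (nat_lit 3217915713) (nat_lit 218) (nat_lit 5) (nat_lit 225) (nat_lit 5) (nat_lit 219) (nat_lit 5) (nat_lit 605) (nat_lit 527) (nat_lit 428)) (XT.lf (nat_lit 0) (nat_lit 5257406540) (nat_lit 456) (nat_lit 3997067616) (nat_lit 532) (nat_lit 2580463411)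 (nat_lit 212) (nat_lit 5) (nat_lit 218) (nat_lit 5) (nat_lit 219) (nat_lit 5) (nat_lit 606) (nat_lit 527) (nat_lit 427))))) (XT.nd (nat_lit 234) (nat_lit 1292) (nat_lit 0) (XT.nd (nat_lit 78) (nat_lit 456) (nat_lit 0) (XT.lf (nat_lit 0) (nat_lit 633214211) (nat_lit 532) (nat_lit 10738341556) (nat_lit 76) (nat_lit 594988853) (nat_lit 205) (nat_lit 5) (nat_lit 212) (nat_lit 5) (nat_lit 206) (nat_lit 5) (nat_lit 607) (nat_lit 527) (nat_lit 426)) (XT.nd (nat_lit 78) (nat_lit 456) (nat_lit 0) (XT.lf (nat_lit 0) (nat_lit 3924616248) (nat_lit 532) (nat_lit 2898102771) (nat_lit 76) (nat_lit 5276764468) (nat_lit 205) (nat_lit 5) (nat_lit 212) (nat_lit 5) (nat_lit 206) (nat_lit 5) (nat_lit 608) (nat_lit 527) (nat_lit 425)) (XT.lf (nat_lit 0) (nat_lit 5133362211) (nat_lit 456) (nat_lit 2159332245) (nat_lit 532) (nat_lit 4942170572) (nat_lit 199) (nat_lit 5) (nat_lit 205) (nat_lit 5) (nat_lit 206) (nat_lit 5) (nat_lit 609) (nat_lit 527) (nat_lit 424)))) (XT.nd (nat_lit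 156) (nat_lit 836) (nat_lit 0) (XT.nd (nat_lit 78) (nat_lit 76) (nat_lit 0) (XT.lf (nat_lit 0) (nat_lit 954638500) (nat_lit 380) (nat_lit 9793813771) (nat_lit 456) (nat_lit 1624096409) (nat_lit 194) (nat_lit 5) (nat_lit 199) (nat_lit 5) (nat_lit 200) (nat_lit 5) (nat_lit 610) (nat_lit 527) (nat_lit 423)) (XT.lf (nat_lit 0) (nat_lit 1777279707) (nat_lit 456) (nat_lit 3303056715) (nat_lit 76) (nat_lit 7431621253) (nat_lit 193) (nat_lit 5) (nat_lit 199) (nat_lit 5) (nat_lit 194) (nat_lit 5) (nat_lit 611) (nat_lit 527) (nat_lit 422))) (XT.nd (nat_lit 78) (nat_lit 380) (nat_lit 0) (XT.lf (nat_lit 0) (nat_lit 4996372328) (nat_lit 456) (nat_lit 239217604) (nat_lit 532) (nat_lit 7418137944) (nat_lit 187) (nat_lit 5) (nat_lit 193) (nat_lit 5) (nat_lit 194) (nat_lit 5) (nat_lit 612) (nat_lit 527) (nat_lit 421)) (XT.lf (nat_lit 0) (nat_lit 653952700) (nat_lit 380) (nat_lit 8144520550) (nat_lit 456) (nat_lit 3999152868) (nat_lit 182) (nat_lit 5) (nat_lit 187) (nat_lit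 5) (nat_lit 188) (nat_lit 5) (nat_lit 613) (nat_lit 527) (nat_lit 420)))))) (XT.nd (nat_lit 546) (nat_lit 1900) (nat_lit 0) (XT.nd (nat_lit 234) (nat_lit 836) (nat_lit 0) (XT.nd (nat_lit 78) (nat_lit 836) (nat_lit 0) (XT.lf (nat_lit 0) (nat_lit 9201250501) (nat_lit 380) (nat_lit 3262878270) (nat_lit 456) (nat_lit 479644027) (nat_lit 182) (nat_lit 5) (nat_lit 187) (nat_lit 5) (nat_lit 188) (nat_lit 5) (nat_lit 614) (nat_lit 527) (nat_lit 419)) (XT.nd (nat_lit 78) (nat_lit 380) (nat_lit 0) (XT.lf (nat_lit 0) (nat_lit 3091125100) (nat_lit 456) (nat_lit 8265817117) (nat_lit 76) (nat_lit 1735063818) (nat_lit 176) (nat_lit 5) (nat_lit 182) (nat_lit 5) (nat_lit 177) (nat_lit 5) (nat_lit 615) (nat_lit 527) (nat_lit 418)) (XT.lf (nat_lit 0) (nat_lit 321354043) (nat_lit 380) (nat_lit 6433488284) (nat_lit 456) (nat_lit 6487739816) (nat_lit 171) (nat_lit 5) (nat_lit 176) (nat_lit 5) (nat_lit 177) (nat_lit 5) (nat_lit 616) (nat_lit 527) (nat_lit 417)))) (XT.nd (nat_lit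 156) (nat_lit 380) (nat_lit 0) (XT.nd (nat_lit 78) (nat_lit 456) (nat_lit 0) (XT.lf (nat_lit 0) (nat_lit 9160312959) (nat_lit 380) (nat_lit 1366167056) (nat_lit 456) (nat_lit 2868997540) (nat_lit 171) (nat_lit 5) (nat_lit 176) (nat_lit 5) (nat_lit 177) (nat_lit 5) (nat_lit 617) (nat_lit 527) (nat_lit 416)) (XT.lf (nat_lit 0) (nat_lit 845821209) (nat_lit 456) (nat_lit 8927381285) (nat_lit 76) (nat_lit 3777432626) (nat_lit 165) (nat_lit 5) (nat_lit 171) (nat_lit 5) (nat_lit 166) (nat_lit 5) (nat_lit 618) (nat_lit 527) (nat_lit 415))) (XT.nd (nat_lit 78) (nat_lit 380) (nat_lit 0) (XT.lf (nat_lit 0) (nat_lit 4613789576) (nat_lit 456) (nat_lit 52088456) (nat_lit 76) (nat_lit 9042293804) (nat_lit 165) (nat_lit 5) (nat_lit 171) (nat_lit 5) (nat_lit 166) (nat_lit 5) (nat_lit 619) (nat_lit 527) (nat_lit 414)) (XT.lf (nat_lit 0) (nat_lit 8499953257) (nat_lit 456) (nat_lit 4783168875) (nat_lit 76) (nat_lit 584881087) (nat_lit 160) (nat_lit 5) (nat_lit 166) (nat_lit 5)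 (nat_lit 161) (nat_lit 5) (nat_lit 620) (nat_lit 527) (nat_lit 413))))) (XT.nd (nat_lit 312) (nat_lit 760) (nat_lit 0) (XT.nd (nat_lit 156) (nat_lit 684) (nat_lit 0) (XT.nd (nat_lit 78) (nat_lit 76) (nat_lit 0) (XT.lf (nat_lit 0) (nat_lit 4369307658) (nat_lit 380) (nat_lit 8134249991) (nat_lit 456) (nat_lit 1526679870) (nat_lit 155) (nat_lit 5) (nat_lit 160) (nat_lit 5) (nat_lit 161) (nat_lit 5) (nat_lit 621) (nat_lit 527) (nat_lit 412)) (XT.lf (nat_lit 0) (nat_lit 2372617243) (nat_lit 456) (nat_lit 472474079) (nat_lit 76) (nat_lit 11350065953) (nat_lit 154) (nat_lit 5) (nat_lit 160) (nat_lit 5) (nat_lit 155) (nat_lit 5) (nat_lit 622) (nat_lit 527) (nat_lit 411))) (XT.nd (nat_lit 78) (nat_lit 380) (nat_lit 0) (XT.lf (nat_lit 0) (nat_lit 6385238488) (nat_lit 380) (nat_lit 5402677800) (nat_lit 76) (nat_lit 2574142304) (nat_lit 150) (nat_lit 5) (nat_lit 155) (nat_lit 5) (nat_lit 151) (nat_lit 5) (nat_lit 623) (nat_lit 527) (nat_lit 410)) (XT.lf (nat_lit 0) (nat_lit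 4057568696) (nat_lit 380) (nat_lit 6449575272) (nat_lit 456) (nat_lit 4024573921) (nat_lit 145) (nat_lit 5) (nat_lit 150) (nat_lit 5) (nat_lit 151) (nat_lit 5) (nat_lit 624) (nat_lit 527) (nat_lit 409)))) (XT.nd (nat_lit 156) (nat_lit 380) (nat_lit 0) (XT.nd (nat_lit 78) (nat_lit 304) (nat_lit 0) (XT.lf (nat_lit 0) (nat_lit 23831173) (nat_lit 456) (nat_lit 954955426) (nat_lit 76) (nat_lit 13725639425) (nat_lit 144) (nat_lit 5) (nat_lit 150) (nat_lit 5) (nat_lit 145) (nat_lit 5) (nat_lit 625) (nat_lit 527) (nat_lit 408)) (XT.lf (nat_lit 0) (nat_lit 4168029986) (nat_lit 380) (nat_lit 6096365418) (nat_lit 76) (nat_lit 4614287132) (nat_lit 140) (nat_lit 5) (nat_lit 145) (nat_lit 5) (nat_lit 141) (nat_lit 5) (nat_lit 626) (nat_lit 527) (nat_lit 407))) (XT.nd (nat_lit 78) (nat_lit 0) (nat_lit 0) (XT.lf (nat_lit 0) (nat_lit 3682376032) (nat_lit 380) (nat_lit 4730765344) (nat_lit 456) (nat_lit 6642922775) (nat_lit 135) (nat_lit 5) (nat_lit 140) (nat_lit 5) (nat_lit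 141) (nat_lit 5) (nat_lit 627) (nat_lit 527) (nat_lit 406)) (XT.lf (nat_lit 0) (nat_lit 12771552499) (nat_lit 456) (nat_lit 1533524114) (nat_lit 76) (nat_lit 931349368) (nat_lit 135) (nat_lit 5) (nat_lit 141) (nat_lit 5) (nat_lit 136) (nat_lit 5) (nat_lit 628) (nat_lit 527) (nat_lit 405))))))) (XT.nd (nat_lit 1092) (nat_lit 836) (nat_lit 0) (XT.nd (nat_lit 546) (nat_lit 1520) (nat_lit 0) (XT.nd (nat_lit 234) (nat_lit 912) (nat_lit 0) (XT.nd (nat_lit 78) (nat_lit 304) (nat_lit 0) (XT.lf (nat_lit 0) (nat_lit 1842148553) (nat_lit 380) (nat_lit 6876717323) (nat_lit 76) (nat_lit 6699916847) (nat_lit 130) (nat_lit 5) (nat_lit 135) (nat_lit 5) (nat_lit 131) (nat_lit 5) (nat_lit 629) (nat_lit 527) (nat_lit 404)) (XT.nd (nat_lit 78) (nat_lit 0) (nat_lit 0) (XT.lf (nat_lit 0) (nat_lit 3231435883) (nat_lit 304) (nat_lit 2983939421) (nat_lit 380) (nat_lit 9388824565) (nat_lit 126) (nat_lit 5) (nat_lit 130) (nat_lit 5) (nat_lit 131) (nat_lit 5) (nat_lit 630) (nat_lit 527)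 (nat_lit 403)) (XT.lf (nat_lit 0) (nat_lit 10722913623) (nat_lit 380) (nat_lit 2206363553) (nat_lit 76) (nat_lit 2863111734) (nat_lit 126) (nat_lit 5) (nat_lit 131) (nat_lit 5) (nat_lit 127) (nat_lit 5) (nat_lit 631) (nat_lit 527) (nat_lit 402)))) (XT.nd (nat_lit 156) (nat_lit 228) (nat_lit 0) (XT.nd (nat_lit 78) (nat_lit 380) (nat_lit 0) (XT.lf (nat_lit 0) (nat_lit 8222007937) (nat_lit 304) (nat_lit 7153884865) (nat_lit 380) (nat_lit 607343611) (nat_lit 122) (nat_lit 5) (nat_lit 126) (nat_lit 5) (nat_lit 127) (nat_lit 5) (nat_lit 632) (nat_lit 527) (nat_lit 401)) (XT.lf (nat_lit 0) (nat_lit 2691370001) (nat_lit 304) (nat_lit 1215500891) (nat_lit 380) (nat_lit 12270226957) (nat_lit 117) (nat_lit 5) (nat_lit 121) (nat_lit 5) (nat_lit 122) (nat_lit 5) (nat_lit 633) (nat_lit 527) (nat_lit 400))) (XT.nd (nat_lit 78) (nat_lit 228) (nat_lit 0) (XT.lf (nat_lit 0) (nat_lit 8569379459) (nat_lit 380) (nat_lit 2980927741) (nat_lit 76) (nat_lit 4823126637) (nat_lit 117)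 (nat_lit 5) (nat_lit 122) (nat_lit 5) (nat_lit 118) (nat_lit 5) (nat_lit 634) (nat_lit 527) (nat_lit 399)) (XT.lf (nat_lit 0) (nat_lit 7799229995) (nat_lit 228) (nat_lit 5567215702) (nat_lit 304) (nat_lit 3206425144) (nat_lit 114) (nat_lit 5) (nat_lit 117) (nat_lit 5) (nat_lit 118) (nat_lit 5) (nat_lit 635) (nat_lit 527) (nat_lit 398))))) (XT.nd (nat_lit 234) (nat_lit 912) (nat_lit 0) (XT.nd (nat_lit 78) (nat_lit 228) (nat_lit 0) (XT.lf (nat_lit 0) (nat_lit 1483480941) (nat_lit 380) (nat_lit 14731892431) (nat_lit 76) (nat_lit 560335527) (nat_lit 109) (nat_lit 5) (nat_lit 114) (nat_lit 5) (nat_lit 110) (nat_lit 5) (nat_lit 636) (nat_lit 527) (nat_lit 397)) (XT.nd (nat_lit 78) (nat_lit 228) (nat_lit 0) (XT.lf (nat_lit 0) (nat_lit 6303162588) (nat_lit 380) (nat_lit 3872462699) (nat_lit 76) (nat_lit 6804976733) (nat_lit 109) (nat_lit 5) (nat_lit 114) (nat_lit 5) (nat_lit 110) (nat_lit 5) (nat_lit 637) (nat_lit 527) (nat_lit 396)) (XT.lf (nat_lit 0) (nat_lit 7270991528)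 (nat_lit 228) (nat_lit 3978529642) (nat_lit 304) (nat_lit 5939466580) (nat_lit 106) (nat_lit 5) (nat_lit 109) (nat_lit 5) (nat_lit 110) (nat_lit 5) (nat_lit 638) (nat_lit 527) (nat_lit 395)))) (XT.nd (nat_lit 156) (nat_lit 532) (nat_lit 0) (XT.nd (nat_lit 78) (nat_lit 76) (nat_lit 0) (XT.lf (nat_lit 0) (nat_lit 1261349550) (nat_lit 304) (nat_lit 15066162392) (nat_lit 380) (nat_lit 1073375557) (nat_lit 102) (nat_lit 5) (nat_lit 106) (nat_lit 5) (nat_lit 107) (nat_lit 5) (nat_lit 639) (nat_lit 527) (nat_lit 394)) (XT.lf (nat_lit 0) (nat_lit 3915545338) (nat_lit 380) (nat_lit 4897649622) (nat_lit 76) (nat_lit 8801795007) (nat_lit 101) (nat_lit 5) (nat_lit 106) (nat_lit 5) (nat_lit 102) (nat_lit 5) (nat_lit 640) (nat_lit 527) (nat_lit 393))) (XT.nd (nat_lit 78) (nat_lit 304) (nat_lit 0) (XT.lf (nat_lit 0) (nat_lit 6620728081) (nat_lit 228) (nat_lit 2395656387) (nat_lit 304) (nat_lit 8816318250) (nat_lit 98) (nat_lit 5) (nat_lit 101) (nat_lit 5) (nat_lit 102) (nat_lit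 5) (nat_lit 641) (nat_lit 527) (nat_lit 392)) (XT.lf (nat_lit 0) (nat_lit 330784806) (nat_lit 304) (nat_lit 13934212774) (nat_lit 380) (nat_lit 3788857373) (nat_lit 94) (nat_lit 5) (nat_lit 98) (nat_lit 5) (nat_lit 99) (nat_lit 5) (nat_lit 642) (nat_lit 527) (nat_lit 391)))))) (XT.nd (nat_lit 72384) (nat_lit 0) (nat_lit 47956) (XT.nd (nat_lit 234) (nat_lit 532) (nat_lit 0) (XT.nd (nat_lit 78) (nat_lit 228) (nat_lit 0) (XT.lf (nat_lit 0) (nat_lit 1396803571) (nat_lit 380) (nat_lit 6074775620) (nat_lit 76) (nat_lit 10806173228) (nat_lit 93) (nat_lit 5) (nat_lit 98) (nat_lit 5) (nat_lit 94) (nat_lit 5) (nat_lit 643) (nat_lit 527) (nat_lit 390)) (XT.nd (nat_lit 78) (nat_lit 0) (nat_lit 0) (XT.lf (nat_lit 0) (nat_lit 5830237395) (nat_lit 228) (nat_lit 827042346) (nat_lit 304) (nat_lit 11847910862) (nat_lit 90) (nat_lit 5) (nat_lit 93) (nat_lit 5) (nat_lit 94) (nat_lit 5) (nat_lit 644) (nat_lit 527) (nat_lit 389)) (XT.lf (nat_lit 0) (nat_lit 12086629961) (nat_lit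 304) (nat_lit 747252956) (nat_lit 76) (nat_lit 5902021688) (nat_lit 90) (nat_lit 5) (nat_lit 94) (nat_lit 5) (nat_lit 91) (nat_lit 5) (nat_lit 645) (nat_lit 527) (nat_lit 388)))) (XT.nd (nat_lit 71994) (nat_lit 0) (nat_lit 50160) (XT.nd (nat_lit 78) (nat_lit 304) (nat_lit 0) (XT.lf (nat_lit 0) (nat_lit 11537703309) (nat_lit 228) (nat_lit 6151560977) (nat_lit 304) (nat_lit 1280674998) (nat_lit 87) (nat_lit 5) (nat_lit 90) (nat_lit 5) (nat_lit 91) (nat_lit 5) (nat_lit 646) (nat_lit 527) (nat_lit 387)) (XT.lf (nat_lit 0) (nat_lit 4166004605) (nat_lit 304) (nat_lit 14332864346) (nat_lit 76) (nat_lit 708726657) (nat_lit 83) (nat_lit 5) (nat_lit 87) (nat_lit 5) (nat_lit 84) (nat_lit 5) (nat_lit 647) (nat_lit 527) (nat_lit 386))) (XT.nd (nat_lit 78) (nat_lit 0) (nat_lit 0) (XT.lf (nat_lit 0) (nat_lit 61156486) (nat_lit 684) (nat_lit 1610392291) (nat_lit 684) (nat_lit 1610392291) (nat_lit 743) (nat_lit 3) (nat_lit 752) (nat_lit 3) (nat_lit 752) (nat_lit 5) (nat_lit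 528) (nat_lit 528) (nat_lit 504)) (XT.lf (nat_lit 76) (nat_lit 41352247) (nat_lit 0) (nat_lit 2559493249) (nat_lit 684) (nat_lit 3978887349) (nat_lit 744) (nat_lit 5) (nat_lit 743) (nat_lit 3) (nat_lit 752) (nat_lit 5) (nat_lit 529) (nat_lit 528) (nat_lit 503))))) (XT.nd (nat_lit 312) (nat_lit 1520) (nat_lit 0) (XT.nd (nat_lit 156) (nat_lit 0) (nat_lit 76) (XT.nd (nat_lit 78) (nat_lit 684) (nat_lit 0) (XT.lf (nat_lit 76) (nat_lit 3378810241) (nat_lit 0) (nat_lit 1706559891) (nat_lit 684) (nat_lit 1511408351) (nat_lit 744) (nat_lit 5) (nat_lit 743) (nat_lit 3) (nat_lit 752) (nat_lit 5) (nat_lit 530) (nat_lit 528) (nat_lit 502)) (XT.lf (nat_lit 76) (nat_lit 130249851) (nat_lit 0) (nat_lit 798486937) (nat_lit 760) (nat_lit 5686573730) (nat_lit 735) (nat_lit 5) (nat_lit 734) (nat_lit 5) (nat_lit 744) (nat_lit 5) (nat_lit 531) (nat_lit 528) (nat_lit 501))) (XT.nd (nat_lit 78) (nat_lit 0) (nat_lit 0) (XT.lf (nat_lit 0) (nat_lit 3356926654) (nat_lit 684) (nat_lit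 3090736045) (nat_lit 760) (nat_lit 187167077) (nat_lit 735) (nat_lit 5) (nat_lit 744) (nat_lit 5) (nat_lit 745) (nat_lit 5) (nat_lit 532) (nat_lit 528) (nat_lit 500)) (XT.lf (nat_lit 76) (nat_lit 336258251) (nat_lit 0) (nat_lit 5443024613) (nat_lit 760) (nat_lit 876550365) (nat_lit 736) (nat_lit 5) (nat_lit 735) (nat_lit 5) (nat_lit 745) (nat_lit 5) (nat_lit 533) (nat_lit 528) (nat_lit 499)))) (XT.nd (nat_lit 156) (nat_lit 836) (nat_lit 0) (XT.nd (nat_lit 78) (nat_lit 0) (nat_lit 0) (XT.lf (nat_lit 0) (nat_lit 1511793464) (nat_lit 760) (nat_lit 2848436066) (nat_lit 836) (nat_lit 2317636781) (nat_lit 725) (nat_lit 5) (nat_lit 735) (nat_lit 5) (nat_lit 736) (nat_lit 5) (nat_lit 534) (nat_lit 528) (nat_lit 498)) (XT.lf (nat_lit 76) (nat_lit 660738226) (nat_lit 0) (nat_lit 3219645678) (nat_lit 836) (nat_lit 2820961458) (nat_lit 726) (nat_lit 5) (nat_lit 725) (nat_lit 5) (nat_lit 736) (nat_lit 5) (nat_lit 535) (nat_lit 528) (nat_lit 497))) (XT.nd (nat_lit 78) (nat_lit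 836) (nat_lit 0) (XT.lf (nat_lit 76) (nat_lit 4244684494) (nat_lit 0) (nat_lit 2011649211) (nat_lit 836) (nat_lit 469765956) (nat_lit 726) (nat_lit 5) (nat_lit 725) (nat_lit 5) (nat_lit 736) (nat_lit 5) (nat_lit 536) (nat_lit 528) (nat_lit 496)) (XT.lf (nat_lit 76) (nat_lit 1116952439) (nat_lit 0) (nat_lit 735104264) (nat_lit 912) (nat_lit 4900069228) (nat_lit 715) (nat_lit 5) (nat_lit 714) (nat_lit 5) (nat_lit 726) (nat_lit 5) (nat_lit 537) (nat_lit 528) (nat_lit 495))))))))
noncomputable def xc89 : XT := (XT.nd (nat_lit 2262) (nat_lit 14364) (nat_lit 0) (XT.nd (nat_lit 1092) (nat_lit 13908) (nat_lit 0) (XT.nd (nat_lit 546) (nat_lit 4484) (nat_lit 0) (XT.nd (nat_lit 234) (nat_lit 912) (nat_lit 0) (XT.nd (nat_lit 78) (nat_lit 912) (nat_lit 0) (XT.lf (nat_lit 0) (nat_lit 4177194612) (nat_lit 836) (nat_lit 1999536846) (nat_lit 912) (nat_lit 602620889) (nat_lit 715) (nat_lit 5) (nat_lit 726) (nat_lit 5) (nat_lit 727) (nat_lit 5) (nat_lit 538) (nat_lit 528) (nat_lit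 494)) (XT.nd (nat_lit 78) (nat_lit 912) (nat_lit 0) (XT.lf (nat_lit 76) (nat_lit 1691602193) (nat_lit 0) (nat_lit 4816927515) (nat_lit 912) (nat_lit 299404697) (nat_lit 716) (nat_lit 5) (nat_lit 715) (nat_lit 5) (nat_lit 727) (nat_lit 5) (nat_lit 539) (nat_lit 528) (nat_lit 493)) (XT.lf (nat_lit 0) (nat_lit 1980382585) (nat_lit 912) (nat_lit 1401591403) (nat_lit 988) (nat_lit 3455695656) (nat_lit 703) (nat_lit 5) (nat_lit 715) (nat_lit 5) (nat_lit 716) (nat_lit 5) (nat_lit 540) (nat_lit 528) (nat_lit 492)))) (XT.nd (nat_lit 156) (nat_lit 912) (nat_lit 0) (XT.nd (nat_lit 78) (nat_lit 0) (nat_lit 0) (XT.lf (nat_lit 76) (nat_lit 2382348525) (nat_lit 0) (nat_lit 1880321431) (nat_lit 988) (nat_lit 2606076497) (nat_lit 704) (nat_lit 5) (nat_lit 703) (nat_lit 5) (nat_lit 716) (nat_lit 5) (nat_lit 541) (nat_lit 528) (nat_lit 491)) (XT.lf (nat_lit 76) (nat_lit 6226834418) (nat_lit 0) (nat_lit 319464073) (nat_lit 988) (nat_lit 355037023) (nat_lit 704) (nat_lit 5) (nat_lit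 703) (nat_lit 5) (nat_lit 716) (nat_lit 5) (nat_lit 542) (nat_lit 528) (nat_lit 490))) (XT.nd (nat_lit 78) (nat_lit 0) (nat_lit 0) (XT.lf (nat_lit 0) (nat_lit 1891997299) (nat_lit 988) (nat_lit 3734632922) (nat_lit 1064) (nat_lit 1308169910) (nat_lit 691) (nat_lit 5) (nat_lit 704) (nat_lit 5) (nat_lit 705) (nat_lit 5) (nat_lit 543) (nat_lit 528) (nat_lit 489)) (XT.lf (nat_lit 76) (nat_lit 155051804) (nat_lit 0) (nat_lit 3979776997) (nat_lit 1064) (nat_lit 2834950452) (nat_lit 692) (nat_lit 5) (nat_lit 691) (nat_lit 5) (nat_lit 705) (nat_lit 5) (nat_lit 544) (nat_lit 528) (nat_lit 488))))) (XT.nd (nat_lit 234) (nat_lit 3420) (nat_lit 0) (XT.nd (nat_lit 78) (nat_lit 1064) (nat_lit 0) (XT.lf (nat_lit 76) (nat_lit 4138271902) (nat_lit 0) (nat_lit 2258028342) (nat_lit 1064) (nat_lit 609686316) (nat_lit 692) (nat_lit 5) (nat_lit 691) (nat_lit 5) (nat_lit 705) (nat_lit 5) (nat_lit 545) (nat_lit 528) (nat_lit 487)) (XT.nd (nat_lit 78) (nat_lit 0) (nat_lit 76) (XT.lf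 (nat_lit 76) (nat_lit 1127370726) (nat_lit 0) (nat_lit 467650073) (nat_lit 1140) (nat_lit 5448551553) (nat_lit 678) (nat_lit 5) (nat_lit 677) (nat_lit 5) (nat_lit 692) (nat_lit 5) (nat_lit 546) (nat_lit 528) (nat_lit 486)) (XT.lf (nat_lit 0) (nat_lit 3814114243) (nat_lit 1064) (nat_lit 1889025218) (nat_lit 76) (nat_lit 1379124705) (nat_lit 678) (nat_lit 5) (nat_lit 692) (nat_lit 5) (nat_lit 679) (nat_lit 5) (nat_lit 547) (nat_lit 528) (nat_lit 485)))) (XT.nd (nat_lit 156) (nat_lit 2356) (nat_lit 0) (XT.nd (nat_lit 78) (nat_lit 76) (nat_lit 0) (XT.lf (nat_lit 0) (nat_lit 2209531924) (nat_lit 1064) (nat_lit 3836732181) (nat_lit 1140) (nat_lit 1076096165) (nat_lit 664) (nat_lit 5) (nat_lit 678) (nat_lit 5) (nat_lit 679) (nat_lit 5) (nat_lit 548) (nat_lit 528) (nat_lit 484)) (XT.lf (nat_lit 0) (nat_lit 1108988042) (nat_lit 1140) (nat_lit 790412557) (nat_lit 76) (nat_lit 5264422879) (nat_lit 663) (nat_lit 5) (nat_lit 678) (nat_lit 5) (nat_lit 664) (nat_lit 5) (nat_lit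 549) (nat_lit 528) (nat_lit 483))) (XT.nd (nat_lit 78) (nat_lit 1216) (nat_lit 0) (XT.lf (nat_lit 0) (nat_lit 3298928737) (nat_lit 1216) (nat_lit 3789875873) (nat_lit 76) (nat_lit 117661524) (nat_lit 648) (nat_lit 5) (nat_lit 664) (nat_lit 5) (nat_lit 649) (nat_lit 5) (nat_lit 550) (nat_lit 528) (nat_lit 482)) (XT.lf (nat_lit 0) (nat_lit 426012238) (nat_lit 1216) (nat_lit 5080712686) (nat_lit 1292) (nat_lit 1743759229) (nat_lit 632) (nat_lit 5) (nat_lit 648) (nat_lit 5) (nat_lit 649) (nat_lit 5) (nat_lit 551) (nat_lit 528) (nat_lit 481)))))) (XT.nd (nat_lit 546) (nat_lit 8132) (nat_lit 0) (XT.nd (nat_lit 234) (nat_lit 4408) (nat_lit 0) (XT.nd (nat_lit 78) (nat_lit 1292) (nat_lit 0) (XT.lf (nat_lit 0) (nat_lit 436568665) (nat_lit 1292) (nat_lit 2556396573) (nat_lit 76) (nat_lit 4302773632) (nat_lit 631) (nat_lit 5) (nat_lit 648) (nat_lit 5) (nat_lit 632) (nat_lit 5) (nat_lit 552) (nat_lit 528) (nat_lit 480)) (XT.nd (nat_lit 78) (nat_lit 0) (nat_lit 0) (XT.lf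 (nat_lit 0) (nat_lit 1773519763) (nat_lit 1292) (nat_lit 829827845) (nat_lit 1368) (nat_lit 4739000114) (nat_lit 614) (nat_lit 5) (nat_lit 631) (nat_lit 5) (nat_lit 632) (nat_lit 5) (nat_lit 553) (nat_lit 528) (nat_lit 479)) (XT.lf (nat_lit 0) (nat_lit 4795049550) (nat_lit 1368) (nat_lit 1209870354) (nat_lit 76) (nat_lit 1385340466) (nat_lit 614) (nat_lit 5) (nat_lit 632) (nat_lit 5) (nat_lit 615) (nat_lit 5) (nat_lit 554) (nat_lit 528) (nat_lit 478)))) (XT.nd (nat_lit 156) (nat_lit 1520) (nat_lit 0) (XT.nd (nat_lit 78) (nat_lit 1520) (nat_lit 0) (XT.lf (nat_lit 0) (nat_lit 3237982155) (nat_lit 1368) (nat_lit 3775378348) (nat_lit 1444) (nat_lit 426118569) (nat_lit 596) (nat_lit 5) (nat_lit 614) (nat_lit 5) (nat_lit 615) (nat_lit 5) (nat_lit 555) (nat_lit 528) (nat_lit 477)) (XT.lf (nat_lit 0) (nat_lit 257797706) (nat_lit 1444) (nat_lit 1471573783) (nat_lit 1520) (nat_lit 5760752982) (nat_lit 576) (nat_lit 5) (nat_lit 595) (nat_lit 5) (nat_lit 596) (nat_lit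 5) (nat_lit 556) (nat_lit 528) (nat_lit 476))) (XT.nd (nat_lit 78) (nat_lit 1520) (nat_lit 0) (XT.lf (nat_lit 0) (nat_lit 3913621890) (nat_lit 1520) (nat_lit 2722975569) (nat_lit 76) (nat_lit 905304972) (nat_lit 576) (nat_lit 5) (nat_lit 596) (nat_lit 5) (nat_lit 577) (nat_lit 5) (nat_lit 557) (nat_lit 528) (nat_lit 475)) (XT.lf (nat_lit 0) (nat_lit 1855588754) (nat_lit 1520) (nat_lit 4265867082) (nat_lit 1596) (nat_lit 1473665192) (nat_lit 556) (nat_lit 5) (nat_lit 576) (nat_lit 5) (nat_lit 577) (nat_lit 5) (nat_lit 558) (nat_lit 528) (nat_lit 474))))) (XT.nd (nat_lit 312) (nat_lit 4788) (nat_lit 0) (XT.nd (nat_lit 156) (nat_lit 1672) (nat_lit 0) (XT.nd (nat_lit 78) (nat_lit 1596) (nat_lit 0) (XT.lf (nat_lit 0) (nat_lit 691361026) (nat_lit 1596) (nat_lit 1127111778) (nat_lit 76) (nat_lit 5831303816) (nat_lit 555) (nat_lit 5) (nat_lit 576) (nat_lit 5) (nat_lit 556) (nat_lit 5) (nat_lit 559) (nat_lit 528) (nat_lit 473)) (XT.lf (nat_lit 0) (nat_lit 2867106862)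 (nat_lit 1672) (nat_lit 4130777696) (nat_lit 76) (nat_lit 707705791) (nat_lit 534) (nat_lit 5) (nat_lit 556) (nat_lit 5) (nat_lit 535) (nat_lit 5) (nat_lit 560) (nat_lit 528) (nat_lit 472))) (XT.nd (nat_lit 78) (nat_lit 0) (nat_lit 0) (XT.lf (nat_lit 0) (nat_lit 583452084) (nat_lit 1672) (nat_lit 4486202722) (nat_lit 1748) (nat_lit 2693202621) (nat_lit 512) (nat_lit 5) (nat_lit 534) (nat_lit 5) (nat_lit 535) (nat_lit 5) (nat_lit 561) (nat_lit 528) (nat_lit 471)) (XT.lf (nat_lit 0) (nat_lit 5412403886) (nat_lit 1672) (nat_lit 1891968624) (nat_lit 1748) (nat_lit 517137722) (nat_lit 512) (nat_lit 5) (nat_lit 534) (nat_lit 5) (nat_lit 535) (nat_lit 5) (nat_lit 562) (nat_lit 528) (nat_lit 470)))) (XT.nd (nat_lit 156) (nat_lit 2964) (nat_lit 0) (XT.nd (nat_lit 78) (nat_lit 0) (nat_lit 0) (XT.lf (nat_lit 0) (nat_lit 1661991403) (nat_lit 1824) (nat_lit 5444487153) (nat_lit 76) (nat_lit 775001709) (nat_lit 488) (nat_lit 5) (nat_lit 512) (nat_lit 5) (nat_lit 489) (nat_lit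 5) (nat_lit 563) (nat_lit 528) (nat_lit 469)) (XT.lf (nat_lit 0) (nat_lit 3868064157) (nat_lit 1824) (nat_lit 581661191) (nat_lit 76) (nat_lit 3493052876) (nat_lit 488) (nat_lit 5) (nat_lit 512) (nat_lit 5) (nat_lit 489) (nat_lit 5) (nat_lit 564) (nat_lit 528) (nat_lit 468))) (XT.nd (nat_lit 78) (nat_lit 1140) (nat_lit 0) (XT.lf (nat_lit 0) (nat_lit 4400900632) (nat_lit 1824) (nat_lit 1708162690) (nat_lit 1900) (nat_lit 1896425273) (nat_lit 464) (nat_lit 5) (nat_lit 488) (nat_lit 5) (nat_lit 489) (nat_lit 5) (nat_lit 565) (nat_lit 528) (nat_lit 467)) (XT.lf (nat_lit 0) (nat_lit 303869699) (nat_lit 1140) (nat_lit 6674713143) (nat_lit 76) (nat_lit 1091176357) (nat_lit 449) (nat_lit 5) (nat_lit 464) (nat_lit 5) (nat_lit 450) (nat_lit 5) (nat_lit 566) (nat_lit 528) (nat_lit 466))))))) (XT.nd (nat_lit 1170) (nat_lit 6688) (nat_lit 0) (XT.nd (nat_lit 546) (nat_lit 4104) (nat_lit 0) (XT.nd (nat_lit 234) (nat_lit 1748) (nat_lit 0) (XT.nd (nat_lit 78) (nat_lit 1824)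 (nat_lit 0) (XT.lf (nat_lit 0) (nat_lit 2521475396) (nat_lit 1140) (nat_lit 1651357422) (nat_lit 76) (nat_lit 3962260136) (nat_lit 449) (nat_lit 5) (nat_lit 464) (nat_lit 5) (nat_lit 450) (nat_lit 5) (nat_lit 567) (nat_lit 528) (nat_lit 465)) (XT.nd (nat_lit 78) (nat_lit 912) (nat_lit 0) (XT.lf (nat_lit 0) (nat_lit 3482821437) (nat_lit 912) (nat_lit 1286962805) (nat_lit 988) (nat_lit 3432224479) (nat_lit 437) (nat_lit 5) (nat_lit 449) (nat_lit 5) (nat_lit 450) (nat_lit 5) (nat_lit 568) (nat_lit 528) (nat_lit 464)) (XT.lf (nat_lit 0) (nat_lit 431039367) (nat_lit 912) (nat_lit 6620955175) (nat_lit 988) (nat_lit 1218491866) (nat_lit 425) (nat_lit 5) (nat_lit 437) (nat_lit 5) (nat_lit 438) (nat_lit 5) (nat_lit 569) (nat_lit 528) (nat_lit 463)))) (XT.nd (nat_lit 156) (nat_lit 836) (nat_lit 0) (XT.nd (nat_lit 78) (nat_lit 836) (nat_lit 0) (XT.lf (nat_lit 0) (nat_lit 1030743201) (nat_lit 988) (nat_lit 2642992491) (nat_lit 76) (nat_lit 4666367970) (nat_lit 424) (nat_lit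 5) (nat_lit 437) (nat_lit 5) (nat_lit 425) (nat_lit 5) (nat_lit 570) (nat_lit 528) (nat_lit 462)) (XT.lf (nat_lit 0) (nat_lit 2648716229) (nat_lit 836) (nat_lit 642300811) (nat_lit 912) (nat_lit 5120289921) (nat_lit 413) (nat_lit 5) (nat_lit 424) (nat_lit 5) (nat_lit 425) (nat_lit 5) (nat_lit 571) (nat_lit 528) (nat_lit 461))) (XT.nd (nat_lit 78) (nat_lit 836) (nat_lit 0) (XT.lf (nat_lit 0) (nat_lit 5595862899) (nat_lit 912) (nat_lit 453313457) (nat_lit 76) (nat_lit 2434772775) (nat_lit 413) (nat_lit 5) (nat_lit 425) (nat_lit 5) (nat_lit 414) (nat_lit 5) (nat_lit 572) (nat_lit 528) (nat_lit 460)) (XT.lf (nat_lit 0) (nat_lit 4988222554) (nat_lit 836) (nat_lit 2961505706) (nat_lit 912) (nat_lit 608259525) (nat_lit 402) (nat_lit 5) (nat_lit 413) (nat_lit 5) (nat_lit 414) (nat_lit 5) (nat_lit 573) (nat_lit 528) (nat_lit 459))))) (XT.nd (nat_lit 312) (nat_lit 1596) (nat_lit 0) (XT.nd (nat_lit 156) (nat_lit 1596) (nat_lit 0) (XT.nd (nat_lit 78) (nat_lit 0) (nat_lit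 0) (XT.lf (nat_lit 0) (nat_lit 1677851544) (nat_lit 912) (nat_lit 6745443578) (nat_lit 76) (nat_lit 210326948) (nat_lit 390) (nat_lit 5) (nat_lit 402) (nat_lit 5) (nat_lit 391) (nat_lit 5) (nat_lit 574) (nat_lit 528) (nat_lit 458)) (XT.lf (nat_lit 0) (nat_lit 4012184760) (nat_lit 912) (nat_lit 1266148401) (nat_lit 76) (nat_lit 3432144552) (nat_lit 390) (nat_lit 5) (nat_lit 402) (nat_lit 5) (nat_lit 391) (nat_lit 5) (nat_lit 575) (nat_lit 528) (nat_lit 457))) (XT.nd (nat_lit 78) (nat_lit 760) (nat_lit 0) (XT.lf (nat_lit 0) (nat_lit 4344685395) (nat_lit 836) (nat_lit 2044287275) (nat_lit 912) (nat_lit 2399984371) (nat_lit 379) (nat_lit 5) (nat_lit 390) (nat_lit 5) (nat_lit 391) (nat_lit 5) (nat_lit 576) (nat_lit 528) (nat_lit 456)) (XT.lf (nat_lit 0) (nat_lit 1188020296) (nat_lit 760) (nat_lit 7617638539) (nat_lit 836) (nat_lit 63501767) (nat_lit 369) (nat_lit 5) (nat_lit 379) (nat_lit 5) (nat_lit 380) (nat_lit 5) (nat_lit 577) (nat_lit 528) (nat_lit 455))))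 (XT.nd (nat_lit 156) (nat_lit 760) (nat_lit 0) (XT.nd (nat_lit 78) (nat_lit 760) (nat_lit 0) (XT.lf (nat_lit 0) (nat_lit 2300986437) (nat_lit 836) (nat_lit 2021582224) (nat_lit 76) (nat_lit 4627866188) (nat_lit 368) (nat_lit 5) (nat_lit 379) (nat_lit 5) (nat_lit 369) (nat_lit 5) (nat_lit 578) (nat_lit 528) (nat_lit 454)) (XT.lf (nat_lit 0) (nat_lit 3765211357) (nat_lit 760) (nat_lit 939914642) (nat_lit 836) (nat_lit 4328337735) (nat_lit 358) (nat_lit 5) (nat_lit 368) (nat_lit 5) (nat_lit 369) (nat_lit 5) (nat_lit 579) (nat_lit 528) (nat_lit 453))) (XT.nd (nat_lit 78) (nat_lit 76) (nat_lit 0) (XT.lf (nat_lit 0) (nat_lit 532577267) (nat_lit 684) (nat_lit 6627310942) (nat_lit 760) (nat_lit 1958215942) (nat_lit 349) (nat_lit 5) (nat_lit 358) (nat_lit 5) (nat_lit 359) (nat_lit 5) (nat_lit 580) (nat_lit 528) (nat_lit 452)) (XT.lf (nat_lit 0) (nat_lit 464397146) (nat_lit 760) (nat_lit 2727793289) (nat_lit 76) (nat_lit 6011966727) (nat_lit 348) (nat_lit 5) (nat_lit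 358) (nat_lit 5) (nat_lit 349) (nat_lit 5) (nat_lit 581) (nat_lit 528) (nat_lit 451)))))) (XT.nd (nat_lit 546) (nat_lit 3192) (nat_lit 0) (XT.nd (nat_lit 234) (nat_lit 2052) (nat_lit 0) (XT.nd (nat_lit 78) (nat_lit 684) (nat_lit 0) (XT.lf (nat_lit 0) (nat_lit 2902436482) (nat_lit 836) (nat_lit 6052191171) (nat_lit 76) (nat_lit 337182464) (nat_lit 338) (nat_lit 5) (nat_lit 349) (nat_lit 5) (nat_lit 339) (nat_lit 5) (nat_lit 582) (nat_lit 528) (nat_lit 450)) (XT.nd (nat_lit 78) (nat_lit 684) (nat_lit 0) (XT.lf (nat_lit 0) (nat_lit 5399041056) (nat_lit 836) (nat_lit 73855458) (nat_lit 76) (nat_lit 3908125149) (nat_lit 338) (nat_lit 5) (nat_lit 349) (nat_lit 5) (nat_lit 339) (nat_lit 5) (nat_lit 583) (nat_lit 528) (nat_lit 449)) (XT.lf (nat_lit 0) (nat_lit 6069235052) (nat_lit 684) (nat_lit 1886569700) (nat_lit 760) (nat_lit 1516009732) (nat_lit 329) (nat_lit 5) (nat_lit 338) (nat_lit 5) (nat_lit 339) (nat_lit 5) (nat_lit 584) (nat_lit 528) (nat_lit 448)))) (XT.nd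 (nat_lit 156) (nat_lit 1292) (nat_lit 0) (XT.nd (nat_lit 78) (nat_lit 0) (nat_lit 0) (XT.lf (nat_lit 0) (nat_lit 987249027) (nat_lit 760) (nat_lit 6809135042) (nat_lit 76) (nat_lit 1767889374) (nat_lit 319) (nat_lit 5) (nat_lit 329) (nat_lit 5) (nat_lit 320) (nat_lit 5) (nat_lit 585) (nat_lit 528) (nat_lit 447)) (XT.lf (nat_lit 0) (nat_lit 3527059213) (nat_lit 760) (nat_lit 633558883) (nat_lit 76) (nat_lit 5497628850) (nat_lit 319) (nat_lit 5) (nat_lit 329) (nat_lit 5) (nat_lit 320) (nat_lit 5) (nat_lit 586) (nat_lit 528) (nat_lit 446))) (XT.nd (nat_lit 78) (nat_lit 684) (nat_lit 0) (XT.lf (nat_lit 0) (nat_lit 5706167618) (nat_lit 608) (nat_lit 420397675) (nat_lit 684) (nat_lit 3627358100) (nat_lit 311) (nat_lit 5) (nat_lit 319) (nat_lit 5) (nat_lit 320) (nat_lit 5) (nat_lit 587) (nat_lit 528) (nat_lit 445)) (XT.lf (nat_lit 0) (nat_lit 2303499439) (nat_lit 684) (nat_lit 6487980589) (nat_lit 760) (nat_lit 1059766407) (nat_lit 302) (nat_lit 5) (nat_lit 311)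 (nat_lit 5) (nat_lit 312) (nat_lit 5) (nat_lit 588) (nat_lit 528) (nat_lit 444))))) (XT.nd (nat_lit 312) (nat_lit 1900) (nat_lit 0) (XT.nd (nat_lit 156) (nat_lit 608) (nat_lit 0) (XT.nd (nat_lit 78) (nat_lit 608) (nat_lit 0) (XT.lf (nat_lit 0) (nat_lit 1541137645) (nat_lit 760) (nat_lit 1161045942) (nat_lit 76) (nat_lit 7248083078) (nat_lit 301) (nat_lit 5) (nat_lit 311) (nat_lit 5) (nat_lit 302) (nat_lit 5) (nat_lit 589) (nat_lit 528) (nat_lit 443)) (XT.lf (nat_lit 0) (nat_lit 4195420257) (nat_lit 684) (nat_lit 4675718903) (nat_lit 76) (nat_lit 1179678379) (nat_lit 293) (nat_lit 5) (nat_lit 302) (nat_lit 5) (nat_lit 294) (nat_lit 5) (nat_lit 590) (nat_lit 528) (nat_lit 442))) (XT.nd (nat_lit 78) (nat_lit 0) (nat_lit 0) (XT.lf (nat_lit 0) (nat_lit 1876924494) (nat_lit 608) (nat_lit 5036883878) (nat_lit 684) (nat_lit 3239351989) (nat_lit 285) (nat_lit 5) (nat_lit 293) (nat_lit 5) (nat_lit 294) (nat_lit 5) (nat_lit 591) (nat_lit 528) (nat_lit 441)) (XT.lf (nat_lit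 0) (nat_lit 8590000891) (nat_lit 608) (nat_lit 1101342212) (nat_lit 684) (nat_lit 566112662) (nat_lit 285) (nat_lit 5) (nat_lit 293) (nat_lit 5) (nat_lit 294) (nat_lit 5) (nat_lit 592) (nat_lit 528) (nat_lit 440)))) (XT.nd (nat_lit 156) (nat_lit 608) (nat_lit 0) (XT.nd (nat_lit 78) (nat_lit 608) (nat_lit 0) (XT.lf (nat_lit 0) (nat_lit 2158245353) (nat_lit 684) (nat_lit 5290017680) (nat_lit 76) (nat_lit 2914774925) (nat_lit 276) (nat_lit 5) (nat_lit 285) (nat_lit 5) (nat_lit 277) (nat_lit 5) (nat_lit 593) (nat_lit 528) (nat_lit 439)) (XT.lf (nat_lit 0) (nat_lit 1474689878) (nat_lit 608) (nat_lit 3456957994) (nat_lit 684) (nat_lit 5538967557) (nat_lit 268) (nat_lit 5) (nat_lit 276) (nat_lit 5) (nat_lit 277) (nat_lit 5) (nat_lit 594) (nat_lit 528) (nat_lit 438))) (XT.nd (nat_lit 78) (nat_lit 608) (nat_lit 0) (XT.lf (nat_lit 0) (nat_lit 7774477556) (nat_lit 684) (nat_lit 2171632050) (nat_lit 76) (nat_lit 633956864) (nat_lit 268) (nat_lit 5) (nat_lit 277) (nat_lit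 5) (nat_lit 269) (nat_lit 5) (nat_lit 595) (nat_lit 528) (nat_lit 437)) (XT.lf (nat_lit 0) (nat_lit 11649778) (nat_lit 608) (nat_lit 5895563539) (nat_lit 76) (nat_lit 4783917400) (nat_lit 260) (nat_lit 5) (nat_lit 268) (nat_lit 5) (nat_lit 261) (nat_lit 5) (nat_lit 596) (nat_lit 528) (nat_lit 436))))))))
noncomputable def xc90 : XT := (XT.nd (nat_lit 2262) (nat_lit 4408) (nat_lit 0) (XT.nd (nat_lit 1092) (nat_lit 4104) (nat_lit 0) (XT.nd (nat_lit 546) (nat_lit 1976) (nat_lit 0) (XT.nd (nat_lit 234) (nat_lit 1596) (nat_lit 0) (XT.nd (nat_lit 78) (nat_lit 532) (nat_lit 0) (XT.lf (nat_lit 0) (nat_lit 1089415123) (nat_lit 532) (nat_lit 1754884240) (nat_lit 608) (nat_lit 7959814463) (nat_lit 253) (nat_lit 5) (nat_lit 260) (nat_lit 5) (nat_lit 261) (nat_lit 5) (nat_lit 597) (nat_lit 528) (nat_lit 435)) (XT.nd (nat_lit 78) (nat_lit 532) (nat_lit 0) (XT.lf (nat_lit 0) (nat_lit 5764607416) (nat_lit 608) (nat_lit 2674763827) (nat_lit 76) (nat_lit 2479366354) (nat_lit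 253) (nat_lit 5) (nat_lit 261) (nat_lit 5) (nat_lit 254) (nat_lit 5) (nat_lit 598) (nat_lit 528) (nat_lit 434)) (XT.lf (nat_lit 0) (nat_lit 4520457398) (nat_lit 532) (nat_lit 4239400636) (nat_lit 608) (nat_lit 2275466171) (nat_lit 246) (nat_lit 5) (nat_lit 253) (nat_lit 5) (nat_lit 254) (nat_lit 5) (nat_lit 599) (nat_lit 528) (nat_lit 433)))) (XT.nd (nat_lit 156) (nat_lit 988) (nat_lit 0) (XT.nd (nat_lit 78) (nat_lit 0) (nat_lit 0) (XT.lf (nat_lit 0) (nat_lit 650885103) (nat_lit 608) (nat_lit 10440976842) (nat_lit 76) (nat_lit 62320241) (nat_lit 238) (nat_lit 5) (nat_lit 246) (nat_lit 5) (nat_lit 239) (nat_lit 5) (nat_lit 600) (nat_lit 528) (nat_lit 432)) (XT.lf (nat_lit 0) (nat_lit 3653279460) (nat_lit 608) (nat_lit 3177315986) (nat_lit 76) (nat_lit 4443562401) (nat_lit 238) (nat_lit 5) (nat_lit 246) (nat_lit 5) (nat_lit 239) (nat_lit 5) (nat_lit 601) (nat_lit 528) (nat_lit 431))) (XT.nd (nat_lit 78) (nat_lit 532) (nat_lit 0) (XT.lf (nat_lit 0) (nat_lit 4254586023)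 (nat_lit 456) (nat_lit 2465105212) (nat_lit 532) (nat_lit 4676763400) (nat_lit 232) (nat_lit 5) (nat_lit 238) (nat_lit 5) (nat_lit 239) (nat_lit 5) (nat_lit 602) (nat_lit 528) (nat_lit 430)) (XT.lf (nat_lit 0) (nat_lit 315490645) (nat_lit 532) (nat_lit 9544895230) (nat_lit 608) (nat_lit 1660553377) (nat_lit 225) (nat_lit 5) (nat_lit 232) (nat_lit 5) (nat_lit 233) (nat_lit 5) (nat_lit 603) (nat_lit 528) (nat_lit 429))))) (XT.nd (nat_lit 234) (nat_lit 1444) (nat_lit 0) (XT.nd (nat_lit 78) (nat_lit 456) (nat_lit 0) (XT.lf (nat_lit 0) (nat_lit 1438608779) (nat_lit 608) (nat_lit 3687103307) (nat_lit 76) (nat_lit 6521194580) (nat_lit 224) (nat_lit 5) (nat_lit 232) (nat_lit 5) (nat_lit 225) (nat_lit 5) (nat_lit 604) (nat_lit 528) (nat_lit 428)) (XT.nd (nat_lit 78) (nat_lit 0) (nat_lit 0) (XT.lf (nat_lit 0) (nat_lit 3990477908) (nat_lit 456) (nat_lit 590059790) (nat_lit 532) (nat_lit 7194576766) (nat_lit 218) (nat_lit 5) (nat_lit 224) (nat_lit 5) (nat_lit 225) (nat_lit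 5) (nat_lit 605) (nat_lit 528) (nat_lit 427)) (XT.lf (nat_lit 0) (nat_lit 7813684129) (nat_lit 532) (nat_lit 92819675) (nat_lit 76) (nat_lit 3998815948) (nat_lit 218) (nat_lit 5) (nat_lit 225) (nat_lit 5) (nat_lit 219) (nat_lit 5) (nat_lit 606) (nat_lit 528) (nat_lit 426)))) (XT.nd (nat_lit 156) (nat_lit 456) (nat_lit 0) (XT.nd (nat_lit 78) (nat_lit 532) (nat_lit 0) (XT.lf (nat_lit 0) (nat_lit 7819471522) (nat_lit 456) (nat_lit 3324410898) (nat_lit 532) (nat_lit 893599841) (nat_lit 212) (nat_lit 5) (nat_lit 218) (nat_lit 5) (nat_lit 219) (nat_lit 5) (nat_lit 607) (nat_lit 528) (nat_lit 425)) (XT.lf (nat_lit 0) (nat_lit 2348874553) (nat_lit 532) (nat_lit 8460583347) (nat_lit 76) (nat_lit 1362292638) (nat_lit 205) (nat_lit 5) (nat_lit 212) (nat_lit 5) (nat_lit 206) (nat_lit 5) (nat_lit 608) (nat_lit 528) (nat_lit 424))) (XT.nd (nat_lit 78) (nat_lit 456) (nat_lit 0) (XT.lf (nat_lit 0) (nat_lit 5672712551) (nat_lit 532) (nat_lit 512412827) (nat_lit 76) (nat_lit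 6122891922) (nat_lit 205) (nat_lit 5) (nat_lit 212) (nat_lit 5) (nat_lit 206) (nat_lit 5) (nat_lit 609) (nat_lit 528) (nat_lit 423)) (XT.lf (nat_lit 0) (nat_lit 7663604797) (nat_lit 456) (nat_lit 1427571623) (nat_lit 532) (nat_lit 3355270820) (nat_lit 199) (nat_lit 5) (nat_lit 205) (nat_lit 5) (nat_lit 206) (nat_lit 5) (nat_lit 610) (nat_lit 528) (nat_lit 422)))))) (XT.nd (nat_lit 546) (nat_lit 1976) (nat_lit 0) (XT.nd (nat_lit 234) (nat_lit 1216) (nat_lit 0) (XT.nd (nat_lit 78) (nat_lit 456) (nat_lit 0) (XT.lf (nat_lit 0) (nat_lit 17071292) (nat_lit 456) (nat_lit 9173996181) (nat_lit 76) (nat_lit 3396048728) (nat_lit 193) (nat_lit 5) (nat_lit 199) (nat_lit 5) (nat_lit 194) (nat_lit 5) (nat_lit 611) (nat_lit 528) (nat_lit 421)) (XT.nd (nat_lit 78) (nat_lit 456) (nat_lit 0) (XT.lf (nat_lit 0) (nat_lit 3432357956) (nat_lit 456) (nat_lit 955866283) (nat_lit 76) (nat_lit 8341523017) (nat_lit 193) (nat_lit 5) (nat_lit 199) (nat_lit 5) (nat_lit 194) (nat_lit 5)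 (nat_lit 612) (nat_lit 528) (nat_lit 420)) (XT.lf (nat_lit 0) (nat_lit 6947215353) (nat_lit 532) (nat_lit 5384574296) (nat_lit 76) (nat_lit 542816746) (nat_lit 187) (nat_lit 5) (nat_lit 194) (nat_lit 5) (nat_lit 188) (nat_lit 5) (nat_lit 613) (nat_lit 528) (nat_lit 419)))) (XT.nd (nat_lit 156) (nat_lit 760) (nat_lit 0) (XT.nd (nat_lit 78) (nat_lit 76) (nat_lit 0) (XT.lf (nat_lit 0) (nat_lit 3075426263) (nat_lit 380) (nat_lit 7491612019) (nat_lit 456) (nat_lit 2454631815) (nat_lit 182) (nat_lit 5) (nat_lit 187) (nat_lit 5) (nat_lit 188) (nat_lit 5) (nat_lit 614) (nat_lit 528) (nat_lit 418)) (XT.lf (nat_lit 0) (nat_lit 1088942704) (nat_lit 456) (nat_lit 1432082867) (nat_lit 76) (nat_lit 10650196514) (nat_lit 181) (nat_lit 5) (nat_lit 187) (nat_lit 5) (nat_lit 182) (nat_lit 5) (nat_lit 615) (nat_lit 528) (nat_lit 417))) (XT.nd (nat_lit 78) (nat_lit 380) (nat_lit 0) (XT.lf (nat_lit 0) (nat_lit 4714516328) (nat_lit 456) (nat_lit 6038772210) (nat_lit 76) (nat_lit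 2569272878) (nat_lit 176) (nat_lit 5) (nat_lit 182) (nat_lit 5) (nat_lit 177) (nat_lit 5) (nat_lit 616) (nat_lit 528) (nat_lit 416)) (XT.lf (nat_lit 0) (nat_lit 2704403154) (nat_lit 380) (nat_lit 5731916356) (nat_lit 456) (nat_lit 5040134348) (nat_lit 171) (nat_lit 5) (nat_lit 176) (nat_lit 5) (nat_lit 177) (nat_lit 5) (nat_lit 617) (nat_lit 528) (nat_lit 415))))) (XT.nd (nat_lit 312) (nat_lit 1140) (nat_lit 0) (XT.nd (nat_lit 156) (nat_lit 380) (nat_lit 0) (XT.nd (nat_lit 78) (nat_lit 456) (nat_lit 0) (XT.lf (nat_lit 0) (nat_lit 11673540817) (nat_lit 380) (nat_lit 579527952) (nat_lit 456) (nat_lit 1379945859) (nat_lit 171) (nat_lit 5) (nat_lit 176) (nat_lit 5) (nat_lit 177) (nat_lit 5) (nat_lit 618) (nat_lit 528) (nat_lit 414)) (XT.lf (nat_lit 0) (nat_lit 2379469433) (nat_lit 456) (nat_lit 6746107890) (nat_lit 76) (nat_lit 4665686562) (nat_lit 165) (nat_lit 5) (nat_lit 171) (nat_lit 5) (nat_lit 166) (nat_lit 5) (nat_lit 619) (nat_lit 528) (nat_lit 413)))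 (XT.nd (nat_lit 78) (nat_lit 0) (nat_lit 0) (XT.lf (nat_lit 0) (nat_lit 2290459583) (nat_lit 380) (nat_lit 3917468927) (nat_lit 456) (nat_lit 7744321165) (nat_lit 160) (nat_lit 5) (nat_lit 165) (nat_lit 5) (nat_lit 166) (nat_lit 5) (nat_lit 620) (nat_lit 528) (nat_lit 412)) (XT.lf (nat_lit 0) (nat_lit 10148070015) (nat_lit 456) (nat_lit 2556360577) (nat_lit 76) (nat_lit 1411322950) (nat_lit 160) (nat_lit 5) (nat_lit 166) (nat_lit 5) (nat_lit 161) (nat_lit 5) (nat_lit 621) (nat_lit 528) (nat_lit 411)))) (XT.nd (nat_lit 156) (nat_lit 380) (nat_lit 0) (XT.nd (nat_lit 78) (nat_lit 380) (nat_lit 0) (XT.lf (nat_lit 0) (nat_lit 6763886067) (nat_lit 380) (nat_lit 7453857550) (nat_lit 456) (nat_lit 63769897) (nat_lit 155) (nat_lit 5) (nat_lit 160) (nat_lit 5) (nat_lit 161) (nat_lit 5) (nat_lit 622) (nat_lit 528) (nat_lit 410)) (XT.lf (nat_lit 0) (nat_lit 1823188456) (nat_lit 304) (nat_lit 2053676117) (nat_lit 380) (nat_lit 10573015294) (nat_lit 150) (nat_lit 5) (nat_lit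 154) (nat_lit 5) (nat_lit 155) (nat_lit 5) (nat_lit 623) (nat_lit 528) (nat_lit 409))) (XT.nd (nat_lit 78) (nat_lit 380) (nat_lit 0) (XT.lf (nat_lit 0) (nat_lit 7949702443) (nat_lit 380) (nat_lit 3221288552) (nat_lit 76) (nat_lit 3449529806) (nat_lit 150) (nat_lit 5) (nat_lit 155) (nat_lit 5) (nat_lit 151) (nat_lit 5) (nat_lit 624) (nat_lit 528) (nat_lit 408)) (XT.lf (nat_lit 0) (nat_lit 6413100750) (nat_lit 380) (nat_lit 5727540322) (nat_lit 456) (nat_lit 2653201170) (nat_lit 145) (nat_lit 5) (nat_lit 150) (nat_lit 5) (nat_lit 151) (nat_lit 5) (nat_lit 625) (nat_lit 528) (nat_lit 407))))))) (XT.nd (nat_lit 1092) (nat_lit 1444) (nat_lit 0) (XT.nd (nat_lit 546) (nat_lit 1520) (nat_lit 0) (XT.nd (nat_lit 234) (nat_lit 684) (nat_lit 0) (XT.nd (nat_lit 78) (nat_lit 380) (nat_lit 0) (XT.lf (nat_lit 0) (nat_lit 1291376431) (nat_lit 304) (nat_lit 146044042) (nat_lit 380) (nat_lit 13532790564) (nat_lit 140) (nat_lit 5) (nat_lit 144) (nat_lit 5) (nat_lit 145) (nat_lit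 5) (nat_lit 626) (nat_lit 528) (nat_lit 406)) (XT.nd (nat_lit 78) (nat_lit 380) (nat_lit 0) (XT.lf (nat_lit 0) (nat_lit 5648544689) (nat_lit 380) (nat_lit 3962183847) (nat_lit 76) (nat_lit 5537544124) (nat_lit 140) (nat_lit 5) (nat_lit 145) (nat_lit 5) (nat_lit 141) (nat_lit 5) (nat_lit 627) (nat_lit 528) (nat_lit 405)) (XT.lf (nat_lit 0) (nat_lit 5997289610) (nat_lit 380) (nat_lit 3968425303) (nat_lit 456) (nat_lit 5363744654) (nat_lit 135) (nat_lit 5) (nat_lit 140) (nat_lit 5) (nat_lit 141) (nat_lit 5) (nat_lit 628) (nat_lit 528) (nat_lit 404)))) (XT.nd (nat_lit 156) (nat_lit 304) (nat_lit 0) (XT.nd (nat_lit 78) (nat_lit 76) (nat_lit 0) (XT.lf (nat_lit 0) (nat_lit 663555107) (nat_lit 304) (nat_lit 13730358870) (nat_lit 380) (nat_lit 1119863041) (nat_lit 131) (nat_lit 5) (nat_lit 135) (nat_lit 5) (nat_lit 136) (nat_lit 5) (nat_lit 629) (nat_lit 528) (nat_lit 403)) (XT.lf (nat_lit 0) (nat_lit 3238187816) (nat_lit 380) (nat_lit 4791703235) (nat_lit 76) (nat_lit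 7670046036) (nat_lit 130) (nat_lit 5) (nat_lit 135) (nat_lit 5) (nat_lit 131) (nat_lit 5) (nat_lit 630) (nat_lit 528) (nat_lit 402))) (XT.nd (nat_lit 78) (nat_lit 0) (nat_lit 0) (XT.lf (nat_lit 0) (nat_lit 5503991006) (nat_lit 304) (nat_lit 2182572511) (nat_lit 380) (nat_lit 8202746103) (nat_lit 126) (nat_lit 5) (nat_lit 130) (nat_lit 5) (nat_lit 131) (nat_lit 5) (nat_lit 631) (nat_lit 528) (nat_lit 401)) (XT.lf (nat_lit 0) (nat_lit 12263324039) (nat_lit 380) (nat_lit 64892616) (nat_lit 76) (nat_lit 3753465076) (nat_lit 126) (nat_lit 5) (nat_lit 131) (nat_lit 5) (nat_lit 127) (nat_lit 5) (nat_lit 632) (nat_lit 528) (nat_lit 400))))) (XT.nd (nat_lit 234) (nat_lit 836) (nat_lit 0) (XT.nd (nat_lit 78) (nat_lit 304) (nat_lit 0) (XT.lf (nat_lit 0) (nat_lit 711421389) (nat_lit 380) (nat_lit 5723597967) (nat_lit 76) (nat_lit 9841471967) (nat_lit 121) (nat_lit 5) (nat_lit 126) (nat_lit 5) (nat_lit 122) (nat_lit 5) (nat_lit 633) (nat_lit 528) (nat_lit 399)) (XT.nd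 (nat_lit 78) (nat_lit 0) (nat_lit 0) (XT.lf (nat_lit 0) (nat_lit 4919630120) (nat_lit 304) (nat_lit 376346190) (nat_lit 380) (nat_lit 11178410293) (nat_lit 117) (nat_lit 5) (nat_lit 121) (nat_lit 5) (nat_lit 122) (nat_lit 5) (nat_lit 634) (nat_lit 528) (nat_lit 398)) (XT.lf (nat_lit 0) (nat_lit 10031526055) (nat_lit 380) (nat_lit 888507338) (nat_lit 76) (nat_lit 5755020761) (nat_lit 117) (nat_lit 5) (nat_lit 122) (nat_lit 5) (nat_lit 118) (nat_lit 5) (nat_lit 635) (nat_lit 528) (nat_lit 397)))) (XT.nd (nat_lit 156) (nat_lit 228) (nat_lit 0) (XT.nd (nat_lit 78) (nat_lit 380) (nat_lit 0) (XT.lf (nat_lit 0) (nat_lit 10093095401) (nat_lit 228) (nat_lit 4820009756) (nat_lit 304) (nat_lit 1965603961) (nat_lit 114) (nat_lit 5) (nat_lit 117) (nat_lit 5) (nat_lit 118) (nat_lit 5) (nat_lit 636) (nat_lit 528) (nat_lit 396)) (XT.lf (nat_lit 0) (nat_lit 2795245783) (nat_lit 380) (nat_lit 12865731855) (nat_lit 76) (nat_lit 1424572269) (nat_lit 109) (nat_lit 5) (nat_lit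 114) (nat_lit 5) (nat_lit 110) (nat_lit 5) (nat_lit 637) (nat_lit 528) (nat_lit 395))) (XT.nd (nat_lit 78) (nat_lit 228) (nat_lit 0) (XT.lf (nat_lit 0) (nat_lit 7686181941) (nat_lit 380) (nat_lit 1831482126) (nat_lit 76) (nat_lit 7777380220) (nat_lit 109) (nat_lit 5) (nat_lit 114) (nat_lit 5) (nat_lit 110) (nat_lit 5) (nat_lit 638) (nat_lit 528) (nat_lit 394)) (XT.lf (nat_lit 0) (nat_lit 9520904148) (nat_lit 228) (nat_lit 3199581112) (nat_lit 304) (nat_lit 4787332720) (nat_lit 106) (nat_lit 5) (nat_lit 109) (nat_lit 5) (nat_lit 110) (nat_lit 5) (nat_lit 639) (nat_lit 528) (nat_lit 393)))))) (XT.nd (nat_lit 546) (nat_lit 0) (nat_lit 0) (XT.nd (nat_lit 234) (nat_lit 836) (nat_lit 0) (XT.nd (nat_lit 78) (nat_lit 228) (nat_lit 0) (XT.lf (nat_lit 0) (nat_lit 168468100) (nat_lit 380) (nat_lit 14328698040) (nat_lit 76) (nat_lit 3226873352) (nat_lit 101) (nat_lit 5) (nat_lit 106) (nat_lit 5) (nat_lit 102) (nat_lit 5) (nat_lit 640) (nat_lit 528) (nat_lit 392)) (XT.nd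 (nat_lit 78) (nat_lit 228) (nat_lit 0) (XT.lf (nat_lit 0) (nat_lit 5218319093) (nat_lit 380) (nat_lit 2910776907) (nat_lit 76) (nat_lit 9813676191) (nat_lit 101) (nat_lit 5) (nat_lit 106) (nat_lit 5) (nat_lit 102) (nat_lit 5) (nat_lit 641) (nat_lit 528) (nat_lit 391)) (XT.lf (nat_lit 0) (nat_lit 8824252391) (nat_lit 228) (nat_lit 1586360557) (nat_lit 304) (nat_lit 7754438046) (nat_lit 98) (nat_lit 5) (nat_lit 101) (nat_lit 5) (nat_lit 102) (nat_lit 5) (nat_lit 642) (nat_lit 528) (nat_lit 390)))) (XT.nd (nat_lit 156) (nat_lit 456) (nat_lit 0) (XT.nd (nat_lit 78) (nat_lit 76) (nat_lit 0) (XT.lf (nat_lit 0) (nat_lit 2413501447) (nat_lit 304) (nat_lit 13345830764) (nat_lit 380) (nat_lit 2631391930) (nat_lit 94) (nat_lit 5) (nat_lit 98) (nat_lit 5) (nat_lit 99) (nat_lit 5) (nat_lit 643) (nat_lit 528) (nat_lit 389)) (XT.lf (nat_lit 0) (nat_lit 2617943948) (nat_lit 380) (nat_lit 4144994831) (nat_lit 76) (nat_lit 11856478441) (nat_lit 93) (nat_lit 5) (nat_lit 98)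 (nat_lit 5) (nat_lit 94) (nat_lit 5) (nat_lit 644) (nat_lit 528) (nat_lit 388))) (XT.nd (nat_lit 78) (nat_lit 228) (nat_lit 0) (XT.lf (nat_lit 0) (nat_lit 7973536558) (nat_lit 304) (nat_lit 10867057239) (nat_lit 76) (nat_lit 11012745) (nat_lit 90) (nat_lit 5) (nat_lit 94) (nat_lit 5) (nat_lit 91) (nat_lit 5) (nat_lit 645) (nat_lit 528) (nat_lit 387)) (XT.lf (nat_lit 0) (nat_lit 1270064930) (nat_lit 228) (nat_lit 12231826404) (nat_lit 304) (nat_lit 5585235643) (nat_lit 87) (nat_lit 5) (nat_lit 90) (nat_lit 5) (nat_lit 91) (nat_lit 5) (nat_lit 646) (nat_lit 528) (nat_lit 386))))) (XT.nd (nat_lit 72228) (nat_lit 0) (nat_lit 48412) (XT.nd (nat_lit 72072) (nat_lit 0) (nat_lit 49172) (XT.nd (nat_lit 71994) (nat_lit 0) (nat_lit 49856) (XT.lf (nat_lit 0) (nat_lit 13770802627) (nat_lit 228) (nat_lit 5427681489) (nat_lit 304) (nat_lit 127720611) (nat_lit 87) (nat_lit 5) (nat_lit 90) (nat_lit 5) (nat_lit 91) (nat_lit 5) (nat_lit 647) (nat_lit 528) (nat_lit 385)) (XT.lf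 (nat_lit 0) (nat_lit 2523337931) (nat_lit 684) (nat_lit 387391218) (nat_lit 684) (nat_lit 387391218) (nat_lit 743) (nat_lit 3) (nat_lit 752) (nat_lit 3) (nat_lit 752) (nat_lit 5) (nat_lit 529) (nat_lit 529) (nat_lit 502))) (XT.nd (nat_lit 78) (nat_lit 0) (nat_lit 0) (XT.lf (nat_lit 0) (nat_lit 868891614) (nat_lit 684) (nat_lit 4083659375) (nat_lit 760) (nat_lit 1661358888) (nat_lit 734) (nat_lit 5) (nat_lit 743) (nat_lit 3) (nat_lit 744) (nat_lit 5) (nat_lit 530) (nat_lit 529) (nat_lit 501)) (XT.lf (nat_lit 0) (nat_lit 3257140372) (nat_lit 684) (nat_lit 763358880) (nat_lit 760) (nat_lit 2612390840) (nat_lit 734) (nat_lit 5) (nat_lit 743) (nat_lit 3) (nat_lit 744) (nat_lit 5) (nat_lit 531) (nat_lit 529) (nat_lit 500)))) (XT.nd (nat_lit 156) (nat_lit 0) (nat_lit 0) (XT.nd (nat_lit 78) (nat_lit 760) (nat_lit 0) (XT.lf (nat_lit 76) (nat_lit 2625307937) (nat_lit 0) (nat_lit 3023047081) (nat_lit 760) (nat_lit 1004796739) (nat_lit 735) (nat_lit 5) (nat_lit 734) (nat_lit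 5) (nat_lit 744) (nat_lit 5) (nat_lit 532) (nat_lit 529) (nat_lit 499)) (XT.lf (nat_lit 0) (nat_lit 1338942749) (nat_lit 760) (nat_lit 623909432) (nat_lit 836) (nat_lit 4711910414) (nat_lit 724) (nat_lit 5) (nat_lit 734) (nat_lit 5) (nat_lit 735) (nat_lit 5) (nat_lit 533) (nat_lit 529) (nat_lit 498))) (XT.nd (nat_lit 78) (nat_lit 0) (nat_lit 76) (XT.lf (nat_lit 76) (nat_lit 2846351280) (nat_lit 0) (nat_lit 828195747) (nat_lit 836) (nat_lit 3022962429) (nat_lit 725) (nat_lit 5) (nat_lit 724) (nat_lit 5) (nat_lit 735) (nat_lit 5) (nat_lit 534) (nat_lit 529) (nat_lit 497)) (XT.lf (nat_lit 0) (nat_lit 6004308909) (nat_lit 760) (nat_lit 361894466) (nat_lit 836) (nat_lit 355564387) (nat_lit 725) (nat_lit 5) (nat_lit 735) (nat_lit 5) (nat_lit 736) (nat_lit 5) (nat_lit 535) (nat_lit 529) (nat_lit 496))))))))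
noncomputable def xc91 : XT := (XT.nd (nat_lit 2262) (nat_lit 16112) (nat_lit 0) (XT.nd (nat_lit 1092) (nat_lit 13300) (nat_lit 0) (XT.nd (nat_lit 546) (nat_lit 2052) (nat_lit 0) (XT.nd (nat_lit 234) (nat_lit 1824) (nat_lit 0) (XT.nd (nat_lit 78) (nat_lit 0) (nat_lit 0) (XT.lf (nat_lit 0) (nat_lit 1581023773) (nat_lit 836) (nat_lit 3556818025) (nat_lit 912) (nat_lit 1609096417) (nat_lit 714) (nat_lit 5) (nat_lit 725) (nat_lit 5) (nat_lit 726) (nat_lit 5) (nat_lit 536) (nat_lit 529) (nat_lit 495)) (XT.nd (nat_lit 78) (nat_lit 0) (nat_lit 0) (XT.lf (nat_lit 76) (nat_lit 7379432) (nat_lit 0) (nat_lit 3853778838) (nat_lit 912) (nat_lit 2912458280) (nat_lit 715) (nat_lit 5) (nat_lit 714) (nat_lit 5) (nat_lit 726) (nat_lit 5) (nat_lit 537) (nat_lit 529) (nat_lit 494)) (XT.lf (nat_lit 76) (nat_lit 3657827530) (nat_lit 0) (nat_lit 2496629518) (nat_lit 912) (nat_lit 647025179) (nat_lit 715) (nat_lit 5) (nat_lit 714) (nat_lit 5) (nat_lit 726) (nat_lit 5) (nat_lit 538)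 (nat_lit 529) (nat_lit 493)))) (XT.nd (nat_lit 156) (nat_lit 912) (nat_lit 0) (XT.nd (nat_lit 78) (nat_lit 0) (nat_lit 76) (XT.lf (nat_lit 76) (nat_lit 513980003) (nat_lit 0) (nat_lit 1075680834) (nat_lit 988) (nat_lit 5241077866) (nat_lit 703) (nat_lit 5) (nat_lit 702) (nat_lit 5) (nat_lit 715) (nat_lit 5) (nat_lit 539) (nat_lit 529) (nat_lit 492)) (XT.lf (nat_lit 0) (nat_lit 3831528349) (nat_lit 912) (nat_lit 2613986609) (nat_lit 988) (nat_lit 415602299) (nat_lit 703) (nat_lit 5) (nat_lit 715) (nat_lit 5) (nat_lit 716) (nat_lit 5) (nat_lit 540) (nat_lit 529) (nat_lit 491))) (XT.nd (nat_lit 78) (nat_lit 988) (nat_lit 0) (XT.lf (nat_lit 76) (nat_lit 1136944307) (nat_lit 0) (nat_lit 4942306020) (nat_lit 988) (nat_lit 813637336) (nat_lit 704) (nat_lit 5) (nat_lit 703) (nat_lit 5) (nat_lit 716) (nat_lit 5) (nat_lit 541) (nat_lit 529) (nat_lit 490)) (XT.lf (nat_lit 0) (nat_lit 1392307747) (nat_lit 988) (nat_lit 1970295648) (nat_lit 1064) (nat_lit 3563213727) (nat_lit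 690) (nat_lit 5) (nat_lit 703) (nat_lit 5) (nat_lit 704) (nat_lit 5) (nat_lit 542) (nat_lit 529) (nat_lit 489))))) (XT.nd (nat_lit 234) (nat_lit 1064) (nat_lit 0) (XT.nd (nat_lit 78) (nat_lit 988) (nat_lit 0) (XT.lf (nat_lit 76) (nat_lit 1876789706) (nat_lit 0) (nat_lit 1714912327) (nat_lit 1064) (nat_lit 3368395435) (nat_lit 691) (nat_lit 5) (nat_lit 690) (nat_lit 5) (nat_lit 704) (nat_lit 5) (nat_lit 543) (nat_lit 529) (nat_lit 488)) (XT.nd (nat_lit 78) (nat_lit 988) (nat_lit 0) (XT.lf (nat_lit 76) (nat_lit 5794243632) (nat_lit 0) (nat_lit 2894598) (nat_lit 1064) (nat_lit 1198688378) (nat_lit 691) (nat_lit 5) (nat_lit 690) (nat_lit 5) (nat_lit 704) (nat_lit 5) (nat_lit 544) (nat_lit 529) (nat_lit 487)) (XT.lf (nat_lit 0) (nat_lit 980081451) (nat_lit 1064) (nat_lit 4290382207) (nat_lit 1140) (nat_lit 1762099598) (nat_lit 677) (nat_lit 5) (nat_lit 691) (nat_lit 5) (nat_lit 692) (nat_lit 5) (nat_lit 545) (nat_lit 529) (nat_lit 486)))) (XT.nd (nat_lit 156) (nat_lit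 1064) (nat_lit 0) (XT.nd (nat_lit 78) (nat_lit 0) (nat_lit 0) (XT.lf (nat_lit 0) (nat_lit 3144909761) (nat_lit 1064) (nat_lit 330967289) (nat_lit 1140) (nat_lit 3594832473) (nat_lit 677) (nat_lit 5) (nat_lit 691) (nat_lit 5) (nat_lit 692) (nat_lit 5) (nat_lit 546) (nat_lit 529) (nat_lit 485)) (XT.lf (nat_lit 76) (nat_lit 3722942250) (nat_lit 0) (nat_lit 1605619779) (nat_lit 1140) (nat_lit 1781550085) (nat_lit 678) (nat_lit 5) (nat_lit 677) (nat_lit 5) (nat_lit 692) (nat_lit 5) (nat_lit 547) (nat_lit 529) (nat_lit 484))) (XT.nd (nat_lit 78) (nat_lit 0) (nat_lit 0) (XT.lf (nat_lit 0) (nat_lit 360833033) (nat_lit 1140) (nat_lit 6468657364) (nat_lit 76) (nat_lit 321552130) (nat_lit 663) (nat_lit 5) (nat_lit 678) (nat_lit 5) (nat_lit 664) (nat_lit 5) (nat_lit 548) (nat_lit 529) (nat_lit 483)) (XT.lf (nat_lit 0) (nat_lit 2508332896) (nat_lit 1140) (nat_lit 2370438602) (nat_lit 76) (nat_lit 2314065766) (nat_lit 663) (nat_lit 5) (nat_lit 678) (nat_lit 5) (nat_lit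 664) (nat_lit 5) (nat_lit 549) (nat_lit 529) (nat_lit 482)))))) (XT.nd (nat_lit 546) (nat_lit 8132) (nat_lit 0) (XT.nd (nat_lit 234) (nat_lit 2736) (nat_lit 0) (XT.nd (nat_lit 78) (nat_lit 1292) (nat_lit 0) (XT.lf (nat_lit 0) (nat_lit 1799258999) (nat_lit 1140) (nat_lit 2864723655) (nat_lit 1216) (nat_lit 2572184887) (nat_lit 648) (nat_lit 5) (nat_lit 663) (nat_lit 5) (nat_lit 664) (nat_lit 5) (nat_lit 550) (nat_lit 529) (nat_lit 481)) (XT.nd (nat_lit 78) (nat_lit 1292) (nat_lit 0) (XT.lf (nat_lit 0) (nat_lit 6050623564) (nat_lit 1140) (nat_lit 782238231) (nat_lit 1216) (nat_lit 448103876) (nat_lit 648) (nat_lit 5) (nat_lit 663) (nat_lit 5) (nat_lit 664) (nat_lit 5) (nat_lit 551) (nat_lit 529) (nat_lit 480)) (XT.lf (nat_lit 0) (nat_lit 1679557333) (nat_lit 1292) (nat_lit 4280466581) (nat_lit 76) (nat_lit 1366743409) (nat_lit 631) (nat_lit 5) (nat_lit 648) (nat_lit 5) (nat_lit 632) (nat_lit 5) (nat_lit 552) (nat_lit 529) (nat_lit 479)))) (XT.nd (nat_lit 156)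 (nat_lit 1444) (nat_lit 0) (XT.nd (nat_lit 78) (nat_lit 0) (nat_lit 0) (XT.lf (nat_lit 0) (nat_lit 9210706) (nat_lit 1292) (nat_lit 3803663485) (nat_lit 1368) (nat_lit 3561172892) (nat_lit 614) (nat_lit 5) (nat_lit 631) (nat_lit 5) (nat_lit 632) (nat_lit 5) (nat_lit 553) (nat_lit 529) (nat_lit 478)) (XT.lf (nat_lit 0) (nat_lit 4408390002) (nat_lit 1292) (nat_lit 1565386244) (nat_lit 1368) (nat_lit 1448801117) (nat_lit 614) (nat_lit 5) (nat_lit 631) (nat_lit 5) (nat_lit 632) (nat_lit 5) (nat_lit 554) (nat_lit 529) (nat_lit 477))) (XT.nd (nat_lit 78) (nat_lit 0) (nat_lit 0) (XT.lf (nat_lit 0) (nat_lit 667245558) (nat_lit 1444) (nat_lit 6074406685) (nat_lit 76) (nat_lit 730923837) (nat_lit 595) (nat_lit 5) (nat_lit 614) (nat_lit 5) (nat_lit 596) (nat_lit 5) (nat_lit 555) (nat_lit 529) (nat_lit 476)) (XT.lf (nat_lit 0) (nat_lit 2794408316) (nat_lit 1444) (nat_lit 1638539635) (nat_lit 76) (nat_lit 3090674509) (nat_lit 595) (nat_lit 5) (nat_lit 614) (nat_lit 5)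 (nat_lit 596) (nat_lit 5) (nat_lit 556) (nat_lit 529) (nat_lit 475))))) (XT.nd (nat_lit 312) (nat_lit 3496) (nat_lit 0) (XT.nd (nat_lit 156) (nat_lit 3192) (nat_lit 0) (XT.nd (nat_lit 78) (nat_lit 0) (nat_lit 0) (XT.lf (nat_lit 0) (nat_lit 2889723080) (nat_lit 1444) (nat_lit 2051436512) (nat_lit 1520) (nat_lit 2634992319) (nat_lit 576) (nat_lit 5) (nat_lit 595) (nat_lit 5) (nat_lit 596) (nat_lit 5) (nat_lit 557) (nat_lit 529) (nat_lit 474)) (XT.lf (nat_lit 0) (nat_lit 7103293257) (nat_lit 1520) (nat_lit 136142694) (nat_lit 76) (nat_lit 390850043) (nat_lit 576) (nat_lit 5) (nat_lit 596) (nat_lit 5) (nat_lit 577) (nat_lit 5) (nat_lit 558) (nat_lit 529) (nat_lit 473))) (XT.nd (nat_lit 78) (nat_lit 1596) (nat_lit 0) (XT.lf (nat_lit 0) (nat_lit 1604535982) (nat_lit 1596) (nat_lit 3179393005) (nat_lit 76) (nat_lit 2901312728) (nat_lit 555) (nat_lit 5) (nat_lit 576) (nat_lit 5) (nat_lit 556) (nat_lit 5) (nat_lit 559) (nat_lit 529) (nat_lit 472)) (XT.lf (nat_lit 0)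 (nat_lit 1482704215) (nat_lit 1596) (nat_lit 2259523032) (nat_lit 1672) (nat_lit 3999590685) (nat_lit 534) (nat_lit 5) (nat_lit 555) (nat_lit 5) (nat_lit 556) (nat_lit 5) (nat_lit 560) (nat_lit 529) (nat_lit 471)))) (XT.nd (nat_lit 156) (nat_lit 1748) (nat_lit 0) (XT.nd (nat_lit 78) (nat_lit 1748) (nat_lit 0) (XT.lf (nat_lit 0) (nat_lit 5906826594) (nat_lit 1672) (nat_lit 1555236992) (nat_lit 76) (nat_lit 337781762) (nat_lit 534) (nat_lit 5) (nat_lit 556) (nat_lit 5) (nat_lit 535) (nat_lit 5) (nat_lit 561) (nat_lit 529) (nat_lit 470)) (XT.lf (nat_lit 0) (nat_lit 249685751) (nat_lit 1748) (nat_lit 4624941687) (nat_lit 76) (nat_lit 2984428239) (nat_lit 511) (nat_lit 5) (nat_lit 534) (nat_lit 5) (nat_lit 512) (nat_lit 5) (nat_lit 562) (nat_lit 529) (nat_lit 469))) (XT.nd (nat_lit 78) (nat_lit 0) (nat_lit 0) (XT.lf (nat_lit 0) (nat_lit 176108705) (nat_lit 1748) (nat_lit 2207142970) (nat_lit 1824) (nat_lit 5536483788) (nat_lit 488) (nat_lit 5) (nat_lit 511) (nat_lit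 5) (nat_lit 512) (nat_lit 5) (nat_lit 563) (nat_lit 529) (nat_lit 468)) (XT.lf (nat_lit 0) (nat_lit 4556296862) (nat_lit 1824) (nat_lit 2883915739) (nat_lit 76) (nat_lit 541482636) (nat_lit 488) (nat_lit 5) (nat_lit 512) (nat_lit 5) (nat_lit 489) (nat_lit 5) (nat_lit 564) (nat_lit 529) (nat_lit 467))))))) (XT.nd (nat_lit 1170) (nat_lit 6232) (nat_lit 0) (XT.nd (nat_lit 546) (nat_lit 5016) (nat_lit 0) (XT.nd (nat_lit 234) (nat_lit 1900) (nat_lit 0) (XT.nd (nat_lit 78) (nat_lit 1140) (nat_lit 0) (XT.lf (nat_lit 0) (nat_lit 2050719926) (nat_lit 1824) (nat_lit 4712986452) (nat_lit 1900) (nat_lit 1281372262) (nat_lit 464) (nat_lit 5) (nat_lit 488) (nat_lit 5) (nat_lit 489) (nat_lit 5) (nat_lit 565) (nat_lit 529) (nat_lit 466)) (XT.nd (nat_lit 78) (nat_lit 1064) (nat_lit 0) (XT.lf (nat_lit 0) (nat_lit 876369732) (nat_lit 1900) (nat_lit 1027021660) (nat_lit 76) (nat_lit 6206568904) (nat_lit 463) (nat_lit 5) (nat_lit 488) (nat_lit 5) (nat_lit 464) (nat_lit 5) (nat_lit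 566) (nat_lit 529) (nat_lit 465)) (XT.lf (nat_lit 0) (nat_lit 3056864520) (nat_lit 1140) (nat_lit 4132493165) (nat_lit 76) (nat_lit 986679751) (nat_lit 449) (nat_lit 5) (nat_lit 464) (nat_lit 5) (nat_lit 450) (nat_lit 5) (nat_lit 567) (nat_lit 529) (nat_lit 464)))) (XT.nd (nat_lit 156) (nat_lit 988) (nat_lit 0) (XT.nd (nat_lit 78) (nat_lit 0) (nat_lit 0) (XT.lf (nat_lit 0) (nat_lit 951341702) (nat_lit 912) (nat_lit 4319796243) (nat_lit 988) (nat_lit 2972497111) (nat_lit 437) (nat_lit 5) (nat_lit 449) (nat_lit 5) (nat_lit 450) (nat_lit 5) (nat_lit 568) (nat_lit 529) (nat_lit 463)) (XT.lf (nat_lit 0) (nat_lit 6158468902) (nat_lit 912) (nat_lit 1363882122) (nat_lit 988) (nat_lit 790382786) (nat_lit 437) (nat_lit 5) (nat_lit 449) (nat_lit 5) (nat_lit 450) (nat_lit 5) (nat_lit 569) (nat_lit 529) (nat_lit 462))) (XT.nd (nat_lit 78) (nat_lit 0) (nat_lit 0) (XT.lf (nat_lit 0) (nat_lit 1412866761) (nat_lit 988) (nat_lit 5310784097) (nat_lit 76) (nat_lit 1659453108)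 (nat_lit 424) (nat_lit 5) (nat_lit 437) (nat_lit 5) (nat_lit 425) (nat_lit 5) (nat_lit 570) (nat_lit 529) (nat_lit 461)) (XT.lf (nat_lit 0) (nat_lit 3639032682) (nat_lit 988) (nat_lit 70967633) (nat_lit 76) (nat_lit 4744990166) (nat_lit 424) (nat_lit 5) (nat_lit 437) (nat_lit 5) (nat_lit 425) (nat_lit 5) (nat_lit 571) (nat_lit 529) (nat_lit 460))))) (XT.nd (nat_lit 312) (nat_lit 2432) (nat_lit 0) (XT.nd (nat_lit 156) (nat_lit 912) (nat_lit 0) (XT.nd (nat_lit 78) (nat_lit 836) (nat_lit 0) (XT.lf (nat_lit 0) (nat_lit 5309306283) (nat_lit 836) (nat_lit 601397368) (nat_lit 912) (nat_lit 2617593533) (nat_lit 413) (nat_lit 5) (nat_lit 424) (nat_lit 5) (nat_lit 425) (nat_lit 5) (nat_lit 572) (nat_lit 529) (nat_lit 459)) (XT.lf (nat_lit 0) (nat_lit 2172488009) (nat_lit 836) (nat_lit 6053529976) (nat_lit 912) (nat_lit 377089891) (nat_lit 402) (nat_lit 5) (nat_lit 413) (nat_lit 5) (nat_lit 414) (nat_lit 5) (nat_lit 573) (nat_lit 529) (nat_lit 458))) (XT.nd (nat_lit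 78) (nat_lit 836) (nat_lit 0) (XT.lf (nat_lit 0) (nat_lit 1876075460) (nat_lit 912) (nat_lit 1014685888) (nat_lit 76) (nat_lit 5788550050) (nat_lit 401) (nat_lit 5) (nat_lit 413) (nat_lit 5) (nat_lit 402) (nat_lit 5) (nat_lit 574) (nat_lit 529) (nat_lit 457)) (XT.lf (nat_lit 0) (nat_lit 4168860484) (nat_lit 912) (nat_lit 4226848212) (nat_lit 76) (nat_lit 361290265) (nat_lit 390) (nat_lit 5) (nat_lit 402) (nat_lit 5) (nat_lit 391) (nat_lit 5) (nat_lit 575) (nat_lit 529) (nat_lit 456)))) (XT.nd (nat_lit 156) (nat_lit 1596) (nat_lit 0) (XT.nd (nat_lit 78) (nat_lit 0) (nat_lit 0) (XT.lf (nat_lit 0) (nat_lit 1327412628) (nat_lit 836) (nat_lit 5182900848) (nat_lit 912) (nat_lit 2325872451) (nat_lit 379) (nat_lit 5) (nat_lit 390) (nat_lit 5) (nat_lit 391) (nat_lit 5) (nat_lit 576) (nat_lit 529) (nat_lit 455)) (XT.lf (nat_lit 0) (nat_lit 7015938880) (nat_lit 836) (nat_lit 1879618678) (nat_lit 912) (nat_lit 21461692) (nat_lit 379) (nat_lit 5) (nat_lit 390) (nat_lit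 5) (nat_lit 391) (nat_lit 5) (nat_lit 577) (nat_lit 529) (nat_lit 454))) (XT.nd (nat_lit 78) (nat_lit 760) (nat_lit 0) (XT.lf (nat_lit 0) (nat_lit 2302218529) (nat_lit 836) (nat_lit 5189327850) (nat_lit 76) (nat_lit 1507547675) (nat_lit 368) (nat_lit 5) (nat_lit 379) (nat_lit 5) (nat_lit 369) (nat_lit 5) (nat_lit 578) (nat_lit 529) (nat_lit 453)) (XT.lf (nat_lit 0) (nat_lit 538196360) (nat_lit 760) (nat_lit 4132050053) (nat_lit 836) (nat_lit 4412599626) (nat_lit 358) (nat_lit 5) (nat_lit 368) (nat_lit 5) (nat_lit 369) (nat_lit 5) (nat_lit 579) (nat_lit 529) (nat_lit 452)))))) (XT.nd (nat_lit 546) (nat_lit 3268) (nat_lit 0) (XT.nd (nat_lit 234) (nat_lit 2204) (nat_lit 0) (XT.nd (nat_lit 78) (nat_lit 760) (nat_lit 0) (XT.lf (nat_lit 0) (nat_lit 6416607064) (nat_lit 760) (nat_lit 673607856) (nat_lit 836) (nat_lit 2077968261) (nat_lit 358) (nat_lit 5) (nat_lit 368) (nat_lit 5) (nat_lit 369) (nat_lit 5) (nat_lit 580) (nat_lit 529) (nat_lit 451)) (XT.nd (nat_lit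 78) (nat_lit 0) (nat_lit 0) (XT.lf (nat_lit 0) (nat_lit 308720144) (nat_lit 760) (nat_lit 6110893206) (nat_lit 76) (nat_lit 2835389115) (nat_lit 348) (nat_lit 5) (nat_lit 358) (nat_lit 5) (nat_lit 349) (nat_lit 5) (nat_lit 581) (nat_lit 529) (nat_lit 450)) (XT.lf (nat_lit 0) (nat_lit 2708885485) (nat_lit 760) (nat_lit 200608078) (nat_lit 76) (nat_lit 6433920139) (nat_lit 348) (nat_lit 5) (nat_lit 358) (nat_lit 5) (nat_lit 349) (nat_lit 5) (nat_lit 582) (nat_lit 529) (nat_lit 449)))) (XT.nd (nat_lit 156) (nat_lit 760) (nat_lit 0) (XT.nd (nat_lit 78) (nat_lit 684) (nat_lit 0) (XT.lf (nat_lit 0) (nat_lit 5170826380) (nat_lit 836) (nat_lit 3566514498) (nat_lit 76) (nat_lit 695978427) (nat_lit 338) (nat_lit 5) (nat_lit 349) (nat_lit 5) (nat_lit 339) (nat_lit 5) (nat_lit 583) (nat_lit 529) (nat_lit 448)) (XT.lf (nat_lit 0) (nat_lit 2513237322) (nat_lit 684) (nat_lit 5177103303) (nat_lit 760) (nat_lit 1834517261) (nat_lit 329) (nat_lit 5) (nat_lit 338) (nat_lit 5)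 (nat_lit 339) (nat_lit 5) (nat_lit 584) (nat_lit 529) (nat_lit 447))) (XT.nd (nat_lit 78) (nat_lit 684) (nat_lit 0) (XT.lf (nat_lit 0) (nat_lit 629237716) (nat_lit 760) (nat_lit 893040213) (nat_lit 76) (nat_lit 8095954637) (nat_lit 328) (nat_lit 5) (nat_lit 338) (nat_lit 5) (nat_lit 329) (nat_lit 5) (nat_lit 585) (nat_lit 529) (nat_lit 446)) (XT.lf (nat_lit 0) (nat_lit 3139315172) (nat_lit 760) (nat_lit 4354689611) (nat_lit 76) (nat_lit 2218796667) (nat_lit 319) (nat_lit 5) (nat_lit 329) (nat_lit 5) (nat_lit 320) (nat_lit 5) (nat_lit 586) (nat_lit 529) (nat_lit 445))))) (XT.nd (nat_lit 312) (nat_lit 1292) (nat_lit 0) (XT.nd (nat_lit 156) (nat_lit 1368) (nat_lit 0) (XT.nd (nat_lit 78) (nat_lit 0) (nat_lit 0) (XT.lf (nat_lit 0) (nat_lit 1918766406) (nat_lit 608) (nat_lit 3781802840) (nat_lit 684) (nat_lit 4108674401) (nat_lit 311) (nat_lit 5) (nat_lit 319) (nat_lit 5) (nat_lit 320) (nat_lit 5) (nat_lit 587) (nat_lit 529) (nat_lit 444)) (XT.lf (nat_lit 0) (nat_lit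 8315183399) (nat_lit 684) (nat_lit 1564348518) (nat_lit 76) (nat_lit 28041481) (nat_lit 311) (nat_lit 5) (nat_lit 320) (nat_lit 5) (nat_lit 312) (nat_lit 5) (nat_lit 588) (nat_lit 529) (nat_lit 443))) (XT.nd (nat_lit 78) (nat_lit 608) (nat_lit 0) (XT.lf (nat_lit 0) (nat_lit 991687276) (nat_lit 760) (nat_lit 5119499230) (nat_lit 76) (nat_lit 3895953202) (nat_lit 301) (nat_lit 5) (nat_lit 311) (nat_lit 5) (nat_lit 302) (nat_lit 5) (nat_lit 589) (nat_lit 529) (nat_lit 442)) (XT.lf (nat_lit 0) (nat_lit 1355256974) (nat_lit 608) (nat_lit 2243612458) (nat_lit 684) (nat_lit 6509763815) (nat_lit 293) (nat_lit 5) (nat_lit 301) (nat_lit 5) (nat_lit 302) (nat_lit 5) (nat_lit 590) (nat_lit 529) (nat_lit 441)))) (XT.nd (nat_lit 156) (nat_lit 684) (nat_lit 0) (XT.nd (nat_lit 78) (nat_lit 608) (nat_lit 0) (XT.lf (nat_lit 0) (nat_lit 6277446404) (nat_lit 684) (nat_lit 2227393220) (nat_lit 76) (nat_lit 1706933313) (nat_lit 293) (nat_lit 5) (nat_lit 302) (nat_lit 5) (nat_lit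 294) (nat_lit 5) (nat_lit 591) (nat_lit 529) (nat_lit 440)) (XT.lf (nat_lit 0) (nat_lit 4439580414) (nat_lit 608) (nat_lit 4587837826) (nat_lit 684) (nat_lit 1289201989) (nat_lit 285) (nat_lit 5) (nat_lit 293) (nat_lit 5) (nat_lit 294) (nat_lit 5) (nat_lit 592) (nat_lit 529) (nat_lit 439))) (XT.nd (nat_lit 78) (nat_lit 0) (nat_lit 0) (XT.lf (nat_lit 0) (nat_lit 815243518) (nat_lit 608) (nat_lit 569708200) (nat_lit 684) (nat_lit 9038538962) (nat_lit 276) (nat_lit 5) (nat_lit 284) (nat_lit 5) (nat_lit 285) (nat_lit 5) (nat_lit 593) (nat_lit 529) (nat_lit 438)) (XT.lf (nat_lit 0) (nat_lit 4132461052) (nat_lit 684) (nat_lit 2875651030) (nat_lit 76) (nat_lit 3523474528) (nat_lit 276) (nat_lit 5) (nat_lit 285) (nat_lit 5) (nat_lit 277) (nat_lit 5) (nat_lit 594) (nat_lit 529) (nat_lit 437))))))))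
noncomputable def xc92 : XT := (XT.nd (nat_lit 2262) (nat_lit 5092) (nat_lit 0) (XT.nd (nat_lit 1092) (nat_lit 4332) (nat_lit 0) (XT.nd (nat_lit 546) (nat_lit 2052) (nat_lit 0) (XT.nd (nat_lit 234) (nat_lit 1672) (nat_lit 0) (XT.nd (nat_lit 78) (nat_lit 608) (nat_lit 0) (XT.lf (nat_lit 0) (nat_lit 4007770632) (nat_lit 608) (nat_lit 2931952196) (nat_lit 684) (nat_lit 3702026766) (nat_lit 268) (nat_lit 5) (nat_lit 276) (nat_lit 5) (nat_lit 277) (nat_lit 5) (nat_lit 595) (nat_lit 529) (nat_lit 436)) (XT.nd (nat_lit 78) (nat_lit 76) (nat_lit 0) (XT.lf (nat_lit 0) (nat_lit 276808364) (nat_lit 532) (nat_lit 9530739870) (nat_lit 608) (nat_lit 946480391) (nat_lit 261) (nat_lit 5) (nat_lit 268) (nat_lit 5) (nat_lit 269) (nat_lit 5) (nat_lit 596) (nat_lit 529) (nat_lit 435)) (XT.lf (nat_lit 0) (nat_lit 1879305466) (nat_lit 608) (nat_lit 3516700945) (nat_lit 76) (nat_lit 5471514314) (nat_lit 260) (nat_lit 5) (nat_lit 268) (nat_lit 5) (nat_lit 261) (nat_lit 5) (nat_lit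 597) (nat_lit 529) (nat_lit 434)))) (XT.nd (nat_lit 156) (nat_lit 1140) (nat_lit 0) (XT.nd (nat_lit 78) (nat_lit 0) (nat_lit 0) (XT.lf (nat_lit 0) (nat_lit 3591551146) (nat_lit 532) (nat_lit 1156544828) (nat_lit 608) (nat_lit 6235079413) (nat_lit 253) (nat_lit 5) (nat_lit 260) (nat_lit 5) (nat_lit 261) (nat_lit 5) (nat_lit 598) (nat_lit 529) (nat_lit 433)) (XT.lf (nat_lit 0) (nat_lit 7694628307) (nat_lit 608) (nat_lit 264282886) (nat_lit 76) (nat_lit 3141825696) (nat_lit 253) (nat_lit 5) (nat_lit 261) (nat_lit 5) (nat_lit 254) (nat_lit 5) (nat_lit 599) (nat_lit 529) (nat_lit 432))) (XT.nd (nat_lit 78) (nat_lit 608) (nat_lit 0) (XT.lf (nat_lit 0) (nat_lit 7058632394) (nat_lit 532) (nat_lit 3671461146) (nat_lit 608) (nat_lit 489957083) (nat_lit 246) (nat_lit 5) (nat_lit 253) (nat_lit 5) (nat_lit 254) (nat_lit 5) (nat_lit 600) (nat_lit 529) (nat_lit 431)) (XT.lf (nat_lit 0) (nat_lit 2455756594) (nat_lit 608) (nat_lit 8162711943) (nat_lit 76) (nat_lit 722883998)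 (nat_lit 238) (nat_lit 5) (nat_lit 246) (nat_lit 5) (nat_lit 239) (nat_lit 5) (nat_lit 601) (nat_lit 529) (nat_lit 430))))) (XT.nd (nat_lit 234) (nat_lit 988) (nat_lit 0) (XT.nd (nat_lit 78) (nat_lit 1064) (nat_lit 0) (XT.lf (nat_lit 0) (nat_lit 5483064450) (nat_lit 608) (nat_lit 802544231) (nat_lit 76) (nat_lit 5178823209) (nat_lit 238) (nat_lit 5) (nat_lit 246) (nat_lit 5) (nat_lit 239) (nat_lit 5) (nat_lit 602) (nat_lit 529) (nat_lit 429)) (XT.nd (nat_lit 78) (nat_lit 608) (nat_lit 0) (XT.lf (nat_lit 0) (nat_lit 6761954251) (nat_lit 456) (nat_lit 1830131756) (nat_lit 532) (nat_lit 2997464441) (nat_lit 232) (nat_lit 5) (nat_lit 238) (nat_lit 5) (nat_lit 239) (nat_lit 5) (nat_lit 603) (nat_lit 529) (nat_lit 428)) (XT.lf (nat_lit 0) (nat_lit 64036059) (nat_lit 608) (nat_lit 8958894042) (nat_lit 76) (nat_lit 2693865732) (nat_lit 224) (nat_lit 5) (nat_lit 232) (nat_lit 5) (nat_lit 225) (nat_lit 5) (nat_lit 604) (nat_lit 529) (nat_lit 427)))) (XT.nd (nat_lit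 156) (nat_lit 532) (nat_lit 0) (XT.nd (nat_lit 78) (nat_lit 456) (nat_lit 0) (XT.lf (nat_lit 0) (nat_lit 3168936326) (nat_lit 608) (nat_lit 1349407632) (nat_lit 76) (nat_lit 7327400698) (nat_lit 224) (nat_lit 5) (nat_lit 232) (nat_lit 5) (nat_lit 225) (nat_lit 5) (nat_lit 605) (nat_lit 529) (nat_lit 426)) (XT.lf (nat_lit 0) (nat_lit 6356607620) (nat_lit 532) (nat_lit 5511727662) (nat_lit 76) (nat_lit 108524607) (nat_lit 218) (nat_lit 5) (nat_lit 225) (nat_lit 5) (nat_lit 219) (nat_lit 5) (nat_lit 606) (nat_lit 529) (nat_lit 425))) (XT.nd (nat_lit 78) (nat_lit 76) (nat_lit 0) (XT.lf (nat_lit 0) (nat_lit 2312807747) (nat_lit 456) (nat_lit 7327427962) (nat_lit 532) (nat_lit 2469718527) (nat_lit 212) (nat_lit 5) (nat_lit 218) (nat_lit 5) (nat_lit 219) (nat_lit 5) (nat_lit 607) (nat_lit 529) (nat_lit 424)) (XT.lf (nat_lit 0) (nat_lit 749533081) (nat_lit 532) (nat_lit 1912962503) (nat_lit 76) (nat_lit 9582809886) (nat_lit 211) (nat_lit 5) (nat_lit 218) (nat_lit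 5) (nat_lit 212) (nat_lit 5) (nat_lit 608) (nat_lit 529) (nat_lit 423)))))) (XT.nd (nat_lit 546) (nat_lit 2128) (nat_lit 0) (XT.nd (nat_lit 234) (nat_lit 1292) (nat_lit 0) (XT.nd (nat_lit 78) (nat_lit 456) (nat_lit 0) (XT.lf (nat_lit 0) (nat_lit 4032718689) (nat_lit 532) (nat_lit 6234057759) (nat_lit 76) (nat_lit 2115609240) (nat_lit 205) (nat_lit 5) (nat_lit 212) (nat_lit 5) (nat_lit 206) (nat_lit 5) (nat_lit 609) (nat_lit 529) (nat_lit 422)) (XT.nd (nat_lit 78) (nat_lit 0) (nat_lit 0) (XT.lf (nat_lit 0) (nat_lit 1850368851) (nat_lit 456) (nat_lit 5552582994) (nat_lit 532) (nat_lit 5118828799) (nat_lit 199) (nat_lit 5) (nat_lit 205) (nat_lit 5) (nat_lit 206) (nat_lit 5) (nat_lit 610) (nat_lit 529) (nat_lit 421)) (XT.lf (nat_lit 0) (nat_lit 10150186526) (nat_lit 456) (nat_lit 711267935) (nat_lit 532) (nat_lit 1802092535) (nat_lit 199) (nat_lit 5) (nat_lit 205) (nat_lit 5) (nat_lit 206) (nat_lit 5) (nat_lit 611) (nat_lit 529) (nat_lit 420)))) (XT.nd (nat_lit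 156) (nat_lit 380) (nat_lit 0) (XT.nd (nat_lit 78) (nat_lit 456) (nat_lit 0) (XT.lf (nat_lit 0) (nat_lit 1605189830) (nat_lit 456) (nat_lit 6991543196) (nat_lit 76) (nat_lit 4210312192) (nat_lit 193) (nat_lit 5) (nat_lit 199) (nat_lit 5) (nat_lit 194) (nat_lit 5) (nat_lit 612) (nat_lit 529) (nat_lit 419)) (XT.lf (nat_lit 0) (nat_lit 1362426932) (nat_lit 456) (nat_lit 3704068189) (nat_lit 532) (nat_lit 7886480647) (nat_lit 187) (nat_lit 5) (nat_lit 193) (nat_lit 5) (nat_lit 194) (nat_lit 5) (nat_lit 613) (nat_lit 529) (nat_lit 418))) (XT.nd (nat_lit 78) (nat_lit 380) (nat_lit 0) (XT.lf (nat_lit 0) (nat_lit 8632197574) (nat_lit 532) (nat_lit 3162061879) (nat_lit 76) (nat_lit 1306862790) (nat_lit 187) (nat_lit 5) (nat_lit 194) (nat_lit 5) (nat_lit 188) (nat_lit 5) (nat_lit 614) (nat_lit 529) (nat_lit 417)) (XT.lf (nat_lit 0) (nat_lit 5451808402) (nat_lit 380) (nat_lit 6857323785) (nat_lit 456) (nat_lit 942301816) (nat_lit 182) (nat_lit 5) (nat_lit 187) (nat_lit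 5) (nat_lit 188) (nat_lit 5) (nat_lit 615) (nat_lit 529) (nat_lit 416))))) (XT.nd (nat_lit 312) (nat_lit 836) (nat_lit 0) (XT.nd (nat_lit 156) (nat_lit 836) (nat_lit 0) (XT.nd (nat_lit 78) (nat_lit 0) (nat_lit 0) (XT.lf (nat_lit 0) (nat_lit 839904025) (nat_lit 380) (nat_lit 1787000451) (nat_lit 456) (nat_lit 10777366075) (nat_lit 176) (nat_lit 5) (nat_lit 181) (nat_lit 5) (nat_lit 182) (nat_lit 5) (nat_lit 616) (nat_lit 529) (nat_lit 415)) (XT.lf (nat_lit 0) (nat_lit 6309737763) (nat_lit 456) (nat_lit 3860084708) (nat_lit 76) (nat_lit 3389120257) (nat_lit 176) (nat_lit 5) (nat_lit 182) (nat_lit 5) (nat_lit 177) (nat_lit 5) (nat_lit 617) (nat_lit 529) (nat_lit 414))) (XT.nd (nat_lit 78) (nat_lit 456) (nat_lit 0) (XT.lf (nat_lit 0) (nat_lit 5042826118) (nat_lit 380) (nat_lit 5048552287) (nat_lit 456) (nat_lit 3624827593) (nat_lit 171) (nat_lit 5) (nat_lit 176) (nat_lit 5) (nat_lit 177) (nat_lit 5) (nat_lit 618) (nat_lit 529) (nat_lit 413)) (XT.lf (nat_lit 0)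 (nat_lit 80833271) (nat_lit 456) (nat_lit 13604548629) (nat_lit 76) (nat_lit 191029104) (nat_lit 165) (nat_lit 5) (nat_lit 171) (nat_lit 5) (nat_lit 166) (nat_lit 5) (nat_lit 619) (nat_lit 529) (nat_lit 412)))) (XT.nd (nat_lit 156) (nat_lit 456) (nat_lit 0) (XT.nd (nat_lit 78) (nat_lit 380) (nat_lit 0) (XT.lf (nat_lit 0) (nat_lit 3884894076) (nat_lit 456) (nat_lit 4612843753) (nat_lit 76) (nat_lit 5540147240) (nat_lit 165) (nat_lit 5) (nat_lit 171) (nat_lit 5) (nat_lit 166) (nat_lit 5) (nat_lit 620) (nat_lit 529) (nat_lit 411)) (XT.lf (nat_lit 0) (nat_lit 4589532791) (nat_lit 380) (nat_lit 3186434224) (nat_lit 456) (nat_lit 6426403597) (nat_lit 160) (nat_lit 5) (nat_lit 165) (nat_lit 5) (nat_lit 166) (nat_lit 5) (nat_lit 621) (nat_lit 529) (nat_lit 410))) (XT.nd (nat_lit 78) (nat_lit 456) (nat_lit 0) (XT.lf (nat_lit 0) (nat_lit 11771751997) (nat_lit 456) (nat_lit 375200519) (nat_lit 76) (nat_lit 2222656138) (nat_lit 160) (nat_lit 5) (nat_lit 166) (nat_lit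 5) (nat_lit 161) (nat_lit 5) (nat_lit 622) (nat_lit 529) (nat_lit 409)) (XT.lf (nat_lit 0) (nat_lit 1352432919) (nat_lit 456) (nat_lit 5431086529) (nat_lit 76) (nat_lit 7755256502) (nat_lit 154) (nat_lit 5) (nat_lit 160) (nat_lit 5) (nat_lit 155) (nat_lit 5) (nat_lit 623) (nat_lit 529) (nat_lit 408))))))) (XT.nd (nat_lit 1092) (nat_lit 2052) (nat_lit 0) (XT.nd (nat_lit 546) (nat_lit 1216) (nat_lit 0) (XT.nd (nat_lit 234) (nat_lit 1140) (nat_lit 0) (XT.nd (nat_lit 78) (nat_lit 380) (nat_lit 0) (XT.lf (nat_lit 0) (nat_lit 4081409750) (nat_lit 304) (nat_lit 1276265408) (nat_lit 380) (nat_lit 9353093919) (nat_lit 150) (nat_lit 5) (nat_lit 154) (nat_lit 5) (nat_lit 155) (nat_lit 5) (nat_lit 624) (nat_lit 529) (nat_lit 407)) (XT.nd (nat_lit 78) (nat_lit 380) (nat_lit 0) (XT.lf (nat_lit 0) (nat_lit 9489664567) (nat_lit 380) (nat_lit 1085173374) (nat_lit 76) (nat_lit 4310431836) (nat_lit 150) (nat_lit 5) (nat_lit 155) (nat_lit 5) (nat_lit 151) (nat_lit 5) (nat_lit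 625) (nat_lit 529) (nat_lit 406)) (XT.lf (nat_lit 0) (nat_lit 8727426471) (nat_lit 380) (nat_lit 5024111067) (nat_lit 456) (nat_lit 1310778622) (nat_lit 145) (nat_lit 5) (nat_lit 150) (nat_lit 5) (nat_lit 151) (nat_lit 5) (nat_lit 626) (nat_lit 529) (nat_lit 405)))) (XT.nd (nat_lit 156) (nat_lit 760) (nat_lit 0) (XT.nd (nat_lit 78) (nat_lit 0) (nat_lit 0) (XT.lf (nat_lit 0) (nat_lit 2834960628) (nat_lit 380) (nat_lit 11739572669) (nat_lit 76) (nat_lit 667666474) (nat_lit 140) (nat_lit 5) (nat_lit 145) (nat_lit 5) (nat_lit 141) (nat_lit 5) (nat_lit 627) (nat_lit 529) (nat_lit 404)) (XT.lf (nat_lit 0) (nat_lit 7104416489) (nat_lit 380) (nat_lit 1872926102) (nat_lit 76) (nat_lit 6446998630) (nat_lit 140) (nat_lit 5) (nat_lit 145) (nat_lit 5) (nat_lit 141) (nat_lit 5) (nat_lit 628) (nat_lit 529) (nat_lit 403))) (XT.nd (nat_lit 78) (nat_lit 380) (nat_lit 0) (XT.lf (nat_lit 0) (nat_lit 8271470368) (nat_lit 380) (nat_lit 3224115082) (nat_lit 456) (nat_lit 4113814072)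 (nat_lit 135) (nat_lit 5) (nat_lit 140) (nat_lit 5) (nat_lit 141) (nat_lit 5) (nat_lit 629) (nat_lit 529) (nat_lit 402)) (XT.lf (nat_lit 0) (nat_lit 205266031) (nat_lit 380) (nat_lit 12960840985) (nat_lit 76) (nat_lit 2631406329) (nat_lit 130) (nat_lit 5) (nat_lit 135) (nat_lit 5) (nat_lit 131) (nat_lit 5) (nat_lit 630) (nat_lit 529) (nat_lit 401))))) (XT.nd (nat_lit 234) (nat_lit 608) (nat_lit 0) (XT.nd (nat_lit 78) (nat_lit 608) (nat_lit 0) (XT.lf (nat_lit 0) (nat_lit 4609368615) (nat_lit 380) (nat_lit 2751293130) (nat_lit 76) (nat_lit 8627109829) (nat_lit 130) (nat_lit 5) (nat_lit 135) (nat_lit 5) (nat_lit 131) (nat_lit 5) (nat_lit 631) (nat_lit 529) (nat_lit 400)) (XT.nd (nat_lit 78) (nat_lit 304) (nat_lit 0) (XT.lf (nat_lit 0) (nat_lit 7736260758) (nat_lit 304) (nat_lit 1398613717) (nat_lit 380) (nat_lit 7046294534) (nat_lit 126) (nat_lit 5) (nat_lit 130) (nat_lit 5) (nat_lit 131) (nat_lit 5) (nat_lit 632) (nat_lit 529) (nat_lit 399)) (XT.lf (nat_lit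 0) (nat_lit 2061576239) (nat_lit 304) (nat_lit 11734863206) (nat_lit 380) (nat_lit 2581084423) (nat_lit 122) (nat_lit 5) (nat_lit 126) (nat_lit 5) (nat_lit 127) (nat_lit 5) (nat_lit 633) (nat_lit 529) (nat_lit 398)))) (XT.nd (nat_lit 156) (nat_lit 228) (nat_lit 0) (XT.nd (nat_lit 78) (nat_lit 304) (nat_lit 0) (XT.lf (nat_lit 0) (nat_lit 1997071523) (nat_lit 380) (nat_lit 3734232041) (nat_lit 76) (nat_lit 10845255972) (nat_lit 121) (nat_lit 5) (nat_lit 126) (nat_lit 5) (nat_lit 122) (nat_lit 5) (nat_lit 634) (nat_lit 529) (nat_lit 397)) (XT.lf (nat_lit 0) (nat_lit 6664853484) (nat_lit 380) (nat_lit 9673517140) (nat_lit 76) (nat_lit 440212031) (nat_lit 117) (nat_lit 5) (nat_lit 122) (nat_lit 5) (nat_lit 118) (nat_lit 5) (nat_lit 635) (nat_lit 529) (nat_lit 396))) (XT.nd (nat_lit 78) (nat_lit 0) (nat_lit 0) (XT.lf (nat_lit 0) (nat_lit 1177640138) (nat_lit 228) (nat_lit 10302799719) (nat_lit 304) (nat_lit 5503117824) (nat_lit 114) (nat_lit 5) (nat_lit 117) (nat_lit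 5) (nat_lit 118) (nat_lit 5) (nat_lit 636) (nat_lit 529) (nat_lit 395)) (XT.lf (nat_lit 0) (nat_lit 12349821598) (nat_lit 228) (nat_lit 4091198244) (nat_lit 304) (nat_lit 750639142) (nat_lit 114) (nat_lit 5) (nat_lit 117) (nat_lit 5) (nat_lit 118) (nat_lit 5) (nat_lit 637) (nat_lit 529) (nat_lit 394)))))) (XT.nd (nat_lit 546) (nat_lit 532) (nat_lit 0) (XT.nd (nat_lit 234) (nat_lit 912) (nat_lit 0) (XT.nd (nat_lit 78) (nat_lit 228) (nat_lit 0) (XT.lf (nat_lit 0) (nat_lit 4083460601) (nat_lit 380) (nat_lit 11046154505) (nat_lit 76) (nat_lit 2272969550) (nat_lit 109) (nat_lit 5) (nat_lit 114) (nat_lit 5) (nat_lit 110) (nat_lit 5) (nat_lit 638) (nat_lit 529) (nat_lit 393)) (XT.nd (nat_lit 78) (nat_lit 0) (nat_lit 0) (XT.lf (nat_lit 0) (nat_lit 170290234) (nat_lit 228) (nat_lit 8878867946) (nat_lit 304) (nat_lit 8567572478) (nat_lit 106) (nat_lit 5) (nat_lit 109) (nat_lit 5) (nat_lit 110) (nat_lit 5) (nat_lit 639) (nat_lit 529) (nat_lit 392)) (XT.lf (nat_lit 0)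 (nat_lit 11734095000) (nat_lit 228) (nat_lit 2438390955) (nat_lit 304) (nat_lit 3661507681) (nat_lit 106) (nat_lit 5) (nat_lit 109) (nat_lit 5) (nat_lit 110) (nat_lit 5) (nat_lit 640) (nat_lit 529) (nat_lit 391)))) (XT.nd (nat_lit 156) (nat_lit 532) (nat_lit 0) (XT.nd (nat_lit 78) (nat_lit 0) (nat_lit 0) (XT.lf (nat_lit 0) (nat_lit 1372291234) (nat_lit 380) (nat_lit 12571325229) (nat_lit 76) (nat_lit 4110866980) (nat_lit 101) (nat_lit 5) (nat_lit 106) (nat_lit 5) (nat_lit 102) (nat_lit 5) (nat_lit 641) (nat_lit 529) (nat_lit 390)) (XT.lf (nat_lit 0) (nat_lit 6499600938) (nat_lit 380) (nat_lit 965123061) (nat_lit 76) (nat_lit 10813338108) (nat_lit 101) (nat_lit 5) (nat_lit 106) (nat_lit 5) (nat_lit 102) (nat_lit 5) (nat_lit 642) (nat_lit 529) (nat_lit 389))) (XT.nd (nat_lit 78) (nat_lit 304) (nat_lit 0) (XT.lf (nat_lit 0) (nat_lit 10991423471) (nat_lit 228) (nat_lit 794165279) (nat_lit 304) (nat_lit 6719401308) (nat_lit 98) (nat_lit 5) (nat_lit 101) (nat_lit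 5) (nat_lit 102) (nat_lit 5) (nat_lit 643) (nat_lit 529) (nat_lit 388)) (XT.lf (nat_lit 0) (nat_lit 4457254891) (nat_lit 304) (nat_lit 12779350354) (nat_lit 380) (nat_lit 1498665490) (nat_lit 94) (nat_lit 5) (nat_lit 98) (nat_lit 5) (nat_lit 99) (nat_lit 5) (nat_lit 644) (nat_lit 529) (nat_lit 387))))) (XT.nd (nat_lit 72306) (nat_lit 0) (nat_lit 48412) (XT.nd (nat_lit 156) (nat_lit 228) (nat_lit 0) (XT.nd (nat_lit 78) (nat_lit 228) (nat_lit 0) (XT.lf (nat_lit 0) (nat_lit 3817173556) (nat_lit 380) (nat_lit 2256271985) (nat_lit 76) (nat_lit 12895397463) (nat_lit 93) (nat_lit 5) (nat_lit 98) (nat_lit 5) (nat_lit 94) (nat_lit 5) (nat_lit 645) (nat_lit 529) (nat_lit 386)) (XT.lf (nat_lit 0) (nat_lit 9275441280) (nat_lit 304) (nat_lit 9108314250) (nat_lit 76) (nat_lit 822009811) (nat_lit 90) (nat_lit 5) (nat_lit 94) (nat_lit 5) (nat_lit 91) (nat_lit 5) (nat_lit 646) (nat_lit 529) (nat_lit 385))) (XT.nd (nat_lit 72072) (nat_lit 0) (nat_lit 49172) (XT.lf (nat_lit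 0) (nat_lit 3258549809) (nat_lit 228) (nat_lit 11646158316) (nat_lit 304) (nat_lit 4541481642) (nat_lit 87) (nat_lit 5) (nat_lit 90) (nat_lit 5) (nat_lit 91) (nat_lit 5) (nat_lit 647) (nat_lit 529) (nat_lit 384)) (XT.lf (nat_lit 0) (nat_lit 805990895) (nat_lit 0) (nat_lit 805990895) (nat_lit 684) (nat_lit 1704139208) (nat_lit 734) (nat_lit 5) (nat_lit 734) (nat_lit 3) (nat_lit 743) (nat_lit 3) (nat_lit 530) (nat_lit 530) (nat_lit 500)))) (XT.nd (nat_lit 156) (nat_lit 0) (nat_lit 0) (XT.nd (nat_lit 78) (nat_lit 760) (nat_lit 0) (XT.lf (nat_lit 0) (nat_lit 4942286567) (nat_lit 0) (nat_lit 632953266) (nat_lit 684) (nat_lit 1076724731) (nat_lit 734) (nat_lit 5) (nat_lit 734) (nat_lit 3) (nat_lit 743) (nat_lit 3) (nat_lit 531) (nat_lit 530) (nat_lit 499)) (XT.lf (nat_lit 0) (nat_lit 1236556002) (nat_lit 760) (nat_lit 5026564994) (nat_lit 836) (nat_lit 409753925) (nat_lit 724) (nat_lit 5) (nat_lit 734) (nat_lit 5) (nat_lit 735) (nat_lit 5) (nat_lit 532) (nat_lit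 530) (nat_lit 498))) (XT.nd (nat_lit 78) (nat_lit 0) (nat_lit 0) (XT.lf (nat_lit 0) (nat_lit 3537390298) (nat_lit 760) (nat_lit 1645208120) (nat_lit 836) (nat_lit 1512354143) (nat_lit 724) (nat_lit 5) (nat_lit 734) (nat_lit 5) (nat_lit 735) (nat_lit 5) (nat_lit 533) (nat_lit 530) (nat_lit 497)) (XT.lf (nat_lit 76) (nat_lit 1795531979) (nat_lit 0) (nat_lit 4041495763) (nat_lit 836) (nat_lit 881393699) (nat_lit 725) (nat_lit 5) (nat_lit 724) (nat_lit 5) (nat_lit 735) (nat_lit 5) (nat_lit 534) (nat_lit 530) (nat_lit 496))))))))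
noncomputable def xc93 : XT := (XT.nd (nat_lit 2262) (nat_lit 17252) (nat_lit 0) (XT.nd (nat_lit 1092) (nat_lit 11476) (nat_lit 0) (XT.nd (nat_lit 546) (nat_lit 2052) (nat_lit 0) (XT.nd (nat_lit 234) (nat_lit 1824) (nat_lit 0) (XT.nd (nat_lit 78) (nat_lit 0) (nat_lit 0) (XT.lf (nat_lit 0) (nat_lit 1374210918) (nat_lit 836) (nat_lit 1456538871) (nat_lit 912) (nat_lit 3912372038) (nat_lit 713) (nat_lit 5) (nat_lit 724) (nat_lit 5) (nat_lit 725) (nat_lit 5) (nat_lit 535) (nat_lit 530) (nat_lit 495)) (XT.nd (nat_lit 78) (nat_lit 0) (nat_lit 0) (XT.lf (nat_lit 76) (nat_lit 2068704093) (nat_lit 0) (nat_lit 1550696583) (nat_lit 912) (nat_lit 3149678632) (nat_lit 714) (nat_lit 5) (nat_lit 713) (nat_lit 5) (nat_lit 725) (nat_lit 5) (nat_lit 536) (nat_lit 530) (nat_lit 494)) (XT.lf (nat_lit 76) (nat_lit 5652675409) (nat_lit 0) (nat_lit 210341721) (nat_lit 912) (nat_lit 933473352) (nat_lit 714) (nat_lit 5) (nat_lit 713) (nat_lit 5) (nat_lit 725) (nat_lit 5) (nat_lit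 537) (nat_lit 530) (nat_lit 493)))) (XT.nd (nat_lit 156) (nat_lit 988) (nat_lit 0) (XT.nd (nat_lit 78) (nat_lit 0) (nat_lit 0) (XT.lf (nat_lit 0) (nat_lit 1278038906) (nat_lit 912) (nat_lit 4356810929) (nat_lit 988) (nat_lit 1190064784) (nat_lit 702) (nat_lit 5) (nat_lit 714) (nat_lit 5) (nat_lit 715) (nat_lit 5) (nat_lit 538) (nat_lit 530) (nat_lit 492)) (XT.lf (nat_lit 0) (nat_lit 3475930071) (nat_lit 912) (nat_lit 726298612) (nat_lit 988) (nat_lit 2652466907) (nat_lit 702) (nat_lit 5) (nat_lit 714) (nat_lit 5) (nat_lit 715) (nat_lit 5) (nat_lit 539) (nat_lit 530) (nat_lit 491))) (XT.nd (nat_lit 78) (nat_lit 988) (nat_lit 0) (XT.lf (nat_lit 76) (nat_lit 2983914740) (nat_lit 0) (nat_lit 2699822934) (nat_lit 988) (nat_lit 1202019957) (nat_lit 703) (nat_lit 5) (nat_lit 702) (nat_lit 5) (nat_lit 715) (nat_lit 5) (nat_lit 540) (nat_lit 530) (nat_lit 490)) (XT.lf (nat_lit 0) (nat_lit 956885053) (nat_lit 988) (nat_lit 178350195) (nat_lit 1064) (nat_lit 5783038299)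 (nat_lit 689) (nat_lit 5) (nat_lit 702) (nat_lit 5) (nat_lit 703) (nat_lit 5) (nat_lit 541) (nat_lit 530) (nat_lit 489))))) (XT.nd (nat_lit 234) (nat_lit 1064) (nat_lit 0) (XT.nd (nat_lit 78) (nat_lit 1064) (nat_lit 0) (XT.lf (nat_lit 0) (nat_lit 3117879268) (nat_lit 988) (nat_lit 3327858745) (nat_lit 1064) (nat_lit 506047095) (nat_lit 690) (nat_lit 5) (nat_lit 703) (nat_lit 5) (nat_lit 704) (nat_lit 5) (nat_lit 542) (nat_lit 530) (nat_lit 488)) (XT.nd (nat_lit 78) (nat_lit 1064) (nat_lit 0) (XT.lf (nat_lit 76) (nat_lit 484709561) (nat_lit 0) (nat_lit 4798302114) (nat_lit 1064) (nat_lit 1703741129) (nat_lit 691) (nat_lit 5) (nat_lit 690) (nat_lit 5) (nat_lit 704) (nat_lit 5) (nat_lit 543) (nat_lit 530) (nat_lit 487)) (XT.lf (nat_lit 0) (nat_lit 434854327) (nat_lit 1064) (nat_lit 2639830787) (nat_lit 1140) (nat_lit 3948238364) (nat_lit 676) (nat_lit 5) (nat_lit 690) (nat_lit 5) (nat_lit 691) (nat_lit 5) (nat_lit 544) (nat_lit 530) (nat_lit 486)))) (XT.nd (nat_lit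 156) (nat_lit 1064) (nat_lit 0) (XT.nd (nat_lit 78) (nat_lit 0) (nat_lit 76) (XT.lf (nat_lit 76) (nat_lit 1272379690) (nat_lit 0) (nat_lit 1279800824) (nat_lit 1140) (nat_lit 4508240402) (nat_lit 677) (nat_lit 5) (nat_lit 676) (nat_lit 5) (nat_lit 691) (nat_lit 5) (nat_lit 545) (nat_lit 530) (nat_lit 485)) (XT.lf (nat_lit 0) (nat_lit 4684618114) (nat_lit 1064) (nat_lit 1836911415) (nat_lit 1140) (nat_lit 577687422) (nat_lit 677) (nat_lit 5) (nat_lit 691) (nat_lit 5) (nat_lit 692) (nat_lit 5) (nat_lit 546) (nat_lit 530) (nat_lit 484))) (XT.nd (nat_lit 78) (nat_lit 1140) (nat_lit 0) (XT.lf (nat_lit 76) (nat_lit 2180499672) (nat_lit 0) (nat_lit 4654146940) (nat_lit 1140) (nat_lit 304647320) (nat_lit 678) (nat_lit 5) (nat_lit 677) (nat_lit 5) (nat_lit 692) (nat_lit 5) (nat_lit 547) (nat_lit 530) (nat_lit 483)) (XT.lf (nat_lit 0) (nat_lit 1788398917) (nat_lit 1140) (nat_lit 922123301) (nat_lit 1216) (nat_lit 4470111528) (nat_lit 662) (nat_lit 5) (nat_lit 677) (nat_lit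 5) (nat_lit 678) (nat_lit 5) (nat_lit 548) (nat_lit 530) (nat_lit 482)))))) (XT.nd (nat_lit 546) (nat_lit 7752) (nat_lit 0) (XT.nd (nat_lit 234) (nat_lit 2584) (nat_lit 0) (XT.nd (nat_lit 78) (nat_lit 1140) (nat_lit 0) (XT.lf (nat_lit 76) (nat_lit 3202639951) (nat_lit 0) (nat_lit 691029231) (nat_lit 1216) (nat_lit 3329605696) (nat_lit 663) (nat_lit 5) (nat_lit 662) (nat_lit 5) (nat_lit 678) (nat_lit 5) (nat_lit 549) (nat_lit 530) (nat_lit 481)) (XT.nd (nat_lit 78) (nat_lit 76) (nat_lit 0) (XT.lf (nat_lit 0) (nat_lit 114916841) (nat_lit 1140) (nat_lit 5896419876) (nat_lit 1216) (nat_lit 1256029853) (nat_lit 648) (nat_lit 5) (nat_lit 663) (nat_lit 5) (nat_lit 664) (nat_lit 5) (nat_lit 550) (nat_lit 530) (nat_lit 480)) (XT.lf (nat_lit 0) (nat_lit 834293534) (nat_lit 1216) (nat_lit 2968251456) (nat_lit 76) (nat_lit 3509956151) (nat_lit 647) (nat_lit 5) (nat_lit 663) (nat_lit 5) (nat_lit 648) (nat_lit 5) (nat_lit 551) (nat_lit 530) (nat_lit 479)))) (XT.nd (nat_lit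 156) (nat_lit 1368) (nat_lit 0) (XT.nd (nat_lit 78) (nat_lit 0) (nat_lit 0) (XT.lf (nat_lit 0) (nat_lit 1274896892) (nat_lit 1216) (nat_lit 1638694190) (nat_lit 1292) (nat_lit 4445504923) (nat_lit 631) (nat_lit 5) (nat_lit 647) (nat_lit 5) (nat_lit 648) (nat_lit 5) (nat_lit 552) (nat_lit 530) (nat_lit 478)) (XT.lf (nat_lit 0) (nat_lit 5014633138) (nat_lit 1292) (nat_lit 1800767666) (nat_lit 76) (nat_lit 591622092) (nat_lit 631) (nat_lit 5) (nat_lit 648) (nat_lit 5) (nat_lit 632) (nat_lit 5) (nat_lit 553) (nat_lit 530) (nat_lit 477))) (XT.nd (nat_lit 78) (nat_lit 76) (nat_lit 0) (XT.lf (nat_lit 0) (nat_lit 2557826138) (nat_lit 1292) (nat_lit 4584601306) (nat_lit 1368) (nat_lit 313789488) (nat_lit 614) (nat_lit 5) (nat_lit 631) (nat_lit 5) (nat_lit 632) (nat_lit 5) (nat_lit 554) (nat_lit 530) (nat_lit 476)) (XT.lf (nat_lit 0) (nat_lit 1752469601) (nat_lit 1368) (nat_lit 523508053) (nat_lit 76) (nat_lit 5230790186) (nat_lit 613) (nat_lit 5) (nat_lit 631) (nat_lit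 5) (nat_lit 614) (nat_lit 5) (nat_lit 555) (nat_lit 530) (nat_lit 475))))) (XT.nd (nat_lit 312) (nat_lit 3344) (nat_lit 0) (XT.nd (nat_lit 156) (nat_lit 1596) (nat_lit 0) (XT.nd (nat_lit 78) (nat_lit 1444) (nat_lit 0) (XT.lf (nat_lit 0) (nat_lit 3840736413) (nat_lit 1444) (nat_lit 3603575953) (nat_lit 76) (nat_lit 114281282) (nat_lit 595) (nat_lit 5) (nat_lit 614) (nat_lit 5) (nat_lit 596) (nat_lit 5) (nat_lit 556) (nat_lit 530) (nat_lit 474)) (XT.lf (nat_lit 0) (nat_lit 881742872) (nat_lit 1444) (nat_lit 5072460767) (nat_lit 1520) (nat_lit 1657586622) (nat_lit 576) (nat_lit 5) (nat_lit 595) (nat_lit 5) (nat_lit 596) (nat_lit 5) (nat_lit 557) (nat_lit 530) (nat_lit 473))) (XT.nd (nat_lit 78) (nat_lit 1520) (nat_lit 0) (XT.lf (nat_lit 0) (nat_lit 421826664) (nat_lit 1520) (nat_lit 2196865237) (nat_lit 76) (nat_lit 5047628960) (nat_lit 575) (nat_lit 5) (nat_lit 595) (nat_lit 5) (nat_lit 576) (nat_lit 5) (nat_lit 558) (nat_lit 530) (nat_lit 472)) (XT.lf (nat_lit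 0) (nat_lit 2414462018) (nat_lit 1520) (nat_lit 82080809) (nat_lit 1596) (nat_lit 5225664736) (nat_lit 555) (nat_lit 5) (nat_lit 575) (nat_lit 5) (nat_lit 576) (nat_lit 5) (nat_lit 559) (nat_lit 530) (nat_lit 471)))) (XT.nd (nat_lit 156) (nat_lit 1748) (nat_lit 0) (XT.nd (nat_lit 78) (nat_lit 1596) (nat_lit 0) (XT.lf (nat_lit 0) (nat_lit 4604677977) (nat_lit 1596) (nat_lit 681302143) (nat_lit 76) (nat_lit 2493396147) (nat_lit 555) (nat_lit 5) (nat_lit 576) (nat_lit 5) (nat_lit 556) (nat_lit 5) (nat_lit 560) (nat_lit 530) (nat_lit 470)) (XT.lf (nat_lit 0) (nat_lit 4057183871) (nat_lit 1596) (nat_lit 2686264807) (nat_lit 1672) (nat_lit 1094472920) (nat_lit 534) (nat_lit 5) (nat_lit 555) (nat_lit 5) (nat_lit 556) (nat_lit 5) (nat_lit 561) (nat_lit 530) (nat_lit 469))) (XT.nd (nat_lit 78) (nat_lit 0) (nat_lit 0) (XT.lf (nat_lit 0) (nat_lit 974767587) (nat_lit 1672) (nat_lit 11919662) (nat_lit 1748) (nat_lit 6911363699) (nat_lit 511) (nat_lit 5) (nat_lit 533) (nat_lit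 5) (nat_lit 534) (nat_lit 5) (nat_lit 562) (nat_lit 530) (nat_lit 468)) (XT.lf (nat_lit 0) (nat_lit 3100435091) (nat_lit 1748) (nat_lit 2141300590) (nat_lit 76) (nat_lit 2717392677) (nat_lit 511) (nat_lit 5) (nat_lit 534) (nat_lit 5) (nat_lit 512) (nat_lit 5) (nat_lit 563) (nat_lit 530) (nat_lit 467))))))) (XT.nd (nat_lit 1170) (nat_lit 6384) (nat_lit 0) (XT.nd (nat_lit 546) (nat_lit 4256) (nat_lit 0) (XT.nd (nat_lit 234) (nat_lit 2964) (nat_lit 0) (XT.nd (nat_lit 78) (nat_lit 1900) (nat_lit 0) (XT.lf (nat_lit 0) (nat_lit 2738822521) (nat_lit 1748) (nat_lit 2498666653) (nat_lit 1824) (nat_lit 2784320020) (nat_lit 488) (nat_lit 5) (nat_lit 511) (nat_lit 5) (nat_lit 512) (nat_lit 5) (nat_lit 564) (nat_lit 530) (nat_lit 466)) (XT.nd (nat_lit 78) (nat_lit 1900) (nat_lit 0) (XT.lf (nat_lit 0) (nat_lit 7397389764) (nat_lit 1824) (nat_lit 375791327) (nat_lit 76) (nat_lit 312962898) (nat_lit 488) (nat_lit 5) (nat_lit 512) (nat_lit 5) (nat_lit 489) (nat_lit 5) (nat_lit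 565) (nat_lit 530) (nat_lit 465)) (XT.lf (nat_lit 0) (nat_lit 1440881156) (nat_lit 1900) (nat_lit 3520368848) (nat_lit 76) (nat_lit 3190106543) (nat_lit 463) (nat_lit 5) (nat_lit 488) (nat_lit 5) (nat_lit 464) (nat_lit 5) (nat_lit 566) (nat_lit 530) (nat_lit 464)))) (XT.nd (nat_lit 156) (nat_lit 1900) (nat_lit 0) (XT.nd (nat_lit 78) (nat_lit 0) (nat_lit 0) (XT.lf (nat_lit 0) (nat_lit 1506898336) (nat_lit 1064) (nat_lit 2073977993) (nat_lit 1140) (nat_lit 4637368493) (nat_lit 449) (nat_lit 5) (nat_lit 463) (nat_lit 5) (nat_lit 464) (nat_lit 5) (nat_lit 567) (nat_lit 530) (nat_lit 463)) (XT.lf (nat_lit 0) (nat_lit 5758253085) (nat_lit 1140) (nat_lit 1643330033) (nat_lit 76) (nat_lit 884998379) (nat_lit 449) (nat_lit 5) (nat_lit 464) (nat_lit 5) (nat_lit 450) (nat_lit 5) (nat_lit 568) (nat_lit 530) (nat_lit 462))) (XT.nd (nat_lit 78) (nat_lit 988) (nat_lit 0) (XT.lf (nat_lit 0) (nat_lit 3525261709) (nat_lit 912) (nat_lit 4456368698) (nat_lit 988) (nat_lit 374607659)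 (nat_lit 437) (nat_lit 5) (nat_lit 449) (nat_lit 5) (nat_lit 450) (nat_lit 5) (nat_lit 569) (nat_lit 530) (nat_lit 461)) (XT.lf (nat_lit 0) (nat_lit 351622824) (nat_lit 912) (nat_lit 1426109612) (nat_lit 988) (nat_lit 6649731983) (nat_lit 424) (nat_lit 5) (nat_lit 436) (nat_lit 5) (nat_lit 437) (nat_lit 5) (nat_lit 570) (nat_lit 530) (nat_lit 460))))) (XT.nd (nat_lit 312) (nat_lit 2508) (nat_lit 0) (XT.nd (nat_lit 156) (nat_lit 912) (nat_lit 0) (XT.nd (nat_lit 78) (nat_lit 836) (nat_lit 0) (XT.lf (nat_lit 0) (nat_lit 3978059996) (nat_lit 988) (nat_lit 2843583399) (nat_lit 76) (nat_lit 1678225343) (nat_lit 424) (nat_lit 5) (nat_lit 437) (nat_lit 5) (nat_lit 425) (nat_lit 5) (nat_lit 571) (nat_lit 530) (nat_lit 459)) (XT.lf (nat_lit 0) (nat_lit 2483137038) (nat_lit 836) (nat_lit 3731990529) (nat_lit 912) (nat_lit 2358740959) (nat_lit 413) (nat_lit 5) (nat_lit 424) (nat_lit 5) (nat_lit 425) (nat_lit 5) (nat_lit 572) (nat_lit 530) (nat_lit 458))) (XT.nd (nat_lit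 78) (nat_lit 912) (nat_lit 0) (XT.lf (nat_lit 0) (nat_lit 7921851242) (nat_lit 836) (nat_lit 561763013) (nat_lit 912) (nat_lit 166002511) (nat_lit 413) (nat_lit 5) (nat_lit 424) (nat_lit 5) (nat_lit 425) (nat_lit 5) (nat_lit 573) (nat_lit 530) (nat_lit 457)) (XT.lf (nat_lit 0) (nat_lit 2059984584) (nat_lit 912) (nat_lit 3985709060) (nat_lit 76) (nat_lit 2680588387) (nat_lit 401) (nat_lit 5) (nat_lit 413) (nat_lit 5) (nat_lit 402) (nat_lit 5) (nat_lit 574) (nat_lit 530) (nat_lit 456)))) (XT.nd (nat_lit 156) (nat_lit 1672) (nat_lit 0) (XT.nd (nat_lit 78) (nat_lit 0) (nat_lit 0) (XT.lf (nat_lit 0) (nat_lit 1505377336) (nat_lit 836) (nat_lit 2809730561) (nat_lit 912) (nat_lit 4489615871) (nat_lit 390) (nat_lit 5) (nat_lit 401) (nat_lit 5) (nat_lit 402) (nat_lit 5) (nat_lit 575) (nat_lit 530) (nat_lit 455)) (XT.lf (nat_lit 0) (nat_lit 6614263751) (nat_lit 912) (nat_lit 1760919742) (nat_lit 76) (nat_lit 509574104) (nat_lit 390) (nat_lit 5) (nat_lit 402) (nat_lit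 5) (nat_lit 391) (nat_lit 5) (nat_lit 576) (nat_lit 530) (nat_lit 454))) (XT.nd (nat_lit 78) (nat_lit 760) (nat_lit 0) (XT.lf (nat_lit 0) (nat_lit 6467644) (nat_lit 912) (nat_lit 5078523954) (nat_lit 76) (nat_lit 3881135892) (nat_lit 378) (nat_lit 5) (nat_lit 390) (nat_lit 5) (nat_lit 379) (nat_lit 5) (nat_lit 577) (nat_lit 530) (nat_lit 453)) (XT.lf (nat_lit 0) (nat_lit 583418936) (nat_lit 760) (nat_lit 1700474226) (nat_lit 836) (nat_lit 6765226675) (nat_lit 368) (nat_lit 5) (nat_lit 378) (nat_lit 5) (nat_lit 379) (nat_lit 5) (nat_lit 578) (nat_lit 530) (nat_lit 452)))))) (XT.nd (nat_lit 546) (nat_lit 3344) (nat_lit 0) (XT.nd (nat_lit 234) (nat_lit 2204) (nat_lit 0) (XT.nd (nat_lit 78) (nat_lit 836) (nat_lit 0) (XT.lf (nat_lit 0) (nat_lit 4622523607) (nat_lit 836) (nat_lit 2750808831) (nat_lit 76) (nat_lit 1760128185) (nat_lit 368) (nat_lit 5) (nat_lit 379) (nat_lit 5) (nat_lit 369) (nat_lit 5) (nat_lit 579) (nat_lit 530) (nat_lit 451)) (XT.nd (nat_lit 78)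 (nat_lit 76) (nat_lit 0) (XT.lf (nat_lit 0) (nat_lit 3074540169) (nat_lit 760) (nat_lit 3935176271) (nat_lit 836) (nat_lit 2209737670) (nat_lit 358) (nat_lit 5) (nat_lit 368) (nat_lit 5) (nat_lit 369) (nat_lit 5) (nat_lit 580) (nat_lit 530) (nat_lit 450)) (XT.lf (nat_lit 0) (nat_lit 125001317) (nat_lit 836) (nat_lit 287205771) (nat_lit 76) (nat_lit 8895157770) (nat_lit 357) (nat_lit 5) (nat_lit 368) (nat_lit 5) (nat_lit 358) (nat_lit 5) (nat_lit 581) (nat_lit 530) (nat_lit 449)))) (XT.nd (nat_lit 156) (nat_lit 760) (nat_lit 0) (XT.nd (nat_lit 78) (nat_lit 760) (nat_lit 0) (XT.lf (nat_lit 0) (nat_lit 2506267485) (nat_lit 760) (nat_lit 3701992368) (nat_lit 76) (nat_lit 3187895012) (nat_lit 348) (nat_lit 5) (nat_lit 358) (nat_lit 5) (nat_lit 349) (nat_lit 5) (nat_lit 582) (nat_lit 530) (nat_lit 448)) (XT.lf (nat_lit 0) (nat_lit 2307127071) (nat_lit 760) (nat_lit 2619320364) (nat_lit 836) (nat_lit 4560449022) (nat_lit 338) (nat_lit 5) (nat_lit 348) (nat_lit 5)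 (nat_lit 349) (nat_lit 5) (nat_lit 583) (nat_lit 530) (nat_lit 447))) (XT.nd (nat_lit 78) (nat_lit 760) (nat_lit 0) (XT.lf (nat_lit 0) (nat_lit 7398753834) (nat_lit 836) (nat_lit 1132346426) (nat_lit 76) (nat_lit 1048279689) (nat_lit 338) (nat_lit 5) (nat_lit 349) (nat_lit 5) (nat_lit 339) (nat_lit 5) (nat_lit 584) (nat_lit 530) (nat_lit 446)) (XT.lf (nat_lit 0) (nat_lit 266360331) (nat_lit 760) (nat_lit 4622496984) (nat_lit 76) (nat_lit 4784369139) (nat_lit 328) (nat_lit 5) (nat_lit 338) (nat_lit 5) (nat_lit 329) (nat_lit 5) (nat_lit 585) (nat_lit 530) (nat_lit 445))))) (XT.nd (nat_lit 312) (nat_lit 1292) (nat_lit 0) (XT.nd (nat_lit 156) (nat_lit 1368) (nat_lit 0) (XT.nd (nat_lit 78) (nat_lit 0) (nat_lit 0) (XT.lf (nat_lit 0) (nat_lit 1577639887) (nat_lit 684) (nat_lit 1146020485) (nat_lit 760) (nat_lit 7045191226) (nat_lit 319) (nat_lit 5) (nat_lit 328) (nat_lit 5) (nat_lit 329) (nat_lit 5) (nat_lit 586) (nat_lit 530) (nat_lit 444)) (XT.lf (nat_lit 0) (nat_lit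 5251622010) (nat_lit 760) (nat_lit 1951752519) (nat_lit 76) (nat_lit 2662585813) (nat_lit 319) (nat_lit 5) (nat_lit 329) (nat_lit 5) (nat_lit 320) (nat_lit 5) (nat_lit 587) (nat_lit 530) (nat_lit 443))) (XT.nd (nat_lit 78) (nat_lit 760) (nat_lit 0) (XT.lf (nat_lit 0) (nat_lit 4430790836) (nat_lit 608) (nat_lit 3409184223) (nat_lit 684) (nat_lit 2124840939) (nat_lit 311) (nat_lit 5) (nat_lit 319) (nat_lit 5) (nat_lit 320) (nat_lit 5) (nat_lit 588) (nat_lit 530) (nat_lit 442)) (XT.lf (nat_lit 0) (nat_lit 404607055) (nat_lit 760) (nat_lit 9190410916) (nat_lit 76) (nat_lit 470666383) (nat_lit 301) (nat_lit 5) (nat_lit 311) (nat_lit 5) (nat_lit 302) (nat_lit 5) (nat_lit 589) (nat_lit 530) (nat_lit 441)))) (XT.nd (nat_lit 156) (nat_lit 684) (nat_lit 0) (XT.nd (nat_lit 78) (nat_lit 608) (nat_lit 0) (XT.lf (nat_lit 0) (nat_lit 2990060048) (nat_lit 760) (nat_lit 2749585883) (nat_lit 76) (nat_lit 4427967191) (nat_lit 301) (nat_lit 5) (nat_lit 311) (nat_lit 5) (nat_lit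 302) (nat_lit 5) (nat_lit 590) (nat_lit 530) (nat_lit 440)) (XT.lf (nat_lit 0) (nat_lit 3838400291) (nat_lit 608) (nat_lit 1788136903) (nat_lit 684) (nat_lit 4645058246) (nat_lit 293) (nat_lit 5) (nat_lit 301) (nat_lit 5) (nat_lit 302) (nat_lit 5) (nat_lit 591) (nat_lit 530) (nat_lit 439))) (XT.nd (nat_lit 78) (nat_lit 76) (nat_lit 0) (XT.lf (nat_lit 0) (nat_lit 173471337) (nat_lit 608) (nat_lit 8151178680) (nat_lit 684) (nat_lit 2052830514) (nat_lit 285) (nat_lit 5) (nat_lit 293) (nat_lit 5) (nat_lit 294) (nat_lit 5) (nat_lit 592) (nat_lit 530) (nat_lit 438)) (XT.lf (nat_lit 0) (nat_lit 613554729) (nat_lit 684) (nat_lit 3533487620) (nat_lit 76) (nat_lit 6337764060) (nat_lit 284) (nat_lit 5) (nat_lit 293) (nat_lit 5) (nat_lit 285) (nat_lit 5) (nat_lit 593) (nat_lit 530) (nat_lit 437))))))))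
noncomputable def xc94 : XT := (XT.nd (nat_lit 2262) (nat_lit 5320) (nat_lit 0) (XT.nd (nat_lit 1092) (nat_lit 4408) (nat_lit 0) (XT.nd (nat_lit 546) (nat_lit 2128) (nat_lit 0) (XT.nd (nat_lit 234) (nat_lit 1672) (nat_lit 0) (XT.nd (nat_lit 78) (nat_lit 608) (nat_lit 0) (XT.lf (nat_lit 0) (nat_lit 3267968387) (nat_lit 608) (nat_lit 34319339) (nat_lit 684) (nat_lit 7291790725) (nat_lit 276) (nat_lit 5) (nat_lit 284) (nat_lit 5) (nat_lit 285) (nat_lit 5) (nat_lit 594) (nat_lit 530) (nat_lit 436)) (XT.nd (nat_lit 78) (nat_lit 608) (nat_lit 0) (XT.lf (nat_lit 0) (nat_lit 6071176010) (nat_lit 684) (nat_lit 510858204) (nat_lit 76) (nat_lit 4122975261) (nat_lit 276) (nat_lit 5) (nat_lit 285) (nat_lit 5) (nat_lit 277) (nat_lit 5) (nat_lit 595) (nat_lit 530) (nat_lit 435)) (XT.lf (nat_lit 0) (nat_lit 6494295669) (nat_lit 608) (nat_lit 2419517654) (nat_lit 684) (nat_lit 1903979506) (nat_lit 268) (nat_lit 5) (nat_lit 276) (nat_lit 5) (nat_lit 277) (nat_lit 5) (nat_lit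 596) (nat_lit 530) (nat_lit 434)))) (XT.nd (nat_lit 156) (nat_lit 1064) (nat_lit 0) (XT.nd (nat_lit 78) (nat_lit 0) (nat_lit 0) (XT.lf (nat_lit 0) (nat_lit 878058087) (nat_lit 608) (nat_lit 8232679070) (nat_lit 76) (nat_lit 1821798767) (nat_lit 260) (nat_lit 5) (nat_lit 268) (nat_lit 5) (nat_lit 261) (nat_lit 5) (nat_lit 597) (nat_lit 530) (nat_lit 433)) (XT.lf (nat_lit 0) (nat_lit 3711799969) (nat_lit 608) (nat_lit 1187213872) (nat_lit 76) (nat_lit 6149878246) (nat_lit 260) (nat_lit 5) (nat_lit 268) (nat_lit 5) (nat_lit 261) (nat_lit 5) (nat_lit 598) (nat_lit 530) (nat_lit 432))) (XT.nd (nat_lit 78) (nat_lit 532) (nat_lit 0) (XT.lf (nat_lit 0) (nat_lit 6047414965) (nat_lit 532) (nat_lit 570835762) (nat_lit 608) (nat_lit 4549005012) (nat_lit 253) (nat_lit 5) (nat_lit 260) (nat_lit 5) (nat_lit 261) (nat_lit 5) (nat_lit 599) (nat_lit 530) (nat_lit 431)) (XT.lf (nat_lit 0) (nat_lit 2126619471) (nat_lit 532) (nat_lit 7479969440) (nat_lit 608) (nat_lit 1680923611)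 (nat_lit 246) (nat_lit 5) (nat_lit 253) (nat_lit 5) (nat_lit 254) (nat_lit 5) (nat_lit 600) (nat_lit 530) (nat_lit 430))))) (XT.nd (nat_lit 234) (nat_lit 1064) (nat_lit 0) (XT.nd (nat_lit 78) (nat_lit 988) (nat_lit 0) (XT.lf (nat_lit 0) (nat_lit 1243634265) (nat_lit 608) (nat_lit 1865529365) (nat_lit 76) (nat_lit 8300541453) (nat_lit 245) (nat_lit 5) (nat_lit 253) (nat_lit 5) (nat_lit 246) (nat_lit 5) (nat_lit 601) (nat_lit 530) (nat_lit 429)) (XT.nd (nat_lit 78) (nat_lit 456) (nat_lit 0) (XT.lf (nat_lit 0) (nat_lit 4227145648) (nat_lit 608) (nat_lit 5935458266) (nat_lit 76) (nat_lit 1371056933) (nat_lit 238) (nat_lit 5) (nat_lit 246) (nat_lit 5) (nat_lit 239) (nat_lit 5) (nat_lit 602) (nat_lit 530) (nat_lit 428)) (XT.lf (nat_lit 0) (nat_lit 1545307076) (nat_lit 456) (nat_lit 5745955666) (nat_lit 532) (nat_lit 4368415222) (nat_lit 232) (nat_lit 5) (nat_lit 238) (nat_lit 5) (nat_lit 239) (nat_lit 5) (nat_lit 603) (nat_lit 530) (nat_lit 427)))) (XT.nd (nat_lit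 156) (nat_lit 456) (nat_lit 0) (XT.nd (nat_lit 78) (nat_lit 608) (nat_lit 0) (XT.lf (nat_lit 0) (nat_lit 9225409896) (nat_lit 456) (nat_lit 1209030085) (nat_lit 532) (nat_lit 1353420816) (nat_lit 232) (nat_lit 5) (nat_lit 238) (nat_lit 5) (nat_lit 239) (nat_lit 5) (nat_lit 604) (nat_lit 530) (nat_lit 426)) (XT.lf (nat_lit 0) (nat_lit 1733508321) (nat_lit 608) (nat_lit 6773917275) (nat_lit 76) (nat_lit 3410274642) (nat_lit 224) (nat_lit 5) (nat_lit 232) (nat_lit 5) (nat_lit 225) (nat_lit 5) (nat_lit 605) (nat_lit 530) (nat_lit 425))) (XT.nd (nat_lit 78) (nat_lit 0) (nat_lit 0) (XT.lf (nat_lit 0) (nat_lit 953913638) (nat_lit 456) (nat_lit 3920076757) (nat_lit 532) (nat_lit 7175769294) (nat_lit 218) (nat_lit 5) (nat_lit 224) (nat_lit 5) (nat_lit 225) (nat_lit 5) (nat_lit 606) (nat_lit 530) (nat_lit 424)) (XT.lf (nat_lit 0) (nat_lit 8106545278) (nat_lit 532) (nat_lit 3291422091) (nat_lit 76) (nat_lit 785908555) (nat_lit 218) (nat_lit 5) (nat_lit 225) (nat_lit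 5) (nat_lit 219) (nat_lit 5) (nat_lit 607) (nat_lit 530) (nat_lit 423)))))) (XT.nd (nat_lit 546) (nat_lit 2052) (nat_lit 0) (XT.nd (nat_lit 234) (nat_lit 1368) (nat_lit 0) (XT.nd (nat_lit 78) (nat_lit 532) (nat_lit 0) (XT.lf (nat_lit 0) (nat_lit 4674271525) (nat_lit 456) (nat_lit 6764786551) (nat_lit 532) (nat_lit 880911113) (nat_lit 212) (nat_lit 5) (nat_lit 218) (nat_lit 5) (nat_lit 219) (nat_lit 5) (nat_lit 608) (nat_lit 530) (nat_lit 422)) (XT.nd (nat_lit 78) (nat_lit 0) (nat_lit 0) (XT.lf (nat_lit 0) (nat_lit 344229606) (nat_lit 456) (nat_lit 2007545253) (nat_lit 532) (nat_lit 10106630397) (nat_lit 205) (nat_lit 5) (nat_lit 211) (nat_lit 5) (nat_lit 212) (nat_lit 5) (nat_lit 609) (nat_lit 530) (nat_lit 421)) (XT.lf (nat_lit 0) (nat_lit 5686678182) (nat_lit 532) (nat_lit 4056031057) (nat_lit 76) (nat_lit 2855797962) (nat_lit 205) (nat_lit 5) (nat_lit 212) (nat_lit 5) (nat_lit 206) (nat_lit 5) (nat_lit 610) (nat_lit 530) (nat_lit 420)))) (XT.nd (nat_lit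 156) (nat_lit 912) (nat_lit 0) (XT.nd (nat_lit 78) (nat_lit 0) (nat_lit 0) (XT.lf (nat_lit 0) (nat_lit 4174934691) (nat_lit 456) (nat_lit 4933384536) (nat_lit 532) (nat_lit 3632691942) (nat_lit 199) (nat_lit 5) (nat_lit 205) (nat_lit 5) (nat_lit 206) (nat_lit 5) (nat_lit 611) (nat_lit 530) (nat_lit 419)) (XT.lf (nat_lit 0) (nat_lit 12595894632) (nat_lit 456) (nat_lit 9561805) (nat_lit 532) (nat_lit 280768274) (nat_lit 199) (nat_lit 5) (nat_lit 205) (nat_lit 5) (nat_lit 206) (nat_lit 5) (nat_lit 612) (nat_lit 530) (nat_lit 418))) (XT.nd (nat_lit 78) (nat_lit 456) (nat_lit 0) (XT.lf (nat_lit 0) (nat_lit 3163415418) (nat_lit 456) (nat_lit 4857313209) (nat_lit 76) (nat_lit 5011879536) (nat_lit 193) (nat_lit 5) (nat_lit 199) (nat_lit 5) (nat_lit 194) (nat_lit 5) (nat_lit 613) (nat_lit 530) (nat_lit 417)) (XT.lf (nat_lit 0) (nat_lit 3648775394) (nat_lit 456) (nat_lit 3029915039) (nat_lit 532) (nat_lit 6503073109) (nat_lit 187) (nat_lit 5) (nat_lit 193) (nat_lit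 5) (nat_lit 194) (nat_lit 5) (nat_lit 614) (nat_lit 530) (nat_lit 416))))) (XT.nd (nat_lit 312) (nat_lit 1216) (nat_lit 0) (XT.nd (nat_lit 156) (nat_lit 380) (nat_lit 0) (XT.nd (nat_lit 78) (nat_lit 456) (nat_lit 0) (XT.lf (nat_lit 0) (nat_lit 10290844902) (nat_lit 532) (nat_lit 985583871) (nat_lit 76) (nat_lit 2056942481) (nat_lit 187) (nat_lit 5) (nat_lit 194) (nat_lit 5) (nat_lit 188) (nat_lit 5) (nat_lit 615) (nat_lit 530) (nat_lit 415)) (XT.lf (nat_lit 0) (nat_lit 532565326) (nat_lit 456) (nat_lit 5704659019) (nat_lit 76) (nat_lit 7249689701) (nat_lit 181) (nat_lit 5) (nat_lit 187) (nat_lit 5) (nat_lit 182) (nat_lit 5) (nat_lit 616) (nat_lit 530) (nat_lit 414))) (XT.nd (nat_lit 78) (nat_lit 0) (nat_lit 0) (XT.lf (nat_lit 0) (nat_lit 3086652903) (nat_lit 380) (nat_lit 1059334209) (nat_lit 456) (nat_lit 9496987670) (nat_lit 176) (nat_lit 5) (nat_lit 181) (nat_lit 5) (nat_lit 182) (nat_lit 5) (nat_lit 617) (nat_lit 530) (nat_lit 413)) (XT.lf (nat_lit 0)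 (nat_lit 7878580643) (nat_lit 456) (nat_lit 1727114404) (nat_lit 76) (nat_lit 4195524270) (nat_lit 176) (nat_lit 5) (nat_lit 182) (nat_lit 5) (nat_lit 177) (nat_lit 5) (nat_lit 618) (nat_lit 530) (nat_lit 412)))) (XT.nd (nat_lit 156) (nat_lit 380) (nat_lit 0) (XT.nd (nat_lit 78) (nat_lit 456) (nat_lit 0) (XT.lf (nat_lit 0) (nat_lit 7339314033) (nat_lit 380) (nat_lit 4382508342) (nat_lit 456) (nat_lit 2240087080) (nat_lit 171) (nat_lit 5) (nat_lit 176) (nat_lit 5) (nat_lit 177) (nat_lit 5) (nat_lit 619) (nat_lit 530) (nat_lit 411)) (XT.lf (nat_lit 0) (nat_lit 1511700187) (nat_lit 456) (nat_lit 11652927548) (nat_lit 76) (nat_lit 960680026) (nat_lit 165) (nat_lit 5) (nat_lit 171) (nat_lit 5) (nat_lit 166) (nat_lit 5) (nat_lit 620) (nat_lit 530) (nat_lit 410))) (XT.nd (nat_lit 78) (nat_lit 380) (nat_lit 0) (XT.lf (nat_lit 0) (nat_lit 5363817693) (nat_lit 456) (nat_lit 2524990772) (nat_lit 76) (nat_lit 6401764243) (nat_lit 165) (nat_lit 5) (nat_lit 171) (nat_lit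 5) (nat_lit 166) (nat_lit 5) (nat_lit 621) (nat_lit 530) (nat_lit 409)) (XT.lf (nat_lit 0) (nat_lit 6847090475) (nat_lit 380) (nat_lit 2472208197) (nat_lit 456) (nat_lit 5139318451) (nat_lit 160) (nat_lit 5) (nat_lit 165) (nat_lit 5) (nat_lit 166) (nat_lit 5) (nat_lit 622) (nat_lit 530) (nat_lit 408))))))) (XT.nd (nat_lit 1170) (nat_lit 1824) (nat_lit 0) (XT.nd (nat_lit 546) (nat_lit 1596) (nat_lit 0) (XT.nd (nat_lit 234) (nat_lit 1140) (nat_lit 0) (XT.nd (nat_lit 78) (nat_lit 380) (nat_lit 0) (XT.lf (nat_lit 0) (nat_lit 1786328321) (nat_lit 380) (nat_lit 11598009013) (nat_lit 456) (nat_lit 1245076708) (nat_lit 155) (nat_lit 5) (nat_lit 160) (nat_lit 5) (nat_lit 161) (nat_lit 5) (nat_lit 623) (nat_lit 530) (nat_lit 407)) (XT.nd (nat_lit 78) (nat_lit 304) (nat_lit 0) (XT.lf (nat_lit 0) (nat_lit 2741097430) (nat_lit 456) (nat_lit 3390082009) (nat_lit 76) (nat_lit 8671097633) (nat_lit 154) (nat_lit 5) (nat_lit 160) (nat_lit 5) (nat_lit 155) (nat_lit 5) (nat_lit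 624) (nat_lit 530) (nat_lit 406)) (XT.lf (nat_lit 0) (nat_lit 6298521917) (nat_lit 304) (nat_lit 515089226) (nat_lit 380) (nat_lit 8164356413) (nat_lit 150) (nat_lit 5) (nat_lit 154) (nat_lit 5) (nat_lit 155) (nat_lit 5) (nat_lit 625) (nat_lit 530) (nat_lit 405)))) (XT.nd (nat_lit 156) (nat_lit 684) (nat_lit 0) (XT.nd (nat_lit 78) (nat_lit 76) (nat_lit 0) (XT.lf (nat_lit 0) (nat_lit 1021613059) (nat_lit 380) (nat_lit 9991821190) (nat_lit 456) (nat_lit 4142820951) (nat_lit 145) (nat_lit 5) (nat_lit 150) (nat_lit 5) (nat_lit 151) (nat_lit 5) (nat_lit 626) (nat_lit 530) (nat_lit 404)) (XT.lf (nat_lit 0) (nat_lit 4247485) (nat_lit 456) (nat_lit 4334100401) (nat_lit 76) (nat_lit 10998875200) (nat_lit 144) (nat_lit 5) (nat_lit 150) (nat_lit 5) (nat_lit 145) (nat_lit 5) (nat_lit 627) (nat_lit 530) (nat_lit 403))) (XT.nd (nat_lit 78) (nat_lit 380) (nat_lit 0) (XT.lf (nat_lit 0) (nat_lit 4208229357) (nat_lit 380) (nat_lit 9848382337) (nat_lit 76) (nat_lit 1464062571)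 (nat_lit 140) (nat_lit 5) (nat_lit 145) (nat_lit 5) (nat_lit 141) (nat_lit 5) (nat_lit 628) (nat_lit 530) (nat_lit 402)) (XT.lf (nat_lit 0) (nat_lit 176222432) (nat_lit 380) (nat_lit 8362180966) (nat_lit 456) (nat_lit 7168549310) (nat_lit 135) (nat_lit 5) (nat_lit 140) (nat_lit 5) (nat_lit 141) (nat_lit 5) (nat_lit 629) (nat_lit 530) (nat_lit 401))))) (XT.nd (nat_lit 312) (nat_lit 912) (nat_lit 0) (XT.nd (nat_lit 156) (nat_lit 304) (nat_lit 0) (XT.nd (nat_lit 78) (nat_lit 380) (nat_lit 0) (XT.lf (nat_lit 0) (nat_lit 10507483171) (nat_lit 380) (nat_lit 2496903106) (nat_lit 456) (nat_lit 2891586821) (nat_lit 135) (nat_lit 5) (nat_lit 140) (nat_lit 5) (nat_lit 141) (nat_lit 5) (nat_lit 630) (nat_lit 530) (nat_lit 400)) (XT.lf (nat_lit 0) (nat_lit 1490172374) (nat_lit 380) (nat_lit 11125700775) (nat_lit 76) (nat_lit 3471939232) (nat_lit 130) (nat_lit 5) (nat_lit 135) (nat_lit 5) (nat_lit 131) (nat_lit 5) (nat_lit 631) (nat_lit 530) (nat_lit 399))) (XT.nd (nat_lit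 78) (nat_lit 304) (nat_lit 0) (XT.lf (nat_lit 0) (nat_lit 5957243264) (nat_lit 380) (nat_lit 753027787) (nat_lit 76) (nat_lit 9572107689) (nat_lit 130) (nat_lit 5) (nat_lit 135) (nat_lit 5) (nat_lit 131) (nat_lit 5) (nat_lit 632) (nat_lit 530) (nat_lit 398)) (XT.lf (nat_lit 0) (nat_lit 9930768683) (nat_lit 304) (nat_lit 631112861) (nat_lit 380) (nat_lit 5917990811) (nat_lit 126) (nat_lit 5) (nat_lit 130) (nat_lit 5) (nat_lit 131) (nat_lit 5) (nat_lit 633) (nat_lit 530) (nat_lit 397)))) (XT.nd (nat_lit 156) (nat_lit 532) (nat_lit 0) (XT.nd (nat_lit 78) (nat_lit 76) (nat_lit 0) (XT.lf (nat_lit 0) (nat_lit 4148796177) (nat_lit 304) (nat_lit 11161830794) (nat_lit 380) (nat_lit 1369649021) (nat_lit 122) (nat_lit 5) (nat_lit 126) (nat_lit 5) (nat_lit 127) (nat_lit 5) (nat_lit 634) (nat_lit 530) (nat_lit 396)) (XT.lf (nat_lit 0) (nat_lit 3259063806) (nat_lit 380) (nat_lit 1786773385) (nat_lit 76) (nat_lit 11837780628) (nat_lit 121) (nat_lit 5) (nat_lit 126) (nat_lit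 5) (nat_lit 122) (nat_lit 5) (nat_lit 635) (nat_lit 530) (nat_lit 395))) (XT.nd (nat_lit 78) (nat_lit 228) (nat_lit 0) (XT.lf (nat_lit 0) (nat_lit 8014461594) (nat_lit 380) (nat_lit 7839073108) (nat_lit 76) (nat_lit 1236262119) (nat_lit 117) (nat_lit 5) (nat_lit 122) (nat_lit 5) (nat_lit 118) (nat_lit 5) (nat_lit 636) (nat_lit 530) (nat_lit 394)) (XT.lf (nat_lit 0) (nat_lit 3215765773) (nat_lit 228) (nat_lit 9699824628) (nat_lit 304) (nat_lit 4383496947) (nat_lit 114) (nat_lit 5) (nat_lit 117) (nat_lit 5) (nat_lit 118) (nat_lit 5) (nat_lit 637) (nat_lit 530) (nat_lit 393)))))) (XT.nd (nat_lit 546) (nat_lit 608) (nat_lit 0) (XT.nd (nat_lit 234) (nat_lit 608) (nat_lit 0) (XT.nd (nat_lit 78) (nat_lit 532) (nat_lit 0) (XT.lf (nat_lit 0) (nat_lit 434150244) (nat_lit 304) (nat_lit 2942790857) (nat_lit 76) (nat_lit 14134825812) (nat_lit 113) (nat_lit 5) (nat_lit 117) (nat_lit 5) (nat_lit 114) (nat_lit 5) (nat_lit 638) (nat_lit 530) (nat_lit 392)) (XT.nd (nat_lit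 78) (nat_lit 228) (nat_lit 0) (XT.lf (nat_lit 0) (nat_lit 5349587621) (nat_lit 380) (nat_lit 9270833854) (nat_lit 76) (nat_lit 3106496833) (nat_lit 109) (nat_lit 5) (nat_lit 114) (nat_lit 5) (nat_lit 110) (nat_lit 5) (nat_lit 639) (nat_lit 530) (nat_lit 391)) (XT.lf (nat_lit 0) (nat_lit 2156806596) (nat_lit 228) (nat_lit 8247443561) (nat_lit 304) (nat_lit 7541304619) (nat_lit 106) (nat_lit 5) (nat_lit 109) (nat_lit 5) (nat_lit 110) (nat_lit 5) (nat_lit 640) (nat_lit 530) (nat_lit 390)))) (XT.nd (nat_lit 156) (nat_lit 228) (nat_lit 0) (XT.nd (nat_lit 78) (nat_lit 380) (nat_lit 0) (XT.lf (nat_lit 0) (nat_lit 13913002938) (nat_lit 228) (nat_lit 1694019809) (nat_lit 304) (nat_lit 2560601258) (nat_lit 106) (nat_lit 5) (nat_lit 109) (nat_lit 5) (nat_lit 110) (nat_lit 5) (nat_lit 641) (nat_lit 530) (nat_lit 389)) (XT.lf (nat_lit 0) (nat_lit 2553575748) (nat_lit 380) (nat_lit 10858173906) (nat_lit 76) (nat_lit 4980719999) (nat_lit 101) (nat_lit 5) (nat_lit 106) (nat_lit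 5) (nat_lit 102) (nat_lit 5) (nat_lit 642) (nat_lit 530) (nat_lit 388))) (XT.nd (nat_lit 78) (nat_lit 0) (nat_lit 0) (XT.lf (nat_lit 0) (nat_lit 954144953) (nat_lit 228) (nat_lit 6812857347) (nat_lit 304) (nat_lit 10853846702) (nat_lit 98) (nat_lit 5) (nat_lit 101) (nat_lit 5) (nat_lit 102) (nat_lit 5) (nat_lit 643) (nat_lit 530) (nat_lit 387)) (XT.lf (nat_lit 0) (nat_lit 13124637209) (nat_lit 228) (nat_lit 18120010) (nat_lit 304) (nat_lit 5709877859) (nat_lit 98) (nat_lit 5) (nat_lit 101) (nat_lit 5) (nat_lit 102) (nat_lit 5) (nat_lit 644) (nat_lit 530) (nat_lit 386))))) (XT.nd (nat_lit 72384) (nat_lit 0) (nat_lit 47272) (XT.nd (nat_lit 156) (nat_lit 228) (nat_lit 0) (XT.nd (nat_lit 78) (nat_lit 76) (nat_lit 0) (XT.lf (nat_lit 0) (nat_lit 6464396351) (nat_lit 304) (nat_lit 12233902157) (nat_lit 380) (nat_lit 389313273) (nat_lit 94) (nat_lit 5) (nat_lit 98) (nat_lit 5) (nat_lit 99) (nat_lit 5) (nat_lit 645) (nat_lit 530) (nat_lit 385)) (XT.lf (nat_lit 0) (nat_lit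 4995853368) (nat_lit 380) (nat_lit 406335195) (nat_lit 76) (nat_lit 13923960405) (nat_lit 93) (nat_lit 5) (nat_lit 98) (nat_lit 5) (nat_lit 94) (nat_lit 5) (nat_lit 646) (nat_lit 530) (nat_lit 384))) (XT.nd (nat_lit 72150) (nat_lit 0) (nat_lit 48108) (XT.lf (nat_lit 0) (nat_lit 10559021992) (nat_lit 304) (nat_lit 7391130156) (nat_lit 76) (nat_lit 1617743367) (nat_lit 90) (nat_lit 5) (nat_lit 94) (nat_lit 5) (nat_lit 91) (nat_lit 5) (nat_lit 647) (nat_lit 530) (nat_lit 383)) (XT.lf (nat_lit 0) (nat_lit 604027981) (nat_lit 836) (nat_lit 1366019332) (nat_lit 836) (nat_lit 1366019332) (nat_lit 723) (nat_lit 3) (nat_lit 734) (nat_lit 3) (nat_lit 734) (nat_lit 5) (nat_lit 531) (nat_lit 531) (nat_lit 498)))) (XT.nd (nat_lit 156) (nat_lit 836) (nat_lit 0) (XT.nd (nat_lit 78) (nat_lit 0) (nat_lit 0) (XT.lf (nat_lit 76) (nat_lit 590667908) (nat_lit 0) (nat_lit 2877258561) (nat_lit 836) (nat_lit 3225765873) (nat_lit 724) (nat_lit 5) (nat_lit 723) (nat_lit 3) (nat_lit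 734) (nat_lit 5) (nat_lit 532) (nat_lit 531) (nat_lit 497)) (XT.lf (nat_lit 76) (nat_lit 3986441973) (nat_lit 0) (nat_lit 1745828580) (nat_lit 836) (nat_lit 984231915) (nat_lit 724) (nat_lit 5) (nat_lit 723) (nat_lit 3) (nat_lit 734) (nat_lit 5) (nat_lit 533) (nat_lit 531) (nat_lit 496))) (XT.nd (nat_lit 78) (nat_lit 0) (nat_lit 76) (XT.lf (nat_lit 76) (nat_lit 680226208) (nat_lit 0) (nat_lit 550957339) (nat_lit 912) (nat_lit 5509498797) (nat_lit 713) (nat_lit 5) (nat_lit 712) (nat_lit 5) (nat_lit 724) (nat_lit 5) (nat_lit 534) (nat_lit 531) (nat_lit 495)) (XT.lf (nat_lit 0) (nat_lit 3443350596) (nat_lit 836) (nat_lit 2611958393) (nat_lit 912) (nat_lit 710599376) (nat_lit 713) (nat_lit 5) (nat_lit 724) (nat_lit 5) (nat_lit 725) (nat_lit 5) (nat_lit 535) (nat_lit 531) (nat_lit 494))))))))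
noncomputable def xc95 : XT := (XT.nd (nat_lit 2262) (nat_lit 15504) (nat_lit 0) (XT.nd (nat_lit 1092) (nat_lit 13148) (nat_lit 0) (XT.nd (nat_lit 546) (nat_lit 2128) (nat_lit 0) (XT.nd (nat_lit 234) (nat_lit 912) (nat_lit 0) (XT.nd (nat_lit 78) (nat_lit 912) (nat_lit 0) (XT.lf (nat_lit 76) (nat_lit 882325557) (nat_lit 0) (nat_lit 4770766203) (nat_lit 912) (nat_lit 1139485534) (nat_lit 714) (nat_lit 5) (nat_lit 713) (nat_lit 5) (nat_lit 725) (nat_lit 5) (nat_lit 536) (nat_lit 531) (nat_lit 493)) (XT.nd (nat_lit 78) (nat_lit 0) (nat_lit 0) (XT.lf (nat_lit 0) (nat_lit 1035114046) (nat_lit 912) (nat_lit 2376348143) (nat_lit 988) (nat_lit 3408938531) (nat_lit 701) (nat_lit 5) (nat_lit 713) (nat_lit 5) (nat_lit 714) (nat_lit 5) (nat_lit 537) (nat_lit 531) (nat_lit 492)) (XT.lf (nat_lit 76) (nat_lit 1205472890) (nat_lit 0) (nat_lit 1985886266) (nat_lit 988) (nat_lit 3658207310) (nat_lit 702) (nat_lit 5) (nat_lit 701) (nat_lit 5) (nat_lit 714) (nat_lit 5) (nat_lit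 538) (nat_lit 531) (nat_lit 491)))) (XT.nd (nat_lit 156) (nat_lit 0) (nat_lit 0) (XT.nd (nat_lit 78) (nat_lit 912) (nat_lit 0) (XT.lf (nat_lit 76) (nat_lit 4860322114) (nat_lit 0) (nat_lit 492791003) (nat_lit 988) (nat_lit 1526959352) (nat_lit 702) (nat_lit 5) (nat_lit 701) (nat_lit 5) (nat_lit 714) (nat_lit 5) (nat_lit 539) (nat_lit 531) (nat_lit 490)) (XT.lf (nat_lit 0) (nat_lit 603297271) (nat_lit 988) (nat_lit 5255103262) (nat_lit 1064) (nat_lit 1053411138) (nat_lit 689) (nat_lit 5) (nat_lit 702) (nat_lit 5) (nat_lit 703) (nat_lit 5) (nat_lit 540) (nat_lit 531) (nat_lit 489))) (XT.nd (nat_lit 78) (nat_lit 0) (nat_lit 0) (XT.lf (nat_lit 0) (nat_lit 2720749885) (nat_lit 988) (nat_lit 1555208310) (nat_lit 1064) (nat_lit 2668729217) (nat_lit 689) (nat_lit 5) (nat_lit 702) (nat_lit 5) (nat_lit 703) (nat_lit 5) (nat_lit 541) (nat_lit 531) (nat_lit 488)) (XT.lf (nat_lit 76) (nat_lit 2216476843) (nat_lit 0) (nat_lit 2627593846) (nat_lit 1064) (nat_lit 2134883865)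 (nat_lit 690) (nat_lit 5) (nat_lit 689) (nat_lit 5) (nat_lit 703) (nat_lit 5) (nat_lit 542) (nat_lit 531) (nat_lit 487))))) (XT.nd (nat_lit 234) (nat_lit 1140) (nat_lit 0) (XT.nd (nat_lit 78) (nat_lit 988) (nat_lit 0) (XT.lf (nat_lit 76) (nat_lit 6053605540) (nat_lit 0) (nat_lit 916612686) (nat_lit 1064) (nat_lit 44485795) (nat_lit 690) (nat_lit 5) (nat_lit 689) (nat_lit 5) (nat_lit 703) (nat_lit 5) (nat_lit 543) (nat_lit 531) (nat_lit 486)) (XT.nd (nat_lit 78) (nat_lit 0) (nat_lit 0) (XT.lf (nat_lit 0) (nat_lit 2035521912) (nat_lit 1064) (nat_lit 4147432549) (nat_lit 1140) (nat_lit 868443293) (nat_lit 676) (nat_lit 5) (nat_lit 690) (nat_lit 5) (nat_lit 691) (nat_lit 5) (nat_lit 544) (nat_lit 531) (nat_lit 485)) (XT.lf (nat_lit 0) (nat_lit 4120557389) (nat_lit 1064) (nat_lit 267756318) (nat_lit 1140) (nat_lit 2701229252) (nat_lit 676) (nat_lit 5) (nat_lit 690) (nat_lit 5) (nat_lit 691) (nat_lit 5) (nat_lit 545) (nat_lit 531) (nat_lit 484)))) (XT.nd (nat_lit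 156) (nat_lit 0) (nat_lit 76) (XT.nd (nat_lit 78) (nat_lit 1140) (nat_lit 0) (XT.lf (nat_lit 76) (nat_lit 3706745269) (nat_lit 0) (nat_lit 2517026969) (nat_lit 1140) (nat_lit 905153126) (nat_lit 677) (nat_lit 5) (nat_lit 676) (nat_lit 5) (nat_lit 691) (nat_lit 5) (nat_lit 546) (nat_lit 531) (nat_lit 483)) (XT.lf (nat_lit 76) (nat_lit 563082096) (nat_lit 0) (nat_lit 579429457) (nat_lit 1216) (nat_lit 6027265899) (nat_lit 662) (nat_lit 5) (nat_lit 661) (nat_lit 5) (nat_lit 677) (nat_lit 5) (nat_lit 547) (nat_lit 531) (nat_lit 482))) (XT.nd (nat_lit 78) (nat_lit 0) (nat_lit 0) (XT.lf (nat_lit 0) (nat_lit 3204852154) (nat_lit 1140) (nat_lit 2584392207) (nat_lit 1216) (nat_lit 1422369351) (nat_lit 662) (nat_lit 5) (nat_lit 677) (nat_lit 5) (nat_lit 678) (nat_lit 5) (nat_lit 548) (nat_lit 531) (nat_lit 481)) (XT.lf (nat_lit 76) (nat_lit 1502234750) (nat_lit 0) (nat_lit 3774349382) (nat_lit 1216) (nat_lit 1978343249) (nat_lit 663) (nat_lit 5) (nat_lit 662) (nat_lit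 5) (nat_lit 678) (nat_lit 5) (nat_lit 549) (nat_lit 531) (nat_lit 480)))))) (XT.nd (nat_lit 546) (nat_lit 8132) (nat_lit 0) (XT.nd (nat_lit 234) (nat_lit 3876) (nat_lit 0) (XT.nd (nat_lit 78) (nat_lit 0) (nat_lit 76) (XT.lf (nat_lit 0) (nat_lit 61850781) (nat_lit 1216) (nat_lit 1626216364) (nat_lit 1292) (nat_lit 5611583918) (nat_lit 646) (nat_lit 5) (nat_lit 662) (nat_lit 5) (nat_lit 663) (nat_lit 5) (nat_lit 550) (nat_lit 531) (nat_lit 479)) (XT.nd (nat_lit 78) (nat_lit 0) (nat_lit 0) (XT.lf (nat_lit 0) (nat_lit 2092037126) (nat_lit 1216) (nat_lit 4777022880) (nat_lit 76) (nat_lit 476437475) (nat_lit 647) (nat_lit 5) (nat_lit 663) (nat_lit 5) (nat_lit 648) (nat_lit 5) (nat_lit 551) (nat_lit 531) (nat_lit 478)) (XT.lf (nat_lit 0) (nat_lit 4141552992) (nat_lit 1216) (nat_lit 566677500) (nat_lit 76) (nat_lit 2684459121) (nat_lit 647) (nat_lit 5) (nat_lit 663) (nat_lit 5) (nat_lit 648) (nat_lit 5) (nat_lit 552) (nat_lit 531) (nat_lit 477)))) (XT.nd (nat_lit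 156) (nat_lit 1368) (nat_lit 0) (XT.nd (nat_lit 78) (nat_lit 1368) (nat_lit 0) (XT.lf (nat_lit 0) (nat_lit 3745143427) (nat_lit 1216) (nat_lit 2468644941) (nat_lit 1292) (nat_lit 1227405870) (nat_lit 631) (nat_lit 5) (nat_lit 647) (nat_lit 5) (nat_lit 648) (nat_lit 5) (nat_lit 553) (nat_lit 531) (nat_lit 476)) (XT.lf (nat_lit 0) (nat_lit 630900983) (nat_lit 1292) (nat_lit 160609703) (nat_lit 1368) (nat_lit 6699739002) (nat_lit 613) (nat_lit 5) (nat_lit 630) (nat_lit 5) (nat_lit 631) (nat_lit 5) (nat_lit 554) (nat_lit 531) (nat_lit 475))) (XT.nd (nat_lit 78) (nat_lit 1368) (nat_lit 0) (XT.lf (nat_lit 0) (nat_lit 2832039718) (nat_lit 1368) (nat_lit 2502742939) (nat_lit 76) (nat_lit 2207410994) (nat_lit 613) (nat_lit 5) (nat_lit 631) (nat_lit 5) (nat_lit 614) (nat_lit 5) (nat_lit 555) (nat_lit 531) (nat_lit 474)) (XT.lf (nat_lit 0) (nat_lit 1934071396) (nat_lit 1368) (nat_lit 2952188481) (nat_lit 1444) (nat_lit 2708441996) (nat_lit 595) (nat_lit 5) (nat_lit 613)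 (nat_lit 5) (nat_lit 614) (nat_lit 5) (nat_lit 556) (nat_lit 531) (nat_lit 473))))) (XT.nd (nat_lit 312) (nat_lit 5092) (nat_lit 0) (XT.nd (nat_lit 156) (nat_lit 1520) (nat_lit 0) (XT.nd (nat_lit 78) (nat_lit 1520) (nat_lit 0) (XT.lf (nat_lit 0) (nat_lit 6461513902) (nat_lit 1368) (nat_lit 496695742) (nat_lit 1444) (nat_lit 690520642) (nat_lit 595) (nat_lit 5) (nat_lit 613) (nat_lit 5) (nat_lit 614) (nat_lit 5) (nat_lit 557) (nat_lit 531) (nat_lit 472)) (XT.lf (nat_lit 0) (nat_lit 1345425458) (nat_lit 1520) (nat_lit 4338139675) (nat_lit 76) (nat_lit 2020187250) (nat_lit 575) (nat_lit 5) (nat_lit 595) (nat_lit 5) (nat_lit 576) (nat_lit 5) (nat_lit 558) (nat_lit 531) (nat_lit 471))) (XT.nd (nat_lit 78) (nat_lit 0) (nat_lit 0) (XT.lf (nat_lit 0) (nat_lit 228400090) (nat_lit 1520) (nat_lit 3158237674) (nat_lit 1596) (nat_lit 4373672766) (nat_lit 555) (nat_lit 5) (nat_lit 575) (nat_lit 5) (nat_lit 576) (nat_lit 5) (nat_lit 559) (nat_lit 531) (nat_lit 470)) (XT.lf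 (nat_lit 0) (nat_lit 4912733336) (nat_lit 1520) (nat_lit 546599847) (nat_lit 1596) (nat_lit 2358856188) (nat_lit 555) (nat_lit 5) (nat_lit 575) (nat_lit 5) (nat_lit 576) (nat_lit 5) (nat_lit 560) (nat_lit 531) (nat_lit 469)))) (XT.nd (nat_lit 156) (nat_lit 3420) (nat_lit 0) (XT.nd (nat_lit 78) (nat_lit 76) (nat_lit 0) (XT.lf (nat_lit 0) (nat_lit 1790763615) (nat_lit 1596) (nat_lit 5770432974) (nat_lit 1672) (nat_lit 316277573) (nat_lit 534) (nat_lit 5) (nat_lit 555) (nat_lit 5) (nat_lit 556) (nat_lit 5) (nat_lit 561) (nat_lit 531) (nat_lit 468)) (XT.lf (nat_lit 0) (nat_lit 1729843051) (nat_lit 1672) (nat_lit 1365274106) (nat_lit 76) (nat_lit 4842883234) (nat_lit 533) (nat_lit 5) (nat_lit 555) (nat_lit 5) (nat_lit 534) (nat_lit 5) (nat_lit 562) (nat_lit 531) (nat_lit 467))) (XT.nd (nat_lit 78) (nat_lit 1748) (nat_lit 0) (XT.lf (nat_lit 0) (nat_lit 3461752162) (nat_lit 1672) (nat_lit 336732682) (nat_lit 1748) (nat_lit 4201496317) (nat_lit 511) (nat_lit 5) (nat_lit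 533) (nat_lit 5) (nat_lit 534) (nat_lit 5) (nat_lit 563) (nat_lit 531) (nat_lit 466)) (XT.lf (nat_lit 0) (nat_lit 295858918) (nat_lit 1748) (nat_lit 5603757253) (nat_lit 1824) (nat_lit 2163765494) (nat_lit 488) (nat_lit 5) (nat_lit 511) (nat_lit 5) (nat_lit 512) (nat_lit 5) (nat_lit 564) (nat_lit 531) (nat_lit 465))))))) (XT.nd (nat_lit 1170) (nat_lit 6384) (nat_lit 0) (XT.nd (nat_lit 546) (nat_lit 4256) (nat_lit 0) (XT.nd (nat_lit 234) (nat_lit 2964) (nat_lit 0) (XT.nd (nat_lit 78) (nat_lit 1900) (nat_lit 0) (XT.lf (nat_lit 0) (nat_lit 5253414083) (nat_lit 1748) (nat_lit 2786414710) (nat_lit 1824) (nat_lit 88282618) (nat_lit 488) (nat_lit 5) (nat_lit 511) (nat_lit 5) (nat_lit 512) (nat_lit 5) (nat_lit 565) (nat_lit 531) (nat_lit 464)) (XT.nd (nat_lit 78) (nat_lit 0) (nat_lit 0) (XT.lf (nat_lit 0) (nat_lit 1981341449) (nat_lit 1900) (nat_lit 6097043235) (nat_lit 76) (nat_lit 115905176) (nat_lit 463) (nat_lit 5) (nat_lit 488) (nat_lit 5) (nat_lit 464) (nat_lit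 5) (nat_lit 566) (nat_lit 531) (nat_lit 463)) (XT.lf (nat_lit 0) (nat_lit 4094400171) (nat_lit 1900) (nat_lit 1105778981) (nat_lit 76) (nat_lit 3061538834) (nat_lit 463) (nat_lit 5) (nat_lit 488) (nat_lit 5) (nat_lit 464) (nat_lit 5) (nat_lit 567) (nat_lit 531) (nat_lit 462)))) (XT.nd (nat_lit 156) (nat_lit 912) (nat_lit 0) (XT.nd (nat_lit 78) (nat_lit 988) (nat_lit 0) (XT.lf (nat_lit 0) (nat_lit 4005684880) (nat_lit 1064) (nat_lit 2236073738) (nat_lit 1140) (nat_lit 2088897508) (nat_lit 449) (nat_lit 5) (nat_lit 463) (nat_lit 5) (nat_lit 464) (nat_lit 5) (nat_lit 568) (nat_lit 531) (nat_lit 461)) (XT.lf (nat_lit 0) (nat_lit 14893628) (nat_lit 988) (nat_lit 7595062047) (nat_lit 76) (nat_lit 791331249) (nat_lit 436) (nat_lit 5) (nat_lit 449) (nat_lit 5) (nat_lit 437) (nat_lit 5) (nat_lit 569) (nat_lit 531) (nat_lit 460))) (XT.nd (nat_lit 78) (nat_lit 912) (nat_lit 0) (XT.lf (nat_lit 0) (nat_lit 2143565003) (nat_lit 988) (nat_lit 2435774734) (nat_lit 76) (nat_lit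 3893501047) (nat_lit 436) (nat_lit 5) (nat_lit 449) (nat_lit 5) (nat_lit 437) (nat_lit 5) (nat_lit 570) (nat_lit 531) (nat_lit 459)) (XT.lf (nat_lit 0) (nat_lit 2831618347) (nat_lit 912) (nat_lit 1468953784) (nat_lit 988) (nat_lit 4245540396) (nat_lit 424) (nat_lit 5) (nat_lit 436) (nat_lit 5) (nat_lit 437) (nat_lit 5) (nat_lit 571) (nat_lit 531) (nat_lit 458))))) (XT.nd (nat_lit 312) (nat_lit 2508) (nat_lit 0) (XT.nd (nat_lit 156) (nat_lit 836) (nat_lit 0) (XT.nd (nat_lit 78) (nat_lit 912) (nat_lit 0) (XT.lf (nat_lit 0) (nat_lit 6496044782) (nat_lit 988) (nat_lit 426967581) (nat_lit 76) (nat_lit 1697932846) (nat_lit 424) (nat_lit 5) (nat_lit 437) (nat_lit 5) (nat_lit 425) (nat_lit 5) (nat_lit 572) (nat_lit 531) (nat_lit 457)) (XT.lf (nat_lit 0) (nat_lit 48288466) (nat_lit 912) (nat_lit 3707368516) (nat_lit 76) (nat_lit 4941401813) (nat_lit 412) (nat_lit 5) (nat_lit 424) (nat_lit 5) (nat_lit 413) (nat_lit 5) (nat_lit 573) (nat_lit 531) (nat_lit 456))) (XT.nd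 (nat_lit 78) (nat_lit 0) (nat_lit 0) (XT.lf (nat_lit 0) (nat_lit 1722106212) (nat_lit 836) (nat_lit 497120258) (nat_lit 912) (nat_lit 6555534412) (nat_lit 401) (nat_lit 5) (nat_lit 412) (nat_lit 5) (nat_lit 413) (nat_lit 5) (nat_lit 574) (nat_lit 531) (nat_lit 455)) (XT.lf (nat_lit 0) (nat_lit 4446024491) (nat_lit 912) (nat_lit 1594233390) (nat_lit 76) (nat_lit 2813512163) (nat_lit 401) (nat_lit 5) (nat_lit 413) (nat_lit 5) (nat_lit 402) (nat_lit 5) (nat_lit 575) (nat_lit 531) (nat_lit 454)))) (XT.nd (nat_lit 156) (nat_lit 760) (nat_lit 0) (XT.nd (nat_lit 78) (nat_lit 912) (nat_lit 0) (XT.lf (nat_lit 0) (nat_lit 3990416906) (nat_lit 836) (nat_lit 2725795152) (nat_lit 912) (nat_lit 2218172083) (nat_lit 390) (nat_lit 5) (nat_lit 401) (nat_lit 5) (nat_lit 402) (nat_lit 5) (nat_lit 576) (nat_lit 531) (nat_lit 453)) (XT.lf (nat_lit 0) (nat_lit 4283859) (nat_lit 912) (nat_lit 8352855172) (nat_lit 76) (nat_lit 659685463) (nat_lit 378) (nat_lit 5) (nat_lit 390) (nat_lit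 5) (nat_lit 379) (nat_lit 5) (nat_lit 577) (nat_lit 531) (nat_lit 452))) (XT.nd (nat_lit 78) (nat_lit 760) (nat_lit 0) (XT.lf (nat_lit 0) (nat_lit 2263174491) (nat_lit 912) (nat_lit 2714675668) (nat_lit 76) (nat_lit 4122338232) (nat_lit 378) (nat_lit 5) (nat_lit 390) (nat_lit 5) (nat_lit 379) (nat_lit 5) (nat_lit 578) (nat_lit 531) (nat_lit 451)) (XT.lf (nat_lit 0) (nat_lit 3044286219) (nat_lit 760) (nat_lit 1513517506) (nat_lit 836) (nat_lit 4627606306) (nat_lit 368) (nat_lit 5) (nat_lit 378) (nat_lit 5) (nat_lit 379) (nat_lit 5) (nat_lit 579) (nat_lit 531) (nat_lit 450)))))) (XT.nd (nat_lit 546) (nat_lit 3344) (nat_lit 0) (XT.nd (nat_lit 234) (nat_lit 1520) (nat_lit 0) (XT.nd (nat_lit 78) (nat_lit 1520) (nat_lit 0) (XT.lf (nat_lit 0) (nat_lit 6900922470) (nat_lit 836) (nat_lit 362240255) (nat_lit 76) (nat_lit 2009123095) (nat_lit 368) (nat_lit 5) (nat_lit 379) (nat_lit 5) (nat_lit 369) (nat_lit 5) (nat_lit 580) (nat_lit 531) (nat_lit 449)) (XT.nd (nat_lit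 78) (nat_lit 760) (nat_lit 0) (XT.lf (nat_lit 0) (nat_lit 5563539510) (nat_lit 760) (nat_lit 3745218914) (nat_lit 836) (nat_lit 51785221) (nat_lit 358) (nat_lit 5) (nat_lit 368) (nat_lit 5) (nat_lit 369) (nat_lit 5) (nat_lit 581) (nat_lit 531) (nat_lit 448)) (XT.lf (nat_lit 0) (nat_lit 2143505996) (nat_lit 684) (nat_lit 128565003) (nat_lit 760) (nat_lit 7178431928) (nat_lit 348) (nat_lit 5) (nat_lit 357) (nat_lit 5) (nat_lit 358) (nat_lit 5) (nat_lit 582) (nat_lit 531) (nat_lit 447)))) (XT.nd (nat_lit 156) (nat_lit 760) (nat_lit 0) (XT.nd (nat_lit 78) (nat_lit 760) (nat_lit 0) (XT.lf (nat_lit 0) (nat_lit 4662672090) (nat_lit 760) (nat_lit 1343199936) (nat_lit 76) (nat_lit 3535964826) (nat_lit 348) (nat_lit 5) (nat_lit 358) (nat_lit 5) (nat_lit 349) (nat_lit 5) (nat_lit 583) (nat_lit 531) (nat_lit 446)) (XT.lf (nat_lit 0) (nat_lit 4770096415) (nat_lit 760) (nat_lit 2335551274) (nat_lit 836) (nat_lit 2529260012) (nat_lit 338) (nat_lit 5) (nat_lit 348) (nat_lit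 5) (nat_lit 349) (nat_lit 5) (nat_lit 584) (nat_lit 531) (nat_lit 445))) (XT.nd (nat_lit 78) (nat_lit 76) (nat_lit 0) (XT.lf (nat_lit 0) (nat_lit 1269867999) (nat_lit 684) (nat_lit 8327119315) (nat_lit 760) (nat_lit 132864028) (nat_lit 329) (nat_lit 5) (nat_lit 338) (nat_lit 5) (nat_lit 339) (nat_lit 5) (nat_lit 585) (nat_lit 531) (nat_lit 444)) (XT.lf (nat_lit 0) (nat_lit 2302662850) (nat_lit 760) (nat_lit 2295486262) (nat_lit 76) (nat_lit 5227815638) (nat_lit 328) (nat_lit 5) (nat_lit 338) (nat_lit 5) (nat_lit 329) (nat_lit 5) (nat_lit 586) (nat_lit 531) (nat_lit 443))))) (XT.nd (nat_lit 312) (nat_lit 1292) (nat_lit 0) (XT.nd (nat_lit 156) (nat_lit 760) (nat_lit 0) (XT.nd (nat_lit 78) (nat_lit 608) (nat_lit 0) (XT.lf (nat_lit 0) (nat_lit 4012735842) (nat_lit 684) (nat_lit 772155401) (nat_lit 760) (nat_lit 5139097600) (nat_lit 319) (nat_lit 5) (nat_lit 328) (nat_lit 5) (nat_lit 329) (nat_lit 5) (nat_lit 587) (nat_lit 531) (nat_lit 442)) (XT.lf (nat_lit 0)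 (nat_lit 407902089) (nat_lit 608) (nat_lit 6921335886) (nat_lit 684) (nat_lit 2694487321) (nat_lit 311) (nat_lit 5) (nat_lit 319) (nat_lit 5) (nat_lit 320) (nat_lit 5) (nat_lit 588) (nat_lit 531) (nat_lit 441))) (XT.nd (nat_lit 78) (nat_lit 760) (nat_lit 0) (XT.lf (nat_lit 0) (nat_lit 6897000946) (nat_lit 608) (nat_lit 3046519509) (nat_lit 684) (nat_lit 181556375) (nat_lit 311) (nat_lit 5) (nat_lit 319) (nat_lit 5) (nat_lit 320) (nat_lit 5) (nat_lit 589) (nat_lit 531) (nat_lit 440)) (XT.lf (nat_lit 0) (nat_lit 2352443341) (nat_lit 760) (nat_lit 6950392340) (nat_lit 76) (nat_lit 925270813) (nat_lit 301) (nat_lit 5) (nat_lit 311) (nat_lit 5) (nat_lit 302) (nat_lit 5) (nat_lit 590) (nat_lit 531) (nat_lit 439)))) (XT.nd (nat_lit 156) (nat_lit 684) (nat_lit 0) (XT.nd (nat_lit 78) (nat_lit 608) (nat_lit 0) (XT.lf (nat_lit 0) (nat_lit 4951571194) (nat_lit 760) (nat_lit 428276821) (nat_lit 76) (nat_lit 4952988400) (nat_lit 301) (nat_lit 5) (nat_lit 311) (nat_lit 5)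 (nat_lit 302) (nat_lit 5) (nat_lit 591) (nat_lit 531) (nat_lit 438)) (XT.lf (nat_lit 0) (nat_lit 6275835519) (nat_lit 608) (nat_lit 1342980951) (nat_lit 684) (nat_lit 2820522996) (nat_lit 293) (nat_lit 5) (nat_lit 301) (nat_lit 5) (nat_lit 302) (nat_lit 5) (nat_lit 592) (nat_lit 531) (nat_lit 437))) (XT.nd (nat_lit 78) (nat_lit 76) (nat_lit 0) (XT.lf (nat_lit 0) (nat_lit 2556415315) (nat_lit 608) (nat_lit 7796128766) (nat_lit 684) (nat_lit 195166949) (nat_lit 285) (nat_lit 5) (nat_lit 293) (nat_lit 5) (nat_lit 294) (nat_lit 5) (nat_lit 593) (nat_lit 531) (nat_lit 436)) (XT.lf (nat_lit 0) (nat_lit 2462902411) (nat_lit 684) (nat_lit 1246837851) (nat_lit 76) (nat_lit 6947933191) (nat_lit 284) (nat_lit 5) (nat_lit 293) (nat_lit 5) (nat_lit 285) (nat_lit 5) (nat_lit 594) (nat_lit 531) (nat_lit 435))))))))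
noncomputable def xc96 : XT := (XT.nd (nat_lit 2262) (nat_lit 5320) (nat_lit 0) (XT.nd (nat_lit 1092) (nat_lit 4408) (nat_lit 0) (XT.nd (nat_lit 546) (nat_lit 2052) (nat_lit 0) (XT.nd (nat_lit 234) (nat_lit 1748) (nat_lit 0) (XT.nd (nat_lit 78) (nat_lit 608) (nat_lit 0) (XT.lf (nat_lit 0) (nat_lit 5187778491) (nat_lit 684) (nat_lit 5097595331) (nat_lit 76) (nat_lit 484111461) (nat_lit 276) (nat_lit 5) (nat_lit 285) (nat_lit 5) (nat_lit 277) (nat_lit 5) (nat_lit 595) (nat_lit 531) (nat_lit 434)) (XT.nd (nat_lit 78) (nat_lit 0) (nat_lit 0) (XT.lf (nat_lit 0) (nat_lit 1831185719) (nat_lit 608) (nat_lit 6157295525) (nat_lit 684) (nat_lit 2894626634) (nat_lit 268) (nat_lit 5) (nat_lit 276) (nat_lit 5) (nat_lit 277) (nat_lit 5) (nat_lit 596) (nat_lit 531) (nat_lit 433)) (XT.lf (nat_lit 0) (nat_lit 8937108941) (nat_lit 608) (nat_lit 1919009904) (nat_lit 684) (nat_lit 142666751) (nat_lit 268) (nat_lit 5) (nat_lit 276) (nat_lit 5) (nat_lit 277) (nat_lit 5) (nat_lit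 597) (nat_lit 531) (nat_lit 432)))) (XT.nd (nat_lit 156) (nat_lit 608) (nat_lit 0) (XT.nd (nat_lit 78) (nat_lit 532) (nat_lit 0) (XT.lf (nat_lit 0) (nat_lit 2655333360) (nat_lit 608) (nat_lit 6044566874) (nat_lit 76) (nat_lit 2416012827) (nat_lit 260) (nat_lit 5) (nat_lit 268) (nat_lit 5) (nat_lit 261) (nat_lit 5) (nat_lit 598) (nat_lit 531) (nat_lit 431)) (XT.lf (nat_lit 0) (nat_lit 1110235908) (nat_lit 532) (nat_lit 4408218361) (nat_lit 608) (nat_lit 5716689549) (nat_lit 253) (nat_lit 5) (nat_lit 260) (nat_lit 5) (nat_lit 261) (nat_lit 5) (nat_lit 599) (nat_lit 531) (nat_lit 430))) (XT.nd (nat_lit 78) (nat_lit 608) (nat_lit 0) (XT.lf (nat_lit 0) (nat_lit 8456894798) (nat_lit 608) (nat_lit 2896597399) (nat_lit 76) (nat_lit 2906856) (nat_lit 253) (nat_lit 5) (nat_lit 261) (nat_lit 5) (nat_lit 254) (nat_lit 5) (nat_lit 600) (nat_lit 531) (nat_lit 429)) (XT.lf (nat_lit 0) (nat_lit 10724932) (nat_lit 608) (nat_lit 7003692223) (nat_lit 76) (nat_lit 4464939387)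 (nat_lit 245) (nat_lit 5) (nat_lit 253) (nat_lit 5) (nat_lit 246) (nat_lit 5) (nat_lit 601) (nat_lit 531) (nat_lit 428))))) (XT.nd (nat_lit 234) (nat_lit 1064) (nat_lit 0) (XT.nd (nat_lit 78) (nat_lit 456) (nat_lit 0) (XT.lf (nat_lit 0) (nat_lit 385834796) (nat_lit 532) (nat_lit 2554569885) (nat_lit 608) (nat_lit 8663984725) (nat_lit 238) (nat_lit 5) (nat_lit 245) (nat_lit 5) (nat_lit 246) (nat_lit 5) (nat_lit 602) (nat_lit 531) (nat_lit 427)) (XT.nd (nat_lit 78) (nat_lit 456) (nat_lit 0) (XT.lf (nat_lit 0) (nat_lit 5967084488) (nat_lit 608) (nat_lit 3756485851) (nat_lit 76) (nat_lit 2007585391) (nat_lit 238) (nat_lit 5) (nat_lit 246) (nat_lit 5) (nat_lit 239) (nat_lit 5) (nat_lit 603) (nat_lit 531) (nat_lit 426)) (XT.lf (nat_lit 0) (nat_lit 3858778471) (nat_lit 456) (nat_lit 5216066636) (nat_lit 532) (nat_lit 2785202238) (nat_lit 232) (nat_lit 5) (nat_lit 238) (nat_lit 5) (nat_lit 239) (nat_lit 5) (nat_lit 604) (nat_lit 531) (nat_lit 425)))) (XT.nd (nat_lit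 156) (nat_lit 456) (nat_lit 0) (XT.nd (nat_lit 78) (nat_lit 532) (nat_lit 0) (XT.lf (nat_lit 0) (nat_lit 253960557) (nat_lit 532) (nat_lit 345381074) (nat_lit 76) (nat_lit 11392062400) (nat_lit 231) (nat_lit 5) (nat_lit 238) (nat_lit 5) (nat_lit 232) (nat_lit 5) (nat_lit 605) (nat_lit 531) (nat_lit 424)) (XT.lf (nat_lit 0) (nat_lit 3371592118) (nat_lit 608) (nat_lit 4637043978) (nat_lit 76) (nat_lit 4115284821) (nat_lit 224) (nat_lit 5) (nat_lit 232) (nat_lit 5) (nat_lit 225) (nat_lit 5) (nat_lit 606) (nat_lit 531) (nat_lit 423))) (XT.nd (nat_lit 78) (nat_lit 0) (nat_lit 0) (XT.lf (nat_lit 0) (nat_lit 3230393870) (nat_lit 456) (nat_lit 3327707031) (nat_lit 532) (nat_lit 5700857590) (nat_lit 218) (nat_lit 5) (nat_lit 224) (nat_lit 5) (nat_lit 225) (nat_lit 5) (nat_lit 607) (nat_lit 531) (nat_lit 422)) (XT.lf (nat_lit 0) (nat_lit 9828466174) (nat_lit 532) (nat_lit 1117208121) (nat_lit 76) (nat_lit 1450620820) (nat_lit 218) (nat_lit 5) (nat_lit 225) (nat_lit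 5) (nat_lit 219) (nat_lit 5) (nat_lit 608) (nat_lit 531) (nat_lit 421)))))) (XT.nd (nat_lit 546) (nat_lit 2052) (nat_lit 0) (XT.nd (nat_lit 234) (nat_lit 1368) (nat_lit 0) (XT.nd (nat_lit 78) (nat_lit 456) (nat_lit 0) (XT.lf (nat_lit 0) (nat_lit 667192439) (nat_lit 532) (nat_lit 5546761371) (nat_lit 76) (nat_lit 6321392594) (nat_lit 211) (nat_lit 5) (nat_lit 218) (nat_lit 5) (nat_lit 212) (nat_lit 5) (nat_lit 609) (nat_lit 531) (nat_lit 420)) (XT.nd (nat_lit 78) (nat_lit 0) (nat_lit 0) (XT.lf (nat_lit 0) (nat_lit 2582354173) (nat_lit 456) (nat_lit 1354410914) (nat_lit 532) (nat_lit 8739990259) (nat_lit 205) (nat_lit 5) (nat_lit 211) (nat_lit 5) (nat_lit 212) (nat_lit 5) (nat_lit 610) (nat_lit 531) (nat_lit 419)) (XT.lf (nat_lit 0) (nat_lit 7312623509) (nat_lit 532) (nat_lit 1923860773) (nat_lit 76) (nat_lit 3583691062) (nat_lit 205) (nat_lit 5) (nat_lit 212) (nat_lit 5) (nat_lit 206) (nat_lit 5) (nat_lit 611) (nat_lit 531) (nat_lit 418)))) (XT.nd (nat_lit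 156) (nat_lit 456) (nat_lit 0) (XT.nd (nat_lit 78) (nat_lit 456) (nat_lit 0) (XT.lf (nat_lit 0) (nat_lit 6457163166) (nat_lit 456) (nat_lit 4330158610) (nat_lit 532) (nat_lit 2178516260) (nat_lit 199) (nat_lit 5) (nat_lit 205) (nat_lit 5) (nat_lit 206) (nat_lit 5) (nat_lit 612) (nat_lit 531) (nat_lit 417)) (XT.lf (nat_lit 0) (nat_lit 1211545674) (nat_lit 456) (nat_lit 11212653315) (nat_lit 76) (nat_lit 689849505) (nat_lit 193) (nat_lit 5) (nat_lit 199) (nat_lit 5) (nat_lit 194) (nat_lit 5) (nat_lit 613) (nat_lit 531) (nat_lit 416))) (XT.nd (nat_lit 78) (nat_lit 456) (nat_lit 0) (XT.lf (nat_lit 0) (nat_lit 4693544348) (nat_lit 456) (nat_lit 2768703178) (nat_lit 76) (nat_lit 5801622222) (nat_lit 193) (nat_lit 5) (nat_lit 199) (nat_lit 5) (nat_lit 194) (nat_lit 5) (nat_lit 614) (nat_lit 531) (nat_lit 415)) (XT.lf (nat_lit 0) (nat_lit 5893127222) (nat_lit 456) (nat_lit 2371333684) (nat_lit 532) (nat_lit 5151841653) (nat_lit 187) (nat_lit 5) (nat_lit 193) (nat_lit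 5) (nat_lit 194) (nat_lit 5) (nat_lit 615) (nat_lit 531) (nat_lit 414))))) (XT.nd (nat_lit 312) (nat_lit 836) (nat_lit 0) (XT.nd (nat_lit 156) (nat_lit 760) (nat_lit 0) (XT.nd (nat_lit 78) (nat_lit 76) (nat_lit 0) (XT.lf (nat_lit 0) (nat_lit 1162701711) (nat_lit 380) (nat_lit 10769809175) (nat_lit 456) (nat_lit 1638759518) (nat_lit 182) (nat_lit 5) (nat_lit 187) (nat_lit 5) (nat_lit 188) (nat_lit 5) (nat_lit 616) (nat_lit 531) (nat_lit 413)) (XT.lf (nat_lit 0) (nat_lit 1966810973) (nat_lit 456) (nat_lit 3661198678) (nat_lit 76) (nat_lit 8100121487) (nat_lit 181) (nat_lit 5) (nat_lit 187) (nat_lit 5) (nat_lit 182) (nat_lit 5) (nat_lit 617) (nat_lit 531) (nat_lit 412))) (XT.nd (nat_lit 78) (nat_lit 380) (nat_lit 0) (XT.lf (nat_lit 0) (nat_lit 5291745052) (nat_lit 380) (nat_lit 346758637) (nat_lit 456) (nat_lit 8249090316) (nat_lit 176) (nat_lit 5) (nat_lit 181) (nat_lit 5) (nat_lit 182) (nat_lit 5) (nat_lit 618) (nat_lit 531) (nat_lit 411)) (XT.lf (nat_lit 0)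 (nat_lit 367511613) (nat_lit 380) (nat_lit 9057655111) (nat_lit 456) (nat_lit 4624249303) (nat_lit 171) (nat_lit 5) (nat_lit 176) (nat_lit 5) (nat_lit 177) (nat_lit 5) (nat_lit 619) (nat_lit 531) (nat_lit 410)))) (XT.nd (nat_lit 156) (nat_lit 380) (nat_lit 0) (XT.nd (nat_lit 78) (nat_lit 456) (nat_lit 0) (XT.lf (nat_lit 0) (nat_lit 9596472663) (nat_lit 380) (nat_lit 3732927646) (nat_lit 456) (nat_lit 884238047) (nat_lit 171) (nat_lit 5) (nat_lit 176) (nat_lit 5) (nat_lit 177) (nat_lit 5) (nat_lit 620) (nat_lit 531) (nat_lit 409)) (XT.lf (nat_lit 0) (nat_lit 2915684911) (nat_lit 456) (nat_lit 9748623495) (nat_lit 76) (nat_lit 1715985841) (nat_lit 165) (nat_lit 5) (nat_lit 171) (nat_lit 5) (nat_lit 166) (nat_lit 5) (nat_lit 621) (nat_lit 531) (nat_lit 408))) (XT.nd (nat_lit 78) (nat_lit 380) (nat_lit 0) (XT.lf (nat_lit 0) (nat_lit 6817908480) (nat_lit 456) (nat_lit 480037054) (nat_lit 76) (nat_lit 7251458562) (nat_lit 165) (nat_lit 5) (nat_lit 171) (nat_lit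 5) (nat_lit 166) (nat_lit 5) (nat_lit 622) (nat_lit 531) (nat_lit 407)) (XT.lf (nat_lit 0) (nat_lit 9065699940) (nat_lit 380) (nat_lit 1773906579) (nat_lit 456) (nat_lit 3881461589) (nat_lit 160) (nat_lit 5) (nat_lit 165) (nat_lit 5) (nat_lit 166) (nat_lit 5) (nat_lit 623) (nat_lit 531) (nat_lit 406))))))) (XT.nd (nat_lit 1092) (nat_lit 2052) (nat_lit 0) (XT.nd (nat_lit 546) (nat_lit 1368) (nat_lit 0) (XT.nd (nat_lit 234) (nat_lit 1140) (nat_lit 0) (XT.nd (nat_lit 78) (nat_lit 304) (nat_lit 0) (XT.lf (nat_lit 0) (nat_lit 81595253) (nat_lit 456) (nat_lit 10984225179) (nat_lit 76) (nat_lit 3829607198) (nat_lit 154) (nat_lit 5) (nat_lit 160) (nat_lit 5) (nat_lit 155) (nat_lit 5) (nat_lit 624) (nat_lit 531) (nat_lit 405)) (XT.nd (nat_lit 78) (nat_lit 304) (nat_lit 0) (XT.lf (nat_lit 0) (nat_lit 4104662029) (nat_lit 456) (nat_lit 1391730006) (nat_lit 76) (nat_lit 9575715281) (nat_lit 154) (nat_lit 5) (nat_lit 160) (nat_lit 5) (nat_lit 155) (nat_lit 5) (nat_lit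 625) (nat_lit 531) (nat_lit 404)) (XT.lf (nat_lit 0) (nat_lit 8247789240) (nat_lit 380) (nat_lit 6776004480) (nat_lit 76) (nat_lit 227735417) (nat_lit 150) (nat_lit 5) (nat_lit 155) (nat_lit 5) (nat_lit 151) (nat_lit 5) (nat_lit 626) (nat_lit 531) (nat_lit 403)))) (XT.nd (nat_lit 156) (nat_lit 684) (nat_lit 0) (XT.nd (nat_lit 78) (nat_lit 76) (nat_lit 0) (XT.lf (nat_lit 0) (nat_lit 3102021975) (nat_lit 380) (nat_lit 9420856733) (nat_lit 456) (nat_lit 2910679206) (nat_lit 145) (nat_lit 5) (nat_lit 150) (nat_lit 5) (nat_lit 151) (nat_lit 5) (nat_lit 627) (nat_lit 531) (nat_lit 402)) (XT.lf (nat_lit 0) (nat_lit 1276638049) (nat_lit 456) (nat_lit 2384251817) (nat_lit 76) (nat_lit 11957594205) (nat_lit 144) (nat_lit 5) (nat_lit 150) (nat_lit 5) (nat_lit 145) (nat_lit 5) (nat_lit 628) (nat_lit 531) (nat_lit 401))) (XT.nd (nat_lit 78) (nat_lit 380) (nat_lit 0) (XT.lf (nat_lit 0) (nat_lit 5557839461) (nat_lit 380) (nat_lit 8001922661) (nat_lit 76) (nat_lit 2245980085)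 (nat_lit 140) (nat_lit 5) (nat_lit 145) (nat_lit 5) (nat_lit 141) (nat_lit 5) (nat_lit 629) (nat_lit 531) (nat_lit 400)) (XT.lf (nat_lit 0) (nat_lit 2209730602) (nat_lit 380) (nat_lit 7753253724) (nat_lit 456) (nat_lit 6032995265) (nat_lit 135) (nat_lit 5) (nat_lit 140) (nat_lit 5) (nat_lit 141) (nat_lit 5) (nat_lit 630) (nat_lit 531) (nat_lit 399))))) (XT.nd (nat_lit 234) (nat_lit 684) (nat_lit 0) (XT.nd (nat_lit 78) (nat_lit 684) (nat_lit 0) (XT.lf (nat_lit 0) (nat_lit 12707812953) (nat_lit 380) (nat_lit 1785889344) (nat_lit 456) (nat_lit 1695570487) (nat_lit 135) (nat_lit 5) (nat_lit 140) (nat_lit 5) (nat_lit 141) (nat_lit 5) (nat_lit 631) (nat_lit 531) (nat_lit 398)) (XT.nd (nat_lit 78) (nat_lit 304) (nat_lit 0) (XT.lf (nat_lit 0) (nat_lit 2751041779) (nat_lit 380) (nat_lit 9335184197) (nat_lit 76) (nat_lit 4298687491) (nat_lit 130) (nat_lit 5) (nat_lit 135) (nat_lit 5) (nat_lit 131) (nat_lit 5) (nat_lit 632) (nat_lit 531) (nat_lit 397)) (XT.lf (nat_lit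 0) (nat_lit 1221491137) (nat_lit 304) (nat_lit 6069755132) (nat_lit 380) (nat_lit 9292449705) (nat_lit 126) (nat_lit 5) (nat_lit 130) (nat_lit 5) (nat_lit 131) (nat_lit 5) (nat_lit 633) (nat_lit 531) (nat_lit 396)))) (XT.nd (nat_lit 156) (nat_lit 380) (nat_lit 0) (XT.nd (nat_lit 78) (nat_lit 304) (nat_lit 0) (XT.lf (nat_lit 0) (nat_lit 11969895329) (nat_lit 380) (nat_lit 4696342556) (nat_lit 76) (nat_lit 119263866) (nat_lit 126) (nat_lit 5) (nat_lit 131) (nat_lit 5) (nat_lit 127) (nat_lit 5) (nat_lit 634) (nat_lit 531) (nat_lit 395)) (XT.lf (nat_lit 0) (nat_lit 6198312290) (nat_lit 304) (nat_lit 10608702861) (nat_lit 380) (nat_lit 183030957) (nat_lit 122) (nat_lit 5) (nat_lit 126) (nat_lit 5) (nat_lit 127) (nat_lit 5) (nat_lit 635) (nat_lit 531) (nat_lit 394))) (XT.nd (nat_lit 78) (nat_lit 0) (nat_lit 0) (XT.lf (nat_lit 0) (nat_lit 122721671) (nat_lit 304) (nat_lit 4376917330) (nat_lit 380) (nat_lit 12698112644) (nat_lit 117) (nat_lit 5) (nat_lit 121) (nat_lit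 5) (nat_lit 122) (nat_lit 5) (nat_lit 636) (nat_lit 531) (nat_lit 393)) (XT.lf (nat_lit 0) (nat_lit 9343831026) (nat_lit 380) (nat_lit 6046686583) (nat_lit 76) (nat_lit 2017663494) (nat_lit 117) (nat_lit 5) (nat_lit 122) (nat_lit 5) (nat_lit 118) (nat_lit 5) (nat_lit 637) (nat_lit 531) (nat_lit 392)))))) (XT.nd (nat_lit 546) (nat_lit 608) (nat_lit 0) (XT.nd (nat_lit 234) (nat_lit 836) (nat_lit 0) (XT.nd (nat_lit 78) (nat_lit 380) (nat_lit 0) (XT.lf (nat_lit 0) (nat_lit 5216425602) (nat_lit 228) (nat_lit 9116205699) (nat_lit 304) (nat_lit 3289233750) (nat_lit 114) (nat_lit 5) (nat_lit 117) (nat_lit 5) (nat_lit 118) (nat_lit 5) (nat_lit 638) (nat_lit 531) (nat_lit 391)) (XT.nd (nat_lit 78) (nat_lit 304) (nat_lit 0) (XT.lf (nat_lit 0) (nat_lit 1586393906) (nat_lit 304) (nat_lit 1088044063) (nat_lit 76) (nat_lit 15164664752) (nat_lit 113) (nat_lit 5) (nat_lit 117) (nat_lit 5) (nat_lit 114) (nat_lit 5) (nat_lit 639) (nat_lit 531) (nat_lit 390)) (XT.lf (nat_lit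 0) (nat_lit 6595043241) (nat_lit 380) (nat_lit 7537523368) (nat_lit 76) (nat_lit 3926093026) (nat_lit 109) (nat_lit 5) (nat_lit 114) (nat_lit 5) (nat_lit 110) (nat_lit 5) (nat_lit 640) (nat_lit 531) (nat_lit 389)))) (XT.nd (nat_lit 156) (nat_lit 608) (nat_lit 0) (XT.nd (nat_lit 78) (nat_lit 0) (nat_lit 0) (XT.lf (nat_lit 0) (nat_lit 4106046687) (nat_lit 228) (nat_lit 7634805211) (nat_lit 304) (nat_lit 6541016421) (nat_lit 106) (nat_lit 5) (nat_lit 109) (nat_lit 5) (nat_lit 110) (nat_lit 5) (nat_lit 641) (nat_lit 531) (nat_lit 388)) (XT.lf (nat_lit 0) (nat_lit 16059992368) (nat_lit 228) (nat_lit 965559793) (nat_lit 304) (nat_lit 1483269861) (nat_lit 106) (nat_lit 5) (nat_lit 109) (nat_lit 5) (nat_lit 110) (nat_lit 5) (nat_lit 642) (nat_lit 531) (nat_lit 387))) (XT.nd (nat_lit 78) (nat_lit 228) (nat_lit 0) (XT.lf (nat_lit 0) (nat_lit 3713680990) (nat_lit 380) (nat_lit 9187046509) (nat_lit 76) (nat_lit 5837385226) (nat_lit 101) (nat_lit 5) (nat_lit 106) (nat_lit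 5) (nat_lit 102) (nat_lit 5) (nat_lit 643) (nat_lit 531) (nat_lit 386)) (XT.lf (nat_lit 0) (nat_lit 2849095761) (nat_lit 228) (nat_lit 6172713930) (nat_lit 304) (nat_lit 9949441797) (nat_lit 98) (nat_lit 5) (nat_lit 101) (nat_lit 5) (nat_lit 102) (nat_lit 5) (nat_lit 644) (nat_lit 531) (nat_lit 385))))) (XT.nd (nat_lit 72462) (nat_lit 0) (nat_lit 46360) (XT.nd (nat_lit 156) (nat_lit 228) (nat_lit 0) (XT.nd (nat_lit 78) (nat_lit 380) (nat_lit 0) (XT.lf (nat_lit 0) (nat_lit 14488343593) (nat_lit 304) (nat_lit 3986710871) (nat_lit 76) (nat_lit 732954038) (nat_lit 98) (nat_lit 5) (nat_lit 102) (nat_lit 5) (nat_lit 99) (nat_lit 5) (nat_lit 645) (nat_lit 531) (nat_lit 384)) (XT.lf (nat_lit 0) (nat_lit 688830395) (nat_lit 380) (nat_lit 11015197360) (nat_lit 76) (nat_lit 7743749694) (nat_lit 93) (nat_lit 5) (nat_lit 98) (nat_lit 5) (nat_lit 94) (nat_lit 5) (nat_lit 646) (nat_lit 531) (nat_lit 383))) (XT.nd (nat_lit 72228) (nat_lit 0) (nat_lit 48108) (XT.lf (nat_lit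 0) (nat_lit 1425711212) (nat_lit 228) (nat_lit 4738847164) (nat_lit 304) (nat_lit 13526714584) (nat_lit 90) (nat_lit 5) (nat_lit 93) (nat_lit 5) (nat_lit 94) (nat_lit 5) (nat_lit 647) (nat_lit 531) (nat_lit 382)) (XT.lf (nat_lit 0) (nat_lit 2845494237) (nat_lit 836) (nat_lit 256250442) (nat_lit 836) (nat_lit 256250442) (nat_lit 723) (nat_lit 3) (nat_lit 734) (nat_lit 3) (nat_lit 734) (nat_lit 5) (nat_lit 532) (nat_lit 532) (nat_lit 496)))) (XT.nd (nat_lit 156) (nat_lit 912) (nat_lit 0) (XT.nd (nat_lit 78) (nat_lit 0) (nat_lit 0) (XT.lf (nat_lit 0) (nat_lit 1168327683) (nat_lit 836) (nat_lit 3885431943) (nat_lit 912) (nat_lit 1685530341) (nat_lit 712) (nat_lit 5) (nat_lit 723) (nat_lit 3) (nat_lit 724) (nat_lit 5) (nat_lit 533) (nat_lit 532) (nat_lit 495)) (XT.lf (nat_lit 0) (nat_lit 3338128662) (nat_lit 836) (nat_lit 505309993) (nat_lit 912) (nat_lit 2920560031) (nat_lit 712) (nat_lit 5) (nat_lit 723) (nat_lit 3) (nat_lit 724) (nat_lit 5) (nat_lit 534) (nat_lit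 532) (nat_lit 494))) (XT.nd (nat_lit 78) (nat_lit 912) (nat_lit 0) (XT.lf (nat_lit 76) (nat_lit 2951711500) (nat_lit 0) (nat_lit 2562754075) (nat_lit 912) (nat_lit 1275478211) (nat_lit 713) (nat_lit 5) (nat_lit 712) (nat_lit 5) (nat_lit 724) (nat_lit 5) (nat_lit 535) (nat_lit 532) (nat_lit 493)) (XT.lf (nat_lit 0) (nat_lit 853810479) (nat_lit 912) (nat_lit 367562933) (nat_lit 988) (nat_lit 5595961436) (nat_lit 700) (nat_lit 5) (nat_lit 712) (nat_lit 5) (nat_lit 713) (nat_lit 5) (nat_lit 536) (nat_lit 532) (nat_lit 492))))))))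
noncomputable def xc97 : XT := (XT.nd (nat_lit 2262) (nat_lit 16036) (nat_lit 0) (XT.nd (nat_lit 1092) (nat_lit 12084) (nat_lit 0) (XT.nd (nat_lit 546) (nat_lit 2204) (nat_lit 0) (XT.nd (nat_lit 234) (nat_lit 988) (nat_lit 0) (XT.nd (nat_lit 78) (nat_lit 988) (nat_lit 0) (XT.lf (nat_lit 0) (nat_lit 2976155927) (nat_lit 912) (nat_lit 3670738180) (nat_lit 988) (nat_lit 198864727) (nat_lit 701) (nat_lit 5) (nat_lit 713) (nat_lit 5) (nat_lit 714) (nat_lit 5) (nat_lit 537) (nat_lit 532) (nat_lit 491)) (XT.nd (nat_lit 78) (nat_lit 988) (nat_lit 0) (XT.lf (nat_lit 0) (nat_lit 5098157232) (nat_lit 912) (nat_lit 119784586) (nat_lit 988) (nat_lit 1657669926) (nat_lit 701) (nat_lit 5) (nat_lit 713) (nat_lit 5) (nat_lit 714) (nat_lit 5) (nat_lit 538) (nat_lit 532) (nat_lit 490)) (XT.lf (nat_lit 0) (nat_lit 322189516) (nat_lit 988) (nat_lit 3390260967) (nat_lit 1064) (nat_lit 3194162800) (nat_lit 688) (nat_lit 5) (nat_lit 701) (nat_lit 5) (nat_lit 702) (nat_lit 5) (nat_lit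 539) (nat_lit 532) (nat_lit 489)))) (XT.nd (nat_lit 156) (nat_lit 988) (nat_lit 0) (XT.nd (nat_lit 78) (nat_lit 0) (nat_lit 0) (XT.lf (nat_lit 76) (nat_lit 249799926) (nat_lit 0) (nat_lit 2140851612) (nat_lit 1064) (nat_lit 4548340188) (nat_lit 689) (nat_lit 5) (nat_lit 688) (nat_lit 5) (nat_lit 702) (nat_lit 5) (nat_lit 540) (nat_lit 532) (nat_lit 488)) (XT.lf (nat_lit 76) (nat_lit 3978500778) (nat_lit 0) (nat_lit 493725126) (nat_lit 1064) (nat_lit 2500361240) (nat_lit 689) (nat_lit 5) (nat_lit 688) (nat_lit 5) (nat_lit 702) (nat_lit 5) (nat_lit 541) (nat_lit 532) (nat_lit 487))) (XT.nd (nat_lit 78) (nat_lit 1064) (nat_lit 0) (XT.lf (nat_lit 76) (nat_lit 746343155) (nat_lit 0) (nat_lit 5811762676) (nat_lit 1064) (nat_lit 449499348) (nat_lit 690) (nat_lit 5) (nat_lit 689) (nat_lit 5) (nat_lit 703) (nat_lit 5) (nat_lit 542) (nat_lit 532) (nat_lit 486)) (XT.lf (nat_lit 0) (nat_lit 1594911086) (nat_lit 1064) (nat_lit 2485944027) (nat_lit 1140) (nat_lit 2962777787)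 (nat_lit 675) (nat_lit 5) (nat_lit 689) (nat_lit 5) (nat_lit 690) (nat_lit 5) (nat_lit 543) (nat_lit 532) (nat_lit 485))))) (XT.nd (nat_lit 234) (nat_lit 1140) (nat_lit 0) (XT.nd (nat_lit 78) (nat_lit 1064) (nat_lit 0) (XT.lf (nat_lit 76) (nat_lit 1349084241) (nat_lit 0) (nat_lit 2285417304) (nat_lit 1140) (nat_lit 3446617940) (nat_lit 676) (nat_lit 5) (nat_lit 675) (nat_lit 5) (nat_lit 690) (nat_lit 5) (nat_lit 544) (nat_lit 532) (nat_lit 484)) (XT.nd (nat_lit 78) (nat_lit 1064) (nat_lit 0) (XT.lf (nat_lit 76) (nat_lit 5264198690) (nat_lit 0) (nat_lit 419666231) (nat_lit 1140) (nat_lit 1436115128) (nat_lit 676) (nat_lit 5) (nat_lit 675) (nat_lit 5) (nat_lit 690) (nat_lit 5) (nat_lit 545) (nat_lit 532) (nat_lit 483)) (XT.lf (nat_lit 0) (nat_lit 582891057) (nat_lit 1140) (nat_lit 5078982815) (nat_lit 1216) (nat_lit 1498140783) (nat_lit 661) (nat_lit 5) (nat_lit 676) (nat_lit 5) (nat_lit 677) (nat_lit 5) (nat_lit 546) (nat_lit 532) (nat_lit 482)))) (XT.nd (nat_lit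 156) (nat_lit 1140) (nat_lit 0) (XT.nd (nat_lit 78) (nat_lit 0) (nat_lit 0) (XT.lf (nat_lit 0) (nat_lit 2592134314) (nat_lit 1140) (nat_lit 1122419661) (nat_lit 1216) (nat_lit 3486728038) (nat_lit 661) (nat_lit 5) (nat_lit 676) (nat_lit 5) (nat_lit 677) (nat_lit 5) (nat_lit 547) (nat_lit 532) (nat_lit 481)) (XT.lf (nat_lit 76) (nat_lit 2921012529) (nat_lit 0) (nat_lit 1694175417) (nat_lit 1216) (nat_lit 2628717837) (nat_lit 662) (nat_lit 5) (nat_lit 661) (nat_lit 5) (nat_lit 677) (nat_lit 5) (nat_lit 548) (nat_lit 532) (nat_lit 480))) (XT.nd (nat_lit 78) (nat_lit 1216) (nat_lit 0) (XT.lf (nat_lit 0) (nat_lit 6644109720) (nat_lit 1140) (nat_lit 260493346) (nat_lit 1216) (nat_lit 383474323) (nat_lit 662) (nat_lit 5) (nat_lit 677) (nat_lit 5) (nat_lit 678) (nat_lit 5) (nat_lit 549) (nat_lit 532) (nat_lit 479)) (XT.lf (nat_lit 0) (nat_lit 1355130480) (nat_lit 1216) (nat_lit 3449957721) (nat_lit 1292) (nat_lit 2528013170) (nat_lit 646) (nat_lit 5) (nat_lit 662)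 (nat_lit 5) (nat_lit 663) (nat_lit 5) (nat_lit 550) (nat_lit 532) (nat_lit 478)))))) (XT.nd (nat_lit 546) (nat_lit 8132) (nat_lit 0) (XT.nd (nat_lit 234) (nat_lit 2812) (nat_lit 0) (XT.nd (nat_lit 78) (nat_lit 1140) (nat_lit 0) (XT.lf (nat_lit 76) (nat_lit 708082359) (nat_lit 0) (nat_lit 2640558995) (nat_lit 1292) (nat_lit 4031041580) (nat_lit 647) (nat_lit 5) (nat_lit 646) (nat_lit 5) (nat_lit 663) (nat_lit 5) (nat_lit 551) (nat_lit 532) (nat_lit 477)) (XT.nd (nat_lit 78) (nat_lit 1140) (nat_lit 0) (XT.lf (nat_lit 76) (nat_lit 4965131497) (nat_lit 0) (nat_lit 397378954) (nat_lit 1292) (nat_lit 2065079151) (nat_lit 647) (nat_lit 5) (nat_lit 646) (nat_lit 5) (nat_lit 663) (nat_lit 5) (nat_lit 552) (nat_lit 532) (nat_lit 476)) (XT.lf (nat_lit 0) (nat_lit 1811119838) (nat_lit 1216) (nat_lit 5587819808) (nat_lit 1292) (nat_lit 77872277) (nat_lit 631) (nat_lit 5) (nat_lit 647) (nat_lit 5) (nat_lit 648) (nat_lit 5) (nat_lit 553) (nat_lit 532) (nat_lit 475)))) (XT.nd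 (nat_lit 156) (nat_lit 1444) (nat_lit 0) (XT.nd (nat_lit 78) (nat_lit 1292) (nat_lit 0) (XT.lf (nat_lit 0) (nat_lit 1901371737) (nat_lit 1292) (nat_lit 1370108415) (nat_lit 76) (nat_lit 4255731383) (nat_lit 630) (nat_lit 5) (nat_lit 647) (nat_lit 5) (nat_lit 631) (nat_lit 5) (nat_lit 554) (nat_lit 532) (nat_lit 474)) (XT.lf (nat_lit 0) (nat_lit 3019518802) (nat_lit 1292) (nat_lit 878646826) (nat_lit 1368) (nat_lit 3680866054) (nat_lit 613) (nat_lit 5) (nat_lit 630) (nat_lit 5) (nat_lit 631) (nat_lit 5) (nat_lit 555) (nat_lit 532) (nat_lit 473))) (XT.nd (nat_lit 78) (nat_lit 1444) (nat_lit 0) (XT.lf (nat_lit 0) (nat_lit 5914350718) (nat_lit 1368) (nat_lit 158009645) (nat_lit 76) (nat_lit 1559941693) (nat_lit 613) (nat_lit 5) (nat_lit 631) (nat_lit 5) (nat_lit 614) (nat_lit 5) (nat_lit 556) (nat_lit 532) (nat_lit 472)) (XT.lf (nat_lit 0) (nat_lit 275372706) (nat_lit 1444) (nat_lit 3336768279) (nat_lit 76) (nat_lit 4074565190) (nat_lit 594) (nat_lit 5) (nat_lit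 613) (nat_lit 5) (nat_lit 595) (nat_lit 5) (nat_lit 557) (nat_lit 532) (nat_lit 471))))) (XT.nd (nat_lit 312) (nat_lit 5092) (nat_lit 0) (XT.nd (nat_lit 156) (nat_lit 1596) (nat_lit 0) (XT.nd (nat_lit 78) (nat_lit 0) (nat_lit 0) (XT.lf (nat_lit 0) (nat_lit 1180802736) (nat_lit 1444) (nat_lit 1074663724) (nat_lit 1520) (nat_lit 5487109434) (nat_lit 575) (nat_lit 5) (nat_lit 594) (nat_lit 5) (nat_lit 595) (nat_lit 5) (nat_lit 558) (nat_lit 532) (nat_lit 470)) (XT.lf (nat_lit 0) (nat_lit 4269286557) (nat_lit 1520) (nat_lit 2007052347) (nat_lit 76) (nat_lit 1523344322) (nat_lit 575) (nat_lit 5) (nat_lit 595) (nat_lit 5) (nat_lit 576) (nat_lit 5) (nat_lit 559) (nat_lit 532) (nat_lit 469))) (XT.nd (nat_lit 78) (nat_lit 76) (nat_lit 0) (XT.lf (nat_lit 0) (nat_lit 2634911305) (nat_lit 1520) (nat_lit 3675203821) (nat_lit 1596) (nat_lit 1548085592) (nat_lit 555) (nat_lit 5) (nat_lit 575) (nat_lit 5) (nat_lit 576) (nat_lit 5) (nat_lit 560) (nat_lit 532) (nat_lit 468))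 (XT.lf (nat_lit 0) (nat_lit 444007850) (nat_lit 1596) (nat_lit 555447794) (nat_lit 76) (nat_lit 6918846913) (nat_lit 554) (nat_lit 5) (nat_lit 575) (nat_lit 5) (nat_lit 555) (nat_lit 5) (nat_lit 561) (nat_lit 532) (nat_lit 467)))) (XT.nd (nat_lit 156) (nat_lit 1824) (nat_lit 0) (XT.nd (nat_lit 78) (nat_lit 1672) (nat_lit 0) (XT.lf (nat_lit 0) (nat_lit 2457671145) (nat_lit 1672) (nat_lit 3771222547) (nat_lit 76) (nat_lit 1750461450) (nat_lit 533) (nat_lit 5) (nat_lit 555) (nat_lit 5) (nat_lit 534) (nat_lit 5) (nat_lit 562) (nat_lit 532) (nat_lit 466)) (XT.lf (nat_lit 0) (nat_lit 1008020842) (nat_lit 1672) (nat_lit 3484574861) (nat_lit 1748) (nat_lit 3549415767) (nat_lit 511) (nat_lit 5) (nat_lit 533) (nat_lit 5) (nat_lit 534) (nat_lit 5) (nat_lit 563) (nat_lit 532) (nat_lit 465))) (XT.nd (nat_lit 78) (nat_lit 1824) (nat_lit 0) (XT.lf (nat_lit 0) (nat_lit 5902660815) (nat_lit 1672) (nat_lit 655438333) (nat_lit 1748) (nat_lit 1548026575) (nat_lit 511) (nat_lit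 5) (nat_lit 533) (nat_lit 5) (nat_lit 534) (nat_lit 5) (nat_lit 564) (nat_lit 532) (nat_lit 464)) (XT.lf (nat_lit 0) (nat_lit 484291647) (nat_lit 1824) (nat_lit 5461403373) (nat_lit 76) (nat_lit 2225818039) (nat_lit 487) (nat_lit 5) (nat_lit 511) (nat_lit 5) (nat_lit 488) (nat_lit 5) (nat_lit 565) (nat_lit 532) (nat_lit 463))))))) (XT.nd (nat_lit 1170) (nat_lit 6992) (nat_lit 0) (XT.nd (nat_lit 546) (nat_lit 4256) (nat_lit 0) (XT.nd (nat_lit 234) (nat_lit 1900) (nat_lit 0) (XT.nd (nat_lit 78) (nat_lit 2888) (nat_lit 0) (XT.lf (nat_lit 0) (nat_lit 2521315782) (nat_lit 1824) (nat_lit 532449507) (nat_lit 76) (nat_lit 5184544719) (nat_lit 487) (nat_lit 5) (nat_lit 511) (nat_lit 5) (nat_lit 488) (nat_lit 5) (nat_lit 566) (nat_lit 532) (nat_lit 462)) (XT.nd (nat_lit 78) (nat_lit 1064) (nat_lit 0) (XT.lf (nat_lit 0) (nat_lit 4523358084) (nat_lit 1824) (nat_lit 71309843) (nat_lit 1900) (nat_lit 3711865440) (nat_lit 463) (nat_lit 5) (nat_lit 487) (nat_lit 5) (nat_lit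 488) (nat_lit 5) (nat_lit 567) (nat_lit 532) (nat_lit 461)) (XT.lf (nat_lit 0) (nat_lit 1277360016) (nat_lit 1064) (nat_lit 5430002664) (nat_lit 1140) (nat_lit 1668803180) (nat_lit 449) (nat_lit 5) (nat_lit 463) (nat_lit 5) (nat_lit 464) (nat_lit 5) (nat_lit 568) (nat_lit 532) (nat_lit 460)))) (XT.nd (nat_lit 156) (nat_lit 912) (nat_lit 0) (XT.nd (nat_lit 78) (nat_lit 912) (nat_lit 0) (XT.lf (nat_lit 0) (nat_lit 402630421) (nat_lit 1140) (nat_lit 1991395441) (nat_lit 76) (nat_lit 6053254239) (nat_lit 448) (nat_lit 5) (nat_lit 463) (nat_lit 5) (nat_lit 449) (nat_lit 5) (nat_lit 569) (nat_lit 532) (nat_lit 459)) (XT.lf (nat_lit 0) (nat_lit 2486420431) (nat_lit 988) (nat_lit 5306433576) (nat_lit 76) (nat_lit 726878597) (nat_lit 436) (nat_lit 5) (nat_lit 449) (nat_lit 5) (nat_lit 437) (nat_lit 5) (nat_lit 570) (nat_lit 532) (nat_lit 458))) (XT.nd (nat_lit 78) (nat_lit 912) (nat_lit 0) (XT.lf (nat_lit 0) (nat_lit 4609209764) (nat_lit 988) (nat_lit 91814041) (nat_lit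 76) (nat_lit 3892665895) (nat_lit 436) (nat_lit 5) (nat_lit 449) (nat_lit 5) (nat_lit 437) (nat_lit 5) (nat_lit 571) (nat_lit 532) (nat_lit 457)) (XT.lf (nat_lit 0) (nat_lit 5265185611) (nat_lit 912) (nat_lit 1512098699) (nat_lit 988) (nat_lit 1891787010) (nat_lit 424) (nat_lit 5) (nat_lit 436) (nat_lit 5) (nat_lit 437) (nat_lit 5) (nat_lit 572) (nat_lit 532) (nat_lit 456))))) (XT.nd (nat_lit 312) (nat_lit 1672) (nat_lit 0) (XT.nd (nat_lit 156) (nat_lit 1672) (nat_lit 0) (XT.nd (nat_lit 78) (nat_lit 0) (nat_lit 0) (XT.lf (nat_lit 0) (nat_lit 233290513) (nat_lit 912) (nat_lit 6779882884) (nat_lit 76) (nat_lit 1732883258) (nat_lit 412) (nat_lit 5) (nat_lit 424) (nat_lit 5) (nat_lit 413) (nat_lit 5) (nat_lit 573) (nat_lit 532) (nat_lit 455)) (XT.lf (nat_lit 0) (nat_lit 2377830001) (nat_lit 912) (nat_lit 1388631610) (nat_lit 76) (nat_lit 5057826021) (nat_lit 412) (nat_lit 5) (nat_lit 424) (nat_lit 5) (nat_lit 413) (nat_lit 5) (nat_lit 574) (nat_lit 532) (nat_lit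 454))) (XT.nd (nat_lit 78) (nat_lit 836) (nat_lit 0) (XT.lf (nat_lit 0) (nat_lit 4133689953) (nat_lit 836) (nat_lit 428272444) (nat_lit 912) (nat_lit 4342188612) (nat_lit 401) (nat_lit 5) (nat_lit 412) (nat_lit 5) (nat_lit 413) (nat_lit 5) (nat_lit 575) (nat_lit 532) (nat_lit 453)) (XT.lf (nat_lit 0) (nat_lit 759067789) (nat_lit 836) (nat_lit 6034592775) (nat_lit 912) (nat_lit 2191875215) (nat_lit 390) (nat_lit 5) (nat_lit 401) (nat_lit 5) (nat_lit 402) (nat_lit 5) (nat_lit 576) (nat_lit 532) (nat_lit 452)))) (XT.nd (nat_lit 156) (nat_lit 760) (nat_lit 0) (XT.nd (nat_lit 78) (nat_lit 836) (nat_lit 0) (XT.lf (nat_lit 0) (nat_lit 6918954) (nat_lit 912) (nat_lit 2638657070) (nat_lit 76) (nat_lit 6422863880) (nat_lit 389) (nat_lit 5) (nat_lit 401) (nat_lit 5) (nat_lit 390) (nat_lit 5) (nat_lit 577) (nat_lit 532) (nat_lit 451)) (XT.lf (nat_lit 0) (nat_lit 2216700412) (nat_lit 912) (nat_lit 6102835055) (nat_lit 76) (nat_lit 833251351) (nat_lit 378) (nat_lit 5) (nat_lit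 390) (nat_lit 5) (nat_lit 379) (nat_lit 5) (nat_lit 578) (nat_lit 532) (nat_lit 450))) (XT.nd (nat_lit 78) (nat_lit 760) (nat_lit 0) (XT.lf (nat_lit 0) (nat_lit 4477389820) (nat_lit 912) (nat_lit 399285631) (nat_lit 76) (nat_lit 4362012623) (nat_lit 378) (nat_lit 5) (nat_lit 390) (nat_lit 5) (nat_lit 379) (nat_lit 5) (nat_lit 579) (nat_lit 532) (nat_lit 449)) (XT.lf (nat_lit 0) (nat_lit 5459265470) (nat_lit 760) (nat_lit 1331402039) (nat_lit 836) (nat_lit 2535493974) (nat_lit 368) (nat_lit 5) (nat_lit 378) (nat_lit 5) (nat_lit 379) (nat_lit 5) (nat_lit 580) (nat_lit 532) (nat_lit 448)))))) (XT.nd (nat_lit 546) (nat_lit 3952) (nat_lit 0) (XT.nd (nat_lit 234) (nat_lit 1520) (nat_lit 0) (XT.nd (nat_lit 78) (nat_lit 760) (nat_lit 0) (XT.lf (nat_lit 0) (nat_lit 2005515008) (nat_lit 760) (nat_lit 7147512397) (nat_lit 836) (nat_lit 262302211) (nat_lit 358) (nat_lit 5) (nat_lit 368) (nat_lit 5) (nat_lit 369) (nat_lit 5) (nat_lit 581) (nat_lit 532) (nat_lit 447)) (XT.nd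 (nat_lit 78) (nat_lit 684) (nat_lit 0) (XT.lf (nat_lit 0) (nat_lit 2036746921) (nat_lit 836) (nat_lit 1511480273) (nat_lit 76) (nat_lit 5957641156) (nat_lit 357) (nat_lit 5) (nat_lit 368) (nat_lit 5) (nat_lit 358) (nat_lit 5) (nat_lit 582) (nat_lit 532) (nat_lit 446)) (XT.lf (nat_lit 0) (nat_lit 4381640658) (nat_lit 760) (nat_lit 5067155762) (nat_lit 76) (nat_lit 149320742) (nat_lit 348) (nat_lit 5) (nat_lit 358) (nat_lit 5) (nat_lit 349) (nat_lit 5) (nat_lit 583) (nat_lit 532) (nat_lit 445)))) (XT.nd (nat_lit 156) (nat_lit 760) (nat_lit 0) (XT.nd (nat_lit 78) (nat_lit 0) (nat_lit 0) (XT.lf (nat_lit 0) (nat_lit 981166678) (nat_lit 760) (nat_lit 5805619104) (nat_lit 836) (nat_lit 2905159565) (nat_lit 338) (nat_lit 5) (nat_lit 348) (nat_lit 5) (nat_lit 349) (nat_lit 5) (nat_lit 584) (nat_lit 532) (nat_lit 444)) (XT.lf (nat_lit 0) (nat_lit 7188476816) (nat_lit 760) (nat_lit 2059160129) (nat_lit 836) (nat_lit 539862523) (nat_lit 338) (nat_lit 5) (nat_lit 348)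 (nat_lit 5) (nat_lit 349) (nat_lit 5) (nat_lit 585) (nat_lit 532) (nat_lit 443))) (XT.nd (nat_lit 78) (nat_lit 0) (nat_lit 0) (XT.lf (nat_lit 0) (nat_lit 1857408343) (nat_lit 760) (nat_lit 6256282860) (nat_lit 76) (nat_lit 1770847084) (nat_lit 328) (nat_lit 5) (nat_lit 338) (nat_lit 5) (nat_lit 329) (nat_lit 5) (nat_lit 586) (nat_lit 532) (nat_lit 442)) (XT.lf (nat_lit 0) (nat_lit 4300826172) (nat_lit 760) (nat_lit 15885933) (nat_lit 76) (nat_lit 5666627157) (nat_lit 328) (nat_lit 5) (nat_lit 338) (nat_lit 5) (nat_lit 329) (nat_lit 5) (nat_lit 587) (nat_lit 532) (nat_lit 441))))) (XT.nd (nat_lit 312) (nat_lit 1900) (nat_lit 0) (XT.nd (nat_lit 156) (nat_lit 760) (nat_lit 0) (XT.nd (nat_lit 78) (nat_lit 608) (nat_lit 0) (XT.lf (nat_lit 0) (nat_lit 6403201205) (nat_lit 684) (nat_lit 406220680) (nat_lit 760) (nat_lit 3274369508) (nat_lit 319) (nat_lit 5) (nat_lit 328) (nat_lit 5) (nat_lit 329) (nat_lit 5) (nat_lit 588) (nat_lit 532) (nat_lit 440)) (XT.lf (nat_lit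 0) (nat_lit 2747034927) (nat_lit 608) (nat_lit 6637362213) (nat_lit 684) (nat_lit 801532574) (nat_lit 311) (nat_lit 5) (nat_lit 319) (nat_lit 5) (nat_lit 320) (nat_lit 5) (nat_lit 589) (nat_lit 532) (nat_lit 439))) (XT.nd (nat_lit 78) (nat_lit 684) (nat_lit 0) (XT.lf (nat_lit 0) (nat_lit 1700879771) (nat_lit 684) (nat_lit 981038299) (nat_lit 76) (nat_lit 7607916803) (nat_lit 310) (nat_lit 5) (nat_lit 319) (nat_lit 5) (nat_lit 311) (nat_lit 5) (nat_lit 590) (nat_lit 532) (nat_lit 438)) (XT.lf (nat_lit 0) (nat_lit 4263913723) (nat_lit 760) (nat_lit 4759693540) (nat_lit 76) (nat_lit 1371680019) (nat_lit 301) (nat_lit 5) (nat_lit 311) (nat_lit 5) (nat_lit 302) (nat_lit 5) (nat_lit 591) (nat_lit 532) (nat_lit 437)))) (XT.nd (nat_lit 156) (nat_lit 1292) (nat_lit 0) (XT.nd (nat_lit 78) (nat_lit 0) (nat_lit 0) (XT.lf (nat_lit 0) (nat_lit 1871731865) (nat_lit 608) (nat_lit 5018887508) (nat_lit 684) (nat_lit 3611982346) (nat_lit 293) (nat_lit 5) (nat_lit 301) (nat_lit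 5) (nat_lit 302) (nat_lit 5) (nat_lit 592) (nat_lit 532) (nat_lit 436)) (XT.lf (nat_lit 0) (nat_lit 8670351866) (nat_lit 608) (nat_lit 907596540) (nat_lit 684) (nat_lit 1033953434) (nat_lit 293) (nat_lit 5) (nat_lit 301) (nat_lit 5) (nat_lit 302) (nat_lit 5) (nat_lit 593) (nat_lit 532) (nat_lit 435))) (XT.nd (nat_lit 78) (nat_lit 608) (nat_lit 0) (XT.lf (nat_lit 0) (nat_lit 1604596031) (nat_lit 684) (nat_lit 5838731564) (nat_lit 76) (nat_lit 3279256561) (nat_lit 284) (nat_lit 5) (nat_lit 293) (nat_lit 5) (nat_lit 285) (nat_lit 5) (nat_lit 594) (nat_lit 532) (nat_lit 434)) (XT.lf (nat_lit 0) (nat_lit 1007217157) (nat_lit 608) (nat_lit 3277223488) (nat_lit 684) (nat_lit 6550856521) (nat_lit 276) (nat_lit 5) (nat_lit 284) (nat_lit 5) (nat_lit 285) (nat_lit 5) (nat_lit 595) (nat_lit 532) (nat_lit 433))))))))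
noncomputable def xc98 : XT := (XT.nd (nat_lit 2262) (nat_lit 5320) (nat_lit 0) (XT.nd (nat_lit 1092) (nat_lit 3952) (nat_lit 0) (XT.nd (nat_lit 546) (nat_lit 2508) (nat_lit 0) (XT.nd (nat_lit 234) (nat_lit 1140) (nat_lit 0) (XT.nd (nat_lit 78) (nat_lit 1216) (nat_lit 0) (XT.lf (nat_lit 0) (nat_lit 7040546259) (nat_lit 684) (nat_lit 2916954337) (nat_lit 76) (nat_lit 992311646) (nat_lit 276) (nat_lit 5) (nat_lit 285) (nat_lit 5) (nat_lit 277) (nat_lit 5) (nat_lit 596) (nat_lit 532) (nat_lit 432)) (XT.nd (nat_lit 78) (nat_lit 608) (nat_lit 0) (XT.lf (nat_lit 0) (nat_lit 4135385276) (nat_lit 608) (nat_lit 5742306041) (nat_lit 684) (nat_lit 1188409025) (nat_lit 268) (nat_lit 5) (nat_lit 276) (nat_lit 5) (nat_lit 277) (nat_lit 5) (nat_lit 597) (nat_lit 532) (nat_lit 431)) (XT.lf (nat_lit 0) (nat_lit 145821374) (nat_lit 532) (nat_lit 1418350614) (nat_lit 608) (nat_lit 9620374802) (nat_lit 260) (nat_lit 5) (nat_lit 267) (nat_lit 5) (nat_lit 268) (nat_lit 5) (nat_lit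 598) (nat_lit 532) (nat_lit 430)))) (XT.nd (nat_lit 156) (nat_lit 608) (nat_lit 0) (XT.nd (nat_lit 78) (nat_lit 532) (nat_lit 0) (XT.lf (nat_lit 0) (nat_lit 4399822295) (nat_lit 608) (nat_lit 3904053197) (nat_lit 76) (nat_lit 3000451965) (nat_lit 260) (nat_lit 5) (nat_lit 268) (nat_lit 5) (nat_lit 261) (nat_lit 5) (nat_lit 599) (nat_lit 532) (nat_lit 429)) (XT.lf (nat_lit 0) (nat_lit 3378967976) (nat_lit 532) (nat_lit 3922659233) (nat_lit 608) (nat_lit 4124688683) (nat_lit 253) (nat_lit 5) (nat_lit 260) (nat_lit 5) (nat_lit 261) (nat_lit 5) (nat_lit 600) (nat_lit 532) (nat_lit 428))) (XT.nd (nat_lit 78) (nat_lit 608) (nat_lit 0) (XT.lf (nat_lit 0) (nat_lit 10269688428) (nat_lit 608) (nat_lit 722830171) (nat_lit 76) (nat_lit 558062060) (nat_lit 253) (nat_lit 5) (nat_lit 261) (nat_lit 5) (nat_lit 254) (nat_lit 5) (nat_lit 601) (nat_lit 532) (nat_lit 427)) (XT.lf (nat_lit 0) (nat_lit 1647598877) (nat_lit 608) (nat_lit 4904928365) (nat_lit 76) (nat_lit 5123612826)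 (nat_lit 245) (nat_lit 5) (nat_lit 253) (nat_lit 5) (nat_lit 246) (nat_lit 5) (nat_lit 602) (nat_lit 532) (nat_lit 426))))) (XT.nd (nat_lit 234) (nat_lit 1520) (nat_lit 0) (XT.nd (nat_lit 78) (nat_lit 456) (nat_lit 0) (XT.lf (nat_lit 0) (nat_lit 2617659999) (nat_lit 532) (nat_lit 2000561248) (nat_lit 608) (nat_lit 7185806743) (nat_lit 238) (nat_lit 5) (nat_lit 245) (nat_lit 5) (nat_lit 246) (nat_lit 5) (nat_lit 603) (nat_lit 532) (nat_lit 425)) (XT.nd (nat_lit 78) (nat_lit 456) (nat_lit 0) (XT.lf (nat_lit 0) (nat_lit 7677541063) (nat_lit 608) (nat_lit 1623155764) (nat_lit 76) (nat_lit 2633192038) (nat_lit 238) (nat_lit 5) (nat_lit 246) (nat_lit 5) (nat_lit 239) (nat_lit 5) (nat_lit 604) (nat_lit 532) (nat_lit 424)) (XT.lf (nat_lit 0) (nat_lit 6129884504) (nat_lit 456) (nat_lit 4700618512) (nat_lit 532) (nat_lit 1235195703) (nat_lit 232) (nat_lit 5) (nat_lit 238) (nat_lit 5) (nat_lit 239) (nat_lit 5) (nat_lit 605) (nat_lit 532) (nat_lit 423)))) (XT.nd (nat_lit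 156) (nat_lit 912) (nat_lit 0) (XT.nd (nat_lit 78) (nat_lit 0) (nat_lit 0) (XT.lf (nat_lit 0) (nat_lit 1824711727) (nat_lit 608) (nat_lit 10356468668) (nat_lit 76) (nat_lit 18674500) (nat_lit 224) (nat_lit 5) (nat_lit 232) (nat_lit 5) (nat_lit 225) (nat_lit 5) (nat_lit 606) (nat_lit 532) (nat_lit 422)) (XT.lf (nat_lit 0) (nat_lit 4980175085) (nat_lit 608) (nat_lit 2545671400) (nat_lit 76) (nat_lit 4809667301) (nat_lit 224) (nat_lit 5) (nat_lit 232) (nat_lit 5) (nat_lit 225) (nat_lit 5) (nat_lit 607) (nat_lit 532) (nat_lit 421))) (XT.nd (nat_lit 78) (nat_lit 456) (nat_lit 0) (XT.lf (nat_lit 0) (nat_lit 5464746038) (nat_lit 456) (nat_lit 2749536775) (nat_lit 532) (nat_lit 4259293149) (nat_lit 218) (nat_lit 5) (nat_lit 224) (nat_lit 5) (nat_lit 225) (nat_lit 5) (nat_lit 608) (nat_lit 532) (nat_lit 420)) (XT.lf (nat_lit 0) (nat_lit 1026975518) (nat_lit 456) (nat_lit 10503949229) (nat_lit 532) (nat_lit 1083118387) (nat_lit 212) (nat_lit 5) (nat_lit 218) (nat_lit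 5) (nat_lit 219) (nat_lit 5) (nat_lit 609) (nat_lit 532) (nat_lit 419)))))) (XT.nd (nat_lit 546) (nat_lit 2052) (nat_lit 0) (XT.nd (nat_lit 234) (nat_lit 912) (nat_lit 0) (XT.nd (nat_lit 78) (nat_lit 912) (nat_lit 0) (XT.lf (nat_lit 0) (nat_lit 2174132407) (nat_lit 532) (nat_lit 3498895753) (nat_lit 76) (nat_lit 7083095484) (nat_lit 211) (nat_lit 5) (nat_lit 218) (nat_lit 5) (nat_lit 212) (nat_lit 5) (nat_lit 610) (nat_lit 532) (nat_lit 418)) (XT.nd (nat_lit 78) (nat_lit 456) (nat_lit 0) (XT.lf (nat_lit 0) (nat_lit 4778599465) (nat_lit 456) (nat_lit 715134999) (nat_lit 532) (nat_lit 7406934676) (nat_lit 205) (nat_lit 5) (nat_lit 211) (nat_lit 5) (nat_lit 212) (nat_lit 5) (nat_lit 611) (nat_lit 532) (nat_lit 417)) (XT.lf (nat_lit 0) (nat_lit 167201003) (nat_lit 456) (nat_lit 8746251293) (nat_lit 532) (nat_lit 4133979507) (nat_lit 199) (nat_lit 5) (nat_lit 205) (nat_lit 5) (nat_lit 206) (nat_lit 5) (nat_lit 612) (nat_lit 532) (nat_lit 416)))) (XT.nd (nat_lit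 156) (nat_lit 456) (nat_lit 0) (XT.nd (nat_lit 78) (nat_lit 456) (nat_lit 0) (XT.lf (nat_lit 0) (nat_lit 8699656852) (nat_lit 456) (nat_lit 3742123551) (nat_lit 532) (nat_lit 754545716) (nat_lit 199) (nat_lit 5) (nat_lit 205) (nat_lit 5) (nat_lit 206) (nat_lit 5) (nat_lit 613) (nat_lit 532) (nat_lit 415)) (XT.lf (nat_lit 0) (nat_lit 2673875236) (nat_lit 456) (nat_lit 9294008052) (nat_lit 76) (nat_lit 1379631882) (nat_lit 193) (nat_lit 5) (nat_lit 199) (nat_lit 5) (nat_lit 194) (nat_lit 5) (nat_lit 614) (nat_lit 532) (nat_lit 414))) (XT.nd (nat_lit 78) (nat_lit 456) (nat_lit 0) (XT.lf (nat_lit 0) (nat_lit 6197315872) (nat_lit 456) (nat_lit 723196526) (nat_lit 76) (nat_lit 6580385438) (nat_lit 193) (nat_lit 5) (nat_lit 199) (nat_lit 5) (nat_lit 194) (nat_lit 5) (nat_lit 615) (nat_lit 532) (nat_lit 413)) (XT.lf (nat_lit 0) (nat_lit 8098048898) (nat_lit 456) (nat_lit 1727507325) (nat_lit 532) (nat_lit 3831105978) (nat_lit 187) (nat_lit 5) (nat_lit 193) (nat_lit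 5) (nat_lit 194) (nat_lit 5) (nat_lit 616) (nat_lit 532) (nat_lit 412))))) (XT.nd (nat_lit 312) (nat_lit 836) (nat_lit 0) (XT.nd (nat_lit 156) (nat_lit 760) (nat_lit 0) (XT.nd (nat_lit 78) (nat_lit 76) (nat_lit 0) (XT.lf (nat_lit 0) (nat_lit 3282608098) (nat_lit 380) (nat_lit 10275003286) (nat_lit 456) (nat_lit 257306120) (nat_lit 182) (nat_lit 5) (nat_lit 187) (nat_lit 5) (nat_lit 188) (nat_lit 5) (nat_lit 617) (nat_lit 532) (nat_lit 411)) (XT.lf (nat_lit 0) (nat_lit 3374461630) (nat_lit 456) (nat_lit 1660649562) (nat_lit 76) (nat_lit 8940168892) (nat_lit 181) (nat_lit 5) (nat_lit 187) (nat_lit 5) (nat_lit 182) (nat_lit 5) (nat_lit 618) (nat_lit 532) (nat_lit 410))) (XT.nd (nat_lit 78) (nat_lit 380) (nat_lit 0) (XT.lf (nat_lit 0) (nat_lit 7108416897) (nat_lit 456) (nat_lit 6682775082) (nat_lit 76) (nat_lit 346964586) (nat_lit 176) (nat_lit 5) (nat_lit 182) (nat_lit 5) (nat_lit 177) (nat_lit 5) (nat_lit 619) (nat_lit 532) (nat_lit 409)) (XT.lf (nat_lit 0)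 (nat_lit 2443854345) (nat_lit 380) (nat_lit 8516032857) (nat_lit 456) (nat_lit 3343547256) (nat_lit 171) (nat_lit 5) (nat_lit 176) (nat_lit 5) (nat_lit 177) (nat_lit 5) (nat_lit 620) (nat_lit 532) (nat_lit 408)))) (XT.nd (nat_lit 156) (nat_lit 380) (nat_lit 0) (XT.nd (nat_lit 78) (nat_lit 380) (nat_lit 0) (XT.lf (nat_lit 0) (nat_lit 438511402) (nat_lit 456) (nat_lit 2657528863) (nat_lit 76) (nat_lit 11375372090) (nat_lit 170) (nat_lit 5) (nat_lit 176) (nat_lit 5) (nat_lit 171) (nat_lit 5) (nat_lit 621) (nat_lit 532) (nat_lit 407)) (XT.lf (nat_lit 0) (nat_lit 4294404916) (nat_lit 456) (nat_lit 7889229755) (nat_lit 76) (nat_lit 2457814414) (nat_lit 165) (nat_lit 5) (nat_lit 171) (nat_lit 5) (nat_lit 166) (nat_lit 5) (nat_lit 622) (nat_lit 532) (nat_lit 406))) (XT.nd (nat_lit 78) (nat_lit 0) (nat_lit 0) (XT.lf (nat_lit 0) (nat_lit 1544705818) (nat_lit 380) (nat_lit 6714106072) (nat_lit 456) (nat_lit 6555447304) (nat_lit 160) (nat_lit 5) (nat_lit 165) (nat_lit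 5) (nat_lit 166) (nat_lit 5) (nat_lit 623) (nat_lit 532) (nat_lit 405)) (XT.lf (nat_lit 0) (nat_lit 11247847902) (nat_lit 380) (nat_lit 1090674809) (nat_lit 456) (nat_lit 2651283024) (nat_lit 160) (nat_lit 5) (nat_lit 165) (nat_lit 5) (nat_lit 166) (nat_lit 5) (nat_lit 624) (nat_lit 532) (nat_lit 404))))))) (XT.nd (nat_lit 1092) (nat_lit 2052) (nat_lit 0) (XT.nd (nat_lit 546) (nat_lit 1368) (nat_lit 0) (XT.nd (nat_lit 234) (nat_lit 1140) (nat_lit 0) (XT.nd (nat_lit 78) (nat_lit 304) (nat_lit 0) (XT.lf (nat_lit 0) (nat_lit 1366308188) (nat_lit 456) (nat_lit 9178268856) (nat_lit 76) (nat_lit 4623057866) (nat_lit 154) (nat_lit 5) (nat_lit 160) (nat_lit 5) (nat_lit 155) (nat_lit 5) (nat_lit 625) (nat_lit 532) (nat_lit 403)) (XT.nd (nat_lit 78) (nat_lit 0) (nat_lit 0) (XT.lf (nat_lit 0) (nat_lit 573884368) (nat_lit 304) (nat_lit 4874519517) (nat_lit 380) (nat_lit 9899873731) (nat_lit 150) (nat_lit 5) (nat_lit 154) (nat_lit 5) (nat_lit 155) (nat_lit 5) (nat_lit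 626) (nat_lit 532) (nat_lit 402)) (XT.lf (nat_lit 0) (nat_lit 9663530357) (nat_lit 380) (nat_lit 4918426834) (nat_lit 76) (nat_lit 949548710) (nat_lit 150) (nat_lit 5) (nat_lit 155) (nat_lit 5) (nat_lit 151) (nat_lit 5) (nat_lit 627) (nat_lit 532) (nat_lit 401)))) (XT.nd (nat_lit 156) (nat_lit 684) (nat_lit 0) (XT.nd (nat_lit 78) (nat_lit 76) (nat_lit 0) (XT.lf (nat_lit 0) (nat_lit 5144047666) (nat_lit 380) (nat_lit 8868404124) (nat_lit 456) (nat_lit 1704957608) (nat_lit 145) (nat_lit 5) (nat_lit 150) (nat_lit 5) (nat_lit 151) (nat_lit 5) (nat_lit 628) (nat_lit 532) (nat_lit 400)) (XT.lf (nat_lit 0) (nat_lit 2525071247) (nat_lit 456) (nat_lit 474487225) (nat_lit 76) (nat_lit 12906801358) (nat_lit 144) (nat_lit 5) (nat_lit 150) (nat_lit 5) (nat_lit 145) (nat_lit 5) (nat_lit 629) (nat_lit 532) (nat_lit 399))) (XT.nd (nat_lit 78) (nat_lit 380) (nat_lit 0) (XT.lf (nat_lit 0) (nat_lit 6885302976) (nat_lit 380) (nat_lit 6197882565) (nat_lit 76) (nat_lit 3014310166)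 (nat_lit 140) (nat_lit 5) (nat_lit 145) (nat_lit 5) (nat_lit 141) (nat_lit 5) (nat_lit 630) (nat_lit 532) (nat_lit 398)) (XT.lf (nat_lit 0) (nat_lit 4205082194) (nat_lit 380) (nat_lit 7162287599) (nat_lit 456) (nat_lit 4924392356) (nat_lit 135) (nat_lit 5) (nat_lit 140) (nat_lit 5) (nat_lit 141) (nat_lit 5) (nat_lit 631) (nat_lit 532) (nat_lit 397))))) (XT.nd (nat_lit 234) (nat_lit 684) (nat_lit 0) (XT.nd (nat_lit 78) (nat_lit 684) (nat_lit 0) (XT.lf (nat_lit 0) (nat_lit 14874868212) (nat_lit 380) (nat_lit 1090203993) (nat_lit 456) (nat_lit 524322275) (nat_lit 135) (nat_lit 5) (nat_lit 140) (nat_lit 5) (nat_lit 141) (nat_lit 5) (nat_lit 632) (nat_lit 532) (nat_lit 396)) (XT.nd (nat_lit 78) (nat_lit 304) (nat_lit 0) (XT.lf (nat_lit 0) (nat_lit 3989324781) (nat_lit 380) (nat_lit 7587025719) (nat_lit 76) (nat_lit 5112563464) (nat_lit 130) (nat_lit 5) (nat_lit 135) (nat_lit 5) (nat_lit 131) (nat_lit 5) (nat_lit 633) (nat_lit 532) (nat_lit 395)) (XT.lf (nat_lit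 0) (nat_lit 3168053766) (nat_lit 304) (nat_lit 5441558138) (nat_lit 380) (nat_lit 8282275285) (nat_lit 126) (nat_lit 5) (nat_lit 130) (nat_lit 5) (nat_lit 131) (nat_lit 5) (nat_lit 634) (nat_lit 532) (nat_lit 394)))) (XT.nd (nat_lit 156) (nat_lit 304) (nat_lit 0) (XT.nd (nat_lit 78) (nat_lit 380) (nat_lit 0) (XT.lf (nat_lit 0) (nat_lit 13363614371) (nat_lit 380) (nat_lit 2887574641) (nat_lit 76) (nat_lit 846905086) (nat_lit 126) (nat_lit 5) (nat_lit 131) (nat_lit 5) (nat_lit 127) (nat_lit 5) (nat_lit 635) (nat_lit 532) (nat_lit 393)) (XT.lf (nat_lit 0) (nat_lit 967322729) (nat_lit 380) (nat_lit 9100845578) (nat_lit 76) (nat_lit 7238641599) (nat_lit 121) (nat_lit 5) (nat_lit 126) (nat_lit 5) (nat_lit 122) (nat_lit 5) (nat_lit 636) (nat_lit 532) (nat_lit 392))) (XT.nd (nat_lit 78) (nat_lit 0) (nat_lit 0) (XT.lf (nat_lit 0) (nat_lit 2018150641) (nat_lit 304) (nat_lit 3712757677) (nat_lit 380) (nat_lit 11787943368) (nat_lit 117) (nat_lit 5) (nat_lit 121) (nat_lit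 5) (nat_lit 122) (nat_lit 5) (nat_lit 637) (nat_lit 532) (nat_lit 391)) (XT.lf (nat_lit 0) (nat_lit 10654391037) (nat_lit 380) (nat_lit 4294140896) (nat_lit 76) (nat_lit 2785310240) (nat_lit 117) (nat_lit 5) (nat_lit 122) (nat_lit 5) (nat_lit 118) (nat_lit 5) (nat_lit 638) (nat_lit 532) (nat_lit 390)))))) (XT.nd (nat_lit 546) (nat_lit 608) (nat_lit 0) (XT.nd (nat_lit 234) (nat_lit 836) (nat_lit 0) (XT.nd (nat_lit 78) (nat_lit 380) (nat_lit 0) (XT.lf (nat_lit 0) (nat_lit 7181908011) (nat_lit 228) (nat_lit 8551110145) (nat_lit 304) (nat_lit 2218981194) (nat_lit 114) (nat_lit 5) (nat_lit 117) (nat_lit 5) (nat_lit 118) (nat_lit 5) (nat_lit 639) (nat_lit 532) (nat_lit 389)) (XT.nd (nat_lit 78) (nat_lit 0) (nat_lit 0) (XT.lf (nat_lit 0) (nat_lit 739184685) (nat_lit 304) (nat_lit 1982891179) (nat_lit 380) (nat_lit 15451702612) (nat_lit 109) (nat_lit 5) (nat_lit 113) (nat_lit 5) (nat_lit 114) (nat_lit 5) (nat_lit 640) (nat_lit 532) (nat_lit 388)) (XT.lf (nat_lit 0)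 (nat_lit 7821200034) (nat_lit 380) (nat_lit 5844053186) (nat_lit 76) (nat_lit 4732667805) (nat_lit 109) (nat_lit 5) (nat_lit 114) (nat_lit 5) (nat_lit 110) (nat_lit 5) (nat_lit 641) (nat_lit 532) (nat_lit 387)))) (XT.nd (nat_lit 156) (nat_lit 608) (nat_lit 0) (XT.nd (nat_lit 78) (nat_lit 0) (nat_lit 0) (XT.lf (nat_lit 0) (nat_lit 6020255239) (nat_lit 228) (nat_lit 7040108755) (nat_lit 304) (nat_lit 5565421630) (nat_lit 106) (nat_lit 5) (nat_lit 109) (nat_lit 5) (nat_lit 110) (nat_lit 5) (nat_lit 642) (nat_lit 532) (nat_lit 386)) (XT.lf (nat_lit 0) (nat_lit 18177356547) (nat_lit 228) (nat_lit 252133184) (nat_lit 304) (nat_lit 428214552) (nat_lit 106) (nat_lit 5) (nat_lit 109) (nat_lit 5) (nat_lit 110) (nat_lit 5) (nat_lit 643) (nat_lit 532) (nat_lit 385))) (XT.nd (nat_lit 78) (nat_lit 228) (nat_lit 0) (XT.lf (nat_lit 0) (nat_lit 4853923206) (nat_lit 380) (nat_lit 7555821199) (nat_lit 76) (nat_lit 6681786550) (nat_lit 101) (nat_lit 5) (nat_lit 106) (nat_lit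 5) (nat_lit 102) (nat_lit 5) (nat_lit 644) (nat_lit 532) (nat_lit 384)) (XT.lf (nat_lit 0) (nat_lit 4709103349) (nat_lit 228) (nat_lit 5549916225) (nat_lit 304) (nat_lit 9070497301) (nat_lit 98) (nat_lit 5) (nat_lit 101) (nat_lit 5) (nat_lit 102) (nat_lit 5) (nat_lit 645) (nat_lit 532) (nat_lit 383))))) (XT.nd (nat_lit 72462) (nat_lit 0) (nat_lit 46360) (XT.nd (nat_lit 156) (nat_lit 228) (nat_lit 0) (XT.nd (nat_lit 78) (nat_lit 380) (nat_lit 0) (XT.lf (nat_lit 0) (nat_lit 15818913261) (nat_lit 304) (nat_lit 2282778272) (nat_lit 76) (nat_lit 1469637388) (nat_lit 98) (nat_lit 5) (nat_lit 102) (nat_lit 5) (nat_lit 99) (nat_lit 5) (nat_lit 646) (nat_lit 532) (nat_lit 382)) (XT.lf (nat_lit 0) (nat_lit 1741363157) (nat_lit 380) (nat_lit 9449741843) (nat_lit 76) (nat_lit 8624830099) (nat_lit 93) (nat_lit 5) (nat_lit 98) (nat_lit 5) (nat_lit 94) (nat_lit 5) (nat_lit 647) (nat_lit 532) (nat_lit 381))) (XT.nd (nat_lit 72228) (nat_lit 0) (nat_lit 47272) (XT.lf (nat_lit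 0) (nat_lit 3228236482) (nat_lit 228) (nat_lit 4089519504) (nat_lit 304) (nat_lit 12746721975) (nat_lit 90) (nat_lit 5) (nat_lit 93) (nat_lit 5) (nat_lit 94) (nat_lit 5) (nat_lit 648) (nat_lit 532) (nat_lit 380)) (XT.lf (nat_lit 0) (nat_lit 826088477) (nat_lit 0) (nat_lit 826088477) (nat_lit 836) (nat_lit 1729491204) (nat_lit 712) (nat_lit 5) (nat_lit 712) (nat_lit 3) (nat_lit 723) (nat_lit 3) (nat_lit 533) (nat_lit 533) (nat_lit 494)))) (XT.nd (nat_lit 156) (nat_lit 0) (nat_lit 0) (XT.nd (nat_lit 78) (nat_lit 912) (nat_lit 0) (XT.lf (nat_lit 0) (nat_lit 5051382694) (nat_lit 0) (nat_lit 386821741) (nat_lit 836) (nat_lit 1350562088) (nat_lit 712) (nat_lit 5) (nat_lit 712) (nat_lit 3) (nat_lit 723) (nat_lit 3) (nat_lit 534) (nat_lit 533) (nat_lit 493)) (XT.lf (nat_lit 0) (nat_lit 751200759) (nat_lit 912) (nat_lit 5129071087) (nat_lit 988) (nat_lit 935101079) (nat_lit 700) (nat_lit 5) (nat_lit 712) (nat_lit 5) (nat_lit 713) (nat_lit 5) (nat_lit 535) (nat_lit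 533) (nat_lit 492))) (XT.nd (nat_lit 78) (nat_lit 0) (nat_lit 0) (XT.lf (nat_lit 0) (nat_lit 2836831793) (nat_lit 912) (nat_lit 1681225686) (nat_lit 988) (nat_lit 2325081808) (nat_lit 700) (nat_lit 5) (nat_lit 712) (nat_lit 5) (nat_lit 713) (nat_lit 5) (nat_lit 536) (nat_lit 533) (nat_lit 491)) (XT.lf (nat_lit 76) (nat_lit 1830787475) (nat_lit 0) (nat_lit 3091943626) (nat_lit 988) (nat_lit 1949563383) (nat_lit 701) (nat_lit 5) (nat_lit 700) (nat_lit 5) (nat_lit 713) (nat_lit 5) (nat_lit 537) (nat_lit 533) (nat_lit 490))))))))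
noncomputable def xc99 : XT := (XT.nd (nat_lit 2262) (nat_lit 16036) (nat_lit 0) (XT.nd (nat_lit 1092) (nat_lit 12008) (nat_lit 0) (XT.nd (nat_lit 546) (nat_lit 2204) (nat_lit 0) (XT.nd (nat_lit 234) (nat_lit 988) (nat_lit 0) (XT.nd (nat_lit 78) (nat_lit 0) (nat_lit 0) (XT.lf (nat_lit 0) (nat_lit 104903997) (nat_lit 988) (nat_lit 1496331682) (nat_lit 1064) (nat_lit 5301611619) (nat_lit 687) (nat_lit 5) (nat_lit 700) (nat_lit 5) (nat_lit 701) (nat_lit 5) (nat_lit 538) (nat_lit 533) (nat_lit 489)) (XT.nd (nat_lit 78) (nat_lit 0) (nat_lit 76) (XT.lf (nat_lit 76) (nat_lit 2105710542) (nat_lit 0) (nat_lit 30554298) (nat_lit 1064) (nat_lit 4798254776) (nat_lit 688) (nat_lit 5) (nat_lit 687) (nat_lit 5) (nat_lit 701) (nat_lit 5) (nat_lit 539) (nat_lit 533) (nat_lit 488)) (XT.lf (nat_lit 0) (nat_lit 4177752266) (nat_lit 988) (nat_lit 1206539907) (nat_lit 1064) (nat_lit 1583147492) (nat_lit 688) (nat_lit 5) (nat_lit 701) (nat_lit 5) (nat_lit 702) (nat_lit 5) (nat_lit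 540) (nat_lit 533) (nat_lit 487)))) (XT.nd (nat_lit 156) (nat_lit 0) (nat_lit 0) (XT.nd (nat_lit 78) (nat_lit 1064) (nat_lit 0) (XT.lf (nat_lit 76) (nat_lit 2491509532) (nat_lit 0) (nat_lit 3735123304) (nat_lit 1064) (nat_lit 775058197) (nat_lit 689) (nat_lit 5) (nat_lit 688) (nat_lit 5) (nat_lit 702) (nat_lit 5) (nat_lit 541) (nat_lit 533) (nat_lit 486)) (XT.lf (nat_lit 0) (nat_lit 1221872699) (nat_lit 1064) (nat_lit 794561501) (nat_lit 1140) (nat_lit 5020855163) (nat_lit 674) (nat_lit 5) (nat_lit 688) (nat_lit 5) (nat_lit 689) (nat_lit 5) (nat_lit 542) (nat_lit 533) (nat_lit 485))) (XT.nd (nat_lit 78) (nat_lit 0) (nat_lit 76) (XT.lf (nat_lit 76) (nat_lit 3000563954) (nat_lit 0) (nat_lit 218903949) (nat_lit 1140) (nat_lit 3854611164) (nat_lit 675) (nat_lit 5) (nat_lit 674) (nat_lit 5) (nat_lit 689) (nat_lit 5) (nat_lit 543) (nat_lit 533) (nat_lit 484)) (XT.lf (nat_lit 0) (nat_lit 5225361072) (nat_lit 1064) (nat_lit 269568199) (nat_lit 1140) (nat_lit 1617312243)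 (nat_lit 675) (nat_lit 5) (nat_lit 689) (nat_lit 5) (nat_lit 690) (nat_lit 5) (nat_lit 544) (nat_lit 533) (nat_lit 483))))) (XT.nd (nat_lit 234) (nat_lit 1140) (nat_lit 0) (XT.nd (nat_lit 78) (nat_lit 0) (nat_lit 0) (XT.lf (nat_lit 0) (nat_lit 96909372) (nat_lit 1140) (nat_lit 3524987894) (nat_lit 1216) (nat_lit 3529692432) (nat_lit 660) (nat_lit 5) (nat_lit 675) (nat_lit 5) (nat_lit 676) (nat_lit 5) (nat_lit 545) (nat_lit 533) (nat_lit 482)) (XT.nd (nat_lit 78) (nat_lit 0) (nat_lit 76) (XT.lf (nat_lit 76) (nat_lit 375323170) (nat_lit 0) (nat_lit 1677911966) (nat_lit 1216) (nat_lit 5139081399) (nat_lit 661) (nat_lit 5) (nat_lit 660) (nat_lit 5) (nat_lit 676) (nat_lit 5) (nat_lit 546) (nat_lit 533) (nat_lit 481)) (XT.lf (nat_lit 0) (nat_lit 4029138910) (nat_lit 1140) (nat_lit 2864670663) (nat_lit 1216) (nat_lit 340442879) (nat_lit 661) (nat_lit 5) (nat_lit 676) (nat_lit 5) (nat_lit 677) (nat_lit 5) (nat_lit 547) (nat_lit 533) (nat_lit 480)))) (XT.nd (nat_lit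 156) (nat_lit 0) (nat_lit 0) (XT.nd (nat_lit 78) (nat_lit 1216) (nat_lit 0) (XT.lf (nat_lit 76) (nat_lit 1140572928) (nat_lit 0) (nat_lit 4878054557) (nat_lit 1216) (nat_lit 1258921772) (nat_lit 662) (nat_lit 5) (nat_lit 661) (nat_lit 5) (nat_lit 677) (nat_lit 5) (nat_lit 548) (nat_lit 533) (nat_lit 479)) (XT.lf (nat_lit 0) (nat_lit 691954786) (nat_lit 1216) (nat_lit 2091781184) (nat_lit 1292) (nat_lit 4538379394) (nat_lit 645) (nat_lit 5) (nat_lit 661) (nat_lit 5) (nat_lit 662) (nat_lit 5) (nat_lit 549) (nat_lit 533) (nat_lit 478))) (XT.nd (nat_lit 78) (nat_lit 0) (nat_lit 76) (XT.lf (nat_lit 76) (nat_lit 2022740441) (nat_lit 0) (nat_lit 612198593) (nat_lit 1292) (nat_lit 4733071689) (nat_lit 646) (nat_lit 5) (nat_lit 645) (nat_lit 5) (nat_lit 662) (nat_lit 5) (nat_lit 550) (nat_lit 533) (nat_lit 477)) (XT.lf (nat_lit 0) (nat_lit 4598856832) (nat_lit 1216) (nat_lit 1207646657) (nat_lit 1292) (nat_lit 1608682259) (nat_lit 646) (nat_lit 5) (nat_lit 662) (nat_lit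 5) (nat_lit 663) (nat_lit 5) (nat_lit 551) (nat_lit 533) (nat_lit 476)))))) (XT.nd (nat_lit 546) (nat_lit 8132) (nat_lit 0) (XT.nd (nat_lit 234) (nat_lit 2660) (nat_lit 0) (XT.nd (nat_lit 78) (nat_lit 1292) (nat_lit 0) (XT.lf (nat_lit 76) (nat_lit 3018348236) (nat_lit 0) (nat_lit 3565726464) (nat_lit 1292) (nat_lit 879592312) (nat_lit 647) (nat_lit 5) (nat_lit 646) (nat_lit 5) (nat_lit 663) (nat_lit 5) (nat_lit 552) (nat_lit 533) (nat_lit 475)) (XT.nd (nat_lit 78) (nat_lit 0) (nat_lit 76) (XT.lf (nat_lit 0) (nat_lit 1048382983) (nat_lit 1292) (nat_lit 205159612) (nat_lit 1368) (nat_lit 6260098521) (nat_lit 629) (nat_lit 5) (nat_lit 646) (nat_lit 5) (nat_lit 647) (nat_lit 5) (nat_lit 553) (nat_lit 533) (nat_lit 474)) (XT.lf (nat_lit 0) (nat_lit 2997010172) (nat_lit 1292) (nat_lit 3433652083) (nat_lit 76) (nat_lit 1133961752) (nat_lit 630) (nat_lit 5) (nat_lit 647) (nat_lit 5) (nat_lit 631) (nat_lit 5) (nat_lit 554) (nat_lit 533) (nat_lit 473)))) (XT.nd (nat_lit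 156) (nat_lit 1444) (nat_lit 0) (XT.nd (nat_lit 78) (nat_lit 0) (nat_lit 0) (XT.lf (nat_lit 0) (nat_lit 913328803) (nat_lit 1292) (nat_lit 4047096542) (nat_lit 1368) (nat_lit 2656687835) (nat_lit 613) (nat_lit 5) (nat_lit 630) (nat_lit 5) (nat_lit 631) (nat_lit 5) (nat_lit 555) (nat_lit 533) (nat_lit 472)) (XT.lf (nat_lit 0) (nat_lit 5363646009) (nat_lit 1292) (nat_lit 1583287168) (nat_lit 1368) (nat_lit 724045344) (nat_lit 613) (nat_lit 5) (nat_lit 630) (nat_lit 5) (nat_lit 631) (nat_lit 5) (nat_lit 556) (nat_lit 533) (nat_lit 471))) (XT.nd (nat_lit 78) (nat_lit 0) (nat_lit 0) (XT.lf (nat_lit 0) (nat_lit 1212497683) (nat_lit 1444) (nat_lit 5565192797) (nat_lit 76) (nat_lit 948439381) (nat_lit 594) (nat_lit 5) (nat_lit 613) (nat_lit 5) (nat_lit 595) (nat_lit 5) (nat_lit 557) (nat_lit 533) (nat_lit 470)) (XT.lf (nat_lit 0) (nat_lit 3166069899) (nat_lit 1444) (nat_lit 1078303620) (nat_lit 76) (nat_lit 3538157832) (nat_lit 594) (nat_lit 5) (nat_lit 613) (nat_lit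 5) (nat_lit 595) (nat_lit 5) (nat_lit 558) (nat_lit 533) (nat_lit 469))))) (XT.nd (nat_lit 312) (nat_lit 3496) (nat_lit 0) (XT.nd (nat_lit 156) (nat_lit 1672) (nat_lit 0) (XT.nd (nat_lit 78) (nat_lit 1520) (nat_lit 0) (XT.lf (nat_lit 0) (nat_lit 3514321447) (nat_lit 1444) (nat_lit 1629869155) (nat_lit 1520) (nat_lit 2696163384) (nat_lit 575) (nat_lit 5) (nat_lit 594) (nat_lit 5) (nat_lit 595) (nat_lit 5) (nat_lit 559) (nat_lit 533) (nat_lit 468)) (XT.lf (nat_lit 0) (nat_lit 280446770) (nat_lit 1520) (nat_lit 6860506755) (nat_lit 1596) (nat_lit 758800555) (nat_lit 555) (nat_lit 5) (nat_lit 575) (nat_lit 5) (nat_lit 576) (nat_lit 5) (nat_lit 560) (nat_lit 533) (nat_lit 467))) (XT.nd (nat_lit 78) (nat_lit 1596) (nat_lit 0) (XT.lf (nat_lit 0) (nat_lit 1204883364) (nat_lit 1596) (nat_lit 2971918864) (nat_lit 76) (nat_lit 3783313596) (nat_lit 554) (nat_lit 5) (nat_lit 575) (nat_lit 5) (nat_lit 555) (nat_lit 5) (nat_lit 561) (nat_lit 533) (nat_lit 466)) (XT.lf (nat_lit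 0) (nat_lit 1756066649) (nat_lit 1596) (nat_lit 1417263279) (nat_lit 1672) (nat_lit 4848744029) (nat_lit 533) (nat_lit 5) (nat_lit 554) (nat_lit 5) (nat_lit 555) (nat_lit 5) (nat_lit 562) (nat_lit 533) (nat_lit 465)))) (XT.nd (nat_lit 156) (nat_lit 1824) (nat_lit 0) (XT.nd (nat_lit 78) (nat_lit 1672) (nat_lit 0) (XT.lf (nat_lit 0) (nat_lit 5175070696) (nat_lit 1672) (nat_lit 1506078315) (nat_lit 76) (nat_lit 1404246141) (nat_lit 533) (nat_lit 5) (nat_lit 555) (nat_lit 5) (nat_lit 534) (nat_lit 5) (nat_lit 563) (nat_lit 533) (nat_lit 464)) (XT.lf (nat_lit 0) (nat_lit 3353351464) (nat_lit 1672) (nat_lit 3860120278) (nat_lit 1748) (nat_lit 936580877) (nat_lit 511) (nat_lit 5) (nat_lit 533) (nat_lit 5) (nat_lit 534) (nat_lit 5) (nat_lit 564) (nat_lit 533) (nat_lit 463))) (XT.nd (nat_lit 78) (nat_lit 0) (nat_lit 0) (XT.lf (nat_lit 0) (nat_lit 77999548) (nat_lit 1748) (nat_lit 960919038) (nat_lit 1824) (nat_lit 7177419084) (nat_lit 487) (nat_lit 5) (nat_lit 510)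 (nat_lit 5) (nat_lit 511) (nat_lit 5) (nat_lit 565) (nat_lit 533) (nat_lit 462)) (XT.lf (nat_lit 0) (nat_lit 3052980475) (nat_lit 1824) (nat_lit 3218516623) (nat_lit 76) (nat_lit 2012097867) (nat_lit 487) (nat_lit 5) (nat_lit 511) (nat_lit 5) (nat_lit 488) (nat_lit 5) (nat_lit 566) (nat_lit 533) (nat_lit 461))))))) (XT.nd (nat_lit 1170) (nat_lit 6992) (nat_lit 0) (XT.nd (nat_lit 546) (nat_lit 4180) (nat_lit 0) (XT.nd (nat_lit 234) (nat_lit 1900) (nat_lit 0) (XT.nd (nat_lit 78) (nat_lit 1140) (nat_lit 0) (XT.lf (nat_lit 0) (nat_lit 1786324387) (nat_lit 1824) (nat_lit 3305842178) (nat_lit 1900) (nat_lit 3260336157) (nat_lit 463) (nat_lit 5) (nat_lit 487) (nat_lit 5) (nat_lit 488) (nat_lit 5) (nat_lit 567) (nat_lit 533) (nat_lit 460)) (XT.nd (nat_lit 78) (nat_lit 1140) (nat_lit 0) (XT.lf (nat_lit 0) (nat_lit 6904649146) (nat_lit 1824) (nat_lit 256419476) (nat_lit 1900) (nat_lit 1261943503) (nat_lit 463) (nat_lit 5) (nat_lit 487) (nat_lit 5) (nat_lit 488) (nat_lit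 5) (nat_lit 568) (nat_lit 533) (nat_lit 459)) (XT.lf (nat_lit 0) (nat_lit 776382092) (nat_lit 1140) (nat_lit 4870670017) (nat_lit 76) (nat_lit 2847577882) (nat_lit 448) (nat_lit 5) (nat_lit 463) (nat_lit 5) (nat_lit 449) (nat_lit 5) (nat_lit 569) (nat_lit 533) (nat_lit 458)))) (XT.nd (nat_lit 156) (nat_lit 988) (nat_lit 0) (XT.nd (nat_lit 78) (nat_lit 0) (nat_lit 0) (XT.lf (nat_lit 0) (nat_lit 285322893) (nat_lit 912) (nat_lit 2535288082) (nat_lit 988) (nat_lit 5747263738) (nat_lit 436) (nat_lit 5) (nat_lit 448) (nat_lit 5) (nat_lit 449) (nat_lit 5) (nat_lit 570) (nat_lit 533) (nat_lit 457)) (XT.lf (nat_lit 0) (nat_lit 4911416938) (nat_lit 988) (nat_lit 3066801280) (nat_lit 76) (nat_lit 664254234) (nat_lit 436) (nat_lit 5) (nat_lit 449) (nat_lit 5) (nat_lit 437) (nat_lit 5) (nat_lit 571) (nat_lit 533) (nat_lit 456))) (XT.nd (nat_lit 78) (nat_lit 76) (nat_lit 0) (XT.lf (nat_lit 0) (nat_lit 2235433444) (nat_lit 912) (nat_lit 4809168645) (nat_lit 988) (nat_lit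 1673950729) (nat_lit 424) (nat_lit 5) (nat_lit 436) (nat_lit 5) (nat_lit 437) (nat_lit 5) (nat_lit 572) (nat_lit 533) (nat_lit 455)) (XT.lf (nat_lit 0) (nat_lit 408910929) (nat_lit 988) (nat_lit 1143917031) (nat_lit 76) (nat_lit 7243470004) (nat_lit 423) (nat_lit 5) (nat_lit 436) (nat_lit 5) (nat_lit 424) (nat_lit 5) (nat_lit 573) (nat_lit 533) (nat_lit 454))))) (XT.nd (nat_lit 312) (nat_lit 1672) (nat_lit 0) (XT.nd (nat_lit 156) (nat_lit 836) (nat_lit 0) (XT.nd (nat_lit 78) (nat_lit 836) (nat_lit 0) (XT.lf (nat_lit 0) (nat_lit 2520873741) (nat_lit 912) (nat_lit 4569515565) (nat_lit 76) (nat_lit 1784792072) (nat_lit 412) (nat_lit 5) (nat_lit 424) (nat_lit 5) (nat_lit 413) (nat_lit 5) (nat_lit 574) (nat_lit 533) (nat_lit 453)) (XT.lf (nat_lit 0) (nat_lit 895303486) (nat_lit 836) (nat_lit 3774050350) (nat_lit 912) (nat_lit 4286404849) (nat_lit 401) (nat_lit 5) (nat_lit 412) (nat_lit 5) (nat_lit 413) (nat_lit 5) (nat_lit 575) (nat_lit 533) (nat_lit 452))) (XT.nd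 (nat_lit 78) (nat_lit 836) (nat_lit 0) (XT.lf (nat_lit 0) (nat_lit 6501198062) (nat_lit 836) (nat_lit 361107195) (nat_lit 912) (nat_lit 2175613999) (nat_lit 401) (nat_lit 5) (nat_lit 412) (nat_lit 5) (nat_lit 413) (nat_lit 5) (nat_lit 576) (nat_lit 533) (nat_lit 451)) (XT.lf (nat_lit 0) (nat_lit 3087586420) (nat_lit 836) (nat_lit 6023236983) (nat_lit 912) (nat_lit 10667200) (nat_lit 390) (nat_lit 5) (nat_lit 401) (nat_lit 5) (nat_lit 402) (nat_lit 5) (nat_lit 577) (nat_lit 533) (nat_lit 450)))) (XT.nd (nat_lit 156) (nat_lit 760) (nat_lit 0) (XT.nd (nat_lit 78) (nat_lit 836) (nat_lit 0) (XT.lf (nat_lit 0) (nat_lit 2159864831) (nat_lit 912) (nat_lit 394717766) (nat_lit 76) (nat_lit 6652044910) (nat_lit 389) (nat_lit 5) (nat_lit 401) (nat_lit 5) (nat_lit 390) (nat_lit 5) (nat_lit 578) (nat_lit 533) (nat_lit 449)) (XT.lf (nat_lit 0) (nat_lit 4387457793) (nat_lit 912) (nat_lit 3901672589) (nat_lit 76) (nat_lit 1004061109) (nat_lit 378) (nat_lit 5) (nat_lit 390)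 (nat_lit 5) (nat_lit 379) (nat_lit 5) (nat_lit 579) (nat_lit 533) (nat_lit 448))) (XT.nd (nat_lit 78) (nat_lit 0) (nat_lit 0) (XT.lf (nat_lit 0) (nat_lit 1895251063) (nat_lit 760) (nat_lit 4768720576) (nat_lit 836) (nat_lit 2717429325) (nat_lit 368) (nat_lit 5) (nat_lit 378) (nat_lit 5) (nat_lit 379) (nat_lit 5) (nat_lit 580) (nat_lit 533) (nat_lit 447)) (XT.lf (nat_lit 0) (nat_lit 7831131985) (nat_lit 760) (nat_lit 1153891463) (nat_lit 836) (nat_lit 486372579) (nat_lit 368) (nat_lit 5) (nat_lit 378) (nat_lit 5) (nat_lit 379) (nat_lit 5) (nat_lit 581) (nat_lit 533) (nat_lit 446)))))) (XT.nd (nat_lit 546) (nat_lit 3268) (nat_lit 0) (XT.nd (nat_lit 234) (nat_lit 2204) (nat_lit 0) (XT.nd (nat_lit 78) (nat_lit 684) (nat_lit 0) (XT.lf (nat_lit 0) (nat_lit 1783877444) (nat_lit 836) (nat_lit 5241449293) (nat_lit 76) (nat_lit 2537272618) (nat_lit 357) (nat_lit 5) (nat_lit 368) (nat_lit 5) (nat_lit 358) (nat_lit 5) (nat_lit 582) (nat_lit 533) (nat_lit 445)) (XT.nd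 (nat_lit 78) (nat_lit 0) (nat_lit 0) (XT.lf (nat_lit 0) (nat_lit 737397006) (nat_lit 684) (nat_lit 3352634050) (nat_lit 760) (nat_lit 5565592639) (nat_lit 348) (nat_lit 5) (nat_lit 357) (nat_lit 5) (nat_lit 358) (nat_lit 5) (nat_lit 583) (nat_lit 533) (nat_lit 444)) (XT.lf (nat_lit 0) (nat_lit 6454067457) (nat_lit 760) (nat_lit 2875986685) (nat_lit 76) (nat_lit 420220623) (nat_lit 348) (nat_lit 5) (nat_lit 358) (nat_lit 5) (nat_lit 349) (nat_lit 5) (nat_lit 584) (nat_lit 533) (nat_lit 443)))) (XT.nd (nat_lit 156) (nat_lit 1368) (nat_lit 0) (XT.nd (nat_lit 78) (nat_lit 76) (nat_lit 0) (XT.lf (nat_lit 0) (nat_lit 3278219886) (nat_lit 760) (nat_lit 5604964652) (nat_lit 836) (nat_lit 963279727) (nat_lit 338) (nat_lit 5) (nat_lit 348) (nat_lit 5) (nat_lit 349) (nat_lit 5) (nat_lit 585) (nat_lit 533) (nat_lit 442)) (XT.lf (nat_lit 0) (nat_lit 1391614082) (nat_lit 836) (nat_lit 388835066) (nat_lit 76) (nat_lit 8164068194) (nat_lit 337) (nat_lit 5) (nat_lit 348) (nat_lit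 5) (nat_lit 338) (nat_lit 5) (nat_lit 586) (nat_lit 533) (nat_lit 441))) (XT.nd (nat_lit 78) (nat_lit 684) (nat_lit 0) (XT.lf (nat_lit 0) (nat_lit 3808389908) (nat_lit 760) (nat_lit 4101496698) (nat_lit 76) (nat_lit 2133965209) (nat_lit 328) (nat_lit 5) (nat_lit 338) (nat_lit 5) (nat_lit 329) (nat_lit 5) (nat_lit 587) (nat_lit 533) (nat_lit 440)) (XT.lf (nat_lit 0) (nat_lit 2248493408) (nat_lit 684) (nat_lit 4029255250) (nat_lit 760) (nat_lit 3867340671) (nat_lit 319) (nat_lit 5) (nat_lit 328) (nat_lit 5) (nat_lit 329) (nat_lit 5) (nat_lit 588) (nat_lit 533) (nat_lit 439))))) (XT.nd (nat_lit 312) (nat_lit 1900) (nat_lit 0) (XT.nd (nat_lit 156) (nat_lit 684) (nat_lit 0) (XT.nd (nat_lit 78) (nat_lit 684) (nat_lit 0) (XT.lf (nat_lit 0) (nat_lit 8751767581) (nat_lit 684) (nat_lit 47776630) (nat_lit 760) (nat_lit 1448747667) (nat_lit 319) (nat_lit 5) (nat_lit 328) (nat_lit 5) (nat_lit 329) (nat_lit 5) (nat_lit 589) (nat_lit 533) (nat_lit 438)) (XT.lf (nat_lit 0)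 (nat_lit 1039863681) (nat_lit 684) (nat_lit 5317269675) (nat_lit 76) (nat_lit 3995594117) (nat_lit 310) (nat_lit 5) (nat_lit 319) (nat_lit 5) (nat_lit 311) (nat_lit 5) (nat_lit 590) (nat_lit 533) (nat_lit 437))) (XT.nd (nat_lit 78) (nat_lit 0) (nat_lit 0) (XT.lf (nat_lit 0) (nat_lit 1236235607) (nat_lit 684) (nat_lit 2317182749) (nat_lit 760) (nat_lit 6905751705) (nat_lit 301) (nat_lit 5) (nat_lit 310) (nat_lit 5) (nat_lit 311) (nat_lit 5) (nat_lit 591) (nat_lit 533) (nat_lit 436)) (XT.lf (nat_lit 0) (nat_lit 6141215752) (nat_lit 760) (nat_lit 2615646112) (nat_lit 76) (nat_lit 1810401383) (nat_lit 301) (nat_lit 5) (nat_lit 311) (nat_lit 5) (nat_lit 302) (nat_lit 5) (nat_lit 592) (nat_lit 533) (nat_lit 435)))) (XT.nd (nat_lit 156) (nat_lit 608) (nat_lit 0) (XT.nd (nat_lit 78) (nat_lit 684) (nat_lit 0) (XT.lf (nat_lit 0) (nat_lit 4133675950) (nat_lit 608) (nat_lit 4666084836) (nat_lit 684) (nat_lit 1877378834) (nat_lit 293) (nat_lit 5) (nat_lit 301) (nat_lit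 5) (nat_lit 302) (nat_lit 5) (nat_lit 593) (nat_lit 533) (nat_lit 434)) (XT.lf (nat_lit 0) (nat_lit 233740136) (nat_lit 608) (nat_lit 475159088) (nat_lit 684) (nat_lit 10080299446) (nat_lit 284) (nat_lit 5) (nat_lit 292) (nat_lit 5) (nat_lit 293) (nat_lit 5) (nat_lit 594) (nat_lit 533) (nat_lit 433))) (XT.nd (nat_lit 78) (nat_lit 608) (nat_lit 0) (XT.lf (nat_lit 0) (nat_lit 3367806249) (nat_lit 684) (nat_lit 3734151360) (nat_lit 76) (nat_lit 3800373361) (nat_lit 284) (nat_lit 5) (nat_lit 293) (nat_lit 5) (nat_lit 285) (nat_lit 5) (nat_lit 595) (nat_lit 533) (nat_lit 432)) (XT.lf (nat_lit 0) (nat_lit 3234102158) (nat_lit 608) (nat_lit 2847529725) (nat_lit 684) (nat_lit 4936060292) (nat_lit 276) (nat_lit 5) (nat_lit 284) (nat_lit 5) (nat_lit 285) (nat_lit 5) (nat_lit 596) (nat_lit 533) (nat_lit 431))))))))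
noncomputable def xc100 : XT := (XT.nd (nat_lit 2262) (nat_lit 5320) (nat_lit 0) (XT.nd (nat_lit 1092) (nat_lit 3876) (nat_lit 0) (XT.nd (nat_lit 546) (nat_lit 2584) (nat_lit 0) (XT.nd (nat_lit 234) (nat_lit 1140) (nat_lit 0) (XT.nd (nat_lit 78) (nat_lit 1216) (nat_lit 0) (XT.lf (nat_lit 0) (nat_lit 8862453107) (nat_lit 684) (nat_lit 781336388) (nat_lit 76) (nat_lit 1491317774) (nat_lit 276) (nat_lit 5) (nat_lit 285) (nat_lit 5) (nat_lit 277) (nat_lit 5) (nat_lit 597) (nat_lit 533) (nat_lit 430)) (XT.nd (nat_lit 78) (nat_lit 532) (nat_lit 0) (XT.lf (nat_lit 0) (nat_lit 477090112) (nat_lit 684) (nat_lit 4859621581) (nat_lit 76) (nat_lit 5917324451) (nat_lit 267) (nat_lit 5) (nat_lit 276) (nat_lit 5) (nat_lit 268) (nat_lit 5) (nat_lit 598) (nat_lit 533) (nat_lit 429)) (XT.lf (nat_lit 0) (nat_lit 2336089555) (nat_lit 532) (nat_lit 914125843) (nat_lit 608) (nat_lit 8124852403) (nat_lit 260) (nat_lit 5) (nat_lit 267) (nat_lit 5) (nat_lit 268) (nat_lit 5) (nat_lit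 599) (nat_lit 533) (nat_lit 428)))) (XT.nd (nat_lit 156) (nat_lit 608) (nat_lit 0) (XT.nd (nat_lit 78) (nat_lit 532) (nat_lit 0) (XT.lf (nat_lit 0) (nat_lit 6113522574) (nat_lit 608) (nat_lit 1808542360) (nat_lit 76) (nat_lit 3575761736) (nat_lit 260) (nat_lit 5) (nat_lit 268) (nat_lit 5) (nat_lit 261) (nat_lit 5) (nat_lit 600) (nat_lit 533) (nat_lit 427)) (XT.lf (nat_lit 0) (nat_lit 5605839290) (nat_lit 532) (nat_lit 3449667306) (nat_lit 608) (nat_lit 2567106853) (nat_lit 253) (nat_lit 5) (nat_lit 260) (nat_lit 5) (nat_lit 261) (nat_lit 5) (nat_lit 601) (nat_lit 533) (nat_lit 426))) (XT.nd (nat_lit 78) (nat_lit 0) (nat_lit 0) (XT.lf (nat_lit 0) (nat_lit 310310429) (nat_lit 608) (nat_lit 10325320436) (nat_lit 76) (nat_lit 1114068319) (nat_lit 245) (nat_lit 5) (nat_lit 253) (nat_lit 5) (nat_lit 246) (nat_lit 5) (nat_lit 602) (nat_lit 533) (nat_lit 425)) (XT.lf (nat_lit 0) (nat_lit 3253656820) (nat_lit 608) (nat_lit 2851126027) (nat_lit 76) (nat_lit 5773350222)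 (nat_lit 245) (nat_lit 5) (nat_lit 253) (nat_lit 5) (nat_lit 246) (nat_lit 5) (nat_lit 603) (nat_lit 533) (nat_lit 424))))) (XT.nd (nat_lit 234) (nat_lit 1520) (nat_lit 0) (XT.nd (nat_lit 78) (nat_lit 532) (nat_lit 0) (XT.lf (nat_lit 0) (nat_lit 4807756861) (nat_lit 532) (nat_lit 1458969211) (nat_lit 608) (nat_lit 5742193316) (nat_lit 238) (nat_lit 5) (nat_lit 245) (nat_lit 5) (nat_lit 246) (nat_lit 5) (nat_lit 604) (nat_lit 533) (nat_lit 423)) (XT.nd (nat_lit 78) (nat_lit 76) (nat_lit 0) (XT.lf (nat_lit 0) (nat_lit 473291036) (nat_lit 456) (nat_lit 8890203723) (nat_lit 532) (nat_lit 2778358773) (nat_lit 232) (nat_lit 5) (nat_lit 238) (nat_lit 5) (nat_lit 239) (nat_lit 5) (nat_lit 605) (nat_lit 533) (nat_lit 422)) (XT.lf (nat_lit 0) (nat_lit 279741645) (nat_lit 532) (nat_lit 3917308969) (nat_lit 76) (nat_lit 8079600805) (nat_lit 231) (nat_lit 5) (nat_lit 238) (nat_lit 5) (nat_lit 232) (nat_lit 5) (nat_lit 606) (nat_lit 533) (nat_lit 421)))) (XT.nd (nat_lit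 156) (nat_lit 988) (nat_lit 0) (XT.nd (nat_lit 78) (nat_lit 0) (nat_lit 0) (XT.lf (nat_lit 0) (nat_lit 3372138437) (nat_lit 608) (nat_lit 8422310337) (nat_lit 76) (nat_lit 619123268) (nat_lit 224) (nat_lit 5) (nat_lit 232) (nat_lit 5) (nat_lit 225) (nat_lit 5) (nat_lit 607) (nat_lit 533) (nat_lit 420)) (XT.lf (nat_lit 0) (nat_lit 6561084935) (nat_lit 608) (nat_lit 497283158) (nat_lit 76) (nat_lit 5494169743) (nat_lit 224) (nat_lit 5) (nat_lit 232) (nat_lit 5) (nat_lit 225) (nat_lit 5) (nat_lit 608) (nat_lit 533) (nat_lit 419))) (XT.nd (nat_lit 78) (nat_lit 532) (nat_lit 0) (XT.lf (nat_lit 0) (nat_lit 7659531434) (nat_lit 456) (nat_lit 2184838549) (nat_lit 532) (nat_lit 2849302548) (nat_lit 218) (nat_lit 5) (nat_lit 224) (nat_lit 5) (nat_lit 225) (nat_lit 5) (nat_lit 609) (nat_lit 533) (nat_lit 418)) (XT.lf (nat_lit 0) (nat_lit 374018563) (nat_lit 532) (nat_lit 9695164583) (nat_lit 76) (nat_lit 2767941479) (nat_lit 211) (nat_lit 5) (nat_lit 218) (nat_lit 5)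 (nat_lit 212) (nat_lit 5) (nat_lit 610) (nat_lit 533) (nat_lit 417)))))) (XT.nd (nat_lit 546) (nat_lit 2052) (nat_lit 0) (XT.nd (nat_lit 234) (nat_lit 912) (nat_lit 0) (XT.nd (nat_lit 78) (nat_lit 912) (nat_lit 0) (XT.lf (nat_lit 0) (nat_lit 3653213016) (nat_lit 532) (nat_lit 1493901691) (nat_lit 76) (nat_lit 7835363928) (nat_lit 211) (nat_lit 5) (nat_lit 218) (nat_lit 5) (nat_lit 212) (nat_lit 5) (nat_lit 611) (nat_lit 533) (nat_lit 416)) (XT.nd (nat_lit 78) (nat_lit 456) (nat_lit 0) (XT.lf (nat_lit 0) (nat_lit 6935492300) (nat_lit 456) (nat_lit 88949297) (nat_lit 532) (nat_lit 6105769843) (nat_lit 205) (nat_lit 5) (nat_lit 211) (nat_lit 5) (nat_lit 212) (nat_lit 5) (nat_lit 612) (nat_lit 533) (nat_lit 415)) (XT.lf (nat_lit 0) (nat_lit 2242457203) (nat_lit 456) (nat_lit 8259766288) (nat_lit 532) (nat_lit 2777893539) (nat_lit 199) (nat_lit 5) (nat_lit 205) (nat_lit 5) (nat_lit 206) (nat_lit 5) (nat_lit 613) (nat_lit 533) (nat_lit 414)))) (XT.nd (nat_lit 156)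 (nat_lit 456) (nat_lit 0) (XT.nd (nat_lit 78) (nat_lit 380) (nat_lit 0) (XT.lf (nat_lit 0) (nat_lit 632512084) (nat_lit 532) (nat_lit 2531768242) (nat_lit 76) (nat_lit 10268179866) (nat_lit 198) (nat_lit 5) (nat_lit 205) (nat_lit 5) (nat_lit 199) (nat_lit 5) (nat_lit 614) (nat_lit 533) (nat_lit 413)) (XT.lf (nat_lit 0) (nat_lit 4109608267) (nat_lit 456) (nat_lit 7420201238) (nat_lit 76) (nat_lit 2056960571) (nat_lit 193) (nat_lit 5) (nat_lit 199) (nat_lit 5) (nat_lit 194) (nat_lit 5) (nat_lit 615) (nat_lit 533) (nat_lit 412))) (XT.nd (nat_lit 78) (nat_lit 0) (nat_lit 0) (XT.lf (nat_lit 0) (nat_lit 1298672826) (nat_lit 456) (nat_lit 6386173685) (nat_lit 532) (nat_lit 6058748294) (nat_lit 187) (nat_lit 5) (nat_lit 193) (nat_lit 5) (nat_lit 194) (nat_lit 5) (nat_lit 616) (nat_lit 533) (nat_lit 411)) (XT.lf (nat_lit 0) (nat_lit 10266025958) (nat_lit 456) (nat_lit 1097646636) (nat_lit 532) (nat_lit 2539242411) (nat_lit 187) (nat_lit 5) (nat_lit 193) (nat_lit 5)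 (nat_lit 194) (nat_lit 5) (nat_lit 617) (nat_lit 533) (nat_lit 410))))) (XT.nd (nat_lit 312) (nat_lit 836) (nat_lit 0) (XT.nd (nat_lit 156) (nat_lit 380) (nat_lit 0) (XT.nd (nat_lit 78) (nat_lit 380) (nat_lit 0) (XT.lf (nat_lit 0) (nat_lit 1082474608) (nat_lit 456) (nat_lit 8708140708) (nat_lit 76) (nat_lit 4273758465) (nat_lit 181) (nat_lit 5) (nat_lit 187) (nat_lit 5) (nat_lit 182) (nat_lit 5) (nat_lit 618) (nat_lit 533) (nat_lit 409)) (XT.lf (nat_lit 0) (nat_lit 303362046) (nat_lit 380) (nat_lit 4455739564) (nat_lit 456) (nat_lit 9469295514) (nat_lit 176) (nat_lit 5) (nat_lit 181) (nat_lit 5) (nat_lit 182) (nat_lit 5) (nat_lit 619) (nat_lit 533) (nat_lit 408))) (XT.nd (nat_lit 78) (nat_lit 380) (nat_lit 0) (XT.lf (nat_lit 0) (nat_lit 8557236089) (nat_lit 456) (nat_lit 4814609710) (nat_lit 76) (nat_lit 1022896225) (nat_lit 176) (nat_lit 5) (nat_lit 182) (nat_lit 5) (nat_lit 177) (nat_lit 5) (nat_lit 620) (nat_lit 533) (nat_lit 407)) (XT.lf (nat_lit 0) (nat_lit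 4481382430) (nat_lit 380) (nat_lit 7991644405) (nat_lit 456) (nat_lit 2090553694) (nat_lit 171) (nat_lit 5) (nat_lit 176) (nat_lit 5) (nat_lit 177) (nat_lit 5) (nat_lit 621) (nat_lit 533) (nat_lit 406)))) (XT.nd (nat_lit 156) (nat_lit 380) (nat_lit 0) (XT.nd (nat_lit 78) (nat_lit 380) (nat_lit 0) (XT.lf (nat_lit 0) (nat_lit 1724295598) (nat_lit 456) (nat_lit 744008675) (nat_lit 76) (nat_lit 12266953971) (nat_lit 170) (nat_lit 5) (nat_lit 176) (nat_lit 5) (nat_lit 171) (nat_lit 5) (nat_lit 622) (nat_lit 533) (nat_lit 405)) (XT.lf (nat_lit 0) (nat_lit 5649426334) (nat_lit 456) (nat_lit 6072421684) (nat_lit 76) (nat_lit 3187006128) (nat_lit 165) (nat_lit 5) (nat_lit 171) (nat_lit 5) (nat_lit 166) (nat_lit 5) (nat_lit 623) (nat_lit 533) (nat_lit 404))) (XT.nd (nat_lit 78) (nat_lit 0) (nat_lit 0) (XT.lf (nat_lit 0) (nat_lit 3537201859) (nat_lit 380) (nat_lit 6143770643) (nat_lit 456) (nat_lit 5404391744) (nat_lit 160) (nat_lit 5) (nat_lit 165) (nat_lit 5) (nat_lit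 166) (nat_lit 5) (nat_lit 624) (nat_lit 533) (nat_lit 403)) (XT.lf (nat_lit 0) (nat_lit 13395944001) (nat_lit 380) (nat_lit 421686785) (nat_lit 456) (nat_lit 1447284659) (nat_lit 160) (nat_lit 5) (nat_lit 165) (nat_lit 5) (nat_lit 166) (nat_lit 5) (nat_lit 625) (nat_lit 533) (nat_lit 402))))))) (XT.nd (nat_lit 1092) (nat_lit 2052) (nat_lit 0) (XT.nd (nat_lit 546) (nat_lit 1368) (nat_lit 0) (XT.nd (nat_lit 234) (nat_lit 1140) (nat_lit 0) (XT.nd (nat_lit 78) (nat_lit 304) (nat_lit 0) (XT.lf (nat_lit 0) (nat_lit 2626891781) (nat_lit 456) (nat_lit 7414851509) (nat_lit 76) (nat_lit 5404541058) (nat_lit 154) (nat_lit 5) (nat_lit 160) (nat_lit 5) (nat_lit 155) (nat_lit 5) (nat_lit 626) (nat_lit 533) (nat_lit 401)) (XT.nd (nat_lit 78) (nat_lit 0) (nat_lit 0) (XT.lf (nat_lit 0) (nat_lit 2519535683) (nat_lit 304) (nat_lit 4259470130) (nat_lit 380) (nat_lit 8851767314) (nat_lit 150) (nat_lit 5) (nat_lit 154) (nat_lit 5) (nat_lit 155) (nat_lit 5) (nat_lit 627) (nat_lit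 533) (nat_lit 400)) (XT.lf (nat_lit 0) (nat_lit 11059016778) (nat_lit 380) (nat_lit 3101092049) (nat_lit 76) (nat_lit 1657946244) (nat_lit 150) (nat_lit 5) (nat_lit 155) (nat_lit 5) (nat_lit 151) (nat_lit 5) (nat_lit 628) (nat_lit 533) (nat_lit 399)))) (XT.nd (nat_lit 156) (nat_lit 380) (nat_lit 0) (XT.nd (nat_lit 78) (nat_lit 380) (nat_lit 0) (XT.lf (nat_lit 0) (nat_lit 7150028630) (nat_lit 380) (nat_lit 8333671339) (nat_lit 456) (nat_lit 524201721) (nat_lit 145) (nat_lit 5) (nat_lit 150) (nat_lit 5) (nat_lit 151) (nat_lit 5) (nat_lit 629) (nat_lit 533) (nat_lit 398)) (XT.lf (nat_lit 0) (nat_lit 1416034044) (nat_lit 304) (nat_lit 2344146183) (nat_lit 380) (nat_lit 12440580130) (nat_lit 140) (nat_lit 5) (nat_lit 144) (nat_lit 5) (nat_lit 145) (nat_lit 5) (nat_lit 630) (nat_lit 533) (nat_lit 397))) (XT.nd (nat_lit 78) (nat_lit 380) (nat_lit 0) (XT.lf (nat_lit 0) (nat_lit 8192085088) (nat_lit 380) (nat_lit 4434029232) (nat_lit 76) (nat_lit 3769915938) (nat_lit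 140) (nat_lit 5) (nat_lit 145) (nat_lit 5) (nat_lit 141) (nat_lit 5) (nat_lit 631) (nat_lit 533) (nat_lit 396)) (XT.lf (nat_lit 0) (nat_lit 6164575014) (nat_lit 380) (nat_lit 6588471451) (nat_lit 456) (nat_lit 3841351162) (nat_lit 135) (nat_lit 5) (nat_lit 140) (nat_lit 5) (nat_lit 141) (nat_lit 5) (nat_lit 632) (nat_lit 533) (nat_lit 395))))) (XT.nd (nat_lit 234) (nat_lit 684) (nat_lit 0) (XT.nd (nat_lit 78) (nat_lit 304) (nat_lit 0) (XT.lf (nat_lit 0) (nat_lit 213295764) (nat_lit 304) (nat_lit 403464165) (nat_lit 380) (nat_lit 16179568906) (nat_lit 130) (nat_lit 5) (nat_lit 134) (nat_lit 5) (nat_lit 135) (nat_lit 5) (nat_lit 633) (nat_lit 533) (nat_lit 394)) (XT.nd (nat_lit 78) (nat_lit 304) (nat_lit 0) (XT.lf (nat_lit 0) (nat_lit 5206425931) (nat_lit 380) (nat_lit 5879037127) (nat_lit 76) (nat_lit 5914451627) (nat_lit 130) (nat_lit 5) (nat_lit 135) (nat_lit 5) (nat_lit 131) (nat_lit 5) (nat_lit 634) (nat_lit 533) (nat_lit 393)) (XT.lf (nat_lit 0) (nat_lit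 5078908887) (nat_lit 304) (nat_lit 4829904778) (nat_lit 380) (nat_lit 7298340425) (nat_lit 126) (nat_lit 5) (nat_lit 130) (nat_lit 5) (nat_lit 131) (nat_lit 5) (nat_lit 635) (nat_lit 533) (nat_lit 392)))) (XT.nd (nat_lit 156) (nat_lit 304) (nat_lit 0) (XT.nd (nat_lit 78) (nat_lit 380) (nat_lit 0) (XT.lf (nat_lit 0) (nat_lit 14740384097) (nat_lit 380) (nat_lit 1116515324) (nat_lit 76) (nat_lit 1560936559) (nat_lit 126) (nat_lit 5) (nat_lit 131) (nat_lit 5) (nat_lit 127) (nat_lit 5) (nat_lit 636) (nat_lit 533) (nat_lit 391)) (XT.lf (nat_lit 0) (nat_lit 2093518291) (nat_lit 380) (nat_lit 7451345004) (nat_lit 76) (nat_lit 8085916942) (nat_lit 121) (nat_lit 5) (nat_lit 126) (nat_lit 5) (nat_lit 122) (nat_lit 5) (nat_lit 637) (nat_lit 533) (nat_lit 390))) (XT.nd (nat_lit 78) (nat_lit 0) (nat_lit 0) (XT.lf (nat_lit 0) (nat_lit 3877981682) (nat_lit 304) (nat_lit 3064504180) (nat_lit 380) (nat_lit 10904775352) (nat_lit 117) (nat_lit 5) (nat_lit 121) (nat_lit 5) (nat_lit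 122) (nat_lit 5) (nat_lit 638) (nat_lit 533) (nat_lit 389)) (XT.lf (nat_lit 0) (nat_lit 11947528253) (nat_lit 380) (nat_lit 2579293784) (nat_lit 76) (nat_lit 3540068229) (nat_lit 117) (nat_lit 5) (nat_lit 122) (nat_lit 5) (nat_lit 118) (nat_lit 5) (nat_lit 639) (nat_lit 533) (nat_lit 388)))))) (XT.nd (nat_lit 546) (nat_lit 608) (nat_lit 0) (XT.nd (nat_lit 234) (nat_lit 836) (nat_lit 0) (XT.nd (nat_lit 78) (nat_lit 380) (nat_lit 0) (XT.lf (nat_lit 0) (nat_lit 9114429193) (nat_lit 228) (nat_lit 8003735897) (nat_lit 304) (nat_lit 1171437297) (nat_lit 114) (nat_lit 5) (nat_lit 117) (nat_lit 5) (nat_lit 118) (nat_lit 5) (nat_lit 640) (nat_lit 533) (nat_lit 387)) (XT.nd (nat_lit 78) (nat_lit 0) (nat_lit 0) (XT.lf (nat_lit 0) (nat_lit 2545335500) (nat_lit 304) (nat_lit 1299285906) (nat_lit 380) (nat_lit 14671244397) (nat_lit 109) (nat_lit 5) (nat_lit 113) (nat_lit 5) (nat_lit 114) (nat_lit 5) (nat_lit 641) (nat_lit 533) (nat_lit 386)) (XT.lf (nat_lit 0) (nat_lit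 9029388671) (nat_lit 380) (nat_lit 4188326936) (nat_lit 76) (nat_lit 5527102897) (nat_lit 109) (nat_lit 5) (nat_lit 114) (nat_lit 5) (nat_lit 110) (nat_lit 5) (nat_lit 642) (nat_lit 533) (nat_lit 385)))) (XT.nd (nat_lit 156) (nat_lit 228) (nat_lit 0) (XT.nd (nat_lit 78) (nat_lit 380) (nat_lit 0) (XT.lf (nat_lit 0) (nat_lit 7901605767) (nat_lit 228) (nat_lit 6462540532) (nat_lit 304) (nat_lit 4613278390) (nat_lit 106) (nat_lit 5) (nat_lit 109) (nat_lit 5) (nat_lit 110) (nat_lit 5) (nat_lit 643) (nat_lit 533) (nat_lit 384)) (XT.lf (nat_lit 0) (nat_lit 607751357) (nat_lit 380) (nat_lit 18154212148) (nat_lit 76) (nat_lit 452151377) (nat_lit 101) (nat_lit 5) (nat_lit 106) (nat_lit 5) (nat_lit 102) (nat_lit 5) (nat_lit 644) (nat_lit 533) (nat_lit 383))) (XT.nd (nat_lit 78) (nat_lit 228) (nat_lit 0) (XT.lf (nat_lit 0) (nat_lit 5975577406) (nat_lit 380) (nat_lit 5962448734) (nat_lit 76) (nat_lit 7514820224) (nat_lit 101) (nat_lit 5) (nat_lit 106) (nat_lit 5) (nat_lit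 102) (nat_lit 5) (nat_lit 645) (nat_lit 533) (nat_lit 382)) (XT.lf (nat_lit 0) (nat_lit 6536297404) (nat_lit 228) (nat_lit 4943640441) (nat_lit 304) (nat_lit 8215831380) (nat_lit 98) (nat_lit 5) (nat_lit 101) (nat_lit 5) (nat_lit 102) (nat_lit 5) (nat_lit 646) (nat_lit 533) (nat_lit 381))))) (XT.nd (nat_lit 72462) (nat_lit 0) (nat_lit 45372) (XT.nd (nat_lit 156) (nat_lit 228) (nat_lit 0) (XT.nd (nat_lit 78) (nat_lit 380) (nat_lit 0) (XT.lf (nat_lit 0) (nat_lit 17135678681) (nat_lit 304) (nat_lit 614028978) (nat_lit 76) (nat_lit 2193017323) (nat_lit 98) (nat_lit 5) (nat_lit 102) (nat_lit 5) (nat_lit 99) (nat_lit 5) (nat_lit 647) (nat_lit 533) (nat_lit 380)) (XT.lf (nat_lit 0) (nat_lit 2774610407) (nat_lit 380) (nat_lit 7922320433) (nat_lit 76) (nat_lit 9495332671) (nat_lit 93) (nat_lit 5) (nat_lit 98) (nat_lit 5) (nat_lit 94) (nat_lit 5) (nat_lit 648) (nat_lit 533) (nat_lit 379))) (XT.nd (nat_lit 72228) (nat_lit 0) (nat_lit 46284) (XT.lf (nat_lit 0) (nat_lit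 4997925247) (nat_lit 228) (nat_lit 3456099779) (nat_lit 304) (nat_lit 11991922754) (nat_lit 90) (nat_lit 5) (nat_lit 93) (nat_lit 5) (nat_lit 94) (nat_lit 5) (nat_lit 649) (nat_lit 533) (nat_lit 378)) (XT.lf (nat_lit 0) (nat_lit 360228031) (nat_lit 988) (nat_lit 1523548473) (nat_lit 988) (nat_lit 1523548473) (nat_lit 699) (nat_lit 3) (nat_lit 712) (nat_lit 3) (nat_lit 712) (nat_lit 5) (nat_lit 534) (nat_lit 534) (nat_lit 492)))) (XT.nd (nat_lit 156) (nat_lit 912) (nat_lit 0) (XT.nd (nat_lit 78) (nat_lit 0) (nat_lit 0) (XT.lf (nat_lit 76) (nat_lit 342658042) (nat_lit 0) (nat_lit 2420007218) (nat_lit 988) (nat_lit 4079254872) (nat_lit 700) (nat_lit 5) (nat_lit 699) (nat_lit 3) (nat_lit 712) (nat_lit 5) (nat_lit 535) (nat_lit 534) (nat_lit 491)) (XT.lf (nat_lit 76) (nat_lit 3813955124) (nat_lit 0) (nat_lit 998711674) (nat_lit 988) (nat_lit 2057734572) (nat_lit 700) (nat_lit 5) (nat_lit 699) (nat_lit 3) (nat_lit 712) (nat_lit 5) (nat_lit 536) (nat_lit 534) (nat_lit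 490))) (XT.nd (nat_lit 78) (nat_lit 988) (nat_lit 0) (XT.lf (nat_lit 76) (nat_lit 429697676) (nat_lit 0) (nat_lit 6427403503) (nat_lit 988) (nat_lit 43286931) (nat_lit 701) (nat_lit 5) (nat_lit 700) (nat_lit 5) (nat_lit 713) (nat_lit 5) (nat_lit 537) (nat_lit 534) (nat_lit 489)) (XT.lf (nat_lit 0) (nat_lit 1960542012) (nat_lit 988) (nat_lit 2952120812) (nat_lit 1064) (nat_lit 2018545466) (nat_lit 687) (nat_lit 5) (nat_lit 700) (nat_lit 5) (nat_lit 701) (nat_lit 5) (nat_lit 538) (nat_lit 534) (nat_lit 488))))))))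
noncomputable def xc101 : XT := (XT.nd (nat_lit 2262) (nat_lit 16036) (nat_lit 0) (XT.nd (nat_lit 1092) (nat_lit 10792) (nat_lit 0) (XT.nd (nat_lit 546) (nat_lit 2356) (nat_lit 0) (XT.nd (nat_lit 234) (nat_lit 1064) (nat_lit 0) (XT.nd (nat_lit 78) (nat_lit 988) (nat_lit 0) (XT.lf (nat_lit 76) (nat_lit 616439458) (nat_lit 0) (nat_lit 3340659474) (nat_lit 1064) (nat_lit 3006479869) (nat_lit 688) (nat_lit 5) (nat_lit 687) (nat_lit 5) (nat_lit 701) (nat_lit 5) (nat_lit 539) (nat_lit 534) (nat_lit 487)) (XT.nd (nat_lit 78) (nat_lit 988) (nat_lit 0) (XT.lf (nat_lit 76) (nat_lit 4268394307) (nat_lit 0) (nat_lit 1695044878) (nat_lit 1064) (nat_lit 1033764681) (nat_lit 688) (nat_lit 5) (nat_lit 687) (nat_lit 5) (nat_lit 701) (nat_lit 5) (nat_lit 540) (nat_lit 534) (nat_lit 486)) (XT.lf (nat_lit 0) (nat_lit 922480335) (nat_lit 1064) (nat_lit 6092599780) (nat_lit 1140) (nat_lit 17160141) (nat_lit 674) (nat_lit 5) (nat_lit 688) (nat_lit 5) (nat_lit 689) (nat_lit 5) (nat_lit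 541) (nat_lit 534) (nat_lit 485)))) (XT.nd (nat_lit 156) (nat_lit 1064) (nat_lit 0) (XT.nd (nat_lit 78) (nat_lit 0) (nat_lit 0) (XT.lf (nat_lit 0) (nat_lit 2885291931) (nat_lit 1064) (nat_lit 2396381796) (nat_lit 1140) (nat_lit 1786545255) (nat_lit 674) (nat_lit 5) (nat_lit 688) (nat_lit 5) (nat_lit 689) (nat_lit 5) (nat_lit 542) (nat_lit 534) (nat_lit 484)) (XT.lf (nat_lit 76) (nat_lit 1363181025) (nat_lit 0) (nat_lit 3485590553) (nat_lit 1140) (nat_lit 2256921336) (nat_lit 675) (nat_lit 5) (nat_lit 674) (nat_lit 5) (nat_lit 689) (nat_lit 5) (nat_lit 543) (nat_lit 534) (nat_lit 483))) (XT.nd (nat_lit 78) (nat_lit 1064) (nat_lit 0) (XT.lf (nat_lit 76) (nat_lit 5202148024) (nat_lit 0) (nat_lit 1618761542) (nat_lit 1140) (nat_lit 323622773) (nat_lit 675) (nat_lit 5) (nat_lit 674) (nat_lit 5) (nat_lit 689) (nat_lit 5) (nat_lit 544) (nat_lit 534) (nat_lit 482)) (XT.lf (nat_lit 0) (nat_lit 1595226851) (nat_lit 1140) (nat_lit 5266841248) (nat_lit 1216) (nat_lit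 322499991) (nat_lit 660) (nat_lit 5) (nat_lit 675) (nat_lit 5) (nat_lit 676) (nat_lit 5) (nat_lit 545) (nat_lit 534) (nat_lit 481))))) (XT.nd (nat_lit 234) (nat_lit 1140) (nat_lit 0) (XT.nd (nat_lit 78) (nat_lit 1216) (nat_lit 0) (XT.lf (nat_lit 0) (nat_lit 3526714339) (nat_lit 1140) (nat_lit 1385892524) (nat_lit 1216) (nat_lit 2313186598) (nat_lit 660) (nat_lit 5) (nat_lit 675) (nat_lit 5) (nat_lit 676) (nat_lit 5) (nat_lit 546) (nat_lit 534) (nat_lit 480)) (XT.nd (nat_lit 78) (nat_lit 1216) (nat_lit 0) (XT.lf (nat_lit 76) (nat_lit 2577887951) (nat_lit 0) (nat_lit 2891317367) (nat_lit 1216) (nat_lit 1799194050) (nat_lit 661) (nat_lit 5) (nat_lit 660) (nat_lit 5) (nat_lit 676) (nat_lit 5) (nat_lit 547) (nat_lit 534) (nat_lit 479)) (XT.lf (nat_lit 0) (nat_lit 102260616) (nat_lit 1216) (nat_lit 701899534) (nat_lit 1292) (nat_lit 6508374786) (nat_lit 644) (nat_lit 5) (nat_lit 660) (nat_lit 5) (nat_lit 661) (nat_lit 5) (nat_lit 548) (nat_lit 534) (nat_lit 478))))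 (XT.nd (nat_lit 156) (nat_lit 1216) (nat_lit 0) (XT.nd (nat_lit 78) (nat_lit 0) (nat_lit 0) (XT.lf (nat_lit 0) (nat_lit 2005369772) (nat_lit 1216) (nat_lit 3996318618) (nat_lit 1292) (nat_lit 1355875941) (nat_lit 645) (nat_lit 5) (nat_lit 661) (nat_lit 5) (nat_lit 662) (nat_lit 5) (nat_lit 549) (nat_lit 534) (nat_lit 477)) (XT.lf (nat_lit 76) (nat_lit 78252634) (nat_lit 0) (nat_lit 3836508899) (nat_lit 1292) (nat_lit 3489371609) (nat_lit 646) (nat_lit 5) (nat_lit 645) (nat_lit 5) (nat_lit 662) (nat_lit 5) (nat_lit 550) (nat_lit 534) (nat_lit 476))) (XT.nd (nat_lit 78) (nat_lit 1216) (nat_lit 0) (XT.lf (nat_lit 76) (nat_lit 4259493375) (nat_lit 0) (nat_lit 1587952876) (nat_lit 1292) (nat_lit 1604488149) (nat_lit 646) (nat_lit 5) (nat_lit 645) (nat_lit 5) (nat_lit 662) (nat_lit 5) (nat_lit 551) (nat_lit 534) (nat_lit 475)) (XT.lf (nat_lit 0) (nat_lit 284000440) (nat_lit 1292) (nat_lit 6500244614) (nat_lit 1368) (nat_lit 717006787) (nat_lit 629) (nat_lit 5) (nat_lit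 646) (nat_lit 5) (nat_lit 647) (nat_lit 5) (nat_lit 552) (nat_lit 534) (nat_lit 474)))))) (XT.nd (nat_lit 546) (nat_lit 6688) (nat_lit 0) (XT.nd (nat_lit 234) (nat_lit 4104) (nat_lit 0) (XT.nd (nat_lit 78) (nat_lit 0) (nat_lit 0) (XT.lf (nat_lit 0) (nat_lit 2180404293) (nat_lit 1292) (nat_lit 2280486670) (nat_lit 1368) (nat_lit 3090622952) (nat_lit 629) (nat_lit 5) (nat_lit 646) (nat_lit 5) (nat_lit 647) (nat_lit 5) (nat_lit 553) (nat_lit 534) (nat_lit 473)) (XT.nd (nat_lit 78) (nat_lit 0) (nat_lit 76) (XT.lf (nat_lit 76) (nat_lit 2021080665) (nat_lit 0) (nat_lit 2067099743) (nat_lit 1368) (nat_lit 3515134871) (nat_lit 630) (nat_lit 5) (nat_lit 629) (nat_lit 5) (nat_lit 647) (nat_lit 5) (nat_lit 554) (nat_lit 534) (nat_lit 472)) (XT.lf (nat_lit 0) (nat_lit 6012927078) (nat_lit 1292) (nat_lit 1248539913) (nat_lit 76) (nat_lit 395112252) (nat_lit 630) (nat_lit 5) (nat_lit 647) (nat_lit 5) (nat_lit 631) (nat_lit 5) (nat_lit 555) (nat_lit 534) (nat_lit 471))))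 (XT.nd (nat_lit 156) (nat_lit 2812) (nat_lit 0) (XT.nd (nat_lit 78) (nat_lit 0) (nat_lit 0) (XT.lf (nat_lit 0) (nat_lit 257770452) (nat_lit 1368) (nat_lit 4542133741) (nat_lit 76) (nat_lit 2911052829) (nat_lit 612) (nat_lit 5) (nat_lit 630) (nat_lit 5) (nat_lit 613) (nat_lit 5) (nat_lit 556) (nat_lit 534) (nat_lit 470)) (XT.lf (nat_lit 0) (nat_lit 2145720678) (nat_lit 1368) (nat_lit 115221058) (nat_lit 76) (nat_lit 5505855882) (nat_lit 612) (nat_lit 5) (nat_lit 630) (nat_lit 5) (nat_lit 613) (nat_lit 5) (nat_lit 557) (nat_lit 534) (nat_lit 469))) (XT.nd (nat_lit 78) (nat_lit 1444) (nat_lit 0) (XT.lf (nat_lit 0) (nat_lit 4065365028) (nat_lit 1444) (nat_lit 3396888786) (nat_lit 76) (nat_lit 361625166) (nat_lit 594) (nat_lit 5) (nat_lit 613) (nat_lit 5) (nat_lit 595) (nat_lit 5) (nat_lit 558) (nat_lit 534) (nat_lit 468)) (XT.lf (nat_lit 0) (nat_lit 1150124064) (nat_lit 1444) (nat_lit 4859888907) (nat_lit 1520) (nat_lit 1872359388) (nat_lit 575) (nat_lit 5) (nat_lit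 594) (nat_lit 5) (nat_lit 595) (nat_lit 5) (nat_lit 559) (nat_lit 534) (nat_lit 467))))) (XT.nd (nat_lit 312) (nat_lit 3496) (nat_lit 0) (XT.nd (nat_lit 156) (nat_lit 1596) (nat_lit 0) (XT.nd (nat_lit 78) (nat_lit 1520) (nat_lit 0) (XT.lf (nat_lit 0) (nat_lit 37466417) (nat_lit 1520) (nat_lit 2137736163) (nat_lit 76) (nat_lit 5767096360) (nat_lit 574) (nat_lit 5) (nat_lit 594) (nat_lit 5) (nat_lit 575) (nat_lit 5) (nat_lit 560) (nat_lit 534) (nat_lit 466)) (XT.lf (nat_lit 0) (nat_lit 1945214647) (nat_lit 1596) (nat_lit 5467076017) (nat_lit 76) (nat_lit 591192379) (nat_lit 554) (nat_lit 5) (nat_lit 575) (nat_lit 5) (nat_lit 555) (nat_lit 5) (nat_lit 561) (nat_lit 534) (nat_lit 465))) (XT.nd (nat_lit 78) (nat_lit 1596) (nat_lit 0) (XT.lf (nat_lit 0) (nat_lit 3884902964) (nat_lit 1596) (nat_lit 776855016) (nat_lit 76) (nat_lit 3404259552) (nat_lit 554) (nat_lit 5) (nat_lit 575) (nat_lit 5) (nat_lit 555) (nat_lit 5) (nat_lit 562) (nat_lit 534) (nat_lit 464)) (XT.lf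 (nat_lit 0) (nat_lit 4030857956) (nat_lit 1596) (nat_lit 1824325027) (nat_lit 1672) (nat_lit 2274786127) (nat_lit 533) (nat_lit 5) (nat_lit 554) (nat_lit 5) (nat_lit 555) (nat_lit 5) (nat_lit 563) (nat_lit 534) (nat_lit 463)))) (XT.nd (nat_lit 156) (nat_lit 1748) (nat_lit 0) (XT.nd (nat_lit 78) (nat_lit 76) (nat_lit 0) (XT.lf (nat_lit 0) (nat_lit 722963462) (nat_lit 1672) (nat_lit 7124937486) (nat_lit 1748) (nat_lit 347640435) (nat_lit 511) (nat_lit 5) (nat_lit 533) (nat_lit 5) (nat_lit 534) (nat_lit 5) (nat_lit 564) (nat_lit 534) (nat_lit 462)) (XT.lf (nat_lit 0) (nat_lit 1602991667) (nat_lit 1748) (nat_lit 2617551337) (nat_lit 76) (nat_lit 4041550920) (nat_lit 510) (nat_lit 5) (nat_lit 533) (nat_lit 5) (nat_lit 511) (nat_lit 5) (nat_lit 565) (nat_lit 534) (nat_lit 461))) (XT.nd (nat_lit 78) (nat_lit 0) (nat_lit 0) (XT.lf (nat_lit 0) (nat_lit 2333514008) (nat_lit 1748) (nat_lit 1236675027) (nat_lit 1824) (nat_lit 4760100550) (nat_lit 487) (nat_lit 5) (nat_lit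 510) (nat_lit 5) (nat_lit 511) (nat_lit 5) (nat_lit 566) (nat_lit 534) (nat_lit 460)) (XT.lf (nat_lit 0) (nat_lit 5573673873) (nat_lit 1824) (nat_lit 1022107622) (nat_lit 76) (nat_lit 1804130930) (nat_lit 487) (nat_lit 5) (nat_lit 511) (nat_lit 5) (nat_lit 488) (nat_lit 5) (nat_lit 567) (nat_lit 534) (nat_lit 459))))))) (XT.nd (nat_lit 1170) (nat_lit 6156) (nat_lit 0) (XT.nd (nat_lit 546) (nat_lit 4180) (nat_lit 0) (XT.nd (nat_lit 234) (nat_lit 2736) (nat_lit 0) (XT.nd (nat_lit 78) (nat_lit 1140) (nat_lit 0) (XT.lf (nat_lit 0) (nat_lit 4067956660) (nat_lit 1824) (nat_lit 3552040823) (nat_lit 1900) (nat_lit 850876952) (nat_lit 463) (nat_lit 5) (nat_lit 487) (nat_lit 5) (nat_lit 488) (nat_lit 5) (nat_lit 568) (nat_lit 534) (nat_lit 458)) (XT.nd (nat_lit 78) (nat_lit 0) (nat_lit 0) (XT.lf (nat_lit 0) (nat_lit 702682966) (nat_lit 1064) (nat_lit 425902336) (nat_lit 1140) (nat_lit 7414924059) (nat_lit 448) (nat_lit 5) (nat_lit 462) (nat_lit 5) (nat_lit 463) (nat_lit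 5) (nat_lit 569) (nat_lit 534) (nat_lit 457)) (XT.lf (nat_lit 0) (nat_lit 3152768009) (nat_lit 1140) (nat_lit 2700628336) (nat_lit 76) (nat_lit 2763759637) (nat_lit 448) (nat_lit 5) (nat_lit 463) (nat_lit 5) (nat_lit 449) (nat_lit 5) (nat_lit 570) (nat_lit 534) (nat_lit 456)))) (XT.nd (nat_lit 156) (nat_lit 1824) (nat_lit 0) (XT.nd (nat_lit 78) (nat_lit 0) (nat_lit 0) (XT.lf (nat_lit 0) (nat_lit 2543566965) (nat_lit 912) (nat_lit 2662648134) (nat_lit 988) (nat_lit 3486286757) (nat_lit 436) (nat_lit 5) (nat_lit 448) (nat_lit 5) (nat_lit 449) (nat_lit 5) (nat_lit 571) (nat_lit 534) (nat_lit 455)) (XT.lf (nat_lit 0) (nat_lit 7292678820) (nat_lit 988) (nat_lit 873465094) (nat_lit 76) (nat_lit 603373676) (nat_lit 436) (nat_lit 5) (nat_lit 449) (nat_lit 5) (nat_lit 437) (nat_lit 5) (nat_lit 572) (nat_lit 534) (nat_lit 454))) (XT.nd (nat_lit 78) (nat_lit 836) (nat_lit 0) (XT.lf (nat_lit 0) (nat_lit 582832456) (nat_lit 988) (nat_lit 4331580307) (nat_lit 76) (nat_lit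 3933237385) (nat_lit 423) (nat_lit 5) (nat_lit 436) (nat_lit 5) (nat_lit 424) (nat_lit 5) (nat_lit 573) (nat_lit 534) (nat_lit 453)) (XT.lf (nat_lit 0) (nat_lit 1072879247) (nat_lit 836) (nat_lit 1574576677) (nat_lit 912) (nat_lit 6280025309) (nat_lit 412) (nat_lit 5) (nat_lit 423) (nat_lit 5) (nat_lit 424) (nat_lit 5) (nat_lit 574) (nat_lit 534) (nat_lit 452))))) (XT.nd (nat_lit 312) (nat_lit 2432) (nat_lit 0) (XT.nd (nat_lit 156) (nat_lit 912) (nat_lit 0) (XT.nd (nat_lit 78) (nat_lit 836) (nat_lit 0) (XT.lf (nat_lit 0) (nat_lit 4765560168) (nat_lit 912) (nat_lit 2406037579) (nat_lit 76) (nat_lit 1837069178) (nat_lit 412) (nat_lit 5) (nat_lit 424) (nat_lit 5) (nat_lit 413) (nat_lit 5) (nat_lit 575) (nat_lit 534) (nat_lit 451)) (XT.lf (nat_lit 0) (nat_lit 3153243194) (nat_lit 836) (nat_lit 3775285574) (nat_lit 912) (nat_lit 2162899236) (nat_lit 401) (nat_lit 5) (nat_lit 412) (nat_lit 5) (nat_lit 413) (nat_lit 5) (nat_lit 576) (nat_lit 534) (nat_lit 450)))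 (XT.nd (nat_lit 78) (nat_lit 912) (nat_lit 0) (XT.lf (nat_lit 0) (nat_lit 8827333433) (nat_lit 836) (nat_lit 295539356) (nat_lit 912) (nat_lit 53210877) (nat_lit 401) (nat_lit 5) (nat_lit 412) (nat_lit 5) (nat_lit 413) (nat_lit 5) (nat_lit 577) (nat_lit 534) (nat_lit 449)) (XT.lf (nat_lit 0) (nat_lit 2099857741) (nat_lit 912) (nat_lit 3902832755) (nat_lit 76) (nat_lit 3258896826) (nat_lit 389) (nat_lit 5) (nat_lit 401) (nat_lit 5) (nat_lit 390) (nat_lit 5) (nat_lit 578) (nat_lit 534) (nat_lit 448)))) (XT.nd (nat_lit 156) (nat_lit 1596) (nat_lit 0) (XT.nd (nat_lit 78) (nat_lit 0) (nat_lit 0) (XT.lf (nat_lit 0) (nat_lit 1828902567) (nat_lit 836) (nat_lit 2455245366) (nat_lit 912) (nat_lit 5064870215) (nat_lit 378) (nat_lit 5) (nat_lit 389) (nat_lit 5) (nat_lit 390) (nat_lit 5) (nat_lit 579) (nat_lit 534) (nat_lit 447)) (XT.lf (nat_lit 0) (nat_lit 6519058710) (nat_lit 912) (nat_lit 1746700307) (nat_lit 76) (nat_lit 1172301435) (nat_lit 378) (nat_lit 5) (nat_lit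 390) (nat_lit 5) (nat_lit 379) (nat_lit 5) (nat_lit 580) (nat_lit 534) (nat_lit 446))) (XT.nd (nat_lit 78) (nat_lit 836) (nat_lit 0) (XT.lf (nat_lit 0) (nat_lit 4151470992) (nat_lit 760) (nat_lit 4663959089) (nat_lit 836) (nat_lit 713119799) (nat_lit 368) (nat_lit 5) (nat_lit 378) (nat_lit 5) (nat_lit 379) (nat_lit 5) (nat_lit 581) (nat_lit 534) (nat_lit 445)) (XT.lf (nat_lit 0) (nat_lit 538615567) (nat_lit 760) (nat_lit 967109892) (nat_lit 836) (nat_lit 8115145489) (nat_lit 357) (nat_lit 5) (nat_lit 367) (nat_lit 5) (nat_lit 368) (nat_lit 5) (nat_lit 582) (nat_lit 534) (nat_lit 444)))))) (XT.nd (nat_lit 546) (nat_lit 3268) (nat_lit 0) (XT.nd (nat_lit 234) (nat_lit 2204) (nat_lit 0) (XT.nd (nat_lit 78) (nat_lit 684) (nat_lit 0) (XT.lf (nat_lit 0) (nat_lit 3787948646) (nat_lit 836) (nat_lit 3121341229) (nat_lit 76) (nat_lit 2805084733) (nat_lit 357) (nat_lit 5) (nat_lit 368) (nat_lit 5) (nat_lit 358) (nat_lit 5) (nat_lit 583) (nat_lit 534) (nat_lit 443)) (XT.nd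 (nat_lit 78) (nat_lit 0) (nat_lit 0) (XT.lf (nat_lit 0) (nat_lit 2962444252) (nat_lit 684) (nat_lit 3153535854) (nat_lit 760) (nat_lit 3693766369) (nat_lit 348) (nat_lit 5) (nat_lit 357) (nat_lit 5) (nat_lit 358) (nat_lit 5) (nat_lit 584) (nat_lit 534) (nat_lit 442)) (XT.lf (nat_lit 0) (nat_lit 8490870822) (nat_lit 760) (nat_lit 730015269) (nat_lit 76) (nat_lit 686135096) (nat_lit 348) (nat_lit 5) (nat_lit 358) (nat_lit 5) (nat_lit 349) (nat_lit 5) (nat_lit 585) (nat_lit 534) (nat_lit 441)))) (XT.nd (nat_lit 156) (nat_lit 684) (nat_lit 0) (XT.nd (nat_lit 78) (nat_lit 684) (nat_lit 0) (XT.lf (nat_lit 0) (nat_lit 927450598) (nat_lit 836) (nat_lit 4478923274) (nat_lit 76) (nat_lit 4599104502) (nat_lit 337) (nat_lit 5) (nat_lit 348) (nat_lit 5) (nat_lit 338) (nat_lit 5) (nat_lit 586) (nat_lit 534) (nat_lit 440)) (XT.lf (nat_lit 0) (nat_lit 1797856320) (nat_lit 684) (nat_lit 1493174352) (nat_lit 760) (nat_lit 6814846733) (nat_lit 328) (nat_lit 5) (nat_lit 337)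 (nat_lit 5) (nat_lit 338) (nat_lit 5) (nat_lit 587) (nat_lit 534) (nat_lit 439))) (XT.nd (nat_lit 78) (nat_lit 684) (nat_lit 0) (XT.lf (nat_lit 0) (nat_lit 5724074620) (nat_lit 760) (nat_lit 1992146568) (nat_lit 76) (nat_lit 2491620659) (nat_lit 328) (nat_lit 5) (nat_lit 338) (nat_lit 5) (nat_lit 329) (nat_lit 5) (nat_lit 588) (nat_lit 534) (nat_lit 438)) (XT.lf (nat_lit 0) (nat_lit 4470426366) (nat_lit 684) (nat_lit 3750459508) (nat_lit 760) (nat_lit 2090658826) (nat_lit 319) (nat_lit 5) (nat_lit 328) (nat_lit 5) (nat_lit 329) (nat_lit 5) (nat_lit 589) (nat_lit 534) (nat_lit 437))))) (XT.nd (nat_lit 312) (nat_lit 1900) (nat_lit 0) (XT.nd (nat_lit 156) (nat_lit 684) (nat_lit 0) (XT.nd (nat_lit 78) (nat_lit 0) (nat_lit 0) (XT.lf (nat_lit 0) (nat_lit 341727131) (nat_lit 684) (nat_lit 9769540645) (nat_lit 76) (nat_lit 306089353) (nat_lit 310) (nat_lit 5) (nat_lit 319) (nat_lit 5) (nat_lit 311) (nat_lit 5) (nat_lit 590) (nat_lit 534) (nat_lit 436)) (XT.lf (nat_lit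 0) (nat_lit 2835655590) (nat_lit 684) (nat_lit 3246476616) (nat_lit 76) (nat_lit 4442060619) (nat_lit 310) (nat_lit 5) (nat_lit 319) (nat_lit 5) (nat_lit 311) (nat_lit 5) (nat_lit 591) (nat_lit 534) (nat_lit 435))) (XT.nd (nat_lit 78) (nat_lit 0) (nat_lit 0) (XT.lf (nat_lit 0) (nat_lit 3423775493) (nat_lit 684) (nat_lit 1954944480) (nat_lit 760) (nat_lit 5254461272) (nat_lit 301) (nat_lit 5) (nat_lit 310) (nat_lit 5) (nat_lit 311) (nat_lit 5) (nat_lit 592) (nat_lit 534) (nat_lit 434)) (XT.lf (nat_lit 0) (nat_lit 7986477356) (nat_lit 760) (nat_lit 515670205) (nat_lit 76) (nat_lit 2241926370) (nat_lit 301) (nat_lit 5) (nat_lit 311) (nat_lit 5) (nat_lit 302) (nat_lit 5) (nat_lit 593) (nat_lit 534) (nat_lit 433)))) (XT.nd (nat_lit 156) (nat_lit 608) (nat_lit 0) (XT.nd (nat_lit 78) (nat_lit 684) (nat_lit 0) (XT.lf (nat_lit 0) (nat_lit 6354478504) (nat_lit 608) (nat_lit 4323823658) (nat_lit 684) (nat_lit 178245174) (nat_lit 293) (nat_lit 5) (nat_lit 301) (nat_lit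 5) (nat_lit 302) (nat_lit 5) (nat_lit 594) (nat_lit 534) (nat_lit 432)) (XT.lf (nat_lit 0) (nat_lit 2385186334) (nat_lit 608) (nat_lit 32127521) (nat_lit 684) (nat_lit 8553703170) (nat_lit 284) (nat_lit 5) (nat_lit 292) (nat_lit 5) (nat_lit 293) (nat_lit 5) (nat_lit 595) (nat_lit 534) (nat_lit 431))) (XT.nd (nat_lit 78) (nat_lit 608) (nat_lit 0) (XT.lf (nat_lit 0) (nat_lit 5099059239) (nat_lit 684) (nat_lit 1673737468) (nat_lit 76) (nat_lit 4314223646) (nat_lit 284) (nat_lit 5) (nat_lit 293) (nat_lit 5) (nat_lit 285) (nat_lit 5) (nat_lit 596) (nat_lit 534) (nat_lit 430)) (XT.lf (nat_lit 0) (nat_lit 5419834430) (nat_lit 608) (nat_lit 2428472792) (nat_lit 684) (nat_lit 3356760198) (nat_lit 276) (nat_lit 5) (nat_lit 284) (nat_lit 5) (nat_lit 285) (nat_lit 5) (nat_lit 597) (nat_lit 534) (nat_lit 429))))))))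
noncomputable def xc102 : XT := (XT.nd (nat_lit 2262) (nat_lit 5624) (nat_lit 0) (XT.nd (nat_lit 1092) (nat_lit 3876) (nat_lit 0) (XT.nd (nat_lit 546) (nat_lit 2584) (nat_lit 0) (XT.nd (nat_lit 234) (nat_lit 1140) (nat_lit 0) (XT.nd (nat_lit 78) (nat_lit 608) (nat_lit 0) (XT.lf (nat_lit 0) (nat_lit 1329233024) (nat_lit 608) (nat_lit 9334916326) (nat_lit 684) (nat_lit 661094901) (nat_lit 268) (nat_lit 5) (nat_lit 276) (nat_lit 5) (nat_lit 277) (nat_lit 5) (nat_lit 598) (nat_lit 534) (nat_lit 428)) (XT.nd (nat_lit 78) (nat_lit 532) (nat_lit 0) (XT.lf (nat_lit 0) (nat_lit 2095022338) (nat_lit 684) (nat_lit 2840476521) (nat_lit 76) (nat_lit 6511376940) (nat_lit 267) (nat_lit 5) (nat_lit 276) (nat_lit 5) (nat_lit 268) (nat_lit 5) (nat_lit 599) (nat_lit 534) (nat_lit 427)) (XT.lf (nat_lit 0) (nat_lit 4485225565) (nat_lit 532) (nat_lit 420497764) (nat_lit 608) (nat_lit 6664963931) (nat_lit 260) (nat_lit 5) (nat_lit 267) (nat_lit 5) (nat_lit 268) (nat_lit 5) (nat_lit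 600) (nat_lit 534) (nat_lit 426)))) (XT.nd (nat_lit 156) (nat_lit 608) (nat_lit 0) (XT.nd (nat_lit 78) (nat_lit 0) (nat_lit 0) (XT.lf (nat_lit 0) (nat_lit 247724421) (nat_lit 532) (nat_lit 7552252766) (nat_lit 608) (nat_lit 3896451917) (nat_lit 253) (nat_lit 5) (nat_lit 260) (nat_lit 5) (nat_lit 261) (nat_lit 5) (nat_lit 601) (nat_lit 534) (nat_lit 425)) (XT.lf (nat_lit 0) (nat_lit 7793400093) (nat_lit 532) (nat_lit 2988628825) (nat_lit 608) (nat_lit 1042059522) (nat_lit 253) (nat_lit 5) (nat_lit 260) (nat_lit 5) (nat_lit 261) (nat_lit 5) (nat_lit 602) (nat_lit 534) (nat_lit 424))) (XT.nd (nat_lit 78) (nat_lit 0) (nat_lit 0) (XT.lf (nat_lit 0) (nat_lit 1858777388) (nat_lit 608) (nat_lit 8422120074) (nat_lit 76) (nat_lit 1672884136) (nat_lit 245) (nat_lit 5) (nat_lit 253) (nat_lit 5) (nat_lit 246) (nat_lit 5) (nat_lit 603) (nat_lit 534) (nat_lit 423)) (XT.lf (nat_lit 0) (nat_lit 4830750300) (nat_lit 608) (nat_lit 839808576) (nat_lit 76) (nat_lit 6414831394)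 (nat_lit 245) (nat_lit 5) (nat_lit 253) (nat_lit 5) (nat_lit 246) (nat_lit 5) (nat_lit 604) (nat_lit 534) (nat_lit 422))))) (XT.nd (nat_lit 234) (nat_lit 1520) (nat_lit 0) (XT.nd (nat_lit 78) (nat_lit 532) (nat_lit 0) (XT.lf (nat_lit 0) (nat_lit 6958644470) (nat_lit 532) (nat_lit 929129696) (nat_lit 608) (nat_lit 4331345561) (nat_lit 238) (nat_lit 5) (nat_lit 245) (nat_lit 5) (nat_lit 246) (nat_lit 5) (nat_lit 605) (nat_lit 534) (nat_lit 421)) (XT.nd (nat_lit 78) (nat_lit 76) (nat_lit 0) (XT.lf (nat_lit 0) (nat_lit 2550146532) (nat_lit 456) (nat_lit 8483985196) (nat_lit 532) (nat_lit 1320829006) (nat_lit 232) (nat_lit 5) (nat_lit 238) (nat_lit 5) (nat_lit 239) (nat_lit 5) (nat_lit 606) (nat_lit 534) (nat_lit 420)) (XT.lf (nat_lit 0) (nat_lit 1749309423) (nat_lit 532) (nat_lit 1949286996) (nat_lit 76) (nat_lit 8794248470) (nat_lit 231) (nat_lit 5) (nat_lit 238) (nat_lit 5) (nat_lit 232) (nat_lit 5) (nat_lit 607) (nat_lit 534) (nat_lit 419)))) (XT.nd (nat_lit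 156) (nat_lit 532) (nat_lit 0) (XT.nd (nat_lit 78) (nat_lit 456) (nat_lit 0) (XT.lf (nat_lit 0) (nat_lit 4891842332) (nat_lit 608) (nat_lit 6532617651) (nat_lit 76) (nat_lit 1208279357) (nat_lit 224) (nat_lit 5) (nat_lit 232) (nat_lit 5) (nat_lit 225) (nat_lit 5) (nat_lit 608) (nat_lit 534) (nat_lit 418)) (XT.lf (nat_lit 0) (nat_lit 1530628879) (nat_lit 456) (nat_lit 6595401029) (nat_lit 532) (nat_lit 4648826454) (nat_lit 218) (nat_lit 5) (nat_lit 224) (nat_lit 5) (nat_lit 225) (nat_lit 5) (nat_lit 609) (nat_lit 534) (nat_lit 417))) (XT.nd (nat_lit 78) (nat_lit 532) (nat_lit 0) (XT.lf (nat_lit 0) (nat_lit 9817230401) (nat_lit 456) (nat_lit 1632909635) (nat_lit 532) (nat_lit 1469171659) (nat_lit 218) (nat_lit 5) (nat_lit 224) (nat_lit 5) (nat_lit 225) (nat_lit 5) (nat_lit 610) (nat_lit 534) (nat_lit 416)) (XT.lf (nat_lit 0) (nat_lit 1788947916) (nat_lit 532) (nat_lit 7854781623) (nat_lit 76) (nat_lit 3421934166) (nat_lit 211) (nat_lit 5) (nat_lit 218) (nat_lit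 5) (nat_lit 212) (nat_lit 5) (nat_lit 611) (nat_lit 534) (nat_lit 415)))))) (XT.nd (nat_lit 546) (nat_lit 2052) (nat_lit 0) (XT.nd (nat_lit 234) (nat_lit 912) (nat_lit 0) (XT.nd (nat_lit 78) (nat_lit 456) (nat_lit 0) (XT.lf (nat_lit 0) (nat_lit 476872833) (nat_lit 456) (nat_lit 4632352560) (nat_lit 532) (nat_lit 8105190487) (nat_lit 205) (nat_lit 5) (nat_lit 211) (nat_lit 5) (nat_lit 212) (nat_lit 5) (nat_lit 612) (nat_lit 534) (nat_lit 414)) (XT.nd (nat_lit 78) (nat_lit 456) (nat_lit 0) (XT.lf (nat_lit 0) (nat_lit 8533998146) (nat_lit 532) (nat_lit 4313378692) (nat_lit 76) (nat_lit 518005157) (nat_lit 205) (nat_lit 5) (nat_lit 212) (nat_lit 5) (nat_lit 206) (nat_lit 5) (nat_lit 613) (nat_lit 534) (nat_lit 413)) (XT.lf (nat_lit 0) (nat_lit 4278763652) (nat_lit 456) (nat_lit 7789234940) (nat_lit 532) (nat_lit 1450554871) (nat_lit 199) (nat_lit 5) (nat_lit 205) (nat_lit 5) (nat_lit 206) (nat_lit 5) (nat_lit 614) (nat_lit 534) (nat_lit 412)))) (XT.nd (nat_lit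 156) (nat_lit 456) (nat_lit 0) (XT.nd (nat_lit 78) (nat_lit 380) (nat_lit 0) (XT.lf (nat_lit 0) (nat_lit 1983161935) (nat_lit 532) (nat_lit 612163872) (nat_lit 76) (nat_lit 11078974295) (nat_lit 198) (nat_lit 5) (nat_lit 205) (nat_lit 5) (nat_lit 199) (nat_lit 5) (nat_lit 615) (nat_lit 534) (nat_lit 411)) (XT.lf (nat_lit 0) (nat_lit 5520381292) (nat_lit 456) (nat_lit 5588898442) (nat_lit 76) (nat_lit 2722605790) (nat_lit 193) (nat_lit 5) (nat_lit 199) (nat_lit 5) (nat_lit 194) (nat_lit 5) (nat_lit 616) (nat_lit 534) (nat_lit 410))) (XT.nd (nat_lit 78) (nat_lit 0) (nat_lit 0) (XT.lf (nat_lit 0) (nat_lit 3291328716) (nat_lit 456) (nat_lit 5862513986) (nat_lit 532) (nat_lit 4838270626) (nat_lit 187) (nat_lit 5) (nat_lit 193) (nat_lit 5) (nat_lit 194) (nat_lit 5) (nat_lit 617) (nat_lit 534) (nat_lit 409)) (XT.lf (nat_lit 0) (nat_lit 12399466509) (nat_lit 456) (nat_lit 480988616) (nat_lit 532) (nat_lit 1274681539) (nat_lit 187) (nat_lit 5) (nat_lit 193) (nat_lit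 5) (nat_lit 194) (nat_lit 5) (nat_lit 618) (nat_lit 534) (nat_lit 408))))) (XT.nd (nat_lit 312) (nat_lit 836) (nat_lit 0) (XT.nd (nat_lit 156) (nat_lit 380) (nat_lit 0) (XT.nd (nat_lit 78) (nat_lit 380) (nat_lit 0) (XT.lf (nat_lit 0) (nat_lit 2393517355) (nat_lit 456) (nat_lit 6928140824) (nat_lit 76) (nat_lit 4998170558) (nat_lit 181) (nat_lit 5) (nat_lit 187) (nat_lit 5) (nat_lit 182) (nat_lit 5) (nat_lit 619) (nat_lit 534) (nat_lit 407)) (XT.lf (nat_lit 0) (nat_lit 2250735652) (nat_lit 380) (nat_lit 3880263273) (nat_lit 456) (nat_lit 8356388056) (nat_lit 176) (nat_lit 5) (nat_lit 181) (nat_lit 5) (nat_lit 182) (nat_lit 5) (nat_lit 620) (nat_lit 534) (nat_lit 406))) (XT.nd (nat_lit 78) (nat_lit 380) (nat_lit 0) (XT.lf (nat_lit 0) (nat_lit 9984292820) (nat_lit 456) (nat_lit 2986814175) (nat_lit 76) (nat_lit 1686368709) (nat_lit 176) (nat_lit 5) (nat_lit 182) (nat_lit 5) (nat_lit 177) (nat_lit 5) (nat_lit 621) (nat_lit 534) (nat_lit 405)) (XT.lf (nat_lit 0)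 (nat_lit 6482439336) (nat_lit 380) (nat_lit 7483744586) (nat_lit 456) (nat_lit 863752208) (nat_lit 171) (nat_lit 5) (nat_lit 176) (nat_lit 5) (nat_lit 177) (nat_lit 5) (nat_lit 622) (nat_lit 534) (nat_lit 404)))) (XT.nd (nat_lit 156) (nat_lit 380) (nat_lit 0) (XT.nd (nat_lit 78) (nat_lit 0) (nat_lit 0) (XT.lf (nat_lit 0) (nat_lit 1146449585) (nat_lit 380) (nat_lit 1847201394) (nat_lit 456) (nat_lit 12011574596) (nat_lit 165) (nat_lit 5) (nat_lit 170) (nat_lit 5) (nat_lit 171) (nat_lit 5) (nat_lit 623) (nat_lit 534) (nat_lit 403)) (XT.lf (nat_lit 0) (nat_lit 6982266187) (nat_lit 456) (nat_lit 4295953292) (nat_lit 76) (nat_lit 3904375072) (nat_lit 165) (nat_lit 5) (nat_lit 171) (nat_lit 5) (nat_lit 166) (nat_lit 5) (nat_lit 624) (nat_lit 534) (nat_lit 402))) (XT.nd (nat_lit 78) (nat_lit 0) (nat_lit 0) (XT.lf (nat_lit 0) (nat_lit 5493376427) (nat_lit 380) (nat_lit 5589389663) (nat_lit 456) (nat_lit 4280103083) (nat_lit 160) (nat_lit 5) (nat_lit 165) (nat_lit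 5) (nat_lit 166) (nat_lit 5) (nat_lit 625) (nat_lit 534) (nat_lit 401)) (XT.lf (nat_lit 0) (nat_lit 15279986202) (nat_lit 456) (nat_lit 35680117) (nat_lit 76) (nat_lit 230789266) (nat_lit 160) (nat_lit 5) (nat_lit 166) (nat_lit 5) (nat_lit 161) (nat_lit 5) (nat_lit 626) (nat_lit 534) (nat_lit 400))))))) (XT.nd (nat_lit 1092) (nat_lit 2356) (nat_lit 0) (XT.nd (nat_lit 546) (nat_lit 1368) (nat_lit 0) (XT.nd (nat_lit 234) (nat_lit 1140) (nat_lit 0) (XT.nd (nat_lit 78) (nat_lit 304) (nat_lit 0) (XT.lf (nat_lit 0) (nat_lit 3864798157) (nat_lit 456) (nat_lit 5691769527) (nat_lit 76) (nat_lit 6174898348) (nat_lit 154) (nat_lit 5) (nat_lit 160) (nat_lit 5) (nat_lit 155) (nat_lit 5) (nat_lit 627) (nat_lit 534) (nat_lit 399)) (XT.nd (nat_lit 78) (nat_lit 0) (nat_lit 0) (XT.lf (nat_lit 0) (nat_lit 4428993704) (nat_lit 304) (nat_lit 3659788542) (nat_lit 380) (nat_lit 7831086502) (nat_lit 150) (nat_lit 5) (nat_lit 154) (nat_lit 5) (nat_lit 155) (nat_lit 5) (nat_lit 628)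 (nat_lit 534) (nat_lit 398)) (XT.lf (nat_lit 0) (nat_lit 12435729423) (nat_lit 380) (nat_lit 1321799663) (nat_lit 76) (nat_lit 2353741231) (nat_lit 150) (nat_lit 5) (nat_lit 155) (nat_lit 5) (nat_lit 151) (nat_lit 5) (nat_lit 629) (nat_lit 534) (nat_lit 397)))) (XT.nd (nat_lit 156) (nat_lit 380) (nat_lit 0) (XT.nd (nat_lit 78) (nat_lit 304) (nat_lit 0) (XT.lf (nat_lit 0) (nat_lit 624693138) (nat_lit 456) (nat_lit 7187010483) (nat_lit 76) (nat_lit 8493344361) (nat_lit 144) (nat_lit 5) (nat_lit 150) (nat_lit 5) (nat_lit 145) (nat_lit 5) (nat_lit 630) (nat_lit 534) (nat_lit 396)) (XT.lf (nat_lit 0) (nat_lit 3276768040) (nat_lit 304) (nat_lit 1700284008) (nat_lit 380) (nat_lit 11524856972) (nat_lit 140) (nat_lit 5) (nat_lit 144) (nat_lit 5) (nat_lit 145) (nat_lit 5) (nat_lit 631) (nat_lit 534) (nat_lit 395))) (XT.nd (nat_lit 78) (nat_lit 380) (nat_lit 0) (XT.lf (nat_lit 0) (nat_lit 9479606195) (nat_lit 380) (nat_lit 2708204832) (nat_lit 76) (nat_lit 4513633719)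 (nat_lit 140) (nat_lit 5) (nat_lit 145) (nat_lit 5) (nat_lit 141) (nat_lit 5) (nat_lit 632) (nat_lit 534) (nat_lit 394)) (XT.lf (nat_lit 0) (nat_lit 8090433965) (nat_lit 380) (nat_lit 6031023368) (nat_lit 456) (nat_lit 2782529357) (nat_lit 135) (nat_lit 5) (nat_lit 140) (nat_lit 5) (nat_lit 141) (nat_lit 5) (nat_lit 633) (nat_lit 534) (nat_lit 393))))) (XT.nd (nat_lit 234) (nat_lit 684) (nat_lit 0) (XT.nd (nat_lit 78) (nat_lit 304) (nat_lit 0) (XT.lf (nat_lit 0) (nat_lit 1741437547) (nat_lit 380) (nat_lit 15088757955) (nat_lit 76) (nat_lit 279782409) (nat_lit 130) (nat_lit 5) (nat_lit 135) (nat_lit 5) (nat_lit 131) (nat_lit 5) (nat_lit 634) (nat_lit 534) (nat_lit 392)) (XT.nd (nat_lit 78) (nat_lit 304) (nat_lit 0) (XT.lf (nat_lit 0) (nat_lit 6403705790) (nat_lit 380) (nat_lit 4209104312) (nat_lit 76) (nat_lit 6705209800) (nat_lit 130) (nat_lit 5) (nat_lit 135) (nat_lit 5) (nat_lit 131) (nat_lit 5) (nat_lit 635) (nat_lit 534) (nat_lit 391)) (XT.lf (nat_lit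 0) (nat_lit 6956240666) (nat_lit 304) (nat_lit 4233995643) (nat_lit 380) (nat_lit 6339366473) (nat_lit 126) (nat_lit 5) (nat_lit 130) (nat_lit 5) (nat_lit 131) (nat_lit 5) (nat_lit 636) (nat_lit 534) (nat_lit 390)))) (XT.nd (nat_lit 156) (nat_lit 304) (nat_lit 0) (XT.nd (nat_lit 78) (nat_lit 76) (nat_lit 0) (XT.lf (nat_lit 0) (nat_lit 627175747) (nat_lit 304) (nat_lit 15478502372) (nat_lit 380) (nat_lit 1639075969) (nat_lit 122) (nat_lit 5) (nat_lit 126) (nat_lit 5) (nat_lit 127) (nat_lit 5) (nat_lit 637) (nat_lit 534) (nat_lit 389)) (XT.lf (nat_lit 0) (nat_lit 3199257466) (nat_lit 380) (nat_lit 5839974475) (nat_lit 76) (nat_lit 8922858763) (nat_lit 121) (nat_lit 5) (nat_lit 126) (nat_lit 5) (nat_lit 122) (nat_lit 5) (nat_lit 638) (nat_lit 534) (nat_lit 388))) (XT.nd (nat_lit 78) (nat_lit 0) (nat_lit 0) (XT.lf (nat_lit 0) (nat_lit 5704357183) (nat_lit 304) (nat_lit 2431341504) (nat_lit 380) (nat_lit 10047393270) (nat_lit 117) (nat_lit 5) (nat_lit 121) (nat_lit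 5) (nat_lit 122) (nat_lit 5) (nat_lit 639) (nat_lit 534) (nat_lit 387)) (XT.lf (nat_lit 0) (nat_lit 13224588579) (nat_lit 380) (nat_lit 900074268) (nat_lit 76) (nat_lit 4282776345) (nat_lit 117) (nat_lit 5) (nat_lit 122) (nat_lit 5) (nat_lit 118) (nat_lit 5) (nat_lit 640) (nat_lit 534) (nat_lit 386)))))) (XT.nd (nat_lit 546) (nat_lit 912) (nat_lit 0) (XT.nd (nat_lit 234) (nat_lit 836) (nat_lit 0) (XT.nd (nat_lit 78) (nat_lit 380) (nat_lit 0) (XT.lf (nat_lit 0) (nat_lit 11016136292) (nat_lit 228) (nat_lit 7473310374) (nat_lit 304) (nat_lit 145343243) (nat_lit 114) (nat_lit 5) (nat_lit 117) (nat_lit 5) (nat_lit 118) (nat_lit 5) (nat_lit 641) (nat_lit 534) (nat_lit 385)) (XT.nd (nat_lit 78) (nat_lit 0) (nat_lit 0) (XT.lf (nat_lit 0) (nat_lit 4318048364) (nat_lit 304) (nat_lit 630093715) (nat_lit 380) (nat_lit 13917483330) (nat_lit 109) (nat_lit 5) (nat_lit 113) (nat_lit 5) (nat_lit 114) (nat_lit 5) (nat_lit 642) (nat_lit 534) (nat_lit 384)) (XT.lf (nat_lit 0)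 (nat_lit 10220899778) (nat_lit 380) (nat_lit 2568318663) (nat_lit 76) (nat_lit 6310253313) (nat_lit 109) (nat_lit 5) (nat_lit 114) (nat_lit 5) (nat_lit 110) (nat_lit 5) (nat_lit 643) (nat_lit 534) (nat_lit 383)))) (XT.nd (nat_lit 156) (nat_lit 228) (nat_lit 0) (XT.nd (nat_lit 78) (nat_lit 380) (nat_lit 0) (XT.lf (nat_lit 0) (nat_lit 9752203649) (nat_lit 228) (nat_lit 5901316144) (nat_lit 304) (nat_lit 3683387410) (nat_lit 106) (nat_lit 5) (nat_lit 109) (nat_lit 5) (nat_lit 110) (nat_lit 5) (nat_lit 644) (nat_lit 534) (nat_lit 382)) (XT.lf (nat_lit 0) (nat_lit 1624392399) (nat_lit 380) (nat_lit 16807013166) (nat_lit 76) (nat_lit 1146878662) (nat_lit 101) (nat_lit 5) (nat_lit 106) (nat_lit 5) (nat_lit 102) (nat_lit 5) (nat_lit 645) (nat_lit 534) (nat_lit 381))) (XT.nd (nat_lit 78) (nat_lit 228) (nat_lit 0) (XT.lf (nat_lit 0) (nat_lit 7079879165) (nat_lit 380) (nat_lit 4404949450) (nat_lit 76) (nat_lit 8337356097) (nat_lit 101) (nat_lit 5) (nat_lit 106) (nat_lit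 5) (nat_lit 102) (nat_lit 5) (nat_lit 646) (nat_lit 534) (nat_lit 380)) (XT.lf (nat_lit 0) (nat_lit 8332740373) (nat_lit 228) (nat_lit 4353091768) (nat_lit 304) (nat_lit 7384304230) (nat_lit 98) (nat_lit 5) (nat_lit 101) (nat_lit 5) (nat_lit 102) (nat_lit 5) (nat_lit 647) (nat_lit 534) (nat_lit 379))))) (XT.nd (nat_lit 312) (nat_lit 304) (nat_lit 0) (XT.nd (nat_lit 156) (nat_lit 228) (nat_lit 0) (XT.nd (nat_lit 78) (nat_lit 76) (nat_lit 0) (XT.lf (nat_lit 0) (nat_lit 1035098373) (nat_lit 304) (nat_lit 17411555329) (nat_lit 380) (nat_lit 1875538659) (nat_lit 94) (nat_lit 5) (nat_lit 98) (nat_lit 5) (nat_lit 99) (nat_lit 5) (nat_lit 648) (nat_lit 534) (nat_lit 378)) (XT.lf (nat_lit 0) (nat_lit 3789752737) (nat_lit 380) (nat_lit 6431001129) (nat_lit 76) (nat_lit 10356140872) (nat_lit 93) (nat_lit 5) (nat_lit 98) (nat_lit 5) (nat_lit 94) (nat_lit 5) (nat_lit 649) (nat_lit 534) (nat_lit 377))) (XT.nd (nat_lit 78) (nat_lit 0) (nat_lit 0) (XT.lf (nat_lit 0) (nat_lit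 6736795742) (nat_lit 228) (nat_lit 2837784141) (nat_lit 304) (nat_lit 11261236738) (nat_lit 90) (nat_lit 5) (nat_lit 93) (nat_lit 5) (nat_lit 94) (nat_lit 5) (nat_lit 650) (nat_lit 534) (nat_lit 376)) (XT.lf (nat_lit 0) (nat_lit 15536642044) (nat_lit 304) (nat_lit 896085889) (nat_lit 76) (nat_lit 4665958505) (nat_lit 90) (nat_lit 5) (nat_lit 94) (nat_lit 5) (nat_lit 91) (nat_lit 5) (nat_lit 651) (nat_lit 534) (nat_lit 375)))) (XT.nd (nat_lit 72150) (nat_lit 0) (nat_lit 45600) (XT.nd (nat_lit 72072) (nat_lit 0) (nat_lit 46588) (XT.lf (nat_lit 0) (nat_lit 337533740) (nat_lit 304) (nat_lit 8669585768) (nat_lit 76) (nat_lit 12357867879) (nat_lit 86) (nat_lit 5) (nat_lit 90) (nat_lit 5) (nat_lit 87) (nat_lit 5) (nat_lit 652) (nat_lit 534) (nat_lit 374)) (XT.lf (nat_lit 0) (nat_lit 2387014310) (nat_lit 988) (nat_lit 523945223) (nat_lit 988) (nat_lit 523945223) (nat_lit 699) (nat_lit 3) (nat_lit 712) (nat_lit 3) (nat_lit 712) (nat_lit 5) (nat_lit 535) (nat_lit 535)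 (nat_lit 490))) (XT.nd (nat_lit 78) (nat_lit 988) (nat_lit 0) (XT.lf (nat_lit 76) (nat_lit 2396106034) (nat_lit 0) (nat_lit 4395064536) (nat_lit 988) (nat_lit 107779617) (nat_lit 700) (nat_lit 5) (nat_lit 699) (nat_lit 3) (nat_lit 712) (nat_lit 5) (nat_lit 536) (nat_lit 535) (nat_lit 489)) (XT.lf (nat_lit 0) (nat_lit 1850112297) (nat_lit 988) (nat_lit 1045037966) (nat_lit 1064) (nat_lit 4034172223) (nat_lit 686) (nat_lit 5) (nat_lit 699) (nat_lit 3) (nat_lit 700) (nat_lit 5) (nat_lit 537) (nat_lit 535) (nat_lit 488))))))))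
noncomputable def xc103 : XT := (XT.nd (nat_lit 2262) (nat_lit 17176) (nat_lit 0) (XT.nd (nat_lit 1092) (nat_lit 10184) (nat_lit 0) (XT.nd (nat_lit 546) (nat_lit 1140) (nat_lit 0) (XT.nd (nat_lit 234) (nat_lit 1064) (nat_lit 0) (XT.nd (nat_lit 78) (nat_lit 988) (nat_lit 0) (XT.lf (nat_lit 76) (nat_lit 2487183928) (nat_lit 0) (nat_lit 1323932842) (nat_lit 1064) (nat_lit 3149867522) (nat_lit 687) (nat_lit 5) (nat_lit 686) (nat_lit 5) (nat_lit 700) (nat_lit 5) (nat_lit 538) (nat_lit 535) (nat_lit 487)) (XT.nd (nat_lit 78) (nat_lit 1064) (nat_lit 0) (XT.lf (nat_lit 0) (nat_lit 5770433756) (nat_lit 988) (nat_lit 918405326) (nat_lit 1064) (nat_lit 305262593) (nat_lit 687) (nat_lit 5) (nat_lit 700) (nat_lit 5) (nat_lit 701) (nat_lit 5) (nat_lit 539) (nat_lit 535) (nat_lit 486)) (XT.lf (nat_lit 0) (nat_lit 708731850) (nat_lit 1064) (nat_lit 4325239255) (nat_lit 1140) (nat_lit 1994270191) (nat_lit 673) (nat_lit 5) (nat_lit 687) (nat_lit 5) (nat_lit 688) (nat_lit 5)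 (nat_lit 540) (nat_lit 535) (nat_lit 485)))) (XT.nd (nat_lit 156) (nat_lit 1064) (nat_lit 0) (XT.nd (nat_lit 78) (nat_lit 0) (nat_lit 0) (XT.lf (nat_lit 0) (nat_lit 2621273688) (nat_lit 1064) (nat_lit 689350987) (nat_lit 1140) (nat_lit 3753123632) (nat_lit 673) (nat_lit 5) (nat_lit 687) (nat_lit 5) (nat_lit 688) (nat_lit 5) (nat_lit 541) (nat_lit 535) (nat_lit 484)) (XT.lf (nat_lit 76) (nat_lit 3032007879) (nat_lit 0) (nat_lit 1512352005) (nat_lit 1140) (nat_lit 2556163571) (nat_lit 674) (nat_lit 5) (nat_lit 673) (nat_lit 5) (nat_lit 688) (nat_lit 5) (nat_lit 542) (nat_lit 535) (nat_lit 483))) (XT.nd (nat_lit 78) (nat_lit 1140) (nat_lit 0) (XT.lf (nat_lit 0) (nat_lit 6466145563) (nat_lit 1064) (nat_lit 330823753) (nat_lit 1140) (nat_lit 341863826) (nat_lit 674) (nat_lit 5) (nat_lit 688) (nat_lit 5) (nat_lit 689) (nat_lit 5) (nat_lit 543) (nat_lit 535) (nat_lit 482)) (XT.lf (nat_lit 0) (nat_lit 1219073329) (nat_lit 1140) (nat_lit 3696165580) (nat_lit 1216)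 (nat_lit 2262771859) (nat_lit 659) (nat_lit 5) (nat_lit 674) (nat_lit 5) (nat_lit 675) (nat_lit 5) (nat_lit 544) (nat_lit 535) (nat_lit 481))))) (XT.nd (nat_lit 234) (nat_lit 1140) (nat_lit 0) (XT.nd (nat_lit 78) (nat_lit 0) (nat_lit 0) (XT.lf (nat_lit 76) (nat_lit 126740126) (nat_lit 0) (nat_lit 2970808121) (nat_lit 1216) (nat_lit 4121180624) (nat_lit 660) (nat_lit 5) (nat_lit 659) (nat_lit 5) (nat_lit 675) (nat_lit 5) (nat_lit 545) (nat_lit 535) (nat_lit 480)) (XT.nd (nat_lit 78) (nat_lit 0) (nat_lit 76) (XT.lf (nat_lit 76) (nat_lit 4048612317) (nat_lit 0) (nat_lit 945310357) (nat_lit 1216) (nat_lit 2266735564) (nat_lit 660) (nat_lit 5) (nat_lit 659) (nat_lit 5) (nat_lit 675) (nat_lit 5) (nat_lit 546) (nat_lit 535) (nat_lit 479)) (XT.lf (nat_lit 76) (nat_lit 719621445) (nat_lit 0) (nat_lit 6177057974) (nat_lit 1216) (nat_lit 407381112) (nat_lit 661) (nat_lit 5) (nat_lit 660) (nat_lit 5) (nat_lit 676) (nat_lit 5) (nat_lit 547) (nat_lit 535) (nat_lit 478))))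 (XT.nd (nat_lit 156) (nat_lit 0) (nat_lit 76) (XT.nd (nat_lit 78) (nat_lit 0) (nat_lit 0) (XT.lf (nat_lit 0) (nat_lit 1454478755) (nat_lit 1216) (nat_lit 2618936900) (nat_lit 1292) (nat_lit 3275028165) (nat_lit 644) (nat_lit 5) (nat_lit 660) (nat_lit 5) (nat_lit 661) (nat_lit 5) (nat_lit 548) (nat_lit 535) (nat_lit 477)) (XT.lf (nat_lit 76) (nat_lit 1413850033) (nat_lit 0) (nat_lit 1901192309) (nat_lit 1292) (nat_lit 4079283386) (nat_lit 645) (nat_lit 5) (nat_lit 644) (nat_lit 5) (nat_lit 661) (nat_lit 5) (nat_lit 549) (nat_lit 535) (nat_lit 476))) (XT.nd (nat_lit 78) (nat_lit 0) (nat_lit 0) (XT.lf (nat_lit 0) (nat_lit 5191025780) (nat_lit 1216) (nat_lit 1908751710) (nat_lit 1292) (nat_lit 341786786) (nat_lit 645) (nat_lit 5) (nat_lit 661) (nat_lit 5) (nat_lit 662) (nat_lit 5) (nat_lit 550) (nat_lit 535) (nat_lit 475)) (XT.lf (nat_lit 76) (nat_lit 2233051142) (nat_lit 0) (nat_lit 4857857029) (nat_lit 1292) (nat_lit 399114949) (nat_lit 646) (nat_lit 5) (nat_lit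 645) (nat_lit 5) (nat_lit 662) (nat_lit 5) (nat_lit 551) (nat_lit 535) (nat_lit 474)))))) (XT.nd (nat_lit 546) (nat_lit 6384) (nat_lit 0) (XT.nd (nat_lit 234) (nat_lit 2584) (nat_lit 0) (XT.nd (nat_lit 78) (nat_lit 0) (nat_lit 0) (XT.lf (nat_lit 0) (nat_lit 1442336636) (nat_lit 1292) (nat_lit 1093792491) (nat_lit 1368) (nat_lit 5003680959) (nat_lit 628) (nat_lit 5) (nat_lit 645) (nat_lit 5) (nat_lit 646) (nat_lit 5) (nat_lit 552) (nat_lit 535) (nat_lit 473)) (XT.nd (nat_lit 78) (nat_lit 0) (nat_lit 76) (XT.lf (nat_lit 76) (nat_lit 3163649649) (nat_lit 0) (nat_lit 132599291) (nat_lit 1368) (nat_lit 4294674503) (nat_lit 629) (nat_lit 5) (nat_lit 628) (nat_lit 5) (nat_lit 646) (nat_lit 5) (nat_lit 553) (nat_lit 535) (nat_lit 472)) (XT.lf (nat_lit 0) (nat_lit 5170784506) (nat_lit 1292) (nat_lit 165472252) (nat_lit 1368) (nat_lit 2307134282) (nat_lit 629) (nat_lit 5) (nat_lit 646) (nat_lit 5) (nat_lit 647) (nat_lit 5) (nat_lit 554) (nat_lit 535) (nat_lit 471))))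 (XT.nd (nat_lit 156) (nat_lit 1292) (nat_lit 0) (XT.nd (nat_lit 78) (nat_lit 1368) (nat_lit 0) (XT.lf (nat_lit 76) (nat_lit 4207911798) (nat_lit 0) (nat_lit 2864960414) (nat_lit 1368) (nat_lit 624237367) (nat_lit 630) (nat_lit 5) (nat_lit 629) (nat_lit 5) (nat_lit 647) (nat_lit 5) (nat_lit 555) (nat_lit 535) (nat_lit 470)) (XT.lf (nat_lit 76) (nat_lit 894376663) (nat_lit 0) (nat_lit 319286254) (nat_lit 1444) (nat_lit 6538696457) (nat_lit 612) (nat_lit 5) (nat_lit 611) (nat_lit 5) (nat_lit 630) (nat_lit 5) (nat_lit 556) (nat_lit 535) (nat_lit 469))) (XT.nd (nat_lit 78) (nat_lit 1368) (nat_lit 0) (XT.lf (nat_lit 0) (nat_lit 3081122945) (nat_lit 1368) (nat_lit 2443306707) (nat_lit 76) (nat_lit 2284181438) (nat_lit 612) (nat_lit 5) (nat_lit 630) (nat_lit 5) (nat_lit 613) (nat_lit 5) (nat_lit 557) (nat_lit 535) (nat_lit 468)) (XT.lf (nat_lit 0) (nat_lit 2056176655) (nat_lit 1368) (nat_lit 2908746817) (nat_lit 1444) (nat_lit 2901487145) (nat_lit 594) (nat_lit 5)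 (nat_lit 612) (nat_lit 5) (nat_lit 613) (nat_lit 5) (nat_lit 558) (nat_lit 535) (nat_lit 467))))) (XT.nd (nat_lit 312) (nat_lit 3344) (nat_lit 0) (XT.nd (nat_lit 156) (nat_lit 1520) (nat_lit 0) (XT.nd (nat_lit 78) (nat_lit 1520) (nat_lit 0) (XT.lf (nat_lit 0) (nat_lit 6650616979) (nat_lit 1368) (nat_lit 216238041) (nat_lit 1444) (nat_lit 1058904566) (nat_lit 594) (nat_lit 5) (nat_lit 612) (nat_lit 5) (nat_lit 613) (nat_lit 5) (nat_lit 559) (nat_lit 535) (nat_lit 466)) (XT.lf (nat_lit 0) (nat_lit 812775379) (nat_lit 1520) (nat_lit 4641786039) (nat_lit 76) (nat_lit 2531569879) (nat_lit 574) (nat_lit 5) (nat_lit 594) (nat_lit 5) (nat_lit 575) (nat_lit 5) (nat_lit 560) (nat_lit 535) (nat_lit 465))) (XT.nd (nat_lit 78) (nat_lit 1520) (nat_lit 0) (XT.lf (nat_lit 0) (nat_lit 2682857411) (nat_lit 1520) (nat_lit 11169817) (nat_lit 76) (nat_lit 5354042687) (nat_lit 574) (nat_lit 5) (nat_lit 594) (nat_lit 5) (nat_lit 575) (nat_lit 5) (nat_lit 561) (nat_lit 535) (nat_lit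 464)) (XT.lf (nat_lit 0) (nat_lit 4587963973) (nat_lit 1596) (nat_lit 3366121238) (nat_lit 76) (nat_lit 157211995) (nat_lit 554) (nat_lit 5) (nat_lit 575) (nat_lit 5) (nat_lit 555) (nat_lit 5) (nat_lit 562) (nat_lit 535) (nat_lit 463)))) (XT.nd (nat_lit 156) (nat_lit 1672) (nat_lit 0) (XT.nd (nat_lit 78) (nat_lit 76) (nat_lit 0) (XT.lf (nat_lit 0) (nat_lit 1392832285) (nat_lit 1596) (nat_lit 5131601177) (nat_lit 1672) (nat_lit 1651492676) (nat_lit 533) (nat_lit 5) (nat_lit 554) (nat_lit 5) (nat_lit 555) (nat_lit 5) (nat_lit 563) (nat_lit 535) (nat_lit 462)) (XT.lf (nat_lit 0) (nat_lit 243696756) (nat_lit 1672) (nat_lit 1979489897) (nat_lit 76) (nat_lit 6018843884) (nat_lit 532) (nat_lit 5) (nat_lit 554) (nat_lit 5) (nat_lit 533) (nat_lit 5) (nat_lit 564) (nat_lit 535) (nat_lit 461))) (XT.nd (nat_lit 78) (nat_lit 0) (nat_lit 0) (XT.lf (nat_lit 0) (nat_lit 2145915220) (nat_lit 1748) (nat_lit 5395333774) (nat_lit 76) (nat_lit 768167106) (nat_lit 510) (nat_lit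 5) (nat_lit 533) (nat_lit 5) (nat_lit 511) (nat_lit 5) (nat_lit 565) (nat_lit 535) (nat_lit 460)) (XT.lf (nat_lit 0) (nat_lit 4081971020) (nat_lit 1748) (nat_lit 489124471) (nat_lit 76) (nat_lit 3807140159) (nat_lit 510) (nat_lit 5) (nat_lit 533) (nat_lit 5) (nat_lit 511) (nat_lit 5) (nat_lit 566) (nat_lit 535) (nat_lit 459))))))) (XT.nd (nat_lit 1170) (nat_lit 6384) (nat_lit 0) (XT.nd (nat_lit 546) (nat_lit 4180) (nat_lit 0) (XT.nd (nat_lit 234) (nat_lit 2964) (nat_lit 0) (XT.nd (nat_lit 78) (nat_lit 1900) (nat_lit 0) (XT.lf (nat_lit 0) (nat_lit 4546614959) (nat_lit 1748) (nat_lit 1507984468) (nat_lit 1824) (nat_lit 2393877229) (nat_lit 487) (nat_lit 5) (nat_lit 510) (nat_lit 5) (nat_lit 511) (nat_lit 5) (nat_lit 567) (nat_lit 535) (nat_lit 458)) (XT.nd (nat_lit 78) (nat_lit 76) (nat_lit 0) (XT.lf (nat_lit 0) (nat_lit 1145463703) (nat_lit 1824) (nat_lit 6911243969) (nat_lit 1900) (nat_lit 463616316) (nat_lit 463) (nat_lit 5) (nat_lit 487) (nat_lit 5) (nat_lit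 488) (nat_lit 5) (nat_lit 568) (nat_lit 535) (nat_lit 457)) (XT.lf (nat_lit 0) (nat_lit 1490864338) (nat_lit 1900) (nat_lit 2295301821) (nat_lit 76) (nat_lit 4807141495) (nat_lit 462) (nat_lit 5) (nat_lit 487) (nat_lit 5) (nat_lit 463) (nat_lit 5) (nat_lit 569) (nat_lit 535) (nat_lit 456)))) (XT.nd (nat_lit 156) (nat_lit 1900) (nat_lit 0) (XT.nd (nat_lit 78) (nat_lit 0) (nat_lit 0) (XT.lf (nat_lit 0) (nat_lit 2892367835) (nat_lit 1064) (nat_lit 574264067) (nat_lit 1140) (nat_lit 5201291636) (nat_lit 448) (nat_lit 5) (nat_lit 462) (nat_lit 5) (nat_lit 463) (nat_lit 5) (nat_lit 570) (nat_lit 535) (nat_lit 455)) (XT.lf (nat_lit 0) (nat_lit 5485006641) (nat_lit 1140) (nat_lit 575233865) (nat_lit 76) (nat_lit 2683731291) (nat_lit 448) (nat_lit 5) (nat_lit 463) (nat_lit 5) (nat_lit 449) (nat_lit 5) (nat_lit 571) (nat_lit 535) (nat_lit 454))) (XT.nd (nat_lit 78) (nat_lit 988) (nat_lit 0) (XT.lf (nat_lit 0) (nat_lit 4759507138) (nat_lit 912) (nat_lit 2789578808) (nat_lit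 988) (nat_lit 1272350194) (nat_lit 436) (nat_lit 5) (nat_lit 448) (nat_lit 5) (nat_lit 449) (nat_lit 5) (nat_lit 572) (nat_lit 535) (nat_lit 453)) (XT.lf (nat_lit 0) (nat_lit 730881544) (nat_lit 988) (nat_lit 7612376795) (nat_lit 76) (nat_lit 557359841) (nat_lit 423) (nat_lit 5) (nat_lit 436) (nat_lit 5) (nat_lit 424) (nat_lit 5) (nat_lit 573) (nat_lit 535) (nat_lit 452))))) (XT.nd (nat_lit 312) (nat_lit 2508) (nat_lit 0) (XT.nd (nat_lit 156) (nat_lit 836) (nat_lit 0) (XT.nd (nat_lit 78) (nat_lit 836) (nat_lit 0) (XT.lf (nat_lit 0) (nat_lit 2774293941) (nat_lit 988) (nat_lit 2236247585) (nat_lit 76) (nat_lit 3970332828) (nat_lit 423) (nat_lit 5) (nat_lit 436) (nat_lit 5) (nat_lit 424) (nat_lit 5) (nat_lit 574) (nat_lit 535) (nat_lit 451)) (XT.lf (nat_lit 0) (nat_lit 3261946132) (nat_lit 836) (nat_lit 1589596033) (nat_lit 912) (nat_lit 4211335852) (nat_lit 412) (nat_lit 5) (nat_lit 423) (nat_lit 5) (nat_lit 424) (nat_lit 5) (nat_lit 575) (nat_lit 535) (nat_lit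 450))) (XT.nd (nat_lit 78) (nat_lit 836) (nat_lit 0) (XT.lf (nat_lit 0) (nat_lit 6969934185) (nat_lit 912) (nat_lit 286849318) (nat_lit 76) (nat_lit 1889747957) (nat_lit 412) (nat_lit 5) (nat_lit 424) (nat_lit 5) (nat_lit 413) (nat_lit 5) (nat_lit 576) (nat_lit 535) (nat_lit 449)) (XT.lf (nat_lit 0) (nat_lit 5369358459) (nat_lit 836) (nat_lit 3779428557) (nat_lit 912) (nat_lit 82710747) (nat_lit 401) (nat_lit 5) (nat_lit 412) (nat_lit 5) (nat_lit 413) (nat_lit 5) (nat_lit 577) (nat_lit 535) (nat_lit 448)))) (XT.nd (nat_lit 156) (nat_lit 1596) (nat_lit 0) (XT.nd (nat_lit 78) (nat_lit 0) (nat_lit 0) (XT.lf (nat_lit 0) (nat_lit 1806577981) (nat_lit 836) (nat_lit 206095206) (nat_lit 912) (nat_lit 7305494280) (nat_lit 389) (nat_lit 5) (nat_lit 400) (nat_lit 5) (nat_lit 401) (nat_lit 5) (nat_lit 578) (nat_lit 535) (nat_lit 447)) (XT.lf (nat_lit 0) (nat_lit 4170493482) (nat_lit 912) (nat_lit 1816645976) (nat_lit 76) (nat_lit 3418989004) (nat_lit 389) (nat_lit 5)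 (nat_lit 401) (nat_lit 5) (nat_lit 390) (nat_lit 5) (nat_lit 579) (nat_lit 535) (nat_lit 446))) (XT.nd (nat_lit 78) (nat_lit 760) (nat_lit 0) (XT.lf (nat_lit 0) (nat_lit 4015485609) (nat_lit 836) (nat_lit 2357165901) (nat_lit 912) (nat_lit 3123175065) (nat_lit 378) (nat_lit 5) (nat_lit 389) (nat_lit 5) (nat_lit 390) (nat_lit 5) (nat_lit 580) (nat_lit 535) (nat_lit 445)) (XT.lf (nat_lit 0) (nat_lit 369507241) (nat_lit 760) (nat_lit 8246818235) (nat_lit 836) (nat_lit 971045214) (nat_lit 368) (nat_lit 5) (nat_lit 378) (nat_lit 5) (nat_lit 379) (nat_lit 5) (nat_lit 581) (nat_lit 535) (nat_lit 444)))))) (XT.nd (nat_lit 546) (nat_lit 3344) (nat_lit 0) (XT.nd (nat_lit 234) (nat_lit 2204) (nat_lit 0) (XT.nd (nat_lit 78) (nat_lit 760) (nat_lit 0) (XT.lf (nat_lit 0) (nat_lit 1234924220) (nat_lit 836) (nat_lit 3321662680) (nat_lit 76) (nat_lit 5123464235) (nat_lit 367) (nat_lit 5) (nat_lit 378) (nat_lit 5) (nat_lit 368) (nat_lit 5) (nat_lit 582) (nat_lit 535) (nat_lit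 443)) (XT.nd (nat_lit 78) (nat_lit 0) (nat_lit 0) (XT.lf (nat_lit 0) (nat_lit 2693424101) (nat_lit 760) (nat_lit 770813498) (nat_lit 836) (nat_lit 6310376090) (nat_lit 357) (nat_lit 5) (nat_lit 367) (nat_lit 5) (nat_lit 368) (nat_lit 5) (nat_lit 583) (nat_lit 535) (nat_lit 442)) (XT.lf (nat_lit 0) (nat_lit 5755666148) (nat_lit 836) (nat_lit 1045228022) (nat_lit 76) (nat_lit 3069824127) (nat_lit 357) (nat_lit 5) (nat_lit 368) (nat_lit 5) (nat_lit 358) (nat_lit 5) (nat_lit 584) (nat_lit 535) (nat_lit 441)))) (XT.nd (nat_lit 156) (nat_lit 684) (nat_lit 0) (XT.nd (nat_lit 78) (nat_lit 836) (nat_lit 0) (XT.lf (nat_lit 0) (nat_lit 5146163827) (nat_lit 684) (nat_lit 2960790656) (nat_lit 760) (nat_lit 1861511243) (nat_lit 348) (nat_lit 5) (nat_lit 357) (nat_lit 5) (nat_lit 358) (nat_lit 5) (nat_lit 585) (nat_lit 535) (nat_lit 440)) (XT.lf (nat_lit 0) (nat_lit 429451359) (nat_lit 836) (nat_lit 8679470909) (nat_lit 76) (nat_lit 959228709) (nat_lit 337) (nat_lit 5) (nat_lit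 348) (nat_lit 5) (nat_lit 338) (nat_lit 5) (nat_lit 586) (nat_lit 535) (nat_lit 439))) (XT.nd (nat_lit 78) (nat_lit 684) (nat_lit 0) (XT.lf (nat_lit 0) (nat_lit 2769442191) (nat_lit 836) (nat_lit 2440179309) (nat_lit 76) (nat_lit 4959400925) (nat_lit 337) (nat_lit 5) (nat_lit 348) (nat_lit 5) (nat_lit 338) (nat_lit 5) (nat_lit 587) (nat_lit 535) (nat_lit 438)) (XT.lf (nat_lit 0) (nat_lit 3948133756) (nat_lit 684) (nat_lit 1210133905) (nat_lit 760) (nat_lit 5113604195) (nat_lit 328) (nat_lit 5) (nat_lit 337) (nat_lit 5) (nat_lit 338) (nat_lit 5) (nat_lit 588) (nat_lit 535) (nat_lit 437))))) (XT.nd (nat_lit 312) (nat_lit 1976) (nat_lit 0) (XT.nd (nat_lit 156) (nat_lit 684) (nat_lit 0) (XT.nd (nat_lit 78) (nat_lit 0) (nat_lit 0) (XT.lf (nat_lit 0) (nat_lit 75283967) (nat_lit 684) (nat_lit 7531847168) (nat_lit 760) (nat_lit 2769403137) (nat_lit 319) (nat_lit 5) (nat_lit 328) (nat_lit 5) (nat_lit 329) (nat_lit 5) (nat_lit 589) (nat_lit 535) (nat_lit 436)) (XT.lf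 (nat_lit 0) (nat_lit 6652263854) (nat_lit 684) (nat_lit 3480043048) (nat_lit 760) (nat_lit 350437537) (nat_lit 319) (nat_lit 5) (nat_lit 328) (nat_lit 5) (nat_lit 329) (nat_lit 5) (nat_lit 590) (nat_lit 535) (nat_lit 435))) (XT.nd (nat_lit 78) (nat_lit 0) (nat_lit 0) (XT.lf (nat_lit 0) (nat_lit 2088752493) (nat_lit 684) (nat_lit 7830481994) (nat_lit 76) (nat_lit 671578415) (nat_lit 310) (nat_lit 5) (nat_lit 319) (nat_lit 5) (nat_lit 311) (nat_lit 5) (nat_lit 591) (nat_lit 535) (nat_lit 434)) (XT.lf (nat_lit 0) (nat_lit 4598438132) (nat_lit 684) (nat_lit 1218808636) (nat_lit 76) (nat_lit 4883222689) (nat_lit 310) (nat_lit 5) (nat_lit 319) (nat_lit 5) (nat_lit 311) (nat_lit 5) (nat_lit 592) (nat_lit 535) (nat_lit 433)))) (XT.nd (nat_lit 156) (nat_lit 684) (nat_lit 0) (XT.nd (nat_lit 78) (nat_lit 608) (nat_lit 0) (XT.lf (nat_lit 0) (nat_lit 5571081427) (nat_lit 684) (nat_lit 1601327180) (nat_lit 760) (nat_lit 3639629825) (nat_lit 301) (nat_lit 5) (nat_lit 310)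 (nat_lit 5) (nat_lit 311) (nat_lit 5) (nat_lit 593) (nat_lit 535) (nat_lit 432)) (XT.lf (nat_lit 0) (nat_lit 1563231281) (nat_lit 608) (nat_lit 8248678106) (nat_lit 684) (nat_lit 1113649470) (nat_lit 293) (nat_lit 5) (nat_lit 301) (nat_lit 5) (nat_lit 302) (nat_lit 5) (nat_lit 594) (nat_lit 535) (nat_lit 431))) (XT.nd (nat_lit 78) (nat_lit 608) (nat_lit 0) (XT.lf (nat_lit 0) (nat_lit 1467925748) (nat_lit 684) (nat_lit 2513855168) (nat_lit 76) (nat_lit 7058894649) (nat_lit 292) (nat_lit 5) (nat_lit 301) (nat_lit 5) (nat_lit 293) (nat_lit 5) (nat_lit 595) (nat_lit 535) (nat_lit 430)) (XT.lf (nat_lit 0) (nat_lit 4096718804) (nat_lit 684) (nat_lit 6664102267) (nat_lit 76) (nat_lit 396917378) (nat_lit 284) (nat_lit 5) (nat_lit 293) (nat_lit 5) (nat_lit 285) (nat_lit 5) (nat_lit 596) (nat_lit 535) (nat_lit 429))))))))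
noncomputable def xc104 : XT := (XT.nd (nat_lit 2262) (nat_lit 6232) (nat_lit 0) (XT.nd (nat_lit 1092) (nat_lit 4028) (nat_lit 0) (XT.nd (nat_lit 546) (nat_lit 2584) (nat_lit 0) (XT.nd (nat_lit 234) (nat_lit 1140) (nat_lit 0) (XT.nd (nat_lit 78) (nat_lit 684) (nat_lit 0) (XT.lf (nat_lit 0) (nat_lit 349560838) (nat_lit 608) (nat_lit 6453034887) (nat_lit 684) (nat_lit 4474057709) (nat_lit 276) (nat_lit 5) (nat_lit 284) (nat_lit 5) (nat_lit 285) (nat_lit 5) (nat_lit 597) (nat_lit 535) (nat_lit 428)) (XT.nd (nat_lit 78) (nat_lit 684) (nat_lit 0) (XT.lf (nat_lit 0) (nat_lit 7566918382) (nat_lit 608) (nat_lit 2019518672) (nat_lit 684) (nat_lit 1811033715) (nat_lit 276) (nat_lit 5) (nat_lit 284) (nat_lit 5) (nat_lit 285) (nat_lit 5) (nat_lit 598) (nat_lit 535) (nat_lit 427)) (XT.lf (nat_lit 0) (nat_lit 911380343) (nat_lit 684) (nat_lit 8116712661) (nat_lit 76) (nat_lit 2492134804) (nat_lit 267) (nat_lit 5) (nat_lit 276) (nat_lit 5) (nat_lit 268) (nat_lit 5) (nat_lit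 599) (nat_lit 535) (nat_lit 426)))) (XT.nd (nat_lit 156) (nat_lit 608) (nat_lit 0) (XT.nd (nat_lit 78) (nat_lit 532) (nat_lit 0) (XT.lf (nat_lit 0) (nat_lit 3682857448) (nat_lit 684) (nat_lit 863128523) (nat_lit 76) (nat_lit 7098838236) (nat_lit 267) (nat_lit 5) (nat_lit 276) (nat_lit 5) (nat_lit 268) (nat_lit 5) (nat_lit 600) (nat_lit 535) (nat_lit 425)) (XT.lf (nat_lit 0) (nat_lit 6532990074) (nat_lit 608) (nat_lit 5176161981) (nat_lit 76) (nat_lit 62296870) (nat_lit 260) (nat_lit 5) (nat_lit 268) (nat_lit 5) (nat_lit 261) (nat_lit 5) (nat_lit 601) (nat_lit 535) (nat_lit 424))) (XT.nd (nat_lit 78) (nat_lit 76) (nat_lit 0) (XT.lf (nat_lit 0) (nat_lit 2287427946) (nat_lit 532) (nat_lit 7183658776) (nat_lit 608) (nat_lit 2428901084) (nat_lit 253) (nat_lit 5) (nat_lit 260) (nat_lit 5) (nat_lit 261) (nat_lit 5) (nat_lit 602) (nat_lit 535) (nat_lit 423)) (XT.lf (nat_lit 0) (nat_lit 446343955) (nat_lit 608) (nat_lit 2089612199) (nat_lit 76) (nat_lit 9494780932)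 (nat_lit 252) (nat_lit 5) (nat_lit 260) (nat_lit 5) (nat_lit 253) (nat_lit 5) (nat_lit 603) (nat_lit 535) (nat_lit 422))))) (XT.nd (nat_lit 234) (nat_lit 1520) (nat_lit 0) (XT.nd (nat_lit 78) (nat_lit 532) (nat_lit 0) (XT.lf (nat_lit 0) (nat_lit 3378325821) (nat_lit 608) (nat_lit 6562778191) (nat_lit 76) (nat_lit 2222041983) (nat_lit 245) (nat_lit 5) (nat_lit 253) (nat_lit 5) (nat_lit 246) (nat_lit 5) (nat_lit 604) (nat_lit 535) (nat_lit 421)) (XT.nd (nat_lit 78) (nat_lit 0) (nat_lit 0) (XT.lf (nat_lit 0) (nat_lit 1146455024) (nat_lit 532) (nat_lit 5241660579) (nat_lit 608) (nat_lit 5909704940) (nat_lit 238) (nat_lit 5) (nat_lit 245) (nat_lit 5) (nat_lit 246) (nat_lit 5) (nat_lit 605) (nat_lit 535) (nat_lit 420)) (XT.lf (nat_lit 0) (nat_lit 9072762064) (nat_lit 532) (nat_lit 410400776) (nat_lit 608) (nat_lit 2951525317) (nat_lit 238) (nat_lit 5) (nat_lit 245) (nat_lit 5) (nat_lit 246) (nat_lit 5) (nat_lit 606) (nat_lit 535) (nat_lit 419)))) (XT.nd (nat_lit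 156) (nat_lit 988) (nat_lit 0) (XT.nd (nat_lit 78) (nat_lit 0) (nat_lit 0) (XT.lf (nat_lit 0) (nat_lit 105691374) (nat_lit 532) (nat_lit 7985919988) (nat_lit 76) (nat_lit 4481859259) (nat_lit 231) (nat_lit 5) (nat_lit 238) (nat_lit 5) (nat_lit 232) (nat_lit 5) (nat_lit 607) (nat_lit 535) (nat_lit 418)) (XT.lf (nat_lit 0) (nat_lit 3191420703) (nat_lit 532) (nat_lit 21367553) (nat_lit 76) (nat_lit 9501713264) (nat_lit 231) (nat_lit 5) (nat_lit 238) (nat_lit 5) (nat_lit 232) (nat_lit 5) (nat_lit 608) (nat_lit 535) (nat_lit 417))) (XT.nd (nat_lit 78) (nat_lit 456) (nat_lit 0) (XT.lf (nat_lit 0) (nat_lit 6385547235) (nat_lit 608) (nat_lit 4685051153) (nat_lit 76) (nat_lit 1786821745) (nat_lit 224) (nat_lit 5) (nat_lit 232) (nat_lit 5) (nat_lit 225) (nat_lit 5) (nat_lit 609) (nat_lit 535) (nat_lit 416)) (XT.lf (nat_lit 0) (nat_lit 3526445710) (nat_lit 456) (nat_lit 6143362300) (nat_lit 532) (nat_lit 3332864807) (nat_lit 218) (nat_lit 5) (nat_lit 224) (nat_lit 5)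 (nat_lit 225) (nat_lit 5) (nat_lit 610) (nat_lit 535) (nat_lit 415)))))) (XT.nd (nat_lit 546) (nat_lit 2128) (nat_lit 0) (XT.nd (nat_lit 234) (nat_lit 912) (nat_lit 0) (XT.nd (nat_lit 78) (nat_lit 988) (nat_lit 0) (XT.lf (nat_lit 0) (nat_lit 11940245846) (nat_lit 456) (nat_lit 1093071015) (nat_lit 532) (nat_lit 117243155) (nat_lit 218) (nat_lit 5) (nat_lit 224) (nat_lit 5) (nat_lit 225) (nat_lit 5) (nat_lit 611) (nat_lit 535) (nat_lit 414)) (XT.nd (nat_lit 78) (nat_lit 456) (nat_lit 0) (XT.lf (nat_lit 0) (nat_lit 3177522896) (nat_lit 532) (nat_lit 6056584818) (nat_lit 76) (nat_lit 4065761025) (nat_lit 211) (nat_lit 5) (nat_lit 218) (nat_lit 5) (nat_lit 212) (nat_lit 5) (nat_lit 612) (nat_lit 535) (nat_lit 413)) (XT.lf (nat_lit 0) (nat_lit 2428838961) (nat_lit 456) (nat_lit 4121453085) (nat_lit 532) (nat_lit 6901583214) (nat_lit 205) (nat_lit 5) (nat_lit 211) (nat_lit 5) (nat_lit 212) (nat_lit 5) (nat_lit 613) (nat_lit 535) (nat_lit 412)))) (XT.nd (nat_lit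 156) (nat_lit 456) (nat_lit 0) (XT.nd (nat_lit 78) (nat_lit 456) (nat_lit 0) (XT.lf (nat_lit 0) (nat_lit 10021149452) (nat_lit 532) (nat_lit 2472843340) (nat_lit 76) (nat_lit 1112317128) (nat_lit 205) (nat_lit 5) (nat_lit 212) (nat_lit 5) (nat_lit 206) (nat_lit 5) (nat_lit 614) (nat_lit 535) (nat_lit 411)) (XT.lf (nat_lit 0) (nat_lit 6278465515) (nat_lit 456) (nat_lit 7333979008) (nat_lit 532) (nat_lit 150368989) (nat_lit 199) (nat_lit 5) (nat_lit 205) (nat_lit 5) (nat_lit 206) (nat_lit 5) (nat_lit 615) (nat_lit 535) (nat_lit 410))) (XT.nd (nat_lit 78) (nat_lit 0) (nat_lit 0) (XT.lf (nat_lit 0) (nat_lit 1286194446) (nat_lit 380) (nat_lit 2031025008) (nat_lit 456) (nat_lit 10604631376) (nat_lit 193) (nat_lit 5) (nat_lit 198) (nat_lit 5) (nat_lit 199) (nat_lit 5) (nat_lit 616) (nat_lit 535) (nat_lit 409)) (XT.lf (nat_lit 0) (nat_lit 6907779363) (nat_lit 456) (nat_lit 3797844020) (nat_lit 76) (nat_lit 3377313585) (nat_lit 193) (nat_lit 5) (nat_lit 199) (nat_lit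 5) (nat_lit 194) (nat_lit 5) (nat_lit 617) (nat_lit 535) (nat_lit 408))))) (XT.nd (nat_lit 312) (nat_lit 836) (nat_lit 0) (XT.nd (nat_lit 156) (nat_lit 456) (nat_lit 0) (XT.nd (nat_lit 78) (nat_lit 380) (nat_lit 0) (XT.lf (nat_lit 0) (nat_lit 5247469047) (nat_lit 456) (nat_lit 5353675097) (nat_lit 532) (nat_lit 3645481411) (nat_lit 187) (nat_lit 5) (nat_lit 193) (nat_lit 5) (nat_lit 194) (nat_lit 5) (nat_lit 618) (nat_lit 535) (nat_lit 407)) (XT.lf (nat_lit 0) (nat_lit 87648190) (nat_lit 380) (nat_lit 14291220904) (nat_lit 456) (nat_lit 34509553) (nat_lit 182) (nat_lit 5) (nat_lit 187) (nat_lit 5) (nat_lit 188) (nat_lit 5) (nat_lit 619) (nat_lit 535) (nat_lit 406))) (XT.nd (nat_lit 78) (nat_lit 380) (nat_lit 0) (XT.lf (nat_lit 0) (nat_lit 3680712246) (nat_lit 456) (nat_lit 5188423461) (nat_lit 76) (nat_lit 5712260194) (nat_lit 181) (nat_lit 5) (nat_lit 187) (nat_lit 5) (nat_lit 182) (nat_lit 5) (nat_lit 620) (nat_lit 535) (nat_lit 405)) (XT.lf (nat_lit 0)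 (nat_lit 4161673438) (nat_lit 380) (nat_lit 3319084338) (nat_lit 456) (nat_lit 7271792089) (nat_lit 176) (nat_lit 5) (nat_lit 181) (nat_lit 5) (nat_lit 182) (nat_lit 5) (nat_lit 621) (nat_lit 535) (nat_lit 404)))) (XT.nd (nat_lit 156) (nat_lit 380) (nat_lit 0) (XT.nd (nat_lit 78) (nat_lit 456) (nat_lit 0) (XT.lf (nat_lit 0) (nat_lit 11391122091) (nat_lit 456) (nat_lit 1197177401) (nat_lit 76) (nat_lit 2338141604) (nat_lit 176) (nat_lit 5) (nat_lit 182) (nat_lit 5) (nat_lit 177) (nat_lit 5) (nat_lit 622) (nat_lit 535) (nat_lit 403)) (XT.lf (nat_lit 0) (nat_lit 333886361) (nat_lit 456) (nat_lit 6655488731) (nat_lit 76) (nat_lit 8113167338) (nat_lit 170) (nat_lit 5) (nat_lit 176) (nat_lit 5) (nat_lit 171) (nat_lit 5) (nat_lit 623) (nat_lit 535) (nat_lit 402))) (XT.nd (nat_lit 78) (nat_lit 0) (nat_lit 0) (XT.lf (nat_lit 0) (nat_lit 3010424009) (nat_lit 380) (nat_lit 1234816791) (nat_lit 456) (nat_lit 11036216077) (nat_lit 165) (nat_lit 5) (nat_lit 170) (nat_lit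 5) (nat_lit 171) (nat_lit 5) (nat_lit 624) (nat_lit 535) (nat_lit 401)) (XT.lf (nat_lit 0) (nat_lit 8294394524) (nat_lit 456) (nat_lit 2557653956) (nat_lit 76) (nat_lit 4610710191) (nat_lit 165) (nat_lit 5) (nat_lit 171) (nat_lit 5) (nat_lit 166) (nat_lit 5) (nat_lit 625) (nat_lit 535) (nat_lit 400))))))) (XT.nd (nat_lit 1092) (nat_lit 2888) (nat_lit 0) (XT.nd (nat_lit 546) (nat_lit 1444) (nat_lit 0) (XT.nd (nat_lit 234) (nat_lit 1064) (nat_lit 0) (XT.nd (nat_lit 78) (nat_lit 456) (nat_lit 0) (XT.lf (nat_lit 0) (nat_lit 7415460921) (nat_lit 380) (nat_lit 5050219755) (nat_lit 456) (nat_lit 3181183330) (nat_lit 160) (nat_lit 5) (nat_lit 165) (nat_lit 5) (nat_lit 166) (nat_lit 5) (nat_lit 626) (nat_lit 535) (nat_lit 399)) (XT.nd (nat_lit 78) (nat_lit 0) (nat_lit 0) (XT.lf (nat_lit 0) (nat_lit 893650919) (nat_lit 456) (nat_lit 14057815271) (nat_lit 76) (nat_lit 882680187) (nat_lit 154) (nat_lit 5) (nat_lit 160) (nat_lit 5) (nat_lit 155) (nat_lit 5) (nat_lit 627)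 (nat_lit 535) (nat_lit 398)) (XT.lf (nat_lit 0) (nat_lit 5081433356) (nat_lit 456) (nat_lit 4006893833) (nat_lit 76) (nat_lit 6934946169) (nat_lit 154) (nat_lit 5) (nat_lit 160) (nat_lit 5) (nat_lit 155) (nat_lit 5) (nat_lit 628) (nat_lit 535) (nat_lit 397)))) (XT.nd (nat_lit 156) (nat_lit 380) (nat_lit 0) (XT.nd (nat_lit 78) (nat_lit 380) (nat_lit 0) (XT.lf (nat_lit 0) (nat_lit 6304451037) (nat_lit 304) (nat_lit 3074707698) (nat_lit 380) (nat_lit 6836500852) (nat_lit 150) (nat_lit 5) (nat_lit 154) (nat_lit 5) (nat_lit 155) (nat_lit 5) (nat_lit 629) (nat_lit 535) (nat_lit 396)) (XT.lf (nat_lit 0) (nat_lit 427180646) (nat_lit 380) (nat_lit 13370698486) (nat_lit 456) (nat_lit 2613314047) (nat_lit 145) (nat_lit 5) (nat_lit 150) (nat_lit 5) (nat_lit 151) (nat_lit 5) (nat_lit 630) (nat_lit 535) (nat_lit 395))) (XT.nd (nat_lit 78) (nat_lit 304) (nat_lit 0) (XT.lf (nat_lit 0) (nat_lit 1744805604) (nat_lit 456) (nat_lit 5557828256) (nat_lit 76) (nat_lit 9306330182)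 (nat_lit 144) (nat_lit 5) (nat_lit 150) (nat_lit 5) (nat_lit 145) (nat_lit 5) (nat_lit 631) (nat_lit 535) (nat_lit 394)) (XT.lf (nat_lit 0) (nat_lit 5103561874) (nat_lit 304) (nat_lit 1070367065) (nat_lit 380) (nat_lit 10636039655) (nat_lit 140) (nat_lit 5) (nat_lit 144) (nat_lit 5) (nat_lit 145) (nat_lit 5) (nat_lit 632) (nat_lit 535) (nat_lit 393))))) (XT.nd (nat_lit 234) (nat_lit 684) (nat_lit 0) (XT.nd (nat_lit 78) (nat_lit 760) (nat_lit 0) (XT.lf (nat_lit 0) (nat_lit 10749243883) (nat_lit 380) (nat_lit 1018323385) (nat_lit 76) (nat_lit 5246274197) (nat_lit 140) (nat_lit 5) (nat_lit 145) (nat_lit 5) (nat_lit 141) (nat_lit 5) (nat_lit 633) (nat_lit 535) (nat_lit 392)) (XT.nd (nat_lit 78) (nat_lit 380) (nat_lit 0) (XT.lf (nat_lit 0) (nat_lit 9984814205) (nat_lit 380) (nat_lit 5489189479) (nat_lit 456) (nat_lit 1746629744) (nat_lit 135) (nat_lit 5) (nat_lit 140) (nat_lit 5) (nat_lit 141) (nat_lit 5) (nat_lit 634) (nat_lit 535) (nat_lit 391)) (XT.lf (nat_lit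 0) (nat_lit 2847983299) (nat_lit 380) (nat_lit 13638068842) (nat_lit 76) (nat_lit 944661528) (nat_lit 130) (nat_lit 5) (nat_lit 135) (nat_lit 5) (nat_lit 131) (nat_lit 5) (nat_lit 635) (nat_lit 535) (nat_lit 390)))) (XT.nd (nat_lit 156) (nat_lit 380) (nat_lit 0) (XT.nd (nat_lit 78) (nat_lit 304) (nat_lit 0) (XT.lf (nat_lit 0) (nat_lit 7582482847) (nat_lit 380) (nat_lit 2575184169) (nat_lit 76) (nat_lit 7485670340) (nat_lit 130) (nat_lit 5) (nat_lit 135) (nat_lit 5) (nat_lit 131) (nat_lit 5) (nat_lit 636) (nat_lit 535) (nat_lit 389)) (XT.lf (nat_lit 0) (nat_lit 8802164403) (nat_lit 304) (nat_lit 3653059226) (nat_lit 380) (nat_lit 5404119240) (nat_lit 126) (nat_lit 5) (nat_lit 130) (nat_lit 5) (nat_lit 131) (nat_lit 5) (nat_lit 637) (nat_lit 535) (nat_lit 388))) (XT.nd (nat_lit 78) (nat_lit 76) (nat_lit 0) (XT.lf (nat_lit 0) (nat_lit 2351710841) (nat_lit 304) (nat_lit 15112200360) (nat_lit 380) (nat_lit 614987817) (nat_lit 122) (nat_lit 5) (nat_lit 126) (nat_lit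 5) (nat_lit 127) (nat_lit 5) (nat_lit 638) (nat_lit 535) (nat_lit 387)) (XT.lf (nat_lit 0) (nat_lit 4285800101) (nat_lit 380) (nat_lit 4264734913) (nat_lit 76) (nat_lit 9750319670) (nat_lit 121) (nat_lit 5) (nat_lit 126) (nat_lit 5) (nat_lit 122) (nat_lit 5) (nat_lit 639) (nat_lit 535) (nat_lit 386)))))) (XT.nd (nat_lit 546) (nat_lit 1368) (nat_lit 0) (XT.nd (nat_lit 234) (nat_lit 912) (nat_lit 0) (XT.nd (nat_lit 78) (nat_lit 304) (nat_lit 0) (XT.lf (nat_lit 0) (nat_lit 7499351543) (nat_lit 304) (nat_lit 1812482022) (nat_lit 380) (nat_lit 9214625652) (nat_lit 117) (nat_lit 5) (nat_lit 121) (nat_lit 5) (nat_lit 122) (nat_lit 5) (nat_lit 640) (nat_lit 535) (nat_lit 385)) (XT.nd (nat_lit 78) (nat_lit 76) (nat_lit 0) (XT.lf (nat_lit 0) (nat_lit 755427928) (nat_lit 228) (nat_lit 13736355855) (nat_lit 304) (nat_lit 4263724475) (nat_lit 114) (nat_lit 5) (nat_lit 117) (nat_lit 5) (nat_lit 118) (nat_lit 5) (nat_lit 641) (nat_lit 535) (nat_lit 384)) (XT.lf (nat_lit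 0) (nat_lit 849232588) (nat_lit 304) (nat_lit 6104157920) (nat_lit 76) (nat_lit 12034179030) (nat_lit 113) (nat_lit 5) (nat_lit 117) (nat_lit 5) (nat_lit 114) (nat_lit 5) (nat_lit 642) (nat_lit 535) (nat_lit 383)))) (XT.nd (nat_lit 156) (nat_lit 608) (nat_lit 0) (XT.nd (nat_lit 78) (nat_lit 0) (nat_lit 0) (XT.lf (nat_lit 0) (nat_lit 6034033423) (nat_lit 380) (nat_lit 13163988319) (nat_lit 76) (nat_lit 25153437) (nat_lit 109) (nat_lit 5) (nat_lit 114) (nat_lit 5) (nat_lit 110) (nat_lit 5) (nat_lit 643) (nat_lit 535) (nat_lit 382)) (XT.lf (nat_lit 0) (nat_lit 11396985723) (nat_lit 380) (nat_lit 982069878) (nat_lit 76) (nat_lit 7082948535) (nat_lit 109) (nat_lit 5) (nat_lit 114) (nat_lit 5) (nat_lit 110) (nat_lit 5) (nat_lit 644) (nat_lit 535) (nat_lit 381))) (XT.nd (nat_lit 78) (nat_lit 380) (nat_lit 0) (XT.lf (nat_lit 0) (nat_lit 11574089097) (nat_lit 228) (nat_lit 5355679261) (nat_lit 304) (nat_lit 2774590195) (nat_lit 106) (nat_lit 5) (nat_lit 109) (nat_lit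 5) (nat_lit 110) (nat_lit 5) (nat_lit 645) (nat_lit 535) (nat_lit 380)) (XT.lf (nat_lit 0) (nat_lit 2622360847) (nat_lit 380) (nat_lit 15499282588) (nat_lit 76) (nat_lit 1828874538) (nat_lit 101) (nat_lit 5) (nat_lit 106) (nat_lit 5) (nat_lit 102) (nat_lit 5) (nat_lit 646) (nat_lit 535) (nat_lit 379))))) (XT.nd (nat_lit 312) (nat_lit 760) (nat_lit 0) (XT.nd (nat_lit 156) (nat_lit 380) (nat_lit 0) (XT.nd (nat_lit 78) (nat_lit 228) (nat_lit 0) (XT.lf (nat_lit 0) (nat_lit 8168026356) (nat_lit 380) (nat_lit 2881410358) (nat_lit 76) (nat_lit 9150238810) (nat_lit 101) (nat_lit 5) (nat_lit 106) (nat_lit 5) (nat_lit 102) (nat_lit 5) (nat_lit 647) (nat_lit 535) (nat_lit 378)) (XT.lf (nat_lit 0) (nat_lit 10100430379) (nat_lit 228) (nat_lit 3777503198) (nat_lit 304) (nat_lit 6574816363) (nat_lit 98) (nat_lit 5) (nat_lit 101) (nat_lit 5) (nat_lit 102) (nat_lit 5) (nat_lit 648) (nat_lit 535) (nat_lit 377))) (XT.nd (nat_lit 78) (nat_lit 76) (nat_lit 0) (XT.lf (nat_lit 0)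 (nat_lit 2660693896) (nat_lit 304) (nat_lit 17089516011) (nat_lit 380) (nat_lit 959712798) (nat_lit 94) (nat_lit 5) (nat_lit 98) (nat_lit 5) (nat_lit 99) (nat_lit 5) (nat_lit 649) (nat_lit 535) (nat_lit 376)) (XT.lf (nat_lit 0) (nat_lit 4787933530) (nat_lit 380) (nat_lit 4973917853) (nat_lit 76) (nat_lit 11208113312) (nat_lit 93) (nat_lit 5) (nat_lit 98) (nat_lit 5) (nat_lit 94) (nat_lit 5) (nat_lit 650) (nat_lit 535) (nat_lit 375)))) (XT.nd (nat_lit 156) (nat_lit 304) (nat_lit 0) (XT.nd (nat_lit 78) (nat_lit 228) (nat_lit 0) (XT.lf (nat_lit 0) (nat_lit 8446802698) (nat_lit 228) (nat_lit 2233796231) (nat_lit 304) (nat_lit 10553623649) (nat_lit 90) (nat_lit 5) (nat_lit 93) (nat_lit 5) (nat_lit 94) (nat_lit 5) (nat_lit 651) (nat_lit 535) (nat_lit 374)) (XT.lf (nat_lit 0) (nat_lit 652681278) (nat_lit 228) (nat_lit 16099732651) (nat_lit 304) (nat_lit 4750126019) (nat_lit 87) (nat_lit 5) (nat_lit 90) (nat_lit 5) (nat_lit 91) (nat_lit 5) (nat_lit 652) (nat_lit 535)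 (nat_lit 373))) (XT.nd (nat_lit 78) (nat_lit 228) (nat_lit 0) (XT.lf (nat_lit 0) (nat_lit 1243406861) (nat_lit 304) (nat_lit 7283131930) (nat_lit 76) (nat_lit 13247747212) (nat_lit 86) (nat_lit 5) (nat_lit 90) (nat_lit 5) (nat_lit 87) (nat_lit 5) (nat_lit 653) (nat_lit 535) (nat_lit 372)) (XT.lf (nat_lit 0) (nat_lit 6589709182) (nat_lit 228) (nat_lit 734704762) (nat_lit 304) (nat_lit 14725801155) (nat_lit 83) (nat_lit 5) (nat_lit 86) (nat_lit 5) (nat_lit 87) (nat_lit 5) (nat_lit 654) (nat_lit 535) (nat_lit 371))))))))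
noncomputable def xc105 : XT := (XT.nd (nat_lit 74100) (nat_lit 0) (nat_lit 16568) (XT.nd (nat_lit 72930) (nat_lit 0) (nat_lit 35796) (XT.nd (nat_lit 72384) (nat_lit 0) (nat_lit 42560) (XT.nd (nat_lit 72072) (nat_lit 0) (nat_lit 44764) (XT.nd (nat_lit 71916) (nat_lit 0) (nat_lit 45828) (XT.lf (nat_lit 0) (nat_lit 13611476023) (nat_lit 304) (nat_lit 1559338941) (nat_lit 76) (nat_lit 7159159353) (nat_lit 83) (nat_lit 5) (nat_lit 87) (nat_lit 5) (nat_lit 84) (nat_lit 5) (nat_lit 655) (nat_lit 535) (nat_lit 370)) (XT.nd (nat_lit 78) (nat_lit 0) (nat_lit 0) (XT.lf (nat_lit 0) (nat_lit 452653350) (nat_lit 0) (nat_lit 452653350) (nat_lit 988) (nat_lit 2559067221) (nat_lit 686) (nat_lit 5) (nat_lit 686) (nat_lit 3) (nat_lit 699) (nat_lit 3) (nat_lit 536) (nat_lit 536) (nat_lit 488)) (XT.lf (nat_lit 0) (nat_lit 3736089209) (nat_lit 988) (nat_lit 2573648220) (nat_lit 1064) (nat_lit 649990880) (nat_lit 686) (nat_lit 5) (nat_lit 699) (nat_lit 3) (nat_lit 700) (nat_lit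 5) (nat_lit 537) (nat_lit 536) (nat_lit 487)))) (XT.nd (nat_lit 156) (nat_lit 0) (nat_lit 0) (XT.nd (nat_lit 78) (nat_lit 1064) (nat_lit 0) (XT.lf (nat_lit 76) (nat_lit 925154692) (nat_lit 0) (nat_lit 4737165196) (nat_lit 1064) (nat_lit 1329767778) (nat_lit 687) (nat_lit 5) (nat_lit 686) (nat_lit 5) (nat_lit 700) (nat_lit 5) (nat_lit 538) (nat_lit 536) (nat_lit 486)) (XT.lf (nat_lit 0) (nat_lit 562192921) (nat_lit 1064) (nat_lit 2526562553) (nat_lit 1140) (nat_lit 3936902450) (nat_lit 672) (nat_lit 5) (nat_lit 686) (nat_lit 5) (nat_lit 687) (nat_lit 5) (nat_lit 539) (nat_lit 536) (nat_lit 485))) (XT.nd (nat_lit 78) (nat_lit 0) (nat_lit 76) (XT.lf (nat_lit 76) (nat_lit 1063669812) (nat_lit 0) (nat_lit 1369128491) (nat_lit 1140) (nat_lit 4627757213) (nat_lit 673) (nat_lit 5) (nat_lit 672) (nat_lit 5) (nat_lit 687) (nat_lit 5) (nat_lit 540) (nat_lit 536) (nat_lit 484)) (XT.lf (nat_lit 0) (nat_lit 4312989324) (nat_lit 1064) (nat_lit 2365480668) (nat_lit 1140)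 (nat_lit 418241465) (nat_lit 673) (nat_lit 5) (nat_lit 687) (nat_lit 5) (nat_lit 688) (nat_lit 5) (nat_lit 541) (nat_lit 536) (nat_lit 483))))) (XT.nd (nat_lit 234) (nat_lit 1140) (nat_lit 0) (XT.nd (nat_lit 78) (nat_lit 1140) (nat_lit 0) (XT.lf (nat_lit 76) (nat_lit 1320318771) (nat_lit 0) (nat_lit 4881641830) (nat_lit 1140) (nat_lit 932210179) (nat_lit 674) (nat_lit 5) (nat_lit 673) (nat_lit 5) (nat_lit 688) (nat_lit 5) (nat_lit 542) (nat_lit 536) (nat_lit 482)) (XT.nd (nat_lit 78) (nat_lit 0) (nat_lit 0) (XT.lf (nat_lit 0) (nat_lit 913739025) (nat_lit 1140) (nat_lit 2093401129) (nat_lit 1216) (nat_lit 4165719608) (nat_lit 658) (nat_lit 5) (nat_lit 673) (nat_lit 5) (nat_lit 674) (nat_lit 5) (nat_lit 543) (nat_lit 536) (nat_lit 481)) (XT.lf (nat_lit 76) (nat_lit 1691067812) (nat_lit 0) (nat_lit 1058921579) (nat_lit 1216) (nat_lit 4462896180) (nat_lit 659) (nat_lit 5) (nat_lit 658) (nat_lit 5) (nat_lit 674) (nat_lit 5) (nat_lit 544) (nat_lit 536) (nat_lit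 480)))) (XT.nd (nat_lit 156) (nat_lit 1216) (nat_lit 0) (XT.nd (nat_lit 78) (nat_lit 0) (nat_lit 0) (XT.lf (nat_lit 0) (nat_lit 4598838461) (nat_lit 1140) (nat_lit 1707180350) (nat_lit 1216) (nat_lit 948179113) (nat_lit 659) (nat_lit 5) (nat_lit 674) (nat_lit 5) (nat_lit 675) (nat_lit 5) (nat_lit 545) (nat_lit 536) (nat_lit 479)) (XT.lf (nat_lit 76) (nat_lit 2178611704) (nat_lit 0) (nat_lit 4283784990) (nat_lit 1216) (nat_lit 834388621) (nat_lit 660) (nat_lit 5) (nat_lit 659) (nat_lit 5) (nat_lit 675) (nat_lit 5) (nat_lit 546) (nat_lit 536) (nat_lit 478))) (XT.nd (nat_lit 78) (nat_lit 0) (nat_lit 0) (XT.lf (nat_lit 0) (nat_lit 978084065) (nat_lit 1216) (nat_lit 1208550125) (nat_lit 1292) (nat_lit 5154090741) (nat_lit 643) (nat_lit 5) (nat_lit 659) (nat_lit 5) (nat_lit 660) (nat_lit 5) (nat_lit 547) (nat_lit 536) (nat_lit 477)) (XT.lf (nat_lit 76) (nat_lit 2783682102) (nat_lit 0) (nat_lit 7846704) (nat_lit 1292) (nat_lit 4594389561) (nat_lit 644) (nat_lit 5)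 (nat_lit 643) (nat_lit 5) (nat_lit 660) (nat_lit 5) (nat_lit 548) (nat_lit 536) (nat_lit 476)))))) (XT.nd (nat_lit 546) (nat_lit 4332) (nat_lit 0) (XT.nd (nat_lit 234) (nat_lit 1216) (nat_lit 0) (XT.nd (nat_lit 78) (nat_lit 1292) (nat_lit 0) (XT.lf (nat_lit 0) (nat_lit 4622349566) (nat_lit 1216) (nat_lit 601467931) (nat_lit 1292) (nat_lit 2208579204) (nat_lit 644) (nat_lit 5) (nat_lit 660) (nat_lit 5) (nat_lit 661) (nat_lit 5) (nat_lit 549) (nat_lit 536) (nat_lit 475)) (XT.nd (nat_lit 78) (nat_lit 1292) (nat_lit 0) (XT.lf (nat_lit 76) (nat_lit 3498357321) (nat_lit 0) (nat_lit 2973572785) (nat_lit 1292) (nat_lit 1008234742) (nat_lit 645) (nat_lit 5) (nat_lit 644) (nat_lit 5) (nat_lit 661) (nat_lit 5) (nat_lit 550) (nat_lit 536) (nat_lit 474)) (XT.lf (nat_lit 76) (nat_lit 128648677) (nat_lit 0) (nat_lit 654716429) (nat_lit 1368) (nat_lit 6746125878) (nat_lit 628) (nat_lit 5) (nat_lit 627) (nat_lit 5) (nat_lit 645) (nat_lit 5) (nat_lit 551) (nat_lit 536) (nat_lit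 473)))) (XT.nd (nat_lit 156) (nat_lit 1292) (nat_lit 0) (XT.nd (nat_lit 78) (nat_lit 0) (nat_lit 0) (XT.lf (nat_lit 0) (nat_lit 2595742429) (nat_lit 1292) (nat_lit 3249790229) (nat_lit 1368) (nat_lit 1734171713) (nat_lit 628) (nat_lit 5) (nat_lit 645) (nat_lit 5) (nat_lit 646) (nat_lit 5) (nat_lit 552) (nat_lit 536) (nat_lit 472)) (XT.lf (nat_lit 76) (nat_lit 965303597) (nat_lit 0) (nat_lit 3450873167) (nat_lit 1368) (nat_lit 3215311946) (nat_lit 629) (nat_lit 5) (nat_lit 628) (nat_lit 5) (nat_lit 646) (nat_lit 5) (nat_lit 553) (nat_lit 536) (nat_lit 471))) (XT.nd (nat_lit 78) (nat_lit 1292) (nat_lit 0) (XT.lf (nat_lit 76) (nat_lit 5281627136) (nat_lit 0) (nat_lit 974991213) (nat_lit 1368) (nat_lit 1428021233) (nat_lit 629) (nat_lit 5) (nat_lit 628) (nat_lit 5) (nat_lit 646) (nat_lit 5) (nat_lit 554) (nat_lit 536) (nat_lit 470)) (XT.lf (nat_lit 0) (nat_lit 374963109) (nat_lit 1368) (nat_lit 5808320177) (nat_lit 1444) (nat_lit 1555819031) (nat_lit 611) (nat_lit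 5) (nat_lit 629) (nat_lit 5) (nat_lit 630) (nat_lit 5) (nat_lit 555) (nat_lit 536) (nat_lit 469))))) (XT.nd (nat_lit 312) (nat_lit 3040) (nat_lit 0) (XT.nd (nat_lit 156) (nat_lit 1292) (nat_lit 0) (XT.nd (nat_lit 78) (nat_lit 0) (nat_lit 0) (XT.lf (nat_lit 0) (nat_lit 2180513199) (nat_lit 1368) (nat_lit 1454256166) (nat_lit 1444) (nat_lit 4159986264) (nat_lit 611) (nat_lit 5) (nat_lit 629) (nat_lit 5) (nat_lit 630) (nat_lit 5) (nat_lit 556) (nat_lit 536) (nat_lit 468)) (XT.lf (nat_lit 76) (nat_lit 2999036064) (nat_lit 0) (nat_lit 1006257240) (nat_lit 1444) (nat_lit 3846568928) (nat_lit 612) (nat_lit 5) (nat_lit 611) (nat_lit 5) (nat_lit 630) (nat_lit 5) (nat_lit 557) (nat_lit 536) (nat_lit 467))) (XT.nd (nat_lit 78) (nat_lit 1368) (nat_lit 0) (XT.lf (nat_lit 0) (nat_lit 5851508460) (nat_lit 1368) (nat_lit 387530676) (nat_lit 76) (nat_lit 1671375593) (nat_lit 612) (nat_lit 5) (nat_lit 630) (nat_lit 5) (nat_lit 613) (nat_lit 5) (nat_lit 558) (nat_lit 536) (nat_lit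 466)) (XT.lf (nat_lit 0) (nat_lit 4188096023) (nat_lit 1368) (nat_lit 3545350808) (nat_lit 1444) (nat_lit 236717971) (nat_lit 594) (nat_lit 5) (nat_lit 612) (nat_lit 5) (nat_lit 613) (nat_lit 5) (nat_lit 559) (nat_lit 536) (nat_lit 465)))) (XT.nd (nat_lit 156) (nat_lit 1520) (nat_lit 0) (XT.nd (nat_lit 78) (nat_lit 0) (nat_lit 0) (XT.lf (nat_lit 0) (nat_lit 801875706) (nat_lit 1444) (nat_lit 771814323) (nat_lit 1520) (nat_lit 6457750686) (nat_lit 574) (nat_lit 5) (nat_lit 593) (nat_lit 5) (nat_lit 594) (nat_lit 5) (nat_lit 560) (nat_lit 536) (nat_lit 464)) (XT.lf (nat_lit 0) (nat_lit 3421816833) (nat_lit 1520) (nat_lit 2607836398) (nat_lit 76) (nat_lit 2064166375) (nat_lit 574) (nat_lit 5) (nat_lit 594) (nat_lit 5) (nat_lit 575) (nat_lit 5) (nat_lit 561) (nat_lit 536) (nat_lit 463))) (XT.nd (nat_lit 78) (nat_lit 0) (nat_lit 0) (XT.lf (nat_lit 0) (nat_lit 2101248728) (nat_lit 1520) (nat_lit 3190855537) (nat_lit 1596) (nat_lit 2865640158) (nat_lit 554) (nat_lit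 5) (nat_lit 574) (nat_lit 5) (nat_lit 575) (nat_lit 5) (nat_lit 562) (nat_lit 536) (nat_lit 462)) (XT.lf (nat_lit 0) (nat_lit 6912521595) (nat_lit 1520) (nat_lit 271700273) (nat_lit 1596) (nat_lit 1039039648) (nat_lit 554) (nat_lit 5) (nat_lit 574) (nat_lit 5) (nat_lit 575) (nat_lit 5) (nat_lit 563) (nat_lit 536) (nat_lit 461))))))) (XT.nd (nat_lit 1170) (nat_lit 7524) (nat_lit 0) (XT.nd (nat_lit 546) (nat_lit 4712) (nat_lit 0) (XT.nd (nat_lit 234) (nat_lit 3648) (nat_lit 0) (XT.nd (nat_lit 78) (nat_lit 1672) (nat_lit 0) (XT.lf (nat_lit 0) (nat_lit 821440572) (nat_lit 1672) (nat_lit 4764153329) (nat_lit 76) (nat_lit 2704227098) (nat_lit 532) (nat_lit 5) (nat_lit 554) (nat_lit 5) (nat_lit 533) (nat_lit 5) (nat_lit 564) (nat_lit 536) (nat_lit 460)) (XT.nd (nat_lit 78) (nat_lit 0) (nat_lit 0) (XT.lf (nat_lit 0) (nat_lit 83650100) (nat_lit 1672) (nat_lit 2600630649) (nat_lit 1748) (nat_lit 5673714435) (nat_lit 510) (nat_lit 5) (nat_lit 532) (nat_lit 5) (nat_lit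 533) (nat_lit 5) (nat_lit 565) (nat_lit 536) (nat_lit 459)) (XT.lf (nat_lit 0) (nat_lit 4587774230) (nat_lit 1748) (nat_lit 3365222907) (nat_lit 76) (nat_lit 474469881) (nat_lit 510) (nat_lit 5) (nat_lit 533) (nat_lit 5) (nat_lit 511) (nat_lit 5) (nat_lit 566) (nat_lit 536) (nat_lit 458)))) (XT.nd (nat_lit 156) (nat_lit 1900) (nat_lit 0) (XT.nd (nat_lit 78) (nat_lit 0) (nat_lit 0) (XT.lf (nat_lit 0) (nat_lit 1618414465) (nat_lit 1748) (nat_lit 4907606448) (nat_lit 1824) (nat_lit 1972375761) (nat_lit 487) (nat_lit 5) (nat_lit 510) (nat_lit 5) (nat_lit 511) (nat_lit 5) (nat_lit 567) (nat_lit 536) (nat_lit 457)) (XT.lf (nat_lit 0) (nat_lit 6719852784) (nat_lit 1748) (nat_lit 1775145254) (nat_lit 1824) (nat_lit 75909587) (nat_lit 487) (nat_lit 5) (nat_lit 510) (nat_lit 5) (nat_lit 511) (nat_lit 5) (nat_lit 568) (nat_lit 536) (nat_lit 456))) (XT.nd (nat_lit 78) (nat_lit 0) (nat_lit 0) (XT.lf (nat_lit 0) (nat_lit 1834662630) (nat_lit 1900) (nat_lit 5372189769) (nat_lit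 76) (nat_lit 1437765977) (nat_lit 462) (nat_lit 5) (nat_lit 487) (nat_lit 5) (nat_lit 463) (nat_lit 5) (nat_lit 569) (nat_lit 536) (nat_lit 455)) (XT.lf (nat_lit 0) (nat_lit 3776906384) (nat_lit 1900) (nat_lit 236210392) (nat_lit 76) (nat_lit 4706788898) (nat_lit 462) (nat_lit 5) (nat_lit 487) (nat_lit 5) (nat_lit 463) (nat_lit 5) (nat_lit 570) (nat_lit 536) (nat_lit 454))))) (XT.nd (nat_lit 312) (nat_lit 1748) (nat_lit 0) (XT.nd (nat_lit 156) (nat_lit 988) (nat_lit 0) (XT.nd (nat_lit 78) (nat_lit 912) (nat_lit 0) (XT.lf (nat_lit 0) (nat_lit 5041363990) (nat_lit 1064) (nat_lit 720162732) (nat_lit 1140) (nat_lit 3035103219) (nat_lit 448) (nat_lit 5) (nat_lit 462) (nat_lit 5) (nat_lit 463) (nat_lit 5) (nat_lit 571) (nat_lit 536) (nat_lit 453)) (XT.lf (nat_lit 0) (nat_lit 1528080513) (nat_lit 912) (nat_lit 6257615691) (nat_lit 988) (nat_lit 1089197178) (nat_lit 436) (nat_lit 5) (nat_lit 448) (nat_lit 5) (nat_lit 449) (nat_lit 5) (nat_lit 572) (nat_lit 536) (nat_lit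 452))) (XT.nd (nat_lit 78) (nat_lit 912) (nat_lit 0) (XT.lf (nat_lit 0) (nat_lit 885420931) (nat_lit 988) (nat_lit 2024824528) (nat_lit 76) (nat_lit 6044331280) (nat_lit 435) (nat_lit 5) (nat_lit 448) (nat_lit 5) (nat_lit 436) (nat_lit 5) (nat_lit 573) (nat_lit 536) (nat_lit 451)) (XT.lf (nat_lit 0) (nat_lit 2882562740) (nat_lit 988) (nat_lit 5625443616) (nat_lit 76) (nat_lit 527752818) (nat_lit 423) (nat_lit 5) (nat_lit 436) (nat_lit 5) (nat_lit 424) (nat_lit 5) (nat_lit 574) (nat_lit 536) (nat_lit 450)))) (XT.nd (nat_lit 156) (nat_lit 912) (nat_lit 0) (XT.nd (nat_lit 78) (nat_lit 836) (nat_lit 0) (XT.lf (nat_lit 0) (nat_lit 4924940178) (nat_lit 988) (nat_lit 183736542) (nat_lit 76) (nat_lit 4009784367) (nat_lit 423) (nat_lit 5) (nat_lit 436) (nat_lit 5) (nat_lit 424) (nat_lit 5) (nat_lit 575) (nat_lit 536) (nat_lit 449)) (XT.lf (nat_lit 0) (nat_lit 5410623445) (nat_lit 836) (nat_lit 1605555410) (nat_lit 912) (nat_lit 2186479559) (nat_lit 412) (nat_lit 5)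 (nat_lit 423) (nat_lit 5) (nat_lit 424) (nat_lit 5) (nat_lit 576) (nat_lit 536) (nat_lit 448))) (XT.nd (nat_lit 78) (nat_lit 76) (nat_lit 0) (XT.lf (nat_lit 0) (nat_lit 1814359104) (nat_lit 836) (nat_lit 7333919122) (nat_lit 912) (nat_lit 140282361) (nat_lit 401) (nat_lit 5) (nat_lit 412) (nat_lit 5) (nat_lit 413) (nat_lit 5) (nat_lit 577) (nat_lit 536) (nat_lit 447)) (XT.lf (nat_lit 0) (nat_lit 1930964001) (nat_lit 912) (nat_lit 1842503716) (nat_lit 76) (nat_lit 5602268672) (nat_lit 400) (nat_lit 5) (nat_lit 412) (nat_lit 5) (nat_lit 401) (nat_lit 5) (nat_lit 578) (nat_lit 536) (nat_lit 446)))))) (XT.nd (nat_lit 546) (nat_lit 3572) (nat_lit 0) (XT.nd (nat_lit 234) (nat_lit 2280) (nat_lit 0) (XT.nd (nat_lit 78) (nat_lit 836) (nat_lit 0) (XT.lf (nat_lit 0) (nat_lit 3925248513) (nat_lit 836) (nat_lit 115927304) (nat_lit 912) (nat_lit 5423474491) (nat_lit 389) (nat_lit 5) (nat_lit 400) (nat_lit 5) (nat_lit 401) (nat_lit 5) (nat_lit 579) (nat_lit 536) (nat_lit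 445)) (XT.nd (nat_lit 78) (nat_lit 0) (nat_lit 0) (XT.lf (nat_lit 0) (nat_lit 230244019) (nat_lit 836) (nat_lit 5975018306) (nat_lit 912) (nat_lit 3349848267) (nat_lit 378) (nat_lit 5) (nat_lit 389) (nat_lit 5) (nat_lit 390) (nat_lit 5) (nat_lit 580) (nat_lit 536) (nat_lit 444)) (XT.lf (nat_lit 0) (nat_lit 6162312998) (nat_lit 836) (nat_lit 2262840195) (nat_lit 912) (nat_lit 1221977903) (nat_lit 378) (nat_lit 5) (nat_lit 389) (nat_lit 5) (nat_lit 390) (nat_lit 5) (nat_lit 581) (nat_lit 536) (nat_lit 443)))) (XT.nd (nat_lit 156) (nat_lit 1444) (nat_lit 0) (XT.nd (nat_lit 78) (nat_lit 0) (nat_lit 0) (XT.lf (nat_lit 0) (nat_lit 937001147) (nat_lit 836) (nat_lit 7279873154) (nat_lit 76) (nat_lit 1523976149) (nat_lit 367) (nat_lit 5) (nat_lit 378) (nat_lit 5) (nat_lit 368) (nat_lit 5) (nat_lit 582) (nat_lit 536) (nat_lit 442)) (XT.lf (nat_lit 0) (nat_lit 3136561063) (nat_lit 836) (nat_lit 1313667696) (nat_lit 76) (nat_lit 5385779998) (nat_lit 367) (nat_lit 5) (nat_lit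 378) (nat_lit 5) (nat_lit 368) (nat_lit 5) (nat_lit 583) (nat_lit 536) (nat_lit 441))) (XT.nd (nat_lit 78) (nat_lit 684) (nat_lit 0) (XT.lf (nat_lit 0) (nat_lit 4808073266) (nat_lit 760) (nat_lit 578964685) (nat_lit 836) (nat_lit 4545895117) (nat_lit 357) (nat_lit 5) (nat_lit 367) (nat_lit 5) (nat_lit 368) (nat_lit 5) (nat_lit 584) (nat_lit 536) (nat_lit 440)) (XT.lf (nat_lit 0) (nat_lit 1002513478) (nat_lit 684) (nat_lit 6693266448) (nat_lit 760) (nat_lit 2335752157) (nat_lit 348) (nat_lit 5) (nat_lit 357) (nat_lit 5) (nat_lit 358) (nat_lit 5) (nat_lit 585) (nat_lit 536) (nat_lit 439))))) (XT.nd (nat_lit 312) (nat_lit 2052) (nat_lit 0) (XT.nd (nat_lit 156) (nat_lit 684) (nat_lit 0) (XT.nd (nat_lit 78) (nat_lit 836) (nat_lit 0) (XT.lf (nat_lit 0) (nat_lit 7291062007) (nat_lit 684) (nat_lit 2774124198) (nat_lit 760) (nat_lit 66628384) (nat_lit 348) (nat_lit 5) (nat_lit 357) (nat_lit 5) (nat_lit 358) (nat_lit 5) (nat_lit 586) (nat_lit 536) (nat_lit 438)) (XT.lf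 (nat_lit 0) (nat_lit 2225729191) (nat_lit 836) (nat_lit 6766469709) (nat_lit 76) (nat_lit 1241466550) (nat_lit 337) (nat_lit 5) (nat_lit 348) (nat_lit 5) (nat_lit 338) (nat_lit 5) (nat_lit 587) (nat_lit 536) (nat_lit 437))) (XT.nd (nat_lit 78) (nat_lit 684) (nat_lit 0) (XT.lf (nat_lit 0) (nat_lit 4577467118) (nat_lit 836) (nat_lit 443305818) (nat_lit 76) (nat_lit 5316484304) (nat_lit 337) (nat_lit 5) (nat_lit 348) (nat_lit 5) (nat_lit 338) (nat_lit 5) (nat_lit 588) (nat_lit 536) (nat_lit 436)) (XT.lf (nat_lit 0) (nat_lit 6059315106) (nat_lit 684) (nat_lit 933583089) (nat_lit 760) (nat_lit 3449690704) (nat_lit 328) (nat_lit 5) (nat_lit 337) (nat_lit 5) (nat_lit 338) (nat_lit 5) (nat_lit 589) (nat_lit 536) (nat_lit 435)))) (XT.nd (nat_lit 156) (nat_lit 1292) (nat_lit 0) (XT.nd (nat_lit 78) (nat_lit 76) (nat_lit 0) (XT.lf (nat_lit 0) (nat_lit 2128190588) (nat_lit 684) (nat_lit 7343831513) (nat_lit 760) (nat_lit 1077698586) (nat_lit 319) (nat_lit 5) (nat_lit 328)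 (nat_lit 5) (nat_lit 329) (nat_lit 5) (nat_lit 590) (nat_lit 536) (nat_lit 434)) (XT.lf (nat_lit 0) (nat_lit 1337613428) (nat_lit 760) (nat_lit 1871042039) (nat_lit 76) (nat_lit 7449897005) (nat_lit 318) (nat_lit 5) (nat_lit 328) (nat_lit 5) (nat_lit 319) (nat_lit 5) (nat_lit 591) (nat_lit 536) (nat_lit 433))) (XT.nd (nat_lit 78) (nat_lit 684) (nat_lit 0) (XT.lf (nat_lit 0) (nat_lit 3803144632) (nat_lit 684) (nat_lit 5935525445) (nat_lit 76) (nat_lit 1030422589) (nat_lit 310) (nat_lit 5) (nat_lit 319) (nat_lit 5) (nat_lit 311) (nat_lit 5) (nat_lit 592) (nat_lit 536) (nat_lit 432)) (XT.lf (nat_lit 0) (nat_lit 778362962) (nat_lit 684) (nat_lit 5556918256) (nat_lit 760) (nat_lit 4546217639) (nat_lit 301) (nat_lit 5) (nat_lit 310) (nat_lit 5) (nat_lit 311) (nat_lit 5) (nat_lit 593) (nat_lit 536) (nat_lit 431))))))))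
noncomputable def xc106 : XT := (XT.nd (nat_lit 2262) (nat_lit 6308) (nat_lit 0) (XT.nd (nat_lit 1092) (nat_lit 4712) (nat_lit 0) (XT.nd (nat_lit 546) (nat_lit 2204) (nat_lit 0) (XT.nd (nat_lit 234) (nat_lit 1900) (nat_lit 0) (XT.nd (nat_lit 78) (nat_lit 684) (nat_lit 0) (XT.lf (nat_lit 0) (nat_lit 7680609960) (nat_lit 684) (nat_lit 1255887183) (nat_lit 760) (nat_lit 2059288365) (nat_lit 301) (nat_lit 5) (nat_lit 310) (nat_lit 5) (nat_lit 311) (nat_lit 5) (nat_lit 594) (nat_lit 536) (nat_lit 430)) (XT.nd (nat_lit 78) (nat_lit 0) (nat_lit 0) (XT.lf (nat_lit 0) (nat_lit 494025715) (nat_lit 684) (nat_lit 7505851309) (nat_lit 76) (nat_lit 3111961761) (nat_lit 292) (nat_lit 5) (nat_lit 301) (nat_lit 5) (nat_lit 293) (nat_lit 5) (nat_lit 595) (nat_lit 536) (nat_lit 429)) (XT.lf (nat_lit 0) (nat_lit 3080666958) (nat_lit 684) (nat_lit 567713000) (nat_lit 76) (nat_lit 7581365245) (nat_lit 292) (nat_lit 5) (nat_lit 301) (nat_lit 5) (nat_lit 293) (nat_lit 5) (nat_lit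 596) (nat_lit 536) (nat_lit 428)))) (XT.nd (nat_lit 156) (nat_lit 684) (nat_lit 0) (XT.nd (nat_lit 78) (nat_lit 608) (nat_lit 0) (XT.lf (nat_lit 0) (nat_lit 5746580358) (nat_lit 684) (nat_lit 4785434798) (nat_lit 76) (nat_lit 817444792) (nat_lit 284) (nat_lit 5) (nat_lit 293) (nat_lit 5) (nat_lit 285) (nat_lit 5) (nat_lit 597) (nat_lit 536) (nat_lit 427)) (XT.lf (nat_lit 0) (nat_lit 2355265059) (nat_lit 608) (nat_lit 6133543060) (nat_lit 684) (nat_lit 2982301914) (nat_lit 276) (nat_lit 5) (nat_lit 284) (nat_lit 5) (nat_lit 285) (nat_lit 5) (nat_lit 598) (nat_lit 536) (nat_lit 426))) (XT.nd (nat_lit 78) (nat_lit 684) (nat_lit 0) (XT.lf (nat_lit 0) (nat_lit 9677779303) (nat_lit 608) (nat_lit 1620151668) (nat_lit 684) (nat_lit 297022087) (nat_lit 276) (nat_lit 5) (nat_lit 284) (nat_lit 5) (nat_lit 285) (nat_lit 5) (nat_lit 599) (nat_lit 536) (nat_lit 425)) (XT.lf (nat_lit 0) (nat_lit 2445230168) (nat_lit 684) (nat_lit 6284774827) (nat_lit 76) (nat_lit 2990245889)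 (nat_lit 267) (nat_lit 5) (nat_lit 276) (nat_lit 5) (nat_lit 268) (nat_lit 5) (nat_lit 600) (nat_lit 536) (nat_lit 424))))) (XT.nd (nat_lit 234) (nat_lit 1140) (nat_lit 0) (XT.nd (nat_lit 78) (nat_lit 532) (nat_lit 0) (XT.lf (nat_lit 0) (nat_lit 1089060847) (nat_lit 532) (nat_lit 4160428791) (nat_lit 608) (nat_lit 6598303871) (nat_lit 260) (nat_lit 5) (nat_lit 267) (nat_lit 5) (nat_lit 268) (nat_lit 5) (nat_lit 601) (nat_lit 536) (nat_lit 423)) (XT.nd (nat_lit 78) (nat_lit 532) (nat_lit 0) (XT.lf (nat_lit 0) (nat_lit 8136099924) (nat_lit 608) (nat_lit 3310996068) (nat_lit 76) (nat_lit 530266557) (nat_lit 260) (nat_lit 5) (nat_lit 268) (nat_lit 5) (nat_lit 261) (nat_lit 5) (nat_lit 602) (nat_lit 536) (nat_lit 422)) (XT.lf (nat_lit 0) (nat_lit 4288913755) (nat_lit 532) (nat_lit 6827871123) (nat_lit 608) (nat_lit 992012101) (nat_lit 253) (nat_lit 5) (nat_lit 260) (nat_lit 5) (nat_lit 261) (nat_lit 5) (nat_lit 603) (nat_lit 536) (nat_lit 421)))) (XT.nd (nat_lit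 156) (nat_lit 532) (nat_lit 0) (XT.nd (nat_lit 78) (nat_lit 532) (nat_lit 0) (XT.lf (nat_lit 0) (nat_lit 1892510871) (nat_lit 608) (nat_lit 194852290) (nat_lit 76) (nat_lit 10155181339) (nat_lit 252) (nat_lit 5) (nat_lit 260) (nat_lit 5) (nat_lit 253) (nat_lit 5) (nat_lit 604) (nat_lit 536) (nat_lit 420)) (XT.lf (nat_lit 0) (nat_lit 4870702878) (nat_lit 608) (nat_lit 4744990805) (nat_lit 76) (nat_lit 2762157721) (nat_lit 245) (nat_lit 5) (nat_lit 253) (nat_lit 5) (nat_lit 246) (nat_lit 5) (nat_lit 605) (nat_lit 536) (nat_lit 419))) (XT.nd (nat_lit 78) (nat_lit 0) (nat_lit 0) (XT.lf (nat_lit 0) (nat_lit 3105604423) (nat_lit 532) (nat_lit 4819717796) (nat_lit 608) (nat_lit 4590205749) (nat_lit 238) (nat_lit 5) (nat_lit 245) (nat_lit 5) (nat_lit 246) (nat_lit 5) (nat_lit 606) (nat_lit 536) (nat_lit 418)) (XT.lf (nat_lit 0) (nat_lit 11055269470) (nat_lit 608) (nat_lit 1503849568) (nat_lit 76) (nat_lit 96555094) (nat_lit 238) (nat_lit 5) (nat_lit 246) (nat_lit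 5) (nat_lit 239) (nat_lit 5) (nat_lit 607) (nat_lit 536) (nat_lit 417)))))) (XT.nd (nat_lit 546) (nat_lit 2204) (nat_lit 0) (XT.nd (nat_lit 234) (nat_lit 1444) (nat_lit 0) (XT.nd (nat_lit 78) (nat_lit 532) (nat_lit 0) (XT.lf (nat_lit 0) (nat_lit 1487339605) (nat_lit 532) (nat_lit 6217299972) (nat_lit 76) (nat_lit 5092653135) (nat_lit 231) (nat_lit 5) (nat_lit 238) (nat_lit 5) (nat_lit 232) (nat_lit 5) (nat_lit 608) (nat_lit 536) (nat_lit 416)) (XT.nd (nat_lit 78) (nat_lit 0) (nat_lit 0) (XT.lf (nat_lit 0) (nat_lit 1893567430) (nat_lit 532) (nat_lit 2726460692) (nat_lit 608) (nat_lit 8321412327) (nat_lit 224) (nat_lit 5) (nat_lit 231) (nat_lit 5) (nat_lit 232) (nat_lit 5) (nat_lit 609) (nat_lit 536) (nat_lit 415)) (XT.lf (nat_lit 0) (nat_lit 7854922978) (nat_lit 608) (nat_lit 2877349974) (nat_lit 76) (nat_lit 2355407855) (nat_lit 224) (nat_lit 5) (nat_lit 232) (nat_lit 5) (nat_lit 225) (nat_lit 5) (nat_lit 610) (nat_lit 536) (nat_lit 414)))) (XT.nd (nat_lit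 156) (nat_lit 456) (nat_lit 0) (XT.nd (nat_lit 78) (nat_lit 532) (nat_lit 0) (XT.lf (nat_lit 0) (nat_lit 5485867602) (nat_lit 456) (nat_lit 5704958161) (nat_lit 532) (nat_lit 2045294713) (nat_lit 218) (nat_lit 5) (nat_lit 224) (nat_lit 5) (nat_lit 225) (nat_lit 5) (nat_lit 611) (nat_lit 536) (nat_lit 413)) (XT.lf (nat_lit 0) (nat_lit 644022294) (nat_lit 456) (nat_lit 552400754) (nat_lit 532) (nat_lit 12190823550) (nat_lit 211) (nat_lit 5) (nat_lit 217) (nat_lit 5) (nat_lit 218) (nat_lit 5) (nat_lit 612) (nat_lit 536) (nat_lit 412))) (XT.nd (nat_lit 78) (nat_lit 456) (nat_lit 0) (XT.lf (nat_lit 0) (nat_lit 4541338658) (nat_lit 532) (nat_lit 4298350465) (nat_lit 76) (nat_lit 4700121396) (nat_lit 211) (nat_lit 5) (nat_lit 218) (nat_lit 5) (nat_lit 212) (nat_lit 5) (nat_lit 613) (nat_lit 536) (nat_lit 411)) (XT.lf (nat_lit 0) (nat_lit 4344417540) (nat_lit 456) (nat_lit 3623772068) (nat_lit 532) (nat_lit 5726936022) (nat_lit 205) (nat_lit 5) (nat_lit 211) (nat_lit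 5) (nat_lit 212) (nat_lit 5) (nat_lit 614) (nat_lit 536) (nat_lit 410))))) (XT.nd (nat_lit 312) (nat_lit 1292) (nat_lit 0) (XT.nd (nat_lit 156) (nat_lit 380) (nat_lit 0) (XT.nd (nat_lit 78) (nat_lit 532) (nat_lit 0) (XT.lf (nat_lit 0) (nat_lit 11486923597) (nat_lit 532) (nat_lit 670317387) (nat_lit 76) (nat_lit 1695839775) (nat_lit 205) (nat_lit 5) (nat_lit 212) (nat_lit 5) (nat_lit 206) (nat_lit 5) (nat_lit 615) (nat_lit 536) (nat_lit 409)) (XT.lf (nat_lit 0) (nat_lit 1109462104) (nat_lit 532) (nat_lit 5776438229) (nat_lit 76) (nat_lit 7126926369) (nat_lit 198) (nat_lit 5) (nat_lit 205) (nat_lit 5) (nat_lit 199) (nat_lit 5) (nat_lit 616) (nat_lit 536) (nat_lit 408))) (XT.nd (nat_lit 78) (nat_lit 0) (nat_lit 0) (XT.lf (nat_lit 0) (nat_lit 3156304762) (nat_lit 380) (nat_lit 1475338880) (nat_lit 456) (nat_lit 9543637062) (nat_lit 193) (nat_lit 5) (nat_lit 198) (nat_lit 5) (nat_lit 199) (nat_lit 5) (nat_lit 617) (nat_lit 536) (nat_lit 407)) (XT.lf (nat_lit 0)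 (nat_lit 8273338300) (nat_lit 456) (nat_lit 2044857810) (nat_lit 76) (nat_lit 4021806875) (nat_lit 193) (nat_lit 5) (nat_lit 199) (nat_lit 5) (nat_lit 194) (nat_lit 5) (nat_lit 618) (nat_lit 536) (nat_lit 406)))) (XT.nd (nat_lit 156) (nat_lit 380) (nat_lit 0) (XT.nd (nat_lit 78) (nat_lit 456) (nat_lit 0) (XT.lf (nat_lit 0) (nat_lit 7169328998) (nat_lit 456) (nat_lit 4858971235) (nat_lit 532) (nat_lit 2478911390) (nat_lit 187) (nat_lit 5) (nat_lit 193) (nat_lit 5) (nat_lit 194) (nat_lit 5) (nat_lit 619) (nat_lit 536) (nat_lit 405)) (XT.lf (nat_lit 0) (nat_lit 1180285969) (nat_lit 456) (nat_lit 12770565370) (nat_lit 76) (nat_lit 726456891) (nat_lit 181) (nat_lit 5) (nat_lit 187) (nat_lit 5) (nat_lit 182) (nat_lit 5) (nat_lit 620) (nat_lit 536) (nat_lit 404))) (XT.nd (nat_lit 78) (nat_lit 380) (nat_lit 0) (XT.lf (nat_lit 0) (nat_lit 4945526552) (nat_lit 456) (nat_lit 3486847659) (nat_lit 76) (nat_lit 6416784353) (nat_lit 181) (nat_lit 5) (nat_lit 187) (nat_lit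 5) (nat_lit 182) (nat_lit 5) (nat_lit 621) (nat_lit 536) (nat_lit 403)) (XT.lf (nat_lit 0) (nat_lit 6038373913) (nat_lit 380) (nat_lit 2771486593) (nat_lit 456) (nat_lit 6214110160) (nat_lit 176) (nat_lit 5) (nat_lit 181) (nat_lit 5) (nat_lit 182) (nat_lit 5) (nat_lit 622) (nat_lit 536) (nat_lit 402))))))) (XT.nd (nat_lit 1092) (nat_lit 2812) (nat_lit 0) (XT.nd (nat_lit 546) (nat_lit 1824) (nat_lit 0) (XT.nd (nat_lit 234) (nat_lit 836) (nat_lit 0) (XT.nd (nat_lit 78) (nat_lit 456) (nat_lit 0) (XT.lf (nat_lit 0) (nat_lit 563833475) (nat_lit 380) (nat_lit 12219040404) (nat_lit 456) (nat_lit 2418777801) (nat_lit 171) (nat_lit 5) (nat_lit 176) (nat_lit 5) (nat_lit 177) (nat_lit 5) (nat_lit 623) (nat_lit 536) (nat_lit 401)) (XT.nd (nat_lit 78) (nat_lit 380) (nat_lit 0) (XT.lf (nat_lit 0) (nat_lit 1497194983) (nat_lit 456) (nat_lit 5007324201) (nat_lit 76) (nat_lit 8876903364) (nat_lit 170) (nat_lit 5) (nat_lit 176) (nat_lit 5) (nat_lit 171) (nat_lit 5) (nat_lit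 624) (nat_lit 536) (nat_lit 400)) (XT.lf (nat_lit 0) (nat_lit 4840187883) (nat_lit 380) (nat_lit 635398717) (nat_lit 456) (nat_lit 10088553229) (nat_lit 165) (nat_lit 5) (nat_lit 170) (nat_lit 5) (nat_lit 171) (nat_lit 5) (nat_lit 625) (nat_lit 536) (nat_lit 399)))) (XT.nd (nat_lit 156) (nat_lit 456) (nat_lit 0) (XT.nd (nat_lit 78) (nat_lit 380) (nat_lit 0) (XT.lf (nat_lit 0) (nat_lit 9587236483) (nat_lit 456) (nat_lit 855425256) (nat_lit 76) (nat_lit 5306776391) (nat_lit 165) (nat_lit 5) (nat_lit 171) (nat_lit 5) (nat_lit 166) (nat_lit 5) (nat_lit 626) (nat_lit 536) (nat_lit 398)) (XT.lf (nat_lit 0) (nat_lit 9305616511) (nat_lit 380) (nat_lit 4525543930) (nat_lit 456) (nat_lit 2106281608) (nat_lit 160) (nat_lit 5) (nat_lit 165) (nat_lit 5) (nat_lit 166) (nat_lit 5) (nat_lit 627) (nat_lit 536) (nat_lit 397))) (XT.nd (nat_lit 78) (nat_lit 0) (nat_lit 0) (XT.lf (nat_lit 0) (nat_lit 2028523188) (nat_lit 456) (nat_lit 12575529337) (nat_lit 76) (nat_lit 1524402276)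 (nat_lit 154) (nat_lit 5) (nat_lit 160) (nat_lit 5) (nat_lit 155) (nat_lit 5) (nat_lit 628) (nat_lit 536) (nat_lit 396)) (XT.lf (nat_lit 0) (nat_lit 6278159327) (nat_lit 456) (nat_lit 2358166769) (nat_lit 76) (nat_lit 7685476941) (nat_lit 154) (nat_lit 5) (nat_lit 160) (nat_lit 5) (nat_lit 155) (nat_lit 5) (nat_lit 629) (nat_lit 536) (nat_lit 395))))) (XT.nd (nat_lit 234) (nat_lit 1064) (nat_lit 0) (XT.nd (nat_lit 78) (nat_lit 456) (nat_lit 0) (XT.lf (nat_lit 0) (nat_lit 8148030887) (nat_lit 304) (nat_lit 2503486921) (nat_lit 380) (nat_lit 5866726275) (nat_lit 150) (nat_lit 5) (nat_lit 154) (nat_lit 5) (nat_lit 155) (nat_lit 5) (nat_lit 630) (nat_lit 536) (nat_lit 394)) (XT.nd (nat_lit 78) (nat_lit 76) (nat_lit 0) (XT.lf (nat_lit 0) (nat_lit 2159420572) (nat_lit 380) (nat_lit 12993140760) (nat_lit 456) (nat_lit 1565248689) (nat_lit 145) (nat_lit 5) (nat_lit 150) (nat_lit 5) (nat_lit 151) (nat_lit 5) (nat_lit 631) (nat_lit 536) (nat_lit 393)) (XT.lf (nat_lit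 0) (nat_lit 2844310139) (nat_lit 456) (nat_lit 3964907124) (nat_lit 76) (nat_lit 10110602627) (nat_lit 144) (nat_lit 5) (nat_lit 150) (nat_lit 5) (nat_lit 145) (nat_lit 5) (nat_lit 632) (nat_lit 536) (nat_lit 392)))) (XT.nd (nat_lit 156) (nat_lit 380) (nat_lit 0) (XT.nd (nat_lit 78) (nat_lit 380) (nat_lit 0) (XT.lf (nat_lit 0) (nat_lit 6898499772) (nat_lit 304) (nat_lit 453632707) (nat_lit 380) (nat_lit 9772910335) (nat_lit 140) (nat_lit 5) (nat_lit 144) (nat_lit 5) (nat_lit 145) (nat_lit 5) (nat_lit 633) (nat_lit 536) (nat_lit 391)) (XT.lf (nat_lit 0) (nat_lit 646106073) (nat_lit 380) (nat_lit 11360423715) (nat_lit 456) (nat_lit 5326712435) (nat_lit 135) (nat_lit 5) (nat_lit 140) (nat_lit 5) (nat_lit 141) (nat_lit 5) (nat_lit 634) (nat_lit 536) (nat_lit 390))) (XT.nd (nat_lit 78) (nat_lit 380) (nat_lit 0) (XT.lf (nat_lit 0) (nat_lit 11849804183) (nat_lit 380) (nat_lit 4962242823) (nat_lit 456) (nat_lit 732398364) (nat_lit 135) (nat_lit 5) (nat_lit 140) (nat_lit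 5) (nat_lit 141) (nat_lit 5) (nat_lit 635) (nat_lit 536) (nat_lit 389)) (XT.lf (nat_lit 0) (nat_lit 3935043887) (nat_lit 380) (nat_lit 12226416269) (nat_lit 76) (nat_lit 1597237448) (nat_lit 130) (nat_lit 5) (nat_lit 135) (nat_lit 5) (nat_lit 131) (nat_lit 5) (nat_lit 636) (nat_lit 536) (nat_lit 388)))))) (XT.nd (nat_lit 546) (nat_lit 1520) (nat_lit 0) (XT.nd (nat_lit 234) (nat_lit 608) (nat_lit 0) (XT.nd (nat_lit 78) (nat_lit 684) (nat_lit 0) (XT.lf (nat_lit 0) (nat_lit 8744035370) (nat_lit 380) (nat_lit 975301628) (nat_lit 76) (nat_lit 8256641286) (nat_lit 130) (nat_lit 5) (nat_lit 135) (nat_lit 5) (nat_lit 131) (nat_lit 5) (nat_lit 637) (nat_lit 536) (nat_lit 387)) (XT.nd (nat_lit 78) (nat_lit 380) (nat_lit 0) (XT.lf (nat_lit 0) (nat_lit 10618729533) (nat_lit 304) (nat_lit 3086350773) (nat_lit 380) (nat_lit 4491407157) (nat_lit 126) (nat_lit 5) (nat_lit 130) (nat_lit 5) (nat_lit 131) (nat_lit 5) (nat_lit 638) (nat_lit 536) (nat_lit 386)) (XT.lf (nat_lit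 0) (nat_lit 383446754) (nat_lit 380) (nat_lit 14378797358) (nat_lit 76) (nat_lit 3658238033) (nat_lit 121) (nat_lit 5) (nat_lit 126) (nat_lit 5) (nat_lit 122) (nat_lit 5) (nat_lit 639) (nat_lit 536) (nat_lit 385)))) (XT.nd (nat_lit 156) (nat_lit 304) (nat_lit 0) (XT.nd (nat_lit 78) (nat_lit 304) (nat_lit 0) (XT.lf (nat_lit 0) (nat_lit 5354366436) (nat_lit 380) (nat_lit 2723694498) (nat_lit 76) (nat_lit 10569128189) (nat_lit 121) (nat_lit 5) (nat_lit 126) (nat_lit 5) (nat_lit 122) (nat_lit 5) (nat_lit 640) (nat_lit 536) (nat_lit 384)) (XT.lf (nat_lit 0) (nat_lit 9264974114) (nat_lit 304) (nat_lit 1207164658) (nat_lit 380) (nat_lit 8405343114) (nat_lit 117) (nat_lit 5) (nat_lit 121) (nat_lit 5) (nat_lit 122) (nat_lit 5) (nat_lit 641) (nat_lit 536) (nat_lit 383))) (XT.nd (nat_lit 78) (nat_lit 76) (nat_lit 0) (XT.lf (nat_lit 0) (nat_lit 2390782955) (nat_lit 228) (nat_lit 13360409173) (nat_lit 304) (nat_lit 3360010190) (nat_lit 114) (nat_lit 5) (nat_lit 117) (nat_lit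 5) (nat_lit 118) (nat_lit 5) (nat_lit 642) (nat_lit 536) (nat_lit 382)) (XT.lf (nat_lit 0) (nat_lit 1823097641) (nat_lit 304) (nat_lit 4625024017) (nat_lit 76) (nat_lit 12900037968) (nat_lit 113) (nat_lit 5) (nat_lit 117) (nat_lit 5) (nat_lit 114) (nat_lit 5) (nat_lit 643) (nat_lit 536) (nat_lit 381))))) (XT.nd (nat_lit 312) (nat_lit 608) (nat_lit 0) (XT.nd (nat_lit 156) (nat_lit 380) (nat_lit 0) (XT.nd (nat_lit 78) (nat_lit 228) (nat_lit 0) (XT.lf (nat_lit 0) (nat_lit 7107329727) (nat_lit 380) (nat_lit 11821763027) (nat_lit 76) (nat_lit 659470384) (nat_lit 109) (nat_lit 5) (nat_lit 114) (nat_lit 5) (nat_lit 110) (nat_lit 5) (nat_lit 644) (nat_lit 536) (nat_lit 380)) (XT.lf (nat_lit 0) (nat_lit 579919032) (nat_lit 228) (nat_lit 11982708521) (nat_lit 304) (nat_lit 7269839847) (nat_lit 106) (nat_lit 5) (nat_lit 109) (nat_lit 5) (nat_lit 110) (nat_lit 5) (nat_lit 645) (nat_lit 536) (nat_lit 379))) (XT.nd (nat_lit 78) (nat_lit 380) (nat_lit 0) (XT.lf (nat_lit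 0) (nat_lit 13369240021) (nat_lit 228) (nat_lit 4824900492) (nat_lit 304) (nat_lit 1885767348) (nat_lit 106) (nat_lit 5) (nat_lit 109) (nat_lit 5) (nat_lit 110) (nat_lit 5) (nat_lit 646) (nat_lit 536) (nat_lit 378)) (XT.lf (nat_lit 0) (nat_lit 3602797875) (nat_lit 380) (nat_lit 14229230905) (nat_lit 76) (nat_lit 2498918294) (nat_lit 101) (nat_lit 5) (nat_lit 106) (nat_lit 5) (nat_lit 102) (nat_lit 5) (nat_lit 647) (nat_lit 536) (nat_lit 377)))) (XT.nd (nat_lit 156) (nat_lit 380) (nat_lit 0) (XT.nd (nat_lit 78) (nat_lit 228) (nat_lit 0) (XT.lf (nat_lit 0) (nat_lit 9241180815) (nat_lit 380) (nat_lit 1389982355) (nat_lit 76) (nat_lit 9954288944) (nat_lit 101) (nat_lit 5) (nat_lit 106) (nat_lit 5) (nat_lit 102) (nat_lit 5) (nat_lit 648) (nat_lit 536) (nat_lit 376)) (XT.lf (nat_lit 0) (nat_lit 11841304037) (nat_lit 228) (nat_lit 3216134380) (nat_lit 304) (nat_lit 5786306971) (nat_lit 98) (nat_lit 5) (nat_lit 101) (nat_lit 5) (nat_lit 102) (nat_lit 5) (nat_lit 649)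 (nat_lit 536) (nat_lit 375))) (XT.nd (nat_lit 78) (nat_lit 76) (nat_lit 0) (XT.lf (nat_lit 0) (nat_lit 4256481357) (nat_lit 304) (nat_lit 16787063324) (nat_lit 380) (nat_lit 62589644) (nat_lit 94) (nat_lit 5) (nat_lit 98) (nat_lit 5) (nat_lit 99) (nat_lit 5) (nat_lit 650) (nat_lit 536) (nat_lit 374)) (XT.lf (nat_lit 0) (nat_lit 5770260576) (nat_lit 380) (nat_lit 3549267702) (nat_lit 76) (nat_lit 12052084905) (nat_lit 93) (nat_lit 5) (nat_lit 98) (nat_lit 5) (nat_lit 94) (nat_lit 5) (nat_lit 651) (nat_lit 536) (nat_lit 373))))))))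
noncomputable def xc107 : XT := (XT.nd (nat_lit 74022) (nat_lit 0) (nat_lit 18848) (XT.nd (nat_lit 72852) (nat_lit 0) (nat_lit 38988) (XT.nd (nat_lit 72306) (nat_lit 0) (nat_lit 43852) (XT.nd (nat_lit 234) (nat_lit 456) (nat_lit 0) (XT.nd (nat_lit 78) (nat_lit 304) (nat_lit 0) (XT.lf (nat_lit 0) (nat_lit 10129840098) (nat_lit 228) (nat_lit 1643386041) (nat_lit 304) (nat_lit 9868081528) (nat_lit 90) (nat_lit 5) (nat_lit 93) (nat_lit 5) (nat_lit 94) (nat_lit 5) (nat_lit 652) (nat_lit 536) (nat_lit 372)) (XT.nd (nat_lit 78) (nat_lit 76) (nat_lit 0) (XT.lf (nat_lit 0) (nat_lit 2183262361) (nat_lit 228) (nat_lit 15779874831) (nat_lit 304) (nat_lit 3951921373) (nat_lit 87) (nat_lit 5) (nat_lit 90) (nat_lit 5) (nat_lit 91) (nat_lit 5) (nat_lit 653) (nat_lit 536) (nat_lit 371)) (XT.lf (nat_lit 0) (nat_lit 2132483424) (nat_lit 304) (nat_lit 5929519719) (nat_lit 76) (nat_lit 14130466454) (nat_lit 86) (nat_lit 5) (nat_lit 90) (nat_lit 5) (nat_lit 87) (nat_lit 5) (nat_lit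 654) (nat_lit 536) (nat_lit 370)))) (XT.nd (nat_lit 156) (nat_lit 228) (nat_lit 0) (XT.nd (nat_lit 78) (nat_lit 0) (nat_lit 0) (XT.lf (nat_lit 0) (nat_lit 8210914565) (nat_lit 228) (nat_lit 116921066) (nat_lit 304) (nat_lit 14146227496) (nat_lit 83) (nat_lit 5) (nat_lit 86) (nat_lit 5) (nat_lit 87) (nat_lit 5) (nat_lit 655) (nat_lit 536) (nat_lit 369)) (XT.lf (nat_lit 0) (nat_lit 14727862282) (nat_lit 304) (nat_lit 117524731) (nat_lit 76) (nat_lit 7914286395) (nat_lit 83) (nat_lit 5) (nat_lit 87) (nat_lit 5) (nat_lit 84) (nat_lit 5) (nat_lit 656) (nat_lit 536) (nat_lit 368))) (XT.nd (nat_lit 71838) (nat_lit 0) (nat_lit 46056) (XT.lf (nat_lit 0) (nat_lit 14481095791) (nat_lit 228) (nat_lit 6858663748) (nat_lit 304) (nat_lit 1709559178) (nat_lit 80) (nat_lit 5) (nat_lit 83) (nat_lit 5) (nat_lit 84) (nat_lit 5) (nat_lit 657) (nat_lit 536) (nat_lit 367)) (XT.lf (nat_lit 0) (nat_lit 1407075054) (nat_lit 0) (nat_lit 1407075054) (nat_lit 988) (nat_lit 681537965)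 (nat_lit 686) (nat_lit 5) (nat_lit 686) (nat_lit 3) (nat_lit 699) (nat_lit 3) (nat_lit 537) (nat_lit 537) (nat_lit 486))))) (XT.nd (nat_lit 234) (nat_lit 1064) (nat_lit 0) (XT.nd (nat_lit 78) (nat_lit 0) (nat_lit 76) (XT.lf (nat_lit 0) (nat_lit 482808322) (nat_lit 1140) (nat_lit 695814278) (nat_lit 1140) (nat_lit 5845866481) (nat_lit 671) (nat_lit 3) (nat_lit 686) (nat_lit 3) (nat_lit 686) (nat_lit 5) (nat_lit 538) (nat_lit 537) (nat_lit 485)) (XT.nd (nat_lit 78) (nat_lit 0) (nat_lit 0) (XT.lf (nat_lit 0) (nat_lit 2321151786) (nat_lit 1064) (nat_lit 4203138000) (nat_lit 1140) (nat_lit 534322373) (nat_lit 672) (nat_lit 5) (nat_lit 686) (nat_lit 5) (nat_lit 687) (nat_lit 5) (nat_lit 539) (nat_lit 537) (nat_lit 484)) (XT.lf (nat_lit 0) (nat_lit 4161403421) (nat_lit 1064) (nat_lit 639518093) (nat_lit 1140) (nat_lit 2293197226) (nat_lit 672) (nat_lit 5) (nat_lit 686) (nat_lit 5) (nat_lit 687) (nat_lit 5) (nat_lit 540) (nat_lit 537) (nat_lit 483)))) (XT.nd (nat_lit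 156) (nat_lit 0) (nat_lit 76) (XT.nd (nat_lit 78) (nat_lit 1140) (nat_lit 0) (XT.lf (nat_lit 76) (nat_lit 3009771710) (nat_lit 0) (nat_lit 3001794177) (nat_lit 1140) (nat_lit 1119311243) (nat_lit 673) (nat_lit 5) (nat_lit 672) (nat_lit 5) (nat_lit 687) (nat_lit 5) (nat_lit 541) (nat_lit 537) (nat_lit 482)) (XT.lf (nat_lit 0) (nat_lit 679108919) (nat_lit 1140) (nat_lit 457865210) (nat_lit 1216) (nat_lit 6032138827) (nat_lit 657) (nat_lit 5) (nat_lit 672) (nat_lit 5) (nat_lit 673) (nat_lit 5) (nat_lit 542) (nat_lit 537) (nat_lit 481))) (XT.nd (nat_lit 78) (nat_lit 0) (nat_lit 0) (XT.lf (nat_lit 0) (nat_lit 2480077844) (nat_lit 1140) (nat_lit 3924390254) (nat_lit 1216) (nat_lit 803869643) (nat_lit 658) (nat_lit 5) (nat_lit 673) (nat_lit 5) (nat_lit 674) (nat_lit 5) (nat_lit 543) (nat_lit 537) (nat_lit 480)) (XT.lf (nat_lit 0) (nat_lit 4283446748) (nat_lit 1140) (nat_lit 174911094) (nat_lit 1216) (nat_lit 2790665070) (nat_lit 658) (nat_lit 5) (nat_lit 673) (nat_lit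 5) (nat_lit 674) (nat_lit 5) (nat_lit 544) (nat_lit 537) (nat_lit 479)))))) (XT.nd (nat_lit 546) (nat_lit 2584) (nat_lit 0) (XT.nd (nat_lit 234) (nat_lit 1140) (nat_lit 0) (XT.nd (nat_lit 78) (nat_lit 1216) (nat_lit 0) (XT.lf (nat_lit 76) (nat_lit 3672350133) (nat_lit 0) (nat_lit 2431001824) (nat_lit 1216) (nat_lit 1187563886) (nat_lit 659) (nat_lit 5) (nat_lit 658) (nat_lit 5) (nat_lit 674) (nat_lit 5) (nat_lit 545) (nat_lit 537) (nat_lit 478)) (XT.nd (nat_lit 78) (nat_lit 0) (nat_lit 76) (XT.lf (nat_lit 76) (nat_lit 238582680) (nat_lit 0) (nat_lit 338972706) (nat_lit 1292) (nat_lit 6756818120) (nat_lit 643) (nat_lit 5) (nat_lit 642) (nat_lit 5) (nat_lit 659) (nat_lit 5) (nat_lit 546) (nat_lit 537) (nat_lit 477)) (XT.lf (nat_lit 0) (nat_lit 2355998492) (nat_lit 1216) (nat_lit 3202535624) (nat_lit 1292) (nat_lit 1820133987) (nat_lit 643) (nat_lit 5) (nat_lit 659) (nat_lit 5) (nat_lit 660) (nat_lit 5) (nat_lit 547) (nat_lit 537) (nat_lit 476)))) (XT.nd (nat_lit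 156) (nat_lit 1216) (nat_lit 0) (XT.nd (nat_lit 78) (nat_lit 0) (nat_lit 0) (XT.lf (nat_lit 76) (nat_lit 750132392) (nat_lit 0) (nat_lit 3385631619) (nat_lit 1292) (nat_lit 3288772683) (nat_lit 644) (nat_lit 5) (nat_lit 643) (nat_lit 5) (nat_lit 660) (nat_lit 5) (nat_lit 548) (nat_lit 537) (nat_lit 475)) (XT.lf (nat_lit 76) (nat_lit 4799390778) (nat_lit 0) (nat_lit 1132506126) (nat_lit 1292) (nat_lit 1539813423) (nat_lit 644) (nat_lit 5) (nat_lit 643) (nat_lit 5) (nat_lit 660) (nat_lit 5) (nat_lit 549) (nat_lit 537) (nat_lit 474))) (XT.nd (nat_lit 78) (nat_lit 0) (nat_lit 0) (XT.lf (nat_lit 0) (nat_lit 217561702) (nat_lit 1292) (nat_lit 6127464209) (nat_lit 1368) (nat_lit 1175240043) (nat_lit 627) (nat_lit 5) (nat_lit 644) (nat_lit 5) (nat_lit 645) (nat_lit 5) (nat_lit 550) (nat_lit 537) (nat_lit 473)) (XT.lf (nat_lit 0) (nat_lit 1975560087) (nat_lit 1292) (nat_lit 2038418406) (nat_lit 1368) (nat_lit 3555891691) (nat_lit 627) (nat_lit 5) (nat_lit 644) (nat_lit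 5) (nat_lit 645) (nat_lit 5) (nat_lit 551) (nat_lit 537) (nat_lit 472))))) (XT.nd (nat_lit 312) (nat_lit 1292) (nat_lit 0) (XT.nd (nat_lit 156) (nat_lit 1292) (nat_lit 0) (XT.nd (nat_lit 78) (nat_lit 0) (nat_lit 76) (XT.lf (nat_lit 76) (nat_lit 2134304423) (nat_lit 0) (nat_lit 1609568506) (nat_lit 1368) (nat_lit 3877093355) (nat_lit 628) (nat_lit 5) (nat_lit 627) (nat_lit 5) (nat_lit 645) (nat_lit 5) (nat_lit 552) (nat_lit 537) (nat_lit 471)) (XT.lf (nat_lit 0) (nat_lit 5528761203) (nat_lit 1292) (nat_lit 1287029358) (nat_lit 1368) (nat_lit 857672377) (nat_lit 628) (nat_lit 5) (nat_lit 645) (nat_lit 5) (nat_lit 646) (nat_lit 5) (nat_lit 553) (nat_lit 537) (nat_lit 470))) (XT.nd (nat_lit 78) (nat_lit 1368) (nat_lit 0) (XT.lf (nat_lit 76) (nat_lit 2999025839) (nat_lit 0) (nat_lit 4343165078) (nat_lit 1368) (nat_lit 384964499) (nat_lit 629) (nat_lit 5) (nat_lit 628) (nat_lit 5) (nat_lit 646) (nat_lit 5) (nat_lit 554) (nat_lit 537) (nat_lit 469)) (XT.lf (nat_lit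 0) (nat_lit 1363197929) (nat_lit 1368) (nat_lit 429277144) (nat_lit 1444) (nat_lit 5989831788) (nat_lit 610) (nat_lit 5) (nat_lit 628) (nat_lit 5) (nat_lit 629) (nat_lit 5) (nat_lit 555) (nat_lit 537) (nat_lit 468)))) (XT.nd (nat_lit 156) (nat_lit 1368) (nat_lit 0) (XT.nd (nat_lit 78) (nat_lit 0) (nat_lit 0) (XT.lf (nat_lit 0) (nat_lit 3136270792) (nat_lit 1368) (nat_lit 3865083100) (nat_lit 1444) (nat_lit 837257115) (nat_lit 611) (nat_lit 5) (nat_lit 629) (nat_lit 5) (nat_lit 630) (nat_lit 5) (nat_lit 556) (nat_lit 537) (nat_lit 467)) (XT.lf (nat_lit 76) (nat_lit 542800657) (nat_lit 0) (nat_lit 4384659206) (nat_lit 1444) (nat_lit 2968930831) (nat_lit 612) (nat_lit 5) (nat_lit 611) (nat_lit 5) (nat_lit 630) (nat_lit 5) (nat_lit 557) (nat_lit 537) (nat_lit 466))) (XT.nd (nat_lit 78) (nat_lit 1368) (nat_lit 0) (XT.lf (nat_lit 76) (nat_lit 5064756759) (nat_lit 0) (nat_lit 1680539690) (nat_lit 1444) (nat_lit 1210215553) (nat_lit 612) (nat_lit 5) (nat_lit 611)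 (nat_lit 5) (nat_lit 630) (nat_lit 5) (nat_lit 558) (nat_lit 537) (nat_lit 465)) (XT.lf (nat_lit 0) (nat_lit 559241732) (nat_lit 1444) (nat_lit 6370565235) (nat_lit 76) (nat_lit 1086270928) (nat_lit 593) (nat_lit 5) (nat_lit 612) (nat_lit 5) (nat_lit 594) (nat_lit 5) (nat_lit 559) (nat_lit 537) (nat_lit 464))))))) (XT.nd (nat_lit 1170) (nat_lit 8132) (nat_lit 0) (XT.nd (nat_lit 546) (nat_lit 5700) (nat_lit 0) (XT.nd (nat_lit 234) (nat_lit 4864) (nat_lit 0) (XT.nd (nat_lit 78) (nat_lit 1444) (nat_lit 0) (XT.lf (nat_lit 0) (nat_lit 2344460340) (nat_lit 1444) (nat_lit 1812032869) (nat_lit 76) (nat_lit 3921272724) (nat_lit 593) (nat_lit 5) (nat_lit 612) (nat_lit 5) (nat_lit 594) (nat_lit 5) (nat_lit 560) (nat_lit 537) (nat_lit 463)) (XT.nd (nat_lit 78) (nat_lit 0) (nat_lit 0) (XT.lf (nat_lit 0) (nat_lit 2848574748) (nat_lit 1444) (nat_lit 1301877387) (nat_lit 1520) (nat_lit 3990536533) (nat_lit 574) (nat_lit 5) (nat_lit 593) (nat_lit 5) (nat_lit 594) (nat_lit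 5) (nat_lit 561) (nat_lit 537) (nat_lit 462)) (XT.lf (nat_lit 0) (nat_lit 5982358078) (nat_lit 1520) (nat_lit 615793432) (nat_lit 76) (nat_lit 1607530727) (nat_lit 574) (nat_lit 5) (nat_lit 594) (nat_lit 5) (nat_lit 575) (nat_lit 5) (nat_lit 562) (nat_lit 537) (nat_lit 461)))) (XT.nd (nat_lit 156) (nat_lit 1672) (nat_lit 0) (XT.nd (nat_lit 78) (nat_lit 1672) (nat_lit 0) (XT.lf (nat_lit 0) (nat_lit 4174024715) (nat_lit 1520) (nat_lit 3680346724) (nat_lit 1596) (nat_lit 417231074) (nat_lit 554) (nat_lit 5) (nat_lit 574) (nat_lit 5) (nat_lit 575) (nat_lit 5) (nat_lit 563) (nat_lit 537) (nat_lit 460)) (XT.lf (nat_lit 0) (nat_lit 702451867) (nat_lit 1596) (nat_lit 680559675) (nat_lit 1672) (nat_lit 6956112418) (nat_lit 532) (nat_lit 5) (nat_lit 553) (nat_lit 5) (nat_lit 554) (nat_lit 5) (nat_lit 564) (nat_lit 537) (nat_lit 459))) (XT.nd (nat_lit 78) (nat_lit 1672) (nat_lit 0) (XT.lf (nat_lit 0) (nat_lit 3225287960) (nat_lit 1672) (nat_lit 2799012170) (nat_lit 76)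 (nat_lit 2383410328) (nat_lit 532) (nat_lit 5) (nat_lit 554) (nat_lit 5) (nat_lit 533) (nat_lit 5) (nat_lit 565) (nat_lit 537) (nat_lit 458)) (XT.lf (nat_lit 0) (nat_lit 2132191905) (nat_lit 1672) (nat_lit 2959670536) (nat_lit 1748) (nat_lit 3386059245) (nat_lit 510) (nat_lit 5) (nat_lit 532) (nat_lit 5) (nat_lit 533) (nat_lit 5) (nat_lit 566) (nat_lit 537) (nat_lit 457))))) (XT.nd (nat_lit 312) (nat_lit 2052) (nat_lit 0) (XT.nd (nat_lit 156) (nat_lit 1824) (nat_lit 0) (XT.nd (nat_lit 78) (nat_lit 1824) (nat_lit 0) (XT.lf (nat_lit 0) (nat_lit 6985316628) (nat_lit 1748) (nat_lit 1377531650) (nat_lit 76) (nat_lit 186899910) (nat_lit 510) (nat_lit 5) (nat_lit 533) (nat_lit 5) (nat_lit 511) (nat_lit 5) (nat_lit 567) (nat_lit 537) (nat_lit 456)) (XT.lf (nat_lit 0) (nat_lit 303598129) (nat_lit 1824) (nat_lit 4932477160) (nat_lit 76) (nat_lit 3386623328) (nat_lit 486) (nat_lit 5) (nat_lit 510) (nat_lit 5) (nat_lit 487) (nat_lit 5) (nat_lit 568) (nat_lit 537) (nat_lit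 455))) (XT.nd (nat_lit 78) (nat_lit 0) (nat_lit 0) (XT.lf (nat_lit 0) (nat_lit 145752662) (nat_lit 1824) (nat_lit 2022934284) (nat_lit 1900) (nat_lit 6528603261) (nat_lit 462) (nat_lit 5) (nat_lit 486) (nat_lit 5) (nat_lit 487) (nat_lit 5) (nat_lit 569) (nat_lit 537) (nat_lit 454)) (XT.lf (nat_lit 0) (nat_lit 4083340940) (nat_lit 1900) (nat_lit 3415910559) (nat_lit 76) (nat_lit 1273878721) (nat_lit 462) (nat_lit 5) (nat_lit 487) (nat_lit 5) (nat_lit 463) (nat_lit 5) (nat_lit 570) (nat_lit 537) (nat_lit 453)))) (XT.nd (nat_lit 156) (nat_lit 988) (nat_lit 0) (XT.nd (nat_lit 78) (nat_lit 0) (nat_lit 0) (XT.lf (nat_lit 0) (nat_lit 1806009386) (nat_lit 1064) (nat_lit 4226773737) (nat_lit 1140) (nat_lit 2817775830) (nat_lit 448) (nat_lit 5) (nat_lit 462) (nat_lit 5) (nat_lit 463) (nat_lit 5) (nat_lit 571) (nat_lit 537) (nat_lit 452)) (XT.lf (nat_lit 0) (nat_lit 7152138211) (nat_lit 1064) (nat_lit 863759935) (nat_lit 1140) (nat_lit 913746221) (nat_lit 448) (nat_lit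 5) (nat_lit 462) (nat_lit 5) (nat_lit 463) (nat_lit 5) (nat_lit 572) (nat_lit 537) (nat_lit 451))) (XT.nd (nat_lit 78) (nat_lit 0) (nat_lit 0) (XT.lf (nat_lit 0) (nat_lit 1027312424) (nat_lit 988) (nat_lit 5417989926) (nat_lit 76) (nat_lit 2564628609) (nat_lit 435) (nat_lit 5) (nat_lit 448) (nat_lit 5) (nat_lit 436) (nat_lit 5) (nat_lit 573) (nat_lit 537) (nat_lit 450)) (XT.lf (nat_lit 0) (nat_lit 2985210556) (nat_lit 988) (nat_lit 37334768) (nat_lit 76) (nat_lit 6069353777) (nat_lit 435) (nat_lit 5) (nat_lit 448) (nat_lit 5) (nat_lit 436) (nat_lit 5) (nat_lit 574) (nat_lit 537) (nat_lit 449)))))) (XT.nd (nat_lit 546) (nat_lit 3800) (nat_lit 0) (XT.nd (nat_lit 234) (nat_lit 2584) (nat_lit 0) (XT.nd (nat_lit 78) (nat_lit 836) (nat_lit 0) (XT.lf (nat_lit 0) (nat_lit 4994292777) (nat_lit 988) (nat_lit 3681838768) (nat_lit 76) (nat_lit 499136189) (nat_lit 423) (nat_lit 5) (nat_lit 436) (nat_lit 5) (nat_lit 424) (nat_lit 5) (nat_lit 575) (nat_lit 537) (nat_lit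 448)) (XT.nd (nat_lit 78) (nat_lit 0) (nat_lit 0) (XT.lf (nat_lit 0) (nat_lit 1852684786) (nat_lit 836) (nat_lit 5196585781) (nat_lit 912) (nat_lit 2210920514) (nat_lit 412) (nat_lit 5) (nat_lit 423) (nat_lit 5) (nat_lit 424) (nat_lit 5) (nat_lit 576) (nat_lit 537) (nat_lit 447)) (XT.lf (nat_lit 0) (nat_lit 7521371851) (nat_lit 836) (nat_lit 1622448772) (nat_lit 912) (nat_lit 203024403) (nat_lit 412) (nat_lit 5) (nat_lit 423) (nat_lit 5) (nat_lit 424) (nat_lit 5) (nat_lit 577) (nat_lit 537) (nat_lit 446)))) (XT.nd (nat_lit 156) (nat_lit 836) (nat_lit 0) (XT.nd (nat_lit 78) (nat_lit 836) (nat_lit 0) (XT.lf (nat_lit 0) (nat_lit 1833516559) (nat_lit 912) (nat_lit 5567530391) (nat_lit 76) (nat_lit 2033693346) (nat_lit 400) (nat_lit 5) (nat_lit 412) (nat_lit 5) (nat_lit 401) (nat_lit 5) (nat_lit 578) (nat_lit 537) (nat_lit 445)) (XT.lf (nat_lit 0) (nat_lit 137375462) (nat_lit 836) (nat_lit 3769107538) (nat_lit 912) (nat_lit 5617916863) (nat_lit 389) (nat_lit 5)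 (nat_lit 400) (nat_lit 5) (nat_lit 401) (nat_lit 5) (nat_lit 579) (nat_lit 537) (nat_lit 444))) (XT.nd (nat_lit 78) (nat_lit 836) (nat_lit 0) (XT.lf (nat_lit 0) (nat_lit 6005424930) (nat_lit 836) (nat_lit 27617433) (nat_lit 912) (nat_lit 3582569053) (nat_lit 389) (nat_lit 5) (nat_lit 400) (nat_lit 5) (nat_lit 401) (nat_lit 5) (nat_lit 580) (nat_lit 537) (nat_lit 443)) (XT.lf (nat_lit 0) (nat_lit 2260846622) (nat_lit 836) (nat_lit 5955823551) (nat_lit 912) (nat_lit 1491687719) (nat_lit 378) (nat_lit 5) (nat_lit 389) (nat_lit 5) (nat_lit 390) (nat_lit 5) (nat_lit 581) (nat_lit 537) (nat_lit 442))))) (XT.nd (nat_lit 312) (nat_lit 2204) (nat_lit 0) (XT.nd (nat_lit 156) (nat_lit 760) (nat_lit 0) (XT.nd (nat_lit 78) (nat_lit 760) (nat_lit 0) (XT.lf (nat_lit 0) (nat_lit 632585141) (nat_lit 912) (nat_lit 1535291268) (nat_lit 76) (nat_lit 7635001413) (nat_lit 377) (nat_lit 5) (nat_lit 389) (nat_lit 5) (nat_lit 378) (nat_lit 5) (nat_lit 582) (nat_lit 537) (nat_lit 441))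 (XT.lf (nat_lit 0) (nat_lit 2795876815) (nat_lit 836) (nat_lit 5391717443) (nat_lit 76) (nat_lit 1711167906) (nat_lit 367) (nat_lit 5) (nat_lit 378) (nat_lit 5) (nat_lit 368) (nat_lit 5) (nat_lit 583) (nat_lit 537) (nat_lit 440))) (XT.nd (nat_lit 78) (nat_lit 0) (nat_lit 0) (XT.lf (nat_lit 0) (nat_lit 662625057) (nat_lit 760) (nat_lit 4345023982) (nat_lit 836) (nat_lit 4988812188) (nat_lit 357) (nat_lit 5) (nat_lit 367) (nat_lit 5) (nat_lit 368) (nat_lit 5) (nat_lit 584) (nat_lit 537) (nat_lit 439)) (XT.lf (nat_lit 0) (nat_lit 6884992789) (nat_lit 760) (nat_lit 391327251) (nat_lit 836) (nat_lit 2819542264) (nat_lit 357) (nat_lit 5) (nat_lit 367) (nat_lit 5) (nat_lit 368) (nat_lit 5) (nat_lit 585) (nat_lit 537) (nat_lit 438)))) (XT.nd (nat_lit 156) (nat_lit 1444) (nat_lit 0) (XT.nd (nat_lit 78) (nat_lit 76) (nat_lit 0) (XT.lf (nat_lit 0) (nat_lit 3024499928) (nat_lit 684) (nat_lit 6586070727) (nat_lit 760) (nat_lit 586277902) (nat_lit 348) (nat_lit 5) (nat_lit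 357) (nat_lit 5) (nat_lit 358) (nat_lit 5) (nat_lit 586) (nat_lit 537) (nat_lit 437)) (XT.lf (nat_lit 0) (nat_lit 1670804831) (nat_lit 760) (nat_lit 911255508) (nat_lit 76) (nat_lit 7717548966) (nat_lit 347) (nat_lit 5) (nat_lit 357) (nat_lit 5) (nat_lit 348) (nat_lit 5) (nat_lit 587) (nat_lit 537) (nat_lit 436))) (XT.nd (nat_lit 78) (nat_lit 684) (nat_lit 0) (XT.lf (nat_lit 0) (nat_lit 3988514445) (nat_lit 836) (nat_lit 4896233341) (nat_lit 76) (nat_lit 1519134470) (nat_lit 337) (nat_lit 5) (nat_lit 348) (nat_lit 5) (nat_lit 338) (nat_lit 5) (nat_lit 588) (nat_lit 537) (nat_lit 435)) (XT.lf (nat_lit 0) (nat_lit 1534190188) (nat_lit 684) (nat_lit 4829366341) (nat_lit 760) (nat_lit 4146465751) (nat_lit 328) (nat_lit 5) (nat_lit 337) (nat_lit 5) (nat_lit 338) (nat_lit 5) (nat_lit 589) (nat_lit 537) (nat_lit 434))))))))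
noncomputable def xc108 : XT := (XT.nd (nat_lit 2262) (nat_lit 6612) (nat_lit 0) (XT.nd (nat_lit 1092) (nat_lit 5092) (nat_lit 0) (XT.nd (nat_lit 546) (nat_lit 2432) (nat_lit 0) (XT.nd (nat_lit 234) (nat_lit 1368) (nat_lit 0) (XT.nd (nat_lit 78) (nat_lit 1368) (nat_lit 0) (XT.lf (nat_lit 0) (nat_lit 8133806556) (nat_lit 684) (nat_lit 663179882) (nat_lit 760) (nat_lit 1821082081) (nat_lit 328) (nat_lit 5) (nat_lit 337) (nat_lit 5) (nat_lit 338) (nat_lit 5) (nat_lit 590) (nat_lit 537) (nat_lit 433)) (XT.nd (nat_lit 78) (nat_lit 608) (nat_lit 0) (XT.lf (nat_lit 0) (nat_lit 572391537) (nat_lit 760) (nat_lit 6588973252) (nat_lit 76) (nat_lit 3566264356) (nat_lit 318) (nat_lit 5) (nat_lit 328) (nat_lit 5) (nat_lit 319) (nat_lit 5) (nat_lit 591) (nat_lit 537) (nat_lit 432)) (XT.lf (nat_lit 0) (nat_lit 46907588) (nat_lit 608) (nat_lit 2942495213) (nat_lit 684) (nat_lit 7849737475) (nat_lit 310) (nat_lit 5) (nat_lit 318) (nat_lit 5) (nat_lit 319) (nat_lit 5) (nat_lit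 592) (nat_lit 537) (nat_lit 431)))) (XT.nd (nat_lit 156) (nat_lit 684) (nat_lit 0) (XT.nd (nat_lit 78) (nat_lit 684) (nat_lit 0) (XT.lf (nat_lit 0) (nat_lit 5486874853) (nat_lit 684) (nat_lit 4082334580) (nat_lit 76) (nat_lit 1383030854) (nat_lit 310) (nat_lit 5) (nat_lit 319) (nat_lit 5) (nat_lit 311) (nat_lit 5) (nat_lit 593) (nat_lit 537) (nat_lit 430)) (XT.lf (nat_lit 0) (nat_lit 2752858559) (nat_lit 684) (nat_lit 5297991385) (nat_lit 760) (nat_lit 3016422329) (nat_lit 301) (nat_lit 5) (nat_lit 310) (nat_lit 5) (nat_lit 311) (nat_lit 5) (nat_lit 594) (nat_lit 537) (nat_lit 429))) (XT.nd (nat_lit 78) (nat_lit 684) (nat_lit 0) (XT.lf (nat_lit 0) (nat_lit 9754740138) (nat_lit 684) (nat_lit 918195871) (nat_lit 760) (nat_lit 511533286) (nat_lit 301) (nat_lit 5) (nat_lit 310) (nat_lit 5) (nat_lit 311) (nat_lit 5) (nat_lit 595) (nat_lit 537) (nat_lit 428)) (XT.lf (nat_lit 0) (nat_lit 2056242205) (nat_lit 684) (nat_lit 5698694540) (nat_lit 76) (nat_lit 3548017372)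 (nat_lit 292) (nat_lit 5) (nat_lit 301) (nat_lit 5) (nat_lit 293) (nat_lit 5) (nat_lit 596) (nat_lit 537) (nat_lit 427))))) (XT.nd (nat_lit 234) (nat_lit 1216) (nat_lit 0) (XT.nd (nat_lit 78) (nat_lit 608) (nat_lit 0) (XT.lf (nat_lit 0) (nat_lit 1357634234) (nat_lit 608) (nat_lit 3315358739) (nat_lit 684) (nat_lit 6750659620) (nat_lit 284) (nat_lit 5) (nat_lit 292) (nat_lit 5) (nat_lit 293) (nat_lit 5) (nat_lit 597) (nat_lit 537) (nat_lit 426)) (XT.nd (nat_lit 78) (nat_lit 608) (nat_lit 0) (XT.lf (nat_lit 0) (nat_lit 7368554620) (nat_lit 684) (nat_lit 2947320433) (nat_lit 76) (nat_lit 1230361418) (nat_lit 284) (nat_lit 5) (nat_lit 293) (nat_lit 5) (nat_lit 285) (nat_lit 5) (nat_lit 598) (nat_lit 537) (nat_lit 425)) (XT.lf (nat_lit 0) (nat_lit 4323470902) (nat_lit 608) (nat_lit 5825079237) (nat_lit 684) (nat_lit 1522112362) (nat_lit 276) (nat_lit 5) (nat_lit 284) (nat_lit 5) (nat_lit 285) (nat_lit 5) (nat_lit 599) (nat_lit 537) (nat_lit 424)))) (XT.nd (nat_lit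 156) (nat_lit 532) (nat_lit 0) (XT.nd (nat_lit 78) (nat_lit 608) (nat_lit 0) (XT.lf (nat_lit 0) (nat_lit 1171503695) (nat_lit 684) (nat_lit 50508536) (nat_lit 76) (nat_lit 10575401690) (nat_lit 275) (nat_lit 5) (nat_lit 284) (nat_lit 5) (nat_lit 276) (nat_lit 5) (nat_lit 600) (nat_lit 537) (nat_lit 423)) (XT.lf (nat_lit 0) (nat_lit 3950903532) (nat_lit 684) (nat_lit 4493638253) (nat_lit 76) (nat_lit 3480912387) (nat_lit 267) (nat_lit 5) (nat_lit 276) (nat_lit 5) (nat_lit 268) (nat_lit 5) (nat_lit 601) (nat_lit 537) (nat_lit 422))) (XT.nd (nat_lit 78) (nat_lit 0) (nat_lit 0) (XT.lf (nat_lit 0) (nat_lit 3015063397) (nat_lit 532) (nat_lit 3779984168) (nat_lit 608) (nat_lit 5260825398) (nat_lit 260) (nat_lit 5) (nat_lit 267) (nat_lit 5) (nat_lit 268) (nat_lit 5) (nat_lit 602) (nat_lit 537) (nat_lit 421)) (XT.lf (nat_lit 0) (nat_lit 9714094942) (nat_lit 608) (nat_lit 1484973435) (nat_lit 76) (nat_lit 989472185) (nat_lit 260) (nat_lit 5) (nat_lit 268) (nat_lit 5)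 (nat_lit 261) (nat_lit 5) (nat_lit 603) (nat_lit 537) (nat_lit 420)))))) (XT.nd (nat_lit 546) (nat_lit 2356) (nat_lit 0) (XT.nd (nat_lit 234) (nat_lit 1596) (nat_lit 0) (XT.nd (nat_lit 78) (nat_lit 532) (nat_lit 0) (XT.lf (nat_lit 0) (nat_lit 410477141) (nat_lit 608) (nat_lit 6071130731) (nat_lit 76) (nat_lit 5841253961) (nat_lit 252) (nat_lit 5) (nat_lit 260) (nat_lit 5) (nat_lit 253) (nat_lit 5) (nat_lit 604) (nat_lit 537) (nat_lit 419)) (XT.nd (nat_lit 78) (nat_lit 0) (nat_lit 0) (XT.lf (nat_lit 0) (nat_lit 1684699269) (nat_lit 532) (nat_lit 1638030258) (nat_lit 608) (nat_lit 9136758395) (nat_lit 245) (nat_lit 5) (nat_lit 252) (nat_lit 5) (nat_lit 253) (nat_lit 5) (nat_lit 605) (nat_lit 537) (nat_lit 418)) (XT.lf (nat_lit 0) (nat_lit 6337600345) (nat_lit 608) (nat_lit 2966531384) (nat_lit 76) (nat_lit 3293828113) (nat_lit 245) (nat_lit 5) (nat_lit 253) (nat_lit 5) (nat_lit 246) (nat_lit 5) (nat_lit 606) (nat_lit 537) (nat_lit 417)))) (XT.nd (nat_lit 156)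 (nat_lit 608) (nat_lit 0) (XT.nd (nat_lit 78) (nat_lit 456) (nat_lit 0) (XT.lf (nat_lit 0) (nat_lit 5028751017) (nat_lit 532) (nat_lit 4409791512) (nat_lit 608) (nat_lit 3300143957) (nat_lit 238) (nat_lit 5) (nat_lit 245) (nat_lit 5) (nat_lit 246) (nat_lit 5) (nat_lit 607) (nat_lit 537) (nat_lit 416)) (XT.lf (nat_lit 0) (nat_lit 318186889) (nat_lit 456) (nat_lit 12291627609) (nat_lit 532) (nat_lit 272247691) (nat_lit 232) (nat_lit 5) (nat_lit 238) (nat_lit 5) (nat_lit 239) (nat_lit 5) (nat_lit 608) (nat_lit 537) (nat_lit 415))) (XT.nd (nat_lit 78) (nat_lit 532) (nat_lit 0) (XT.lf (nat_lit 0) (nat_lit 2843051799) (nat_lit 532) (nat_lit 4488187288) (nat_lit 76) (nat_lit 5695425739) (nat_lit 231) (nat_lit 5) (nat_lit 238) (nat_lit 5) (nat_lit 232) (nat_lit 5) (nat_lit 609) (nat_lit 537) (nat_lit 414)) (XT.lf (nat_lit 0) (nat_lit 3772703655) (nat_lit 532) (nat_lit 2251645821) (nat_lit 608) (nat_lit 7149627999) (nat_lit 224) (nat_lit 5) (nat_lit 231) (nat_lit 5)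 (nat_lit 232) (nat_lit 5) (nat_lit 610) (nat_lit 537) (nat_lit 413))))) (XT.nd (nat_lit 312) (nat_lit 1368) (nat_lit 0) (XT.nd (nat_lit 156) (nat_lit 532) (nat_lit 0) (XT.nd (nat_lit 78) (nat_lit 456) (nat_lit 0) (XT.lf (nat_lit 0) (nat_lit 9301587756) (nat_lit 608) (nat_lit 1107328536) (nat_lit 76) (nat_lit 2914674484) (nat_lit 224) (nat_lit 5) (nat_lit 232) (nat_lit 5) (nat_lit 225) (nat_lit 5) (nat_lit 611) (nat_lit 537) (nat_lit 412)) (XT.lf (nat_lit 0) (nat_lit 7411129914) (nat_lit 456) (nat_lit 5279580790) (nat_lit 532) (nat_lit 784559518) (nat_lit 218) (nat_lit 5) (nat_lit 224) (nat_lit 5) (nat_lit 225) (nat_lit 5) (nat_lit 612) (nat_lit 537) (nat_lit 411))) (XT.nd (nat_lit 78) (nat_lit 0) (nat_lit 0) (XT.lf (nat_lit 0) (nat_lit 2477512229) (nat_lit 456) (nat_lit 14042073) (nat_lit 532) (nat_lit 11137963870) (nat_lit 211) (nat_lit 5) (nat_lit 217) (nat_lit 5) (nat_lit 218) (nat_lit 5) (nat_lit 613) (nat_lit 537) (nat_lit 410)) (XT.lf (nat_lit 0) (nat_lit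 5881939849) (nat_lit 532) (nat_lit 2577929499) (nat_lit 76) (nat_lit 5325693558) (nat_lit 211) (nat_lit 5) (nat_lit 218) (nat_lit 5) (nat_lit 212) (nat_lit 5) (nat_lit 614) (nat_lit 537) (nat_lit 409)))) (XT.nd (nat_lit 156) (nat_lit 456) (nat_lit 0) (XT.nd (nat_lit 78) (nat_lit 456) (nat_lit 0) (XT.lf (nat_lit 0) (nat_lit 6225809734) (nat_lit 456) (nat_lit 3138663812) (nat_lit 532) (nat_lit 4579768806) (nat_lit 205) (nat_lit 5) (nat_lit 211) (nat_lit 5) (nat_lit 212) (nat_lit 5) (nat_lit 615) (nat_lit 537) (nat_lit 408)) (XT.lf (nat_lit 0) (nat_lit 1110914173) (nat_lit 456) (nat_lit 11829176716) (nat_lit 532) (nat_lit 1165536451) (nat_lit 199) (nat_lit 5) (nat_lit 205) (nat_lit 5) (nat_lit 206) (nat_lit 5) (nat_lit 616) (nat_lit 537) (nat_lit 407))) (XT.nd (nat_lit 78) (nat_lit 380) (nat_lit 0) (XT.lf (nat_lit 0) (nat_lit 2343518816) (nat_lit 532) (nat_lit 4107460163) (nat_lit 76) (nat_lit 7817822253) (nat_lit 198) (nat_lit 5) (nat_lit 205) (nat_lit 5) (nat_lit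 199) (nat_lit 5) (nat_lit 617) (nat_lit 537) (nat_lit 406)) (XT.lf (nat_lit 0) (nat_lit 4992197512) (nat_lit 380) (nat_lit 931694343) (nat_lit 456) (nat_lit 8510858378) (nat_lit 193) (nat_lit 5) (nat_lit 198) (nat_lit 5) (nat_lit 199) (nat_lit 5) (nat_lit 618) (nat_lit 537) (nat_lit 405))))))) (XT.nd (nat_lit 1092) (nat_lit 2964) (nat_lit 0) (XT.nd (nat_lit 546) (nat_lit 1900) (nat_lit 0) (XT.nd (nat_lit 234) (nat_lit 836) (nat_lit 0) (XT.nd (nat_lit 78) (nat_lit 912) (nat_lit 0) (XT.lf (nat_lit 0) (nat_lit 9618546848) (nat_lit 456) (nat_lit 327831965) (nat_lit 76) (nat_lit 4656786476) (nat_lit 193) (nat_lit 5) (nat_lit 199) (nat_lit 5) (nat_lit 194) (nat_lit 5) (nat_lit 619) (nat_lit 537) (nat_lit 404)) (XT.nd (nat_lit 78) (nat_lit 456) (nat_lit 0) (XT.lf (nat_lit 0) (nat_lit 9059073297) (nat_lit 456) (nat_lit 4377741044) (nat_lit 532) (nat_lit 1337140474) (nat_lit 187) (nat_lit 5) (nat_lit 193) (nat_lit 5) (nat_lit 194) (nat_lit 5) (nat_lit 620) (nat_lit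 537) (nat_lit 403)) (XT.lf (nat_lit 0) (nat_lit 2371734885) (nat_lit 456) (nat_lit 11256031314) (nat_lit 76) (nat_lit 1319690887) (nat_lit 181) (nat_lit 5) (nat_lit 187) (nat_lit 5) (nat_lit 182) (nat_lit 5) (nat_lit 621) (nat_lit 537) (nat_lit 402)))) (XT.nd (nat_lit 156) (nat_lit 456) (nat_lit 0) (XT.nd (nat_lit 78) (nat_lit 380) (nat_lit 0) (XT.lf (nat_lit 0) (nat_lit 6189381394) (nat_lit 456) (nat_lit 1821344060) (nat_lit 76) (nat_lit 7112477743) (nat_lit 181) (nat_lit 5) (nat_lit 187) (nat_lit 5) (nat_lit 182) (nat_lit 5) (nat_lit 622) (nat_lit 537) (nat_lit 401)) (XT.lf (nat_lit 0) (nat_lit 7882965888) (nat_lit 380) (nat_lit 2236778463) (nat_lit 456) (nat_lit 5181993121) (nat_lit 176) (nat_lit 5) (nat_lit 181) (nat_lit 5) (nat_lit 182) (nat_lit 5) (nat_lit 623) (nat_lit 537) (nat_lit 400))) (XT.nd (nat_lit 78) (nat_lit 76) (nat_lit 0) (XT.lf (nat_lit 0) (nat_lit 2306350513) (nat_lit 380) (nat_lit 11858635126) (nat_lit 456) (nat_lit 1318131876) (nat_lit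 171) (nat_lit 5) (nat_lit 176) (nat_lit 5) (nat_lit 177) (nat_lit 5) (nat_lit 624) (nat_lit 537) (nat_lit 399)) (XT.lf (nat_lit 0) (nat_lit 2638856390) (nat_lit 456) (nat_lit 3395365433) (nat_lit 76) (nat_lit 9632558194) (nat_lit 170) (nat_lit 5) (nat_lit 176) (nat_lit 5) (nat_lit 171) (nat_lit 5) (nat_lit 625) (nat_lit 537) (nat_lit 398))))) (XT.nd (nat_lit 234) (nat_lit 1140) (nat_lit 0) (XT.nd (nat_lit 78) (nat_lit 380) (nat_lit 0) (XT.lf (nat_lit 0) (nat_lit 6637833043) (nat_lit 380) (nat_lit 48227405) (nat_lit 456) (nat_lit 9167307021) (nat_lit 165) (nat_lit 5) (nat_lit 170) (nat_lit 5) (nat_lit 171) (nat_lit 5) (nat_lit 626) (nat_lit 537) (nat_lit 397)) (XT.nd (nat_lit 78) (nat_lit 0) (nat_lit 0) (XT.lf (nat_lit 0) (nat_lit 823563245) (nat_lit 380) (nat_lit 10043958154) (nat_lit 456) (nat_lit 5175099480) (nat_lit 160) (nat_lit 5) (nat_lit 165) (nat_lit 5) (nat_lit 166) (nat_lit 5) (nat_lit 627) (nat_lit 537) (nat_lit 396)) (XT.lf (nat_lit 0) (nat_lit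 11165937196) (nat_lit 380) (nat_lit 4014670514) (nat_lit 456) (nat_lit 1054092180) (nat_lit 160) (nat_lit 5) (nat_lit 165) (nat_lit 5) (nat_lit 166) (nat_lit 5) (nat_lit 628) (nat_lit 537) (nat_lit 395)))) (XT.nd (nat_lit 156) (nat_lit 684) (nat_lit 0) (XT.nd (nat_lit 78) (nat_lit 0) (nat_lit 0) (XT.lf (nat_lit 0) (nat_lit 3142718460) (nat_lit 456) (nat_lit 11132074296) (nat_lit 76) (nat_lit 2154725467) (nat_lit 154) (nat_lit 5) (nat_lit 160) (nat_lit 5) (nat_lit 155) (nat_lit 5) (nat_lit 629) (nat_lit 537) (nat_lit 394)) (XT.lf (nat_lit 0) (nat_lit 7456295855) (nat_lit 456) (nat_lit 743599096) (nat_lit 76) (nat_lit 8427260151) (nat_lit 154) (nat_lit 5) (nat_lit 160) (nat_lit 5) (nat_lit 155) (nat_lit 5) (nat_lit 630) (nat_lit 537) (nat_lit 393))) (XT.nd (nat_lit 78) (nat_lit 380) (nat_lit 0) (XT.lf (nat_lit 0) (nat_lit 9961790072) (nat_lit 304) (nat_lit 1945410819) (nat_lit 380) (nat_lit 4920523127) (nat_lit 150) (nat_lit 5) (nat_lit 154) (nat_lit 5) (nat_lit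 155) (nat_lit 5) (nat_lit 631) (nat_lit 537) (nat_lit 392)) (XT.lf (nat_lit 0) (nat_lit 3859372069) (nat_lit 380) (nat_lit 12633076916) (nat_lit 456) (nat_lit 538949243) (nat_lit 145) (nat_lit 5) (nat_lit 150) (nat_lit 5) (nat_lit 151) (nat_lit 5) (nat_lit 632) (nat_lit 537) (nat_lit 391)))))) (XT.nd (nat_lit 546) (nat_lit 1520) (nat_lit 0) (XT.nd (nat_lit 234) (nat_lit 684) (nat_lit 0) (XT.nd (nat_lit 78) (nat_lit 684) (nat_lit 0) (XT.lf (nat_lit 0) (nat_lit 3924464722) (nat_lit 456) (nat_lit 2406298983) (nat_lit 76) (nat_lit 10906957164) (nat_lit 144) (nat_lit 5) (nat_lit 150) (nat_lit 5) (nat_lit 145) (nat_lit 5) (nat_lit 633) (nat_lit 537) (nat_lit 390)) (XT.nd (nat_lit 78) (nat_lit 380) (nat_lit 0) (XT.lf (nat_lit 0) (nat_lit 8513921996) (nat_lit 380) (nat_lit 8784616645) (nat_lit 76) (nat_lit 148680630) (nat_lit 140) (nat_lit 5) (nat_lit 145) (nat_lit 5) (nat_lit 141) (nat_lit 5) (nat_lit 634) (nat_lit 537) (nat_lit 389)) (XT.lf (nat_lit 0) (nat_lit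 2291669072) (nat_lit 380) (nat_lit 10963386654) (nat_lit 456) (nat_lit 4404654551) (nat_lit 135) (nat_lit 5) (nat_lit 140) (nat_lit 5) (nat_lit 141) (nat_lit 5) (nat_lit 635) (nat_lit 537) (nat_lit 388)))) (XT.nd (nat_lit 156) (nat_lit 304) (nat_lit 0) (XT.nd (nat_lit 78) (nat_lit 304) (nat_lit 0) (XT.lf (nat_lit 0) (nat_lit 257949317) (nat_lit 456) (nat_lit 4189801959) (nat_lit 76) (nat_lit 13427748285) (nat_lit 134) (nat_lit 5) (nat_lit 140) (nat_lit 5) (nat_lit 135) (nat_lit 5) (nat_lit 636) (nat_lit 537) (nat_lit 387)) (XT.lf (nat_lit 0) (nat_lit 5003845614) (nat_lit 380) (nat_lit 10851938492) (nat_lit 76) (nat_lit 2238258216) (nat_lit 130) (nat_lit 5) (nat_lit 135) (nat_lit 5) (nat_lit 131) (nat_lit 5) (nat_lit 637) (nat_lit 537) (nat_lit 386))) (XT.nd (nat_lit 78) (nat_lit 0) (nat_lit 0) (XT.lf (nat_lit 0) (nat_lit 600326615) (nat_lit 304) (nat_lit 9293174287) (nat_lit 380) (nat_lit 8422478567) (nat_lit 126) (nat_lit 5) (nat_lit 130) (nat_lit 5) (nat_lit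 131) (nat_lit 5) (nat_lit 638) (nat_lit 537) (nat_lit 385)) (XT.lf (nat_lit 0) (nat_lit 12407922503) (nat_lit 304) (nat_lit 2533151186) (nat_lit 380) (nat_lit 3600079527) (nat_lit 126) (nat_lit 5) (nat_lit 130) (nat_lit 5) (nat_lit 131) (nat_lit 5) (nat_lit 639) (nat_lit 537) (nat_lit 384))))) (XT.nd (nat_lit 312) (nat_lit 608) (nat_lit 0) (XT.nd (nat_lit 156) (nat_lit 532) (nat_lit 0) (XT.nd (nat_lit 78) (nat_lit 0) (nat_lit 0) (XT.lf (nat_lit 0) (nat_lit 1354694447) (nat_lit 380) (nat_lit 13071927116) (nat_lit 76) (nat_lit 4342973505) (nat_lit 121) (nat_lit 5) (nat_lit 126) (nat_lit 5) (nat_lit 122) (nat_lit 5) (nat_lit 640) (nat_lit 537) (nat_lit 383)) (XT.lf (nat_lit 0) (nat_lit 6406138821) (nat_lit 380) (nat_lit 1214985849) (nat_lit 76) (nat_lit 11380089881) (nat_lit 121) (nat_lit 5) (nat_lit 126) (nat_lit 5) (nat_lit 122) (nat_lit 5) (nat_lit 641) (nat_lit 537) (nat_lit 382))) (XT.nd (nat_lit 78) (nat_lit 228) (nat_lit 0) (XT.lf (nat_lit 0) (nat_lit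 11003172039) (nat_lit 304) (nat_lit 614653774) (nat_lit 380) (nat_lit 7618456655) (nat_lit 117) (nat_lit 5) (nat_lit 121) (nat_lit 5) (nat_lit 122) (nat_lit 5) (nat_lit 642) (nat_lit 537) (nat_lit 381)) (XT.lf (nat_lit 0) (nat_lit 3995928938) (nat_lit 228) (nat_lit 13002210014) (nat_lit 304) (nat_lit 2476625258) (nat_lit 114) (nat_lit 5) (nat_lit 117) (nat_lit 5) (nat_lit 118) (nat_lit 5) (nat_lit 643) (nat_lit 537) (nat_lit 380)))) (XT.nd (nat_lit 156) (nat_lit 228) (nat_lit 0) (XT.nd (nat_lit 78) (nat_lit 304) (nat_lit 0) (XT.lf (nat_lit 0) (nat_lit 2779283163) (nat_lit 304) (nat_lit 3178484645) (nat_lit 76) (nat_lit 13758937764) (nat_lit 113) (nat_lit 5) (nat_lit 117) (nat_lit 5) (nat_lit 114) (nat_lit 5) (nat_lit 644) (nat_lit 537) (nat_lit 379)) (XT.lf (nat_lit 0) (nat_lit 8165100732) (nat_lit 380) (nat_lit 10515036948) (nat_lit 76) (nat_lit 1281861905) (nat_lit 109) (nat_lit 5) (nat_lit 114) (nat_lit 5) (nat_lit 110) (nat_lit 5) (nat_lit 645) (nat_lit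 537) (nat_lit 378))) (XT.nd (nat_lit 78) (nat_lit 0) (nat_lit 0) (XT.lf (nat_lit 0) (nat_lit 2124526375) (nat_lit 228) (nat_lit 11596978031) (nat_lit 304) (nat_lit 6489437967) (nat_lit 106) (nat_lit 5) (nat_lit 109) (nat_lit 5) (nat_lit 110) (nat_lit 5) (nat_lit 646) (nat_lit 537) (nat_lit 377)) (XT.lf (nat_lit 0) (nat_lit 15139574784) (nat_lit 228) (nat_lit 4308276285) (nat_lit 304) (nat_lit 1015836932) (nat_lit 106) (nat_lit 5) (nat_lit 109) (nat_lit 5) (nat_lit 110) (nat_lit 5) (nat_lit 647) (nat_lit 537) (nat_lit 376))))))))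
noncomputable def xc109 : XT := (XT.nd (nat_lit 74022) (nat_lit 0) (nat_lit 21052) (XT.nd (nat_lit 72852) (nat_lit 0) (nat_lit 40280) (XT.nd (nat_lit 546) (nat_lit 532) (nat_lit 0) (XT.nd (nat_lit 234) (nat_lit 836) (nat_lit 0) (XT.nd (nat_lit 78) (nat_lit 228) (nat_lit 0) (XT.lf (nat_lit 0) (nat_lit 4566808668) (nat_lit 380) (nat_lit 12995132965) (nat_lit 76) (nat_lit 3157764658) (nat_lit 101) (nat_lit 5) (nat_lit 106) (nat_lit 5) (nat_lit 102) (nat_lit 5) (nat_lit 648) (nat_lit 537) (nat_lit 375)) (XT.nd (nat_lit 78) (nat_lit 0) (nat_lit 0) (XT.lf (nat_lit 0) (nat_lit 72067646) (nat_lit 228) (nat_lit 10228870221) (nat_lit 304) (nat_lit 10678704398) (nat_lit 98) (nat_lit 5) (nat_lit 101) (nat_lit 5) (nat_lit 102) (nat_lit 5) (nat_lit 649) (nat_lit 537) (nat_lit 374)) (XT.lf (nat_lit 0) (nat_lit 13557239163) (nat_lit 228) (nat_lit 2668270522) (nat_lit 304) (nat_lit 5017752334) (nat_lit 98) (nat_lit 5) (nat_lit 101) (nat_lit 5) (nat_lit 102) (nat_lit 5) (nat_lit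 650) (nat_lit 537) (nat_lit 373)))) (XT.nd (nat_lit 156) (nat_lit 456) (nat_lit 0) (XT.nd (nat_lit 78) (nat_lit 0) (nat_lit 0) (XT.lf (nat_lit 0) (nat_lit 806180536) (nat_lit 380) (nat_lit 15691987892) (nat_lit 76) (nat_lit 5012694122) (nat_lit 93) (nat_lit 5) (nat_lit 98) (nat_lit 5) (nat_lit 94) (nat_lit 5) (nat_lit 651) (nat_lit 537) (nat_lit 372)) (XT.lf (nat_lit 0) (nat_lit 6737807632) (nat_lit 380) (nat_lit 2155308316) (nat_lit 76) (nat_lit 12888867977) (nat_lit 93) (nat_lit 5) (nat_lit 98) (nat_lit 5) (nat_lit 94) (nat_lit 5) (nat_lit 652) (nat_lit 537) (nat_lit 371))) (XT.nd (nat_lit 78) (nat_lit 228) (nat_lit 0) (XT.lf (nat_lit 0) (nat_lit 11787743845) (nat_lit 228) (nat_lit 1065828816) (nat_lit 304) (nat_lit 9203645202) (nat_lit 90) (nat_lit 5) (nat_lit 93) (nat_lit 5) (nat_lit 94) (nat_lit 5) (nat_lit 653) (nat_lit 537) (nat_lit 370)) (XT.lf (nat_lit 0) (nat_lit 3685527624) (nat_lit 228) (nat_lit 15478543768) (nat_lit 304) (nat_lit 3172436956) (nat_lit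 87) (nat_lit 5) (nat_lit 90) (nat_lit 5) (nat_lit 91) (nat_lit 5) (nat_lit 654) (nat_lit 537) (nat_lit 369))))) (XT.nd (nat_lit 234) (nat_lit 0) (nat_lit 0) (XT.nd (nat_lit 78) (nat_lit 456) (nat_lit 0) (XT.lf (nat_lit 0) (nat_lit 3005783251) (nat_lit 304) (nat_lit 4607053933) (nat_lit 76) (nat_lit 15006851540) (nat_lit 86) (nat_lit 5) (nat_lit 90) (nat_lit 5) (nat_lit 87) (nat_lit 5) (nat_lit 655) (nat_lit 537) (nat_lit 368)) (XT.nd (nat_lit 78) (nat_lit 228) (nat_lit 0) (XT.lf (nat_lit 0) (nat_lit 9321222678) (nat_lit 304) (nat_lit 13103518606) (nat_lit 76) (nat_lit 482249577) (nat_lit 83) (nat_lit 5) (nat_lit 87) (nat_lit 5) (nat_lit 84) (nat_lit 5) (nat_lit 656) (nat_lit 537) (nat_lit 367)) (XT.lf (nat_lit 0) (nat_lit 1313149530) (nat_lit 228) (nat_lit 14529172938) (nat_lit 304) (nat_lit 7356129759) (nat_lit 80) (nat_lit 5) (nat_lit 83) (nat_lit 5) (nat_lit 84) (nat_lit 5) (nat_lit 657) (nat_lit 537) (nat_lit 366)))) (XT.nd (nat_lit 71916) (nat_lit 0)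 (nat_lit 44916) (XT.nd (nat_lit 71838) (nat_lit 0) (nat_lit 44916) (XT.lf (nat_lit 0) (nat_lit 16177205780) (nat_lit 228) (nat_lit 6393948551) (nat_lit 304) (nat_lit 923042503) (nat_lit 80) (nat_lit 5) (nat_lit 83) (nat_lit 5) (nat_lit 84) (nat_lit 5) (nat_lit 658) (nat_lit 537) (nat_lit 365)) (XT.lf (nat_lit 0) (nat_lit 1143451819) (nat_lit 1140) (nat_lit 1192750392) (nat_lit 1140) (nat_lit 1192750392) (nat_lit 671) (nat_lit 3) (nat_lit 686) (nat_lit 3) (nat_lit 686) (nat_lit 5) (nat_lit 538) (nat_lit 538) (nat_lit 484))) (XT.nd (nat_lit 78) (nat_lit 0) (nat_lit 0) (XT.lf (nat_lit 76) (nat_lit 1134802359) (nat_lit 0) (nat_lit 2952291354) (nat_lit 1140) (nat_lit 3005699556) (nat_lit 672) (nat_lit 5) (nat_lit 671) (nat_lit 3) (nat_lit 686) (nat_lit 5) (nat_lit 539) (nat_lit 538) (nat_lit 483)) (XT.lf (nat_lit 76) (nat_lit 4733853555) (nat_lit 0) (nat_lit 1158859707) (nat_lit 1140) (nat_lit 1236281108) (nat_lit 672) (nat_lit 5) (nat_lit 671) (nat_lit 3) (nat_lit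 686) (nat_lit 5) (nat_lit 540) (nat_lit 538) (nat_lit 482)))))) (XT.nd (nat_lit 546) (nat_lit 2432) (nat_lit 0) (XT.nd (nat_lit 234) (nat_lit 1140) (nat_lit 0) (XT.nd (nat_lit 78) (nat_lit 0) (nat_lit 0) (XT.lf (nat_lit 0) (nat_lit 527634307) (nat_lit 1140) (nat_lit 5943949244) (nat_lit 1216) (nat_lit 694934464) (nat_lit 657) (nat_lit 5) (nat_lit 672) (nat_lit 5) (nat_lit 673) (nat_lit 5) (nat_lit 541) (nat_lit 538) (nat_lit 481)) (XT.nd (nat_lit 78) (nat_lit 0) (nat_lit 0) (XT.lf (nat_lit 0) (nat_lit 2289052086) (nat_lit 1140) (nat_lit 2300365246) (nat_lit 1216) (nat_lit 2615639380) (nat_lit 657) (nat_lit 5) (nat_lit 672) (nat_lit 5) (nat_lit 673) (nat_lit 5) (nat_lit 542) (nat_lit 538) (nat_lit 480)) (XT.lf (nat_lit 76) (nat_lit 1410048590) (nat_lit 0) (nat_lit 2640597465) (nat_lit 1216) (nat_lit 3194424674) (nat_lit 658) (nat_lit 5) (nat_lit 657) (nat_lit 5) (nat_lit 673) (nat_lit 5) (nat_lit 543) (nat_lit 538) (nat_lit 479)))) (XT.nd (nat_lit 156) (nat_lit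 0) (nat_lit 0) (XT.nd (nat_lit 78) (nat_lit 1140) (nat_lit 0) (XT.lf (nat_lit 76) (nat_lit 5201479290) (nat_lit 0) (nat_lit 617930696) (nat_lit 1216) (nat_lit 1467039714) (nat_lit 658) (nat_lit 5) (nat_lit 657) (nat_lit 5) (nat_lit 673) (nat_lit 5) (nat_lit 544) (nat_lit 538) (nat_lit 478)) (XT.lf (nat_lit 0) (nat_lit 268958633) (nat_lit 1216) (nat_lit 5602372275) (nat_lit 1292) (nat_lit 1457731686) (nat_lit 642) (nat_lit 5) (nat_lit 658) (nat_lit 5) (nat_lit 659) (nat_lit 5) (nat_lit 545) (nat_lit 538) (nat_lit 477))) (XT.nd (nat_lit 78) (nat_lit 0) (nat_lit 0) (XT.lf (nat_lit 0) (nat_lit 1996096838) (nat_lit 1216) (nat_lit 1768574811) (nat_lit 1292) (nat_lit 3608144119) (nat_lit 642) (nat_lit 5) (nat_lit 658) (nat_lit 5) (nat_lit 659) (nat_lit 5) (nat_lit 546) (nat_lit 538) (nat_lit 476)) (XT.lf (nat_lit 76) (nat_lit 2145256507) (nat_lit 0) (nat_lit 1585144855) (nat_lit 1292) (nat_lit 3687593347) (nat_lit 643) (nat_lit 5) (nat_lit 642) (nat_lit 5) (nat_lit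 659) (nat_lit 5) (nat_lit 547) (nat_lit 538) (nat_lit 475))))) (XT.nd (nat_lit 312) (nat_lit 1216) (nat_lit 0) (XT.nd (nat_lit 156) (nat_lit 1292) (nat_lit 0) (XT.nd (nat_lit 78) (nat_lit 0) (nat_lit 0) (XT.lf (nat_lit 0) (nat_lit 5474930136) (nat_lit 1216) (nat_lit 1332257514) (nat_lit 1292) (nat_lit 657381925) (nat_lit 643) (nat_lit 5) (nat_lit 659) (nat_lit 5) (nat_lit 660) (nat_lit 5) (nat_lit 548) (nat_lit 538) (nat_lit 474)) (XT.lf (nat_lit 76) (nat_lit 2686738015) (nat_lit 0) (nat_lit 4555797671) (nat_lit 1292) (nat_lit 269779579) (nat_lit 644) (nat_lit 5) (nat_lit 643) (nat_lit 5) (nat_lit 660) (nat_lit 5) (nat_lit 549) (nat_lit 538) (nat_lit 473))) (XT.nd (nat_lit 78) (nat_lit 0) (nat_lit 76) (XT.lf (nat_lit 0) (nat_lit 1434608022) (nat_lit 1292) (nat_lit 791757937) (nat_lit 1368) (nat_lit 5335068083) (nat_lit 626) (nat_lit 5) (nat_lit 643) (nat_lit 5) (nat_lit 644) (nat_lit 5) (nat_lit 550) (nat_lit 538) (nat_lit 472)) (XT.lf (nat_lit 0) (nat_lit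 3153748115) (nat_lit 1292) (nat_lit 4273201512) (nat_lit 1368) (nat_lit 184867233) (nat_lit 627) (nat_lit 5) (nat_lit 644) (nat_lit 5) (nat_lit 645) (nat_lit 5) (nat_lit 551) (nat_lit 538) (nat_lit 471)))) (XT.nd (nat_lit 156) (nat_lit 1292) (nat_lit 0) (XT.nd (nat_lit 78) (nat_lit 0) (nat_lit 0) (XT.lf (nat_lit 0) (nat_lit 4889419503) (nat_lit 1292) (nat_lit 141135813) (nat_lit 1368) (nat_lit 2633011868) (nat_lit 627) (nat_lit 5) (nat_lit 644) (nat_lit 5) (nat_lit 645) (nat_lit 5) (nat_lit 552) (nat_lit 538) (nat_lit 470)) (XT.lf (nat_lit 76) (nat_lit 4102291138) (nat_lit 0) (nat_lit 2546948024) (nat_lit 1368) (nat_lit 1067327417) (nat_lit 628) (nat_lit 5) (nat_lit 627) (nat_lit 5) (nat_lit 645) (nat_lit 5) (nat_lit 553) (nat_lit 538) (nat_lit 469))) (XT.nd (nat_lit 78) (nat_lit 0) (nat_lit 0) (XT.lf (nat_lit 0) (nat_lit 633077357) (nat_lit 1368) (nat_lit 7130721923) (nat_lit 1444) (nat_lit 7376206) (nat_lit 610) (nat_lit 5) (nat_lit 628) (nat_lit 5) (nat_lit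 629) (nat_lit 5) (nat_lit 554) (nat_lit 538) (nat_lit 468)) (XT.lf (nat_lit 0) (nat_lit 2358247102) (nat_lit 1368) (nat_lit 2847261894) (nat_lit 1444) (nat_lit 2621128109) (nat_lit 610) (nat_lit 5) (nat_lit 628) (nat_lit 5) (nat_lit 629) (nat_lit 5) (nat_lit 555) (nat_lit 538) (nat_lit 467))))))) (XT.nd (nat_lit 1170) (nat_lit 7980) (nat_lit 0) (XT.nd (nat_lit 546) (nat_lit 8512) (nat_lit 0) (XT.nd (nat_lit 234) (nat_lit 2736) (nat_lit 0) (XT.nd (nat_lit 78) (nat_lit 0) (nat_lit 76) (XT.lf (nat_lit 76) (nat_lit 1516219709) (nat_lit 0) (nat_lit 2576009066) (nat_lit 1444) (nat_lit 3791495564) (nat_lit 611) (nat_lit 5) (nat_lit 610) (nat_lit 5) (nat_lit 629) (nat_lit 5) (nat_lit 556) (nat_lit 538) (nat_lit 466)) (XT.nd (nat_lit 78) (nat_lit 0) (nat_lit 0) (XT.lf (nat_lit 0) (nat_lit 5845870893) (nat_lit 1368) (nat_lit 1962950430) (nat_lit 1444) (nat_lit 133434882) (nat_lit 611) (nat_lit 5) (nat_lit 629) (nat_lit 5) (nat_lit 630) (nat_lit 5) (nat_lit 557) (nat_lit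 538) (nat_lit 465)) (XT.lf (nat_lit 76) (nat_lit 2520068409) (nat_lit 0) (nat_lit 5113683082) (nat_lit 1444) (nat_lit 368226356) (nat_lit 612) (nat_lit 5) (nat_lit 611) (nat_lit 5) (nat_lit 630) (nat_lit 5) (nat_lit 558) (nat_lit 538) (nat_lit 464)))) (XT.nd (nat_lit 156) (nat_lit 1368) (nat_lit 0) (XT.nd (nat_lit 78) (nat_lit 0) (nat_lit 76) (XT.lf (nat_lit 0) (nat_lit 1355490974) (nat_lit 1444) (nat_lit 978319032) (nat_lit 1520) (nat_lit 5729319507) (nat_lit 592) (nat_lit 5) (nat_lit 611) (nat_lit 5) (nat_lit 612) (nat_lit 5) (nat_lit 559) (nat_lit 538) (nat_lit 463)) (XT.lf (nat_lit 0) (nat_lit 3102530470) (nat_lit 1444) (nat_lit 4493947503) (nat_lit 76) (nat_lit 529104306) (nat_lit 593) (nat_lit 5) (nat_lit 612) (nat_lit 5) (nat_lit 594) (nat_lit 5) (nat_lit 560) (nat_lit 538) (nat_lit 462))) (XT.nd (nat_lit 78) (nat_lit 0) (nat_lit 0) (XT.lf (nat_lit 0) (nat_lit 118008525) (nat_lit 1444) (nat_lit 4756562018) (nat_lit 1520) (nat_lit 3314914626) (nat_lit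 574) (nat_lit 5) (nat_lit 593) (nat_lit 5) (nat_lit 594) (nat_lit 5) (nat_lit 561) (nat_lit 538) (nat_lit 461)) (XT.lf (nat_lit 0) (nat_lit 4857354709) (nat_lit 1444) (nat_lit 1822558127) (nat_lit 1520) (nat_lit 1574798276) (nat_lit 574) (nat_lit 5) (nat_lit 593) (nat_lit 5) (nat_lit 594) (nat_lit 5) (nat_lit 562) (nat_lit 538) (nat_lit 460))))) (XT.nd (nat_lit 312) (nat_lit 5320) (nat_lit 0) (XT.nd (nat_lit 156) (nat_lit 1596) (nat_lit 0) (XT.nd (nat_lit 78) (nat_lit 0) (nat_lit 0) (XT.lf (nat_lit 0) (nat_lit 182163638) (nat_lit 1596) (nat_lit 6968270958) (nat_lit 76) (nat_lit 1171089768) (nat_lit 553) (nat_lit 5) (nat_lit 574) (nat_lit 5) (nat_lit 554) (nat_lit 5) (nat_lit 563) (nat_lit 538) (nat_lit 459)) (XT.lf (nat_lit 0) (nat_lit 1956840574) (nat_lit 1596) (nat_lit 2193126287) (nat_lit 76) (nat_lit 4239427679) (nat_lit 553) (nat_lit 5) (nat_lit 574) (nat_lit 5) (nat_lit 554) (nat_lit 5) (nat_lit 564) (nat_lit 538) (nat_lit 458))) (XT.nd (nat_lit 78)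 (nat_lit 0) (nat_lit 0) (XT.lf (nat_lit 0) (nat_lit 2687090589) (nat_lit 1596) (nat_lit 1066605724) (nat_lit 1672) (nat_lit 4705194154) (nat_lit 532) (nat_lit 5) (nat_lit 553) (nat_lit 5) (nat_lit 554) (nat_lit 5) (nat_lit 565) (nat_lit 538) (nat_lit 457)) (XT.lf (nat_lit 0) (nat_lit 5584505922) (nat_lit 1672) (nat_lit 874576972) (nat_lit 76) (nat_lit 2070735097) (nat_lit 532) (nat_lit 5) (nat_lit 554) (nat_lit 5) (nat_lit 533) (nat_lit 5) (nat_lit 566) (nat_lit 538) (nat_lit 456)))) (XT.nd (nat_lit 156) (nat_lit 1824) (nat_lit 0) (XT.nd (nat_lit 78) (nat_lit 1824) (nat_lit 0) (XT.lf (nat_lit 0) (nat_lit 4142222136) (nat_lit 1672) (nat_lit 3313968978) (nat_lit 1748) (nat_lit 1145889735) (nat_lit 510) (nat_lit 5) (nat_lit 532) (nat_lit 5) (nat_lit 533) (nat_lit 5) (nat_lit 567) (nat_lit 538) (nat_lit 455)) (XT.lf (nat_lit 0) (nat_lit 572680229) (nat_lit 1748) (nat_lit 87946485) (nat_lit 1824) (nat_lit 8015471633) (nat_lit 486) (nat_lit 5) (nat_lit 509) (nat_lit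 5) (nat_lit 510) (nat_lit 5) (nat_lit 568) (nat_lit 538) (nat_lit 454))) (XT.nd (nat_lit 78) (nat_lit 1824) (nat_lit 0) (XT.lf (nat_lit 0) (nat_lit 2509820017) (nat_lit 1824) (nat_lit 3039544040) (nat_lit 76) (nat_lit 3201644711) (nat_lit 486) (nat_lit 5) (nat_lit 510) (nat_lit 5) (nat_lit 487) (nat_lit 5) (nat_lit 569) (nat_lit 538) (nat_lit 453)) (XT.lf (nat_lit 0) (nat_lit 2127147861) (nat_lit 1824) (nat_lit 2254768160) (nat_lit 1900) (nat_lit 4445784821) (nat_lit 462) (nat_lit 5) (nat_lit 486) (nat_lit 5) (nat_lit 487) (nat_lit 5) (nat_lit 570) (nat_lit 538) (nat_lit 452)))))) (XT.nd (nat_lit 546) (nat_lit 4180) (nat_lit 0) (XT.nd (nat_lit 234) (nat_lit 1748) (nat_lit 0) (XT.nd (nat_lit 78) (nat_lit 2052) (nat_lit 0) (XT.lf (nat_lit 0) (nat_lit 6291098740) (nat_lit 1900) (nat_lit 1500642644) (nat_lit 76) (nat_lit 1114194265) (nat_lit 462) (nat_lit 5) (nat_lit 487) (nat_lit 5) (nat_lit 463) (nat_lit 5) (nat_lit 571) (nat_lit 538) (nat_lit 451)) (XT.nd (nat_lit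 78) (nat_lit 988) (nat_lit 0) (XT.lf (nat_lit 0) (nat_lit 3812665791) (nat_lit 1064) (nat_lit 4437969945) (nat_lit 1140) (nat_lit 734857755) (nat_lit 448) (nat_lit 5) (nat_lit 462) (nat_lit 5) (nat_lit 463) (nat_lit 5) (nat_lit 572) (nat_lit 538) (nat_lit 450)) (XT.lf (nat_lit 0) (nat_lit 154554653) (nat_lit 912) (nat_lit 996471526) (nat_lit 988) (nat_lit 7915788080) (nat_lit 435) (nat_lit 5) (nat_lit 447) (nat_lit 5) (nat_lit 448) (nat_lit 5) (nat_lit 573) (nat_lit 538) (nat_lit 449)))) (XT.nd (nat_lit 156) (nat_lit 836) (nat_lit 0) (XT.nd (nat_lit 78) (nat_lit 912) (nat_lit 0) (XT.lf (nat_lit 0) (nat_lit 3089114757) (nat_lit 988) (nat_lit 3538127910) (nat_lit 76) (nat_lit 2521936742) (nat_lit 435) (nat_lit 5) (nat_lit 448) (nat_lit 5) (nat_lit 436) (nat_lit 5) (nat_lit 574) (nat_lit 538) (nat_lit 448)) (XT.lf (nat_lit 0) (nat_lit 1936553860) (nat_lit 912) (nat_lit 3122165754) (nat_lit 988) (nat_lit 4174618778) (nat_lit 423) (nat_lit 5) (nat_lit 435) (nat_lit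 5) (nat_lit 436) (nat_lit 5) (nat_lit 575) (nat_lit 538) (nat_lit 447))) (XT.nd (nat_lit 78) (nat_lit 836) (nat_lit 0) (XT.lf (nat_lit 0) (nat_lit 7068495032) (nat_lit 988) (nat_lit 1779203225) (nat_lit 76) (nat_lit 471468313) (nat_lit 423) (nat_lit 5) (nat_lit 436) (nat_lit 5) (nat_lit 424) (nat_lit 5) (nat_lit 576) (nat_lit 538) (nat_lit 446)) (XT.lf (nat_lit 0) (nat_lit 3853009009) (nat_lit 836) (nat_lit 5285598138) (nat_lit 912) (nat_lit 267702898) (nat_lit 412) (nat_lit 5) (nat_lit 423) (nat_lit 5) (nat_lit 424) (nat_lit 5) (nat_lit 577) (nat_lit 538) (nat_lit 445))))) (XT.nd (nat_lit 312) (nat_lit 2432) (nat_lit 0) (XT.nd (nat_lit 156) (nat_lit 836) (nat_lit 0) (XT.nd (nat_lit 78) (nat_lit 0) (nat_lit 0) (XT.lf (nat_lit 0) (nat_lit 90998126) (nat_lit 836) (nat_lit 1628135958) (nat_lit 912) (nat_lit 7776091415) (nat_lit 400) (nat_lit 5) (nat_lit 411) (nat_lit 5) (nat_lit 412) (nat_lit 5) (nat_lit 578) (nat_lit 538) (nat_lit 444)) (XT.lf (nat_lit 0) (nat_lit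 3768233741) (nat_lit 912) (nat_lit 3703461833) (nat_lit 76) (nat_lit 2113667553) (nat_lit 400) (nat_lit 5) (nat_lit 412) (nat_lit 5) (nat_lit 401) (nat_lit 5) (nat_lit 579) (nat_lit 538) (nat_lit 443))) (XT.nd (nat_lit 78) (nat_lit 0) (nat_lit 0) (XT.lf (nat_lit 0) (nat_lit 2102545958) (nat_lit 836) (nat_lit 3755638299) (nat_lit 912) (nat_lit 3819123311) (nat_lit 389) (nat_lit 5) (nat_lit 400) (nat_lit 5) (nat_lit 401) (nat_lit 5) (nat_lit 580) (nat_lit 538) (nat_lit 442)) (XT.lf (nat_lit 0) (nat_lit 7990920783) (nat_lit 912) (nat_lit 1721985361) (nat_lit 76) (nat_lit 58166422) (nat_lit 389) (nat_lit 5) (nat_lit 401) (nat_lit 5) (nat_lit 390) (nat_lit 5) (nat_lit 581) (nat_lit 538) (nat_lit 441)))) (XT.nd (nat_lit 156) (nat_lit 760) (nat_lit 0) (XT.nd (nat_lit 78) (nat_lit 760) (nat_lit 0) (XT.lf (nat_lit 0) (nat_lit 324566508) (nat_lit 912) (nat_lit 5614886079) (nat_lit 76) (nat_lit 3926644794) (nat_lit 377) (nat_lit 5) (nat_lit 389) (nat_lit 5) (nat_lit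 378) (nat_lit 5) (nat_lit 582) (nat_lit 538) (nat_lit 440)) (XT.lf (nat_lit 0) (nat_lit 371916629) (nat_lit 760) (nat_lit 2066061370) (nat_lit 836) (nat_lit 7525001986) (nat_lit 367) (nat_lit 5) (nat_lit 377) (nat_lit 5) (nat_lit 378) (nat_lit 5) (nat_lit 583) (nat_lit 538) (nat_lit 439))) (XT.nd (nat_lit 78) (nat_lit 760) (nat_lit 0) (XT.lf (nat_lit 0) (nat_lit 4620475287) (nat_lit 836) (nat_lit 3544771732) (nat_lit 76) (nat_lit 1896018171) (nat_lit 367) (nat_lit 5) (nat_lit 378) (nat_lit 5) (nat_lit 368) (nat_lit 5) (nat_lit 584) (nat_lit 538) (nat_lit 438)) (XT.lf (nat_lit 0) (nat_lit 2617797222) (nat_lit 760) (nat_lit 4236613945) (nat_lit 836) (nat_lit 3306950435) (nat_lit 357) (nat_lit 5) (nat_lit 367) (nat_lit 5) (nat_lit 368) (nat_lit 5) (nat_lit 585) (nat_lit 538) (nat_lit 437))))))))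
noncomputable def xc110 : XT := (XT.nd (nat_lit 2262) (nat_lit 7372) (nat_lit 0) (XT.nd (nat_lit 1092) (nat_lit 5548) (nat_lit 0) (XT.nd (nat_lit 546) (nat_lit 2584) (nat_lit 0) (XT.nd (nat_lit 234) (nat_lit 1444) (nat_lit 0) (XT.nd (nat_lit 78) (nat_lit 1520) (nat_lit 0) (XT.lf (nat_lit 0) (nat_lit 8926535453) (nat_lit 760) (nat_lit 207672897) (nat_lit 836) (nat_lit 1129229192) (nat_lit 357) (nat_lit 5) (nat_lit 367) (nat_lit 5) (nat_lit 368) (nat_lit 5) (nat_lit 586) (nat_lit 538) (nat_lit 436)) (XT.nd (nat_lit 78) (nat_lit 760) (nat_lit 0) (XT.lf (nat_lit 0) (nat_lit 1113637956) (nat_lit 760) (nat_lit 5364980732) (nat_lit 76) (nat_lit 3888077432) (nat_lit 347) (nat_lit 5) (nat_lit 357) (nat_lit 5) (nat_lit 348) (nat_lit 5) (nat_lit 587) (nat_lit 538) (nat_lit 435)) (XT.lf (nat_lit 0) (nat_lit 992290541) (nat_lit 760) (nat_lit 2388763674) (nat_lit 836) (nat_lit 7090921306) (nat_lit 337) (nat_lit 5) (nat_lit 347) (nat_lit 5) (nat_lit 348) (nat_lit 5) (nat_lit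 588) (nat_lit 538) (nat_lit 434)))) (XT.nd (nat_lit 156) (nat_lit 760) (nat_lit 0) (XT.nd (nat_lit 78) (nat_lit 684) (nat_lit 0) (XT.lf (nat_lit 0) (nat_lit 5719832860) (nat_lit 836) (nat_lit 3066470809) (nat_lit 76) (nat_lit 1792537717) (nat_lit 337) (nat_lit 5) (nat_lit 348) (nat_lit 5) (nat_lit 338) (nat_lit 5) (nat_lit 589) (nat_lit 538) (nat_lit 433)) (XT.lf (nat_lit 0) (nat_lit 3479879038) (nat_lit 684) (nat_lit 4642546933) (nat_lit 760) (nat_lit 2565078951) (nat_lit 328) (nat_lit 5) (nat_lit 337) (nat_lit 5) (nat_lit 338) (nat_lit 5) (nat_lit 590) (nat_lit 538) (nat_lit 432))) (XT.nd (nat_lit 78) (nat_lit 760) (nat_lit 0) (XT.lf (nat_lit 0) (nat_lit 10173938615) (nat_lit 684) (nat_lit 398593740) (nat_lit 760) (nat_lit 225821257) (nat_lit 328) (nat_lit 5) (nat_lit 337) (nat_lit 5) (nat_lit 338) (nat_lit 5) (nat_lit 591) (nat_lit 538) (nat_lit 431)) (XT.lf (nat_lit 0) (nat_lit 2176714416) (nat_lit 760) (nat_lit 4804325985) (nat_lit 76) (nat_lit 3929202940)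 (nat_lit 318) (nat_lit 5) (nat_lit 328) (nat_lit 5) (nat_lit 319) (nat_lit 5) (nat_lit 592) (nat_lit 538) (nat_lit 430))))) (XT.nd (nat_lit 234) (nat_lit 1292) (nat_lit 0) (XT.nd (nat_lit 78) (nat_lit 684) (nat_lit 0) (XT.lf (nat_lit 0) (nat_lit 1951664402) (nat_lit 608) (nat_lit 2671529513) (nat_lit 684) (nat_lit 6401169806) (nat_lit 310) (nat_lit 5) (nat_lit 318) (nat_lit 5) (nat_lit 319) (nat_lit 5) (nat_lit 593) (nat_lit 538) (nat_lit 429)) (XT.nd (nat_lit 78) (nat_lit 684) (nat_lit 0) (XT.lf (nat_lit 0) (nat_lit 7141851997) (nat_lit 684) (nat_lit 2268651232) (nat_lit 76) (nat_lit 1729799327) (nat_lit 310) (nat_lit 5) (nat_lit 319) (nat_lit 5) (nat_lit 311) (nat_lit 5) (nat_lit 594) (nat_lit 538) (nat_lit 428)) (XT.lf (nat_lit 0) (nat_lit 4690776494) (nat_lit 684) (nat_lit 5048256061) (nat_lit 760) (nat_lit 1518965632) (nat_lit 301) (nat_lit 5) (nat_lit 310) (nat_lit 5) (nat_lit 311) (nat_lit 5) (nat_lit 595) (nat_lit 538) (nat_lit 427)))) (XT.nd (nat_lit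 156) (nat_lit 608) (nat_lit 0) (XT.nd (nat_lit 78) (nat_lit 0) (nat_lit 0) (XT.lf (nat_lit 0) (nat_lit 416572536) (nat_lit 608) (nat_lit 578421509) (nat_lit 684) (nat_lit 10382960829) (nat_lit 292) (nat_lit 5) (nat_lit 300) (nat_lit 5) (nat_lit 301) (nat_lit 5) (nat_lit 596) (nat_lit 538) (nat_lit 426)) (XT.lf (nat_lit 0) (nat_lit 3589423926) (nat_lit 684) (nat_lit 3931397962) (nat_lit 76) (nat_lit 3978278350) (nat_lit 292) (nat_lit 5) (nat_lit 301) (nat_lit 5) (nat_lit 293) (nat_lit 5) (nat_lit 597) (nat_lit 538) (nat_lit 425))) (XT.nd (nat_lit 78) (nat_lit 0) (nat_lit 0) (XT.lf (nat_lit 0) (nat_lit 3253680608) (nat_lit 608) (nat_lit 2987707182) (nat_lit 684) (nat_lit 5381168740) (nat_lit 284) (nat_lit 5) (nat_lit 292) (nat_lit 5) (nat_lit 293) (nat_lit 5) (nat_lit 598) (nat_lit 538) (nat_lit 424)) (XT.lf (nat_lit 0) (nat_lit 8964448064) (nat_lit 684) (nat_lit 1147536486) (nat_lit 76) (nat_lit 1636137168) (nat_lit 284) (nat_lit 5) (nat_lit 293) (nat_lit 5)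 (nat_lit 285) (nat_lit 5) (nat_lit 599) (nat_lit 538) (nat_lit 423)))))) (XT.nd (nat_lit 546) (nat_lit 2584) (nat_lit 0) (XT.nd (nat_lit 234) (nat_lit 1672) (nat_lit 0) (XT.nd (nat_lit 78) (nat_lit 684) (nat_lit 0) (XT.lf (nat_lit 0) (nat_lit 6256442186) (nat_lit 608) (nat_lit 5527187623) (nat_lit 684) (nat_lit 91736088) (nat_lit 276) (nat_lit 5) (nat_lit 284) (nat_lit 5) (nat_lit 285) (nat_lit 5) (nat_lit 600) (nat_lit 538) (nat_lit 422)) (XT.nd (nat_lit 78) (nat_lit 0) (nat_lit 0) (XT.lf (nat_lit 0) (nat_lit 1801249233) (nat_lit 608) (nat_lit 818771229) (nat_lit 684) (nat_lit 9384774951) (nat_lit 267) (nat_lit 5) (nat_lit 275) (nat_lit 5) (nat_lit 276) (nat_lit 5) (nat_lit 601) (nat_lit 538) (nat_lit 421)) (XT.lf (nat_lit 0) (nat_lit 5430122257) (nat_lit 684) (nat_lit 2741111873) (nat_lit 76) (nat_lit 3964661335) (nat_lit 267) (nat_lit 5) (nat_lit 276) (nat_lit 5) (nat_lit 268) (nat_lit 5) (nat_lit 602) (nat_lit 538) (nat_lit 420)))) (XT.nd (nat_lit 156)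 (nat_lit 608) (nat_lit 0) (XT.nd (nat_lit 78) (nat_lit 532) (nat_lit 0) (XT.lf (nat_lit 0) (nat_lit 4905642763) (nat_lit 532) (nat_lit 3409934872) (nat_lit 608) (nat_lit 3953657677) (nat_lit 260) (nat_lit 5) (nat_lit 267) (nat_lit 5) (nat_lit 268) (nat_lit 5) (nat_lit 603) (nat_lit 538) (nat_lit 419)) (XT.lf (nat_lit 0) (nat_lit 308132782) (nat_lit 532) (nat_lit 10962560904) (nat_lit 608) (nat_lit 1134310050) (nat_lit 253) (nat_lit 5) (nat_lit 260) (nat_lit 5) (nat_lit 261) (nat_lit 5) (nat_lit 604) (nat_lit 538) (nat_lit 418))) (XT.nd (nat_lit 78) (nat_lit 532) (nat_lit 0) (XT.lf (nat_lit 0) (nat_lit 1773030070) (nat_lit 608) (nat_lit 4367697001) (nat_lit 76) (nat_lit 6401446211) (nat_lit 252) (nat_lit 5) (nat_lit 260) (nat_lit 5) (nat_lit 253) (nat_lit 5) (nat_lit 605) (nat_lit 538) (nat_lit 417)) (XT.lf (nat_lit 0) (nat_lit 3531243966) (nat_lit 532) (nat_lit 1197498016) (nat_lit 608) (nat_lit 7953086777) (nat_lit 245) (nat_lit 5) (nat_lit 252) (nat_lit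 5) (nat_lit 253) (nat_lit 5) (nat_lit 606) (nat_lit 538) (nat_lit 416))))) (XT.nd (nat_lit 312) (nat_lit 1520) (nat_lit 0) (XT.nd (nat_lit 156) (nat_lit 532) (nat_lit 0) (XT.nd (nat_lit 78) (nat_lit 532) (nat_lit 0) (XT.lf (nat_lit 0) (nat_lit 7780657053) (nat_lit 608) (nat_lit 1225247597) (nat_lit 76) (nat_lit 3817631663) (nat_lit 245) (nat_lit 5) (nat_lit 253) (nat_lit 5) (nat_lit 246) (nat_lit 5) (nat_lit 607) (nat_lit 538) (nat_lit 415)) (XT.lf (nat_lit 0) (nat_lit 6918094304) (nat_lit 532) (nat_lit 4011327749) (nat_lit 608) (nat_lit 2037940466) (nat_lit 238) (nat_lit 5) (nat_lit 245) (nat_lit 5) (nat_lit 246) (nat_lit 5) (nat_lit 608) (nat_lit 538) (nat_lit 414))) (XT.nd (nat_lit 78) (nat_lit 0) (nat_lit 0) (XT.lf (nat_lit 0) (nat_lit 1025915423) (nat_lit 532) (nat_lit 10996233485) (nat_lit 76) (nat_lit 1091537896) (nat_lit 231) (nat_lit 5) (nat_lit 238) (nat_lit 5) (nat_lit 232) (nat_lit 5) (nat_lit 609) (nat_lit 538) (nat_lit 413)) (XT.lf (nat_lit 0)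 (nat_lit 4174389383) (nat_lit 532) (nat_lit 2796464409) (nat_lit 76) (nat_lit 6290802478) (nat_lit 231) (nat_lit 5) (nat_lit 238) (nat_lit 5) (nat_lit 232) (nat_lit 5) (nat_lit 610) (nat_lit 538) (nat_lit 412)))) (XT.nd (nat_lit 156) (nat_lit 532) (nat_lit 0) (XT.nd (nat_lit 78) (nat_lit 456) (nat_lit 0) (XT.lf (nat_lit 0) (nat_lit 5617924046) (nat_lit 532) (nat_lit 1787889729) (nat_lit 608) (nat_lit 6006372410) (nat_lit 224) (nat_lit 5) (nat_lit 231) (nat_lit 5) (nat_lit 232) (nat_lit 5) (nat_lit 611) (nat_lit 538) (nat_lit 411)) (XT.lf (nat_lit 0) (nat_lit 635460802) (nat_lit 456) (nat_lit 10095775429) (nat_lit 532) (nat_lit 2833903738) (nat_lit 218) (nat_lit 5) (nat_lit 224) (nat_lit 5) (nat_lit 225) (nat_lit 5) (nat_lit 612) (nat_lit 538) (nat_lit 410))) (XT.nd (nat_lit 78) (nat_lit 456) (nat_lit 0) (XT.lf (nat_lit 0) (nat_lit 444933143) (nat_lit 532) (nat_lit 4418725525) (nat_lit 76) (nat_lit 8856478770) (nat_lit 217) (nat_lit 5) (nat_lit 224) (nat_lit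 5) (nat_lit 218) (nat_lit 5) (nat_lit 613) (nat_lit 538) (nat_lit 409)) (XT.lf (nat_lit 0) (nat_lit 3766561431) (nat_lit 532) (nat_lit 9603984465) (nat_lit 76) (nat_lit 507011730) (nat_lit 211) (nat_lit 5) (nat_lit 218) (nat_lit 5) (nat_lit 212) (nat_lit 5) (nat_lit 614) (nat_lit 538) (nat_lit 408))))))) (XT.nd (nat_lit 1170) (nat_lit 3496) (nat_lit 0) (XT.nd (nat_lit 546) (nat_lit 2052) (nat_lit 0) (XT.nd (nat_lit 234) (nat_lit 836) (nat_lit 0) (XT.nd (nat_lit 78) (nat_lit 988) (nat_lit 0) (XT.lf (nat_lit 0) (nat_lit 7200822799) (nat_lit 532) (nat_lit 893244361) (nat_lit 76) (nat_lit 5943135663) (nat_lit 211) (nat_lit 5) (nat_lit 218) (nat_lit 5) (nat_lit 212) (nat_lit 5) (nat_lit 615) (nat_lit 538) (nat_lit 407)) (XT.nd (nat_lit 78) (nat_lit 532) (nat_lit 0) (XT.lf (nat_lit 0) (nat_lit 8075147001) (nat_lit 456) (nat_lit 2665505045) (nat_lit 532) (nat_lit 3458651825) (nat_lit 205) (nat_lit 5) (nat_lit 211) (nat_lit 5) (nat_lit 212) (nat_lit 5) (nat_lit 616)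 (nat_lit 538) (nat_lit 406)) (XT.lf (nat_lit 0) (nat_lit 14850126) (nat_lit 532) (nat_lit 11497372146) (nat_lit 76) (nat_lit 2851866105) (nat_lit 198) (nat_lit 5) (nat_lit 205) (nat_lit 5) (nat_lit 199) (nat_lit 5) (nat_lit 617) (nat_lit 538) (nat_lit 405)))) (XT.nd (nat_lit 156) (nat_lit 456) (nat_lit 0) (XT.nd (nat_lit 78) (nat_lit 380) (nat_lit 0) (XT.lf (nat_lit 0) (nat_lit 3555198371) (nat_lit 532) (nat_lit 2474397111) (nat_lit 76) (nat_lit 8501242671) (nat_lit 198) (nat_lit 5) (nat_lit 205) (nat_lit 5) (nat_lit 199) (nat_lit 5) (nat_lit 618) (nat_lit 538) (nat_lit 404)) (XT.lf (nat_lit 0) (nat_lit 6795969426) (nat_lit 380) (nat_lit 399433079) (nat_lit 456) (nat_lit 7504939997) (nat_lit 193) (nat_lit 5) (nat_lit 198) (nat_lit 5) (nat_lit 199) (nat_lit 5) (nat_lit 619) (nat_lit 538) (nat_lit 403))) (XT.nd (nat_lit 78) (nat_lit 0) (nat_lit 0) (XT.lf (nat_lit 0) (nat_lit 1373282957) (nat_lit 456) (nat_lit 9580482063) (nat_lit 532) (nat_lit 3918565377) (nat_lit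 187) (nat_lit 5) (nat_lit 193) (nat_lit 5) (nat_lit 194) (nat_lit 5) (nat_lit 620) (nat_lit 538) (nat_lit 402)) (XT.lf (nat_lit 0) (nat_lit 10918799282) (nat_lit 456) (nat_lit 3909346600) (nat_lit 532) (nat_lit 218795679) (nat_lit 187) (nat_lit 5) (nat_lit 193) (nat_lit 5) (nat_lit 194) (nat_lit 5) (nat_lit 621) (nat_lit 538) (nat_lit 401))))) (XT.nd (nat_lit 312) (nat_lit 836) (nat_lit 0) (XT.nd (nat_lit 156) (nat_lit 760) (nat_lit 0) (XT.nd (nat_lit 78) (nat_lit 0) (nat_lit 0) (XT.lf (nat_lit 0) (nat_lit 3541664005) (nat_lit 456) (nat_lit 9779935712) (nat_lit 76) (nat_lit 1902317747) (nat_lit 181) (nat_lit 5) (nat_lit 187) (nat_lit 5) (nat_lit 182) (nat_lit 5) (nat_lit 622) (nat_lit 538) (nat_lit 400)) (XT.lf (nat_lit 0) (nat_lit 7413653749) (nat_lit 456) (nat_lit 189911894) (nat_lit 76) (nat_lit 7800053811) (nat_lit 181) (nat_lit 5) (nat_lit 187) (nat_lit 5) (nat_lit 182) (nat_lit 5) (nat_lit 623) (nat_lit 538) (nat_lit 399))) (XT.nd (nat_lit 78) (nat_lit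 380) (nat_lit 0) (XT.lf (nat_lit 0) (nat_lit 9697511496) (nat_lit 380) (nat_lit 1714291943) (nat_lit 456) (nat_lit 4174138134) (nat_lit 176) (nat_lit 5) (nat_lit 181) (nat_lit 5) (nat_lit 182) (nat_lit 5) (nat_lit 624) (nat_lit 538) (nat_lit 398)) (XT.lf (nat_lit 0) (nat_lit 4016491719) (nat_lit 380) (nat_lit 11514506324) (nat_lit 456) (nat_lit 240090937) (nat_lit 171) (nat_lit 5) (nat_lit 176) (nat_lit 5) (nat_lit 177) (nat_lit 5) (nat_lit 625) (nat_lit 538) (nat_lit 397)))) (XT.nd (nat_lit 156) (nat_lit 380) (nat_lit 0) (XT.nd (nat_lit 78) (nat_lit 380) (nat_lit 0) (XT.lf (nat_lit 0) (nat_lit 3760181679) (nat_lit 456) (nat_lit 1817650623) (nat_lit 76) (nat_lit 10380877142) (nat_lit 170) (nat_lit 5) (nat_lit 176) (nat_lit 5) (nat_lit 171) (nat_lit 5) (nat_lit 626) (nat_lit 538) (nat_lit 396)) (XT.lf (nat_lit 0) (nat_lit 7881416259) (nat_lit 456) (nat_lit 7747274918) (nat_lit 76) (nat_lit 520476430) (nat_lit 165) (nat_lit 5) (nat_lit 171) (nat_lit 5) (nat_lit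 166) (nat_lit 5) (nat_lit 627) (nat_lit 538) (nat_lit 395))) (XT.nd (nat_lit 78) (nat_lit 0) (nat_lit 0) (XT.lf (nat_lit 0) (nat_lit 2481415250) (nat_lit 380) (nat_lit 9655244871) (nat_lit 456) (nat_lit 4205743567) (nat_lit 160) (nat_lit 5) (nat_lit 165) (nat_lit 5) (nat_lit 166) (nat_lit 5) (nat_lit 628) (nat_lit 538) (nat_lit 394)) (XT.lf (nat_lit 0) (nat_lit 12998452744) (nat_lit 380) (nat_lit 3516932114) (nat_lit 456) (nat_lit 23352551) (nat_lit 160) (nat_lit 5) (nat_lit 165) (nat_lit 5) (nat_lit 166) (nat_lit 5) (nat_lit 629) (nat_lit 538) (nat_lit 393)))))) (XT.nd (nat_lit 546) (nat_lit 1596) (nat_lit 0) (XT.nd (nat_lit 234) (nat_lit 1140) (nat_lit 0) (XT.nd (nat_lit 78) (nat_lit 304) (nat_lit 0) (XT.lf (nat_lit 0) (nat_lit 4237507477) (nat_lit 456) (nat_lit 9725567735) (nat_lit 76) (nat_lit 2774362791) (nat_lit 154) (nat_lit 5) (nat_lit 160) (nat_lit 5) (nat_lit 155) (nat_lit 5) (nat_lit 630) (nat_lit 538) (nat_lit 392)) (XT.nd (nat_lit 78) (nat_lit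 0) (nat_lit 0) (XT.lf (nat_lit 0) (nat_lit 849879207) (nat_lit 304) (nat_lit 7772761179) (nat_lit 380) (nat_lit 8316682180) (nat_lit 150) (nat_lit 5) (nat_lit 154) (nat_lit 5) (nat_lit 155) (nat_lit 5) (nat_lit 631) (nat_lit 538) (nat_lit 391)) (XT.lf (nat_lit 0) (nat_lit 11747721921) (nat_lit 304) (nat_lit 1399788240) (nat_lit 380) (nat_lit 3996694381) (nat_lit 150) (nat_lit 5) (nat_lit 154) (nat_lit 5) (nat_lit 155) (nat_lit 5) (nat_lit 632) (nat_lit 538) (nat_lit 390)))) (XT.nd (nat_lit 156) (nat_lit 684) (nat_lit 0) (XT.nd (nat_lit 78) (nat_lit 0) (nat_lit 0) (XT.lf (nat_lit 0) (nat_lit 460685850) (nat_lit 456) (nat_lit 11826107008) (nat_lit 76) (nat_lit 5065211171) (nat_lit 144) (nat_lit 5) (nat_lit 150) (nat_lit 5) (nat_lit 145) (nat_lit 5) (nat_lit 633) (nat_lit 538) (nat_lit 389)) (XT.lf (nat_lit 0) (nat_lit 4986487638) (nat_lit 456) (nat_lit 880120576) (nat_lit 76) (nat_lit 11696167516) (nat_lit 144) (nat_lit 5) (nat_lit 150) (nat_lit 5) (nat_lit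 145) (nat_lit 5) (nat_lit 634) (nat_lit 538) (nat_lit 388))) (XT.nd (nat_lit 78) (nat_lit 380) (nat_lit 0) (XT.lf (nat_lit 0) (nat_lit 9662430979) (nat_lit 380) (nat_lit 7380673195) (nat_lit 76) (nat_lit 733466553) (nat_lit 140) (nat_lit 5) (nat_lit 145) (nat_lit 5) (nat_lit 141) (nat_lit 5) (nat_lit 635) (nat_lit 538) (nat_lit 387)) (XT.lf (nat_lit 0) (nat_lit 3906745895) (nat_lit 380) (nat_lit 10582649066) (nat_lit 456) (nat_lit 3504096995) (nat_lit 135) (nat_lit 5) (nat_lit 140) (nat_lit 5) (nat_lit 141) (nat_lit 5) (nat_lit 636) (nat_lit 538) (nat_lit 386))))) (XT.nd (nat_lit 312) (nat_lit 912) (nat_lit 0) (XT.nd (nat_lit 156) (nat_lit 304) (nat_lit 0) (XT.nd (nat_lit 78) (nat_lit 304) (nat_lit 0) (XT.lf (nat_lit 0) (nat_lit 1219661554) (nat_lit 456) (nat_lit 2722385262) (nat_lit 76) (nat_lit 14271804987) (nat_lit 134) (nat_lit 5) (nat_lit 140) (nat_lit 5) (nat_lit 135) (nat_lit 5) (nat_lit 637) (nat_lit 538) (nat_lit 385)) (XT.lf (nat_lit 0) (nat_lit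 6055576552) (nat_lit 380) (nat_lit 9512839139) (nat_lit 76) (nat_lit 2868448235) (nat_lit 130) (nat_lit 5) (nat_lit 135) (nat_lit 5) (nat_lit 131) (nat_lit 5) (nat_lit 638) (nat_lit 538) (nat_lit 384))) (XT.nd (nat_lit 78) (nat_lit 0) (nat_lit 0) (XT.lf (nat_lit 0) (nat_lit 2158233519) (nat_lit 304) (nat_lit 8876168555) (nat_lit 380) (nat_lit 7629010713) (nat_lit 126) (nat_lit 5) (nat_lit 130) (nat_lit 5) (nat_lit 131) (nat_lit 5) (nat_lit 639) (nat_lit 538) (nat_lit 383)) (XT.lf (nat_lit 0) (nat_lit 14171669553) (nat_lit 304) (nat_lit 1992765957) (nat_lit 380) (nat_lit 2729024818) (nat_lit 126) (nat_lit 5) (nat_lit 130) (nat_lit 5) (nat_lit 131) (nat_lit 5) (nat_lit 640) (nat_lit 538) (nat_lit 382)))) (XT.nd (nat_lit 156) (nat_lit 228) (nat_lit 0) (XT.nd (nat_lit 78) (nat_lit 304) (nat_lit 0) (XT.lf (nat_lit 0) (nat_lit 2307950156) (nat_lit 380) (nat_lit 11800833758) (nat_lit 76) (nat_lit 5017655650) (nat_lit 121) (nat_lit 5) (nat_lit 126) (nat_lit 5) (nat_lit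 122) (nat_lit 5) (nat_lit 641) (nat_lit 538) (nat_lit 381)) (XT.lf (nat_lit 0) (nat_lit 266694434) (nat_lit 304) (nat_lit 7177300504) (nat_lit 380) (nat_lit 11919025542) (nat_lit 117) (nat_lit 5) (nat_lit 121) (nat_lit 5) (nat_lit 122) (nat_lit 5) (nat_lit 642) (nat_lit 538) (nat_lit 380))) (XT.nd (nat_lit 78) (nat_lit 228) (nat_lit 0) (XT.lf (nat_lit 0) (nat_lit 12715832983) (nat_lit 304) (nat_lit 34238107) (nat_lit 380) (nat_lit 6852916022) (nat_lit 117) (nat_lit 5) (nat_lit 121) (nat_lit 5) (nat_lit 122) (nat_lit 5) (nat_lit 643) (nat_lit 538) (nat_lit 379)) (XT.lf (nat_lit 0) (nat_lit 5572704806) (nat_lit 228) (nat_lit 12661132201) (nat_lit 304) (nat_lit 1612485007) (nat_lit 114) (nat_lit 5) (nat_lit 117) (nat_lit 5) (nat_lit 118) (nat_lit 5) (nat_lit 644) (nat_lit 538) (nat_lit 378))))))))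
noncomputable def xc111 : XT := (XT.nd (nat_lit 73944) (nat_lit 0) (nat_lit 23788) (XT.nd (nat_lit 1092) (nat_lit 304) (nat_lit 0) (XT.nd (nat_lit 546) (nat_lit 1368) (nat_lit 0) (XT.nd (nat_lit 234) (nat_lit 608) (nat_lit 0) (XT.nd (nat_lit 78) (nat_lit 532) (nat_lit 0) (XT.lf (nat_lit 0) (nat_lit 3718878408) (nat_lit 304) (nat_lit 1762777279) (nat_lit 76) (nat_lit 14611681913) (nat_lit 113) (nat_lit 5) (nat_lit 117) (nat_lit 5) (nat_lit 114) (nat_lit 5) (nat_lit 645) (nat_lit 538) (nat_lit 377)) (XT.nd (nat_lit 78) (nat_lit 228) (nat_lit 0) (XT.lf (nat_lit 0) (nat_lit 9208472345) (nat_lit 380) (nat_lit 9242099183) (nat_lit 76) (nat_lit 1893045195) (nat_lit 109) (nat_lit 5) (nat_lit 114) (nat_lit 5) (nat_lit 110) (nat_lit 5) (nat_lit 646) (nat_lit 538) (nat_lit 376)) (XT.lf (nat_lit 0) (nat_lit 3640497259) (nat_lit 228) (nat_lit 11227817379) (nat_lit 304) (nat_lit 5729377939) (nat_lit 106) (nat_lit 5) (nat_lit 109) (nat_lit 5) (nat_lit 110) (nat_lit 5) (nat_lit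 647) (nat_lit 538) (nat_lit 375)))) (XT.nd (nat_lit 156) (nat_lit 228) (nat_lit 0) (XT.nd (nat_lit 78) (nat_lit 380) (nat_lit 0) (XT.lf (nat_lit 0) (nat_lit 16886954864) (nat_lit 228) (nat_lit 3805127877) (nat_lit 304) (nat_lit 163752899) (nat_lit 106) (nat_lit 5) (nat_lit 109) (nat_lit 5) (nat_lit 110) (nat_lit 5) (nat_lit 648) (nat_lit 538) (nat_lit 374)) (XT.lf (nat_lit 0) (nat_lit 5515463984) (nat_lit 380) (nat_lit 11795325360) (nat_lit 76) (nat_lit 3806144863) (nat_lit 101) (nat_lit 5) (nat_lit 106) (nat_lit 5) (nat_lit 102) (nat_lit 5) (nat_lit 649) (nat_lit 538) (nat_lit 373))) (XT.nd (nat_lit 78) (nat_lit 0) (nat_lit 0) (XT.lf (nat_lit 0) (nat_lit 1523615906) (nat_lit 228) (nat_lit 9833264737) (nat_lit 304) (nat_lit 10025336548) (nat_lit 98) (nat_lit 5) (nat_lit 101) (nat_lit 5) (nat_lit 102) (nat_lit 5) (nat_lit 650) (nat_lit 538) (nat_lit 372)) (XT.lf (nat_lit 0) (nat_lit 15250057385) (nat_lit 228) (nat_lit 2133221336) (nat_lit 304) (nat_lit 4268164305)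 (nat_lit 98) (nat_lit 5) (nat_lit 101) (nat_lit 5) (nat_lit 102) (nat_lit 5) (nat_lit 651) (nat_lit 538) (nat_lit 371))))) (XT.nd (nat_lit 234) (nat_lit 760) (nat_lit 0) (XT.nd (nat_lit 78) (nat_lit 228) (nat_lit 0) (XT.lf (nat_lit 0) (nat_lit 1657737328) (nat_lit 380) (nat_lit 14569607316) (nat_lit 76) (nat_lit 5697008176) (nat_lit 93) (nat_lit 5) (nat_lit 98) (nat_lit 5) (nat_lit 94) (nat_lit 5) (nat_lit 652) (nat_lit 538) (nat_lit 370)) (XT.nd (nat_lit 78) (nat_lit 228) (nat_lit 0) (XT.lf (nat_lit 0) (nat_lit 7691615924) (nat_lit 380) (nat_lit 790355332) (nat_lit 76) (nat_lit 13719253348) (nat_lit 93) (nat_lit 5) (nat_lit 98) (nat_lit 5) (nat_lit 94) (nat_lit 5) (nat_lit 653) (nat_lit 538) (nat_lit 369)) (XT.lf (nat_lit 0) (nat_lit 13422294326) (nat_lit 228) (nat_lit 500423990) (nat_lit 304) (nat_lit 8559384815) (nat_lit 90) (nat_lit 5) (nat_lit 93) (nat_lit 5) (nat_lit 94) (nat_lit 5) (nat_lit 654) (nat_lit 538) (nat_lit 368)))) (XT.nd (nat_lit 156) (nat_lit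 456) (nat_lit 0) (XT.nd (nat_lit 78) (nat_lit 76) (nat_lit 0) (XT.lf (nat_lit 0) (nat_lit 5161198977) (nat_lit 228) (nat_lit 15195142171) (nat_lit 304) (nat_lit 2410700340) (nat_lit 87) (nat_lit 5) (nat_lit 90) (nat_lit 5) (nat_lit 91) (nat_lit 5) (nat_lit 655) (nat_lit 538) (nat_lit 367)) (XT.lf (nat_lit 0) (nat_lit 3864293918) (nat_lit 304) (nat_lit 3314096799) (nat_lit 76) (nat_lit 15877707292) (nat_lit 86) (nat_lit 5) (nat_lit 90) (nat_lit 5) (nat_lit 87) (nat_lit 5) (nat_lit 656) (nat_lit 538) (nat_lit 366))) (XT.nd (nat_lit 78) (nat_lit 228) (nat_lit 0) (XT.lf (nat_lit 0) (nat_lit 10303114880) (nat_lit 304) (nat_lit 11977547248) (nat_lit 76) (nat_lit 1068542930) (nat_lit 83) (nat_lit 5) (nat_lit 87) (nat_lit 5) (nat_lit 84) (nat_lit 5) (nat_lit 657) (nat_lit 538) (nat_lit 365)) (XT.lf (nat_lit 0) (nat_lit 2718322397) (nat_lit 228) (nat_lit 14229669660) (nat_lit 304) (nat_lit 6698636807) (nat_lit 80) (nat_lit 5) (nat_lit 83) (nat_lit 5) (nat_lit 84) (nat_lit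 5) (nat_lit 658) (nat_lit 538) (nat_lit 364)))))) (XT.nd (nat_lit 72228) (nat_lit 0) (nat_lit 41724) (XT.nd (nat_lit 71916) (nat_lit 0) (nat_lit 44080) (XT.nd (nat_lit 78) (nat_lit 304) (nat_lit 0) (XT.lf (nat_lit 0) (nat_lit 17852622324) (nat_lit 228) (nat_lit 5943311113) (nat_lit 304) (nat_lit 152664581) (nat_lit 80) (nat_lit 5) (nat_lit 83) (nat_lit 5) (nat_lit 84) (nat_lit 5) (nat_lit 659) (nat_lit 538) (nat_lit 363)) (XT.nd (nat_lit 71760) (nat_lit 0) (nat_lit 45220) (XT.lf (nat_lit 0) (nat_lit 6504529409) (nat_lit 304) (nat_lit 15179432861) (nat_lit 76) (nat_lit 2570479916) (nat_lit 76) (nat_lit 5) (nat_lit 80) (nat_lit 5) (nat_lit 77) (nat_lit 5) (nat_lit 660) (nat_lit 538) (nat_lit 362)) (XT.lf (nat_lit 0) (nat_lit 2924782295) (nat_lit 1140) (nat_lit 319718250) (nat_lit 1140) (nat_lit 319718250) (nat_lit 671) (nat_lit 3) (nat_lit 686) (nat_lit 3) (nat_lit 686) (nat_lit 5) (nat_lit 539) (nat_lit 539) (nat_lit 482)))) (XT.nd (nat_lit 156) (nat_lit 0)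 (nat_lit 0) (XT.nd (nat_lit 78) (nat_lit 0) (nat_lit 0) (XT.lf (nat_lit 0) (nat_lit 457117260) (nat_lit 1140) (nat_lit 4228712628) (nat_lit 1216) (nat_lit 2479286801) (nat_lit 656) (nat_lit 5) (nat_lit 671) (nat_lit 3) (nat_lit 672) (nat_lit 5) (nat_lit 540) (nat_lit 539) (nat_lit 481)) (XT.lf (nat_lit 0) (nat_lit 2169965042) (nat_lit 1140) (nat_lit 642177118) (nat_lit 1216) (nat_lit 4391036478) (nat_lit 656) (nat_lit 5) (nat_lit 671) (nat_lit 3) (nat_lit 672) (nat_lit 5) (nat_lit 541) (nat_lit 539) (nat_lit 480))) (XT.nd (nat_lit 78) (nat_lit 0) (nat_lit 76) (XT.lf (nat_lit 76) (nat_lit 3032662069) (nat_lit 0) (nat_lit 859908004) (nat_lit 1216) (nat_lit 3349925253) (nat_lit 657) (nat_lit 5) (nat_lit 656) (nat_lit 5) (nat_lit 672) (nat_lit 5) (nat_lit 542) (nat_lit 539) (nat_lit 479)) (XT.lf (nat_lit 0) (nat_lit 5617970370) (nat_lit 1140) (nat_lit 524237193) (nat_lit 1216) (nat_lit 1141027354) (nat_lit 657) (nat_lit 5) (nat_lit 672) (nat_lit 5) (nat_lit 673)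 (nat_lit 5) (nat_lit 543) (nat_lit 539) (nat_lit 478))))) (XT.nd (nat_lit 312) (nat_lit 1216) (nat_lit 0) (XT.nd (nat_lit 156) (nat_lit 0) (nat_lit 76) (XT.nd (nat_lit 78) (nat_lit 0) (nat_lit 0) (XT.lf (nat_lit 0) (nat_lit 36580749) (nat_lit 1216) (nat_lit 4076950246) (nat_lit 1292) (nat_lit 3211570961) (nat_lit 641) (nat_lit 5) (nat_lit 657) (nat_lit 5) (nat_lit 658) (nat_lit 5) (nat_lit 544) (nat_lit 539) (nat_lit 477)) (XT.lf (nat_lit 0) (nat_lit 1711637491) (nat_lit 1216) (nat_lit 299682552) (nat_lit 1292) (nat_lit 5357039930) (nat_lit 641) (nat_lit 5) (nat_lit 657) (nat_lit 5) (nat_lit 658) (nat_lit 5) (nat_lit 545) (nat_lit 539) (nat_lit 476))) (XT.nd (nat_lit 78) (nat_lit 0) (nat_lit 0) (XT.lf (nat_lit 0) (nat_lit 3403284263) (nat_lit 1216) (nat_lit 3837461337) (nat_lit 1292) (nat_lit 172078948) (nat_lit 642) (nat_lit 5) (nat_lit 658) (nat_lit 5) (nat_lit 659) (nat_lit 5) (nat_lit 546) (nat_lit 539) (nat_lit 475)) (XT.lf (nat_lit 76) (nat_lit 36690168)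 (nat_lit 0) (nat_lit 5067161389) (nat_lit 1292) (nat_lit 2354828215) (nat_lit 643) (nat_lit 5) (nat_lit 642) (nat_lit 5) (nat_lit 659) (nat_lit 5) (nat_lit 547) (nat_lit 539) (nat_lit 474)))) (XT.nd (nat_lit 156) (nat_lit 0) (nat_lit 76) (XT.nd (nat_lit 78) (nat_lit 1292) (nat_lit 0) (XT.lf (nat_lit 76) (nat_lit 4016210631) (nat_lit 0) (nat_lit 2808113318) (nat_lit 1292) (nat_lit 681413328) (nat_lit 643) (nat_lit 5) (nat_lit 642) (nat_lit 5) (nat_lit 659) (nat_lit 5) (nat_lit 548) (nat_lit 539) (nat_lit 473)) (XT.lf (nat_lit 76) (nat_lit 497264850) (nat_lit 0) (nat_lit 478646510) (nat_lit 1368) (nat_lit 6578416527) (nat_lit 626) (nat_lit 5) (nat_lit 625) (nat_lit 5) (nat_lit 643) (nat_lit 5) (nat_lit 549) (nat_lit 539) (nat_lit 472))) (XT.nd (nat_lit 78) (nat_lit 0) (nat_lit 0) (XT.lf (nat_lit 0) (nat_lit 2654530747) (nat_lit 1292) (nat_lit 3034213388) (nat_lit 1368) (nat_lit 1915113519) (nat_lit 626) (nat_lit 5) (nat_lit 643) (nat_lit 5) (nat_lit 644) (nat_lit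 5) (nat_lit 550) (nat_lit 539) (nat_lit 471)) (XT.lf (nat_lit 76) (nat_lit 1055354725) (nat_lit 0) (nat_lit 3283520016) (nat_lit 1368) (nat_lit 3316063048) (nat_lit 627) (nat_lit 5) (nat_lit 626) (nat_lit 5) (nat_lit 644) (nat_lit 5) (nat_lit 551) (nat_lit 539) (nat_lit 470))))))) (XT.nd (nat_lit 1170) (nat_lit 10868) (nat_lit 0) (XT.nd (nat_lit 546) (nat_lit 4484) (nat_lit 0) (XT.nd (nat_lit 234) (nat_lit 1368) (nat_lit 0) (XT.nd (nat_lit 78) (nat_lit 1292) (nat_lit 0) (XT.lf (nat_lit 76) (nat_lit 5243594503) (nat_lit 0) (nat_lit 796387696) (nat_lit 1368) (nat_lit 1667398560) (nat_lit 627) (nat_lit 5) (nat_lit 626) (nat_lit 5) (nat_lit 644) (nat_lit 5) (nat_lit 552) (nat_lit 539) (nat_lit 469)) (XT.nd (nat_lit 78) (nat_lit 0) (nat_lit 0) (XT.lf (nat_lit 0) (nat_lit 95978) (nat_lit 1368) (nat_lit 6019475197) (nat_lit 1444) (nat_lit 1741581348) (nat_lit 609) (nat_lit 5) (nat_lit 627) (nat_lit 5) (nat_lit 628) (nat_lit 5) (nat_lit 553) (nat_lit 539) (nat_lit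 468)) (XT.lf (nat_lit 0) (nat_lit 1664397195) (nat_lit 1368) (nat_lit 1792359395) (nat_lit 1444) (nat_lit 4359309640) (nat_lit 609) (nat_lit 5) (nat_lit 627) (nat_lit 5) (nat_lit 628) (nat_lit 5) (nat_lit 554) (nat_lit 539) (nat_lit 467)))) (XT.nd (nat_lit 156) (nat_lit 1368) (nat_lit 0) (XT.nd (nat_lit 78) (nat_lit 0) (nat_lit 76) (XT.lf (nat_lit 76) (nat_lit 2528030934) (nat_lit 0) (nat_lit 814921566) (nat_lit 1444) (nat_lit 4529508903) (nat_lit 610) (nat_lit 5) (nat_lit 609) (nat_lit 5) (nat_lit 628) (nat_lit 5) (nat_lit 555) (nat_lit 539) (nat_lit 466)) (XT.lf (nat_lit 0) (nat_lit 5044551834) (nat_lit 1368) (nat_lit 1007935659) (nat_lit 1444) (nat_lit 1877710030) (nat_lit 610) (nat_lit 5) (nat_lit 628) (nat_lit 5) (nat_lit 629) (nat_lit 5) (nat_lit 556) (nat_lit 539) (nat_lit 465))) (XT.nd (nat_lit 78) (nat_lit 1444) (nat_lit 0) (XT.lf (nat_lit 76) (nat_lit 3430340107) (nat_lit 0) (nat_lit 3343356048) (nat_lit 1444) (nat_lit 1215524403) (nat_lit 611) (nat_lit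 5) (nat_lit 610) (nat_lit 5) (nat_lit 629) (nat_lit 5) (nat_lit 557) (nat_lit 539) (nat_lit 464)) (XT.lf (nat_lit 0) (nat_lit 454538056) (nat_lit 1444) (nat_lit 106290409) (nat_lit 1520) (nat_lit 7489075798) (nat_lit 591) (nat_lit 5) (nat_lit 610) (nat_lit 5) (nat_lit 611) (nat_lit 5) (nat_lit 558) (nat_lit 539) (nat_lit 463))))) (XT.nd (nat_lit 312) (nat_lit 3192) (nat_lit 0) (XT.nd (nat_lit 156) (nat_lit 1368) (nat_lit 0) (XT.nd (nat_lit 78) (nat_lit 0) (nat_lit 0) (XT.lf (nat_lit 0) (nat_lit 2152591137) (nat_lit 1444) (nat_lit 3665347626) (nat_lit 1520) (nat_lit 2293487194) (nat_lit 592) (nat_lit 5) (nat_lit 611) (nat_lit 5) (nat_lit 612) (nat_lit 5) (nat_lit 559) (nat_lit 539) (nat_lit 462)) (XT.lf (nat_lit 76) (nat_lit 899958304) (nat_lit 0) (nat_lit 2962266083) (nat_lit 1520) (nat_lit 4312403581) (nat_lit 593) (nat_lit 5) (nat_lit 592) (nat_lit 5) (nat_lit 612) (nat_lit 5) (nat_lit 560) (nat_lit 539) (nat_lit 461))) (XT.nd (nat_lit 78) (nat_lit 1368)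 (nat_lit 0) (XT.lf (nat_lit 76) (nat_lit 5581521493) (nat_lit 0) (nat_lit 16948852) (nat_lit 1520) (nat_lit 2640777498) (nat_lit 593) (nat_lit 5) (nat_lit 592) (nat_lit 5) (nat_lit 612) (nat_lit 5) (nat_lit 561) (nat_lit 539) (nat_lit 460)) (XT.lf (nat_lit 0) (nat_lit 2033906407) (nat_lit 1444) (nat_lit 5336637565) (nat_lit 1520) (nat_lit 934596264) (nat_lit 574) (nat_lit 5) (nat_lit 593) (nat_lit 5) (nat_lit 594) (nat_lit 5) (nat_lit 562) (nat_lit 539) (nat_lit 459)))) (XT.nd (nat_lit 156) (nat_lit 1596) (nat_lit 0) (XT.nd (nat_lit 78) (nat_lit 1520) (nat_lit 0) (XT.lf (nat_lit 0) (nat_lit 781957730) (nat_lit 1520) (nat_lit 1547239805) (nat_lit 76) (nat_lit 6043314089) (nat_lit 573) (nat_lit 5) (nat_lit 593) (nat_lit 5) (nat_lit 574) (nat_lit 5) (nat_lit 563) (nat_lit 539) (nat_lit 458)) (XT.lf (nat_lit 0) (nat_lit 2516037077) (nat_lit 1596) (nat_lit 5162891330) (nat_lit 76) (nat_lit 762266361) (nat_lit 553) (nat_lit 5) (nat_lit 574) (nat_lit 5) (nat_lit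 554) (nat_lit 5) (nat_lit 564) (nat_lit 539) (nat_lit 457))) (XT.nd (nat_lit 78) (nat_lit 1596) (nat_lit 0) (XT.lf (nat_lit 0) (nat_lit 4280516764) (nat_lit 1596) (nat_lit 330376022) (nat_lit 76) (nat_lit 3900446427) (nat_lit 553) (nat_lit 5) (nat_lit 574) (nat_lit 5) (nat_lit 554) (nat_lit 5) (nat_lit 565) (nat_lit 539) (nat_lit 456)) (XT.lf (nat_lit 0) (nat_lit 4634901687) (nat_lit 1596) (nat_lit 1445910596) (nat_lit 1672) (nat_lit 2502065711) (nat_lit 532) (nat_lit 5) (nat_lit 553) (nat_lit 5) (nat_lit 554) (nat_lit 5) (nat_lit 566) (nat_lit 539) (nat_lit 455)))))) (XT.nd (nat_lit 546) (nat_lit 4408) (nat_lit 0) (XT.nd (nat_lit 234) (nat_lit 2964) (nat_lit 0) (XT.nd (nat_lit 78) (nat_lit 1824) (nat_lit 0) (XT.lf (nat_lit 0) (nat_lit 1024886556) (nat_lit 1672) (nat_lit 6883569459) (nat_lit 1748) (nat_lit 747566624) (nat_lit 510) (nat_lit 5) (nat_lit 532) (nat_lit 5) (nat_lit 533) (nat_lit 5) (nat_lit 567) (nat_lit 539) (nat_lit 454)) (XT.nd (nat_lit 78)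 (nat_lit 1748) (nat_lit 0) (XT.lf (nat_lit 0) (nat_lit 1035701034) (nat_lit 1748) (nat_lit 2621242967) (nat_lit 76) (nat_lit 5073405827) (nat_lit 509) (nat_lit 5) (nat_lit 532) (nat_lit 5) (nat_lit 510) (nat_lit 5) (nat_lit 568) (nat_lit 539) (nat_lit 453)) (XT.lf (nat_lit 0) (nat_lit 2491725026) (nat_lit 1748) (nat_lit 340753926) (nat_lit 1824) (nat_lit 5973830506) (nat_lit 486) (nat_lit 5) (nat_lit 509) (nat_lit 5) (nat_lit 510) (nat_lit 5) (nat_lit 569) (nat_lit 539) (nat_lit 452)))) (XT.nd (nat_lit 156) (nat_lit 1140) (nat_lit 0) (XT.nd (nat_lit 78) (nat_lit 1824) (nat_lit 0) (XT.lf (nat_lit 0) (nat_lit 4674731839) (nat_lit 1824) (nat_lit 1186087840) (nat_lit 76) (nat_lit 3022779601) (nat_lit 486) (nat_lit 5) (nat_lit 510) (nat_lit 5) (nat_lit 487) (nat_lit 5) (nat_lit 570) (nat_lit 539) (nat_lit 451)) (XT.lf (nat_lit 0) (nat_lit 4071344168) (nat_lit 1824) (nat_lit 2483807382) (nat_lit 1900) (nat_lit 2407258664) (nat_lit 462) (nat_lit 5) (nat_lit 486)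 (nat_lit 5) (nat_lit 487) (nat_lit 5) (nat_lit 571) (nat_lit 539) (nat_lit 450))) (XT.nd (nat_lit 78) (nat_lit 76) (nat_lit 0) (XT.lf (nat_lit 0) (nat_lit 380901149) (nat_lit 1064) (nat_lit 8082024906) (nat_lit 1140) (nat_lit 580078102) (nat_lit 448) (nat_lit 5) (nat_lit 462) (nat_lit 5) (nat_lit 463) (nat_lit 5) (nat_lit 572) (nat_lit 539) (nat_lit 449)) (XT.lf (nat_lit 0) (nat_lit 1289511155) (nat_lit 1140) (nat_lit 3350307234) (nat_lit 76) (nat_lit 4484772548) (nat_lit 447) (nat_lit 5) (nat_lit 462) (nat_lit 5) (nat_lit 448) (nat_lit 5) (nat_lit 573) (nat_lit 539) (nat_lit 448))))) (XT.nd (nat_lit 312) (nat_lit 1748) (nat_lit 0) (XT.nd (nat_lit 156) (nat_lit 1748) (nat_lit 0) (XT.nd (nat_lit 78) (nat_lit 0) (nat_lit 0) (XT.lf (nat_lit 0) (nat_lit 2066117275) (nat_lit 912) (nat_lit 1109767077) (nat_lit 988) (nat_lit 6032106844) (nat_lit 435) (nat_lit 5) (nat_lit 447) (nat_lit 5) (nat_lit 448) (nat_lit 5) (nat_lit 574) (nat_lit 539) (nat_lit 447)) (XT.lf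 (nat_lit 0) (nat_lit 5112888674) (nat_lit 988) (nat_lit 1697873731) (nat_lit 76) (nat_lit 2482040568) (nat_lit 435) (nat_lit 5) (nat_lit 448) (nat_lit 5) (nat_lit 436) (nat_lit 5) (nat_lit 575) (nat_lit 539) (nat_lit 446))) (XT.nd (nat_lit 78) (nat_lit 836) (nat_lit 0) (XT.lf (nat_lit 0) (nat_lit 3873729196) (nat_lit 912) (nat_lit 3222011968) (nat_lit 988) (nat_lit 2283429218) (nat_lit 423) (nat_lit 5) (nat_lit 435) (nat_lit 5) (nat_lit 436) (nat_lit 5) (nat_lit 576) (nat_lit 539) (nat_lit 445)) (XT.lf (nat_lit 0) (nat_lit 85870168) (nat_lit 836) (nat_lit 9022203578) (nat_lit 912) (nat_lit 359396455) (nat_lit 412) (nat_lit 5) (nat_lit 423) (nat_lit 5) (nat_lit 424) (nat_lit 5) (nat_lit 577) (nat_lit 539) (nat_lit 444)))) (XT.nd (nat_lit 156) (nat_lit 836) (nat_lit 0) (XT.nd (nat_lit 78) (nat_lit 836) (nat_lit 0) (XT.lf (nat_lit 0) (nat_lit 1615732274) (nat_lit 912) (nat_lit 3750395390) (nat_lit 76) (nat_lit 4190528840) (nat_lit 411) (nat_lit 5) (nat_lit 423)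 (nat_lit 5) (nat_lit 412) (nat_lit 5) (nat_lit 578) (nat_lit 539) (nat_lit 443)) (XT.lf (nat_lit 0) (nat_lit 1992436634) (nat_lit 836) (nat_lit 1621656892) (nat_lit 912) (nat_lit 6033716086) (nat_lit 400) (nat_lit 5) (nat_lit 411) (nat_lit 5) (nat_lit 412) (nat_lit 5) (nat_lit 579) (nat_lit 539) (nat_lit 442))) (XT.nd (nat_lit 78) (nat_lit 836) (nat_lit 0) (XT.lf (nat_lit 0) (nat_lit 5667941793) (nat_lit 912) (nat_lit 1878819838) (nat_lit 76) (nat_lit 2193715164) (nat_lit 400) (nat_lit 5) (nat_lit 412) (nat_lit 5) (nat_lit 401) (nat_lit 5) (nat_lit 580) (nat_lit 539) (nat_lit 441)) (XT.lf (nat_lit 0) (nat_lit 4030816587) (nat_lit 836) (nat_lit 3745349883) (nat_lit 912) (nat_lit 2058566244) (nat_lit 389) (nat_lit 5) (nat_lit 400) (nat_lit 5) (nat_lit 401) (nat_lit 5) (nat_lit 581) (nat_lit 539) (nat_lit 440))))))))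
noncomputable def xc112 : XT := (XT.nd (nat_lit 2262) (nat_lit 7676) (nat_lit 0) (XT.nd (nat_lit 1092) (nat_lit 6004) (nat_lit 0) (XT.nd (nat_lit 546) (nat_lit 2812) (nat_lit 0) (XT.nd (nat_lit 234) (nat_lit 1520) (nat_lit 0) (XT.nd (nat_lit 78) (nat_lit 836) (nat_lit 0) (XT.lf (nat_lit 0) (nat_lit 129375869) (nat_lit 836) (nat_lit 9788255293) (nat_lit 912) (nat_lit 13422433) (nat_lit 378) (nat_lit 5) (nat_lit 389) (nat_lit 5) (nat_lit 390) (nat_lit 5) (nat_lit 582) (nat_lit 539) (nat_lit 439)) (XT.nd (nat_lit 78) (nat_lit 760) (nat_lit 0) (XT.lf (nat_lit 0) (nat_lit 2086279825) (nat_lit 912) (nat_lit 3832050497) (nat_lit 76) (nat_lit 4109885969) (nat_lit 377) (nat_lit 5) (nat_lit 389) (nat_lit 5) (nat_lit 378) (nat_lit 5) (nat_lit 583) (nat_lit 539) (nat_lit 438)) (XT.lf (nat_lit 0) (nat_lit 2262020283) (nat_lit 760) (nat_lit 1957746657) (nat_lit 836) (nat_lit 5907715391) (nat_lit 367) (nat_lit 5) (nat_lit 377) (nat_lit 5) (nat_lit 378) (nat_lit 5) (nat_lit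 584) (nat_lit 539) (nat_lit 437)))) (XT.nd (nat_lit 156) (nat_lit 760) (nat_lit 0) (XT.nd (nat_lit 78) (nat_lit 760) (nat_lit 0) (XT.lf (nat_lit 0) (nat_lit 6412885691) (nat_lit 836) (nat_lit 1736793600) (nat_lit 76) (nat_lit 2078716415) (nat_lit 367) (nat_lit 5) (nat_lit 378) (nat_lit 5) (nat_lit 368) (nat_lit 5) (nat_lit 585) (nat_lit 539) (nat_lit 436)) (XT.lf (nat_lit 0) (nat_lit 4536665724) (nat_lit 760) (nat_lit 4133619852) (nat_lit 836) (nat_lit 1660634623) (nat_lit 357) (nat_lit 5) (nat_lit 367) (nat_lit 5) (nat_lit 368) (nat_lit 5) (nat_lit 586) (nat_lit 539) (nat_lit 435))) (XT.nd (nat_lit 78) (nat_lit 0) (nat_lit 0) (XT.lf (nat_lit 0) (nat_lit 502450286) (nat_lit 684) (nat_lit 20962921) (nat_lit 760) (nat_lit 9912150935) (nat_lit 347) (nat_lit 5) (nat_lit 356) (nat_lit 5) (nat_lit 357) (nat_lit 5) (nat_lit 587) (nat_lit 539) (nat_lit 434)) (XT.lf (nat_lit 0) (nat_lit 2773548637) (nat_lit 760) (nat_lit 3600949865) (nat_lit 76) (nat_lit 4166691230)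 (nat_lit 347) (nat_lit 5) (nat_lit 357) (nat_lit 5) (nat_lit 348) (nat_lit 5) (nat_lit 588) (nat_lit 539) (nat_lit 433))))) (XT.nd (nat_lit 234) (nat_lit 1368) (nat_lit 0) (XT.nd (nat_lit 78) (nat_lit 684) (nat_lit 0) (XT.lf (nat_lit 0) (nat_lit 2871155450) (nat_lit 760) (nat_lit 2195117209) (nat_lit 836) (nat_lit 5582704590) (nat_lit 337) (nat_lit 5) (nat_lit 347) (nat_lit 5) (nat_lit 348) (nat_lit 5) (nat_lit 589) (nat_lit 539) (nat_lit 432)) (XT.nd (nat_lit 78) (nat_lit 684) (nat_lit 0) (XT.lf (nat_lit 0) (nat_lit 7421646016) (nat_lit 836) (nat_lit 1274967469) (nat_lit 76) (nat_lit 2061972245) (nat_lit 337) (nat_lit 5) (nat_lit 348) (nat_lit 5) (nat_lit 338) (nat_lit 5) (nat_lit 590) (nat_lit 539) (nat_lit 431)) (XT.lf (nat_lit 0) (nat_lit 5390119685) (nat_lit 684) (nat_lit 4462996167) (nat_lit 760) (nat_lit 1016691839) (nat_lit 328) (nat_lit 5) (nat_lit 337) (nat_lit 5) (nat_lit 338) (nat_lit 5) (nat_lit 591) (nat_lit 539) (nat_lit 430)))) (XT.nd (nat_lit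 156) (nat_lit 608) (nat_lit 0) (XT.nd (nat_lit 78) (nat_lit 0) (nat_lit 0) (XT.lf (nat_lit 0) (nat_lit 1205604074) (nat_lit 684) (nat_lit 122660162) (nat_lit 760) (nat_lit 9654895440) (nat_lit 318) (nat_lit 5) (nat_lit 327) (nat_lit 5) (nat_lit 328) (nat_lit 5) (nat_lit 592) (nat_lit 539) (nat_lit 429)) (XT.lf (nat_lit 0) (nat_lit 3751270474) (nat_lit 760) (nat_lit 3058402958) (nat_lit 76) (nat_lit 4288076597) (nat_lit 318) (nat_lit 5) (nat_lit 328) (nat_lit 5) (nat_lit 319) (nat_lit 5) (nat_lit 593) (nat_lit 539) (nat_lit 428))) (XT.nd (nat_lit 78) (nat_lit 0) (nat_lit 0) (XT.lf (nat_lit 0) (nat_lit 3820588753) (nat_lit 608) (nat_lit 2407951642) (nat_lit 684) (nat_lit 4985976729) (nat_lit 310) (nat_lit 5) (nat_lit 318) (nat_lit 5) (nat_lit 319) (nat_lit 5) (nat_lit 594) (nat_lit 539) (nat_lit 427)) (XT.lf (nat_lit 0) (nat_lit 8769925145) (nat_lit 684) (nat_lit 492292192) (nat_lit 76) (nat_lit 2071111822) (nat_lit 310) (nat_lit 5) (nat_lit 319) (nat_lit 5)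 (nat_lit 311) (nat_lit 5) (nat_lit 595) (nat_lit 539) (nat_lit 426)))))) (XT.nd (nat_lit 546) (nat_lit 2736) (nat_lit 0) (XT.nd (nat_lit 234) (nat_lit 1900) (nat_lit 0) (XT.nd (nat_lit 78) (nat_lit 684) (nat_lit 0) (XT.lf (nat_lit 0) (nat_lit 6594339009) (nat_lit 684) (nat_lit 4807338106) (nat_lit 760) (nat_lit 52050497) (nat_lit 301) (nat_lit 5) (nat_lit 310) (nat_lit 5) (nat_lit 311) (nat_lit 5) (nat_lit 596) (nat_lit 539) (nat_lit 425)) (XT.nd (nat_lit 78) (nat_lit 0) (nat_lit 0) (XT.lf (nat_lit 0) (nat_lit 2242324187) (nat_lit 608) (nat_lit 233053129) (nat_lit 684) (nat_lit 9100856573) (nat_lit 292) (nat_lit 5) (nat_lit 300) (nat_lit 5) (nat_lit 301) (nat_lit 5) (nat_lit 597) (nat_lit 539) (nat_lit 424)) (XT.lf (nat_lit 0) (nat_lit 5095330894) (nat_lit 684) (nat_lit 2201807478) (nat_lit 76) (nat_lit 4403192466) (nat_lit 292) (nat_lit 5) (nat_lit 301) (nat_lit 5) (nat_lit 293) (nat_lit 5) (nat_lit 598) (nat_lit 539) (nat_lit 423)))) (XT.nd (nat_lit 156)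 (nat_lit 684) (nat_lit 0) (XT.nd (nat_lit 78) (nat_lit 608) (nat_lit 0) (XT.lf (nat_lit 0) (nat_lit 5115076490) (nat_lit 608) (nat_lit 2668800491) (nat_lit 684) (nat_lit 4042709770) (nat_lit 284) (nat_lit 5) (nat_lit 292) (nat_lit 5) (nat_lit 293) (nat_lit 5) (nat_lit 599) (nat_lit 539) (nat_lit 422)) (XT.lf (nat_lit 0) (nat_lit 624253572) (nat_lit 608) (nat_lit 9915810984) (nat_lit 684) (nat_lit 1415026691) (nat_lit 276) (nat_lit 5) (nat_lit 284) (nat_lit 5) (nat_lit 285) (nat_lit 5) (nat_lit 600) (nat_lit 539) (nat_lit 421))) (XT.nd (nat_lit 78) (nat_lit 608) (nat_lit 0) (XT.lf (nat_lit 0) (nat_lit 1293334612) (nat_lit 684) (nat_lit 3937416002) (nat_lit 76) (nat_lit 6854357410) (nat_lit 275) (nat_lit 5) (nat_lit 284) (nat_lit 5) (nat_lit 276) (nat_lit 5) (nat_lit 601) (nat_lit 539) (nat_lit 420)) (XT.lf (nat_lit 0) (nat_lit 3618754992) (nat_lit 608) (nat_lit 423740497) (nat_lit 684) (nat_lit 8174931813) (nat_lit 267) (nat_lit 5) (nat_lit 275) (nat_lit 5)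 (nat_lit 276) (nat_lit 5) (nat_lit 602) (nat_lit 539) (nat_lit 419))))) (XT.nd (nat_lit 312) (nat_lit 1596) (nat_lit 0) (XT.nd (nat_lit 156) (nat_lit 608) (nat_lit 0) (XT.nd (nat_lit 78) (nat_lit 532) (nat_lit 0) (XT.lf (nat_lit 0) (nat_lit 6884553858) (nat_lit 684) (nat_lit 1025077569) (nat_lit 76) (nat_lit 4442004063) (nat_lit 267) (nat_lit 5) (nat_lit 276) (nat_lit 5) (nat_lit 268) (nat_lit 5) (nat_lit 603) (nat_lit 539) (nat_lit 418)) (XT.lf (nat_lit 0) (nat_lit 6762961788) (nat_lit 532) (nat_lit 3049789683) (nat_lit 608) (nat_lit 2675191204) (nat_lit 260) (nat_lit 5) (nat_lit 267) (nat_lit 5) (nat_lit 268) (nat_lit 5) (nat_lit 604) (nat_lit 539) (nat_lit 417))) (XT.nd (nat_lit 78) (nat_lit 0) (nat_lit 0) (XT.lf (nat_lit 0) (nat_lit 185965596) (nat_lit 608) (nat_lit 10542221538) (nat_lit 76) (nat_lit 1898453398) (nat_lit 252) (nat_lit 5) (nat_lit 260) (nat_lit 5) (nat_lit 253) (nat_lit 5) (nat_lit 605) (nat_lit 539) (nat_lit 416)) (XT.lf (nat_lit 0) (nat_lit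 3110243254) (nat_lit 608) (nat_lit 2701055992) (nat_lit 76) (nat_lit 6955625818) (nat_lit 252) (nat_lit 5) (nat_lit 260) (nat_lit 5) (nat_lit 253) (nat_lit 5) (nat_lit 606) (nat_lit 539) (nat_lit 415)))) (XT.nd (nat_lit 156) (nat_lit 532) (nat_lit 0) (XT.nd (nat_lit 78) (nat_lit 532) (nat_lit 0) (XT.lf (nat_lit 0) (nat_lit 5344324354) (nat_lit 532) (nat_lit 766533666) (nat_lit 608) (nat_lit 6798800968) (nat_lit 245) (nat_lit 5) (nat_lit 252) (nat_lit 5) (nat_lit 253) (nat_lit 5) (nat_lit 607) (nat_lit 539) (nat_lit 414)) (XT.lf (nat_lit 0) (nat_lit 487333275) (nat_lit 532) (nat_lit 8717291993) (nat_lit 608) (nat_lit 3849960236) (nat_lit 238) (nat_lit 5) (nat_lit 245) (nat_lit 5) (nat_lit 246) (nat_lit 5) (nat_lit 608) (nat_lit 539) (nat_lit 413))) (XT.nd (nat_lit 78) (nat_lit 532) (nat_lit 0) (XT.lf (nat_lit 0) (nat_lit 8775764405) (nat_lit 532) (nat_lit 3623792297) (nat_lit 608) (nat_lit 802068777) (nat_lit 238) (nat_lit 5) (nat_lit 245) (nat_lit 5) (nat_lit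 246) (nat_lit 5) (nat_lit 609) (nat_lit 539) (nat_lit 412)) (XT.lf (nat_lit 0) (nat_lit 2295920544) (nat_lit 532) (nat_lit 9469602641) (nat_lit 76) (nat_lit 1585396326) (nat_lit 231) (nat_lit 5) (nat_lit 238) (nat_lit 5) (nat_lit 232) (nat_lit 5) (nat_lit 610) (nat_lit 539) (nat_lit 411))))))) (XT.nd (nat_lit 1092) (nat_lit 3496) (nat_lit 0) (XT.nd (nat_lit 546) (nat_lit 2204) (nat_lit 0) (XT.nd (nat_lit 234) (nat_lit 988) (nat_lit 0) (XT.nd (nat_lit 78) (nat_lit 988) (nat_lit 0) (XT.lf (nat_lit 0) (nat_lit 5482864242) (nat_lit 532) (nat_lit 1140084370) (nat_lit 76) (nat_lit 6879390755) (nat_lit 231) (nat_lit 5) (nat_lit 238) (nat_lit 5) (nat_lit 232) (nat_lit 5) (nat_lit 611) (nat_lit 539) (nat_lit 410)) (XT.nd (nat_lit 78) (nat_lit 456) (nat_lit 0) (XT.lf (nat_lit 0) (nat_lit 7431326662) (nat_lit 532) (nat_lit 1334615413) (nat_lit 608) (nat_lit 4890198292) (nat_lit 224) (nat_lit 5) (nat_lit 231) (nat_lit 5) (nat_lit 232) (nat_lit 5) (nat_lit 612) (nat_lit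 539) (nat_lit 409)) (XT.lf (nat_lit 0) (nat_lit 2358998584) (nat_lit 456) (nat_lit 9789330151) (nat_lit 532) (nat_lit 1664016343) (nat_lit 218) (nat_lit 5) (nat_lit 224) (nat_lit 5) (nat_lit 225) (nat_lit 5) (nat_lit 613) (nat_lit 539) (nat_lit 408)))) (XT.nd (nat_lit 156) (nat_lit 456) (nat_lit 0) (XT.nd (nat_lit 78) (nat_lit 456) (nat_lit 0) (XT.lf (nat_lit 0) (nat_lit 1640575770) (nat_lit 532) (nat_lit 2813999466) (nat_lit 76) (nat_lit 9516183613) (nat_lit 217) (nat_lit 5) (nat_lit 224) (nat_lit 5) (nat_lit 218) (nat_lit 5) (nat_lit 614) (nat_lit 539) (nat_lit 407)) (XT.lf (nat_lit 0) (nat_lit 5019583007) (nat_lit 532) (nat_lit 8093864421) (nat_lit 76) (nat_lit 1018061998) (nat_lit 211) (nat_lit 5) (nat_lit 218) (nat_lit 5) (nat_lit 212) (nat_lit 5) (nat_lit 615) (nat_lit 539) (nat_lit 406))) (XT.nd (nat_lit 78) (nat_lit 0) (nat_lit 0) (XT.lf (nat_lit 0) (nat_lit 767783640) (nat_lit 456) (nat_lit 7736638955) (nat_lit 532) (nat_lit 5790287963) (nat_lit 205)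 (nat_lit 5) (nat_lit 211) (nat_lit 5) (nat_lit 212) (nat_lit 5) (nat_lit 616) (nat_lit 539) (nat_lit 405)) (XT.lf (nat_lit 0) (nat_lit 9894494109) (nat_lit 456) (nat_lit 2203693997) (nat_lit 532) (nat_lit 2362203603) (nat_lit 205) (nat_lit 5) (nat_lit 211) (nat_lit 5) (nat_lit 212) (nat_lit 5) (nat_lit 617) (nat_lit 539) (nat_lit 404))))) (XT.nd (nat_lit 234) (nat_lit 1292) (nat_lit 0) (XT.nd (nat_lit 78) (nat_lit 380) (nat_lit 0) (XT.lf (nat_lit 0) (nat_lit 1157116911) (nat_lit 532) (nat_lit 10045738946) (nat_lit 76) (nat_lit 3425632812) (nat_lit 198) (nat_lit 5) (nat_lit 205) (nat_lit 5) (nat_lit 199) (nat_lit 5) (nat_lit 618) (nat_lit 539) (nat_lit 403)) (XT.nd (nat_lit 78) (nat_lit 380) (nat_lit 0) (XT.lf (nat_lit 0) (nat_lit 4745880557) (nat_lit 532) (nat_lit 875276580) (nat_lit 76) (nat_lit 9177864961) (nat_lit 198) (nat_lit 5) (nat_lit 205) (nat_lit 5) (nat_lit 199) (nat_lit 5) (nat_lit 619) (nat_lit 539) (nat_lit 402)) (XT.lf (nat_lit 0) (nat_lit 8448362334)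 (nat_lit 456) (nat_lit 6403285179) (nat_lit 76) (nat_lit 120480359) (nat_lit 193) (nat_lit 5) (nat_lit 199) (nat_lit 5) (nat_lit 194) (nat_lit 5) (nat_lit 620) (nat_lit 539) (nat_lit 401)))) (XT.nd (nat_lit 156) (nat_lit 760) (nat_lit 0) (XT.nd (nat_lit 78) (nat_lit 76) (nat_lit 0) (XT.lf (nat_lit 0) (nat_lit 3046380498) (nat_lit 456) (nat_lit 9227043405) (nat_lit 532) (nat_lit 2874301778) (nat_lit 187) (nat_lit 5) (nat_lit 193) (nat_lit 5) (nat_lit 194) (nat_lit 5) (nat_lit 621) (nat_lit 539) (nat_lit 400)) (XT.lf (nat_lit 0) (nat_lit 865942938) (nat_lit 532) (nat_lit 2581418583) (nat_lit 76) (nat_lit 11878785987) (nat_lit 186) (nat_lit 5) (nat_lit 193) (nat_lit 5) (nat_lit 187) (nat_lit 5) (nat_lit 622) (nat_lit 539) (nat_lit 399))) (XT.nd (nat_lit 78) (nat_lit 380) (nat_lit 0) (XT.lf (nat_lit 0) (nat_lit 4691403881) (nat_lit 456) (nat_lit 8340378498) (nat_lit 76) (nat_lit 2474997938) (nat_lit 181) (nat_lit 5) (nat_lit 187) (nat_lit 5) (nat_lit 182) (nat_lit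 5) (nat_lit 623) (nat_lit 539) (nat_lit 398)) (XT.lf (nat_lit 0) (nat_lit 1428113885) (nat_lit 380) (nat_lit 7200836766) (nat_lit 456) (nat_lit 7061364083) (nat_lit 176) (nat_lit 5) (nat_lit 181) (nat_lit 5) (nat_lit 182) (nat_lit 5) (nat_lit 624) (nat_lit 539) (nat_lit 397)))))) (XT.nd (nat_lit 546) (nat_lit 1824) (nat_lit 0) (XT.nd (nat_lit 234) (nat_lit 1216) (nat_lit 0) (XT.nd (nat_lit 78) (nat_lit 456) (nat_lit 0) (XT.lf (nat_lit 0) (nat_lit 11484009102) (nat_lit 380) (nat_lit 1203381618) (nat_lit 456) (nat_lit 3189286747) (nat_lit 176) (nat_lit 5) (nat_lit 181) (nat_lit 5) (nat_lit 182) (nat_lit 5) (nat_lit 625) (nat_lit 539) (nat_lit 396)) (XT.nd (nat_lit 78) (nat_lit 0) (nat_lit 0) (XT.lf (nat_lit 0) (nat_lit 805915293) (nat_lit 456) (nat_lit 10374744182) (nat_lit 76) (nat_lit 4884896640) (nat_lit 170) (nat_lit 5) (nat_lit 176) (nat_lit 5) (nat_lit 171) (nat_lit 5) (nat_lit 626) (nat_lit 539) (nat_lit 395)) (XT.lf (nat_lit 0) (nat_lit 4862440447) (nat_lit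 456) (nat_lit 272283030) (nat_lit 76) (nat_lit 11122585211) (nat_lit 170) (nat_lit 5) (nat_lit 176) (nat_lit 5) (nat_lit 171) (nat_lit 5) (nat_lit 627) (nat_lit 539) (nat_lit 394)))) (XT.nd (nat_lit 156) (nat_lit 456) (nat_lit 0) (XT.nd (nat_lit 78) (nat_lit 380) (nat_lit 0) (XT.lf (nat_lit 0) (nat_lit 9059761605) (nat_lit 456) (nat_lit 6314128518) (nat_lit 76) (nat_lit 1077813317) (nat_lit 165) (nat_lit 5) (nat_lit 171) (nat_lit 5) (nat_lit 166) (nat_lit 5) (nat_lit 628) (nat_lit 539) (nat_lit 393)) (XT.lf (nat_lit 0) (nat_lit 4108687480) (nat_lit 380) (nat_lit 9281651916) (nat_lit 456) (nat_lit 3258660917) (nat_lit 160) (nat_lit 5) (nat_lit 165) (nat_lit 5) (nat_lit 166) (nat_lit 5) (nat_lit 629) (nat_lit 539) (nat_lit 392))) (XT.nd (nat_lit 78) (nat_lit 380) (nat_lit 0) (XT.lf (nat_lit 0) (nat_lit 974211601) (nat_lit 456) (nat_lit 2050935553) (nat_lit 76) (nat_lit 13824382456) (nat_lit 159) (nat_lit 5) (nat_lit 165) (nat_lit 5) (nat_lit 160) (nat_lit 5)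 (nat_lit 630) (nat_lit 539) (nat_lit 391)) (XT.lf (nat_lit 0) (nat_lit 5314120995) (nat_lit 456) (nat_lit 8354192847) (nat_lit 76) (nat_lit 3384005002) (nat_lit 154) (nat_lit 5) (nat_lit 160) (nat_lit 5) (nat_lit 155) (nat_lit 5) (nat_lit 631) (nat_lit 539) (nat_lit 390))))) (XT.nd (nat_lit 312) (nat_lit 760) (nat_lit 0) (XT.nd (nat_lit 156) (nat_lit 760) (nat_lit 0) (XT.nd (nat_lit 78) (nat_lit 0) (nat_lit 0) (XT.lf (nat_lit 0) (nat_lit 2422461151) (nat_lit 304) (nat_lit 7355146996) (nat_lit 380) (nat_lit 7480820521) (nat_lit 150) (nat_lit 5) (nat_lit 154) (nat_lit 5) (nat_lit 155) (nat_lit 5) (nat_lit 632) (nat_lit 539) (nat_lit 389)) (XT.lf (nat_lit 0) (nat_lit 13507759065) (nat_lit 304) (nat_lit 865951253) (nat_lit 380) (nat_lit 3094083855) (nat_lit 150) (nat_lit 5) (nat_lit 154) (nat_lit 5) (nat_lit 155) (nat_lit 5) (nat_lit 633) (nat_lit 539) (nat_lit 388))) (XT.nd (nat_lit 78) (nat_lit 304) (nat_lit 0) (XT.lf (nat_lit 0) (nat_lit 1434148215) (nat_lit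 456) (nat_lit 10519193475) (nat_lit 76) (nat_lit 5726389128) (nat_lit 144) (nat_lit 5) (nat_lit 150) (nat_lit 5) (nat_lit 145) (nat_lit 5) (nat_lit 634) (nat_lit 539) (nat_lit 387)) (XT.lf (nat_lit 0) (nat_lit 623628237) (nat_lit 304) (nat_lit 5411979974) (nat_lit 380) (nat_lit 11859407454) (nat_lit 140) (nat_lit 5) (nat_lit 144) (nat_lit 5) (nat_lit 145) (nat_lit 5) (nat_lit 635) (nat_lit 539) (nat_lit 386)))) (XT.nd (nat_lit 156) (nat_lit 380) (nat_lit 0) (XT.nd (nat_lit 78) (nat_lit 380) (nat_lit 0) (XT.lf (nat_lit 0) (nat_lit 10795924258) (nat_lit 380) (nat_lit 6009990059) (nat_lit 76) (nat_lit 1307355714) (nat_lit 140) (nat_lit 5) (nat_lit 145) (nat_lit 5) (nat_lit 141) (nat_lit 5) (nat_lit 636) (nat_lit 539) (nat_lit 385)) (XT.lf (nat_lit 0) (nat_lit 5493188620) (nat_lit 380) (nat_lit 10217595665) (nat_lit 456) (nat_lit 2623918798) (nat_lit 135) (nat_lit 5) (nat_lit 140) (nat_lit 5) (nat_lit 141) (nat_lit 5) (nat_lit 637) (nat_lit 539) (nat_lit 384)))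 (XT.nd (nat_lit 78) (nat_lit 304) (nat_lit 0) (XT.lf (nat_lit 0) (nat_lit 2163463907) (nat_lit 456) (nat_lit 1285855711) (nat_lit 76) (nat_lit 15110395389) (nat_lit 134) (nat_lit 5) (nat_lit 140) (nat_lit 5) (nat_lit 135) (nat_lit 5) (nat_lit 638) (nat_lit 539) (nat_lit 383)) (XT.lf (nat_lit 0) (nat_lit 7091388223) (nat_lit 380) (nat_lit 8207384539) (nat_lit 76) (nat_lit 3488509294) (nat_lit 130) (nat_lit 5) (nat_lit 135) (nat_lit 5) (nat_lit 131) (nat_lit 5) (nat_lit 639) (nat_lit 539) (nat_lit 382))))))))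
noncomputable def xc113 : XT := (XT.nd (nat_lit 73944) (nat_lit 0) (nat_lit 26372) (XT.nd (nat_lit 1092) (nat_lit 1292) (nat_lit 0) (XT.nd (nat_lit 546) (nat_lit 1520) (nat_lit 0) (XT.nd (nat_lit 234) (nat_lit 608) (nat_lit 0) (XT.nd (nat_lit 78) (nat_lit 380) (nat_lit 0) (XT.lf (nat_lit 0) (nat_lit 3687269366) (nat_lit 304) (nat_lit 8474232854) (nat_lit 380) (nat_lit 6857025928) (nat_lit 126) (nat_lit 5) (nat_lit 130) (nat_lit 5) (nat_lit 131) (nat_lit 5) (nat_lit 640) (nat_lit 539) (nat_lit 381)) (XT.nd (nat_lit 78) (nat_lit 380) (nat_lit 0) (XT.lf (nat_lit 0) (nat_lit 15911839391) (nat_lit 304) (nat_lit 1464524147) (nat_lit 380) (nat_lit 1877169041) (nat_lit 126) (nat_lit 5) (nat_lit 130) (nat_lit 5) (nat_lit 131) (nat_lit 5) (nat_lit 641) (nat_lit 539) (nat_lit 380)) (XT.lf (nat_lit 0) (nat_lit 3244306986) (nat_lit 380) (nat_lit 10563828614) (nat_lit 76) (nat_lit 5683005567) (nat_lit 121) (nat_lit 5) (nat_lit 126) (nat_lit 5) (nat_lit 122) (nat_lit 5)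 (nat_lit 642) (nat_lit 539) (nat_lit 379)))) (XT.nd (nat_lit 156) (nat_lit 304) (nat_lit 0) (XT.nd (nat_lit 78) (nat_lit 0) (nat_lit 0) (XT.lf (nat_lit 0) (nat_lit 1735359208) (nat_lit 304) (nat_lit 6739759511) (nat_lit 380) (nat_lit 11257494517) (nat_lit 117) (nat_lit 5) (nat_lit 121) (nat_lit 5) (nat_lit 122) (nat_lit 5) (nat_lit 643) (nat_lit 539) (nat_lit 378)) (XT.lf (nat_lit 0) (nat_lit 13873489579) (nat_lit 380) (nat_lit 5576409944) (nat_lit 76) (nat_lit 527756662) (nat_lit 117) (nat_lit 5) (nat_lit 122) (nat_lit 5) (nat_lit 118) (nat_lit 5) (nat_lit 644) (nat_lit 539) (nat_lit 377))) (XT.nd (nat_lit 78) (nat_lit 76) (nat_lit 0) (XT.lf (nat_lit 0) (nat_lit 7122891398) (nat_lit 228) (nat_lit 12336575132) (nat_lit 304) (nat_lit 766540978) (nat_lit 114) (nat_lit 5) (nat_lit 117) (nat_lit 5) (nat_lit 118) (nat_lit 5) (nat_lit 645) (nat_lit 539) (nat_lit 376)) (XT.lf (nat_lit 0) (nat_lit 4642938389) (nat_lit 304) (nat_lit 376197897) (nat_lit 76) (nat_lit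 15459053378) (nat_lit 113) (nat_lit 5) (nat_lit 117) (nat_lit 5) (nat_lit 114) (nat_lit 5) (nat_lit 646) (nat_lit 539) (nat_lit 375))))) (XT.nd (nat_lit 234) (nat_lit 912) (nat_lit 0) (XT.nd (nat_lit 78) (nat_lit 304) (nat_lit 0) (XT.lf (nat_lit 0) (nat_lit 10238537215) (nat_lit 380) (nat_lit 8001298622) (nat_lit 76) (nat_lit 2493714685) (nat_lit 109) (nat_lit 5) (nat_lit 114) (nat_lit 5) (nat_lit 110) (nat_lit 5) (nat_lit 647) (nat_lit 539) (nat_lit 374)) (XT.nd (nat_lit 78) (nat_lit 76) (nat_lit 0) (XT.lf (nat_lit 0) (nat_lit 5129570522) (nat_lit 228) (nat_lit 10874614967) (nat_lit 304) (nat_lit 4988670624) (nat_lit 106) (nat_lit 5) (nat_lit 109) (nat_lit 5) (nat_lit 110) (nat_lit 5) (nat_lit 648) (nat_lit 539) (nat_lit 373)) (XT.lf (nat_lit 0) (nat_lit 662689631) (nat_lit 304) (nat_lit 2647663651) (nat_lit 76) (nat_lit 17946050782) (nat_lit 105) (nat_lit 5) (nat_lit 109) (nat_lit 5) (nat_lit 106) (nat_lit 5) (nat_lit 649) (nat_lit 539) (nat_lit 372))))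 (XT.nd (nat_lit 156) (nat_lit 380) (nat_lit 0) (XT.nd (nat_lit 78) (nat_lit 228) (nat_lit 0) (XT.lf (nat_lit 0) (nat_lit 6449801658) (nat_lit 380) (nat_lit 10628203932) (nat_lit 76) (nat_lit 4444767676) (nat_lit 101) (nat_lit 5) (nat_lit 106) (nat_lit 5) (nat_lit 102) (nat_lit 5) (nat_lit 650) (nat_lit 539) (nat_lit 371)) (XT.lf (nat_lit 0) (nat_lit 2947885712) (nat_lit 228) (nat_lit 9453052977) (nat_lit 304) (nat_lit 9392565754) (nat_lit 98) (nat_lit 5) (nat_lit 101) (nat_lit 5) (nat_lit 102) (nat_lit 5) (nat_lit 651) (nat_lit 539) (nat_lit 370))) (XT.nd (nat_lit 78) (nat_lit 380) (nat_lit 0) (XT.lf (nat_lit 0) (nat_lit 16921526658) (nat_lit 228) (nat_lit 1610320023) (nat_lit 304) (nat_lit 3536588841) (nat_lit 98) (nat_lit 5) (nat_lit 101) (nat_lit 5) (nat_lit 102) (nat_lit 5) (nat_lit 652) (nat_lit 539) (nat_lit 369)) (XT.lf (nat_lit 0) (nat_lit 2493884368) (nat_lit 380) (nat_lit 13480549315) (nat_lit 76) (nat_lit 6372328742) (nat_lit 93) (nat_lit 5) (nat_lit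 98) (nat_lit 5) (nat_lit 94) (nat_lit 5) (nat_lit 653) (nat_lit 539) (nat_lit 368)))))) (XT.nd (nat_lit 546) (nat_lit 228) (nat_lit 0) (XT.nd (nat_lit 234) (nat_lit 608) (nat_lit 0) (XT.nd (nat_lit 78) (nat_lit 228) (nat_lit 0) (XT.lf (nat_lit 0) (nat_lit 554492324) (nat_lit 228) (nat_lit 8081803395) (nat_lit 304) (nat_lit 13993119166) (nat_lit 90) (nat_lit 5) (nat_lit 93) (nat_lit 5) (nat_lit 94) (nat_lit 5) (nat_lit 654) (nat_lit 539) (nat_lit 367)) (XT.nd (nat_lit 78) (nat_lit 228) (nat_lit 0) (XT.lf (nat_lit 0) (nat_lit 14982060449) (nat_lit 304) (nat_lit 7881245982) (nat_lit 76) (nat_lit 52804085) (nat_lit 90) (nat_lit 5) (nat_lit 94) (nat_lit 5) (nat_lit 91) (nat_lit 5) (nat_lit 655) (nat_lit 539) (nat_lit 366)) (XT.lf (nat_lit 0) (nat_lit 6611943910) (nat_lit 228) (nat_lit 14929098387) (nat_lit 304) (nat_lit 1665771945) (nat_lit 87) (nat_lit 5) (nat_lit 90) (nat_lit 5) (nat_lit 91) (nat_lit 5) (nat_lit 656) (nat_lit 539) (nat_lit 365)))) (XT.nd (nat_lit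 156) (nat_lit 304) (nat_lit 0) (XT.nd (nat_lit 78) (nat_lit 228) (nat_lit 0) (XT.lf (nat_lit 0) (nat_lit 4708972146) (nat_lit 304) (nat_lit 2049065575) (nat_lit 76) (nat_lit 16743818455) (nat_lit 86) (nat_lit 5) (nat_lit 90) (nat_lit 5) (nat_lit 87) (nat_lit 5) (nat_lit 657) (nat_lit 539) (nat_lit 364)) (XT.lf (nat_lit 0) (nat_lit 11273755944) (nat_lit 304) (nat_lit 10882955815) (nat_lit 76) (nat_lit 1644170192) (nat_lit 83) (nat_lit 5) (nat_lit 87) (nat_lit 5) (nat_lit 84) (nat_lit 5) (nat_lit 658) (nat_lit 539) (nat_lit 363))) (XT.nd (nat_lit 78) (nat_lit 76) (nat_lit 0) (XT.lf (nat_lit 0) (nat_lit 4098053971) (nat_lit 228) (nat_lit 13947090102) (nat_lit 304) (nat_lit 6059238197) (nat_lit 80) (nat_lit 5) (nat_lit 83) (nat_lit 5) (nat_lit 84) (nat_lit 5) (nat_lit 659) (nat_lit 539) (nat_lit 362)) (XT.lf (nat_lit 0) (nat_lit 594587572) (nat_lit 304) (nat_lit 4907547854) (nat_lit 76) (nat_lit 18910474776) (nat_lit 79) (nat_lit 5) (nat_lit 83) (nat_lit 5) (nat_lit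 80) (nat_lit 5) (nat_lit 660) (nat_lit 539) (nat_lit 361))))) (XT.nd (nat_lit 71994) (nat_lit 0) (nat_lit 42864) (XT.nd (nat_lit 71838) (nat_lit 0) (nat_lit 44080) (XT.nd (nat_lit 71760) (nat_lit 0) (nat_lit 44080) (XT.lf (nat_lit 0) (nat_lit 7380283859) (nat_lit 304) (nat_lit 14171071429) (nat_lit 76) (nat_lit 3173248022) (nat_lit 76) (nat_lit 5) (nat_lit 80) (nat_lit 5) (nat_lit 77) (nat_lit 5) (nat_lit 661) (nat_lit 539) (nat_lit 360)) (XT.lf (nat_lit 0) (nat_lit 532421343) (nat_lit 0) (nat_lit 532421343) (nat_lit 1140) (nat_lit 2536439553) (nat_lit 656) (nat_lit 5) (nat_lit 656) (nat_lit 3) (nat_lit 671) (nat_lit 3) (nat_lit 540) (nat_lit 540) (nat_lit 480))) (XT.nd (nat_lit 78) (nat_lit 0) (nat_lit 0) (XT.lf (nat_lit 0) (nat_lit 3813743373) (nat_lit 1140) (nat_lit 2555758233) (nat_lit 1216) (nat_lit 871702355) (nat_lit 656) (nat_lit 5) (nat_lit 671) (nat_lit 3) (nat_lit 672) (nat_lit 5) (nat_lit 541) (nat_lit 540) (nat_lit 479)) (XT.lf (nat_lit 76) (nat_lit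 1082240418) (nat_lit 0) (nat_lit 4419997378) (nat_lit 1216) (nat_lit 1778966763) (nat_lit 657) (nat_lit 5) (nat_lit 656) (nat_lit 5) (nat_lit 672) (nat_lit 5) (nat_lit 542) (nat_lit 540) (nat_lit 478)))) (XT.nd (nat_lit 156) (nat_lit 0) (nat_lit 76) (XT.nd (nat_lit 78) (nat_lit 1216) (nat_lit 0) (XT.lf (nat_lit 76) (nat_lit 4805046643) (nat_lit 0) (nat_lit 2393985419) (nat_lit 1216) (nat_lit 123485876) (nat_lit 657) (nat_lit 5) (nat_lit 656) (nat_lit 5) (nat_lit 672) (nat_lit 5) (nat_lit 543) (nat_lit 540) (nat_lit 477)) (XT.lf (nat_lit 76) (nat_lit 1220784959) (nat_lit 0) (nat_lit 289654374) (nat_lit 1292) (nat_lit 5854701029) (nat_lit 641) (nat_lit 5) (nat_lit 640) (nat_lit 5) (nat_lit 657) (nat_lit 5) (nat_lit 544) (nat_lit 540) (nat_lit 476))) (XT.nd (nat_lit 78) (nat_lit 0) (nat_lit 0) (XT.lf (nat_lit 0) (nat_lit 3163187561) (nat_lit 1216) (nat_lit 2376850259) (nat_lit 1292) (nat_lit 1868808301) (nat_lit 641) (nat_lit 5) (nat_lit 657) (nat_lit 5) (nat_lit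 658) (nat_lit 5) (nat_lit 545) (nat_lit 540) (nat_lit 475)) (XT.lf (nat_lit 76) (nat_lit 1460179202) (nat_lit 0) (nat_lit 3359755016) (nat_lit 1292) (nat_lit 2634076019) (nat_lit 642) (nat_lit 5) (nat_lit 641) (nat_lit 5) (nat_lit 658) (nat_lit 5) (nat_lit 546) (nat_lit 540) (nat_lit 474))))))) (XT.nd (nat_lit 1170) (nat_lit 12768) (nat_lit 0) (XT.nd (nat_lit 546) (nat_lit 1292) (nat_lit 0) (XT.nd (nat_lit 234) (nat_lit 1292) (nat_lit 0) (XT.nd (nat_lit 78) (nat_lit 1216) (nat_lit 0) (XT.lf (nat_lit 76) (nat_lit 5383261725) (nat_lit 0) (nat_lit 1102693292) (nat_lit 1292) (nat_lit 1014602885) (nat_lit 642) (nat_lit 5) (nat_lit 641) (nat_lit 5) (nat_lit 658) (nat_lit 5) (nat_lit 547) (nat_lit 540) (nat_lit 473)) (XT.nd (nat_lit 78) (nat_lit 0) (nat_lit 0) (XT.lf (nat_lit 0) (nat_lit 609516136) (nat_lit 1292) (nat_lit 5722805724) (nat_lit 1368) (nat_lit 1216022557) (nat_lit 625) (nat_lit 5) (nat_lit 642) (nat_lit 5) (nat_lit 643) (nat_lit 5) (nat_lit 548) (nat_lit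 540) (nat_lit 472)) (XT.lf (nat_lit 0) (nat_lit 2235583059) (nat_lit 1292) (nat_lit 1758697857) (nat_lit 1368) (nat_lit 3603013468) (nat_lit 625) (nat_lit 5) (nat_lit 642) (nat_lit 5) (nat_lit 643) (nat_lit 5) (nat_lit 549) (nat_lit 540) (nat_lit 471)))) (XT.nd (nat_lit 156) (nat_lit 1292) (nat_lit 0) (XT.nd (nat_lit 78) (nat_lit 0) (nat_lit 76) (XT.lf (nat_lit 76) (nat_lit 2291500307) (nat_lit 0) (nat_lit 1579738644) (nat_lit 1368) (nat_lit 3776445865) (nat_lit 626) (nat_lit 5) (nat_lit 625) (nat_lit 5) (nat_lit 643) (nat_lit 5) (nat_lit 550) (nat_lit 540) (nat_lit 470)) (XT.lf (nat_lit 0) (nat_lit 5520094398) (nat_lit 1292) (nat_lit 1282047994) (nat_lit 1368) (nat_lit 897333699) (nat_lit 626) (nat_lit 5) (nat_lit 643) (nat_lit 5) (nat_lit 644) (nat_lit 5) (nat_lit 551) (nat_lit 540) (nat_lit 469))) (XT.nd (nat_lit 78) (nat_lit 1368) (nat_lit 0) (XT.lf (nat_lit 76) (nat_lit 2877384839) (nat_lit 0) (nat_lit 4317286690) (nat_lit 1368) (nat_lit 557779478) (nat_lit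 627) (nat_lit 5) (nat_lit 626) (nat_lit 5) (nat_lit 644) (nat_lit 5) (nat_lit 552) (nat_lit 540) (nat_lit 468)) (XT.lf (nat_lit 0) (nat_lit 1054460664) (nat_lit 1368) (nat_lit 699892794) (nat_lit 1444) (nat_lit 6052540546) (nat_lit 608) (nat_lit 5) (nat_lit 626) (nat_lit 5) (nat_lit 627) (nat_lit 5) (nat_lit 553) (nat_lit 540) (nat_lit 467))))) (XT.nd (nat_lit 312) (nat_lit 1368) (nat_lit 0) (XT.nd (nat_lit 156) (nat_lit 0) (nat_lit 0) (XT.nd (nat_lit 78) (nat_lit 0) (nat_lit 0) (XT.lf (nat_lit 0) (nat_lit 2685189081) (nat_lit 1368) (nat_lit 4289734151) (nat_lit 1444) (nat_lit 887557198) (nat_lit 609) (nat_lit 5) (nat_lit 627) (nat_lit 5) (nat_lit 628) (nat_lit 5) (nat_lit 554) (nat_lit 540) (nat_lit 466)) (XT.lf (nat_lit 0) (nat_lit 4330127475) (nat_lit 1368) (nat_lit 14353103) (nat_lit 1444) (nat_lit 3575068601) (nat_lit 609) (nat_lit 5) (nat_lit 627) (nat_lit 5) (nat_lit 628) (nat_lit 5) (nat_lit 555) (nat_lit 540) (nat_lit 465))) (XT.nd (nat_lit 78) (nat_lit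 0) (nat_lit 76) (XT.lf (nat_lit 76) (nat_lit 4380511787) (nat_lit 0) (nat_lit 1621824844) (nat_lit 1444) (nat_lit 1975537686) (nat_lit 610) (nat_lit 5) (nat_lit 609) (nat_lit 5) (nat_lit 628) (nat_lit 5) (nat_lit 556) (nat_lit 540) (nat_lit 464)) (XT.lf (nat_lit 76) (nat_lit 805101620) (nat_lit 0) (nat_lit 6882227278) (nat_lit 1444) (nat_lit 350452684) (nat_lit 611) (nat_lit 5) (nat_lit 610) (nat_lit 5) (nat_lit 629) (nat_lit 5) (nat_lit 557) (nat_lit 540) (nat_lit 463)))) (XT.nd (nat_lit 156) (nat_lit 0) (nat_lit 76) (XT.nd (nat_lit 78) (nat_lit 0) (nat_lit 0) (XT.lf (nat_lit 0) (nat_lit 1291825828) (nat_lit 1444) (nat_lit 2797758882) (nat_lit 1520) (nat_lit 4009098158) (nat_lit 591) (nat_lit 5) (nat_lit 610) (nat_lit 5) (nat_lit 611) (nat_lit 5) (nat_lit 558) (nat_lit 540) (nat_lit 462)) (XT.lf (nat_lit 76) (nat_lit 1722259115) (nat_lit 0) (nat_lit 1218630242) (nat_lit 1520) (nat_lit 5220296118) (nat_lit 592) (nat_lit 5) (nat_lit 591) (nat_lit 5) (nat_lit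 611) (nat_lit 5) (nat_lit 559) (nat_lit 540) (nat_lit 461))) (XT.nd (nat_lit 78) (nat_lit 0) (nat_lit 0) (XT.lf (nat_lit 0) (nat_lit 4620917929) (nat_lit 1444) (nat_lit 1889595164) (nat_lit 1520) (nat_lit 1714467588) (nat_lit 592) (nat_lit 5) (nat_lit 611) (nat_lit 5) (nat_lit 612) (nat_lit 5) (nat_lit 560) (nat_lit 540) (nat_lit 460)) (XT.lf (nat_lit 76) (nat_lit 2754852021) (nat_lit 0) (nat_lit 3574263751) (nat_lit 1520) (nat_lit 1961046822) (nat_lit 593) (nat_lit 5) (nat_lit 592) (nat_lit 5) (nat_lit 612) (nat_lit 5) (nat_lit 561) (nat_lit 540) (nat_lit 459)))))) (XT.nd (nat_lit 546) (nat_lit 6536) (nat_lit 0) (XT.nd (nat_lit 234) (nat_lit 3344) (nat_lit 0) (XT.nd (nat_lit 78) (nat_lit 2964) (nat_lit 0) (XT.lf (nat_lit 76) (nat_lit 7494028933) (nat_lit 0) (nat_lit 559201893) (nat_lit 1520) (nat_lit 303784390) (nat_lit 593) (nat_lit 5) (nat_lit 592) (nat_lit 5) (nat_lit 612) (nat_lit 5) (nat_lit 562) (nat_lit 540) (nat_lit 458)) (XT.nd (nat_lit 78) (nat_lit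 1520) (nat_lit 0) (XT.lf (nat_lit 0) (nat_lit 1379984095) (nat_lit 1520) (nat_lit 4520239128) (nat_lit 76) (nat_lit 2524572729) (nat_lit 573) (nat_lit 5) (nat_lit 593) (nat_lit 5) (nat_lit 574) (nat_lit 5) (nat_lit 563) (nat_lit 540) (nat_lit 457)) (XT.lf (nat_lit 0) (nat_lit 258768009) (nat_lit 1520) (nat_lit 2815773419) (nat_lit 1596) (nat_lit 5419729106) (nat_lit 553) (nat_lit 5) (nat_lit 573) (nat_lit 5) (nat_lit 574) (nat_lit 5) (nat_lit 564) (nat_lit 540) (nat_lit 456)))) (XT.nd (nat_lit 156) (nat_lit 1748) (nat_lit 0) (XT.nd (nat_lit 78) (nat_lit 1596) (nat_lit 0) (XT.lf (nat_lit 0) (nat_lit 4806102307) (nat_lit 1596) (nat_lit 3396920930) (nat_lit 76) (nat_lit 362051094) (nat_lit 553) (nat_lit 5) (nat_lit 574) (nat_lit 5) (nat_lit 554) (nat_lit 5) (nat_lit 565) (nat_lit 540) (nat_lit 455)) (XT.lf (nat_lit 0) (nat_lit 1515468796) (nat_lit 1596) (nat_lit 5056325662) (nat_lit 1672) (nat_lit 2065511679) (nat_lit 532) (nat_lit 5) (nat_lit 553) (nat_lit 5)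 (nat_lit 554) (nat_lit 5) (nat_lit 566) (nat_lit 540) (nat_lit 454))) (XT.nd (nat_lit 78) (nat_lit 1748) (nat_lit 0) (XT.lf (nat_lit 0) (nat_lit 6548119988) (nat_lit 1596) (nat_lit 1818901046) (nat_lit 1672) (nat_lit 344079030) (nat_lit 532) (nat_lit 5) (nat_lit 553) (nat_lit 5) (nat_lit 554) (nat_lit 5) (nat_lit 567) (nat_lit 540) (nat_lit 453)) (XT.lf (nat_lit 0) (nat_lit 1393736959) (nat_lit 1748) (nat_lit 5896235241) (nat_lit 76) (nat_lit 1496206757) (nat_lit 509) (nat_lit 5) (nat_lit 532) (nat_lit 5) (nat_lit 510) (nat_lit 5) (nat_lit 568) (nat_lit 540) (nat_lit 452))))) (XT.nd (nat_lit 312) (nat_lit 2964) (nat_lit 0) (XT.nd (nat_lit 156) (nat_lit 1824) (nat_lit 0) (XT.nd (nat_lit 78) (nat_lit 1748) (nat_lit 0) (XT.lf (nat_lit 0) (nat_lit 3160585993) (nat_lit 1748) (nat_lit 828008227) (nat_lit 76) (nat_lit 4874143831) (nat_lit 509) (nat_lit 5) (nat_lit 532) (nat_lit 5) (nat_lit 510) (nat_lit 5) (nat_lit 569) (nat_lit 540) (nat_lit 451)) (XT.lf (nat_lit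 0) (nat_lit 4375076629) (nat_lit 1748) (nat_lit 588868996) (nat_lit 1824) (nat_lit 3976860980) (nat_lit 486) (nat_lit 5) (nat_lit 509) (nat_lit 5) (nat_lit 510) (nat_lit 5) (nat_lit 570) (nat_lit 540) (nat_lit 450))) (XT.nd (nat_lit 78) (nat_lit 0) (nat_lit 0) (XT.lf (nat_lit 0) (nat_lit 638478699) (nat_lit 1824) (nat_lit 6166491649) (nat_lit 1900) (nat_lit 2215435941) (nat_lit 462) (nat_lit 5) (nat_lit 486) (nat_lit 5) (nat_lit 487) (nat_lit 5) (nat_lit 571) (nat_lit 540) (nat_lit 449)) (XT.lf (nat_lit 0) (nat_lit 5980580884) (nat_lit 1824) (nat_lit 2710284624) (nat_lit 1900) (nat_lit 410573144) (nat_lit 462) (nat_lit 5) (nat_lit 486) (nat_lit 5) (nat_lit 487) (nat_lit 5) (nat_lit 572) (nat_lit 540) (nat_lit 448)))) (XT.nd (nat_lit 156) (nat_lit 1824) (nat_lit 0) (XT.nd (nat_lit 78) (nat_lit 0) (nat_lit 0) (XT.lf (nat_lit 0) (nat_lit 1405526907) (nat_lit 1140) (nat_lit 6948061910) (nat_lit 76) (nat_lit 830440727) (nat_lit 447) (nat_lit 5) (nat_lit 462) (nat_lit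 5) (nat_lit 448) (nat_lit 5) (nat_lit 573) (nat_lit 540) (nat_lit 447)) (XT.lf (nat_lit 0) (nat_lit 3265739208) (nat_lit 1140) (nat_lit 1570802024) (nat_lit 76) (nat_lit 4431412576) (nat_lit 447) (nat_lit 5) (nat_lit 462) (nat_lit 5) (nat_lit 448) (nat_lit 5) (nat_lit 574) (nat_lit 540) (nat_lit 446))) (XT.nd (nat_lit 78) (nat_lit 912) (nat_lit 0) (XT.lf (nat_lit 0) (nat_lit 3941802875) (nat_lit 912) (nat_lit 1221703018) (nat_lit 988) (nat_lit 4190045215) (nat_lit 435) (nat_lit 5) (nat_lit 447) (nat_lit 5) (nat_lit 448) (nat_lit 5) (nat_lit 575) (nat_lit 540) (nat_lit 445)) (XT.lf (nat_lit 0) (nat_lit 106373530) (nat_lit 912) (nat_lit 6995268662) (nat_lit 988) (nat_lit 2339171403) (nat_lit 423) (nat_lit 5) (nat_lit 435) (nat_lit 5) (nat_lit 436) (nat_lit 5) (nat_lit 576) (nat_lit 540) (nat_lit 444))))))))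
noncomputable def xc114 : XT := (XT.nd (nat_lit 2262) (nat_lit 8360) (nat_lit 0) (XT.nd (nat_lit 1092) (nat_lit 5852) (nat_lit 0) (XT.nd (nat_lit 546) (nat_lit 3040) (nat_lit 0) (XT.nd (nat_lit 234) (nat_lit 2584) (nat_lit 0) (XT.nd (nat_lit 78) (nat_lit 912) (nat_lit 0) (XT.lf (nat_lit 0) (nat_lit 5775929134) (nat_lit 912) (nat_lit 3322402706) (nat_lit 988) (nat_lit 431095173) (nat_lit 423) (nat_lit 5) (nat_lit 435) (nat_lit 5) (nat_lit 436) (nat_lit 5) (nat_lit 577) (nat_lit 540) (nat_lit 443)) (XT.nd (nat_lit 78) (nat_lit 0) (nat_lit 0) (XT.lf (nat_lit 0) (nat_lit 1486466612) (nat_lit 912) (nat_lit 7692147219) (nat_lit 76) (nat_lit 441179653) (nat_lit 411) (nat_lit 5) (nat_lit 423) (nat_lit 5) (nat_lit 412) (nat_lit 5) (nat_lit 578) (nat_lit 540) (nat_lit 442)) (XT.lf (nat_lit 0) (nat_lit 3460050034) (nat_lit 912) (nat_lit 1987457507) (nat_lit 76) (nat_lit 4263935305) (nat_lit 411) (nat_lit 5) (nat_lit 423) (nat_lit 5) (nat_lit 412) (nat_lit 5) (nat_lit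 579) (nat_lit 540) (nat_lit 441)))) (XT.nd (nat_lit 156) (nat_lit 1748) (nat_lit 0) (XT.nd (nat_lit 78) (nat_lit 0) (nat_lit 0) (XT.lf (nat_lit 0) (nat_lit 3858139408) (nat_lit 836) (nat_lit 1616564285) (nat_lit 912) (nat_lit 4330190912) (nat_lit 400) (nat_lit 5) (nat_lit 411) (nat_lit 5) (nat_lit 412) (nat_lit 5) (nat_lit 580) (nat_lit 540) (nat_lit 440)) (XT.lf (nat_lit 0) (nat_lit 7534802530) (nat_lit 912) (nat_lit 91414275) (nat_lit 76) (nat_lit 2273896906) (nat_lit 400) (nat_lit 5) (nat_lit 412) (nat_lit 5) (nat_lit 401) (nat_lit 5) (nat_lit 581) (nat_lit 540) (nat_lit 439))) (XT.nd (nat_lit 78) (nat_lit 912) (nat_lit 0) (XT.lf (nat_lit 0) (nat_lit 5924408419) (nat_lit 836) (nat_lit 3738171931) (nat_lit 912) (nat_lit 334128637) (nat_lit 389) (nat_lit 5) (nat_lit 400) (nat_lit 5) (nat_lit 401) (nat_lit 5) (nat_lit 582) (nat_lit 540) (nat_lit 438)) (XT.lf (nat_lit 0) (nat_lit 1707294544) (nat_lit 912) (nat_lit 8139648564) (nat_lit 76) (nat_lit 248220554)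 (nat_lit 377) (nat_lit 5) (nat_lit 389) (nat_lit 5) (nat_lit 378) (nat_lit 5) (nat_lit 583) (nat_lit 540) (nat_lit 437))))) (XT.nd (nat_lit 234) (nat_lit 1520) (nat_lit 0) (XT.nd (nat_lit 78) (nat_lit 1520) (nat_lit 0) (XT.lf (nat_lit 0) (nat_lit 3815069999) (nat_lit 912) (nat_lit 2087148539) (nat_lit 76) (nat_lit 4292726017) (nat_lit 377) (nat_lit 5) (nat_lit 389) (nat_lit 5) (nat_lit 378) (nat_lit 5) (nat_lit 584) (nat_lit 540) (nat_lit 436)) (XT.nd (nat_lit 78) (nat_lit 760) (nat_lit 0) (XT.lf (nat_lit 0) (nat_lit 4116819821) (nat_lit 760) (nat_lit 1853076196) (nat_lit 836) (nat_lit 4326728375) (nat_lit 367) (nat_lit 5) (nat_lit 377) (nat_lit 5) (nat_lit 378) (nat_lit 5) (nat_lit 585) (nat_lit 540) (nat_lit 435)) (XT.lf (nat_lit 0) (nat_lit 34842105) (nat_lit 760) (nat_lit 8140515310) (nat_lit 836) (nat_lit 2224830835) (nat_lit 357) (nat_lit 5) (nat_lit 367) (nat_lit 5) (nat_lit 368) (nat_lit 5) (nat_lit 586) (nat_lit 540) (nat_lit 434)))) (XT.nd (nat_lit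 156) (nat_lit 760) (nat_lit 0) (XT.nd (nat_lit 78) (nat_lit 760) (nat_lit 0) (XT.lf (nat_lit 0) (nat_lit 6421432638) (nat_lit 760) (nat_lit 4035855522) (nat_lit 836) (nat_lit 47889202) (nat_lit 357) (nat_lit 5) (nat_lit 367) (nat_lit 5) (nat_lit 368) (nat_lit 5) (nat_lit 587) (nat_lit 540) (nat_lit 433)) (XT.lf (nat_lit 0) (nat_lit 2139270018) (nat_lit 760) (nat_lit 8296999578) (nat_lit 76) (nat_lit 175812221) (nat_lit 347) (nat_lit 5) (nat_lit 357) (nat_lit 5) (nat_lit 348) (nat_lit 5) (nat_lit 588) (nat_lit 540) (nat_lit 432))) (XT.nd (nat_lit 78) (nat_lit 760) (nat_lit 0) (XT.lf (nat_lit 0) (nat_lit 4403066054) (nat_lit 760) (nat_lit 1874304423) (nat_lit 76) (nat_lit 4443077967) (nat_lit 347) (nat_lit 5) (nat_lit 357) (nat_lit 5) (nat_lit 348) (nat_lit 5) (nat_lit 589) (nat_lit 540) (nat_lit 431)) (XT.lf (nat_lit 0) (nat_lit 4715409679) (nat_lit 760) (nat_lit 2006972515) (nat_lit 836) (nat_lit 4108396415) (nat_lit 337) (nat_lit 5) (nat_lit 347) (nat_lit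 5) (nat_lit 348) (nat_lit 5) (nat_lit 590) (nat_lit 540) (nat_lit 430)))))) (XT.nd (nat_lit 546) (nat_lit 3040) (nat_lit 0) (XT.nd (nat_lit 234) (nat_lit 1368) (nat_lit 0) (XT.nd (nat_lit 78) (nat_lit 760) (nat_lit 0) (XT.lf (nat_lit 0) (nat_lit 486802687) (nat_lit 684) (nat_lit 8612212077) (nat_lit 760) (nat_lit 1844083079) (nat_lit 328) (nat_lit 5) (nat_lit 337) (nat_lit 5) (nat_lit 338) (nat_lit 5) (nat_lit 591) (nat_lit 540) (nat_lit 429)) (XT.nd (nat_lit 78) (nat_lit 684) (nat_lit 0) (XT.lf (nat_lit 0) (nat_lit 493980414) (nat_lit 760) (nat_lit 3793136792) (nat_lit 76) (nat_lit 6769795449) (nat_lit 327) (nat_lit 5) (nat_lit 337) (nat_lit 5) (nat_lit 328) (nat_lit 5) (nat_lit 592) (nat_lit 540) (nat_lit 428)) (XT.lf (nat_lit 0) (nat_lit 2855018936) (nat_lit 760) (nat_lit 8166402682) (nat_lit 76) (nat_lit 151321242) (nat_lit 318) (nat_lit 5) (nat_lit 328) (nat_lit 5) (nat_lit 319) (nat_lit 5) (nat_lit 593) (nat_lit 540) (nat_lit 427)))) (XT.nd (nat_lit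 156) (nat_lit 760) (nat_lit 0) (XT.nd (nat_lit 78) (nat_lit 608) (nat_lit 0) (XT.lf (nat_lit 0) (nat_lit 5297866212) (nat_lit 760) (nat_lit 1349088945) (nat_lit 76) (nat_lit 4643243740) (nat_lit 318) (nat_lit 5) (nat_lit 328) (nat_lit 5) (nat_lit 319) (nat_lit 5) (nat_lit 594) (nat_lit 540) (nat_lit 426)) (XT.lf (nat_lit 0) (nat_lit 5655834691) (nat_lit 608) (nat_lit 2151412038) (nat_lit 684) (nat_lit 3602404767) (nat_lit 310) (nat_lit 5) (nat_lit 318) (nat_lit 5) (nat_lit 319) (nat_lit 5) (nat_lit 595) (nat_lit 540) (nat_lit 425))) (XT.nd (nat_lit 78) (nat_lit 76) (nat_lit 0) (XT.lf (nat_lit 0) (nat_lit 1265450563) (nat_lit 684) (nat_lit 9115651809) (nat_lit 760) (nat_lit 1150105972) (nat_lit 301) (nat_lit 5) (nat_lit 310) (nat_lit 5) (nat_lit 311) (nat_lit 5) (nat_lit 596) (nat_lit 540) (nat_lit 424)) (XT.lf (nat_lit 0) (nat_lit 1367882730) (nat_lit 760) (nat_lit 3197815585) (nat_lit 76) (nat_lit 7088636149) (nat_lit 300) (nat_lit 5) (nat_lit 310) (nat_lit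 5) (nat_lit 301) (nat_lit 5) (nat_lit 597) (nat_lit 540) (nat_lit 423))))) (XT.nd (nat_lit 312) (nat_lit 1216) (nat_lit 0) (XT.nd (nat_lit 156) (nat_lit 1216) (nat_lit 0) (XT.nd (nat_lit 78) (nat_lit 0) (nat_lit 0) (XT.lf (nat_lit 0) (nat_lit 3929339984) (nat_lit 684) (nat_lit 7746281318) (nat_lit 76) (nat_lit 103980481) (nat_lit 292) (nat_lit 5) (nat_lit 301) (nat_lit 5) (nat_lit 293) (nat_lit 5) (nat_lit 598) (nat_lit 540) (nat_lit 422)) (XT.lf (nat_lit 0) (nat_lit 6575667434) (nat_lit 684) (nat_lit 507840510) (nat_lit 76) (nat_lit 4823194559) (nat_lit 292) (nat_lit 5) (nat_lit 301) (nat_lit 5) (nat_lit 293) (nat_lit 5) (nat_lit 599) (nat_lit 540) (nat_lit 421))) (XT.nd (nat_lit 78) (nat_lit 608) (nat_lit 0) (XT.lf (nat_lit 0) (nat_lit 6943946907) (nat_lit 608) (nat_lit 2358219528) (nat_lit 684) (nat_lit 2733634760) (nat_lit 284) (nat_lit 5) (nat_lit 292) (nat_lit 5) (nat_lit 293) (nat_lit 5) (nat_lit 600) (nat_lit 540) (nat_lit 420)) (XT.lf (nat_lit 0)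 (nat_lit 2376738593) (nat_lit 608) (nat_lit 9723635238) (nat_lit 684) (nat_lit 66765305) (nat_lit 276) (nat_lit 5) (nat_lit 284) (nat_lit 5) (nat_lit 285) (nat_lit 5) (nat_lit 601) (nat_lit 540) (nat_lit 419)))) (XT.nd (nat_lit 156) (nat_lit 532) (nat_lit 0) (XT.nd (nat_lit 78) (nat_lit 608) (nat_lit 0) (XT.lf (nat_lit 0) (nat_lit 2651071954) (nat_lit 684) (nat_lit 2292520857) (nat_lit 76) (nat_lit 7356518658) (nat_lit 275) (nat_lit 5) (nat_lit 284) (nat_lit 5) (nat_lit 276) (nat_lit 5) (nat_lit 602) (nat_lit 540) (nat_lit 418)) (XT.lf (nat_lit 0) (nat_lit 5403433796) (nat_lit 608) (nat_lit 36784553) (nat_lit 684) (nat_lit 6995159941) (nat_lit 267) (nat_lit 5) (nat_lit 275) (nat_lit 5) (nat_lit 276) (nat_lit 5) (nat_lit 603) (nat_lit 540) (nat_lit 417))) (XT.nd (nat_lit 78) (nat_lit 0) (nat_lit 0) (XT.lf (nat_lit 0) (nat_lit 665237613) (nat_lit 532) (nat_lit 7654895456) (nat_lit 608) (nat_lit 4252518448) (nat_lit 260) (nat_lit 5) (nat_lit 267) (nat_lit 5)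 (nat_lit 268) (nat_lit 5) (nat_lit 604) (nat_lit 540) (nat_lit 416)) (XT.lf (nat_lit 0) (nat_lit 8589115073) (nat_lit 532) (nat_lit 2699074706) (nat_lit 608) (nat_lit 1423870319) (nat_lit 260) (nat_lit 5) (nat_lit 267) (nat_lit 5) (nat_lit 268) (nat_lit 5) (nat_lit 605) (nat_lit 540) (nat_lit 415))))))) (XT.nd (nat_lit 1092) (nat_lit 3648) (nat_lit 0) (XT.nd (nat_lit 546) (nat_lit 1976) (nat_lit 0) (XT.nd (nat_lit 234) (nat_lit 1596) (nat_lit 0) (XT.nd (nat_lit 78) (nat_lit 532) (nat_lit 0) (XT.lf (nat_lit 0) (nat_lit 1465912930) (nat_lit 608) (nat_lit 9033463078) (nat_lit 76) (nat_lit 2354217253) (nat_lit 252) (nat_lit 5) (nat_lit 260) (nat_lit 5) (nat_lit 253) (nat_lit 5) (nat_lit 606) (nat_lit 540) (nat_lit 414)) (XT.nd (nat_lit 78) (nat_lit 532) (nat_lit 0) (XT.lf (nat_lit 0) (nat_lit 4423652062) (nat_lit 608) (nat_lit 1069191924) (nat_lit 76) (nat_lit 7504341066) (nat_lit 252) (nat_lit 5) (nat_lit 260) (nat_lit 5) (nat_lit 253) (nat_lit 5) (nat_lit 607)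 (nat_lit 540) (nat_lit 413)) (XT.lf (nat_lit 0) (nat_lit 7126004678) (nat_lit 532) (nat_lit 344614906) (nat_lit 608) (nat_lit 5672428328) (nat_lit 245) (nat_lit 5) (nat_lit 252) (nat_lit 5) (nat_lit 253) (nat_lit 5) (nat_lit 608) (nat_lit 540) (nat_lit 412)))) (XT.nd (nat_lit 156) (nat_lit 988) (nat_lit 0) (XT.nd (nat_lit 78) (nat_lit 76) (nat_lit 0) (XT.lf (nat_lit 0) (nat_lit 2182676230) (nat_lit 532) (nat_lit 8433047630) (nat_lit 608) (nat_lit 2675360913) (nat_lit 238) (nat_lit 5) (nat_lit 245) (nat_lit 5) (nat_lit 246) (nat_lit 5) (nat_lit 609) (nat_lit 540) (nat_lit 411)) (XT.lf (nat_lit 0) (nat_lit 403583809) (nat_lit 608) (nat_lit 2840377834) (nat_lit 76) (nat_lit 10197533005) (nat_lit 237) (nat_lit 5) (nat_lit 245) (nat_lit 5) (nat_lit 238) (nat_lit 5) (nat_lit 610) (nat_lit 540) (nat_lit 410))) (XT.nd (nat_lit 78) (nat_lit 532) (nat_lit 0) (XT.lf (nat_lit 0) (nat_lit 3542806671) (nat_lit 532) (nat_lit 7980260059) (nat_lit 76) (nat_lit 2070802514)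 (nat_lit 231) (nat_lit 5) (nat_lit 238) (nat_lit 5) (nat_lit 232) (nat_lit 5) (nat_lit 611) (nat_lit 540) (nat_lit 409)) (XT.lf (nat_lit 0) (nat_lit 489350126) (nat_lit 532) (nat_lit 6283767916) (nat_lit 608) (nat_lit 6975607846) (nat_lit 224) (nat_lit 5) (nat_lit 231) (nat_lit 5) (nat_lit 232) (nat_lit 5) (nat_lit 612) (nat_lit 540) (nat_lit 408))))) (XT.nd (nat_lit 234) (nat_lit 1444) (nat_lit 0) (XT.nd (nat_lit 78) (nat_lit 532) (nat_lit 0) (XT.lf (nat_lit 0) (nat_lit 9214943712) (nat_lit 532) (nat_lit 891265323) (nat_lit 608) (nat_lit 3799707788) (nat_lit 224) (nat_lit 5) (nat_lit 231) (nat_lit 5) (nat_lit 232) (nat_lit 5) (nat_lit 613) (nat_lit 540) (nat_lit 407)) (XT.nd (nat_lit 78) (nat_lit 76) (nat_lit 0) (XT.lf (nat_lit 0) (nat_lit 4050573563) (nat_lit 456) (nat_lit 9496496237) (nat_lit 532) (nat_lit 518360231) (nat_lit 218) (nat_lit 5) (nat_lit 224) (nat_lit 5) (nat_lit 225) (nat_lit 5) (nat_lit 614) (nat_lit 540) (nat_lit 406)) (XT.lf (nat_lit 0)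 (nat_lit 2814048535) (nat_lit 532) (nat_lit 1242924045) (nat_lit 76) (nat_lit 10170343566) (nat_lit 217) (nat_lit 5) (nat_lit 224) (nat_lit 5) (nat_lit 218) (nat_lit 5) (nat_lit 615) (nat_lit 540) (nat_lit 405)))) (XT.nd (nat_lit 156) (nat_lit 532) (nat_lit 0) (XT.nd (nat_lit 78) (nat_lit 456) (nat_lit 0) (XT.lf (nat_lit 0) (nat_lit 6251933862) (nat_lit 532) (nat_lit 6619640466) (nat_lit 76) (nat_lit 1519882323) (nat_lit 211) (nat_lit 5) (nat_lit 218) (nat_lit 5) (nat_lit 212) (nat_lit 5) (nat_lit 616) (nat_lit 540) (nat_lit 404)) (XT.lf (nat_lit 0) (nat_lit 2408476732) (nat_lit 456) (nat_lit 7386351000) (nat_lit 532) (nat_lit 4763327783) (nat_lit 205) (nat_lit 5) (nat_lit 211) (nat_lit 5) (nat_lit 212) (nat_lit 5) (nat_lit 617) (nat_lit 540) (nat_lit 403))) (XT.nd (nat_lit 78) (nat_lit 532) (nat_lit 0) (XT.lf (nat_lit 0) (nat_lit 11685852049) (nat_lit 456) (nat_lit 1752649510) (nat_lit 532) (nat_lit 1289088911) (nat_lit 205) (nat_lit 5) (nat_lit 211) (nat_lit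 5) (nat_lit 212) (nat_lit 5) (nat_lit 618) (nat_lit 540) (nat_lit 402)) (XT.lf (nat_lit 0) (nat_lit 2277884954) (nat_lit 532) (nat_lit 8630370908) (nat_lit 76) (nat_lit 3990809622) (nat_lit 198) (nat_lit 5) (nat_lit 205) (nat_lit 5) (nat_lit 199) (nat_lit 5) (nat_lit 619) (nat_lit 540) (nat_lit 401)))))) (XT.nd (nat_lit 546) (nat_lit 1976) (nat_lit 0) (XT.nd (nat_lit 234) (nat_lit 836) (nat_lit 0) (XT.nd (nat_lit 78) (nat_lit 456) (nat_lit 0) (XT.lf (nat_lit 0) (nat_lit 701002660) (nat_lit 380) (nat_lit 5220450513) (nat_lit 456) (nat_lit 9151896614) (nat_lit 193) (nat_lit 5) (nat_lit 198) (nat_lit 5) (nat_lit 199) (nat_lit 5) (nat_lit 620) (nat_lit 540) (nat_lit 400)) (XT.nd (nat_lit 78) (nat_lit 456) (nat_lit 0) (XT.lf (nat_lit 0) (nat_lit 9685858060) (nat_lit 456) (nat_lit 4939145859) (nat_lit 76) (nat_lit 625157066) (nat_lit 193) (nat_lit 5) (nat_lit 199) (nat_lit 5) (nat_lit 194) (nat_lit 5) (nat_lit 621) (nat_lit 540) (nat_lit 399)) (XT.lf (nat_lit 0)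 (nat_lit 4689038098) (nat_lit 456) (nat_lit 8887700864) (nat_lit 532) (nat_lit 1852746189) (nat_lit 187) (nat_lit 5) (nat_lit 193) (nat_lit 5) (nat_lit 194) (nat_lit 5) (nat_lit 622) (nat_lit 540) (nat_lit 398)))) (XT.nd (nat_lit 156) (nat_lit 380) (nat_lit 0) (XT.nd (nat_lit 78) (nat_lit 380) (nat_lit 0) (XT.lf (nat_lit 0) (nat_lit 1927271404) (nat_lit 532) (nat_lit 1068420307) (nat_lit 76) (nat_lit 12616061922) (nat_lit 186) (nat_lit 5) (nat_lit 193) (nat_lit 5) (nat_lit 187) (nat_lit 5) (nat_lit 623) (nat_lit 540) (nat_lit 397)) (XT.lf (nat_lit 0) (nat_lit 5822243297) (nat_lit 456) (nat_lit 6935525237) (nat_lit 76) (nat_lit 3038371249) (nat_lit 181) (nat_lit 5) (nat_lit 187) (nat_lit 5) (nat_lit 182) (nat_lit 5) (nat_lit 624) (nat_lit 540) (nat_lit 396))) (XT.nd (nat_lit 78) (nat_lit 0) (nat_lit 0) (XT.lf (nat_lit 0) (nat_lit 3017997120) (nat_lit 380) (nat_lit 6810347458) (nat_lit 456) (nat_lit 6155204943) (nat_lit 176) (nat_lit 5) (nat_lit 181) (nat_lit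 5) (nat_lit 182) (nat_lit 5) (nat_lit 625) (nat_lit 540) (nat_lit 395)) (XT.lf (nat_lit 0) (nat_lit 13244396105) (nat_lit 380) (nat_lit 703423717) (nat_lit 456) (nat_lit 2226223049) (nat_lit 176) (nat_lit 5) (nat_lit 181) (nat_lit 5) (nat_lit 182) (nat_lit 5) (nat_lit 626) (nat_lit 540) (nat_lit 394))))) (XT.nd (nat_lit 312) (nat_lit 760) (nat_lit 0) (XT.nd (nat_lit 156) (nat_lit 380) (nat_lit 0) (XT.nd (nat_lit 78) (nat_lit 380) (nat_lit 0) (XT.lf (nat_lit 0) (nat_lit 1828950397) (nat_lit 456) (nat_lit 9031532589) (nat_lit 76) (nat_lit 5506212736) (nat_lit 170) (nat_lit 5) (nat_lit 176) (nat_lit 5) (nat_lit 171) (nat_lit 5) (nat_lit 627) (nat_lit 540) (nat_lit 393)) (XT.lf (nat_lit 0) (nat_lit 1259084901) (nat_lit 380) (nat_lit 4695952501) (nat_lit 456) (nat_lit 10607477969) (nat_lit 165) (nat_lit 5) (nat_lit 170) (nat_lit 5) (nat_lit 171) (nat_lit 5) (nat_lit 628) (nat_lit 540) (nat_lit 392))) (XT.nd (nat_lit 78) (nat_lit 380) (nat_lit 0) (XT.lf (nat_lit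 0) (nat_lit 10222038172) (nat_lit 456) (nat_lit 4913986734) (nat_lit 76) (nat_lit 1625059085) (nat_lit 165) (nat_lit 5) (nat_lit 171) (nat_lit 5) (nat_lit 166) (nat_lit 5) (nat_lit 629) (nat_lit 540) (nat_lit 391)) (XT.lf (nat_lit 0) (nat_lit 5707243319) (nat_lit 380) (nat_lit 8922592670) (nat_lit 456) (nat_lit 2332679269) (nat_lit 160) (nat_lit 5) (nat_lit 165) (nat_lit 5) (nat_lit 166) (nat_lit 5) (nat_lit 630) (nat_lit 540) (nat_lit 390)))) (XT.nd (nat_lit 156) (nat_lit 304) (nat_lit 0) (XT.nd (nat_lit 78) (nat_lit 380) (nat_lit 0) (XT.lf (nat_lit 0) (nat_lit 1952672001) (nat_lit 456) (nat_lit 592530817) (nat_lit 76) (nat_lit 14622107809) (nat_lit 159) (nat_lit 5) (nat_lit 165) (nat_lit 5) (nat_lit 160) (nat_lit 5) (nat_lit 631) (nat_lit 540) (nat_lit 389)) (XT.lf (nat_lit 0) (nat_lit 6373751519) (nat_lit 456) (nat_lit 7016195732) (nat_lit 76) (nat_lit 3984321545) (nat_lit 154) (nat_lit 5) (nat_lit 160) (nat_lit 5) (nat_lit 155) (nat_lit 5) (nat_lit 632)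 (nat_lit 540) (nat_lit 388))) (XT.nd (nat_lit 78) (nat_lit 0) (nat_lit 0) (XT.lf (nat_lit 0) (nat_lit 3966089497) (nat_lit 304) (nat_lit 6951433512) (nat_lit 380) (nat_lit 6667158094) (nat_lit 150) (nat_lit 5) (nat_lit 154) (nat_lit 5) (nat_lit 155) (nat_lit 5) (nat_lit 633) (nat_lit 540) (nat_lit 387)) (XT.lf (nat_lit 0) (nat_lit 15243776131) (nat_lit 304) (nat_lit 343254176) (nat_lit 380) (nat_lit 2211574515) (nat_lit 150) (nat_lit 5) (nat_lit 154) (nat_lit 5) (nat_lit 155) (nat_lit 5) (nat_lit 634) (nat_lit 540) (nat_lit 386))))))))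
noncomputable def xc115 : XT := (XT.nd (nat_lit 73944) (nat_lit 0) (nat_lit 31160) (XT.nd (nat_lit 1092) (nat_lit 2508) (nat_lit 0) (XT.nd (nat_lit 546) (nat_lit 1292) (nat_lit 0) (XT.nd (nat_lit 234) (nat_lit 1064) (nat_lit 0) (XT.nd (nat_lit 78) (nat_lit 304) (nat_lit 0) (XT.lf (nat_lit 0) (nat_lit 2389636878) (nat_lit 456) (nat_lit 9246075160) (nat_lit 76) (nat_lit 6379050064) (nat_lit 144) (nat_lit 5) (nat_lit 150) (nat_lit 5) (nat_lit 145) (nat_lit 5) (nat_lit 635) (nat_lit 540) (nat_lit 385)) (XT.nd (nat_lit 78) (nat_lit 0) (nat_lit 0) (XT.lf (nat_lit 0) (nat_lit 2109843104) (nat_lit 304) (nat_lit 4964678822) (nat_lit 380) (nat_lit 11160003337) (nat_lit 140) (nat_lit 5) (nat_lit 144) (nat_lit 5) (nat_lit 145) (nat_lit 5) (nat_lit 636) (nat_lit 540) (nat_lit 384)) (XT.lf (nat_lit 0) (nat_lit 11915576556) (nat_lit 380) (nat_lit 4670850567) (nat_lit 76) (nat_lit 1871007470) (nat_lit 140) (nat_lit 5) (nat_lit 145) (nat_lit 5) (nat_lit 141) (nat_lit 5) (nat_lit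 637) (nat_lit 540) (nat_lit 383)))) (XT.nd (nat_lit 156) (nat_lit 304) (nat_lit 0) (XT.nd (nat_lit 78) (nat_lit 380) (nat_lit 0) (XT.lf (nat_lit 0) (nat_lit 7052790769) (nat_lit 380) (nat_lit 9867635407) (nat_lit 456) (nat_lit 1763036796) (nat_lit 135) (nat_lit 5) (nat_lit 140) (nat_lit 5) (nat_lit 141) (nat_lit 5) (nat_lit 638) (nat_lit 540) (nat_lit 382)) (XT.lf (nat_lit 0) (nat_lit 123122742) (nat_lit 304) (nat_lit 2968117183) (nat_lit 380) (nat_lit 15821954596) (nat_lit 130) (nat_lit 5) (nat_lit 134) (nat_lit 5) (nat_lit 135) (nat_lit 5) (nat_lit 639) (nat_lit 540) (nat_lit 381))) (XT.nd (nat_lit 78) (nat_lit 304) (nat_lit 0) (XT.lf (nat_lit 0) (nat_lit 8112397207) (nat_lit 380) (nat_lit 6933901143) (nat_lit 76) (nat_lit 4099121555) (nat_lit 130) (nat_lit 5) (nat_lit 135) (nat_lit 5) (nat_lit 131) (nat_lit 5) (nat_lit 640) (nat_lit 540) (nat_lit 380)) (XT.lf (nat_lit 0) (nat_lit 5189187741) (nat_lit 304) (nat_lit 8086759541) (nat_lit 380) (nat_lit 6105503433)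 (nat_lit 126) (nat_lit 5) (nat_lit 130) (nat_lit 5) (nat_lit 131) (nat_lit 5) (nat_lit 641) (nat_lit 540) (nat_lit 379))))) (XT.nd (nat_lit 234) (nat_lit 608) (nat_lit 0) (XT.nd (nat_lit 78) (nat_lit 684) (nat_lit 0) (XT.lf (nat_lit 0) (nat_lit 17630245775) (nat_lit 304) (nat_lit 947777405) (nat_lit 380) (nat_lit 1043474173) (nat_lit 126) (nat_lit 5) (nat_lit 130) (nat_lit 5) (nat_lit 131) (nat_lit 5) (nat_lit 642) (nat_lit 540) (nat_lit 378)) (XT.nd (nat_lit 78) (nat_lit 304) (nat_lit 0) (XT.lf (nat_lit 0) (nat_lit 4164823487) (nat_lit 380) (nat_lit 9359282600) (nat_lit 76) (nat_lit 6339722968) (nat_lit 121) (nat_lit 5) (nat_lit 126) (nat_lit 5) (nat_lit 122) (nat_lit 5) (nat_lit 643) (nat_lit 540) (nat_lit 377)) (XT.lf (nat_lit 0) (nat_lit 3176574357) (nat_lit 304) (nat_lit 6316032015) (nat_lit 380) (nat_lit 10617677534) (nat_lit 117) (nat_lit 5) (nat_lit 121) (nat_lit 5) (nat_lit 122) (nat_lit 5) (nat_lit 644) (nat_lit 540) (nat_lit 376)))) (XT.nd (nat_lit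 156) (nat_lit 304) (nat_lit 0) (XT.nd (nat_lit 78) (nat_lit 304) (nat_lit 0) (XT.lf (nat_lit 0) (nat_lit 14985872682) (nat_lit 380) (nat_lit 4295915338) (nat_lit 76) (nat_lit 1078701561) (nat_lit 117) (nat_lit 5) (nat_lit 122) (nat_lit 5) (nat_lit 118) (nat_lit 5) (nat_lit 645) (nat_lit 540) (nat_lit 375)) (XT.lf (nat_lit 0) (nat_lit 61404564) (nat_lit 304) (nat_lit 11966146190) (nat_lit 76) (nat_lit 8586397364) (nat_lit 113) (nat_lit 5) (nat_lit 117) (nat_lit 5) (nat_lit 114) (nat_lit 5) (nat_lit 646) (nat_lit 540) (nat_lit 374))) (XT.nd (nat_lit 78) (nat_lit 0) (nat_lit 0) (XT.lf (nat_lit 0) (nat_lit 995963732) (nat_lit 304) (nat_lit 4562988090) (nat_lit 380) (nat_lit 15312318318) (nat_lit 109) (nat_lit 5) (nat_lit 113) (nat_lit 5) (nat_lit 114) (nat_lit 5) (nat_lit 647) (nat_lit 540) (nat_lit 373)) (XT.lf (nat_lit 0) (nat_lit 11256356232) (nat_lit 380) (nat_lit 6791041486) (nat_lit 76) (nat_lit 3084543021) (nat_lit 109) (nat_lit 5) (nat_lit 114) (nat_lit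 5) (nat_lit 110) (nat_lit 5) (nat_lit 648) (nat_lit 540) (nat_lit 372)))))) (XT.nd (nat_lit 546) (nat_lit 1064) (nat_lit 0) (XT.nd (nat_lit 234) (nat_lit 836) (nat_lit 0) (XT.nd (nat_lit 78) (nat_lit 380) (nat_lit 0) (XT.lf (nat_lit 0) (nat_lit 6593430020) (nat_lit 228) (nat_lit 10536783585) (nat_lit 304) (nat_lit 4266361305) (nat_lit 106) (nat_lit 5) (nat_lit 109) (nat_lit 5) (nat_lit 110) (nat_lit 5) (nat_lit 649) (nat_lit 540) (nat_lit 371)) (XT.nd (nat_lit 78) (nat_lit 304) (nat_lit 0) (XT.lf (nat_lit 0) (nat_lit 1471336531) (nat_lit 304) (nat_lit 1355451328) (nat_lit 76) (nat_lit 18838817741) (nat_lit 105) (nat_lit 5) (nat_lit 109) (nat_lit 5) (nat_lit 106) (nat_lit 5) (nat_lit 650) (nat_lit 540) (nat_lit 370)) (XT.lf (nat_lit 0) (nat_lit 7370828060) (nat_lit 380) (nat_lit 9492221360) (nat_lit 76) (nat_lit 5074320387) (nat_lit 101) (nat_lit 5) (nat_lit 106) (nat_lit 5) (nat_lit 102) (nat_lit 5) (nat_lit 651) (nat_lit 540) (nat_lit 369)))) (XT.nd (nat_lit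 156) (nat_lit 608) (nat_lit 0) (XT.nd (nat_lit 78) (nat_lit 0) (nat_lit 0) (XT.lf (nat_lit 0) (nat_lit 4346518060) (nat_lit 228) (nat_lit 9087637821) (nat_lit 304) (nat_lit 8779496725) (nat_lit 98) (nat_lit 5) (nat_lit 101) (nat_lit 5) (nat_lit 102) (nat_lit 5) (nat_lit 652) (nat_lit 540) (nat_lit 368)) (XT.lf (nat_lit 0) (nat_lit 18573363694) (nat_lit 228) (nat_lit 1098922290) (nat_lit 304) (nat_lit 2822104594) (nat_lit 98) (nat_lit 5) (nat_lit 101) (nat_lit 5) (nat_lit 102) (nat_lit 5) (nat_lit 653) (nat_lit 540) (nat_lit 367))) (XT.nd (nat_lit 78) (nat_lit 228) (nat_lit 0) (XT.lf (nat_lit 0) (nat_lit 3315573179) (nat_lit 380) (nat_lit 12423314716) (nat_lit 76) (nat_lit 7039356635) (nat_lit 93) (nat_lit 5) (nat_lit 98) (nat_lit 5) (nat_lit 94) (nat_lit 5) (nat_lit 654) (nat_lit 540) (nat_lit 366)) (XT.lf (nat_lit 0) (nat_lit 1883698509) (nat_lit 228) (nat_lit 7690558782) (nat_lit 304) (nat_lit 13492424588) (nat_lit 90) (nat_lit 5) (nat_lit 93) (nat_lit 5)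 (nat_lit 94) (nat_lit 5) (nat_lit 655) (nat_lit 540) (nat_lit 365))))) (XT.nd (nat_lit 312) (nat_lit 532) (nat_lit 0) (XT.nd (nat_lit 156) (nat_lit 304) (nat_lit 0) (XT.nd (nat_lit 78) (nat_lit 228) (nat_lit 0) (XT.lf (nat_lit 0) (nat_lit 16035451977) (nat_lit 304) (nat_lit 6735098379) (nat_lit 76) (nat_lit 588791099) (nat_lit 90) (nat_lit 5) (nat_lit 94) (nat_lit 5) (nat_lit 91) (nat_lit 5) (nat_lit 656) (nat_lit 540) (nat_lit 364)) (XT.lf (nat_lit 0) (nat_lit 8039377860) (nat_lit 228) (nat_lit 14679865449) (nat_lit 304) (nat_lit 936743667) (nat_lit 87) (nat_lit 5) (nat_lit 90) (nat_lit 5) (nat_lit 91) (nat_lit 5) (nat_lit 657) (nat_lit 540) (nat_lit 363))) (XT.nd (nat_lit 78) (nat_lit 228) (nat_lit 0) (XT.lf (nat_lit 0) (nat_lit 5540745159) (nat_lit 304) (nat_lit 810430238) (nat_lit 76) (nat_lit 17605950704) (nat_lit 86) (nat_lit 5) (nat_lit 90) (nat_lit 5) (nat_lit 87) (nat_lit 5) (nat_lit 658) (nat_lit 540) (nat_lit 362)) (XT.lf (nat_lit 0) (nat_lit 12234120303)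 (nat_lit 304) (nat_lit 9818278928) (nat_lit 76) (nat_lit 2209787547) (nat_lit 83) (nat_lit 5) (nat_lit 87) (nat_lit 5) (nat_lit 84) (nat_lit 5) (nat_lit 659) (nat_lit 540) (nat_lit 361)))) (XT.nd (nat_lit 156) (nat_lit 228) (nat_lit 0) (XT.nd (nat_lit 78) (nat_lit 76) (nat_lit 0) (XT.lf (nat_lit 0) (nat_lit 5453914632) (nat_lit 228) (nat_lit 13680882971) (nat_lit 304) (nat_lit 5437082567) (nat_lit 80) (nat_lit 5) (nat_lit 83) (nat_lit 5) (nat_lit 84) (nat_lit 5) (nat_lit 660) (nat_lit 540) (nat_lit 360)) (XT.lf (nat_lit 0) (nat_lit 1325686530) (nat_lit 304) (nat_lit 3747205607) (nat_lit 76) (nat_lit 19813571965) (nat_lit 79) (nat_lit 5) (nat_lit 83) (nat_lit 5) (nat_lit 80) (nat_lit 5) (nat_lit 661) (nat_lit 540) (nat_lit 359))) (XT.nd (nat_lit 71760) (nat_lit 0) (nat_lit 44080) (XT.lf (nat_lit 0) (nat_lit 8244598360) (nat_lit 304) (nat_lit 13193487389) (nat_lit 76) (nat_lit 3766661568) (nat_lit 76) (nat_lit 5) (nat_lit 80) (nat_lit 5) (nat_lit 77) (nat_lit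 5) (nat_lit 662) (nat_lit 540) (nat_lit 358)) (XT.lf (nat_lit 0) (nat_lit 1366203644) (nat_lit 0) (nat_lit 1366203644) (nat_lit 1140) (nat_lit 907845150) (nat_lit 656) (nat_lit 5) (nat_lit 656) (nat_lit 3) (nat_lit 671) (nat_lit 3) (nat_lit 541) (nat_lit 541) (nat_lit 478))))))) (XT.nd (nat_lit 1170) (nat_lit 9196) (nat_lit 0) (XT.nd (nat_lit 546) (nat_lit 1292) (nat_lit 0) (XT.nd (nat_lit 234) (nat_lit 1216) (nat_lit 0) (XT.nd (nat_lit 78) (nat_lit 1216) (nat_lit 0) (XT.lf (nat_lit 0) (nat_lit 6399109203) (nat_lit 0) (nat_lit 713035429) (nat_lit 1140) (nat_lit 209185797) (nat_lit 656) (nat_lit 5) (nat_lit 656) (nat_lit 3) (nat_lit 671) (nat_lit 3) (nat_lit 542) (nat_lit 541) (nat_lit 477)) (XT.nd (nat_lit 78) (nat_lit 0) (nat_lit 0) (XT.lf (nat_lit 0) (nat_lit 1395765580) (nat_lit 1216) (nat_lit 4590401949) (nat_lit 1292) (nat_lit 1376921298) (nat_lit 640) (nat_lit 5) (nat_lit 656) (nat_lit 5) (nat_lit 657) (nat_lit 5) (nat_lit 543) (nat_lit 541) (nat_lit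 476)) (XT.lf (nat_lit 0) (nat_lit 2999729258) (nat_lit 1216) (nat_lit 879983093) (nat_lit 1292) (nat_lit 3526551275) (nat_lit 640) (nat_lit 5) (nat_lit 656) (nat_lit 5) (nat_lit 657) (nat_lit 5) (nat_lit 544) (nat_lit 541) (nat_lit 475)))) (XT.nd (nat_lit 156) (nat_lit 1216) (nat_lit 0) (XT.nd (nat_lit 78) (nat_lit 0) (nat_lit 76) (XT.lf (nat_lit 76) (nat_lit 2921121685) (nat_lit 0) (nat_lit 1693185000) (nat_lit 1292) (nat_lit 2836427656) (nat_lit 641) (nat_lit 5) (nat_lit 640) (nat_lit 5) (nat_lit 657) (nat_lit 5) (nat_lit 545) (nat_lit 541) (nat_lit 474)) (XT.lf (nat_lit 0) (nat_lit 6230944965) (nat_lit 1216) (nat_lit 711931486) (nat_lit 1292) (nat_lit 553825684) (nat_lit 641) (nat_lit 5) (nat_lit 657) (nat_lit 5) (nat_lit 658) (nat_lit 5) (nat_lit 546) (nat_lit 541) (nat_lit 473))) (XT.nd (nat_lit 78) (nat_lit 0) (nat_lit 0) (XT.lf (nat_lit 0) (nat_lit 324910880) (nat_lit 1292) (nat_lit 4355296555) (nat_lit 1368) (nat_lit 2863481204) (nat_lit 624) (nat_lit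 5) (nat_lit 641) (nat_lit 5) (nat_lit 642) (nat_lit 5) (nat_lit 547) (nat_lit 541) (nat_lit 472)) (XT.lf (nat_lit 0) (nat_lit 1896747607) (nat_lit 1292) (nat_lit 446092593) (nat_lit 1368) (nat_lit 5249284140) (nat_lit 624) (nat_lit 5) (nat_lit 641) (nat_lit 5) (nat_lit 642) (nat_lit 5) (nat_lit 548) (nat_lit 541) (nat_lit 471))))) (XT.nd (nat_lit 312) (nat_lit 0) (nat_lit 76) (XT.nd (nat_lit 156) (nat_lit 1368) (nat_lit 0) (XT.nd (nat_lit 78) (nat_lit 0) (nat_lit 0) (XT.lf (nat_lit 0) (nat_lit 3485931027) (nat_lit 1292) (nat_lit 4076372965) (nat_lit 1368) (nat_lit 79509381) (nat_lit 625) (nat_lit 5) (nat_lit 642) (nat_lit 5) (nat_lit 643) (nat_lit 5) (nat_lit 549) (nat_lit 541) (nat_lit 470)) (XT.lf (nat_lit 0) (nat_lit 5088358023) (nat_lit 1292) (nat_lit 67510173) (nat_lit 1368) (nat_lit 2537001554) (nat_lit 625) (nat_lit 5) (nat_lit 642) (nat_lit 5) (nat_lit 643) (nat_lit 5) (nat_lit 550) (nat_lit 541) (nat_lit 469))) (XT.nd (nat_lit 78) (nat_lit 1368) (nat_lit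 0) (XT.lf (nat_lit 76) (nat_lit 4052334311) (nat_lit 0) (nat_lit 2660467599) (nat_lit 1368) (nat_lit 1032348685) (nat_lit 626) (nat_lit 5) (nat_lit 625) (nat_lit 5) (nat_lit 643) (nat_lit 5) (nat_lit 551) (nat_lit 541) (nat_lit 468)) (XT.lf (nat_lit 76) (nat_lit 436356858) (nat_lit 0) (nat_lit 94684619) (nat_lit 1444) (nat_lit 7268018485) (nat_lit 608) (nat_lit 5) (nat_lit 607) (nat_lit 5) (nat_lit 626) (nat_lit 5) (nat_lit 552) (nat_lit 541) (nat_lit 467)))) (XT.nd (nat_lit 156) (nat_lit 0) (nat_lit 76) (XT.nd (nat_lit 78) (nat_lit 0) (nat_lit 0) (XT.lf (nat_lit 0) (nat_lit 2117841911) (nat_lit 1368) (nat_lit 3202082594) (nat_lit 1444) (nat_lit 2533869774) (nat_lit 608) (nat_lit 5) (nat_lit 626) (nat_lit 5) (nat_lit 627) (nat_lit 5) (nat_lit 553) (nat_lit 541) (nat_lit 466)) (XT.lf (nat_lit 76) (nat_lit 1031789487) (nat_lit 0) (nat_lit 2677239150) (nat_lit 1444) (nat_lit 4201144141) (nat_lit 609) (nat_lit 5) (nat_lit 608) (nat_lit 5) (nat_lit 627) (nat_lit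 5) (nat_lit 554) (nat_lit 541) (nat_lit 465))) (XT.nd (nat_lit 78) (nat_lit 0) (nat_lit 0) (XT.lf (nat_lit 0) (nat_lit 5319718682) (nat_lit 1368) (nat_lit 2597241108) (nat_lit 1444) (nat_lit 50967919) (nat_lit 609) (nat_lit 5) (nat_lit 627) (nat_lit 5) (nat_lit 628) (nat_lit 5) (nat_lit 555) (nat_lit 541) (nat_lit 464)) (XT.lf (nat_lit 76) (nat_lit 1751753739) (nat_lit 0) (nat_lit 5206571225) (nat_lit 1444) (nat_lit 1068601130) (nat_lit 610) (nat_lit 5) (nat_lit 609) (nat_lit 5) (nat_lit 628) (nat_lit 5) (nat_lit 556) (nat_lit 541) (nat_lit 463)))))) (XT.nd (nat_lit 546) (nat_lit 6536) (nat_lit 0) (XT.nd (nat_lit 234) (nat_lit 1368) (nat_lit 0) (XT.nd (nat_lit 78) (nat_lit 0) (nat_lit 76) (XT.lf (nat_lit 0) (nat_lit 519912056) (nat_lit 1444) (nat_lit 1890765099) (nat_lit 1520) (nat_lit 5676670557) (nat_lit 590) (nat_lit 5) (nat_lit 609) (nat_lit 5) (nat_lit 610) (nat_lit 5) (nat_lit 557) (nat_lit 541) (nat_lit 462)) (XT.nd (nat_lit 78) (nat_lit 0) (nat_lit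 0) (XT.lf (nat_lit 0) (nat_lit 2113304928) (nat_lit 1444) (nat_lit 5566925088) (nat_lit 1520) (nat_lit 468860383) (nat_lit 591) (nat_lit 5) (nat_lit 610) (nat_lit 5) (nat_lit 611) (nat_lit 5) (nat_lit 558) (nat_lit 541) (nat_lit 461)) (XT.lf (nat_lit 0) (nat_lit 3735386357) (nat_lit 1444) (nat_lit 1081079162) (nat_lit 1520) (nat_lit 3395668229) (nat_lit 591) (nat_lit 5) (nat_lit 610) (nat_lit 5) (nat_lit 611) (nat_lit 5) (nat_lit 559) (nat_lit 541) (nat_lit 460)))) (XT.nd (nat_lit 156) (nat_lit 1444) (nat_lit 0) (XT.nd (nat_lit 78) (nat_lit 0) (nat_lit 76) (XT.lf (nat_lit 76) (nat_lit 3517677123) (nat_lit 0) (nat_lit 1863781083) (nat_lit 1520) (nat_lit 2895150959) (nat_lit 592) (nat_lit 5) (nat_lit 591) (nat_lit 5) (nat_lit 611) (nat_lit 5) (nat_lit 560) (nat_lit 541) (nat_lit 459)) (XT.lf (nat_lit 0) (nat_lit 7044434874) (nat_lit 1444) (nat_lit 150128883) (nat_lit 1520) (nat_lit 1148132804) (nat_lit 592) (nat_lit 5) (nat_lit 611) (nat_lit 5) (nat_lit 612)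 (nat_lit 5) (nat_lit 561) (nat_lit 541) (nat_lit 458))) (XT.nd (nat_lit 78) (nat_lit 0) (nat_lit 0) (XT.lf (nat_lit 0) (nat_lit 338187571) (nat_lit 1520) (nat_lit 3836580337) (nat_lit 1596) (nat_lit 4235057770) (nat_lit 572) (nat_lit 5) (nat_lit 592) (nat_lit 5) (nat_lit 593) (nat_lit 5) (nat_lit 562) (nat_lit 541) (nat_lit 457)) (XT.lf (nat_lit 76) (nat_lit 894725174) (nat_lit 0) (nat_lit 1072171550) (nat_lit 1596) (nat_lit 6511692743) (nat_lit 573) (nat_lit 5) (nat_lit 572) (nat_lit 5) (nat_lit 593) (nat_lit 5) (nat_lit 563) (nat_lit 541) (nat_lit 456))))) (XT.nd (nat_lit 312) (nat_lit 3420) (nat_lit 0) (XT.nd (nat_lit 156) (nat_lit 1672) (nat_lit 0) (XT.nd (nat_lit 78) (nat_lit 1520) (nat_lit 0) (XT.lf (nat_lit 0) (nat_lit 3638235199) (nat_lit 1520) (nat_lit 2813037223) (nat_lit 76) (nat_lit 2097256979) (nat_lit 573) (nat_lit 5) (nat_lit 593) (nat_lit 5) (nat_lit 574) (nat_lit 5) (nat_lit 564) (nat_lit 541) (nat_lit 455)) (XT.lf (nat_lit 0) (nat_lit 2049723697)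 (nat_lit 1520) (nat_lit 3284816189) (nat_lit 1596) (nat_lit 3285499393) (nat_lit 553) (nat_lit 5) (nat_lit 573) (nat_lit 5) (nat_lit 574) (nat_lit 5) (nat_lit 565) (nat_lit 541) (nat_lit 454))) (XT.nd (nat_lit 78) (nat_lit 1672) (nat_lit 0) (XT.lf (nat_lit 0) (nat_lit 7024759642) (nat_lit 1520) (nat_lit 30434794) (nat_lit 1596) (nat_lit 1637978340) (nat_lit 553) (nat_lit 5) (nat_lit 573) (nat_lit 5) (nat_lit 574) (nat_lit 5) (nat_lit 566) (nat_lit 541) (nat_lit 453)) (XT.lf (nat_lit 0) (nat_lit 57151896) (nat_lit 1672) (nat_lit 5437242483) (nat_lit 76) (nat_lit 3273066547) (nat_lit 531) (nat_lit 5) (nat_lit 553) (nat_lit 5) (nat_lit 532) (nat_lit 5) (nat_lit 567) (nat_lit 541) (nat_lit 452)))) (XT.nd (nat_lit 156) (nat_lit 1748) (nat_lit 0) (XT.nd (nat_lit 78) (nat_lit 1672) (nat_lit 0) (XT.lf (nat_lit 0) (nat_lit 1748095694) (nat_lit 1672) (nat_lit 426164224) (nat_lit 76) (nat_lit 6669083298) (nat_lit 531) (nat_lit 5) (nat_lit 553) (nat_lit 5) (nat_lit 532)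 (nat_lit 5) (nat_lit 568) (nat_lit 541) (nat_lit 451)) (XT.lf (nat_lit 0) (nat_lit 3484524383) (nat_lit 1748) (nat_lit 4204689751) (nat_lit 76) (nat_lit 1231297449) (nat_lit 509) (nat_lit 5) (nat_lit 532) (nat_lit 5) (nat_lit 510) (nat_lit 5) (nat_lit 569) (nat_lit 541) (nat_lit 450))) (XT.nd (nat_lit 78) (nat_lit 0) (nat_lit 0) (XT.lf (nat_lit 0) (nat_lit 941773524) (nat_lit 1748) (nat_lit 4310602222) (nat_lit 1824) (nat_lit 3746915406) (nat_lit 486) (nat_lit 5) (nat_lit 509) (nat_lit 5) (nat_lit 510) (nat_lit 5) (nat_lit 570) (nat_lit 541) (nat_lit 449)) (XT.lf (nat_lit 0) (nat_lit 6224897560) (nat_lit 1748) (nat_lit 832576394) (nat_lit 1824) (nat_lit 2022136246) (nat_lit 486) (nat_lit 5) (nat_lit 509) (nat_lit 5) (nat_lit 510) (nat_lit 5) (nat_lit 571) (nat_lit 541) (nat_lit 448))))))))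
noncomputable def xc116 : XT := (XT.nd (nat_lit 2262) (nat_lit 9044) (nat_lit 0) (XT.nd (nat_lit 1092) (nat_lit 7068) (nat_lit 0) (XT.nd (nat_lit 546) (nat_lit 3420) (nat_lit 0) (XT.nd (nat_lit 234) (nat_lit 1900) (nat_lit 0) (XT.nd (nat_lit 78) (nat_lit 1140) (nat_lit 0) (XT.lf (nat_lit 0) (nat_lit 2443218697) (nat_lit 1824) (nat_lit 6463155888) (nat_lit 1900) (nat_lit 255008686) (nat_lit 462) (nat_lit 5) (nat_lit 486) (nat_lit 5) (nat_lit 487) (nat_lit 5) (nat_lit 572) (nat_lit 541) (nat_lit 447)) (XT.nd (nat_lit 78) (nat_lit 1064) (nat_lit 0) (XT.lf (nat_lit 0) (nat_lit 1526358319) (nat_lit 1900) (nat_lit 1397825021) (nat_lit 76) (nat_lit 6320425264) (nat_lit 461) (nat_lit 5) (nat_lit 486) (nat_lit 5) (nat_lit 462) (nat_lit 5) (nat_lit 573) (nat_lit 541) (nat_lit 446)) (XT.lf (nat_lit 0) (nat_lit 3345831396) (nat_lit 1140) (nat_lit 5276717898) (nat_lit 76) (nat_lit 706799127) (nat_lit 447) (nat_lit 5) (nat_lit 462) (nat_lit 5) (nat_lit 448) (nat_lit 5)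 (nat_lit 574) (nat_lit 541) (nat_lit 445)))) (XT.nd (nat_lit 156) (nat_lit 988) (nat_lit 0) (XT.nd (nat_lit 78) (nat_lit 0) (nat_lit 0) (XT.lf (nat_lit 0) (nat_lit 174884647) (nat_lit 912) (nat_lit 5032004763) (nat_lit 988) (nat_lit 4208791240) (nat_lit 435) (nat_lit 5) (nat_lit 447) (nat_lit 5) (nat_lit 448) (nat_lit 5) (nat_lit 575) (nat_lit 541) (nat_lit 444)) (XT.lf (nat_lit 0) (nat_lit 5783771625) (nat_lit 912) (nat_lit 1332392942) (nat_lit 988) (nat_lit 2387356533) (nat_lit 435) (nat_lit 5) (nat_lit 447) (nat_lit 5) (nat_lit 448) (nat_lit 5) (nat_lit 576) (nat_lit 541) (nat_lit 443))) (XT.nd (nat_lit 78) (nat_lit 76) (nat_lit 0) (XT.lf (nat_lit 0) (nat_lit 1897447426) (nat_lit 912) (nat_lit 7170419622) (nat_lit 988) (nat_lit 525167939) (nat_lit 423) (nat_lit 5) (nat_lit 435) (nat_lit 5) (nat_lit 436) (nat_lit 5) (nat_lit 577) (nat_lit 541) (nat_lit 442)) (XT.lf (nat_lit 0) (nat_lit 1366424731) (nat_lit 988) (nat_lit 2047811096) (nat_lit 76) (nat_lit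 6269722602) (nat_lit 422) (nat_lit 5) (nat_lit 435) (nat_lit 5) (nat_lit 423) (nat_lit 5) (nat_lit 578) (nat_lit 541) (nat_lit 441))))) (XT.nd (nat_lit 234) (nat_lit 1748) (nat_lit 0) (XT.nd (nat_lit 78) (nat_lit 836) (nat_lit 0) (XT.lf (nat_lit 0) (nat_lit 3292669585) (nat_lit 912) (nat_lit 6044082525) (nat_lit 76) (nat_lit 439803136) (nat_lit 411) (nat_lit 5) (nat_lit 423) (nat_lit 5) (nat_lit 412) (nat_lit 5) (nat_lit 579) (nat_lit 541) (nat_lit 440)) (XT.nd (nat_lit 78) (nat_lit 836) (nat_lit 0) (XT.lf (nat_lit 0) (nat_lit 5270891859) (nat_lit 912) (nat_lit 260630541) (nat_lit 76) (nat_lit 4339213903) (nat_lit 411) (nat_lit 5) (nat_lit 423) (nat_lit 5) (nat_lit 412) (nat_lit 5) (nat_lit 580) (nat_lit 541) (nat_lit 439)) (XT.lf (nat_lit 0) (nat_lit 5690256101) (nat_lit 836) (nat_lit 1612826996) (nat_lit 912) (nat_lit 2663431123) (nat_lit 400) (nat_lit 5) (nat_lit 411) (nat_lit 5) (nat_lit 412) (nat_lit 5) (nat_lit 581) (nat_lit 541) (nat_lit 438)))) (XT.nd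 (nat_lit 156) (nat_lit 836) (nat_lit 0) (XT.nd (nat_lit 78) (nat_lit 76) (nat_lit 0) (XT.lf (nat_lit 0) (nat_lit 1682945255) (nat_lit 836) (nat_lit 7698891407) (nat_lit 912) (nat_lit 682253963) (nat_lit 389) (nat_lit 5) (nat_lit 400) (nat_lit 5) (nat_lit 401) (nat_lit 5) (nat_lit 582) (nat_lit 541) (nat_lit 437)) (XT.lf (nat_lit 0) (nat_lit 1338449683) (nat_lit 912) (nat_lit 2386606493) (nat_lit 76) (nat_lit 6438040655) (nat_lit 388) (nat_lit 5) (nat_lit 400) (nat_lit 5) (nat_lit 389) (nat_lit 5) (nat_lit 583) (nat_lit 541) (nat_lit 436))) (XT.nd (nat_lit 78) (nat_lit 0) (nat_lit 0) (XT.lf (nat_lit 0) (nat_lit 3395425315) (nat_lit 912) (nat_lit 6516615097) (nat_lit 76) (nat_lit 351853915) (nat_lit 377) (nat_lit 5) (nat_lit 389) (nat_lit 5) (nat_lit 378) (nat_lit 5) (nat_lit 584) (nat_lit 541) (nat_lit 435)) (XT.lf (nat_lit 0) (nat_lit 5512925203) (nat_lit 912) (nat_lit 378081276) (nat_lit 76) (nat_lit 4475314802) (nat_lit 377) (nat_lit 5) (nat_lit 389) (nat_lit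 5) (nat_lit 378) (nat_lit 5) (nat_lit 585) (nat_lit 541) (nat_lit 434)))))) (XT.nd (nat_lit 546) (nat_lit 3344) (nat_lit 0) (XT.nd (nat_lit 234) (nat_lit 2128) (nat_lit 0) (XT.nd (nat_lit 78) (nat_lit 836) (nat_lit 0) (XT.lf (nat_lit 0) (nat_lit 5938447963) (nat_lit 760) (nat_lit 1751897241) (nat_lit 836) (nat_lit 2780101346) (nat_lit 367) (nat_lit 5) (nat_lit 377) (nat_lit 5) (nat_lit 378) (nat_lit 5) (nat_lit 586) (nat_lit 541) (nat_lit 433)) (XT.nd (nat_lit 78) (nat_lit 76) (nat_lit 0) (XT.lf (nat_lit 0) (nat_lit 1794395417) (nat_lit 760) (nat_lit 8126426864) (nat_lit 836) (nat_lit 655643027) (nat_lit 357) (nat_lit 5) (nat_lit 367) (nat_lit 5) (nat_lit 368) (nat_lit 5) (nat_lit 587) (nat_lit 541) (nat_lit 432)) (XT.lf (nat_lit 0) (nat_lit 1513088418) (nat_lit 836) (nat_lit 2419900445) (nat_lit 76) (nat_lit 6750988341) (nat_lit 356) (nat_lit 5) (nat_lit 367) (nat_lit 5) (nat_lit 357) (nat_lit 5) (nat_lit 588) (nat_lit 541) (nat_lit 431)))) (XT.nd (nat_lit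 156) (nat_lit 1444) (nat_lit 0) (XT.nd (nat_lit 78) (nat_lit 0) (nat_lit 0) (XT.lf (nat_lit 0) (nat_lit 3725238207) (nat_lit 760) (nat_lit 6699543061) (nat_lit 76) (nat_lit 368596026) (nat_lit 347) (nat_lit 5) (nat_lit 357) (nat_lit 5) (nat_lit 348) (nat_lit 5) (nat_lit 589) (nat_lit 541) (nat_lit 430)) (XT.lf (nat_lit 0) (nat_lit 6004051679) (nat_lit 760) (nat_lit 182970405) (nat_lit 76) (nat_lit 4717495958) (nat_lit 347) (nat_lit 5) (nat_lit 357) (nat_lit 5) (nat_lit 348) (nat_lit 5) (nat_lit 590) (nat_lit 541) (nat_lit 429))) (XT.nd (nat_lit 78) (nat_lit 684) (nat_lit 0) (XT.lf (nat_lit 0) (nat_lit 6527164163) (nat_lit 760) (nat_lit 1824075597) (nat_lit 836) (nat_lit 2666186924) (nat_lit 337) (nat_lit 5) (nat_lit 347) (nat_lit 5) (nat_lit 348) (nat_lit 5) (nat_lit 591) (nat_lit 541) (nat_lit 428)) (XT.lf (nat_lit 0) (nat_lit 2231017812) (nat_lit 684) (nat_lit 8527766108) (nat_lit 760) (nat_lit 373542359) (nat_lit 328) (nat_lit 5) (nat_lit 337) (nat_lit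 5) (nat_lit 338) (nat_lit 5) (nat_lit 592) (nat_lit 541) (nat_lit 427))))) (XT.nd (nat_lit 312) (nat_lit 1976) (nat_lit 0) (XT.nd (nat_lit 156) (nat_lit 608) (nat_lit 0) (XT.nd (nat_lit 78) (nat_lit 684) (nat_lit 0) (XT.lf (nat_lit 0) (nat_lit 1962342636) (nat_lit 760) (nat_lit 2149072658) (nat_lit 76) (nat_lit 7137391236) (nat_lit 327) (nat_lit 5) (nat_lit 337) (nat_lit 5) (nat_lit 328) (nat_lit 5) (nat_lit 593) (nat_lit 541) (nat_lit 426)) (XT.lf (nat_lit 0) (nat_lit 4354835323) (nat_lit 760) (nat_lit 6593964000) (nat_lit 76) (nat_lit 418470815) (nat_lit 318) (nat_lit 5) (nat_lit 328) (nat_lit 5) (nat_lit 319) (nat_lit 5) (nat_lit 594) (nat_lit 541) (nat_lit 425))) (XT.nd (nat_lit 78) (nat_lit 0) (nat_lit 0) (XT.lf (nat_lit 0) (nat_lit 329989237) (nat_lit 608) (nat_lit 6490404265) (nat_lit 684) (nat_lit 4667206149) (nat_lit 310) (nat_lit 5) (nat_lit 318) (nat_lit 5) (nat_lit 319) (nat_lit 5) (nat_lit 595) (nat_lit 541) (nat_lit 424)) (XT.lf (nat_lit 0) (nat_lit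 7459487873) (nat_lit 608) (nat_lit 1901573461) (nat_lit 684) (nat_lit 2248759383) (nat_lit 310) (nat_lit 5) (nat_lit 318) (nat_lit 5) (nat_lit 319) (nat_lit 5) (nat_lit 596) (nat_lit 541) (nat_lit 423)))) (XT.nd (nat_lit 156) (nat_lit 1216) (nat_lit 0) (XT.nd (nat_lit 78) (nat_lit 0) (nat_lit 0) (XT.lf (nat_lit 0) (nat_lit 234706777) (nat_lit 760) (nat_lit 8739519003) (nat_lit 76) (nat_lit 2759842795) (nat_lit 300) (nat_lit 5) (nat_lit 310) (nat_lit 5) (nat_lit 301) (nat_lit 5) (nat_lit 597) (nat_lit 541) (nat_lit 422)) (XT.lf (nat_lit 0) (nat_lit 2760367195) (nat_lit 760) (nat_lit 1571637251) (nat_lit 76) (nat_lit 7528047817) (nat_lit 300) (nat_lit 5) (nat_lit 310) (nat_lit 5) (nat_lit 301) (nat_lit 5) (nat_lit 598) (nat_lit 541) (nat_lit 421))) (XT.nd (nat_lit 78) (nat_lit 608) (nat_lit 0) (XT.lf (nat_lit 0) (nat_lit 5359328667) (nat_lit 684) (nat_lit 6197282319) (nat_lit 76) (nat_lit 431489741) (nat_lit 292) (nat_lit 5) (nat_lit 301) (nat_lit 5) (nat_lit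 293) (nat_lit 5) (nat_lit 599) (nat_lit 541) (nat_lit 420)) (XT.lf (nat_lit 0) (nat_lit 1167833362) (nat_lit 608) (nat_lit 6871833576) (nat_lit 684) (nat_lit 4078456114) (nat_lit 284) (nat_lit 5) (nat_lit 292) (nat_lit 5) (nat_lit 293) (nat_lit 5) (nat_lit 600) (nat_lit 541) (nat_lit 419))))))) (XT.nd (nat_lit 1092) (nat_lit 4484) (nat_lit 0) (XT.nd (nat_lit 546) (nat_lit 2128) (nat_lit 0) (XT.nd (nat_lit 234) (nat_lit 1748) (nat_lit 0) (XT.nd (nat_lit 78) (nat_lit 684) (nat_lit 0) (XT.lf (nat_lit 0) (nat_lit 8742349957) (nat_lit 608) (nat_lit 2055559839) (nat_lit 684) (nat_lit 1452350895) (nat_lit 284) (nat_lit 5) (nat_lit 292) (nat_lit 5) (nat_lit 293) (nat_lit 5) (nat_lit 601) (nat_lit 541) (nat_lit 418)) (XT.nd (nat_lit 78) (nat_lit 0) (nat_lit 0) (XT.lf (nat_lit 0) (nat_lit 1238548079) (nat_lit 684) (nat_lit 8295919866) (nat_lit 76) (nat_lit 2849847606) (nat_lit 275) (nat_lit 5) (nat_lit 284) (nat_lit 5) (nat_lit 276) (nat_lit 5) (nat_lit 602) (nat_lit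 541) (nat_lit 417)) (XT.lf (nat_lit 0) (nat_lit 3984245883) (nat_lit 684) (nat_lit 681658987) (nat_lit 76) (nat_lit 7854546859) (nat_lit 275) (nat_lit 5) (nat_lit 284) (nat_lit 5) (nat_lit 276) (nat_lit 5) (nat_lit 603) (nat_lit 541) (nat_lit 416)))) (XT.nd (nat_lit 156) (nat_lit 608) (nat_lit 0) (XT.nd (nat_lit 78) (nat_lit 532) (nat_lit 0) (XT.lf (nat_lit 0) (nat_lit 6816983983) (nat_lit 684) (nat_lit 5503622108) (nat_lit 76) (nat_lit 338062774) (nat_lit 267) (nat_lit 5) (nat_lit 276) (nat_lit 5) (nat_lit 268) (nat_lit 5) (nat_lit 604) (nat_lit 541) (nat_lit 415)) (XT.lf (nat_lit 0) (nat_lit 2336281629) (nat_lit 532) (nat_lit 7404355354) (nat_lit 608) (nat_lit 3058328907) (nat_lit 260) (nat_lit 5) (nat_lit 267) (nat_lit 5) (nat_lit 268) (nat_lit 5) (nat_lit 605) (nat_lit 541) (nat_lit 414))) (XT.nd (nat_lit 78) (nat_lit 608) (nat_lit 0) (XT.lf (nat_lit 0) (nat_lit 10386131947) (nat_lit 532) (nat_lit 2357332660) (nat_lit 608) (nat_lit 198190950) (nat_lit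 260) (nat_lit 5) (nat_lit 267) (nat_lit 5) (nat_lit 268) (nat_lit 5) (nat_lit 606) (nat_lit 541) (nat_lit 413)) (XT.lf (nat_lit 0) (nat_lit 2721901721) (nat_lit 608) (nat_lit 7561303724) (nat_lit 76) (nat_lit 2802872904) (nat_lit 252) (nat_lit 5) (nat_lit 260) (nat_lit 5) (nat_lit 253) (nat_lit 5) (nat_lit 607) (nat_lit 541) (nat_lit 412))))) (XT.nd (nat_lit 234) (nat_lit 1064) (nat_lit 0) (XT.nd (nat_lit 78) (nat_lit 532) (nat_lit 0) (XT.lf (nat_lit 0) (nat_lit 536885802) (nat_lit 532) (nat_lit 5181343289) (nat_lit 608) (nat_lit 7514725263) (nat_lit 245) (nat_lit 5) (nat_lit 252) (nat_lit 5) (nat_lit 253) (nat_lit 5) (nat_lit 608) (nat_lit 541) (nat_lit 411)) (XT.nd (nat_lit 78) (nat_lit 532) (nat_lit 0) (XT.lf (nat_lit 0) (nat_lit 8809967481) (nat_lit 608) (nat_lit 4504229930) (nat_lit 76) (nat_lit 67861456) (nat_lit 245) (nat_lit 5) (nat_lit 253) (nat_lit 5) (nat_lit 246) (nat_lit 5) (nat_lit 609) (nat_lit 541) (nat_lit 410)) (XT.lf (nat_lit 0) (nat_lit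 3846472286) (nat_lit 532) (nat_lit 8160925995) (nat_lit 608) (nat_lit 1525870700) (nat_lit 238) (nat_lit 5) (nat_lit 245) (nat_lit 5) (nat_lit 246) (nat_lit 5) (nat_lit 610) (nat_lit 541) (nat_lit 409)))) (XT.nd (nat_lit 156) (nat_lit 532) (nat_lit 0) (XT.nd (nat_lit 78) (nat_lit 456) (nat_lit 0) (XT.lf (nat_lit 0) (nat_lit 1575596567) (nat_lit 608) (nat_lit 1293293861) (nat_lit 76) (nat_lit 10818106957) (nat_lit 237) (nat_lit 5) (nat_lit 245) (nat_lit 5) (nat_lit 238) (nat_lit 5) (nat_lit 611) (nat_lit 541) (nat_lit 408)) (XT.lf (nat_lit 0) (nat_lit 4767995481) (nat_lit 532) (nat_lit 6526317937) (nat_lit 76) (nat_lit 2548299170) (nat_lit 231) (nat_lit 5) (nat_lit 238) (nat_lit 5) (nat_lit 232) (nat_lit 5) (nat_lit 612) (nat_lit 541) (nat_lit 407))) (XT.nd (nat_lit 78) (nat_lit 0) (nat_lit 0) (XT.lf (nat_lit 0) (nat_lit 2102069008) (nat_lit 532) (nat_lit 5948617394) (nat_lit 608) (nat_lit 5950125425) (nat_lit 224) (nat_lit 5) (nat_lit 231) (nat_lit 5) (nat_lit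 232) (nat_lit 5) (nat_lit 613) (nat_lit 541) (nat_lit 406)) (XT.lf (nat_lit 0) (nat_lit 10970744430) (nat_lit 532) (nat_lit 457300550) (nat_lit 608) (nat_lit 2733550397) (nat_lit 224) (nat_lit 5) (nat_lit 231) (nat_lit 5) (nat_lit 232) (nat_lit 5) (nat_lit 614) (nat_lit 541) (nat_lit 405)))))) (XT.nd (nat_lit 546) (nat_lit 2128) (nat_lit 0) (XT.nd (nat_lit 234) (nat_lit 1368) (nat_lit 0) (XT.nd (nat_lit 78) (nat_lit 456) (nat_lit 0) (XT.lf (nat_lit 0) (nat_lit 596502261) (nat_lit 532) (nat_lit 8616274268) (nat_lit 76) (nat_lit 5111621074) (nat_lit 217) (nat_lit 5) (nat_lit 224) (nat_lit 5) (nat_lit 218) (nat_lit 5) (nat_lit 615) (nat_lit 541) (nat_lit 404)) (XT.nd (nat_lit 78) (nat_lit 0) (nat_lit 0) (XT.lf (nat_lit 0) (nat_lit 300319432) (nat_lit 456) (nat_lit 3668327929) (nat_lit 532) (nat_lit 10521205831) (nat_lit 211) (nat_lit 5) (nat_lit 217) (nat_lit 5) (nat_lit 218) (nat_lit 5) (nat_lit 616) (nat_lit 541) (nat_lit 403)) (XT.lf (nat_lit 0) (nat_lit 7464976380)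 (nat_lit 532) (nat_lit 5179463837) (nat_lit 76) (nat_lit 2013043412) (nat_lit 211) (nat_lit 5) (nat_lit 218) (nat_lit 5) (nat_lit 212) (nat_lit 5) (nat_lit 617) (nat_lit 541) (nat_lit 402)))) (XT.nd (nat_lit 156) (nat_lit 912) (nat_lit 0) (XT.nd (nat_lit 78) (nat_lit 0) (nat_lit 0) (XT.lf (nat_lit 0) (nat_lit 4018869854) (nat_lit 456) (nat_lit 7048667857) (nat_lit 532) (nat_lit 3760203393) (nat_lit 205) (nat_lit 5) (nat_lit 211) (nat_lit 5) (nat_lit 212) (nat_lit 5) (nat_lit 618) (nat_lit 541) (nat_lit 401)) (XT.lf (nat_lit 0) (nat_lit 13451160842) (nat_lit 456) (nat_lit 1311810184) (nat_lit 532) (nat_lit 238016821) (nat_lit 205) (nat_lit 5) (nat_lit 211) (nat_lit 5) (nat_lit 212) (nat_lit 5) (nat_lit 619) (nat_lit 541) (nat_lit 400))) (XT.nd (nat_lit 78) (nat_lit 380) (nat_lit 0) (XT.lf (nat_lit 0) (nat_lit 3378446214) (nat_lit 532) (nat_lit 7249457741) (nat_lit 76) (nat_lit 4548003893) (nat_lit 198) (nat_lit 5) (nat_lit 205) (nat_lit 5) (nat_lit 199) (nat_lit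 5) (nat_lit 620) (nat_lit 541) (nat_lit 399)) (XT.lf (nat_lit 0) (nat_lit 2258322769) (nat_lit 380) (nat_lit 4825896812) (nat_lit 456) (nat_lit 8269672344) (nat_lit 193) (nat_lit 5) (nat_lit 198) (nat_lit 5) (nat_lit 199) (nat_lit 5) (nat_lit 621) (nat_lit 541) (nat_lit 398))))) (XT.nd (nat_lit 312) (nat_lit 1216) (nat_lit 0) (XT.nd (nat_lit 156) (nat_lit 456) (nat_lit 0) (XT.nd (nat_lit 78) (nat_lit 456) (nat_lit 0) (XT.lf (nat_lit 0) (nat_lit 10906611438) (nat_lit 456) (nat_lit 3507551014) (nat_lit 76) (nat_lit 1120423664) (nat_lit 193) (nat_lit 5) (nat_lit 199) (nat_lit 5) (nat_lit 194) (nat_lit 5) (nat_lit 622) (nat_lit 541) (nat_lit 397)) (XT.lf (nat_lit 0) (nat_lit 6303128347) (nat_lit 456) (nat_lit 8561914503) (nat_lit 532) (nat_lit 852659989) (nat_lit 187) (nat_lit 5) (nat_lit 193) (nat_lit 5) (nat_lit 194) (nat_lit 5) (nat_lit 623) (nat_lit 541) (nat_lit 396))) (XT.nd (nat_lit 78) (nat_lit 0) (nat_lit 0) (XT.lf (nat_lit 0) (nat_lit 419584499) (nat_lit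 380) (nat_lit 2552425995) (nat_lit 456) (nat_lit 12931819129) (nat_lit 181) (nat_lit 5) (nat_lit 186) (nat_lit 5) (nat_lit 187) (nat_lit 5) (nat_lit 624) (nat_lit 541) (nat_lit 395)) (XT.lf (nat_lit 0) (nat_lit 6935431087) (nat_lit 456) (nat_lit 5563604416) (nat_lit 76) (nat_lit 3593057698) (nat_lit 181) (nat_lit 5) (nat_lit 187) (nat_lit 5) (nat_lit 182) (nat_lit 5) (nat_lit 625) (nat_lit 541) (nat_lit 394)))) (XT.nd (nat_lit 156) (nat_lit 836) (nat_lit 0) (XT.nd (nat_lit 78) (nat_lit 0) (nat_lit 0) (XT.lf (nat_lit 0) (nat_lit 4579050024) (nat_lit 380) (nat_lit 6432803884) (nat_lit 456) (nat_lit 5271593912) (nat_lit 176) (nat_lit 5) (nat_lit 181) (nat_lit 5) (nat_lit 182) (nat_lit 5) (nat_lit 626) (nat_lit 541) (nat_lit 393)) (XT.lf (nat_lit 0) (nat_lit 14980551636) (nat_lit 380) (nat_lit 213815209) (nat_lit 456) (nat_lit 1283771892) (nat_lit 176) (nat_lit 5) (nat_lit 181) (nat_lit 5) (nat_lit 182) (nat_lit 5) (nat_lit 627) (nat_lit 541) (nat_lit 392))) (XT.nd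 (nat_lit 78) (nat_lit 380) (nat_lit 0) (XT.lf (nat_lit 0) (nat_lit 2833346397) (nat_lit 456) (nat_lit 7721672587) (nat_lit 76) (nat_lit 6119622423) (nat_lit 170) (nat_lit 5) (nat_lit 176) (nat_lit 5) (nat_lit 171) (nat_lit 5) (nat_lit 628) (nat_lit 541) (nat_lit 391)) (XT.lf (nat_lit 0) (nat_lit 2764951393) (nat_lit 380) (nat_lit 4267640533) (nat_lit 456) (nat_lit 9841973411) (nat_lit 165) (nat_lit 5) (nat_lit 170) (nat_lit 5) (nat_lit 171) (nat_lit 5) (nat_lit 629) (nat_lit 541) (nat_lit 390))))))))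
noncomputable def xc117 : XT := (XT.nd (nat_lit 2262) (nat_lit 608) (nat_lit 0) (XT.nd (nat_lit 1092) (nat_lit 2964) (nat_lit 0) (XT.nd (nat_lit 546) (nat_lit 1368) (nat_lit 0) (XT.nd (nat_lit 234) (nat_lit 760) (nat_lit 0) (XT.nd (nat_lit 78) (nat_lit 836) (nat_lit 0) (XT.lf (nat_lit 0) (nat_lit 11369463687) (nat_lit 456) (nat_lit 3545115032) (nat_lit 76) (nat_lit 2162836605) (nat_lit 165) (nat_lit 5) (nat_lit 171) (nat_lit 5) (nat_lit 166) (nat_lit 5) (nat_lit 630) (nat_lit 541) (nat_lit 389)) (XT.nd (nat_lit 78) (nat_lit 456) (nat_lit 0) (XT.lf (nat_lit 0) (nat_lit 7278887309) (nat_lit 380) (nat_lit 8577503304) (nat_lit 456) (nat_lit 1426665740) (nat_lit 160) (nat_lit 5) (nat_lit 165) (nat_lit 5) (nat_lit 166) (nat_lit 5) (nat_lit 631) (nat_lit 541) (nat_lit 388)) (XT.lf (nat_lit 0) (nat_lit 847938437) (nat_lit 380) (nat_lit 2071030337) (nat_lit 456) (nat_lit 14573114315) (nat_lit 154) (nat_lit 5) (nat_lit 159) (nat_lit 5) (nat_lit 160) (nat_lit 5) (nat_lit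 632) (nat_lit 541) (nat_lit 387)))) (XT.nd (nat_lit 156) (nat_lit 456) (nat_lit 0) (XT.nd (nat_lit 78) (nat_lit 304) (nat_lit 0) (XT.lf (nat_lit 0) (nat_lit 7417554986) (nat_lit 456) (nat_lit 5709882803) (nat_lit 76) (nat_lit 4575961497) (nat_lit 154) (nat_lit 5) (nat_lit 160) (nat_lit 5) (nat_lit 155) (nat_lit 5) (nat_lit 633) (nat_lit 541) (nat_lit 386)) (XT.lf (nat_lit 0) (nat_lit 5482530783) (nat_lit 304) (nat_lit 6561034631) (nat_lit 380) (nat_lit 5874627710) (nat_lit 150) (nat_lit 5) (nat_lit 154) (nat_lit 5) (nat_lit 155) (nat_lit 5) (nat_lit 634) (nat_lit 541) (nat_lit 385))) (XT.nd (nat_lit 78) (nat_lit 456) (nat_lit 0) (XT.lf (nat_lit 0) (nat_lit 16789761766) (nat_lit 380) (nat_lit 1180256272) (nat_lit 76) (nat_lit 166711845) (nat_lit 150) (nat_lit 5) (nat_lit 155) (nat_lit 5) (nat_lit 151) (nat_lit 5) (nat_lit 635) (nat_lit 541) (nat_lit 384)) (XT.lf (nat_lit 0) (nat_lit 3328246320) (nat_lit 456) (nat_lit 8005100676) (nat_lit 76) (nat_lit 7023867854)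 (nat_lit 144) (nat_lit 5) (nat_lit 150) (nat_lit 5) (nat_lit 145) (nat_lit 5) (nat_lit 636) (nat_lit 541) (nat_lit 383))))) (XT.nd (nat_lit 234) (nat_lit 684) (nat_lit 0) (XT.nd (nat_lit 78) (nat_lit 380) (nat_lit 0) (XT.lf (nat_lit 0) (nat_lit 3568555058) (nat_lit 304) (nat_lit 4530003971) (nat_lit 380) (nat_lit 10482980158) (nat_lit 140) (nat_lit 5) (nat_lit 144) (nat_lit 5) (nat_lit 145) (nat_lit 5) (nat_lit 637) (nat_lit 541) (nat_lit 382)) (XT.nd (nat_lit 78) (nat_lit 380) (nat_lit 0) (XT.lf (nat_lit 0) (nat_lit 13022528815) (nat_lit 380) (nat_lit 3361596209) (nat_lit 76) (nat_lit 2425060301) (nat_lit 140) (nat_lit 5) (nat_lit 145) (nat_lit 5) (nat_lit 141) (nat_lit 5) (nat_lit 638) (nat_lit 541) (nat_lit 381)) (XT.lf (nat_lit 0) (nat_lit 8587289852) (nat_lit 380) (nat_lit 9532200562) (nat_lit 456) (nat_lit 920404051) (nat_lit 135) (nat_lit 5) (nat_lit 140) (nat_lit 5) (nat_lit 141) (nat_lit 5) (nat_lit 639) (nat_lit 541) (nat_lit 380)))) (XT.nd (nat_lit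 156) (nat_lit 304) (nat_lit 0) (XT.nd (nat_lit 78) (nat_lit 0) (nat_lit 0) (XT.lf (nat_lit 0) (nat_lit 1521323068) (nat_lit 304) (nat_lit 2490195624) (nat_lit 380) (nat_lit 15262746945) (nat_lit 130) (nat_lit 5) (nat_lit 134) (nat_lit 5) (nat_lit 135) (nat_lit 5) (nat_lit 640) (nat_lit 541) (nat_lit 379)) (XT.lf (nat_lit 0) (nat_lit 9119686692) (nat_lit 380) (nat_lit 5690773046) (nat_lit 76) (nat_lit 4700944503) (nat_lit 130) (nat_lit 5) (nat_lit 135) (nat_lit 5) (nat_lit 131) (nat_lit 5) (nat_lit 641) (nat_lit 541) (nat_lit 378))) (XT.nd (nat_lit 78) (nat_lit 0) (nat_lit 0) (XT.lf (nat_lit 0) (nat_lit 6665686786) (nat_lit 304) (nat_lit 7713164119) (nat_lit 380) (nat_lit 5373458356) (nat_lit 126) (nat_lit 5) (nat_lit 130) (nat_lit 5) (nat_lit 131) (nat_lit 5) (nat_lit 642) (nat_lit 541) (nat_lit 377)) (XT.lf (nat_lit 0) (nat_lit 19328649994) (nat_lit 304) (nat_lit 441899018) (nat_lit 380) (nat_lit 226936651) (nat_lit 126) (nat_lit 5) (nat_lit 130) (nat_lit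 5) (nat_lit 131) (nat_lit 5) (nat_lit 643) (nat_lit 541) (nat_lit 376)))))) (XT.nd (nat_lit 546) (nat_lit 1444) (nat_lit 0) (XT.nd (nat_lit 234) (nat_lit 836) (nat_lit 0) (XT.nd (nat_lit 78) (nat_lit 304) (nat_lit 0) (XT.lf (nat_lit 0) (nat_lit 5070525148) (nat_lit 380) (nat_lit 8185623782) (nat_lit 76) (nat_lit 6988487141) (nat_lit 121) (nat_lit 5) (nat_lit 126) (nat_lit 5) (nat_lit 122) (nat_lit 5) (nat_lit 644) (nat_lit 541) (nat_lit 375)) (XT.nd (nat_lit 78) (nat_lit 0) (nat_lit 0) (XT.lf (nat_lit 0) (nat_lit 4591997390) (nat_lit 304) (nat_lit 5905518085) (nat_lit 380) (nat_lit 9998651928) (nat_lit 117) (nat_lit 5) (nat_lit 121) (nat_lit 5) (nat_lit 122) (nat_lit 5) (nat_lit 645) (nat_lit 541) (nat_lit 374)) (XT.lf (nat_lit 0) (nat_lit 16088082746) (nat_lit 380) (nat_lit 3043864782) (nat_lit 76) (nat_lit 1619681365) (nat_lit 117) (nat_lit 5) (nat_lit 122) (nat_lit 5) (nat_lit 118) (nat_lit 5) (nat_lit 646) (nat_lit 541) (nat_lit 373)))) (XT.nd (nat_lit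 156) (nat_lit 228) (nat_lit 0) (XT.nd (nat_lit 78) (nat_lit 304) (nat_lit 0) (XT.lf (nat_lit 0) (nat_lit 863307370) (nat_lit 304) (nat_lit 10865642306) (nat_lit 76) (nat_lit 9281244084) (nat_lit 113) (nat_lit 5) (nat_lit 117) (nat_lit 5) (nat_lit 114) (nat_lit 5) (nat_lit 647) (nat_lit 541) (nat_lit 372)) (XT.lf (nat_lit 0) (nat_lit 2346895165) (nat_lit 304) (nat_lit 4116852717) (nat_lit 380) (nat_lit 14809055882) (nat_lit 109) (nat_lit 5) (nat_lit 113) (nat_lit 5) (nat_lit 114) (nat_lit 5) (nat_lit 648) (nat_lit 541) (nat_lit 371))) (XT.nd (nat_lit 78) (nat_lit 228) (nat_lit 0) (XT.lf (nat_lit 0) (nat_lit 12262959974) (nat_lit 380) (nat_lit 5609788972) (nat_lit 76) (nat_lit 3666182019) (nat_lit 109) (nat_lit 5) (nat_lit 114) (nat_lit 5) (nat_lit 110) (nat_lit 5) (nat_lit 649) (nat_lit 541) (nat_lit 370)) (XT.lf (nat_lit 0) (nat_lit 8033707008) (nat_lit 228) (nat_lit 10213759470) (nat_lit 304) (nat_lit 3561528274) (nat_lit 106) (nat_lit 5) (nat_lit 109) (nat_lit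 5) (nat_lit 110) (nat_lit 5) (nat_lit 650) (nat_lit 541) (nat_lit 369))))) (XT.nd (nat_lit 312) (nat_lit 836) (nat_lit 0) (XT.nd (nat_lit 156) (nat_lit 228) (nat_lit 0) (XT.nd (nat_lit 78) (nat_lit 304) (nat_lit 0) (XT.lf (nat_lit 0) (nat_lit 2265270284) (nat_lit 304) (nat_lit 89629179) (nat_lit 76) (nat_lit 19728710151) (nat_lit 105) (nat_lit 5) (nat_lit 109) (nat_lit 5) (nat_lit 106) (nat_lit 5) (nat_lit 651) (nat_lit 541) (nat_lit 368)) (XT.lf (nat_lit 0) (nat_lit 8279519485) (nat_lit 380) (nat_lit 8385884847) (nat_lit 76) (nat_lit 5695469769) (nat_lit 101) (nat_lit 5) (nat_lit 106) (nat_lit 5) (nat_lit 102) (nat_lit 5) (nat_lit 652) (nat_lit 541) (nat_lit 367))) (XT.nd (nat_lit 78) (nat_lit 0) (nat_lit 0) (XT.lf (nat_lit 0) (nat_lit 5721101856) (nat_lit 228) (nat_lit 8736445349) (nat_lit 304) (nat_lit 8185267029) (nat_lit 98) (nat_lit 5) (nat_lit 101) (nat_lit 5) (nat_lit 102) (nat_lit 5) (nat_lit 653) (nat_lit 541) (nat_lit 366)) (XT.lf (nat_lit 0) (nat_lit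 20207236296) (nat_lit 228) (nat_lit 598405413) (nat_lit 304) (nat_lit 2123821558) (nat_lit 98) (nat_lit 5) (nat_lit 101) (nat_lit 5) (nat_lit 102) (nat_lit 5) (nat_lit 654) (nat_lit 541) (nat_lit 365)))) (XT.nd (nat_lit 156) (nat_lit 228) (nat_lit 0) (XT.nd (nat_lit 78) (nat_lit 228) (nat_lit 0) (XT.lf (nat_lit 0) (nat_lit 4123725399) (nat_lit 380) (nat_lit 11396458456) (nat_lit 76) (nat_lit 7698772485) (nat_lit 93) (nat_lit 5) (nat_lit 98) (nat_lit 5) (nat_lit 94) (nat_lit 5) (nat_lit 655) (nat_lit 541) (nat_lit 364)) (XT.lf (nat_lit 0) (nat_lit 3188304754) (nat_lit 228) (nat_lit 7312958308) (nat_lit 304) (nat_lit 13012026097) (nat_lit 90) (nat_lit 5) (nat_lit 93) (nat_lit 5) (nat_lit 94) (nat_lit 5) (nat_lit 656) (nat_lit 541) (nat_lit 363))) (XT.nd (nat_lit 78) (nat_lit 228) (nat_lit 0) (XT.lf (nat_lit 0) (nat_lit 17080642292) (nat_lit 304) (nat_lit 5616654899) (nat_lit 76) (nat_lit 1114725834) (nat_lit 90) (nat_lit 5) (nat_lit 94) (nat_lit 5) (nat_lit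 91) (nat_lit 5) (nat_lit 657) (nat_lit 541) (nat_lit 362)) (XT.lf (nat_lit 0) (nat_lit 9445066487) (nat_lit 228) (nat_lit 14446920172) (nat_lit 304) (nat_lit 222737560) (nat_lit 87) (nat_lit 5) (nat_lit 90) (nat_lit 5) (nat_lit 91) (nat_lit 5) (nat_lit 658) (nat_lit 541) (nat_lit 361))))))) (XT.nd (nat_lit 72930) (nat_lit 0) (nat_lit 34352) (XT.nd (nat_lit 72306) (nat_lit 0) (nat_lit 40128) (XT.nd (nat_lit 234) (nat_lit 76) (nat_lit 0) (XT.nd (nat_lit 78) (nat_lit 228) (nat_lit 0) (XT.lf (nat_lit 0) (nat_lit 408648225) (nat_lit 228) (nat_lit 5954516965) (nat_lit 304) (nat_lit 18058856600) (nat_lit 83) (nat_lit 5) (nat_lit 86) (nat_lit 5) (nat_lit 87) (nat_lit 5) (nat_lit 659) (nat_lit 541) (nat_lit 360)) (XT.nd (nat_lit 78) (nat_lit 228) (nat_lit 0) (XT.lf (nat_lit 0) (nat_lit 13185155305) (nat_lit 304) (nat_lit 8782103173) (nat_lit 76) (nat_lit 2766030541) (nat_lit 83) (nat_lit 5) (nat_lit 87) (nat_lit 5) (nat_lit 84) (nat_lit 5) (nat_lit 660) (nat_lit 541)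 (nat_lit 359)) (XT.lf (nat_lit 0) (nat_lit 6787425434) (nat_lit 228) (nat_lit 13430520495) (nat_lit 304) (nat_lit 4831348639) (nat_lit 80) (nat_lit 5) (nat_lit 83) (nat_lit 5) (nat_lit 84) (nat_lit 5) (nat_lit 661) (nat_lit 541) (nat_lit 358)))) (XT.nd (nat_lit 71916) (nat_lit 0) (nat_lit 42560) (XT.nd (nat_lit 71838) (nat_lit 0) (nat_lit 42560) (XT.lf (nat_lit 0) (nat_lit 2043479775) (nat_lit 304) (nat_lit 2612525340) (nat_lit 76) (nat_lit 20714349070) (nat_lit 79) (nat_lit 5) (nat_lit 83) (nat_lit 5) (nat_lit 80) (nat_lit 5) (nat_lit 662) (nat_lit 541) (nat_lit 357)) (XT.lf (nat_lit 0) (nat_lit 679086274) (nat_lit 1292) (nat_lit 1501054998) (nat_lit 1292) (nat_lit 1501054998) (nat_lit 639) (nat_lit 3) (nat_lit 656) (nat_lit 3) (nat_lit 656) (nat_lit 5) (nat_lit 542) (nat_lit 542) (nat_lit 476))) (XT.nd (nat_lit 78) (nat_lit 0) (nat_lit 0) (XT.lf (nat_lit 76) (nat_lit 662471951) (nat_lit 0) (nat_lit 2254677031) (nat_lit 1292) (nat_lit 4487840991) (nat_lit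 640) (nat_lit 5) (nat_lit 639) (nat_lit 3) (nat_lit 656) (nat_lit 5) (nat_lit 543) (nat_lit 542) (nat_lit 475)) (XT.lf (nat_lit 76) (nat_lit 4420148426) (nat_lit 0) (nat_lit 66743180) (nat_lit 1292) (nat_lit 2961959127) (nat_lit 640) (nat_lit 5) (nat_lit 639) (nat_lit 3) (nat_lit 656) (nat_lit 5) (nat_lit 544) (nat_lit 542) (nat_lit 474))))) (XT.nd (nat_lit 312) (nat_lit 1216) (nat_lit 0) (XT.nd (nat_lit 156) (nat_lit 0) (nat_lit 0) (XT.nd (nat_lit 78) (nat_lit 1292) (nat_lit 0) (XT.lf (nat_lit 76) (nat_lit 733548673) (nat_lit 0) (nat_lit 5333660770) (nat_lit 1292) (nat_lit 1426798707) (nat_lit 641) (nat_lit 5) (nat_lit 640) (nat_lit 5) (nat_lit 657) (nat_lit 5) (nat_lit 545) (nat_lit 542) (nat_lit 473)) (XT.lf (nat_lit 0) (nat_lit 118881177) (nat_lit 1292) (nat_lit 2950831453) (nat_lit 1368) (nat_lit 4470708157) (nat_lit 623) (nat_lit 5) (nat_lit 640) (nat_lit 5) (nat_lit 641) (nat_lit 5) (nat_lit 546) (nat_lit 542) (nat_lit 472))) (XT.nd (nat_lit 78) (nat_lit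 0) (nat_lit 76) (XT.lf (nat_lit 76) (nat_lit 916194181) (nat_lit 0) (nat_lit 727651188) (nat_lit 1368) (nat_lit 5944381048) (nat_lit 624) (nat_lit 5) (nat_lit 623) (nat_lit 5) (nat_lit 641) (nat_lit 5) (nat_lit 547) (nat_lit 542) (nat_lit 471)) (XT.lf (nat_lit 0) (nat_lit 3192261762) (nat_lit 1292) (nat_lit 2769039464) (nat_lit 1368) (nat_lit 1675830692) (nat_lit 624) (nat_lit 5) (nat_lit 641) (nat_lit 5) (nat_lit 642) (nat_lit 5) (nat_lit 548) (nat_lit 542) (nat_lit 470)))) (XT.nd (nat_lit 156) (nat_lit 1292) (nat_lit 0) (XT.nd (nat_lit 78) (nat_lit 0) (nat_lit 0) (XT.lf (nat_lit 76) (nat_lit 1201292707) (nat_lit 0) (nat_lit 3545946955) (nat_lit 1368) (nat_lit 2940266767) (nat_lit 625) (nat_lit 5) (nat_lit 624) (nat_lit 5) (nat_lit 642) (nat_lit 5) (nat_lit 549) (nat_lit 542) (nat_lit 469)) (XT.lf (nat_lit 76) (nat_lit 5267052315) (nat_lit 0) (nat_lit 1048407527) (nat_lit 1368) (nat_lit 1423788442) (nat_lit 625) (nat_lit 5) (nat_lit 624) (nat_lit 5) (nat_lit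 642) (nat_lit 5) (nat_lit 550) (nat_lit 542) (nat_lit 468))) (XT.nd (nat_lit 78) (nat_lit 0) (nat_lit 0) (XT.lf (nat_lit 0) (nat_lit 105868324) (nat_lit 1368) (nat_lit 6181431817) (nat_lit 1444) (nat_lit 1505022216) (nat_lit 607) (nat_lit 5) (nat_lit 625) (nat_lit 5) (nat_lit 626) (nat_lit 5) (nat_lit 551) (nat_lit 542) (nat_lit 467)) (XT.lf (nat_lit 0) (nat_lit 1635407218) (nat_lit 1368) (nat_lit 2075690313) (nat_lit 1444) (nat_lit 4135407638) (nat_lit 607) (nat_lit 5) (nat_lit 625) (nat_lit 5) (nat_lit 626) (nat_lit 5) (nat_lit 552) (nat_lit 542) (nat_lit 466)))))) (XT.nd (nat_lit 546) (nat_lit 4484) (nat_lit 0) (XT.nd (nat_lit 234) (nat_lit 1292) (nat_lit 0) (XT.nd (nat_lit 78) (nat_lit 0) (nat_lit 76) (XT.lf (nat_lit 76) (nat_lit 2118149642) (nat_lit 0) (nat_lit 1056524975) (nat_lit 1444) (nat_lit 4727516769) (nat_lit 608) (nat_lit 5) (nat_lit 607) (nat_lit 5) (nat_lit 626) (nat_lit 5) (nat_lit 553) (nat_lit 542) (nat_lit 465)) (XT.nd (nat_lit 78) (nat_lit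 0) (nat_lit 0) (XT.lf (nat_lit 0) (nat_lit 4735472964) (nat_lit 1368) (nat_lit 1567939900) (nat_lit 1444) (nat_lit 1655766003) (nat_lit 608) (nat_lit 5) (nat_lit 626) (nat_lit 5) (nat_lit 627) (nat_lit 5) (nat_lit 554) (nat_lit 542) (nat_lit 464)) (XT.lf (nat_lit 76) (nat_lit 2739437358) (nat_lit 0) (nat_lit 3579503696) (nat_lit 1444) (nat_lit 1698538373) (nat_lit 609) (nat_lit 5) (nat_lit 608) (nat_lit 5) (nat_lit 627) (nat_lit 5) (nat_lit 555) (nat_lit 542) (nat_lit 463)))) (XT.nd (nat_lit 156) (nat_lit 0) (nat_lit 0) (XT.nd (nat_lit 78) (nat_lit 1368) (nat_lit 0) (XT.lf (nat_lit 76) (nat_lit 7132382608) (nat_lit 0) (nat_lit 779400037) (nat_lit 1444) (nat_lit 165611628) (nat_lit 609) (nat_lit 5) (nat_lit 608) (nat_lit 5) (nat_lit 627) (nat_lit 5) (nat_lit 556) (nat_lit 542) (nat_lit 462)) (XT.lf (nat_lit 0) (nat_lit 1383667896) (nat_lit 1444) (nat_lit 4662754218) (nat_lit 1520) (nat_lit 2091825458) (nat_lit 590) (nat_lit 5) (nat_lit 609) (nat_lit 5) (nat_lit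 610) (nat_lit 5) (nat_lit 557) (nat_lit 542) (nat_lit 461))) (XT.nd (nat_lit 78) (nat_lit 0) (nat_lit 0) (XT.lf (nat_lit 0) (nat_lit 2941433686) (nat_lit 1444) (nat_lit 231673777) (nat_lit 1520) (nat_lit 5027596439) (nat_lit 590) (nat_lit 5) (nat_lit 609) (nat_lit 5) (nat_lit 610) (nat_lit 5) (nat_lit 558) (nat_lit 542) (nat_lit 460)) (XT.lf (nat_lit 76) (nat_lit 4322760608) (nat_lit 0) (nat_lit 204455537) (nat_lit 1520) (nat_lit 3737258162) (nat_lit 591) (nat_lit 5) (nat_lit 590) (nat_lit 5) (nat_lit 610) (nat_lit 5) (nat_lit 559) (nat_lit 542) (nat_lit 459))))) (XT.nd (nat_lit 312) (nat_lit 3116) (nat_lit 0) (XT.nd (nat_lit 156) (nat_lit 1444) (nat_lit 0) (XT.nd (nat_lit 78) (nat_lit 0) (nat_lit 0) (XT.lf (nat_lit 76) (nat_lit 609088888) (nat_lit 0) (nat_lit 5528800646) (nat_lit 1520) (nat_lit 2191769218) (nat_lit 592) (nat_lit 5) (nat_lit 591) (nat_lit 5) (nat_lit 611) (nat_lit 5) (nat_lit 560) (nat_lit 542) (nat_lit 458)) (XT.lf (nat_lit 76) (nat_lit 5280622771)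 (nat_lit 0) (nat_lit 2497729366) (nat_lit 1520) (nat_lit 617845328) (nat_lit 592) (nat_lit 5) (nat_lit 591) (nat_lit 5) (nat_lit 611) (nat_lit 5) (nat_lit 561) (nat_lit 542) (nat_lit 457))) (XT.nd (nat_lit 78) (nat_lit 0) (nat_lit 0) (XT.lf (nat_lit 0) (nat_lit 959010220) (nat_lit 1520) (nat_lit 6894907822) (nat_lit 1596) (nat_lit 610334580) (nat_lit 572) (nat_lit 5) (nat_lit 592) (nat_lit 5) (nat_lit 593) (nat_lit 5) (nat_lit 562) (nat_lit 542) (nat_lit 456)) (XT.lf (nat_lit 0) (nat_lit 2567386403) (nat_lit 1520) (nat_lit 2186620880) (nat_lit 1596) (nat_lit 3779416764) (nat_lit 572) (nat_lit 5) (nat_lit 592) (nat_lit 5) (nat_lit 593) (nat_lit 5) (nat_lit 563) (nat_lit 542) (nat_lit 455)))) (XT.nd (nat_lit 156) (nat_lit 3116) (nat_lit 0) (XT.nd (nat_lit 78) (nat_lit 0) (nat_lit 76) (XT.lf (nat_lit 76) (nat_lit 2627950931) (nat_lit 0) (nat_lit 1568278717) (nat_lit 1596) (nat_lit 4407985194) (nat_lit 573) (nat_lit 5) (nat_lit 572) (nat_lit 5) (nat_lit 593) (nat_lit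 5) (nat_lit 564) (nat_lit 542) (nat_lit 454)) (XT.lf (nat_lit 0) (nat_lit 5855032412) (nat_lit 1520) (nat_lit 1141494537) (nat_lit 76) (nat_lit 1679948749) (nat_lit 573) (nat_lit 5) (nat_lit 593) (nat_lit 5) (nat_lit 574) (nat_lit 5) (nat_lit 565) (nat_lit 542) (nat_lit 453))) (XT.nd (nat_lit 78) (nat_lit 1672) (nat_lit 0) (XT.lf (nat_lit 0) (nat_lit 3807154473) (nat_lit 1520) (nat_lit 3747213109) (nat_lit 1596) (nat_lit 1195668921) (nat_lit 553) (nat_lit 5) (nat_lit 573) (nat_lit 5) (nat_lit 574) (nat_lit 5) (nat_lit 566) (nat_lit 542) (nat_lit 452)) (XT.lf (nat_lit 0) (nat_lit 19959943) (nat_lit 1596) (nat_lit 416902750) (nat_lit 1672) (nat_lit 8388541363) (nat_lit 531) (nat_lit 5) (nat_lit 552) (nat_lit 5) (nat_lit 553) (nat_lit 5) (nat_lit 567) (nat_lit 542) (nat_lit 451))))))))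
noncomputable def xc118 : XT := (XT.nd (nat_lit 2262) (nat_lit 9804) (nat_lit 0) (XT.nd (nat_lit 1092) (nat_lit 6840) (nat_lit 0) (XT.nd (nat_lit 546) (nat_lit 3572) (nat_lit 0) (XT.nd (nat_lit 234) (nat_lit 4712) (nat_lit 0) (XT.nd (nat_lit 78) (nat_lit 1672) (nat_lit 0) (XT.lf (nat_lit 0) (nat_lit 2111680614) (nat_lit 1672) (nat_lit 3803049308) (nat_lit 76) (nat_lit 2986879808) (nat_lit 531) (nat_lit 5) (nat_lit 553) (nat_lit 5) (nat_lit 532) (nat_lit 5) (nat_lit 568) (nat_lit 542) (nat_lit 450)) (XT.nd (nat_lit 78) (nat_lit 0) (nat_lit 0) (XT.lf (nat_lit 0) (nat_lit 1291007049) (nat_lit 1672) (nat_lit 2513555848) (nat_lit 1748) (nat_lit 5175086978) (nat_lit 509) (nat_lit 5) (nat_lit 531) (nat_lit 5) (nat_lit 532) (nat_lit 5) (nat_lit 569) (nat_lit 542) (nat_lit 449)) (XT.lf (nat_lit 0) (nat_lit 5537022141) (nat_lit 1748) (nat_lit 2549577283) (nat_lit 76) (nat_lit 972538696) (nat_lit 509) (nat_lit 5) (nat_lit 532) (nat_lit 5) (nat_lit 510) (nat_lit 5) (nat_lit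 570) (nat_lit 542) (nat_lit 448)))) (XT.nd (nat_lit 156) (nat_lit 2964) (nat_lit 0) (XT.nd (nat_lit 78) (nat_lit 0) (nat_lit 0) (XT.lf (nat_lit 0) (nat_lit 2688373111) (nat_lit 1748) (nat_lit 4624196638) (nat_lit 1824) (nat_lit 1827479250) (nat_lit 486) (nat_lit 5) (nat_lit 509) (nat_lit 5) (nat_lit 510) (nat_lit 5) (nat_lit 571) (nat_lit 542) (nat_lit 447)) (XT.lf (nat_lit 0) (nat_lit 8043281899) (nat_lit 1748) (nat_lit 1072151816) (nat_lit 1824) (nat_lit 107309889) (nat_lit 486) (nat_lit 5) (nat_lit 509) (nat_lit 5) (nat_lit 510) (nat_lit 5) (nat_lit 572) (nat_lit 542) (nat_lit 446))) (XT.nd (nat_lit 78) (nat_lit 1064) (nat_lit 0) (XT.lf (nat_lit 0) (nat_lit 1644920643) (nat_lit 1900) (nat_lit 5103063699) (nat_lit 76) (nat_lit 2558510173) (nat_lit 461) (nat_lit 5) (nat_lit 486) (nat_lit 5) (nat_lit 462) (nat_lit 5) (nat_lit 573) (nat_lit 542) (nat_lit 445)) (XT.lf (nat_lit 0) (nat_lit 291547437) (nat_lit 1064) (nat_lit 3131562467) (nat_lit 1140) (nat_lit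 5968950860) (nat_lit 447) (nat_lit 5) (nat_lit 461) (nat_lit 5) (nat_lit 462) (nat_lit 5) (nat_lit 574) (nat_lit 542) (nat_lit 444))))) (XT.nd (nat_lit 234) (nat_lit 2660) (nat_lit 0) (XT.nd (nat_lit 78) (nat_lit 912) (nat_lit 0) (XT.lf (nat_lit 0) (nat_lit 5250689154) (nat_lit 1140) (nat_lit 3642243365) (nat_lit 76) (nat_lit 586130790) (nat_lit 447) (nat_lit 5) (nat_lit 462) (nat_lit 5) (nat_lit 448) (nat_lit 5) (nat_lit 575) (nat_lit 542) (nat_lit 443)) (XT.nd (nat_lit 78) (nat_lit 0) (nat_lit 0) (XT.lf (nat_lit 0) (nat_lit 1906943804) (nat_lit 912) (nat_lit 5217209431) (nat_lit 988) (nat_lit 2443467471) (nat_lit 435) (nat_lit 5) (nat_lit 447) (nat_lit 5) (nat_lit 448) (nat_lit 5) (nat_lit 576) (nat_lit 542) (nat_lit 442)) (XT.lf (nat_lit 0) (nat_lit 7594115159) (nat_lit 912) (nat_lit 1441947244) (nat_lit 988) (nat_lit 621868767) (nat_lit 435) (nat_lit 5) (nat_lit 447) (nat_lit 5) (nat_lit 448) (nat_lit 5) (nat_lit 577) (nat_lit 542) (nat_lit 441)))) (XT.nd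 (nat_lit 156) (nat_lit 1672) (nat_lit 0) (XT.nd (nat_lit 78) (nat_lit 0) (nat_lit 0) (XT.lf (nat_lit 0) (nat_lit 1236427499) (nat_lit 988) (nat_lit 6102980394) (nat_lit 76) (nat_lit 2410151252) (nat_lit 422) (nat_lit 5) (nat_lit 435) (nat_lit 5) (nat_lit 423) (nat_lit 5) (nat_lit 578) (nat_lit 542) (nat_lit 440)) (XT.lf (nat_lit 0) (nat_lit 3124217316) (nat_lit 988) (nat_lit 379903607) (nat_lit 76) (nat_lit 6338804811) (nat_lit 422) (nat_lit 5) (nat_lit 435) (nat_lit 5) (nat_lit 423) (nat_lit 5) (nat_lit 579) (nat_lit 542) (nat_lit 439))) (XT.nd (nat_lit 78) (nat_lit 836) (nat_lit 0) (XT.lf (nat_lit 0) (nat_lit 5066013982) (nat_lit 912) (nat_lit 4433026807) (nat_lit 76) (nat_lit 438795171) (nat_lit 411) (nat_lit 5) (nat_lit 423) (nat_lit 5) (nat_lit 412) (nat_lit 5) (nat_lit 580) (nat_lit 542) (nat_lit 438)) (XT.lf (nat_lit 0) (nat_lit 1451166975) (nat_lit 836) (nat_lit 5608575449) (nat_lit 912) (nat_lit 2974641353) (nat_lit 400) (nat_lit 5) (nat_lit 411)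 (nat_lit 5) (nat_lit 412) (nat_lit 5) (nat_lit 581) (nat_lit 542) (nat_lit 437)))))) (XT.nd (nat_lit 546) (nat_lit 3496) (nat_lit 0) (XT.nd (nat_lit 234) (nat_lit 2432) (nat_lit 0) (XT.nd (nat_lit 78) (nat_lit 912) (nat_lit 0) (XT.lf (nat_lit 0) (nat_lit 7490868128) (nat_lit 836) (nat_lit 1610415548) (nat_lit 912) (nat_lit 1031421384) (nat_lit 400) (nat_lit 5) (nat_lit 411) (nat_lit 5) (nat_lit 412) (nat_lit 5) (nat_lit 582) (nat_lit 542) (nat_lit 436)) (XT.nd (nat_lit 78) (nat_lit 0) (nat_lit 0) (XT.lf (nat_lit 0) (nat_lit 955179850) (nat_lit 912) (nat_lit 6813929143) (nat_lit 76) (nat_lit 2463421856) (nat_lit 388) (nat_lit 5) (nat_lit 400) (nat_lit 5) (nat_lit 389) (nat_lit 5) (nat_lit 583) (nat_lit 542) (nat_lit 435)) (XT.lf (nat_lit 0) (nat_lit 2974975590) (nat_lit 912) (nat_lit 737945588) (nat_lit 76) (nat_lit 6621151361) (nat_lit 388) (nat_lit 5) (nat_lit 400) (nat_lit 5) (nat_lit 389) (nat_lit 5) (nat_lit 584) (nat_lit 542) (nat_lit 434)))) (XT.nd (nat_lit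 156) (nat_lit 836) (nat_lit 0) (XT.nd (nat_lit 78) (nat_lit 760) (nat_lit 0) (XT.lf (nat_lit 0) (nat_lit 5053092453) (nat_lit 912) (nat_lit 4930466777) (nat_lit 76) (nat_lit 453728508) (nat_lit 377) (nat_lit 5) (nat_lit 389) (nat_lit 5) (nat_lit 378) (nat_lit 5) (nat_lit 585) (nat_lit 542) (nat_lit 433)) (XT.lf (nat_lit 0) (nat_lit 1314420093) (nat_lit 760) (nat_lit 5875884595) (nat_lit 836) (nat_lit 3351913047) (nat_lit 367) (nat_lit 5) (nat_lit 377) (nat_lit 5) (nat_lit 378) (nat_lit 5) (nat_lit 586) (nat_lit 542) (nat_lit 432))) (XT.nd (nat_lit 78) (nat_lit 836) (nat_lit 0) (XT.lf (nat_lit 0) (nat_lit 7728969850) (nat_lit 760) (nat_lit 1654062753) (nat_lit 836) (nat_lit 1265959432) (nat_lit 367) (nat_lit 5) (nat_lit 377) (nat_lit 5) (nat_lit 378) (nat_lit 5) (nat_lit 587) (nat_lit 542) (nat_lit 431)) (XT.lf (nat_lit 0) (nat_lit 870696110) (nat_lit 836) (nat_lit 7242386903) (nat_lit 76) (nat_lit 2644302315) (nat_lit 356) (nat_lit 5) (nat_lit 367) (nat_lit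 5) (nat_lit 357) (nat_lit 5) (nat_lit 588) (nat_lit 542) (nat_lit 430))))) (XT.nd (nat_lit 312) (nat_lit 2052) (nat_lit 0) (XT.nd (nat_lit 156) (nat_lit 760) (nat_lit 0) (XT.nd (nat_lit 78) (nat_lit 684) (nat_lit 0) (XT.lf (nat_lit 0) (nat_lit 3044017975) (nat_lit 836) (nat_lit 790864748) (nat_lit 76) (nat_lit 7032679783) (nat_lit 356) (nat_lit 5) (nat_lit 367) (nat_lit 5) (nat_lit 357) (nat_lit 5) (nat_lit 589) (nat_lit 542) (nat_lit 429)) (XT.lf (nat_lit 0) (nat_lit 5283002093) (nat_lit 760) (nat_lit 5138612249) (nat_lit 76) (nat_lit 557886017) (nat_lit 347) (nat_lit 5) (nat_lit 357) (nat_lit 5) (nat_lit 348) (nat_lit 5) (nat_lit 590) (nat_lit 542) (nat_lit 428))) (XT.nd (nat_lit 78) (nat_lit 0) (nat_lit 0) (XT.lf (nat_lit 0) (nat_lit 1494660847) (nat_lit 760) (nat_lit 6093351804) (nat_lit 836) (nat_lit 3505240409) (nat_lit 337) (nat_lit 5) (nat_lit 347) (nat_lit 5) (nat_lit 348) (nat_lit 5) (nat_lit 591) (nat_lit 542) (nat_lit 427)) (XT.lf (nat_lit 0) (nat_lit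 8308463204) (nat_lit 760) (nat_lit 1646181514) (nat_lit 836) (nat_lit 1254326676) (nat_lit 337) (nat_lit 5) (nat_lit 347) (nat_lit 5) (nat_lit 348) (nat_lit 5) (nat_lit 592) (nat_lit 542) (nat_lit 426)))) (XT.nd (nat_lit 156) (nat_lit 1292) (nat_lit 0) (XT.nd (nat_lit 78) (nat_lit 0) (nat_lit 0) (XT.lf (nat_lit 0) (nat_lit 1053868766) (nat_lit 760) (nat_lit 7390658033) (nat_lit 76) (nat_lit 2881824523) (nat_lit 327) (nat_lit 5) (nat_lit 337) (nat_lit 5) (nat_lit 328) (nat_lit 5) (nat_lit 593) (nat_lit 542) (nat_lit 425)) (XT.lf (nat_lit 0) (nat_lit 3403437446) (nat_lit 760) (nat_lit 538914098) (nat_lit 76) (nat_lit 7503322334) (nat_lit 327) (nat_lit 5) (nat_lit 337) (nat_lit 5) (nat_lit 328) (nat_lit 5) (nat_lit 594) (nat_lit 542) (nat_lit 424))) (XT.nd (nat_lit 78) (nat_lit 608) (nat_lit 0) (XT.lf (nat_lit 0) (nat_lit 5828625616) (nat_lit 760) (nat_lit 5057478481) (nat_lit 76) (nat_lit 680707156) (nat_lit 318) (nat_lit 5) (nat_lit 328) (nat_lit 5) (nat_lit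 319) (nat_lit 5) (nat_lit 595) (nat_lit 542) (nat_lit 423)) (XT.lf (nat_lit 0) (nat_lit 1993977737) (nat_lit 608) (nat_lit 6333088020) (nat_lit 684) (nat_lit 3362811566) (nat_lit 310) (nat_lit 5) (nat_lit 318) (nat_lit 5) (nat_lit 319) (nat_lit 5) (nat_lit 596) (nat_lit 542) (nat_lit 422))))))) (XT.nd (nat_lit 1170) (nat_lit 4332) (nat_lit 0) (XT.nd (nat_lit 546) (nat_lit 2812) (nat_lit 0) (XT.nd (nat_lit 234) (nat_lit 1292) (nat_lit 0) (XT.nd (nat_lit 78) (nat_lit 1368) (nat_lit 0) (XT.lf (nat_lit 0) (nat_lit 9233568527) (nat_lit 608) (nat_lit 1658110488) (nat_lit 684) (nat_lit 923402506) (nat_lit 310) (nat_lit 5) (nat_lit 318) (nat_lit 5) (nat_lit 319) (nat_lit 5) (nat_lit 597) (nat_lit 542) (nat_lit 421)) (XT.nd (nat_lit 78) (nat_lit 608) (nat_lit 0) (XT.lf (nat_lit 0) (nat_lit 1577760531) (nat_lit 760) (nat_lit 7257314632) (nat_lit 76) (nat_lit 3106842538) (nat_lit 300) (nat_lit 5) (nat_lit 310) (nat_lit 5) (nat_lit 301) (nat_lit 5) (nat_lit 598) (nat_lit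 542) (nat_lit 420)) (XT.lf (nat_lit 0) (nat_lit 21719516) (nat_lit 608) (nat_lit 4106113313) (nat_lit 684) (nat_lit 7943111537) (nat_lit 292) (nat_lit 5) (nat_lit 300) (nat_lit 5) (nat_lit 301) (nat_lit 5) (nat_lit 599) (nat_lit 542) (nat_lit 419)))) (XT.nd (nat_lit 156) (nat_lit 684) (nat_lit 0) (XT.nd (nat_lit 78) (nat_lit 608) (nat_lit 0) (XT.lf (nat_lit 0) (nat_lit 6765440542) (nat_lit 684) (nat_lit 4683468810) (nat_lit 76) (nat_lit 752912357) (nat_lit 292) (nat_lit 5) (nat_lit 301) (nat_lit 5) (nat_lit 293) (nat_lit 5) (nat_lit 600) (nat_lit 542) (nat_lit 418)) (XT.lf (nat_lit 0) (nat_lit 2818174453) (nat_lit 608) (nat_lit 6666305464) (nat_lit 684) (nat_lit 2850263902) (nat_lit 284) (nat_lit 5) (nat_lit 292) (nat_lit 5) (nat_lit 293) (nat_lit 5) (nat_lit 601) (nat_lit 542) (nat_lit 417))) (XT.nd (nat_lit 78) (nat_lit 684) (nat_lit 0) (XT.lf (nat_lit 0) (nat_lit 10512279725) (nat_lit 608) (nat_lit 1760431052) (nat_lit 684) (nat_lit 197318174) (nat_lit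 284) (nat_lit 5) (nat_lit 292) (nat_lit 5) (nat_lit 293) (nat_lit 5) (nat_lit 602) (nat_lit 542) (nat_lit 416)) (XT.lf (nat_lit 0) (nat_lit 2518370501) (nat_lit 684) (nat_lit 6837610530) (nat_lit 76) (nat_lit 3250862037) (nat_lit 275) (nat_lit 5) (nat_lit 284) (nat_lit 5) (nat_lit 276) (nat_lit 5) (nat_lit 603) (nat_lit 542) (nat_lit 415))))) (XT.nd (nat_lit 312) (nat_lit 1596) (nat_lit 0) (XT.nd (nat_lit 156) (nat_lit 608) (nat_lit 0) (XT.nd (nat_lit 78) (nat_lit 0) (nat_lit 0) (XT.lf (nat_lit 0) (nat_lit 909009790) (nat_lit 608) (nat_lit 4391265512) (nat_lit 684) (nat_lit 7445801938) (nat_lit 267) (nat_lit 5) (nat_lit 275) (nat_lit 5) (nat_lit 276) (nat_lit 5) (nat_lit 604) (nat_lit 542) (nat_lit 414)) (XT.lf (nat_lit 0) (nat_lit 8172282595) (nat_lit 684) (nat_lit 4009775221) (nat_lit 76) (nat_lit 705349726) (nat_lit 267) (nat_lit 5) (nat_lit 276) (nat_lit 5) (nat_lit 268) (nat_lit 5) (nat_lit 605) (nat_lit 542) (nat_lit 413))) (XT.nd (nat_lit 78) (nat_lit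 76) (nat_lit 0) (XT.lf (nat_lit 0) (nat_lit 3976374490) (nat_lit 532) (nat_lit 7164478206) (nat_lit 608) (nat_lit 1889930019) (nat_lit 260) (nat_lit 5) (nat_lit 267) (nat_lit 5) (nat_lit 268) (nat_lit 5) (nat_lit 606) (nat_lit 542) (nat_lit 412)) (XT.lf (nat_lit 0) (nat_lit 990143089) (nat_lit 608) (nat_lit 1027334729) (nat_lit 76) (nat_lit 11159191849) (nat_lit 259) (nat_lit 5) (nat_lit 267) (nat_lit 5) (nat_lit 260) (nat_lit 5) (nat_lit 607) (nat_lit 542) (nat_lit 411)))) (XT.nd (nat_lit 156) (nat_lit 532) (nat_lit 0) (XT.nd (nat_lit 78) (nat_lit 532) (nat_lit 0) (XT.lf (nat_lit 0) (nat_lit 3955377176) (nat_lit 608) (nat_lit 6123882533) (nat_lit 76) (nat_lit 3244908165) (nat_lit 252) (nat_lit 5) (nat_lit 260) (nat_lit 5) (nat_lit 253) (nat_lit 5) (nat_lit 608) (nat_lit 542) (nat_lit 410)) (XT.lf (nat_lit 0) (nat_lit 2125819157) (nat_lit 532) (nat_lit 4872940249) (nat_lit 608) (nat_lit 6475480433) (nat_lit 245) (nat_lit 5) (nat_lit 252) (nat_lit 5) (nat_lit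 253) (nat_lit 5) (nat_lit 609) (nat_lit 542) (nat_lit 409))) (XT.nd (nat_lit 78) (nat_lit 532) (nat_lit 0) (XT.lf (nat_lit 0) (nat_lit 10132089286) (nat_lit 608) (nat_lit 3026771322) (nat_lit 76) (nat_lit 467871685) (nat_lit 245) (nat_lit 5) (nat_lit 253) (nat_lit 5) (nat_lit 246) (nat_lit 5) (nat_lit 610) (nat_lit 542) (nat_lit 408)) (XT.lf (nat_lit 0) (nat_lit 5480632154) (nat_lit 532) (nat_lit 7900478053) (nat_lit 608) (nat_lit 400104540) (nat_lit 238) (nat_lit 5) (nat_lit 245) (nat_lit 5) (nat_lit 246) (nat_lit 5) (nat_lit 611) (nat_lit 542) (nat_lit 407)))))) (XT.nd (nat_lit 546) (nat_lit 2280) (nat_lit 0) (XT.nd (nat_lit 234) (nat_lit 988) (nat_lit 0) (XT.nd (nat_lit 78) (nat_lit 532) (nat_lit 0) (XT.lf (nat_lit 0) (nat_lit 225406981) (nat_lit 456) (nat_lit 2501908840) (nat_lit 532) (nat_lit 11210970907) (nat_lit 231) (nat_lit 5) (nat_lit 237) (nat_lit 5) (nat_lit 238) (nat_lit 5) (nat_lit 612) (nat_lit 542) (nat_lit 406)) (XT.nd (nat_lit 78) (nat_lit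 532) (nat_lit 0) (XT.lf (nat_lit 0) (nat_lit 5972863923) (nat_lit 532) (nat_lit 5105952982) (nat_lit 76) (nat_lit 3018412217) (nat_lit 231) (nat_lit 5) (nat_lit 238) (nat_lit 5) (nat_lit 232) (nat_lit 5) (nat_lit 613) (nat_lit 542) (nat_lit 405)) (XT.lf (nat_lit 0) (nat_lit 3684798470) (nat_lit 532) (nat_lit 5624658292) (nat_lit 608) (nat_lit 4949371515) (nat_lit 224) (nat_lit 5) (nat_lit 231) (nat_lit 5) (nat_lit 232) (nat_lit 5) (nat_lit 614) (nat_lit 542) (nat_lit 404)))) (XT.nd (nat_lit 156) (nat_lit 456) (nat_lit 0) (XT.nd (nat_lit 78) (nat_lit 532) (nat_lit 0) (XT.lf (nat_lit 0) (nat_lit 12700637830) (nat_lit 532) (nat_lit 32200042) (nat_lit 608) (nat_lit 1690420994) (nat_lit 224) (nat_lit 5) (nat_lit 231) (nat_lit 5) (nat_lit 232) (nat_lit 5) (nat_lit 615) (nat_lit 542) (nat_lit 403)) (XT.lf (nat_lit 0) (nat_lit 1683302878) (nat_lit 532) (nat_lit 7255106404) (nat_lit 76) (nat_lit 5650936782) (nat_lit 217) (nat_lit 5) (nat_lit 224) (nat_lit 5) (nat_lit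 218) (nat_lit 5) (nat_lit 616) (nat_lit 542) (nat_lit 402))) (XT.nd (nat_lit 78) (nat_lit 0) (nat_lit 0) (XT.lf (nat_lit 0) (nat_lit 1829730398) (nat_lit 456) (nat_lit 3281975542) (nat_lit 532) (nat_lit 9646629350) (nat_lit 211) (nat_lit 5) (nat_lit 217) (nat_lit 5) (nat_lit 218) (nat_lit 5) (nat_lit 617) (nat_lit 542) (nat_lit 401)) (XT.lf (nat_lit 0) (nat_lit 8660031232) (nat_lit 532) (nat_lit 3771548463) (nat_lit 76) (nat_lit 2498098054) (nat_lit 211) (nat_lit 5) (nat_lit 218) (nat_lit 5) (nat_lit 212) (nat_lit 5) (nat_lit 618) (nat_lit 542) (nat_lit 400))))) (XT.nd (nat_lit 312) (nat_lit 912) (nat_lit 0) (XT.nd (nat_lit 156) (nat_lit 836) (nat_lit 0) (XT.nd (nat_lit 78) (nat_lit 76) (nat_lit 0) (XT.lf (nat_lit 0) (nat_lit 5600807791) (nat_lit 456) (nat_lit 6723080119) (nat_lit 532) (nat_lit 2779668374) (nat_lit 205) (nat_lit 5) (nat_lit 211) (nat_lit 5) (nat_lit 212) (nat_lit 5) (nat_lit 619) (nat_lit 542) (nat_lit 399)) (XT.lf (nat_lit 0) (nat_lit 781870514)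 (nat_lit 532) (nat_lit 93516271) (nat_lit 76) (nat_lit 14405184959) (nat_lit 204) (nat_lit 5) (nat_lit 211) (nat_lit 5) (nat_lit 205) (nat_lit 5) (nat_lit 620) (nat_lit 542) (nat_lit 398))) (XT.nd (nat_lit 78) (nat_lit 380) (nat_lit 0) (XT.lf (nat_lit 0) (nat_lit 4460051625) (nat_lit 532) (nat_lit 5901251408) (nat_lit 76) (nat_lit 5097804877) (nat_lit 198) (nat_lit 5) (nat_lit 205) (nat_lit 5) (nat_lit 199) (nat_lit 5) (nat_lit 621) (nat_lit 542) (nat_lit 397)) (XT.lf (nat_lit 0) (nat_lit 3786861057) (nat_lit 380) (nat_lit 4442827367) (nat_lit 456) (nat_lit 7411169017) (nat_lit 193) (nat_lit 5) (nat_lit 198) (nat_lit 5) (nat_lit 199) (nat_lit 5) (nat_lit 622) (nat_lit 542) (nat_lit 396)))) (XT.nd (nat_lit 156) (nat_lit 380) (nat_lit 0) (XT.nd (nat_lit 78) (nat_lit 532) (nat_lit 0) (XT.lf (nat_lit 0) (nat_lit 12111898815) (nat_lit 456) (nat_lit 2106750706) (nat_lit 76) (nat_lit 1606849300) (nat_lit 193) (nat_lit 5) (nat_lit 199) (nat_lit 5) (nat_lit 194) (nat_lit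 5) (nat_lit 623) (nat_lit 542) (nat_lit 395)) (XT.lf (nat_lit 0) (nat_lit 125486825) (nat_lit 532) (nat_lit 8122836593) (nat_lit 76) (nat_lit 7764136023) (nat_lit 186) (nat_lit 5) (nat_lit 193) (nat_lit 5) (nat_lit 187) (nat_lit 5) (nat_lit 624) (nat_lit 542) (nat_lit 394))) (XT.nd (nat_lit 78) (nat_lit 0) (nat_lit 0) (XT.lf (nat_lit 0) (nat_lit 1892658939) (nat_lit 380) (nat_lit 2112804959) (nat_lit 456) (nat_lit 12196928212) (nat_lit 181) (nat_lit 5) (nat_lit 186) (nat_lit 5) (nat_lit 187) (nat_lit 5) (nat_lit 625) (nat_lit 542) (nat_lit 393)) (XT.lf (nat_lit 0) (nat_lit 8032177890) (nat_lit 456) (nat_lit 4222904834) (nat_lit 76) (nat_lit 4139658398) (nat_lit 181) (nat_lit 5) (nat_lit 187) (nat_lit 5) (nat_lit 182) (nat_lit 5) (nat_lit 626) (nat_lit 542) (nat_lit 392))))))))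
noncomputable def xc119 : XT := (XT.nd (nat_lit 2262) (nat_lit 1444) (nat_lit 0) (XT.nd (nat_lit 1092) (nat_lit 2812) (nat_lit 0) (XT.nd (nat_lit 546) (nat_lit 1444) (nat_lit 0) (XT.nd (nat_lit 234) (nat_lit 1216) (nat_lit 0) (XT.nd (nat_lit 78) (nat_lit 456) (nat_lit 0) (XT.lf (nat_lit 0) (nat_lit 6113050249) (nat_lit 380) (nat_lit 6067658999) (nat_lit 456) (nat_lit 4409402635) (nat_lit 176) (nat_lit 5) (nat_lit 181) (nat_lit 5) (nat_lit 182) (nat_lit 5) (nat_lit 627) (nat_lit 542) (nat_lit 391)) (XT.nd (nat_lit 78) (nat_lit 456) (nat_lit 0) (XT.lf (nat_lit 0) (nat_lit 16429999309) (nat_lit 456) (nat_lit 96497324) (nat_lit 76) (nat_lit 262538085) (nat_lit 176) (nat_lit 5) (nat_lit 182) (nat_lit 5) (nat_lit 177) (nat_lit 5) (nat_lit 628) (nat_lit 542) (nat_lit 390)) (XT.lf (nat_lit 0) (nat_lit 3820248804) (nat_lit 456) (nat_lit 6443492953) (nat_lit 76) (nat_lit 6725757117) (nat_lit 170) (nat_lit 5) (nat_lit 176) (nat_lit 5) (nat_lit 171) (nat_lit 5) (nat_lit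 629) (nat_lit 542) (nat_lit 389)))) (XT.nd (nat_lit 156) (nat_lit 836) (nat_lit 0) (XT.nd (nat_lit 78) (nat_lit 0) (nat_lit 0) (XT.lf (nat_lit 0) (nat_lit 4243438420) (nat_lit 380) (nat_lit 3851041192) (nat_lit 456) (nat_lit 9099122264) (nat_lit 165) (nat_lit 5) (nat_lit 170) (nat_lit 5) (nat_lit 171) (nat_lit 5) (nat_lit 630) (nat_lit 542) (nat_lit 388)) (XT.lf (nat_lit 0) (nat_lit 12503220465) (nat_lit 456) (nat_lit 2205837175) (nat_lit 76) (nat_lit 2691749179) (nat_lit 165) (nat_lit 5) (nat_lit 171) (nat_lit 5) (nat_lit 166) (nat_lit 5) (nat_lit 631) (nat_lit 542) (nat_lit 387))) (XT.nd (nat_lit 78) (nat_lit 456) (nat_lit 0) (XT.lf (nat_lit 0) (nat_lit 8825367712) (nat_lit 380) (nat_lit 8245841894) (nat_lit 456) (nat_lit 539525166) (nat_lit 160) (nat_lit 5) (nat_lit 165) (nat_lit 5) (nat_lit 166) (nat_lit 5) (nat_lit 632) (nat_lit 542) (nat_lit 386)) (XT.lf (nat_lit 0) (nat_lit 2268541749) (nat_lit 380) (nat_lit 1603865538) (nat_lit 456) (nat_lit 13951588518)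 (nat_lit 154) (nat_lit 5) (nat_lit 159) (nat_lit 5) (nat_lit 160) (nat_lit 5) (nat_lit 633) (nat_lit 542) (nat_lit 385))))) (XT.nd (nat_lit 234) (nat_lit 760) (nat_lit 0) (XT.nd (nat_lit 78) (nat_lit 684) (nat_lit 0) (XT.lf (nat_lit 0) (nat_lit 8446652371) (nat_lit 456) (nat_lit 4433618288) (nat_lit 76) (nat_lit 5159554468) (nat_lit 154) (nat_lit 5) (nat_lit 160) (nat_lit 5) (nat_lit 155) (nat_lit 5) (nat_lit 634) (nat_lit 542) (nat_lit 384)) (XT.nd (nat_lit 78) (nat_lit 380) (nat_lit 0) (XT.lf (nat_lit 0) (nat_lit 6973495792) (nat_lit 304) (nat_lit 6183386090) (nat_lit 380) (nat_lit 5102199516) (nat_lit 150) (nat_lit 5) (nat_lit 154) (nat_lit 5) (nat_lit 155) (nat_lit 5) (nat_lit 635) (nat_lit 542) (nat_lit 383)) (XT.lf (nat_lit 0) (nat_lit 166445153) (nat_lit 380) (nat_lit 17818770047) (nat_lit 456) (nat_lit 497029956) (nat_lit 145) (nat_lit 5) (nat_lit 150) (nat_lit 5) (nat_lit 151) (nat_lit 5) (nat_lit 636) (nat_lit 542) (nat_lit 382)))) (XT.nd (nat_lit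 156) (nat_lit 380) (nat_lit 0) (XT.nd (nat_lit 78) (nat_lit 304) (nat_lit 0) (XT.lf (nat_lit 0) (nat_lit 4251036452) (nat_lit 456) (nat_lit 6794675982) (nat_lit 76) (nat_lit 7661497064) (nat_lit 144) (nat_lit 5) (nat_lit 150) (nat_lit 5) (nat_lit 145) (nat_lit 5) (nat_lit 637) (nat_lit 542) (nat_lit 381)) (XT.lf (nat_lit 0) (nat_lit 5001436244) (nat_lit 304) (nat_lit 4107370268) (nat_lit 380) (nat_lit 9827373280) (nat_lit 140) (nat_lit 5) (nat_lit 144) (nat_lit 5) (nat_lit 145) (nat_lit 5) (nat_lit 638) (nat_lit 542) (nat_lit 380))) (XT.nd (nat_lit 78) (nat_lit 380) (nat_lit 0) (XT.lf (nat_lit 0) (nat_lit 14117889741) (nat_lit 380) (nat_lit 2080624203) (nat_lit 76) (nat_lit 2970132712) (nat_lit 140) (nat_lit 5) (nat_lit 145) (nat_lit 5) (nat_lit 141) (nat_lit 5) (nat_lit 639) (nat_lit 542) (nat_lit 379)) (XT.lf (nat_lit 0) (nat_lit 10098369817) (nat_lit 380) (nat_lit 9210745809) (nat_lit 456) (nat_lit 95008324) (nat_lit 135) (nat_lit 5) (nat_lit 140) (nat_lit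 5) (nat_lit 141) (nat_lit 5) (nat_lit 640) (nat_lit 542) (nat_lit 378)))))) (XT.nd (nat_lit 546) (nat_lit 1444) (nat_lit 0) (XT.nd (nat_lit 234) (nat_lit 684) (nat_lit 0) (XT.nd (nat_lit 78) (nat_lit 304) (nat_lit 0) (XT.lf (nat_lit 0) (nat_lit 2893289197) (nat_lit 304) (nat_lit 2023579022) (nat_lit 380) (nat_lit 14726357572) (nat_lit 130) (nat_lit 5) (nat_lit 134) (nat_lit 5) (nat_lit 135) (nat_lit 5) (nat_lit 641) (nat_lit 542) (nat_lit 377)) (XT.nd (nat_lit 78) (nat_lit 304) (nat_lit 0) (XT.lf (nat_lit 0) (nat_lit 10114307974) (nat_lit 380) (nat_lit 4476439603) (nat_lit 76) (nat_lit 5294617870) (nat_lit 130) (nat_lit 5) (nat_lit 135) (nat_lit 5) (nat_lit 131) (nat_lit 5) (nat_lit 642) (nat_lit 542) (nat_lit 376)) (XT.lf (nat_lit 0) (nat_lit 8118411604) (nat_lit 304) (nat_lit 7352884329) (nat_lit 380) (nat_lit 4659940263) (nat_lit 126) (nat_lit 5) (nat_lit 130) (nat_lit 5) (nat_lit 131) (nat_lit 5) (nat_lit 643) (nat_lit 542) (nat_lit 375)))) (XT.nd (nat_lit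 156) (nat_lit 304) (nat_lit 0) (XT.nd (nat_lit 78) (nat_lit 0) (nat_lit 0) (XT.lf (nat_lit 0) (nat_lit 570395609) (nat_lit 380) (nat_lit 19750183427) (nat_lit 76) (nat_lit 60888656) (nat_lit 121) (nat_lit 5) (nat_lit 126) (nat_lit 5) (nat_lit 122) (nat_lit 5) (nat_lit 644) (nat_lit 542) (nat_lit 374)) (XT.lf (nat_lit 0) (nat_lit 5962405847) (nat_lit 380) (nat_lit 7041335037) (nat_lit 76) (nat_lit 7629957877) (nat_lit 121) (nat_lit 5) (nat_lit 126) (nat_lit 5) (nat_lit 122) (nat_lit 5) (nat_lit 645) (nat_lit 542) (nat_lit 373))) (XT.nd (nat_lit 78) (nat_lit 0) (nat_lit 0) (XT.lf (nat_lit 0) (nat_lit 5983233287) (nat_lit 304) (nat_lit 5507639818) (nat_lit 380) (nat_lit 9399529277) (nat_lit 117) (nat_lit 5) (nat_lit 121) (nat_lit 5) (nat_lit 122) (nat_lit 5) (nat_lit 646) (nat_lit 542) (nat_lit 372)) (XT.lf (nat_lit 0) (nat_lit 17181175244) (nat_lit 380) (nat_lit 1818728177) (nat_lit 76) (nat_lit 2151311605) (nat_lit 117) (nat_lit 5) (nat_lit 122) (nat_lit 5)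 (nat_lit 118) (nat_lit 5) (nat_lit 647) (nat_lit 542) (nat_lit 371))))) (XT.nd (nat_lit 312) (nat_lit 608) (nat_lit 0) (XT.nd (nat_lit 156) (nat_lit 228) (nat_lit 0) (XT.nd (nat_lit 78) (nat_lit 304) (nat_lit 0) (XT.lf (nat_lit 0) (nat_lit 1650157057) (nat_lit 304) (nat_lit 9795155451) (nat_lit 76) (nat_lit 9969674399) (nat_lit 113) (nat_lit 5) (nat_lit 117) (nat_lit 5) (nat_lit 114) (nat_lit 5) (nat_lit 648) (nat_lit 542) (nat_lit 370)) (XT.lf (nat_lit 0) (nat_lit 3673160403) (nat_lit 304) (nat_lit 3682662346) (nat_lit 380) (nat_lit 14327162410) (nat_lit 109) (nat_lit 5) (nat_lit 113) (nat_lit 5) (nat_lit 114) (nat_lit 5) (nat_lit 649) (nat_lit 542) (nat_lit 369))) (XT.nd (nat_lit 78) (nat_lit 228) (nat_lit 0) (XT.lf (nat_lit 0) (nat_lit 13259350101) (nat_lit 380) (nat_lit 4456054970) (nat_lit 76) (nat_lit 4239263577) (nat_lit 109) (nat_lit 5) (nat_lit 114) (nat_lit 5) (nat_lit 110) (nat_lit 5) (nat_lit 650) (nat_lit 542) (nat_lit 368)) (XT.lf (nat_lit 0)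 (nat_lit 9451982445) (nat_lit 228) (nat_lit 9905001416) (nat_lit 304) (nat_lit 2873281468) (nat_lit 106) (nat_lit 5) (nat_lit 109) (nat_lit 5) (nat_lit 110) (nat_lit 5) (nat_lit 651) (nat_lit 542) (nat_lit 367)))) (XT.nd (nat_lit 156) (nat_lit 228) (nat_lit 0) (XT.nd (nat_lit 78) (nat_lit 0) (nat_lit 0) (XT.lf (nat_lit 0) (nat_lit 1166603534) (nat_lit 304) (nat_lit 1886366802) (nat_lit 380) (nat_lit 19457446316) (nat_lit 101) (nat_lit 5) (nat_lit 105) (nat_lit 5) (nat_lit 106) (nat_lit 5) (nat_lit 652) (nat_lit 542) (nat_lit 366)) (XT.lf (nat_lit 0) (nat_lit 9176823507) (nat_lit 380) (nat_lit 7307753889) (nat_lit 76) (nat_lit 6308862991) (nat_lit 101) (nat_lit 5) (nat_lit 106) (nat_lit 5) (nat_lit 102) (nat_lit 5) (nat_lit 653) (nat_lit 542) (nat_lit 365))) (XT.nd (nat_lit 78) (nat_lit 0) (nat_lit 0) (XT.lf (nat_lit 0) (nat_lit 7073176175) (nat_lit 228) (nat_lit 8398923940) (nat_lit 304) (nat_lit 7609045774) (nat_lit 98) (nat_lit 5) (nat_lit 101) (nat_lit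 5) (nat_lit 102) (nat_lit 5) (nat_lit 654) (nat_lit 542) (nat_lit 364)) (XT.lf (nat_lit 0) (nat_lit 21824765613) (nat_lit 228) (nat_lit 108167330) (nat_lit 304) (nat_lit 1440879758) (nat_lit 98) (nat_lit 5) (nat_lit 101) (nat_lit 5) (nat_lit 102) (nat_lit 5) (nat_lit 655) (nat_lit 542) (nat_lit 363))))))) (XT.nd (nat_lit 72930) (nat_lit 0) (nat_lit 37392) (XT.nd (nat_lit 546) (nat_lit 76) (nat_lit 0) (XT.nd (nat_lit 234) (nat_lit 760) (nat_lit 0) (XT.nd (nat_lit 78) (nat_lit 228) (nat_lit 0) (XT.lf (nat_lit 0) (nat_lit 4919234083) (nat_lit 380) (nat_lit 10398587399) (nat_lit 76) (nat_lit 8351237667) (nat_lit 93) (nat_lit 5) (nat_lit 98) (nat_lit 5) (nat_lit 94) (nat_lit 5) (nat_lit 656) (nat_lit 542) (nat_lit 362)) (XT.nd (nat_lit 78) (nat_lit 0) (nat_lit 0) (XT.lf (nat_lit 0) (nat_lit 4469806599) (nat_lit 228) (nat_lit 6948441186) (nat_lit 304) (nat_lit 12551152641) (nat_lit 90) (nat_lit 5) (nat_lit 93) (nat_lit 5) (nat_lit 94) (nat_lit 5) (nat_lit 657) (nat_lit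 542) (nat_lit 361)) (XT.lf (nat_lit 0) (nat_lit 18118603923) (nat_lit 304) (nat_lit 4524503715) (nat_lit 76) (nat_lit 1631213846) (nat_lit 90) (nat_lit 5) (nat_lit 94) (nat_lit 5) (nat_lit 91) (nat_lit 5) (nat_lit 658) (nat_lit 542) (nat_lit 360)))) (XT.nd (nat_lit 156) (nat_lit 228) (nat_lit 0) (XT.nd (nat_lit 78) (nat_lit 228) (nat_lit 0) (XT.lf (nat_lit 0) (nat_lit 470838250) (nat_lit 304) (nat_lit 13755764457) (nat_lit 76) (nat_lit 10356530037) (nat_lit 86) (nat_lit 5) (nat_lit 90) (nat_lit 5) (nat_lit 87) (nat_lit 5) (nat_lit 659) (nat_lit 542) (nat_lit 359)) (XT.lf (nat_lit 0) (nat_lit 1614699567) (nat_lit 228) (nat_lit 5564928793) (nat_lit 304) (nat_lit 17717035708) (nat_lit 83) (nat_lit 5) (nat_lit 86) (nat_lit 5) (nat_lit 87) (nat_lit 5) (nat_lit 660) (nat_lit 542) (nat_lit 358))) (XT.nd (nat_lit 78) (nat_lit 228) (nat_lit 0) (XT.lf (nat_lit 0) (nat_lit 14127782475) (nat_lit 304) (nat_lit 7773064985) (nat_lit 76) (nat_lit 3313514976) (nat_lit 83)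 (nat_lit 5) (nat_lit 87) (nat_lit 5) (nat_lit 84) (nat_lit 5) (nat_lit 661) (nat_lit 542) (nat_lit 357)) (XT.lf (nat_lit 0) (nat_lit 8100060245) (nat_lit 228) (nat_lit 13195497556) (nat_lit 304) (nat_lit 4241243989) (nat_lit 80) (nat_lit 5) (nat_lit 83) (nat_lit 5) (nat_lit 84) (nat_lit 5) (nat_lit 662) (nat_lit 542) (nat_lit 356))))) (XT.nd (nat_lit 72072) (nat_lit 0) (nat_lit 41344) (XT.nd (nat_lit 71916) (nat_lit 0) (nat_lit 42560) (XT.nd (nat_lit 71838) (nat_lit 0) (nat_lit 42560) (XT.lf (nat_lit 0) (nat_lit 2748785659) (nat_lit 304) (nat_lit 1502122657) (nat_lit 76) (nat_lit 21613551146) (nat_lit 79) (nat_lit 5) (nat_lit 83) (nat_lit 5) (nat_lit 80) (nat_lit 5) (nat_lit 663) (nat_lit 542) (nat_lit 355)) (XT.lf (nat_lit 0) (nat_lit 2223755700) (nat_lit 1292) (nat_lit 750162456) (nat_lit 1292) (nat_lit 750162456) (nat_lit 639) (nat_lit 3) (nat_lit 656) (nat_lit 3) (nat_lit 656) (nat_lit 5) (nat_lit 543) (nat_lit 543) (nat_lit 474))) (XT.nd (nat_lit 78)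 (nat_lit 0) (nat_lit 0) (XT.lf (nat_lit 76) (nat_lit 2227273494) (nat_lit 0) (nat_lit 3760424921) (nat_lit 1292) (nat_lit 1504916193) (nat_lit 640) (nat_lit 5) (nat_lit 639) (nat_lit 3) (nat_lit 656) (nat_lit 5) (nat_lit 544) (nat_lit 543) (nat_lit 473)) (XT.lf (nat_lit 76) (nat_lit 6029680908) (nat_lit 0) (nat_lit 1500092112) (nat_lit 1292) (nat_lit 8765351) (nat_lit 640) (nat_lit 5) (nat_lit 639) (nat_lit 3) (nat_lit 656) (nat_lit 5) (nat_lit 545) (nat_lit 543) (nat_lit 472)))) (XT.nd (nat_lit 156) (nat_lit 0) (nat_lit 0) (XT.nd (nat_lit 78) (nat_lit 0) (nat_lit 0) (XT.lf (nat_lit 0) (nat_lit 1479529865) (nat_lit 1292) (nat_lit 5267994996) (nat_lit 1368) (nat_lit 838019171) (nat_lit 623) (nat_lit 5) (nat_lit 640) (nat_lit 5) (nat_lit 641) (nat_lit 5) (nat_lit 546) (nat_lit 543) (nat_lit 471)) (XT.lf (nat_lit 0) (nat_lit 2979864263) (nat_lit 1292) (nat_lit 1423353304) (nat_lit 1368) (nat_lit 3230626085) (nat_lit 623) (nat_lit 5) (nat_lit 640) (nat_lit 5)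 (nat_lit 641) (nat_lit 5) (nat_lit 547) (nat_lit 543) (nat_lit 470))) (XT.nd (nat_lit 78) (nat_lit 0) (nat_lit 76) (XT.lf (nat_lit 76) (nat_lit 2510575377) (nat_lit 0) (nat_lit 1978934083) (nat_lit 1368) (nat_lit 3194016485) (nat_lit 624) (nat_lit 5) (nat_lit 623) (nat_lit 5) (nat_lit 641) (nat_lit 5) (nat_lit 548) (nat_lit 543) (nat_lit 469)) (XT.lf (nat_lit 0) (nat_lit 6005869266) (nat_lit 1292) (nat_lit 1216035956) (nat_lit 1368) (nat_lit 512768936) (nat_lit 624) (nat_lit 5) (nat_lit 641) (nat_lit 5) (nat_lit 642) (nat_lit 5) (nat_lit 549) (nat_lit 543) (nat_lit 468)))))) (XT.nd (nat_lit 546) (nat_lit 1368) (nat_lit 0) (XT.nd (nat_lit 234) (nat_lit 1292) (nat_lit 0) (XT.nd (nat_lit 78) (nat_lit 1368) (nat_lit 0) (XT.lf (nat_lit 76) (nat_lit 2823121382) (nat_lit 0) (nat_lit 4725282430) (nat_lit 1368) (nat_lit 238527228) (nat_lit 625) (nat_lit 5) (nat_lit 624) (nat_lit 5) (nat_lit 642) (nat_lit 5) (nat_lit 550) (nat_lit 543) (nat_lit 467)) (XT.nd (nat_lit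 78) (nat_lit 0) (nat_lit 76) (XT.lf (nat_lit 0) (nat_lit 1237703899) (nat_lit 1368) (nat_lit 910049011) (nat_lit 1444) (nat_lit 5692857172) (nat_lit 606) (nat_lit 5) (nat_lit 624) (nat_lit 5) (nat_lit 625) (nat_lit 5) (nat_lit 551) (nat_lit 543) (nat_lit 466)) (XT.lf (nat_lit 0) (nat_lit 2730135349) (nat_lit 1368) (nat_lit 4653937363) (nat_lit 1444) (nat_lit 511463569) (nat_lit 607) (nat_lit 5) (nat_lit 625) (nat_lit 5) (nat_lit 626) (nat_lit 5) (nat_lit 552) (nat_lit 543) (nat_lit 465)))) (XT.nd (nat_lit 156) (nat_lit 1368) (nat_lit 0) (XT.nd (nat_lit 78) (nat_lit 0) (nat_lit 0) (XT.lf (nat_lit 0) (nat_lit 4238850322) (nat_lit 1368) (nat_lit 498455992) (nat_lit 1444) (nat_lit 3214528447) (nat_lit 607) (nat_lit 5) (nat_lit 625) (nat_lit 5) (nat_lit 626) (nat_lit 5) (nat_lit 553) (nat_lit 543) (nat_lit 464)) (XT.lf (nat_lit 76) (nat_lit 3768611103) (nat_lit 0) (nat_lit 2000326238) (nat_lit 1444) (nat_lit 2240500317) (nat_lit 608) (nat_lit 5) (nat_lit 607) (nat_lit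 5) (nat_lit 626) (nat_lit 5) (nat_lit 554) (nat_lit 543) (nat_lit 463))) (XT.nd (nat_lit 78) (nat_lit 1444) (nat_lit 0) (XT.lf (nat_lit 76) (nat_lit 33380876) (nat_lit 0) (nat_lit 7272291456) (nat_lit 1444) (nat_lit 763001716) (nat_lit 609) (nat_lit 5) (nat_lit 608) (nat_lit 5) (nat_lit 627) (nat_lit 5) (nat_lit 555) (nat_lit 543) (nat_lit 462)) (XT.lf (nat_lit 0) (nat_lit 743792949) (nat_lit 1444) (nat_lit 3718072519) (nat_lit 1520) (nat_lit 3666945259) (nat_lit 589) (nat_lit 5) (nat_lit 608) (nat_lit 5) (nat_lit 609) (nat_lit 5) (nat_lit 556) (nat_lit 543) (nat_lit 461))))) (XT.nd (nat_lit 312) (nat_lit 1368) (nat_lit 0) (XT.nd (nat_lit 156) (nat_lit 0) (nat_lit 76) (XT.nd (nat_lit 78) (nat_lit 0) (nat_lit 76) (XT.lf (nat_lit 76) (nat_lit 667787920) (nat_lit 0) (nat_lit 1575309918) (nat_lit 1520) (nat_lit 5947501834) (nat_lit 590) (nat_lit 5) (nat_lit 589) (nat_lit 5) (nat_lit 609) (nat_lit 5) (nat_lit 557) (nat_lit 543) (nat_lit 460)) (XT.lf (nat_lit 0)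 (nat_lit 3775187714) (nat_lit 1444) (nat_lit 3092375358) (nat_lit 1520) (nat_lit 1386007526) (nat_lit 590) (nat_lit 5) (nat_lit 609) (nat_lit 5) (nat_lit 610) (nat_lit 5) (nat_lit 558) (nat_lit 543) (nat_lit 459))) (XT.nd (nat_lit 78) (nat_lit 0) (nat_lit 0) (XT.lf (nat_lit 76) (nat_lit 1413241332) (nat_lit 0) (nat_lit 3913693256) (nat_lit 1520) (nat_lit 2991088185) (nat_lit 591) (nat_lit 5) (nat_lit 590) (nat_lit 5) (nat_lit 610) (nat_lit 5) (nat_lit 559) (nat_lit 543) (nat_lit 458)) (XT.lf (nat_lit 76) (nat_lit 6029499139) (nat_lit 0) (nat_lit 870836704) (nat_lit 1520) (nat_lit 1483617853) (nat_lit 591) (nat_lit 5) (nat_lit 590) (nat_lit 5) (nat_lit 610) (nat_lit 5) (nat_lit 560) (nat_lit 543) (nat_lit 457)))) (XT.nd (nat_lit 156) (nat_lit 0) (nat_lit 76) (XT.nd (nat_lit 78) (nat_lit 0) (nat_lit 0) (XT.lf (nat_lit 0) (nat_lit 53109841) (nat_lit 1520) (nat_lit 6170883620) (nat_lit 1596) (nat_lit 2227208454) (nat_lit 571) (nat_lit 5) (nat_lit 591) (nat_lit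 5) (nat_lit 592) (nat_lit 5) (nat_lit 561) (nat_lit 543) (nat_lit 456)) (XT.lf (nat_lit 0) (nat_lit 1593155224) (nat_lit 1520) (nat_lit 1517340954) (nat_lit 1596) (nat_lit 5409255782) (nat_lit 571) (nat_lit 5) (nat_lit 591) (nat_lit 5) (nat_lit 592) (nat_lit 5) (nat_lit 562) (nat_lit 543) (nat_lit 455))) (XT.nd (nat_lit 78) (nat_lit 0) (nat_lit 0) (XT.lf (nat_lit 0) (nat_lit 3157048347) (nat_lit 1520) (nat_lit 5339971603) (nat_lit 1596) (nat_lit 92794054) (nat_lit 572) (nat_lit 5) (nat_lit 592) (nat_lit 5) (nat_lit 593) (nat_lit 5) (nat_lit 563) (nat_lit 543) (nat_lit 454)) (XT.lf (nat_lit 0) (nat_lit 4754869349) (nat_lit 1520) (nat_lit 570711752) (nat_lit 1596) (nat_lit 3335645082) (nat_lit 572) (nat_lit 5) (nat_lit 592) (nat_lit 5) (nat_lit 593) (nat_lit 5) (nat_lit 564) (nat_lit 543) (nat_lit 453))))))))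
noncomputable def xc120 : XT := (XT.nd (nat_lit 2262) (nat_lit 10488) (nat_lit 0) (XT.nd (nat_lit 1092) (nat_lit 7448) (nat_lit 0) (XT.nd (nat_lit 546) (nat_lit 5700) (nat_lit 0) (XT.nd (nat_lit 234) (nat_lit 3268) (nat_lit 0) (XT.nd (nat_lit 78) (nat_lit 1520) (nat_lit 0) (XT.lf (nat_lit 76) (nat_lit 4329232801) (nat_lit 0) (nat_lit 2055876257) (nat_lit 1596) (nat_lit 2348950162) (nat_lit 573) (nat_lit 5) (nat_lit 572) (nat_lit 5) (nat_lit 593) (nat_lit 5) (nat_lit 565) (nat_lit 543) (nat_lit 452)) (XT.nd (nat_lit 78) (nat_lit 76) (nat_lit 0) (XT.lf (nat_lit 0) (nat_lit 502983000) (nat_lit 1520) (nat_lit 7533192873) (nat_lit 1596) (nat_lit 772410422) (nat_lit 553) (nat_lit 5) (nat_lit 573) (nat_lit 5) (nat_lit 574) (nat_lit 5) (nat_lit 566) (nat_lit 543) (nat_lit 451)) (XT.lf (nat_lit 0) (nat_lit 841078407) (nat_lit 1596) (nat_lit 3356731115) (nat_lit 76) (nat_lit 4686360065) (nat_lit 552) (nat_lit 5) (nat_lit 573) (nat_lit 5) (nat_lit 553) (nat_lit 5) (nat_lit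 567) (nat_lit 543) (nat_lit 450)))) (XT.nd (nat_lit 156) (nat_lit 1672) (nat_lit 0) (XT.nd (nat_lit 78) (nat_lit 0) (nat_lit 0) (XT.lf (nat_lit 0) (nat_lit 1686415873) (nat_lit 1596) (nat_lit 774575401) (nat_lit 1672) (nat_lit 6500482937) (nat_lit 531) (nat_lit 5) (nat_lit 552) (nat_lit 5) (nat_lit 553) (nat_lit 5) (nat_lit 568) (nat_lit 543) (nat_lit 449)) (XT.lf (nat_lit 0) (nat_lit 4127564439) (nat_lit 1672) (nat_lit 2203852678) (nat_lit 76) (nat_lit 2708624256) (nat_lit 531) (nat_lit 5) (nat_lit 553) (nat_lit 5) (nat_lit 532) (nat_lit 5) (nat_lit 569) (nat_lit 543) (nat_lit 448))) (XT.nd (nat_lit 78) (nat_lit 0) (nat_lit 0) (XT.lf (nat_lit 0) (nat_lit 2981063375) (nat_lit 1672) (nat_lit 2845347294) (nat_lit 1748) (nat_lit 3293792027) (nat_lit 509) (nat_lit 5) (nat_lit 531) (nat_lit 5) (nat_lit 532) (nat_lit 5) (nat_lit 570) (nat_lit 543) (nat_lit 447)) (XT.lf (nat_lit 0) (nat_lit 7553575031) (nat_lit 1748) (nat_lit 928898066) (nat_lit 76) (nat_lit 719608942)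 (nat_lit 509) (nat_lit 5) (nat_lit 532) (nat_lit 5) (nat_lit 510) (nat_lit 5) (nat_lit 571) (nat_lit 543) (nat_lit 446))))) (XT.nd (nat_lit 234) (nat_lit 2052) (nat_lit 0) (XT.nd (nat_lit 78) (nat_lit 1824) (nat_lit 0) (XT.lf (nat_lit 0) (nat_lit 52207822) (nat_lit 1824) (nat_lit 4882675242) (nat_lit 76) (nat_lit 4350255338) (nat_lit 485) (nat_lit 5) (nat_lit 509) (nat_lit 5) (nat_lit 486) (nat_lit 5) (nat_lit 572) (nat_lit 543) (nat_lit 445)) (XT.nd (nat_lit 78) (nat_lit 0) (nat_lit 0) (XT.lf (nat_lit 0) (nat_lit 456521248) (nat_lit 1824) (nat_lit 1293117910) (nat_lit 1900) (nat_lit 7620304812) (nat_lit 461) (nat_lit 5) (nat_lit 485) (nat_lit 5) (nat_lit 486) (nat_lit 5) (nat_lit 573) (nat_lit 543) (nat_lit 444)) (XT.lf (nat_lit 0) (nat_lit 3505595035) (nat_lit 1900) (nat_lit 3525217853) (nat_lit 76) (nat_lit 2425142739) (nat_lit 461) (nat_lit 5) (nat_lit 486) (nat_lit 5) (nat_lit 462) (nat_lit 5) (nat_lit 574) (nat_lit 543) (nat_lit 443)))) (XT.nd (nat_lit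 156) (nat_lit 988) (nat_lit 0) (XT.nd (nat_lit 78) (nat_lit 0) (nat_lit 0) (XT.lf (nat_lit 0) (nat_lit 1966233485) (nat_lit 1064) (nat_lit 3328111166) (nat_lit 1140) (nat_lit 4249390839) (nat_lit 447) (nat_lit 5) (nat_lit 461) (nat_lit 5) (nat_lit 462) (nat_lit 5) (nat_lit 575) (nat_lit 543) (nat_lit 442)) (XT.lf (nat_lit 0) (nat_lit 7122274572) (nat_lit 1140) (nat_lit 2042646008) (nat_lit 76) (nat_lit 468283701) (nat_lit 447) (nat_lit 5) (nat_lit 462) (nat_lit 5) (nat_lit 448) (nat_lit 5) (nat_lit 576) (nat_lit 543) (nat_lit 441))) (XT.nd (nat_lit 78) (nat_lit 76) (nat_lit 0) (XT.lf (nat_lit 0) (nat_lit 3606521995) (nat_lit 912) (nat_lit 5402834446) (nat_lit 988) (nat_lit 714655549) (nat_lit 435) (nat_lit 5) (nat_lit 447) (nat_lit 5) (nat_lit 448) (nat_lit 5) (nat_lit 577) (nat_lit 543) (nat_lit 440)) (XT.lf (nat_lit 0) (nat_lit 1093980211) (nat_lit 988) (nat_lit 449151879) (nat_lit 76) (nat_lit 8273538142) (nat_lit 434) (nat_lit 5) (nat_lit 447) (nat_lit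 5) (nat_lit 435) (nat_lit 5) (nat_lit 578) (nat_lit 543) (nat_lit 439)))))) (XT.nd (nat_lit 546) (nat_lit 3116) (nat_lit 0) (XT.nd (nat_lit 234) (nat_lit 2584) (nat_lit 0) (XT.nd (nat_lit 78) (nat_lit 836) (nat_lit 0) (XT.lf (nat_lit 0) (nat_lit 2957689471) (nat_lit 988) (nat_lit 4549683422) (nat_lit 76) (nat_lit 2403146196) (nat_lit 422) (nat_lit 5) (nat_lit 435) (nat_lit 5) (nat_lit 423) (nat_lit 5) (nat_lit 579) (nat_lit 543) (nat_lit 438)) (XT.nd (nat_lit 78) (nat_lit 0) (nat_lit 0) (XT.lf (nat_lit 0) (nat_lit 1271683124) (nat_lit 836) (nat_lit 3586543209) (nat_lit 912) (nat_lit 5148028823) (nat_lit 411) (nat_lit 5) (nat_lit 422) (nat_lit 5) (nat_lit 423) (nat_lit 5) (nat_lit 580) (nat_lit 543) (nat_lit 437)) (XT.lf (nat_lit 0) (nat_lit 6808521310) (nat_lit 912) (nat_lit 2857003214) (nat_lit 76) (nat_lit 438147749) (nat_lit 411) (nat_lit 5) (nat_lit 423) (nat_lit 5) (nat_lit 412) (nat_lit 5) (nat_lit 581) (nat_lit 543) (nat_lit 436)))) (XT.nd (nat_lit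 156) (nat_lit 1672) (nat_lit 0) (XT.nd (nat_lit 78) (nat_lit 76) (nat_lit 0) (XT.lf (nat_lit 0) (nat_lit 3133922574) (nat_lit 836) (nat_lit 5686758734) (nat_lit 912) (nat_lit 1381900492) (nat_lit 400) (nat_lit 5) (nat_lit 411) (nat_lit 5) (nat_lit 412) (nat_lit 5) (nat_lit 582) (nat_lit 543) (nat_lit 435)) (XT.lf (nat_lit 0) (nat_lit 560340505) (nat_lit 912) (nat_lit 1045201385) (nat_lit 76) (nat_lit 8697890943) (nat_lit 399) (nat_lit 5) (nat_lit 411) (nat_lit 5) (nat_lit 400) (nat_lit 5) (nat_lit 583) (nat_lit 543) (nat_lit 434))) (XT.nd (nat_lit 78) (nat_lit 836) (nat_lit 0) (XT.lf (nat_lit 0) (nat_lit 2552476500) (nat_lit 912) (nat_lit 5287077299) (nat_lit 76) (nat_lit 2565974503) (nat_lit 388) (nat_lit 5) (nat_lit 400) (nat_lit 5) (nat_lit 389) (nat_lit 5) (nat_lit 584) (nat_lit 543) (nat_lit 433)) (XT.lf (nat_lit 0) (nat_lit 889481232) (nat_lit 836) (nat_lit 3698017062) (nat_lit 912) (nat_lit 5922107679) (nat_lit 377) (nat_lit 5) (nat_lit 388) (nat_lit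 5) (nat_lit 389) (nat_lit 5) (nat_lit 585) (nat_lit 543) (nat_lit 432))))) (XT.nd (nat_lit 312) (nat_lit 1520) (nat_lit 0) (XT.nd (nat_lit 156) (nat_lit 836) (nat_lit 0) (XT.nd (nat_lit 78) (nat_lit 760) (nat_lit 0) (XT.lf (nat_lit 0) (nat_lit 6682180668) (nat_lit 912) (nat_lit 3379248525) (nat_lit 76) (nat_lit 553957936) (nat_lit 377) (nat_lit 5) (nat_lit 389) (nat_lit 5) (nat_lit 378) (nat_lit 5) (nat_lit 586) (nat_lit 543) (nat_lit 431)) (XT.lf (nat_lit 0) (nat_lit 2979681953) (nat_lit 760) (nat_lit 5863135196) (nat_lit 836) (nat_lit 1879986660) (nat_lit 367) (nat_lit 5) (nat_lit 377) (nat_lit 5) (nat_lit 378) (nat_lit 5) (nat_lit 587) (nat_lit 543) (nat_lit 430))) (XT.nd (nat_lit 78) (nat_lit 760) (nat_lit 0) (XT.lf (nat_lit 0) (nat_lit 214657563) (nat_lit 836) (nat_lit 1343333145) (nat_lit 76) (nat_lit 9274287943) (nat_lit 366) (nat_lit 5) (nat_lit 377) (nat_lit 5) (nat_lit 367) (nat_lit 5) (nat_lit 588) (nat_lit 543) (nat_lit 429)) (XT.lf (nat_lit 0)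 (nat_lit 2359352963) (nat_lit 836) (nat_lit 5742691792) (nat_lit 76) (nat_lit 2840984122) (nat_lit 356) (nat_lit 5) (nat_lit 367) (nat_lit 5) (nat_lit 357) (nat_lit 5) (nat_lit 589) (nat_lit 543) (nat_lit 428)))) (XT.nd (nat_lit 156) (nat_lit 836) (nat_lit 0) (XT.nd (nat_lit 78) (nat_lit 0) (nat_lit 0) (XT.lf (nat_lit 0) (nat_lit 816321064) (nat_lit 684) (nat_lit 3736272398) (nat_lit 760) (nat_lit 6503288648) (nat_lit 347) (nat_lit 5) (nat_lit 356) (nat_lit 5) (nat_lit 357) (nat_lit 5) (nat_lit 590) (nat_lit 543) (nat_lit 427)) (XT.lf (nat_lit 0) (nat_lit 6814324496) (nat_lit 760) (nat_lit 3612278695) (nat_lit 76) (nat_lit 743897708) (nat_lit 347) (nat_lit 5) (nat_lit 357) (nat_lit 5) (nat_lit 348) (nat_lit 5) (nat_lit 591) (nat_lit 543) (nat_lit 426))) (XT.nd (nat_lit 78) (nat_lit 76) (nat_lit 0) (XT.lf (nat_lit 0) (nat_lit 3142942061) (nat_lit 760) (nat_lit 6005046688) (nat_lit 836) (nat_lit 2138890329) (nat_lit 337) (nat_lit 5) (nat_lit 347) (nat_lit 5)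 (nat_lit 348) (nat_lit 5) (nat_lit 592) (nat_lit 543) (nat_lit 425)) (XT.lf (nat_lit 0) (nat_lit 127185665) (nat_lit 836) (nat_lit 1345014867) (nat_lit 76) (nat_lit 9933248219) (nat_lit 336) (nat_lit 5) (nat_lit 347) (nat_lit 5) (nat_lit 337) (nat_lit 5) (nat_lit 593) (nat_lit 543) (nat_lit 424))))))) (XT.nd (nat_lit 1092) (nat_lit 4712) (nat_lit 0) (XT.nd (nat_lit 546) (nat_lit 2432) (nat_lit 0) (XT.nd (nat_lit 234) (nat_lit 1976) (nat_lit 0) (XT.nd (nat_lit 78) (nat_lit 684) (nat_lit 0) (XT.lf (nat_lit 0) (nat_lit 2449306883) (nat_lit 760) (nat_lit 5917745690) (nat_lit 76) (nat_lit 3158268144) (nat_lit 327) (nat_lit 5) (nat_lit 337) (nat_lit 5) (nat_lit 328) (nat_lit 5) (nat_lit 594) (nat_lit 543) (nat_lit 423)) (XT.nd (nat_lit 78) (nat_lit 0) (nat_lit 0) (XT.lf (nat_lit 0) (nat_lit 1053065332) (nat_lit 684) (nat_lit 3772690553) (nat_lit 760) (nat_lit 6821677442) (nat_lit 318) (nat_lit 5) (nat_lit 327) (nat_lit 5) (nat_lit 328) (nat_lit 5) (nat_lit 595)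 (nat_lit 543) (nat_lit 422)) (XT.lf (nat_lit 0) (nat_lit 7278044714) (nat_lit 760) (nat_lit 3555047890) (nat_lit 76) (nat_lit 938330261) (nat_lit 318) (nat_lit 5) (nat_lit 328) (nat_lit 5) (nat_lit 319) (nat_lit 5) (nat_lit 596) (nat_lit 543) (nat_lit 421)))) (XT.nd (nat_lit 156) (nat_lit 1292) (nat_lit 0) (XT.nd (nat_lit 78) (nat_lit 76) (nat_lit 0) (XT.lf (nat_lit 0) (nat_lit 3626887582) (nat_lit 608) (nat_lit 6183774837) (nat_lit 684) (nat_lit 2086604989) (nat_lit 310) (nat_lit 5) (nat_lit 318) (nat_lit 5) (nat_lit 319) (nat_lit 5) (nat_lit 597) (nat_lit 543) (nat_lit 420)) (XT.lf (nat_lit 0) (nat_lit 370328375) (nat_lit 684) (nat_lit 1047895554) (nat_lit 76) (nat_lit 10607220827) (nat_lit 309) (nat_lit 5) (nat_lit 318) (nat_lit 5) (nat_lit 310) (nat_lit 5) (nat_lit 598) (nat_lit 543) (nat_lit 419))) (XT.nd (nat_lit 78) (nat_lit 608) (nat_lit 0) (XT.lf (nat_lit 0) (nat_lit 2895705224) (nat_lit 760) (nat_lit 5809809300) (nat_lit 76) (nat_lit 3449451214)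 (nat_lit 300) (nat_lit 5) (nat_lit 310) (nat_lit 5) (nat_lit 301) (nat_lit 5) (nat_lit 599) (nat_lit 543) (nat_lit 418)) (XT.lf (nat_lit 0) (nat_lit 1604327560) (nat_lit 608) (nat_lit 3877500606) (nat_lit 684) (nat_lit 6805045013) (nat_lit 292) (nat_lit 5) (nat_lit 300) (nat_lit 5) (nat_lit 301) (nat_lit 5) (nat_lit 600) (nat_lit 543) (nat_lit 417))))) (XT.nd (nat_lit 234) (nat_lit 1748) (nat_lit 0) (XT.nd (nat_lit 78) (nat_lit 684) (nat_lit 0) (XT.lf (nat_lit 0) (nat_lit 8149235802) (nat_lit 684) (nat_lit 3202975215) (nat_lit 76) (nat_lit 1068617298) (nat_lit 292) (nat_lit 5) (nat_lit 301) (nat_lit 5) (nat_lit 293) (nat_lit 5) (nat_lit 601) (nat_lit 543) (nat_lit 416)) (XT.nd (nat_lit 78) (nat_lit 76) (nat_lit 0) (XT.lf (nat_lit 0) (nat_lit 4438344578) (nat_lit 608) (nat_lit 6469984529) (nat_lit 684) (nat_lit 1648367475) (nat_lit 284) (nat_lit 5) (nat_lit 292) (nat_lit 5) (nat_lit 293) (nat_lit 5) (nat_lit 602) (nat_lit 543) (nat_lit 415)) (XT.lf (nat_lit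 0) (nat_lit 1019405457) (nat_lit 684) (nat_lit 446210092) (nat_lit 76) (nat_lit 11229422875) (nat_lit 283) (nat_lit 5) (nat_lit 292) (nat_lit 5) (nat_lit 284) (nat_lit 5) (nat_lit 603) (nat_lit 543) (nat_lit 414)))) (XT.nd (nat_lit 156) (nat_lit 532) (nat_lit 0) (XT.nd (nat_lit 78) (nat_lit 608) (nat_lit 0) (XT.lf (nat_lit 0) (nat_lit 3775054193) (nat_lit 684) (nat_lit 5413205750) (nat_lit 76) (nat_lit 3646538138) (nat_lit 275) (nat_lit 5) (nat_lit 284) (nat_lit 5) (nat_lit 276) (nat_lit 5) (nat_lit 604) (nat_lit 543) (nat_lit 413)) (XT.lf (nat_lit 0) (nat_lit 2478076207) (nat_lit 608) (nat_lit 4120937006) (nat_lit 684) (nat_lit 6378076492) (nat_lit 267) (nat_lit 5) (nat_lit 275) (nat_lit 5) (nat_lit 276) (nat_lit 5) (nat_lit 605) (nat_lit 543) (nat_lit 412))) (XT.nd (nat_lit 78) (nat_lit 532) (nat_lit 0) (XT.lf (nat_lit 0) (nat_lit 9507353517) (nat_lit 684) (nat_lit 2548333539) (nat_lit 76) (nat_lit 1065982765) (nat_lit 267) (nat_lit 5) (nat_lit 276) (nat_lit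 5) (nat_lit 268) (nat_lit 5) (nat_lit 606) (nat_lit 543) (nat_lit 411)) (XT.lf (nat_lit 0) (nat_lit 5587396816) (nat_lit 532) (nat_lit 6934868640) (nat_lit 608) (nat_lit 745908679) (nat_lit 260) (nat_lit 5) (nat_lit 267) (nat_lit 5) (nat_lit 268) (nat_lit 5) (nat_lit 607) (nat_lit 543) (nat_lit 410)))))) (XT.nd (nat_lit 546) (nat_lit 2508) (nat_lit 0) (XT.nd (nat_lit 234) (nat_lit 1064) (nat_lit 0) (XT.nd (nat_lit 78) (nat_lit 532) (nat_lit 0) (XT.lf (nat_lit 0) (nat_lit 475060761) (nat_lit 532) (nat_lit 1681420736) (nat_lit 608) (nat_lit 11260740565) (nat_lit 252) (nat_lit 5) (nat_lit 259) (nat_lit 5) (nat_lit 260) (nat_lit 5) (nat_lit 608) (nat_lit 543) (nat_lit 409)) (XT.nd (nat_lit 78) (nat_lit 532) (nat_lit 0) (XT.lf (nat_lit 0) (nat_lit 5167738680) (nat_lit 608) (nat_lit 4719402027) (nat_lit 76) (nat_lit 3680796143) (nat_lit 252) (nat_lit 5) (nat_lit 260) (nat_lit 5) (nat_lit 253) (nat_lit 5) (nat_lit 609) (nat_lit 543) (nat_lit 408)) (XT.lf (nat_lit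 0) (nat_lit 3685247919) (nat_lit 532) (nat_lit 4574368771) (nat_lit 608) (nat_lit 5461641968) (nat_lit 245) (nat_lit 5) (nat_lit 252) (nat_lit 5) (nat_lit 253) (nat_lit 5) (nat_lit 610) (nat_lit 543) (nat_lit 407)))) (XT.nd (nat_lit 156) (nat_lit 456) (nat_lit 0) (XT.nd (nat_lit 78) (nat_lit 608) (nat_lit 0) (XT.lf (nat_lit 0) (nat_lit 11436155961) (nat_lit 608) (nat_lit 1580633156) (nat_lit 76) (nat_lit 860401937) (nat_lit 245) (nat_lit 5) (nat_lit 253) (nat_lit 5) (nat_lit 246) (nat_lit 5) (nat_lit 611) (nat_lit 543) (nat_lit 406)) (XT.lf (nat_lit 0) (nat_lit 694053438) (nat_lit 608) (nat_lit 6952561735) (nat_lit 76) (nat_lit 6388295161) (nat_lit 237) (nat_lit 5) (nat_lit 245) (nat_lit 5) (nat_lit 238) (nat_lit 5) (nat_lit 612) (nat_lit 543) (nat_lit 405))) (XT.nd (nat_lit 78) (nat_lit 0) (nat_lit 0) (XT.lf (nat_lit 0) (nat_lit 1731354624) (nat_lit 456) (nat_lit 2135557499) (nat_lit 532) (nat_lit 10328394685) (nat_lit 231) (nat_lit 5) (nat_lit 237) (nat_lit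 5) (nat_lit 238) (nat_lit 5) (nat_lit 613) (nat_lit 543) (nat_lit 404)) (XT.lf (nat_lit 0) (nat_lit 7158746165) (nat_lit 532) (nat_lit 3717403727) (nat_lit 76) (nat_lit 3481651534) (nat_lit 231) (nat_lit 5) (nat_lit 238) (nat_lit 5) (nat_lit 232) (nat_lit 5) (nat_lit 614) (nat_lit 543) (nat_lit 403))))) (XT.nd (nat_lit 312) (nat_lit 988) (nat_lit 0) (XT.nd (nat_lit 156) (nat_lit 988) (nat_lit 0) (XT.nd (nat_lit 78) (nat_lit 0) (nat_lit 0) (XT.lf (nat_lit 0) (nat_lit 5239355725) (nat_lit 532) (nat_lit 5311419576) (nat_lit 608) (nat_lit 3972084033) (nat_lit 224) (nat_lit 5) (nat_lit 231) (nat_lit 5) (nat_lit 232) (nat_lit 5) (nat_lit 615) (nat_lit 543) (nat_lit 402)) (XT.lf (nat_lit 0) (nat_lit 14024431911) (nat_lit 608) (nat_lit 287014467) (nat_lit 76) (nat_lit 379496841) (nat_lit 224) (nat_lit 5) (nat_lit 232) (nat_lit 5) (nat_lit 225) (nat_lit 5) (nat_lit 616) (nat_lit 543) (nat_lit 401))) (XT.nd (nat_lit 78) (nat_lit 456) (nat_lit 0) (XT.lf (nat_lit 0) (nat_lit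 2750100973) (nat_lit 532) (nat_lit 5926262599) (nat_lit 76) (nat_lit 6184066328) (nat_lit 217) (nat_lit 5) (nat_lit 224) (nat_lit 5) (nat_lit 218) (nat_lit 5) (nat_lit 617) (nat_lit 543) (nat_lit 400)) (XT.lf (nat_lit 0) (nat_lit 3330573927) (nat_lit 456) (nat_lit 2905747554) (nat_lit 532) (nat_lit 8796693235) (nat_lit 211) (nat_lit 5) (nat_lit 217) (nat_lit 5) (nat_lit 218) (nat_lit 5) (nat_lit 618) (nat_lit 543) (nat_lit 399)))) (XT.nd (nat_lit 156) (nat_lit 532) (nat_lit 0) (XT.nd (nat_lit 78) (nat_lit 456) (nat_lit 0) (XT.lf (nat_lit 0) (nat_lit 9838379228) (nat_lit 532) (nat_lit 2394168350) (nat_lit 76) (nat_lit 2975581905) (nat_lit 211) (nat_lit 5) (nat_lit 218) (nat_lit 5) (nat_lit 212) (nat_lit 5) (nat_lit 619) (nat_lit 543) (nat_lit 398)) (XT.lf (nat_lit 0) (nat_lit 7156077062) (nat_lit 456) (nat_lit 6409097762) (nat_lit 532) (nat_lit 1820518291) (nat_lit 205) (nat_lit 5) (nat_lit 211) (nat_lit 5) (nat_lit 212) (nat_lit 5) (nat_lit 620) (nat_lit 543)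 (nat_lit 397))) (XT.nd (nat_lit 78) (nat_lit 0) (nat_lit 0) (XT.lf (nat_lit 0) (nat_lit 1350361899) (nat_lit 456) (nat_lit 437712400) (nat_lit 532) (nat_lit 13778260921) (nat_lit 198) (nat_lit 5) (nat_lit 204) (nat_lit 5) (nat_lit 205) (nat_lit 5) (nat_lit 621) (nat_lit 543) (nat_lit 396)) (XT.lf (nat_lit 0) (nat_lit 5523912871) (nat_lit 532) (nat_lit 4584063550) (nat_lit 76) (nat_lit 5640784530) (nat_lit 198) (nat_lit 5) (nat_lit 205) (nat_lit 5) (nat_lit 199) (nat_lit 5) (nat_lit 622) (nat_lit 543) (nat_lit 395))))))))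
noncomputable def xc121 : XT := (XT.nd (nat_lit 2262) (nat_lit 2280) (nat_lit 0) (XT.nd (nat_lit 1092) (nat_lit 3116) (nat_lit 0) (XT.nd (nat_lit 546) (nat_lit 1520) (nat_lit 0) (XT.nd (nat_lit 234) (nat_lit 1216) (nat_lit 0) (XT.nd (nat_lit 78) (nat_lit 532) (nat_lit 0) (XT.lf (nat_lit 0) (nat_lit 5288368975) (nat_lit 380) (nat_lit 4070719496) (nat_lit 456) (nat_lit 6575254784) (nat_lit 193) (nat_lit 5) (nat_lit 198) (nat_lit 5) (nat_lit 199) (nat_lit 5) (nat_lit 623) (nat_lit 543) (nat_lit 394)) (XT.nd (nat_lit 78) (nat_lit 532) (nat_lit 0) (XT.lf (nat_lit 0) (nat_lit 13302959502) (nat_lit 456) (nat_lit 735053225) (nat_lit 76) (nat_lit 2084985097) (nat_lit 193) (nat_lit 5) (nat_lit 199) (nat_lit 5) (nat_lit 194) (nat_lit 5) (nat_lit 624) (nat_lit 543) (nat_lit 393)) (XT.lf (nat_lit 0) (nat_lit 1073588229) (nat_lit 532) (nat_lit 6868162764) (nat_lit 76) (nat_lit 8372012624) (nat_lit 186) (nat_lit 5) (nat_lit 193) (nat_lit 5) (nat_lit 187) (nat_lit 5) (nat_lit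 625) (nat_lit 543) (nat_lit 392)))) (XT.nd (nat_lit 156) (nat_lit 836) (nat_lit 0) (XT.nd (nat_lit 78) (nat_lit 0) (nat_lit 0) (XT.lf (nat_lit 0) (nat_lit 3338319450) (nat_lit 380) (nat_lit 1683444798) (nat_lit 456) (nat_lit 11485919354) (nat_lit 181) (nat_lit 5) (nat_lit 186) (nat_lit 5) (nat_lit 187) (nat_lit 5) (nat_lit 626) (nat_lit 543) (nat_lit 391)) (XT.lf (nat_lit 0) (nat_lit 9113657839) (nat_lit 456) (nat_lit 2911773091) (nat_lit 76) (nat_lit 4678756397) (nat_lit 181) (nat_lit 5) (nat_lit 187) (nat_lit 5) (nat_lit 182) (nat_lit 5) (nat_lit 627) (nat_lit 543) (nat_lit 390))) (XT.nd (nat_lit 78) (nat_lit 456) (nat_lit 0) (XT.lf (nat_lit 0) (nat_lit 7621719583) (nat_lit 380) (nat_lit 5714386108) (nat_lit 456) (nat_lit 3567541520) (nat_lit 176) (nat_lit 5) (nat_lit 181) (nat_lit 5) (nat_lit 182) (nat_lit 5) (nat_lit 628) (nat_lit 543) (nat_lit 389)) (XT.lf (nat_lit 0) (nat_lit 549930603) (nat_lit 456) (nat_lit 15817659043) (nat_lit 76) (nat_lit 739016395)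 (nat_lit 170) (nat_lit 5) (nat_lit 176) (nat_lit 5) (nat_lit 171) (nat_lit 5) (nat_lit 629) (nat_lit 543) (nat_lit 388))))) (XT.nd (nat_lit 234) (nat_lit 1140) (nat_lit 0) (XT.nd (nat_lit 78) (nat_lit 380) (nat_lit 0) (XT.lf (nat_lit 0) (nat_lit 4790767081) (nat_lit 456) (nat_lit 5195379839) (nat_lit 76) (nat_lit 7325230203) (nat_lit 170) (nat_lit 5) (nat_lit 176) (nat_lit 5) (nat_lit 171) (nat_lit 5) (nat_lit 630) (nat_lit 543) (nat_lit 387)) (XT.nd (nat_lit 78) (nat_lit 0) (nat_lit 0) (XT.lf (nat_lit 0) (nat_lit 5696231064) (nat_lit 380) (nat_lit 3445601278) (nat_lit 456) (nat_lit 8377903425) (nat_lit 165) (nat_lit 5) (nat_lit 170) (nat_lit 5) (nat_lit 171) (nat_lit 5) (nat_lit 631) (nat_lit 543) (nat_lit 386)) (XT.lf (nat_lit 0) (nat_lit 13624457023) (nat_lit 456) (nat_lit 894532775) (nat_lit 76) (nat_lit 3212381397) (nat_lit 165) (nat_lit 5) (nat_lit 171) (nat_lit 5) (nat_lit 166) (nat_lit 5) (nat_lit 632) (nat_lit 543) (nat_lit 385)))) (XT.nd (nat_lit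 156) (nat_lit 304) (nat_lit 0) (XT.nd (nat_lit 78) (nat_lit 380) (nat_lit 0) (XT.lf (nat_lit 0) (nat_lit 325476080) (nat_lit 456) (nat_lit 7599427375) (nat_lit 76) (nat_lit 10020718769) (nat_lit 159) (nat_lit 5) (nat_lit 165) (nat_lit 5) (nat_lit 160) (nat_lit 5) (nat_lit 633) (nat_lit 543) (nat_lit 384)) (XT.lf (nat_lit 0) (nat_lit 3663051899) (nat_lit 380) (nat_lit 1147106435) (nat_lit 456) (nat_lit 13353084645) (nat_lit 154) (nat_lit 5) (nat_lit 159) (nat_lit 5) (nat_lit 160) (nat_lit 5) (nat_lit 634) (nat_lit 543) (nat_lit 383))) (XT.nd (nat_lit 78) (nat_lit 304) (nat_lit 0) (XT.lf (nat_lit 0) (nat_lit 9462131253) (nat_lit 456) (nat_lit 3185821823) (nat_lit 76) (nat_lit 5735711476) (nat_lit 154) (nat_lit 5) (nat_lit 160) (nat_lit 5) (nat_lit 155) (nat_lit 5) (nat_lit 635) (nat_lit 543) (nat_lit 382)) (XT.lf (nat_lit 0) (nat_lit 8440641981) (nat_lit 304) (nat_lit 5817944591) (nat_lit 380) (nat_lit 4348879466) (nat_lit 150) (nat_lit 5) (nat_lit 154) (nat_lit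 5) (nat_lit 155) (nat_lit 5) (nat_lit 636) (nat_lit 543) (nat_lit 381)))))) (XT.nd (nat_lit 546) (nat_lit 1596) (nat_lit 0) (XT.nd (nat_lit 234) (nat_lit 760) (nat_lit 0) (XT.nd (nat_lit 78) (nat_lit 304) (nat_lit 0) (XT.lf (nat_lit 0) (nat_lit 339114929) (nat_lit 456) (nat_lit 17335170779) (nat_lit 76) (nat_lit 1160856800) (nat_lit 144) (nat_lit 5) (nat_lit 150) (nat_lit 5) (nat_lit 145) (nat_lit 5) (nat_lit 637) (nat_lit 543) (nat_lit 380)) (XT.nd (nat_lit 78) (nat_lit 304) (nat_lit 0) (XT.lf (nat_lit 0) (nat_lit 5159034118) (nat_lit 456) (nat_lit 5613262016) (nat_lit 76) (nat_lit 8292573846) (nat_lit 144) (nat_lit 5) (nat_lit 150) (nat_lit 5) (nat_lit 145) (nat_lit 5) (nat_lit 638) (nat_lit 543) (nat_lit 379)) (XT.lf (nat_lit 0) (nat_lit 6410105958) (nat_lit 304) (nat_lit 3696213384) (nat_lit 380) (nat_lit 9192253616) (nat_lit 140) (nat_lit 5) (nat_lit 144) (nat_lit 5) (nat_lit 145) (nat_lit 5) (nat_lit 639) (nat_lit 543) (nat_lit 378)))) (XT.nd (nat_lit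 156) (nat_lit 304) (nat_lit 0) (XT.nd (nat_lit 78) (nat_lit 456) (nat_lit 0) (XT.lf (nat_lit 0) (nat_lit 15202737299) (nat_lit 380) (nat_lit 826385158) (nat_lit 76) (nat_lit 3506824106) (nat_lit 140) (nat_lit 5) (nat_lit 145) (nat_lit 5) (nat_lit 141) (nat_lit 5) (nat_lit 640) (nat_lit 543) (nat_lit 377)) (XT.lf (nat_lit 0) (nat_lit 704763450) (nat_lit 456) (nat_lit 8193254597) (nat_lit 76) (nat_lit 10878170619) (nat_lit 134) (nat_lit 5) (nat_lit 140) (nat_lit 5) (nat_lit 135) (nat_lit 5) (nat_lit 641) (nat_lit 543) (nat_lit 376))) (XT.nd (nat_lit 78) (nat_lit 0) (nat_lit 0) (XT.lf (nat_lit 0) (nat_lit 4240601029) (nat_lit 304) (nat_lit 1567683327) (nat_lit 380) (nat_lit 14211922485) (nat_lit 130) (nat_lit 5) (nat_lit 134) (nat_lit 5) (nat_lit 135) (nat_lit 5) (nat_lit 642) (nat_lit 543) (nat_lit 375)) (XT.lf (nat_lit 0) (nat_lit 11097281895) (nat_lit 380) (nat_lit 3289393132) (nat_lit 76) (nat_lit 5880762512) (nat_lit 130) (nat_lit 5) (nat_lit 135) (nat_lit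 5) (nat_lit 131) (nat_lit 5) (nat_lit 643) (nat_lit 543) (nat_lit 374))))) (XT.nd (nat_lit 312) (nat_lit 608) (nat_lit 0) (XT.nd (nat_lit 156) (nat_lit 304) (nat_lit 0) (XT.nd (nat_lit 78) (nat_lit 380) (nat_lit 0) (XT.lf (nat_lit 0) (nat_lit 9548956577) (nat_lit 304) (nat_lit 7005379278) (nat_lit 380) (nat_lit 3964031744) (nat_lit 126) (nat_lit 5) (nat_lit 130) (nat_lit 5) (nat_lit 131) (nat_lit 5) (nat_lit 644) (nat_lit 543) (nat_lit 373)) (XT.lf (nat_lit 0) (nat_lit 1356774301) (nat_lit 380) (nat_lit 18862832958) (nat_lit 76) (nat_lit 553970148) (nat_lit 121) (nat_lit 5) (nat_lit 126) (nat_lit 5) (nat_lit 122) (nat_lit 5) (nat_lit 645) (nat_lit 543) (nat_lit 372))) (XT.nd (nat_lit 78) (nat_lit 304) (nat_lit 0) (XT.lf (nat_lit 0) (nat_lit 6841429238) (nat_lit 380) (nat_lit 5924951798) (nat_lit 76) (nat_lit 8264776367) (nat_lit 121) (nat_lit 5) (nat_lit 126) (nat_lit 5) (nat_lit 122) (nat_lit 5) (nat_lit 646) (nat_lit 543) (nat_lit 371)) (XT.lf (nat_lit 0)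 (nat_lit 7351836774) (nat_lit 304) (nat_lit 5121840452) (nat_lit 380) (nat_lit 8819454032) (nat_lit 117) (nat_lit 5) (nat_lit 121) (nat_lit 5) (nat_lit 122) (nat_lit 5) (nat_lit 647) (nat_lit 543) (nat_lit 370)))) (XT.nd (nat_lit 156) (nat_lit 304) (nat_lit 0) (XT.nd (nat_lit 78) (nat_lit 304) (nat_lit 0) (XT.lf (nat_lit 0) (nat_lit 18266177876) (nat_lit 380) (nat_lit 619026327) (nat_lit 76) (nat_lit 2674188484) (nat_lit 117) (nat_lit 5) (nat_lit 122) (nat_lit 5) (nat_lit 118) (nat_lit 5) (nat_lit 648) (nat_lit 543) (nat_lit 369)) (XT.lf (nat_lit 0) (nat_lit 2422859871) (nat_lit 304) (nat_lit 8753265692) (nat_lit 76) (nat_lit 10652348772) (nat_lit 113) (nat_lit 5) (nat_lit 117) (nat_lit 5) (nat_lit 114) (nat_lit 5) (nat_lit 649) (nat_lit 543) (nat_lit 368))) (XT.nd (nat_lit 78) (nat_lit 0) (nat_lit 0) (XT.lf (nat_lit 0) (nat_lit 4976273105) (nat_lit 304) (nat_lit 3259845556) (nat_lit 380) (nat_lit 13865844653) (nat_lit 109) (nat_lit 5) (nat_lit 113) (nat_lit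 5) (nat_lit 114) (nat_lit 5) (nat_lit 650) (nat_lit 543) (nat_lit 367)) (XT.lf (nat_lit 0) (nat_lit 14246500702) (nat_lit 380) (nat_lit 3328403884) (nat_lit 76) (nat_lit 4804400557) (nat_lit 109) (nat_lit 5) (nat_lit 114) (nat_lit 5) (nat_lit 110) (nat_lit 5) (nat_lit 651) (nat_lit 543) (nat_lit 366))))))) (XT.nd (nat_lit 72930) (nat_lit 0) (nat_lit 38684) (XT.nd (nat_lit 546) (nat_lit 836) (nat_lit 0) (XT.nd (nat_lit 234) (nat_lit 836) (nat_lit 0) (XT.nd (nat_lit 78) (nat_lit 380) (nat_lit 0) (XT.lf (nat_lit 0) (nat_lit 10849789198) (nat_lit 228) (nat_lit 9609989906) (nat_lit 304) (nat_lit 2200761158) (nat_lit 106) (nat_lit 5) (nat_lit 109) (nat_lit 5) (nat_lit 110) (nat_lit 5) (nat_lit 652) (nat_lit 543) (nat_lit 365)) (XT.nd (nat_lit 78) (nat_lit 0) (nat_lit 0) (XT.lf (nat_lit 0) (nat_lit 2400278016) (nat_lit 304) (nat_lit 1427896389) (nat_lit 380) (nat_lit 19118151097) (nat_lit 101) (nat_lit 5) (nat_lit 105) (nat_lit 5) (nat_lit 106) (nat_lit 5) (nat_lit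 653) (nat_lit 543) (nat_lit 364)) (XT.lf (nat_lit 0) (nat_lit 10063660278) (nat_lit 380) (nat_lit 6256438133) (nat_lit 76) (nat_lit 6915128513) (nat_lit 101) (nat_lit 5) (nat_lit 106) (nat_lit 5) (nat_lit 102) (nat_lit 5) (nat_lit 654) (nat_lit 543) (nat_lit 363)))) (XT.nd (nat_lit 156) (nat_lit 608) (nat_lit 0) (XT.nd (nat_lit 78) (nat_lit 0) (nat_lit 0) (XT.lf (nat_lit 0) (nat_lit 8404232434) (nat_lit 228) (nat_lit 8074543407) (nat_lit 304) (nat_lit 7050032345) (nat_lit 98) (nat_lit 5) (nat_lit 101) (nat_lit 5) (nat_lit 102) (nat_lit 5) (nat_lit 655) (nat_lit 543) (nat_lit 362)) (XT.lf (nat_lit 0) (nat_lit 23057571777) (nat_lit 304) (nat_lit 402491459) (nat_lit 76) (nat_lit 367490481) (nat_lit 98) (nat_lit 5) (nat_lit 102) (nat_lit 5) (nat_lit 99) (nat_lit 5) (nat_lit 656) (nat_lit 543) (nat_lit 361))) (XT.nd (nat_lit 78) (nat_lit 228) (nat_lit 0) (XT.lf (nat_lit 0) (nat_lit 5702964955) (nat_lit 380) (nat_lit 9428358239) (nat_lit 76) (nat_lit 8997395189)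 (nat_lit 93) (nat_lit 5) (nat_lit 98) (nat_lit 5) (nat_lit 94) (nat_lit 5) (nat_lit 657) (nat_lit 543) (nat_lit 360)) (XT.lf (nat_lit 0) (nat_lit 5729652318) (nat_lit 228) (nat_lit 6596467787) (nat_lit 304) (nat_lit 12109063450) (nat_lit 90) (nat_lit 5) (nat_lit 93) (nat_lit 5) (nat_lit 94) (nat_lit 5) (nat_lit 658) (nat_lit 543) (nat_lit 359))))) (XT.nd (nat_lit 312) (nat_lit 304) (nat_lit 0) (XT.nd (nat_lit 156) (nat_lit 228) (nat_lit 0) (XT.nd (nat_lit 78) (nat_lit 304) (nat_lit 0) (XT.lf (nat_lit 0) (nat_lit 19150284714) (nat_lit 304) (nat_lit 3457281099) (nat_lit 76) (nat_lit 2138841482) (nat_lit 90) (nat_lit 5) (nat_lit 94) (nat_lit 5) (nat_lit 91) (nat_lit 5) (nat_lit 659) (nat_lit 543) (nat_lit 358)) (XT.lf (nat_lit 0) (nat_lit 1148316237) (nat_lit 304) (nat_lit 12871891524) (nat_lit 76) (nat_lit 11041212533) (nat_lit 86) (nat_lit 5) (nat_lit 90) (nat_lit 5) (nat_lit 87) (nat_lit 5) (nat_lit 660) (nat_lit 543) (nat_lit 357))) (XT.nd (nat_lit 78) (nat_lit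 0) (nat_lit 0) (XT.lf (nat_lit 0) (nat_lit 2798356859) (nat_lit 228) (nat_lit 5187301464) (nat_lit 304) (nat_lit 17395676668) (nat_lit 83) (nat_lit 5) (nat_lit 86) (nat_lit 5) (nat_lit 87) (nat_lit 5) (nat_lit 661) (nat_lit 543) (nat_lit 356)) (XT.lf (nat_lit 0) (nat_lit 15062898740) (nat_lit 304) (nat_lit 6789848612) (nat_lit 76) (nat_lit 3852837779) (nat_lit 83) (nat_lit 5) (nat_lit 87) (nat_lit 5) (nat_lit 84) (nat_lit 5) (nat_lit 662) (nat_lit 543) (nat_lit 355)))) (XT.nd (nat_lit 71916) (nat_lit 0) (nat_lit 41268) (XT.nd (nat_lit 78) (nat_lit 76) (nat_lit 0) (XT.lf (nat_lit 0) (nat_lit 9393247823) (nat_lit 228) (nat_lit 12975330855) (nat_lit 304) (nat_lit 3666003872) (nat_lit 80) (nat_lit 5) (nat_lit 83) (nat_lit 5) (nat_lit 84) (nat_lit 5) (nat_lit 663) (nat_lit 543) (nat_lit 354)) (XT.lf (nat_lit 0) (nat_lit 3442396789) (nat_lit 304) (nat_lit 414659160) (nat_lit 76) (nat_lit 22511907420) (nat_lit 79) (nat_lit 5) (nat_lit 83) (nat_lit 5) (nat_lit 80)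 (nat_lit 5) (nat_lit 664) (nat_lit 543) (nat_lit 353))) (XT.nd (nat_lit 78) (nat_lit 1292) (nat_lit 0) (XT.lf (nat_lit 0) (nat_lit 3739864514) (nat_lit 1292) (nat_lit 14575892) (nat_lit 1292) (nat_lit 14575892) (nat_lit 639) (nat_lit 3) (nat_lit 656) (nat_lit 3) (nat_lit 656) (nat_lit 5) (nat_lit 544) (nat_lit 544) (nat_lit 472)) (XT.lf (nat_lit 0) (nat_lit 1399749197) (nat_lit 1292) (nat_lit 3830426529) (nat_lit 1368) (nat_lit 2353980158) (nat_lit 622) (nat_lit 5) (nat_lit 639) (nat_lit 3) (nat_lit 640) (nat_lit 5) (nat_lit 545) (nat_lit 544) (nat_lit 471)))))) (XT.nd (nat_lit 546) (nat_lit 1292) (nat_lit 0) (XT.nd (nat_lit 234) (nat_lit 1292) (nat_lit 0) (XT.nd (nat_lit 78) (nat_lit 0) (nat_lit 0) (XT.lf (nat_lit 0) (nat_lit 2848658682) (nat_lit 1292) (nat_lit 38726489) (nat_lit 1368) (nat_lit 4744562046) (nat_lit 622) (nat_lit 5) (nat_lit 639) (nat_lit 3) (nat_lit 640) (nat_lit 5) (nat_lit 546) (nat_lit 544) (nat_lit 470)) (XT.nd (nat_lit 78) (nat_lit 0)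 (nat_lit 76) (XT.lf (nat_lit 76) (nat_lit 3860016047) (nat_lit 0) (nat_lit 454610423) (nat_lit 1368) (nat_lit 3366309067) (nat_lit 623) (nat_lit 5) (nat_lit 622) (nat_lit 5) (nat_lit 640) (nat_lit 5) (nat_lit 547) (nat_lit 544) (nat_lit 469)) (XT.lf (nat_lit 76) (nat_lit 74039929) (nat_lit 0) (nat_lit 5713504664) (nat_lit 1368) (nat_lit 1943809119) (nat_lit 624) (nat_lit 5) (nat_lit 623) (nat_lit 5) (nat_lit 641) (nat_lit 5) (nat_lit 548) (nat_lit 544) (nat_lit 468)))) (XT.nd (nat_lit 156) (nat_lit 0) (nat_lit 76) (XT.nd (nat_lit 78) (nat_lit 1368) (nat_lit 0) (XT.lf (nat_lit 76) (nat_lit 4075643971) (nat_lit 0) (nat_lit 3207218909) (nat_lit 1368) (nat_lit 500061190) (nat_lit 624) (nat_lit 5) (nat_lit 623) (nat_lit 5) (nat_lit 641) (nat_lit 5) (nat_lit 549) (nat_lit 544) (nat_lit 467)) (XT.lf (nat_lit 76) (nat_lit 299288959) (nat_lit 0) (nat_lit 627236665) (nat_lit 1444) (nat_lit 6909542087) (nat_lit 606) (nat_lit 5) (nat_lit 605) (nat_lit 5) (nat_lit 624)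 (nat_lit 5) (nat_lit 550) (nat_lit 544) (nat_lit 466))) (XT.nd (nat_lit 78) (nat_lit 0) (nat_lit 0) (XT.lf (nat_lit 0) (nat_lit 2378443517) (nat_lit 1368) (nat_lit 3490759324) (nat_lit 1444) (nat_lit 2020937875) (nat_lit 606) (nat_lit 5) (nat_lit 624) (nat_lit 5) (nat_lit 625) (nat_lit 5) (nat_lit 551) (nat_lit 544) (nat_lit 465)) (XT.lf (nat_lit 76) (nat_lit 619827069) (nat_lit 0) (nat_lit 3213861506) (nat_lit 1444) (nat_lit 4112123283) (nat_lit 607) (nat_lit 5) (nat_lit 606) (nat_lit 5) (nat_lit 625) (nat_lit 5) (nat_lit 552) (nat_lit 544) (nat_lit 464))))) (XT.nd (nat_lit 312) (nat_lit 0) (nat_lit 76) (XT.nd (nat_lit 156) (nat_lit 1368) (nat_lit 0) (XT.nd (nat_lit 78) (nat_lit 0) (nat_lit 76) (XT.lf (nat_lit 76) (nat_lit 4839748413) (nat_lit 0) (nat_lit 468358930) (nat_lit 1444) (nat_lit 2694690109) (nat_lit 607) (nat_lit 5) (nat_lit 606) (nat_lit 5) (nat_lit 625) (nat_lit 5) (nat_lit 553) (nat_lit 544) (nat_lit 463)) (XT.lf (nat_lit 76) (nat_lit 1061385311)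 (nat_lit 0) (nat_lit 5740043421) (nat_lit 1444) (nat_lit 1259708098) (nat_lit 608) (nat_lit 5) (nat_lit 607) (nat_lit 5) (nat_lit 626) (nat_lit 5) (nat_lit 554) (nat_lit 544) (nat_lit 462))) (XT.nd (nat_lit 78) (nat_lit 0) (nat_lit 0) (XT.lf (nat_lit 0) (nat_lit 193440357) (nat_lit 1444) (nat_lit 2732436653) (nat_lit 1520) (nat_lit 5194898926) (nat_lit 588) (nat_lit 5) (nat_lit 607) (nat_lit 5) (nat_lit 608) (nat_lit 5) (nat_lit 555) (nat_lit 544) (nat_lit 461)) (XT.lf (nat_lit 76) (nat_lit 1612604346) (nat_lit 0) (nat_lit 24973602) (nat_lit 1520) (nat_lit 6544289692) (nat_lit 589) (nat_lit 5) (nat_lit 588) (nat_lit 5) (nat_lit 608) (nat_lit 5) (nat_lit 556) (nat_lit 544) (nat_lit 460)))) (XT.nd (nat_lit 156) (nat_lit 0) (nat_lit 76) (XT.nd (nat_lit 78) (nat_lit 0) (nat_lit 0) (XT.lf (nat_lit 0) (nat_lit 3116973231) (nat_lit 1444) (nat_lit 2202389953) (nat_lit 1520) (nat_lit 2924692672) (nat_lit 589) (nat_lit 5) (nat_lit 608) (nat_lit 5) (nat_lit 609) (nat_lit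 5) (nat_lit 557) (nat_lit 544) (nat_lit 459)) (XT.lf (nat_lit 76) (nat_lit 2260726879) (nat_lit 0) (nat_lit 2349551778) (nat_lit 1520) (nat_lit 3697524871) (nat_lit 590) (nat_lit 5) (nat_lit 589) (nat_lit 5) (nat_lit 609) (nat_lit 5) (nat_lit 558) (nat_lit 544) (nat_lit 458))) (XT.nd (nat_lit 78) (nat_lit 0) (nat_lit 0) (XT.lf (nat_lit 0) (nat_lit 6122746889) (nat_lit 1444) (nat_lit 1555189854) (nat_lit 1520) (nat_lit 695105569) (nat_lit 590) (nat_lit 5) (nat_lit 609) (nat_lit 5) (nat_lit 610) (nat_lit 5) (nat_lit 559) (nat_lit 544) (nat_lit 457)) (XT.lf (nat_lit 76) (nat_lit 3030019216) (nat_lit 0) (nat_lit 4641273059) (nat_lit 1520) (nat_lit 768179094) (nat_lit 591) (nat_lit 5) (nat_lit 590) (nat_lit 5) (nat_lit 610) (nat_lit 5) (nat_lit 560) (nat_lit 544) (nat_lit 456))))))))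
noncomputable def xc122 : XT := (XT.nd (nat_lit 2262) (nat_lit 10564) (nat_lit 0) (XT.nd (nat_lit 1092) (nat_lit 7980) (nat_lit 0) (XT.nd (nat_lit 546) (nat_lit 6916) (nat_lit 0) (XT.nd (nat_lit 234) (nat_lit 1368) (nat_lit 0) (XT.nd (nat_lit 78) (nat_lit 0) (nat_lit 76) (XT.lf (nat_lit 0) (nat_lit 715176890) (nat_lit 1520) (nat_lit 804851783) (nat_lit 1596) (nat_lit 6987478760) (nat_lit 570) (nat_lit 5) (nat_lit 590) (nat_lit 5) (nat_lit 591) (nat_lit 5) (nat_lit 561) (nat_lit 544) (nat_lit 455)) (XT.nd (nat_lit 78) (nat_lit 0) (nat_lit 0) (XT.lf (nat_lit 0) (nat_lit 2225831099) (nat_lit 1520) (nat_lit 4670327231) (nat_lit 1596) (nat_lit 1680487929) (nat_lit 571) (nat_lit 5) (nat_lit 591) (nat_lit 5) (nat_lit 592) (nat_lit 5) (nat_lit 562) (nat_lit 544) (nat_lit 454)) (XT.lf (nat_lit 76) (nat_lit 45034292) (nat_lit 0) (nat_lit 3709353939) (nat_lit 1596) (nat_lit 4893027730) (nat_lit 572) (nat_lit 5) (nat_lit 571) (nat_lit 5) (nat_lit 592) (nat_lit 5) (nat_lit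 563) (nat_lit 544) (nat_lit 453)))) (XT.nd (nat_lit 156) (nat_lit 1444) (nat_lit 0) (XT.nd (nat_lit 78) (nat_lit 0) (nat_lit 76) (XT.lf (nat_lit 76) (nat_lit 4897131285) (nat_lit 0) (nat_lit 420035391) (nat_lit 1596) (nat_lit 3402363237) (nat_lit 572) (nat_lit 5) (nat_lit 571) (nat_lit 5) (nat_lit 592) (nat_lit 5) (nat_lit 564) (nat_lit 544) (nat_lit 452)) (XT.lf (nat_lit 76) (nat_lit 1026532816) (nat_lit 0) (nat_lit 5883285336) (nat_lit 1596) (nat_lit 1883297465) (nat_lit 573) (nat_lit 5) (nat_lit 572) (nat_lit 5) (nat_lit 593) (nat_lit 5) (nat_lit 565) (nat_lit 544) (nat_lit 451))) (XT.nd (nat_lit 78) (nat_lit 1520) (nat_lit 0) (XT.lf (nat_lit 76) (nat_lit 6000518390) (nat_lit 0) (nat_lit 2535509704) (nat_lit 1596) (nat_lit 332112618) (nat_lit 573) (nat_lit 5) (nat_lit 572) (nat_lit 5) (nat_lit 593) (nat_lit 5) (nat_lit 566) (nat_lit 544) (nat_lit 450)) (XT.lf (nat_lit 0) (nat_lit 1227048459) (nat_lit 1596) (nat_lit 6822393962) (nat_lit 76) (nat_lit 895196323)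 (nat_lit 552) (nat_lit 5) (nat_lit 573) (nat_lit 5) (nat_lit 553) (nat_lit 5) (nat_lit 567) (nat_lit 544) (nat_lit 449))))) (XT.nd (nat_lit 234) (nat_lit 5320) (nat_lit 0) (XT.nd (nat_lit 78) (nat_lit 1596) (nat_lit 0) (XT.lf (nat_lit 0) (nat_lit 2823168781) (nat_lit 1596) (nat_lit 1811898974) (nat_lit 76) (nat_lit 4387352298) (nat_lit 552) (nat_lit 5) (nat_lit 573) (nat_lit 5) (nat_lit 553) (nat_lit 5) (nat_lit 568) (nat_lit 544) (nat_lit 448)) (XT.nd (nat_lit 78) (nat_lit 0) (nat_lit 0) (XT.lf (nat_lit 0) (nat_lit 3321505909) (nat_lit 1596) (nat_lit 1125836418) (nat_lit 1672) (nat_lit 4654493698) (nat_lit 531) (nat_lit 5) (nat_lit 552) (nat_lit 5) (nat_lit 553) (nat_lit 5) (nat_lit 569) (nat_lit 544) (nat_lit 447)) (XT.lf (nat_lit 0) (nat_lit 6107126696) (nat_lit 1672) (nat_lit 637724410) (nat_lit 76) (nat_lit 2437928280) (nat_lit 531) (nat_lit 5) (nat_lit 553) (nat_lit 5) (nat_lit 532) (nat_lit 5) (nat_lit 570) (nat_lit 544) (nat_lit 446)))) (XT.nd (nat_lit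 156) (nat_lit 1824) (nat_lit 0) (XT.nd (nat_lit 78) (nat_lit 1824) (nat_lit 0) (XT.lf (nat_lit 0) (nat_lit 4640296508) (nat_lit 1672) (nat_lit 3172842790) (nat_lit 1748) (nat_lit 1451943252) (nat_lit 509) (nat_lit 5) (nat_lit 531) (nat_lit 5) (nat_lit 532) (nat_lit 5) (nat_lit 571) (nat_lit 544) (nat_lit 445)) (XT.lf (nat_lit 0) (nat_lit 188996721) (nat_lit 1824) (nat_lit 8682483120) (nat_lit 76) (nat_lit 477778240) (nat_lit 485) (nat_lit 5) (nat_lit 509) (nat_lit 5) (nat_lit 486) (nat_lit 5) (nat_lit 572) (nat_lit 544) (nat_lit 444))) (XT.nd (nat_lit 78) (nat_lit 1824) (nat_lit 0) (XT.lf (nat_lit 0) (nat_lit 1871581069) (nat_lit 1824) (nat_lit 3359863876) (nat_lit 76) (nat_lit 4202916385) (nat_lit 485) (nat_lit 5) (nat_lit 509) (nat_lit 5) (nat_lit 486) (nat_lit 5) (nat_lit 573) (nat_lit 544) (nat_lit 443)) (XT.lf (nat_lit 0) (nat_lit 2075455592) (nat_lit 1824) (nat_lit 1502303843) (nat_lit 1900) (nat_lit 5943609828) (nat_lit 461) (nat_lit 5) (nat_lit 485)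 (nat_lit 5) (nat_lit 486) (nat_lit 5) (nat_lit 574) (nat_lit 544) (nat_lit 442)))))) (XT.nd (nat_lit 546) (nat_lit 4180) (nat_lit 0) (XT.nd (nat_lit 234) (nat_lit 2736) (nat_lit 0) (XT.nd (nat_lit 78) (nat_lit 1064) (nat_lit 0) (XT.lf (nat_lit 0) (nat_lit 5332508146) (nat_lit 1900) (nat_lit 1981047932) (nat_lit 76) (nat_lit 2296273777) (nat_lit 461) (nat_lit 5) (nat_lit 486) (nat_lit 5) (nat_lit 462) (nat_lit 5) (nat_lit 575) (nat_lit 544) (nat_lit 441)) (XT.nd (nat_lit 78) (nat_lit 0) (nat_lit 0) (XT.lf (nat_lit 0) (nat_lit 3609609576) (nat_lit 1064) (nat_lit 3523390661) (nat_lit 1140) (nat_lit 2566847862) (nat_lit 447) (nat_lit 5) (nat_lit 461) (nat_lit 5) (nat_lit 462) (nat_lit 5) (nat_lit 576) (nat_lit 544) (nat_lit 440)) (XT.lf (nat_lit 0) (nat_lit 8962693569) (nat_lit 1140) (nat_lit 475999673) (nat_lit 76) (nat_lit 353111021) (nat_lit 447) (nat_lit 5) (nat_lit 462) (nat_lit 5) (nat_lit 448) (nat_lit 5) (nat_lit 577) (nat_lit 544) (nat_lit 439)))) (XT.nd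 (nat_lit 156) (nat_lit 836) (nat_lit 0) (XT.nd (nat_lit 78) (nat_lit 912) (nat_lit 0) (XT.lf (nat_lit 0) (nat_lit 966854098) (nat_lit 988) (nat_lit 4615673529) (nat_lit 76) (nat_lit 4302233839) (nat_lit 434) (nat_lit 5) (nat_lit 447) (nat_lit 5) (nat_lit 435) (nat_lit 5) (nat_lit 578) (nat_lit 544) (nat_lit 438)) (XT.lf (nat_lit 0) (nat_lit 1144555990) (nat_lit 912) (nat_lit 1631913929) (nat_lit 988) (nat_lit 7203222917) (nat_lit 422) (nat_lit 5) (nat_lit 434) (nat_lit 5) (nat_lit 435) (nat_lit 5) (nat_lit 579) (nat_lit 544) (nat_lit 437))) (XT.nd (nat_lit 78) (nat_lit 836) (nat_lit 0) (XT.lf (nat_lit 0) (nat_lit 4647498222) (nat_lit 988) (nat_lit 3030376648) (nat_lit 76) (nat_lit 2398144836) (nat_lit 422) (nat_lit 5) (nat_lit 435) (nat_lit 5) (nat_lit 423) (nat_lit 5) (nat_lit 580) (nat_lit 544) (nat_lit 436)) (XT.lf (nat_lit 0) (nat_lit 2896823147) (nat_lit 836) (nat_lit 3667635403) (nat_lit 912) (nat_lit 3609645585) (nat_lit 411) (nat_lit 5) (nat_lit 422)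 (nat_lit 5) (nat_lit 423) (nat_lit 5) (nat_lit 581) (nat_lit 544) (nat_lit 435))))) (XT.nd (nat_lit 312) (nat_lit 2432) (nat_lit 0) (XT.nd (nat_lit 156) (nat_lit 836) (nat_lit 0) (XT.nd (nat_lit 78) (nat_lit 912) (nat_lit 0) (XT.lf (nat_lit 0) (nat_lit 8522149491) (nat_lit 912) (nat_lit 1314100863) (nat_lit 76) (nat_lit 437853299) (nat_lit 411) (nat_lit 5) (nat_lit 423) (nat_lit 5) (nat_lit 412) (nat_lit 5) (nat_lit 582) (nat_lit 544) (nat_lit 434)) (XT.lf (nat_lit 0) (nat_lit 176195392) (nat_lit 912) (nat_lit 5590447733) (nat_lit 76) (nat_lit 4608739090) (nat_lit 399) (nat_lit 5) (nat_lit 411) (nat_lit 5) (nat_lit 400) (nat_lit 5) (nat_lit 583) (nat_lit 544) (nat_lit 433))) (XT.nd (nat_lit 78) (nat_lit 0) (nat_lit 0) (XT.lf (nat_lit 0) (nat_lit 519564672) (nat_lit 836) (nat_lit 1591873202) (nat_lit 912) (nat_lit 8367178252) (nat_lit 388) (nat_lit 5) (nat_lit 399) (nat_lit 5) (nat_lit 400) (nat_lit 5) (nat_lit 584) (nat_lit 544) (nat_lit 432)) (XT.lf (nat_lit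 0) (nat_lit 4120435923) (nat_lit 912) (nat_lit 3794269800) (nat_lit 76) (nat_lit 2668509111) (nat_lit 388) (nat_lit 5) (nat_lit 400) (nat_lit 5) (nat_lit 389) (nat_lit 5) (nat_lit 585) (nat_lit 544) (nat_lit 431)))) (XT.nd (nat_lit 156) (nat_lit 1596) (nat_lit 0) (XT.nd (nat_lit 78) (nat_lit 0) (nat_lit 0) (XT.lf (nat_lit 0) (nat_lit 2495303133) (nat_lit 836) (nat_lit 3681422248) (nat_lit 912) (nat_lit 4513039016) (nat_lit 377) (nat_lit 5) (nat_lit 388) (nat_lit 5) (nat_lit 389) (nat_lit 5) (nat_lit 586) (nat_lit 544) (nat_lit 430)) (XT.lf (nat_lit 0) (nat_lit 8284515521) (nat_lit 912) (nat_lit 1861070724) (nat_lit 76) (nat_lit 652652298) (nat_lit 377) (nat_lit 5) (nat_lit 389) (nat_lit 5) (nat_lit 378) (nat_lit 5) (nat_lit 587) (nat_lit 544) (nat_lit 429))) (XT.nd (nat_lit 78) (nat_lit 836) (nat_lit 0) (XT.lf (nat_lit 0) (nat_lit 4614605714) (nat_lit 760) (nat_lit 5855189239) (nat_lit 836) (nat_lit 438381618) (nat_lit 367) (nat_lit 5) (nat_lit 377) (nat_lit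 5) (nat_lit 378) (nat_lit 5) (nat_lit 588) (nat_lit 544) (nat_lit 428)) (XT.lf (nat_lit 0) (nat_lit 195908246) (nat_lit 760) (nat_lit 1455495550) (nat_lit 836) (nat_lit 9368793622) (nat_lit 356) (nat_lit 5) (nat_lit 366) (nat_lit 5) (nat_lit 367) (nat_lit 5) (nat_lit 589) (nat_lit 544) (nat_lit 427))))))) (XT.nd (nat_lit 1092) (nat_lit 5092) (nat_lit 0) (XT.nd (nat_lit 546) (nat_lit 2584) (nat_lit 0) (XT.nd (nat_lit 234) (nat_lit 2204) (nat_lit 0) (XT.nd (nat_lit 78) (nat_lit 684) (nat_lit 0) (XT.lf (nat_lit 0) (nat_lit 3820652797) (nat_lit 836) (nat_lit 4276862383) (nat_lit 76) (nat_lit 3036015799) (nat_lit 356) (nat_lit 5) (nat_lit 367) (nat_lit 5) (nat_lit 357) (nat_lit 5) (nat_lit 590) (nat_lit 544) (nat_lit 426)) (XT.nd (nat_lit 78) (nat_lit 0) (nat_lit 0) (XT.lf (nat_lit 0) (nat_lit 2402931499) (nat_lit 684) (nat_lit 3637294231) (nat_lit 760) (nat_lit 5208767689) (nat_lit 347) (nat_lit 5) (nat_lit 356) (nat_lit 5) (nat_lit 357) (nat_lit 5) (nat_lit 591)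 (nat_lit 544) (nat_lit 425)) (XT.lf (nat_lit 0) (nat_lit 8320913140) (nat_lit 760) (nat_lit 2118678634) (nat_lit 76) (nat_lit 926839839) (nat_lit 347) (nat_lit 5) (nat_lit 357) (nat_lit 5) (nat_lit 348) (nat_lit 5) (nat_lit 592) (nat_lit 544) (nat_lit 424)))) (XT.nd (nat_lit 156) (nat_lit 684) (nat_lit 0) (XT.nd (nat_lit 78) (nat_lit 760) (nat_lit 0) (XT.lf (nat_lit 0) (nat_lit 4761344922) (nat_lit 760) (nat_lit 5923136711) (nat_lit 836) (nat_lit 800992541) (nat_lit 337) (nat_lit 5) (nat_lit 347) (nat_lit 5) (nat_lit 348) (nat_lit 5) (nat_lit 593) (nat_lit 544) (nat_lit 423)) (XT.lf (nat_lit 0) (nat_lit 173221611) (nat_lit 684) (nat_lit 1293483206) (nat_lit 760) (nat_lit 10140044366) (nat_lit 327) (nat_lit 5) (nat_lit 336) (nat_lit 5) (nat_lit 337) (nat_lit 5) (nat_lit 594) (nat_lit 544) (nat_lit 422))) (XT.nd (nat_lit 78) (nat_lit 684) (nat_lit 0) (XT.lf (nat_lit 0) (nat_lit 3819285660) (nat_lit 760) (nat_lit 4478309847) (nat_lit 76) (nat_lit 3431744090)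 (nat_lit 327) (nat_lit 5) (nat_lit 337) (nat_lit 5) (nat_lit 328) (nat_lit 5) (nat_lit 595) (nat_lit 544) (nat_lit 421)) (XT.lf (nat_lit 0) (nat_lit 2621668772) (nat_lit 684) (nat_lit 3605740724) (nat_lit 760) (nat_lit 5626803374) (nat_lit 318) (nat_lit 5) (nat_lit 327) (nat_lit 5) (nat_lit 328) (nat_lit 5) (nat_lit 596) (nat_lit 544) (nat_lit 420))))) (XT.nd (nat_lit 234) (nat_lit 1216) (nat_lit 0) (XT.nd (nat_lit 78) (nat_lit 1368) (nat_lit 0) (XT.lf (nat_lit 0) (nat_lit 8704696135) (nat_lit 760) (nat_lit 2084837660) (nat_lit 76) (nat_lit 1191630663) (nat_lit 318) (nat_lit 5) (nat_lit 328) (nat_lit 5) (nat_lit 319) (nat_lit 5) (nat_lit 597) (nat_lit 544) (nat_lit 419)) (XT.nd (nat_lit 78) (nat_lit 760) (nat_lit 0) (XT.lf (nat_lit 0) (nat_lit 5230596317) (nat_lit 608) (nat_lit 6042191834) (nat_lit 684) (nat_lit 837042579) (nat_lit 310) (nat_lit 5) (nat_lit 318) (nat_lit 5) (nat_lit 319) (nat_lit 5) (nat_lit 598) (nat_lit 544) (nat_lit 418)) (XT.lf (nat_lit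 0) (nat_lit 454925781) (nat_lit 684) (nat_lit 1175134361) (nat_lit 760) (nat_lit 10610785705) (nat_lit 300) (nat_lit 5) (nat_lit 309) (nat_lit 5) (nat_lit 310) (nat_lit 5) (nat_lit 599) (nat_lit 544) (nat_lit 417)))) (XT.nd (nat_lit 156) (nat_lit 608) (nat_lit 0) (XT.nd (nat_lit 78) (nat_lit 608) (nat_lit 0) (XT.lf (nat_lit 0) (nat_lit 4190056740) (nat_lit 760) (nat_lit 4395198465) (nat_lit 76) (nat_lit 3788021001) (nat_lit 300) (nat_lit 5) (nat_lit 310) (nat_lit 5) (nat_lit 301) (nat_lit 5) (nat_lit 600) (nat_lit 544) (nat_lit 416)) (XT.lf (nat_lit 0) (nat_lit 3157150034) (nat_lit 608) (nat_lit 3656381862) (nat_lit 684) (nat_lit 5694578482) (nat_lit 292) (nat_lit 5) (nat_lit 300) (nat_lit 5) (nat_lit 301) (nat_lit 5) (nat_lit 601) (nat_lit 544) (nat_lit 415))) (XT.nd (nat_lit 78) (nat_lit 608) (nat_lit 0) (XT.lf (nat_lit 0) (nat_lit 9512226716) (nat_lit 684) (nat_lit 1753998415) (nat_lit 76) (nat_lit 1378961861) (nat_lit 292) (nat_lit 5) (nat_lit 301) (nat_lit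 5) (nat_lit 293) (nat_lit 5) (nat_lit 602) (nat_lit 544) (nat_lit 414)) (XT.lf (nat_lit 0) (nat_lit 6030193588) (nat_lit 608) (nat_lit 6282537773) (nat_lit 684) (nat_lit 471317808) (nat_lit 284) (nat_lit 5) (nat_lit 292) (nat_lit 5) (nat_lit 293) (nat_lit 5) (nat_lit 603) (nat_lit 544) (nat_lit 413)))))) (XT.nd (nat_lit 546) (nat_lit 2660) (nat_lit 0) (XT.nd (nat_lit 234) (nat_lit 1140) (nat_lit 0) (XT.nd (nat_lit 78) (nat_lit 608) (nat_lit 0) (XT.lf (nat_lit 0) (nat_lit 1047830973) (nat_lit 608) (nat_lit 1169498578) (nat_lit 684) (nat_lit 10708004489) (nat_lit 275) (nat_lit 5) (nat_lit 283) (nat_lit 5) (nat_lit 284) (nat_lit 5) (nat_lit 604) (nat_lit 544) (nat_lit 412)) (XT.nd (nat_lit 78) (nat_lit 608) (nat_lit 0) (XT.lf (nat_lit 0) (nat_lit 5010028828) (nat_lit 684) (nat_lit 4020934503) (nat_lit 76) (nat_lit 4037287875) (nat_lit 275) (nat_lit 5) (nat_lit 284) (nat_lit 5) (nat_lit 276) (nat_lit 5) (nat_lit 605) (nat_lit 544) (nat_lit 411)) (XT.lf (nat_lit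 0) (nat_lit 4018301150) (nat_lit 608) (nat_lit 3859109478) (nat_lit 684) (nat_lit 5336240208) (nat_lit 267) (nat_lit 5) (nat_lit 275) (nat_lit 5) (nat_lit 276) (nat_lit 5) (nat_lit 606) (nat_lit 544) (nat_lit 410)))) (XT.nd (nat_lit 156) (nat_lit 532) (nat_lit 0) (XT.nd (nat_lit 78) (nat_lit 608) (nat_lit 0) (XT.lf (nat_lit 0) (nat_lit 10823630221) (nat_lit 684) (nat_lit 1117526674) (nat_lit 76) (nat_lit 1420372436) (nat_lit 267) (nat_lit 5) (nat_lit 276) (nat_lit 5) (nat_lit 268) (nat_lit 5) (nat_lit 607) (nat_lit 544) (nat_lit 409)) (XT.lf (nat_lit 0) (nat_lit 370182054) (nat_lit 608) (nat_lit 6342480840) (nat_lit 76) (nat_lit 6798503608) (nat_lit 259) (nat_lit 5) (nat_lit 267) (nat_lit 5) (nat_lit 260) (nat_lit 5) (nat_lit 608) (nat_lit 544) (nat_lit 408))) (XT.nd (nat_lit 78) (nat_lit 0) (nat_lit 0) (XT.lf (nat_lit 0) (nat_lit 1961751497) (nat_lit 532) (nat_lit 1346500058) (nat_lit 608) (nat_lit 10355093803) (nat_lit 252) (nat_lit 5) (nat_lit 259) (nat_lit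 5) (nat_lit 260) (nat_lit 5) (nat_lit 609) (nat_lit 544) (nat_lit 407)) (XT.lf (nat_lit 0) (nat_lit 6360341781) (nat_lit 608) (nat_lit 3346125558) (nat_lit 76) (nat_lit 4110995893) (nat_lit 252) (nat_lit 5) (nat_lit 260) (nat_lit 5) (nat_lit 253) (nat_lit 5) (nat_lit 610) (nat_lit 544) (nat_lit 406))))) (XT.nd (nat_lit 312) (nat_lit 1064) (nat_lit 0) (XT.nd (nat_lit 156) (nat_lit 1064) (nat_lit 0) (XT.nd (nat_lit 78) (nat_lit 0) (nat_lit 0) (XT.lf (nat_lit 0) (nat_lit 5216961700) (nat_lit 532) (nat_lit 4285204202) (nat_lit 608) (nat_lit 4471924334) (nat_lit 245) (nat_lit 5) (nat_lit 252) (nat_lit 5) (nat_lit 253) (nat_lit 5) (nat_lit 611) (nat_lit 544) (nat_lit 405)) (XT.lf (nat_lit 0) (nat_lit 12723534299) (nat_lit 608) (nat_lit 164078198) (nat_lit 76) (nat_lit 1245903726) (nat_lit 245) (nat_lit 5) (nat_lit 253) (nat_lit 5) (nat_lit 246) (nat_lit 5) (nat_lit 612) (nat_lit 544) (nat_lit 404))) (XT.nd (nat_lit 78) (nat_lit 456) (nat_lit 0) (XT.lf (nat_lit 0)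 (nat_lit 1762151805) (nat_lit 608) (nat_lit 5638918996) (nat_lit 76) (nat_lit 6893409616) (nat_lit 237) (nat_lit 5) (nat_lit 245) (nat_lit 5) (nat_lit 238) (nat_lit 5) (nat_lit 613) (nat_lit 544) (nat_lit 403)) (XT.lf (nat_lit 0) (nat_lit 3209118494) (nat_lit 456) (nat_lit 1778048044) (nat_lit 532) (nat_lit 9471145163) (nat_lit 231) (nat_lit 5) (nat_lit 237) (nat_lit 5) (nat_lit 238) (nat_lit 5) (nat_lit 614) (nat_lit 544) (nat_lit 402)))) (XT.nd (nat_lit 156) (nat_lit 532) (nat_lit 0) (XT.nd (nat_lit 78) (nat_lit 532) (nat_lit 0) (XT.lf (nat_lit 0) (nat_lit 8326935470) (nat_lit 532) (nat_lit 2358967955) (nat_lit 76) (nat_lit 3938511662) (nat_lit 231) (nat_lit 5) (nat_lit 238) (nat_lit 5) (nat_lit 232) (nat_lit 5) (nat_lit 615) (nat_lit 544) (nat_lit 401)) (XT.lf (nat_lit 0) (nat_lit 6767500477) (nat_lit 532) (nat_lit 5008447773) (nat_lit 608) (nat_lit 3017043868) (nat_lit 224) (nat_lit 5) (nat_lit 231) (nat_lit 5) (nat_lit 232) (nat_lit 5) (nat_lit 616) (nat_lit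 544) (nat_lit 400))) (XT.nd (nat_lit 78) (nat_lit 0) (nat_lit 0) (XT.lf (nat_lit 0) (nat_lit 340010482) (nat_lit 532) (nat_lit 13831974148) (nat_lit 76) (nat_lit 792607366) (nat_lit 217) (nat_lit 5) (nat_lit 224) (nat_lit 5) (nat_lit 218) (nat_lit 5) (nat_lit 617) (nat_lit 544) (nat_lit 399)) (XT.lf (nat_lit 0) (nat_lit 3798117254) (nat_lit 532) (nat_lit 4628077034) (nat_lit 76) (nat_lit 6711545051) (nat_lit 217) (nat_lit 5) (nat_lit 224) (nat_lit 5) (nat_lit 218) (nat_lit 5) (nat_lit 618) (nat_lit 544) (nat_lit 398))))))))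
noncomputable def xc123 : XT := (XT.nd (nat_lit 2262) (nat_lit 3116) (nat_lit 0) (XT.nd (nat_lit 1092) (nat_lit 3344) (nat_lit 0) (XT.nd (nat_lit 546) (nat_lit 1672) (nat_lit 0) (XT.nd (nat_lit 234) (nat_lit 1368) (nat_lit 0) (XT.nd (nat_lit 78) (nat_lit 456) (nat_lit 0) (XT.lf (nat_lit 0) (nat_lit 4804575756) (nat_lit 456) (nat_lit 2539153259) (nat_lit 532) (nat_lit 7970254260) (nat_lit 211) (nat_lit 5) (nat_lit 217) (nat_lit 5) (nat_lit 218) (nat_lit 5) (nat_lit 619) (nat_lit 544) (nat_lit 397)) (XT.nd (nat_lit 78) (nat_lit 456) (nat_lit 0) (XT.lf (nat_lit 0) (nat_lit 11001263086) (nat_lit 532) (nat_lit 1045655060) (nat_lit 76) (nat_lit 3446014236) (nat_lit 211) (nat_lit 5) (nat_lit 218) (nat_lit 5) (nat_lit 212) (nat_lit 5) (nat_lit 620) (nat_lit 544) (nat_lit 396)) (XT.lf (nat_lit 0) (nat_lit 8686408441) (nat_lit 456) (nat_lit 6106249383) (nat_lit 532) (nat_lit 881588931) (nat_lit 205) (nat_lit 5) (nat_lit 211) (nat_lit 5) (nat_lit 212) (nat_lit 5) (nat_lit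 621) (nat_lit 544) (nat_lit 395)))) (XT.nd (nat_lit 156) (nat_lit 836) (nat_lit 0) (XT.nd (nat_lit 78) (nat_lit 0) (nat_lit 0) (XT.lf (nat_lit 0) (nat_lit 2768195871) (nat_lit 456) (nat_lit 8344564) (nat_lit 532) (nat_lit 13082032186) (nat_lit 198) (nat_lit 5) (nat_lit 204) (nat_lit 5) (nat_lit 205) (nat_lit 5) (nat_lit 622) (nat_lit 544) (nat_lit 394)) (XT.lf (nat_lit 0) (nat_lit 6571204098) (nat_lit 532) (nat_lit 3296262999) (nat_lit 76) (nat_lit 6177498293) (nat_lit 198) (nat_lit 5) (nat_lit 205) (nat_lit 5) (nat_lit 199) (nat_lit 5) (nat_lit 623) (nat_lit 544) (nat_lit 393))) (XT.nd (nat_lit 78) (nat_lit 456) (nat_lit 0) (XT.lf (nat_lit 0) (nat_lit 6764542638) (nat_lit 380) (nat_lit 3709069278) (nat_lit 456) (nat_lit 5760837529) (nat_lit 193) (nat_lit 5) (nat_lit 198) (nat_lit 5) (nat_lit 199) (nat_lit 5) (nat_lit 624) (nat_lit 544) (nat_lit 392)) (XT.lf (nat_lit 0) (nat_lit 617273012) (nat_lit 456) (nat_lit 13867732194) (nat_lit 532) (nat_lit 1942099665)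 (nat_lit 187) (nat_lit 5) (nat_lit 193) (nat_lit 5) (nat_lit 194) (nat_lit 5) (nat_lit 625) (nat_lit 544) (nat_lit 391))))) (XT.nd (nat_lit 234) (nat_lit 1216) (nat_lit 0) (XT.nd (nat_lit 78) (nat_lit 380) (nat_lit 0) (XT.lf (nat_lit 0) (nat_lit 2003933185) (nat_lit 532) (nat_lit 5643424366) (nat_lit 76) (nat_lit 8974471985) (nat_lit 186) (nat_lit 5) (nat_lit 193) (nat_lit 5) (nat_lit 187) (nat_lit 5) (nat_lit 626) (nat_lit 544) (nat_lit 390)) (XT.nd (nat_lit 78) (nat_lit 0) (nat_lit 0) (XT.lf (nat_lit 0) (nat_lit 4758226298) (nat_lit 380) (nat_lit 1263810869) (nat_lit 456) (nat_lit 10797772090) (nat_lit 181) (nat_lit 5) (nat_lit 186) (nat_lit 5) (nat_lit 187) (nat_lit 5) (nat_lit 627) (nat_lit 544) (nat_lit 389)) (XT.lf (nat_lit 0) (nat_lit 10181010187) (nat_lit 456) (nat_lit 1628611167) (nat_lit 76) (nat_lit 5210917483) (nat_lit 181) (nat_lit 5) (nat_lit 187) (nat_lit 5) (nat_lit 182) (nat_lit 5) (nat_lit 628) (nat_lit 544) (nat_lit 388)))) (XT.nd (nat_lit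 156) (nat_lit 380) (nat_lit 0) (XT.nd (nat_lit 78) (nat_lit 456) (nat_lit 0) (XT.lf (nat_lit 0) (nat_lit 9106726377) (nat_lit 380) (nat_lit 5372478069) (nat_lit 456) (nat_lit 2744958124) (nat_lit 176) (nat_lit 5) (nat_lit 181) (nat_lit 5) (nat_lit 182) (nat_lit 5) (nat_lit 629) (nat_lit 544) (nat_lit 387)) (XT.lf (nat_lit 0) (nat_lit 1437510883) (nat_lit 456) (nat_lit 14784028917) (nat_lit 76) (nat_lit 1209637845) (nat_lit 170) (nat_lit 5) (nat_lit 176) (nat_lit 5) (nat_lit 171) (nat_lit 5) (nat_lit 630) (nat_lit 544) (nat_lit 386))) (XT.nd (nat_lit 78) (nat_lit 380) (nat_lit 0) (XT.lf (nat_lit 0) (nat_lit 5745976214) (nat_lit 456) (nat_lit 3975774390) (nat_lit 76) (nat_lit 7918637868) (nat_lit 170) (nat_lit 5) (nat_lit 176) (nat_lit 5) (nat_lit 171) (nat_lit 5) (nat_lit 631) (nat_lit 544) (nat_lit 385)) (XT.lf (nat_lit 0) (nat_lit 7124961408) (nat_lit 380) (nat_lit 3050787104) (nat_lit 456) (nat_lit 7677332616) (nat_lit 165) (nat_lit 5) (nat_lit 170) (nat_lit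 5) (nat_lit 171) (nat_lit 5) (nat_lit 632) (nat_lit 544) (nat_lit 384)))))) (XT.nd (nat_lit 546) (nat_lit 1748) (nat_lit 0) (XT.nd (nat_lit 234) (nat_lit 760) (nat_lit 0) (XT.nd (nat_lit 78) (nat_lit 456) (nat_lit 0) (XT.lf (nat_lit 0) (nat_lit 395552804) (nat_lit 380) (nat_lit 14341305023) (nat_lit 456) (nat_lit 3332315340) (nat_lit 160) (nat_lit 5) (nat_lit 165) (nat_lit 5) (nat_lit 166) (nat_lit 5) (nat_lit 633) (nat_lit 544) (nat_lit 383)) (XT.nd (nat_lit 78) (nat_lit 380) (nat_lit 0) (XT.lf (nat_lit 0) (nat_lit 1166832066) (nat_lit 456) (nat_lit 6446077579) (nat_lit 76) (nat_lit 10674901933) (nat_lit 159) (nat_lit 5) (nat_lit 165) (nat_lit 5) (nat_lit 160) (nat_lit 5) (nat_lit 634) (nat_lit 544) (nat_lit 382)) (XT.lf (nat_lit 0) (nat_lit 5033063528) (nat_lit 380) (nat_lit 700194263) (nat_lit 456) (nat_lit 12776686473) (nat_lit 154) (nat_lit 5) (nat_lit 159) (nat_lit 5) (nat_lit 160) (nat_lit 5) (nat_lit 635) (nat_lit 544) (nat_lit 381)))) (XT.nd (nat_lit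 156) (nat_lit 456) (nat_lit 0) (XT.nd (nat_lit 78) (nat_lit 304) (nat_lit 0) (XT.lf (nat_lit 0) (nat_lit 10465047306) (nat_lit 456) (nat_lit 1964966142) (nat_lit 76) (nat_lit 6305025781) (nat_lit 154) (nat_lit 5) (nat_lit 160) (nat_lit 5) (nat_lit 155) (nat_lit 5) (nat_lit 636) (nat_lit 544) (nat_lit 380)) (XT.lf (nat_lit 0) (nat_lit 9885575805) (nat_lit 304) (nat_lit 5464186968) (nat_lit 380) (nat_lit 3613707843) (nat_lit 150) (nat_lit 5) (nat_lit 154) (nat_lit 5) (nat_lit 155) (nat_lit 5) (nat_lit 637) (nat_lit 544) (nat_lit 379))) (XT.nd (nat_lit 78) (nat_lit 0) (nat_lit 0) (XT.lf (nat_lit 0) (nat_lit 1152737363) (nat_lit 456) (nat_lit 16390396268) (nat_lit 76) (nat_lit 1652551231) (nat_lit 144) (nat_lit 5) (nat_lit 150) (nat_lit 5) (nat_lit 145) (nat_lit 5) (nat_lit 638) (nat_lit 544) (nat_lit 378)) (XT.lf (nat_lit 0) (nat_lit 6053234540) (nat_lit 456) (nat_lit 4459372426) (nat_lit 76) (nat_lit 8917716788) (nat_lit 144) (nat_lit 5) (nat_lit 150) (nat_lit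 5) (nat_lit 145) (nat_lit 5) (nat_lit 639) (nat_lit 544) (nat_lit 377))))) (XT.nd (nat_lit 312) (nat_lit 684) (nat_lit 0) (XT.nd (nat_lit 156) (nat_lit 380) (nat_lit 0) (XT.nd (nat_lit 78) (nat_lit 380) (nat_lit 0) (XT.lf (nat_lit 0) (nat_lit 7796132941) (nat_lit 304) (nat_lit 3295988970) (nat_lit 380) (nat_lit 8576726208) (nat_lit 140) (nat_lit 5) (nat_lit 144) (nat_lit 5) (nat_lit 145) (nat_lit 5) (nat_lit 640) (nat_lit 544) (nat_lit 376)) (XT.lf (nat_lit 0) (nat_lit 407969769) (nat_lit 380) (nat_lit 15872799193) (nat_lit 456) (nat_lit 3630394666) (nat_lit 135) (nat_lit 5) (nat_lit 140) (nat_lit 5) (nat_lit 141) (nat_lit 5) (nat_lit 641) (nat_lit 544) (nat_lit 375))) (XT.nd (nat_lit 78) (nat_lit 304) (nat_lit 0) (XT.lf (nat_lit 0) (nat_lit 1488179143) (nat_lit 456) (nat_lit 7109536619) (nat_lit 76) (nat_lit 11558588807) (nat_lit 134) (nat_lit 5) (nat_lit 140) (nat_lit 5) (nat_lit 135) (nat_lit 5) (nat_lit 642) (nat_lit 544) (nat_lit 374)) (XT.lf (nat_lit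 0) (nat_lit 5564788337) (nat_lit 304) (nat_lit 1121944263) (nat_lit 380) (nat_lit 13718611687) (nat_lit 130) (nat_lit 5) (nat_lit 134) (nat_lit 5) (nat_lit 135) (nat_lit 5) (nat_lit 643) (nat_lit 544) (nat_lit 373)))) (XT.nd (nat_lit 156) (nat_lit 380) (nat_lit 0) (XT.nd (nat_lit 78) (nat_lit 304) (nat_lit 0) (XT.lf (nat_lit 0) (nat_lit 12069600238) (nat_lit 380) (nat_lit 2128176704) (nat_lit 76) (nat_lit 6459981265) (nat_lit 130) (nat_lit 5) (nat_lit 135) (nat_lit 5) (nat_lit 131) (nat_lit 5) (nat_lit 644) (nat_lit 544) (nat_lit 372)) (XT.lf (nat_lit 0) (nat_lit 10958867602) (nat_lit 304) (nat_lit 6670128599) (nat_lit 380) (nat_lit 3284847054) (nat_lit 126) (nat_lit 5) (nat_lit 130) (nat_lit 5) (nat_lit 131) (nat_lit 5) (nat_lit 645) (nat_lit 544) (nat_lit 371))) (XT.nd (nat_lit 78) (nat_lit 0) (nat_lit 0) (XT.lf (nat_lit 0) (nat_lit 2128787507) (nat_lit 380) (nat_lit 18007530853) (nat_lit 76) (nat_lit 1037813602) (nat_lit 121) (nat_lit 5) (nat_lit 126) (nat_lit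 5) (nat_lit 122) (nat_lit 5) (nat_lit 646) (nat_lit 544) (nat_lit 370)) (XT.lf (nat_lit 0) (nat_lit 7708530097) (nat_lit 380) (nat_lit 4835059889) (nat_lit 76) (nat_lit 8893566062) (nat_lit 121) (nat_lit 5) (nat_lit 126) (nat_lit 5) (nat_lit 122) (nat_lit 5) (nat_lit 647) (nat_lit 544) (nat_lit 369))))))) (XT.nd (nat_lit 1170) (nat_lit 228) (nat_lit 0) (XT.nd (nat_lit 546) (nat_lit 1368) (nat_lit 0) (XT.nd (nat_lit 234) (nat_lit 912) (nat_lit 0) (XT.nd (nat_lit 78) (nat_lit 304) (nat_lit 0) (XT.lf (nat_lit 0) (nat_lit 8699314514) (nat_lit 304) (nat_lit 4747583526) (nat_lit 380) (nat_lit 8257602214) (nat_lit 117) (nat_lit 5) (nat_lit 121) (nat_lit 5) (nat_lit 122) (nat_lit 5) (nat_lit 648) (nat_lit 544) (nat_lit 368)) (XT.nd (nat_lit 78) (nat_lit 76) (nat_lit 0) (XT.lf (nat_lit 0) (nat_lit 564069073) (nat_lit 228) (nat_lit 18783685143) (nat_lit 304) (nat_lit 2628482953) (nat_lit 114) (nat_lit 5) (nat_lit 117) (nat_lit 5) (nat_lit 118) (nat_lit 5) (nat_lit 649)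 (nat_lit 544) (nat_lit 367)) (XT.lf (nat_lit 0) (nat_lit 3182293302) (nat_lit 304) (nat_lit 7738603143) (nat_lit 76) (nat_lit 11329910247) (nat_lit 113) (nat_lit 5) (nat_lit 117) (nat_lit 5) (nat_lit 114) (nat_lit 5) (nat_lit 650) (nat_lit 544) (nat_lit 366)))) (XT.nd (nat_lit 156) (nat_lit 608) (nat_lit 0) (XT.nd (nat_lit 78) (nat_lit 0) (nat_lit 0) (XT.lf (nat_lit 0) (nat_lit 6257699273) (nat_lit 304) (nat_lit 2847850967) (nat_lit 380) (nat_lit 13424340895) (nat_lit 109) (nat_lit 5) (nat_lit 113) (nat_lit 5) (nat_lit 114) (nat_lit 5) (nat_lit 651) (nat_lit 544) (nat_lit 365)) (XT.lf (nat_lit 0) (nat_lit 15225359588) (nat_lit 380) (nat_lit 2225448523) (nat_lit 76) (nat_lit 5362187635) (nat_lit 109) (nat_lit 5) (nat_lit 114) (nat_lit 5) (nat_lit 110) (nat_lit 5) (nat_lit 652) (nat_lit 544) (nat_lit 364))) (XT.nd (nat_lit 78) (nat_lit 380) (nat_lit 0) (XT.lf (nat_lit 0) (nat_lit 12228614187) (nat_lit 228) (nat_lit 9328226289) (nat_lit 304) (nat_lit 1543136686)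 (nat_lit 106) (nat_lit 5) (nat_lit 109) (nat_lit 5) (nat_lit 110) (nat_lit 5) (nat_lit 653) (nat_lit 544) (nat_lit 363)) (XT.lf (nat_lit 0) (nat_lit 3611626917) (nat_lit 304) (nat_lit 979524531) (nat_lit 380) (nat_lit 18800356347) (nat_lit 101) (nat_lit 5) (nat_lit 105) (nat_lit 5) (nat_lit 106) (nat_lit 5) (nat_lit 654) (nat_lit 544) (nat_lit 362))))) (XT.nd (nat_lit 312) (nat_lit 760) (nat_lit 0) (XT.nd (nat_lit 156) (nat_lit 380) (nat_lit 0) (XT.nd (nat_lit 78) (nat_lit 228) (nat_lit 0) (XT.lf (nat_lit 0) (nat_lit 10940923777) (nat_lit 380) (nat_lit 5230595314) (nat_lit 76) (nat_lit 7514876932) (nat_lit 101) (nat_lit 5) (nat_lit 106) (nat_lit 5) (nat_lit 102) (nat_lit 5) (nat_lit 655) (nat_lit 544) (nat_lit 361)) (XT.lf (nat_lit 0) (nat_lit 9715716483) (nat_lit 228) (nat_lit 7762794164) (nat_lit 304) (nat_lit 6507455190) (nat_lit 98) (nat_lit 5) (nat_lit 101) (nat_lit 5) (nat_lit 102) (nat_lit 5) (nat_lit 656) (nat_lit 544) (nat_lit 360))) (XT.nd (nat_lit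 78) (nat_lit 76) (nat_lit 0) (XT.lf (nat_lit 0) (nat_lit 730157727) (nat_lit 304) (nat_lit 23453337405) (nat_lit 380) (nat_lit 107299195) (nat_lit 94) (nat_lit 5) (nat_lit 98) (nat_lit 5) (nat_lit 99) (nat_lit 5) (nat_lit 657) (nat_lit 544) (nat_lit 359)) (XT.lf (nat_lit 0) (nat_lit 6475757616) (nat_lit 380) (nat_lit 8484475472) (nat_lit 76) (nat_lit 9637870551) (nat_lit 93) (nat_lit 5) (nat_lit 98) (nat_lit 5) (nat_lit 94) (nat_lit 5) (nat_lit 658) (nat_lit 544) (nat_lit 358)))) (XT.nd (nat_lit 156) (nat_lit 532) (nat_lit 0) (XT.nd (nat_lit 78) (nat_lit 0) (nat_lit 0) (XT.lf (nat_lit 0) (nat_lit 6969244967) (nat_lit 228) (nat_lit 6256518805) (nat_lit 304) (nat_lit 11685046869) (nat_lit 90) (nat_lit 5) (nat_lit 93) (nat_lit 5) (nat_lit 94) (nat_lit 5) (nat_lit 659) (nat_lit 544) (nat_lit 357)) (XT.lf (nat_lit 0) (nat_lit 20176609048) (nat_lit 304) (nat_lit 2413669426) (nat_lit 76) (nat_lit 2638176712) (nat_lit 90) (nat_lit 5) (nat_lit 94) (nat_lit 5) (nat_lit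 91) (nat_lit 5) (nat_lit 660) (nat_lit 544) (nat_lit 356))) (XT.nd (nat_lit 78) (nat_lit 228) (nat_lit 0) (XT.lf (nat_lit 0) (nat_lit 1813402151) (nat_lit 304) (nat_lit 12015346057) (nat_lit 76) (nat_lit 11721044756) (nat_lit 86) (nat_lit 5) (nat_lit 90) (nat_lit 5) (nat_lit 87) (nat_lit 5) (nat_lit 661) (nat_lit 544) (nat_lit 355)) (XT.lf (nat_lit 0) (nat_lit 3960978456) (nat_lit 228) (nat_lit 4821107178) (nat_lit 304) (nat_lit 17094128693) (nat_lit 83) (nat_lit 5) (nat_lit 86) (nat_lit 5) (nat_lit 87) (nat_lit 5) (nat_lit 662) (nat_lit 544) (nat_lit 354)))))) (XT.nd (nat_lit 72384) (nat_lit 0) (nat_lit 38608) (XT.nd (nat_lit 72072) (nat_lit 0) (nat_lit 39900) (XT.nd (nat_lit 78) (nat_lit 228) (nat_lit 0) (XT.lf (nat_lit 0) (nat_lit 15991377605) (nat_lit 304) (nat_lit 5831184152) (nat_lit 76) (nat_lit 4384577832) (nat_lit 83) (nat_lit 5) (nat_lit 87) (nat_lit 5) (nat_lit 84) (nat_lit 5) (nat_lit 663) (nat_lit 544) (nat_lit 353)) (XT.nd (nat_lit 71916) (nat_lit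 0) (nat_lit 41192) (XT.lf (nat_lit 0) (nat_lit 10668373807) (nat_lit 228) (nat_lit 12769558106) (nat_lit 304) (nat_lit 3104890081) (nat_lit 80) (nat_lit 5) (nat_lit 83) (nat_lit 5) (nat_lit 84) (nat_lit 5) (nat_lit 664) (nat_lit 544) (nat_lit 352)) (XT.lf (nat_lit 0) (nat_lit 701927558) (nat_lit 0) (nat_lit 701927558) (nat_lit 1292) (nat_lit 2411774650) (nat_lit 622) (nat_lit 5) (nat_lit 622) (nat_lit 3) (nat_lit 639) (nat_lit 3) (nat_lit 545) (nat_lit 545) (nat_lit 470)))) (XT.nd (nat_lit 156) (nat_lit 1292) (nat_lit 0) (XT.nd (nat_lit 78) (nat_lit 0) (nat_lit 0) (XT.lf (nat_lit 0) (nat_lit 4229197203) (nat_lit 1292) (nat_lit 2436201653) (nat_lit 1368) (nat_lit 1014201829) (nat_lit 622) (nat_lit 5) (nat_lit 639) (nat_lit 3) (nat_lit 640) (nat_lit 5) (nat_lit 546) (nat_lit 545) (nat_lit 469)) (XT.lf (nat_lit 76) (nat_lit 1421130903) (nat_lit 0) (nat_lit 4240250446) (nat_lit 1368) (nat_lit 2067884669) (nat_lit 623) (nat_lit 5) (nat_lit 622) (nat_lit 5) (nat_lit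 640) (nat_lit 5) (nat_lit 547) (nat_lit 545) (nat_lit 468))) (XT.nd (nat_lit 78) (nat_lit 1292) (nat_lit 0) (XT.lf (nat_lit 76) (nat_lit 5369723104) (nat_lit 0) (nat_lit 1733165866) (nat_lit 1368) (nat_lit 677424748) (nat_lit 623) (nat_lit 5) (nat_lit 622) (nat_lit 5) (nat_lit 640) (nat_lit 5) (nat_lit 548) (nat_lit 545) (nat_lit 467)) (XT.lf (nat_lit 0) (nat_lit 711618085) (nat_lit 1368) (nat_lit 6276779521) (nat_lit 1444) (nat_lit 844281316) (nat_lit 605) (nat_lit 5) (nat_lit 623) (nat_lit 5) (nat_lit 624) (nat_lit 5) (nat_lit 549) (nat_lit 545) (nat_lit 466))))) (XT.nd (nat_lit 312) (nat_lit 1292) (nat_lit 0) (XT.nd (nat_lit 156) (nat_lit 0) (nat_lit 76) (XT.nd (nat_lit 78) (nat_lit 0) (nat_lit 0) (XT.lf (nat_lit 0) (nat_lit 2112607648) (nat_lit 1368) (nat_lit 2287126164) (nat_lit 1444) (nat_lit 3486405832) (nat_lit 605) (nat_lit 5) (nat_lit 623) (nat_lit 5) (nat_lit 624) (nat_lit 5) (nat_lit 550) (nat_lit 545) (nat_lit 465)) (XT.lf (nat_lit 76) (nat_lit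 1786453481) (nat_lit 0) (nat_lit 1732906218) (nat_lit 1444) (nat_lit 4421757482) (nat_lit 606) (nat_lit 5) (nat_lit 605) (nat_lit 5) (nat_lit 624) (nat_lit 5) (nat_lit 551) (nat_lit 545) (nat_lit 464))) (XT.nd (nat_lit 78) (nat_lit 0) (nat_lit 0) (XT.lf (nat_lit 0) (nat_lit 4942881280) (nat_lit 1368) (nat_lit 2050821649) (nat_lit 1444) (nat_lit 1003721053) (nat_lit 606) (nat_lit 5) (nat_lit 624) (nat_lit 5) (nat_lit 625) (nat_lit 5) (nat_lit 552) (nat_lit 545) (nat_lit 463)) (XT.lf (nat_lit 76) (nat_lit 2132043887) (nat_lit 0) (nat_lit 4255574811) (nat_lit 1444) (nat_lit 1667385673) (nat_lit 607) (nat_lit 5) (nat_lit 606) (nat_lit 5) (nat_lit 625) (nat_lit 5) (nat_lit 553) (nat_lit 545) (nat_lit 462)))) (XT.nd (nat_lit 156) (nat_lit 0) (nat_lit 0) (XT.nd (nat_lit 78) (nat_lit 1368) (nat_lit 0) (XT.lf (nat_lit 76) (nat_lit 6406955417) (nat_lit 0) (nat_lit 1435996770) (nat_lit 1444) (nat_lit 271152465) (nat_lit 607) (nat_lit 5) (nat_lit 606) (nat_lit 5) (nat_lit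 625) (nat_lit 5) (nat_lit 554) (nat_lit 545) (nat_lit 461)) (XT.lf (nat_lit 0) (nat_lit 1132712626) (nat_lit 1444) (nat_lit 5583983833) (nat_lit 1520) (nat_lit 1457646396) (nat_lit 588) (nat_lit 5) (nat_lit 607) (nat_lit 5) (nat_lit 608) (nat_lit 5) (nat_lit 555) (nat_lit 545) (nat_lit 460))) (XT.nd (nat_lit 78) (nat_lit 0) (nat_lit 0) (XT.lf (nat_lit 0) (nat_lit 2550998540) (nat_lit 1444) (nat_lit 1270006681) (nat_lit 1520) (nat_lit 4414947449) (nat_lit 588) (nat_lit 5) (nat_lit 607) (nat_lit 5) (nat_lit 608) (nat_lit 5) (nat_lit 556) (nat_lit 545) (nat_lit 459)) (XT.lf (nat_lit 76) (nat_lit 3151954356) (nat_lit 0) (nat_lit 835698833) (nat_lit 1520) (nat_lit 4311343568) (nat_lit 589) (nat_lit 5) (nat_lit 588) (nat_lit 5) (nat_lit 608) (nat_lit 5) (nat_lit 557) (nat_lit 545) (nat_lit 458))))))))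
noncomputable def xc124 : XT := (XT.nd (nat_lit 2262) (nat_lit 11932) (nat_lit 0) (XT.nd (nat_lit 1092) (nat_lit 9196) (nat_lit 0) (XT.nd (nat_lit 546) (nat_lit 4636) (nat_lit 0) (XT.nd (nat_lit 234) (nat_lit 1444) (nat_lit 0) (XT.nd (nat_lit 78) (nat_lit 0) (nat_lit 0) (XT.lf (nat_lit 0) (nat_lit 5446041283) (nat_lit 1444) (nat_lit 718137084) (nat_lit 1520) (nat_lit 2199265444) (nat_lit 589) (nat_lit 5) (nat_lit 608) (nat_lit 5) (nat_lit 609) (nat_lit 5) (nat_lit 558) (nat_lit 545) (nat_lit 457)) (XT.nd (nat_lit 78) (nat_lit 0) (nat_lit 76) (XT.lf (nat_lit 76) (nat_lit 3824187475) (nat_lit 0) (nat_lit 3110437144) (nat_lit 1520) (nat_lit 1494536690) (nat_lit 590) (nat_lit 5) (nat_lit 589) (nat_lit 5) (nat_lit 609) (nat_lit 5) (nat_lit 559) (nat_lit 545) (nat_lit 456)) (XT.lf (nat_lit 0) (nat_lit 8429030566) (nat_lit 1444) (nat_lit 49353040) (nat_lit 1520) (nat_lit 18290545) (nat_lit 590) (nat_lit 5) (nat_lit 609) (nat_lit 5) (nat_lit 610) (nat_lit 5) (nat_lit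 560) (nat_lit 545) (nat_lit 455)))) (XT.nd (nat_lit 156) (nat_lit 0) (nat_lit 76) (XT.nd (nat_lit 78) (nat_lit 0) (nat_lit 0) (XT.lf (nat_lit 0) (nat_lit 1392047380) (nat_lit 1520) (nat_lit 3956802366) (nat_lit 1596) (nat_lit 3216060008) (nat_lit 570) (nat_lit 5) (nat_lit 590) (nat_lit 5) (nat_lit 591) (nat_lit 5) (nat_lit 561) (nat_lit 545) (nat_lit 454)) (XT.lf (nat_lit 76) (nat_lit 713657547) (nat_lit 0) (nat_lit 2143313040) (nat_lit 1596) (nat_lit 5777993552) (nat_lit 571) (nat_lit 5) (nat_lit 570) (nat_lit 5) (nat_lit 591) (nat_lit 5) (nat_lit 562) (nat_lit 545) (nat_lit 453))) (XT.nd (nat_lit 78) (nat_lit 0) (nat_lit 0) (XT.lf (nat_lit 0) (nat_lit 4357678615) (nat_lit 1520) (nat_lit 3202820605) (nat_lit 1596) (nat_lit 1145792523) (nat_lit 571) (nat_lit 5) (nat_lit 591) (nat_lit 5) (nat_lit 592) (nat_lit 5) (nat_lit 563) (nat_lit 545) (nat_lit 452)) (XT.lf (nat_lit 76) (nat_lit 1596578983) (nat_lit 0) (nat_lit 4289367660) (nat_lit 1596) (nat_lit 2893150163)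 (nat_lit 572) (nat_lit 5) (nat_lit 571) (nat_lit 5) (nat_lit 592) (nat_lit 5) (nat_lit 564) (nat_lit 545) (nat_lit 451))))) (XT.nd (nat_lit 234) (nat_lit 3192) (nat_lit 0) (XT.nd (nat_lit 78) (nat_lit 1520) (nat_lit 0) (XT.lf (nat_lit 76) (nat_lit 6515313130) (nat_lit 0) (nat_lit 924344571) (nat_lit 1596) (nat_lit 1413804501) (nat_lit 572) (nat_lit 5) (nat_lit 571) (nat_lit 5) (nat_lit 592) (nat_lit 5) (nat_lit 565) (nat_lit 545) (nat_lit 450)) (XT.nd (nat_lit 78) (nat_lit 0) (nat_lit 0) (XT.lf (nat_lit 0) (nat_lit 101043328) (nat_lit 1596) (nat_lit 6329147231) (nat_lit 1672) (nat_lit 2498970455) (nat_lit 551) (nat_lit 5) (nat_lit 572) (nat_lit 5) (nat_lit 573) (nat_lit 5) (nat_lit 566) (nat_lit 545) (nat_lit 449)) (XT.lf (nat_lit 0) (nat_lit 1623347727) (nat_lit 1596) (nat_lit 1373466468) (nat_lit 1672) (nat_lit 6009452578) (nat_lit 551) (nat_lit 5) (nat_lit 572) (nat_lit 5) (nat_lit 573) (nat_lit 5) (nat_lit 567) (nat_lit 545) (nat_lit 448)))) (XT.nd (nat_lit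 156) (nat_lit 3268) (nat_lit 0) (XT.nd (nat_lit 78) (nat_lit 0) (nat_lit 0) (XT.lf (nat_lit 0) (nat_lit 3178323552) (nat_lit 1596) (nat_lit 5378482271) (nat_lit 76) (nat_lit 528065967) (nat_lit 552) (nat_lit 5) (nat_lit 573) (nat_lit 5) (nat_lit 553) (nat_lit 5) (nat_lit 568) (nat_lit 545) (nat_lit 447)) (XT.lf (nat_lit 0) (nat_lit 4768587180) (nat_lit 1596) (nat_lit 298764825) (nat_lit 76) (nat_lit 4097614754) (nat_lit 552) (nat_lit 5) (nat_lit 573) (nat_lit 5) (nat_lit 553) (nat_lit 5) (nat_lit 569) (nat_lit 545) (nat_lit 446))) (XT.nd (nat_lit 78) (nat_lit 1672) (nat_lit 0) (XT.lf (nat_lit 0) (nat_lit 4927114918) (nat_lit 1596) (nat_lit 1471084315) (nat_lit 1672) (nat_lit 2848315120) (nat_lit 531) (nat_lit 5) (nat_lit 552) (nat_lit 5) (nat_lit 553) (nat_lit 5) (nat_lit 570) (nat_lit 545) (nat_lit 445)) (XT.lf (nat_lit 0) (nat_lit 909123506) (nat_lit 1672) (nat_lit 7149396077) (nat_lit 1748) (nat_lit 1271212549) (nat_lit 509) (nat_lit 5) (nat_lit 531) (nat_lit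 5) (nat_lit 532) (nat_lit 5) (nat_lit 571) (nat_lit 545) (nat_lit 444)))))) (XT.nd (nat_lit 546) (nat_lit 3496) (nat_lit 0) (XT.nd (nat_lit 234) (nat_lit 3876) (nat_lit 0) (XT.nd (nat_lit 78) (nat_lit 1748) (nat_lit 0) (XT.lf (nat_lit 0) (nat_lit 348037985) (nat_lit 1748) (nat_lit 3146007410) (nat_lit 76) (nat_lit 5920225922) (nat_lit 508) (nat_lit 5) (nat_lit 531) (nat_lit 5) (nat_lit 509) (nat_lit 5) (nat_lit 572) (nat_lit 545) (nat_lit 443)) (XT.nd (nat_lit 78) (nat_lit 0) (nat_lit 0) (XT.lf (nat_lit 0) (nat_lit 1975452234) (nat_lit 1824) (nat_lit 7267441732) (nat_lit 76) (nat_lit 257584728) (nat_lit 485) (nat_lit 5) (nat_lit 509) (nat_lit 5) (nat_lit 486) (nat_lit 5) (nat_lit 573) (nat_lit 545) (nat_lit 442)) (XT.lf (nat_lit 0) (nat_lit 3656733845) (nat_lit 1824) (nat_lit 1869520908) (nat_lit 76) (nat_lit 4061730519) (nat_lit 485) (nat_lit 5) (nat_lit 509) (nat_lit 5) (nat_lit 486) (nat_lit 5) (nat_lit 574) (nat_lit 545) (nat_lit 441)))) (XT.nd (nat_lit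 156) (nat_lit 2052) (nat_lit 0) (XT.nd (nat_lit 78) (nat_lit 0) (nat_lit 0) (XT.lf (nat_lit 0) (nat_lit 3664257974) (nat_lit 1824) (nat_lit 1708554817) (nat_lit 1900) (nat_lit 4304407167) (nat_lit 461) (nat_lit 5) (nat_lit 485) (nat_lit 5) (nat_lit 486) (nat_lit 5) (nat_lit 575) (nat_lit 545) (nat_lit 440)) (XT.lf (nat_lit 0) (nat_lit 7127740787) (nat_lit 1900) (nat_lit 468694382) (nat_lit 76) (nat_lit 2171714999) (nat_lit 461) (nat_lit 5) (nat_lit 486) (nat_lit 5) (nat_lit 462) (nat_lit 5) (nat_lit 576) (nat_lit 545) (nat_lit 439))) (XT.nd (nat_lit 78) (nat_lit 988) (nat_lit 0) (XT.lf (nat_lit 0) (nat_lit 5223565918) (nat_lit 1064) (nat_lit 3717577498) (nat_lit 1140) (nat_lit 919289400) (nat_lit 447) (nat_lit 5) (nat_lit 461) (nat_lit 5) (nat_lit 462) (nat_lit 5) (nat_lit 577) (nat_lit 545) (nat_lit 438)) (XT.lf (nat_lit 0) (nat_lit 815362032) (nat_lit 988) (nat_lit 8886484398) (nat_lit 76) (nat_lit 252805866) (nat_lit 434) (nat_lit 5) (nat_lit 447) (nat_lit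 5) (nat_lit 435) (nat_lit 5) (nat_lit 578) (nat_lit 545) (nat_lit 437))))) (XT.nd (nat_lit 312) (nat_lit 1748) (nat_lit 0) (XT.nd (nat_lit 156) (nat_lit 836) (nat_lit 0) (XT.nd (nat_lit 78) (nat_lit 912) (nat_lit 0) (XT.lf (nat_lit 0) (nat_lit 2606954795) (nat_lit 988) (nat_lit 3151438127) (nat_lit 76) (nat_lit 4291551835) (nat_lit 434) (nat_lit 5) (nat_lit 447) (nat_lit 5) (nat_lit 435) (nat_lit 5) (nat_lit 579) (nat_lit 545) (nat_lit 436)) (XT.lf (nat_lit 0) (nat_lit 2713755530) (nat_lit 912) (nat_lit 1717267385) (nat_lit 988) (nat_lit 5716188536) (nat_lit 422) (nat_lit 5) (nat_lit 434) (nat_lit 5) (nat_lit 435) (nat_lit 5) (nat_lit 580) (nat_lit 545) (nat_lit 435))) (XT.nd (nat_lit 78) (nat_lit 836) (nat_lit 0) (XT.lf (nat_lit 0) (nat_lit 6307782829) (nat_lit 988) (nat_lit 1543213668) (nat_lit 76) (nat_lit 2395103999) (nat_lit 422) (nat_lit 5) (nat_lit 435) (nat_lit 5) (nat_lit 423) (nat_lit 5) (nat_lit 581) (nat_lit 545) (nat_lit 434)) (XT.lf (nat_lit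 0) (nat_lit 4492347423) (nat_lit 836) (nat_lit 3749985929) (nat_lit 912) (nat_lit 2104230064) (nat_lit 411) (nat_lit 5) (nat_lit 422) (nat_lit 5) (nat_lit 423) (nat_lit 5) (nat_lit 582) (nat_lit 545) (nat_lit 433)))) (XT.nd (nat_lit 156) (nat_lit 836) (nat_lit 0) (XT.nd (nat_lit 78) (nat_lit 76) (nat_lit 0) (XT.lf (nat_lit 0) (nat_lit 200152980) (nat_lit 836) (nat_lit 10009942173) (nat_lit 912) (nat_lit 239051214) (nat_lit 400) (nat_lit 5) (nat_lit 411) (nat_lit 5) (nat_lit 412) (nat_lit 5) (nat_lit 583) (nat_lit 545) (nat_lit 432)) (XT.lf (nat_lit 0) (nat_lit 1686108713) (nat_lit 912) (nat_lit 4154358745) (nat_lit 76) (nat_lit 4712208778) (nat_lit 399) (nat_lit 5) (nat_lit 411) (nat_lit 5) (nat_lit 400) (nat_lit 5) (nat_lit 584) (nat_lit 545) (nat_lit 431))) (XT.nd (nat_lit 78) (nat_lit 0) (nat_lit 0) (XT.lf (nat_lit 0) (nat_lit 2067670369) (nat_lit 836) (nat_lit 1572832489) (nat_lit 912) (nat_lit 7017864713) (nat_lit 388) (nat_lit 5) (nat_lit 399) (nat_lit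 5) (nat_lit 400) (nat_lit 5) (nat_lit 585) (nat_lit 545) (nat_lit 430)) (XT.lf (nat_lit 0) (nat_lit 5660851074) (nat_lit 912) (nat_lit 2333679758) (nat_lit 76) (nat_lit 2771105667) (nat_lit 388) (nat_lit 5) (nat_lit 400) (nat_lit 5) (nat_lit 389) (nat_lit 5) (nat_lit 586) (nat_lit 545) (nat_lit 429))))))) (XT.nd (nat_lit 1092) (nat_lit 5244) (nat_lit 0) (XT.nd (nat_lit 546) (nat_lit 3572) (nat_lit 0) (XT.nd (nat_lit 234) (nat_lit 1444) (nat_lit 0) (XT.nd (nat_lit 78) (nat_lit 836) (nat_lit 0) (XT.lf (nat_lit 0) (nat_lit 4071576242) (nat_lit 836) (nat_lit 3668011906) (nat_lit 912) (nat_lit 3135104087) (nat_lit 377) (nat_lit 5) (nat_lit 388) (nat_lit 5) (nat_lit 389) (nat_lit 5) (nat_lit 587) (nat_lit 545) (nat_lit 428)) (XT.nd (nat_lit 78) (nat_lit 836) (nat_lit 0) (XT.lf (nat_lit 0) (nat_lit 9861866001) (nat_lit 912) (nat_lit 374106468) (nat_lit 76) (nat_lit 749918342) (nat_lit 377) (nat_lit 5) (nat_lit 389) (nat_lit 5) (nat_lit 378) (nat_lit 5) (nat_lit 588)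 (nat_lit 545) (nat_lit 427)) (XT.lf (nat_lit 0) (nat_lit 961833933) (nat_lit 836) (nat_lit 4883658022) (nat_lit 76) (nat_lit 5252767616) (nat_lit 366) (nat_lit 5) (nat_lit 377) (nat_lit 5) (nat_lit 367) (nat_lit 5) (nat_lit 589) (nat_lit 545) (nat_lit 426)))) (XT.nd (nat_lit 156) (nat_lit 684) (nat_lit 0) (XT.nd (nat_lit 78) (nat_lit 0) (nat_lit 0) (XT.lf (nat_lit 0) (nat_lit 1722622730) (nat_lit 760) (nat_lit 1347302755) (nat_lit 836) (nat_lit 8142891284) (nat_lit 356) (nat_lit 5) (nat_lit 366) (nat_lit 5) (nat_lit 367) (nat_lit 5) (nat_lit 590) (nat_lit 545) (nat_lit 425)) (XT.lf (nat_lit 0) (nat_lit 5256266905) (nat_lit 836) (nat_lit 2843096242) (nat_lit 76) (nat_lit 3229581171) (nat_lit 356) (nat_lit 5) (nat_lit 367) (nat_lit 5) (nat_lit 357) (nat_lit 5) (nat_lit 591) (nat_lit 545) (nat_lit 424))) (XT.nd (nat_lit 78) (nat_lit 0) (nat_lit 0) (XT.lf (nat_lit 0) (nat_lit 3960298100) (nat_lit 684) (nat_lit 3543081624) (nat_lit 760) (nat_lit 3943674750) (nat_lit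 347) (nat_lit 5) (nat_lit 356) (nat_lit 5) (nat_lit 357) (nat_lit 5) (nat_lit 592) (nat_lit 545) (nat_lit 423)) (XT.lf (nat_lit 0) (nat_lit 9804423055) (nat_lit 760) (nat_lit 656010266) (nat_lit 76) (nat_lit 1106914677) (nat_lit 347) (nat_lit 5) (nat_lit 357) (nat_lit 5) (nat_lit 348) (nat_lit 5) (nat_lit 593) (nat_lit 545) (nat_lit 422))))) (XT.nd (nat_lit 234) (nat_lit 2052) (nat_lit 0) (XT.nd (nat_lit 78) (nat_lit 684) (nat_lit 0) (XT.lf (nat_lit 0) (nat_lit 503360489) (nat_lit 836) (nat_lit 5340694561) (nat_lit 76) (nat_lit 5844973866) (nat_lit 336) (nat_lit 5) (nat_lit 347) (nat_lit 5) (nat_lit 337) (nat_lit 5) (nat_lit 594) (nat_lit 545) (nat_lit 421)) (XT.nd (nat_lit 78) (nat_lit 0) (nat_lit 0) (XT.lf (nat_lit 0) (nat_lit 1679347335) (nat_lit 684) (nat_lit 1110425909) (nat_lit 760) (nat_lit 9023169882) (nat_lit 327) (nat_lit 5) (nat_lit 336) (nat_lit 5) (nat_lit 337) (nat_lit 5) (nat_lit 595) (nat_lit 545) (nat_lit 420)) (XT.lf (nat_lit 0) (nat_lit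 5165368259) (nat_lit 760) (nat_lit 3070576201) (nat_lit 76) (nat_lit 3702522939) (nat_lit 327) (nat_lit 5) (nat_lit 337) (nat_lit 5) (nat_lit 328) (nat_lit 5) (nat_lit 596) (nat_lit 545) (nat_lit 419)))) (XT.nd (nat_lit 156) (nat_lit 1368) (nat_lit 0) (XT.nd (nat_lit 78) (nat_lit 0) (nat_lit 0) (XT.lf (nat_lit 0) (nat_lit 4161551333) (nat_lit 684) (nat_lit 3444864727) (nat_lit 760) (nat_lit 4459728122) (nat_lit 318) (nat_lit 5) (nat_lit 327) (nat_lit 5) (nat_lit 328) (nat_lit 5) (nat_lit 597) (nat_lit 545) (nat_lit 418)) (XT.lf (nat_lit 0) (nat_lit 10110134279) (nat_lit 760) (nat_lit 645074217) (nat_lit 76) (nat_lit 1440889841) (nat_lit 318) (nat_lit 5) (nat_lit 328) (nat_lit 5) (nat_lit 319) (nat_lit 5) (nat_lit 598) (nat_lit 545) (nat_lit 417))) (XT.nd (nat_lit 78) (nat_lit 684) (nat_lit 0) (XT.lf (nat_lit 0) (nat_lit 382288131) (nat_lit 684) (nat_lit 5523223995) (nat_lit 76) (nat_lit 6422068504) (nat_lit 309) (nat_lit 5) (nat_lit 318) (nat_lit 5) (nat_lit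 310) (nat_lit 5) (nat_lit 599) (nat_lit 545) (nat_lit 416)) (XT.lf (nat_lit 0) (nat_lit 1942286260) (nat_lit 684) (nat_lit 930829843) (nat_lit 760) (nat_lit 9588278645) (nat_lit 300) (nat_lit 5) (nat_lit 309) (nat_lit 5) (nat_lit 310) (nat_lit 5) (nat_lit 600) (nat_lit 545) (nat_lit 415)))))) (XT.nd (nat_lit 546) (nat_lit 2736) (nat_lit 0) (XT.nd (nat_lit 234) (nat_lit 1900) (nat_lit 0) (XT.nd (nat_lit 78) (nat_lit 608) (nat_lit 0) (XT.lf (nat_lit 0) (nat_lit 5462282914) (nat_lit 760) (nat_lit 3011738515) (nat_lit 76) (nat_lit 4122894034) (nat_lit 300) (nat_lit 5) (nat_lit 310) (nat_lit 5) (nat_lit 301) (nat_lit 5) (nat_lit 601) (nat_lit 545) (nat_lit 414)) (XT.nd (nat_lit 78) (nat_lit 0) (nat_lit 0) (XT.lf (nat_lit 0) (nat_lit 4681976927) (nat_lit 608) (nat_lit 3442438416) (nat_lit 684) (nat_lit 4610308354) (nat_lit 292) (nat_lit 5) (nat_lit 300) (nat_lit 5) (nat_lit 301) (nat_lit 5) (nat_lit 602) (nat_lit 545) (nat_lit 413)) (XT.lf (nat_lit 0) (nat_lit 10855879746)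 (nat_lit 684) (nat_lit 334795123) (nat_lit 76) (nat_lit 1684292172) (nat_lit 292) (nat_lit 5) (nat_lit 301) (nat_lit 5) (nat_lit 293) (nat_lit 5) (nat_lit 603) (nat_lit 545) (nat_lit 412)))) (XT.nd (nat_lit 156) (nat_lit 608) (nat_lit 0) (XT.nd (nat_lit 78) (nat_lit 608) (nat_lit 0) (XT.lf (nat_lit 0) (nat_lit 673338108) (nat_lit 684) (nat_lit 5425789054) (nat_lit 76) (nat_lit 6917656506) (nat_lit 283) (nat_lit 5) (nat_lit 292) (nat_lit 5) (nat_lit 284) (nat_lit 5) (nat_lit 604) (nat_lit 545) (nat_lit 411)) (XT.lf (nat_lit 0) (nat_lit 2519204511) (nat_lit 608) (nat_lit 877160490) (nat_lit 684) (nat_lit 9764729622) (nat_lit 275) (nat_lit 5) (nat_lit 283) (nat_lit 5) (nat_lit 284) (nat_lit 5) (nat_lit 605) (nat_lit 545) (nat_lit 410))) (XT.nd (nat_lit 78) (nat_lit 608) (nat_lit 0) (XT.lf (nat_lit 0) (nat_lit 6224679184) (nat_lit 684) (nat_lit 2659085448) (nat_lit 76) (nat_lit 4423511308) (nat_lit 275) (nat_lit 5) (nat_lit 284) (nat_lit 5) (nat_lit 276) (nat_lit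 5) (nat_lit 606) (nat_lit 545) (nat_lit 409)) (XT.lf (nat_lit 0) (nat_lit 5531446314) (nat_lit 608) (nat_lit 3605412902) (nat_lit 684) (nat_lit 4318976340) (nat_lit 267) (nat_lit 5) (nat_lit 275) (nat_lit 5) (nat_lit 276) (nat_lit 5) (nat_lit 607) (nat_lit 545) (nat_lit 408))))) (XT.nd (nat_lit 312) (nat_lit 1596) (nat_lit 0) (XT.nd (nat_lit 156) (nat_lit 532) (nat_lit 0) (XT.nd (nat_lit 78) (nat_lit 76) (nat_lit 0) (XT.lf (nat_lit 0) (nat_lit 288136213) (nat_lit 532) (nat_lit 11836238030) (nat_lit 608) (nat_lit 1482650944) (nat_lit 260) (nat_lit 5) (nat_lit 267) (nat_lit 5) (nat_lit 268) (nat_lit 5) (nat_lit 608) (nat_lit 545) (nat_lit 407)) (XT.lf (nat_lit 0) (nat_lit 1455085239) (nat_lit 608) (nat_lit 5040099167) (nat_lit 76) (nat_lit 7264608047) (nat_lit 259) (nat_lit 5) (nat_lit 267) (nat_lit 5) (nat_lit 260) (nat_lit 5) (nat_lit 609) (nat_lit 545) (nat_lit 406))) (XT.nd (nat_lit 78) (nat_lit 0) (nat_lit 0) (XT.lf (nat_lit 0) (nat_lit 3420814979) (nat_lit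 532) (nat_lit 1019192178) (nat_lit 608) (nat_lit 9475246839) (nat_lit 252) (nat_lit 5) (nat_lit 259) (nat_lit 5) (nat_lit 260) (nat_lit 5) (nat_lit 610) (nat_lit 545) (nat_lit 405)) (XT.lf (nat_lit 0) (nat_lit 7534500105) (nat_lit 608) (nat_lit 2002374760) (nat_lit 76) (nat_lit 4535953054) (nat_lit 252) (nat_lit 5) (nat_lit 260) (nat_lit 5) (nat_lit 253) (nat_lit 5) (nat_lit 611) (nat_lit 545) (nat_lit 404)))) (XT.nd (nat_lit 156) (nat_lit 532) (nat_lit 0) (XT.nd (nat_lit 78) (nat_lit 532) (nat_lit 0) (XT.lf (nat_lit 0) (nat_lit 6722693496) (nat_lit 532) (nat_lit 4005037520) (nat_lit 608) (nat_lit 3505085932) (nat_lit 245) (nat_lit 5) (nat_lit 252) (nat_lit 5) (nat_lit 253) (nat_lit 5) (nat_lit 612) (nat_lit 545) (nat_lit 403)) (XT.lf (nat_lit 0) (nat_lit 1240847685) (nat_lit 532) (nat_lit 12762760052) (nat_lit 608) (nat_lit 392022976) (nat_lit 238) (nat_lit 5) (nat_lit 245) (nat_lit 5) (nat_lit 246) (nat_lit 5) (nat_lit 613) (nat_lit 545) (nat_lit 402)))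 (XT.nd (nat_lit 78) (nat_lit 456) (nat_lit 0) (XT.lf (nat_lit 0) (nat_lit 2810675597) (nat_lit 608) (nat_lit 4355413278) (nat_lit 76) (nat_lit 7393973455) (nat_lit 237) (nat_lit 5) (nat_lit 245) (nat_lit 5) (nat_lit 238) (nat_lit 5) (nat_lit 614) (nat_lit 545) (nat_lit 401)) (XT.lf (nat_lit 0) (nat_lit 4660398881) (nat_lit 456) (nat_lit 1428929454) (nat_lit 532) (nat_lit 8638059977) (nat_lit 231) (nat_lit 5) (nat_lit 237) (nat_lit 5) (nat_lit 238) (nat_lit 5) (nat_lit 615) (nat_lit 545) (nat_lit 400))))))))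
noncomputable def xc125 : XT := (XT.nd (nat_lit 2262) (nat_lit 3800) (nat_lit 0) (XT.nd (nat_lit 1092) (nat_lit 3876) (nat_lit 0) (XT.nd (nat_lit 546) (nat_lit 1748) (nat_lit 0) (XT.nd (nat_lit 234) (nat_lit 988) (nat_lit 0) (XT.nd (nat_lit 78) (nat_lit 1064) (nat_lit 0) (XT.lf (nat_lit 0) (nat_lit 9478686005) (nat_lit 532) (nat_lit 1029000211) (nat_lit 76) (nat_lit 4389472493) (nat_lit 231) (nat_lit 5) (nat_lit 238) (nat_lit 5) (nat_lit 232) (nat_lit 5) (nat_lit 616) (nat_lit 545) (nat_lit 399)) (XT.nd (nat_lit 78) (nat_lit 532) (nat_lit 0) (XT.lf (nat_lit 0) (nat_lit 8270937412) (nat_lit 532) (nat_lit 4715306277) (nat_lit 608) (nat_lit 2083073091) (nat_lit 224) (nat_lit 5) (nat_lit 231) (nat_lit 5) (nat_lit 232) (nat_lit 5) (nat_lit 617) (nat_lit 545) (nat_lit 398)) (XT.lf (nat_lit 0) (nat_lit 1320354085) (nat_lit 532) (nat_lit 12719681457) (nat_lit 76) (nat_lit 1204339313) (nat_lit 217) (nat_lit 5) (nat_lit 224) (nat_lit 5) (nat_lit 218) (nat_lit 5) (nat_lit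 618) (nat_lit 545) (nat_lit 397)))) (XT.nd (nat_lit 156) (nat_lit 532) (nat_lit 0) (XT.nd (nat_lit 78) (nat_lit 456) (nat_lit 0) (XT.lf (nat_lit 0) (nat_lit 4828533906) (nat_lit 532) (nat_lit 3358940366) (nat_lit 76) (nat_lit 7233893402) (nat_lit 217) (nat_lit 5) (nat_lit 224) (nat_lit 5) (nat_lit 218) (nat_lit 5) (nat_lit 619) (nat_lit 545) (nat_lit 396)) (XT.lf (nat_lit 0) (nat_lit 6253406939) (nat_lit 456) (nat_lit 2181719056) (nat_lit 532) (nat_lit 7166209865) (nat_lit 211) (nat_lit 5) (nat_lit 217) (nat_lit 5) (nat_lit 218) (nat_lit 5) (nat_lit 620) (nat_lit 545) (nat_lit 395))) (XT.nd (nat_lit 78) (nat_lit 76) (nat_lit 0) (XT.lf (nat_lit 0) (nat_lit 279267353) (nat_lit 456) (nat_lit 11872434984) (nat_lit 532) (nat_lit 3632444498) (nat_lit 205) (nat_lit 5) (nat_lit 211) (nat_lit 5) (nat_lit 212) (nat_lit 5) (nat_lit 621) (nat_lit 545) (nat_lit 394)) (XT.lf (nat_lit 0) (nat_lit 37743790) (nat_lit 532) (nat_lit 5776084399) (nat_lit 76) (nat_lit 10155482327)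 (nat_lit 204) (nat_lit 5) (nat_lit 211) (nat_lit 5) (nat_lit 205) (nat_lit 5) (nat_lit 622) (nat_lit 545) (nat_lit 393))))) (XT.nd (nat_lit 234) (nat_lit 912) (nat_lit 0) (XT.nd (nat_lit 78) (nat_lit 380) (nat_lit 0) (XT.lf (nat_lit 0) (nat_lit 3750460070) (nat_lit 532) (nat_lit 11999695866) (nat_lit 76) (nat_lit 407186519) (nat_lit 198) (nat_lit 5) (nat_lit 205) (nat_lit 5) (nat_lit 199) (nat_lit 5) (nat_lit 623) (nat_lit 545) (nat_lit 392)) (XT.nd (nat_lit 78) (nat_lit 380) (nat_lit 0) (XT.lf (nat_lit 0) (nat_lit 7603063561) (nat_lit 532) (nat_lit 2036273398) (nat_lit 76) (nat_lit 6708485853) (nat_lit 198) (nat_lit 5) (nat_lit 205) (nat_lit 5) (nat_lit 199) (nat_lit 5) (nat_lit 624) (nat_lit 545) (nat_lit 391)) (XT.lf (nat_lit 0) (nat_lit 8217025227) (nat_lit 380) (nat_lit 3357390794) (nat_lit 456) (nat_lit 4966863247) (nat_lit 193) (nat_lit 5) (nat_lit 198) (nat_lit 5) (nat_lit 199) (nat_lit 5) (nat_lit 625) (nat_lit 545) (nat_lit 390)))) (XT.nd (nat_lit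 156) (nat_lit 380) (nat_lit 0) (XT.nd (nat_lit 78) (nat_lit 76) (nat_lit 0) (XT.lf (nat_lit 0) (nat_lit 1953139371) (nat_lit 456) (nat_lit 13706724636) (nat_lit 532) (nat_lit 1078047897) (nat_lit 187) (nat_lit 5) (nat_lit 193) (nat_lit 5) (nat_lit 194) (nat_lit 5) (nat_lit 626) (nat_lit 545) (nat_lit 389)) (XT.lf (nat_lit 0) (nat_lit 2917592385) (nat_lit 532) (nat_lit 4447083267) (nat_lit 76) (nat_lit 9572088211) (nat_lit 186) (nat_lit 5) (nat_lit 193) (nat_lit 5) (nat_lit 187) (nat_lit 5) (nat_lit 627) (nat_lit 545) (nat_lit 388))) (XT.nd (nat_lit 78) (nat_lit 0) (nat_lit 0) (XT.lf (nat_lit 0) (nat_lit 6153987189) (nat_lit 380) (nat_lit 853386562) (nat_lit 456) (nat_lit 10131503723) (nat_lit 181) (nat_lit 5) (nat_lit 186) (nat_lit 5) (nat_lit 187) (nat_lit 5) (nat_lit 628) (nat_lit 545) (nat_lit 387)) (XT.lf (nat_lit 0) (nat_lit 11235340879) (nat_lit 456) (nat_lit 371874099) (nat_lit 76) (nat_lit 5736690964) (nat_lit 181) (nat_lit 5) (nat_lit 187) (nat_lit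 5) (nat_lit 182) (nat_lit 5) (nat_lit 629) (nat_lit 545) (nat_lit 386)))))) (XT.nd (nat_lit 546) (nat_lit 1824) (nat_lit 0) (XT.nd (nat_lit 234) (nat_lit 1216) (nat_lit 0) (XT.nd (nat_lit 78) (nat_lit 456) (nat_lit 0) (XT.lf (nat_lit 0) (nat_lit 10569687898) (nat_lit 380) (nat_lit 5041446506) (nat_lit 456) (nat_lit 1940635617) (nat_lit 176) (nat_lit 5) (nat_lit 181) (nat_lit 5) (nat_lit 182) (nat_lit 5) (nat_lit 630) (nat_lit 545) (nat_lit 385)) (XT.nd (nat_lit 78) (nat_lit 0) (nat_lit 0) (XT.lf (nat_lit 0) (nat_lit 2308804034) (nat_lit 456) (nat_lit 13782147685) (nat_lit 76) (nat_lit 1671970857) (nat_lit 170) (nat_lit 5) (nat_lit 176) (nat_lit 5) (nat_lit 171) (nat_lit 5) (nat_lit 631) (nat_lit 545) (nat_lit 384)) (XT.lf (nat_lit 0) (nat_lit 6686918222) (nat_lit 456) (nat_lit 2783170456) (nat_lit 76) (nat_lit 8506559895) (nat_lit 170) (nat_lit 5) (nat_lit 176) (nat_lit 5) (nat_lit 171) (nat_lit 5) (nat_lit 632) (nat_lit 545) (nat_lit 383)))) (XT.nd (nat_lit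 156) (nat_lit 456) (nat_lit 0) (XT.nd (nat_lit 78) (nat_lit 380) (nat_lit 0) (XT.lf (nat_lit 0) (nat_lit 8531210851) (nat_lit 380) (nat_lit 2666083700) (nat_lit 456) (nat_lit 6996460894) (nat_lit 165) (nat_lit 5) (nat_lit 170) (nat_lit 5) (nat_lit 171) (nat_lit 5) (nat_lit 633) (nat_lit 545) (nat_lit 382)) (XT.lf (nat_lit 0) (nat_lit 1672304558) (nat_lit 380) (nat_lit 14172356987) (nat_lit 456) (nat_lit 2569607593) (nat_lit 160) (nat_lit 5) (nat_lit 165) (nat_lit 5) (nat_lit 166) (nat_lit 5) (nat_lit 634) (nat_lit 545) (nat_lit 381))) (XT.nd (nat_lit 78) (nat_lit 380) (nat_lit 0) (XT.lf (nat_lit 0) (nat_lit 1992597066) (nat_lit 456) (nat_lit 5320348666) (nat_lit 76) (nat_lit 11324548366) (nat_lit 159) (nat_lit 5) (nat_lit 165) (nat_lit 5) (nat_lit 160) (nat_lit 5) (nat_lit 635) (nat_lit 545) (nat_lit 380)) (XT.lf (nat_lit 0) (nat_lit 6380120984) (nat_lit 380) (nat_lit 262588863) (nat_lit 456) (nat_lit 12221512912) (nat_lit 154) (nat_lit 5) (nat_lit 159) (nat_lit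 5) (nat_lit 160) (nat_lit 5) (nat_lit 636) (nat_lit 545) (nat_lit 379))))) (XT.nd (nat_lit 312) (nat_lit 1064) (nat_lit 0) (XT.nd (nat_lit 156) (nat_lit 456) (nat_lit 0) (XT.nd (nat_lit 78) (nat_lit 304) (nat_lit 0) (XT.lf (nat_lit 0) (nat_lit 11456425749) (nat_lit 456) (nat_lit 769574849) (nat_lit 76) (nat_lit 6868073697) (nat_lit 154) (nat_lit 5) (nat_lit 160) (nat_lit 5) (nat_lit 155) (nat_lit 5) (nat_lit 637) (nat_lit 545) (nat_lit 378)) (XT.lf (nat_lit 0) (nat_lit 11309854973) (nat_lit 304) (nat_lit 5121609391) (nat_lit 380) (nat_lit 2895757843) (nat_lit 150) (nat_lit 5) (nat_lit 154) (nat_lit 5) (nat_lit 155) (nat_lit 5) (nat_lit 638) (nat_lit 545) (nat_lit 377))) (XT.nd (nat_lit 78) (nat_lit 0) (nat_lit 0) (XT.lf (nat_lit 0) (nat_lit 1951301658) (nat_lit 456) (nat_lit 15476875928) (nat_lit 76) (nat_lit 2135888006) (nat_lit 144) (nat_lit 5) (nat_lit 150) (nat_lit 5) (nat_lit 145) (nat_lit 5) (nat_lit 639) (nat_lit 545) (nat_lit 376)) (XT.lf (nat_lit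 0) (nat_lit 6934602710) (nat_lit 456) (nat_lit 3331571379) (nat_lit 76) (nat_lit 9537527742) (nat_lit 144) (nat_lit 5) (nat_lit 150) (nat_lit 5) (nat_lit 145) (nat_lit 5) (nat_lit 640) (nat_lit 545) (nat_lit 375)))) (XT.nd (nat_lit 156) (nat_lit 380) (nat_lit 0) (XT.nd (nat_lit 78) (nat_lit 380) (nat_lit 0) (XT.lf (nat_lit 0) (nat_lit 9161037592) (nat_lit 304) (nat_lit 2906171838) (nat_lit 380) (nat_lit 7979928859) (nat_lit 140) (nat_lit 5) (nat_lit 144) (nat_lit 5) (nat_lit 145) (nat_lit 5) (nat_lit 641) (nat_lit 545) (nat_lit 374)) (XT.lf (nat_lit 0) (nat_lit 1629205385) (nat_lit 380) (nat_lit 15726431549) (nat_lit 456) (nat_lit 2938743453) (nat_lit 135) (nat_lit 5) (nat_lit 140) (nat_lit 5) (nat_lit 141) (nat_lit 5) (nat_lit 642) (nat_lit 545) (nat_lit 373))) (XT.nd (nat_lit 78) (nat_lit 304) (nat_lit 0) (XT.lf (nat_lit 0) (nat_lit 2257389501) (nat_lit 456) (nat_lit 6052589453) (nat_lit 76) (nat_lit 12234642144) (nat_lit 134) (nat_lit 5) (nat_lit 140) (nat_lit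 5) (nat_lit 135) (nat_lit 5) (nat_lit 643) (nat_lit 545) (nat_lit 372)) (XT.lf (nat_lit 0) (nat_lit 6867332937) (nat_lit 304) (nat_lit 685816511) (nat_lit 380) (nat_lit 13245627857) (nat_lit 130) (nat_lit 5) (nat_lit 134) (nat_lit 5) (nat_lit 135) (nat_lit 5) (nat_lit 644) (nat_lit 545) (nat_lit 371))))))) (XT.nd (nat_lit 1170) (nat_lit 988) (nat_lit 0) (XT.nd (nat_lit 546) (nat_lit 1520) (nat_lit 0) (XT.nd (nat_lit 234) (nat_lit 608) (nat_lit 0) (XT.nd (nat_lit 78) (nat_lit 684) (nat_lit 0) (XT.lf (nat_lit 0) (nat_lit 13032227061) (nat_lit 380) (nat_lit 991382021) (nat_lit 76) (nat_lit 7032859766) (nat_lit 130) (nat_lit 5) (nat_lit 135) (nat_lit 5) (nat_lit 131) (nat_lit 5) (nat_lit 645) (nat_lit 545) (nat_lit 370)) (XT.nd (nat_lit 78) (nat_lit 380) (nat_lit 0) (XT.lf (nat_lit 0) (nat_lit 12349644237) (nat_lit 304) (nat_lit 6346631647) (nat_lit 380) (nat_lit 2621530802) (nat_lit 126) (nat_lit 5) (nat_lit 130) (nat_lit 5) (nat_lit 131) (nat_lit 5) (nat_lit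 646) (nat_lit 545) (nat_lit 369)) (XT.lf (nat_lit 0) (nat_lit 2887316467) (nat_lit 380) (nat_lit 17182984465) (nat_lit 76) (nat_lit 1512975921) (nat_lit 121) (nat_lit 5) (nat_lit 126) (nat_lit 5) (nat_lit 122) (nat_lit 5) (nat_lit 647) (nat_lit 545) (nat_lit 368)))) (XT.nd (nat_lit 156) (nat_lit 304) (nat_lit 0) (XT.nd (nat_lit 78) (nat_lit 304) (nat_lit 0) (XT.lf (nat_lit 0) (nat_lit 8564615611) (nat_lit 380) (nat_lit 3770293435) (nat_lit 76) (nat_lit 9516933508) (nat_lit 121) (nat_lit 5) (nat_lit 126) (nat_lit 5) (nat_lit 122) (nat_lit 5) (nat_lit 648) (nat_lit 545) (nat_lit 367)) (XT.lf (nat_lit 0) (nat_lit 10027127222) (nat_lit 304) (nat_lit 4384352061) (nat_lit 380) (nat_lit 7713180154) (nat_lit 117) (nat_lit 5) (nat_lit 121) (nat_lit 5) (nat_lit 122) (nat_lit 5) (nat_lit 649) (nat_lit 545) (nat_lit 366))) (XT.nd (nat_lit 78) (nat_lit 76) (nat_lit 0) (XT.lf (nat_lit 0) (nat_lit 1732469825) (nat_lit 228) (nat_lit 18694671978) (nat_lit 304) (nat_lit 1974753854)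 (nat_lit 114) (nat_lit 5) (nat_lit 117) (nat_lit 5) (nat_lit 118) (nat_lit 5) (nat_lit 650) (nat_lit 545) (nat_lit 365)) (XT.lf (nat_lit 0) (nat_lit 3929307327) (nat_lit 304) (nat_lit 6749845925) (nat_lit 76) (nat_lit 12002985287) (nat_lit 113) (nat_lit 5) (nat_lit 117) (nat_lit 5) (nat_lit 114) (nat_lit 5) (nat_lit 651) (nat_lit 545) (nat_lit 364))))) (XT.nd (nat_lit 312) (nat_lit 608) (nat_lit 0) (XT.nd (nat_lit 156) (nat_lit 608) (nat_lit 0) (XT.nd (nat_lit 78) (nat_lit 0) (nat_lit 0) (XT.lf (nat_lit 0) (nat_lit 7518859320) (nat_lit 304) (nat_lit 2446146414) (nat_lit 380) (nat_lit 13001919745) (nat_lit 109) (nat_lit 5) (nat_lit 113) (nat_lit 5) (nat_lit 114) (nat_lit 5) (nat_lit 652) (nat_lit 545) (nat_lit 363)) (XT.lf (nat_lit 0) (nat_lit 16196849548) (nat_lit 380) (nat_lit 1145848076) (nat_lit 76) (nat_lit 5913202117) (nat_lit 109) (nat_lit 5) (nat_lit 114) (nat_lit 5) (nat_lit 110) (nat_lit 5) (nat_lit 653) (nat_lit 545) (nat_lit 362))) (XT.nd (nat_lit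 78) (nat_lit 380) (nat_lit 0) (XT.lf (nat_lit 0) (nat_lit 13589900432) (nat_lit 228) (nat_lit 9059231976) (nat_lit 304) (nat_lit 899605248) (nat_lit 106) (nat_lit 5) (nat_lit 109) (nat_lit 5) (nat_lit 110) (nat_lit 5) (nat_lit 654) (nat_lit 545) (nat_lit 361)) (XT.lf (nat_lit 0) (nat_lit 4802028756) (nat_lit 304) (nat_lit 540705000) (nat_lit 380) (nat_lit 18503393682) (nat_lit 101) (nat_lit 5) (nat_lit 105) (nat_lit 5) (nat_lit 106) (nat_lit 5) (nat_lit 655) (nat_lit 545) (nat_lit 360)))) (XT.nd (nat_lit 156) (nat_lit 380) (nat_lit 0) (XT.nd (nat_lit 78) (nat_lit 228) (nat_lit 0) (XT.lf (nat_lit 0) (nat_lit 11809483019) (nat_lit 380) (nat_lit 4228929268) (nat_lit 76) (nat_lit 8108701815) (nat_lit 101) (nat_lit 5) (nat_lit 106) (nat_lit 5) (nat_lit 102) (nat_lit 5) (nat_lit 656) (nat_lit 545) (nat_lit 359)) (XT.lf (nat_lit 0) (nat_lit 11009030620) (nat_lit 228) (nat_lit 7463186426) (nat_lit 304) (nat_lit 5980570652) (nat_lit 98) (nat_lit 5) (nat_lit 101) (nat_lit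 5) (nat_lit 102) (nat_lit 5) (nat_lit 657) (nat_lit 545) (nat_lit 358))) (XT.nd (nat_lit 78) (nat_lit 0) (nat_lit 0) (XT.lf (nat_lit 0) (nat_lit 537807236) (nat_lit 380) (nat_lit 22920893711) (nat_lit 76) (nat_lit 1304992979) (nat_lit 93) (nat_lit 5) (nat_lit 98) (nat_lit 5) (nat_lit 94) (nat_lit 5) (nat_lit 658) (nat_lit 545) (nat_lit 357)) (XT.lf (nat_lit 0) (nat_lit 7238426711) (nat_lit 380) (nat_lit 7565689461) (nat_lit 76) (nat_lit 10273272579) (nat_lit 93) (nat_lit 5) (nat_lit 98) (nat_lit 5) (nat_lit 94) (nat_lit 5) (nat_lit 659) (nat_lit 545) (nat_lit 356)))))) (XT.nd (nat_lit 72384) (nat_lit 0) (nat_lit 38532) (XT.nd (nat_lit 234) (nat_lit 456) (nat_lit 0) (XT.nd (nat_lit 78) (nat_lit 304) (nat_lit 0) (XT.lf (nat_lit 0) (nat_lit 8189944364) (nat_lit 228) (nat_lit 5928094455) (nat_lit 304) (nat_lit 11278419230) (nat_lit 90) (nat_lit 5) (nat_lit 93) (nat_lit 5) (nat_lit 94) (nat_lit 5) (nat_lit 660) (nat_lit 545) (nat_lit 355)) (XT.nd (nat_lit 78) (nat_lit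 304) (nat_lit 0) (XT.lf (nat_lit 0) (nat_lit 21198479022) (nat_lit 304) (nat_lit 1392395242) (nat_lit 76) (nat_lit 3129769928) (nat_lit 90) (nat_lit 5) (nat_lit 94) (nat_lit 5) (nat_lit 91) (nat_lit 5) (nat_lit 661) (nat_lit 545) (nat_lit 354)) (XT.lf (nat_lit 0) (nat_lit 2466855498) (nat_lit 304) (nat_lit 11184927009) (nat_lit 76) (nat_lit 12396649785) (nat_lit 86) (nat_lit 5) (nat_lit 90) (nat_lit 5) (nat_lit 87) (nat_lit 5) (nat_lit 662) (nat_lit 545) (nat_lit 353)))) (XT.nd (nat_lit 156) (nat_lit 228) (nat_lit 0) (XT.nd (nat_lit 78) (nat_lit 0) (nat_lit 0) (XT.lf (nat_lit 0) (nat_lit 5103879744) (nat_lit 228) (nat_lit 4465837361) (nat_lit 304) (nat_lit 16811769140) (nat_lit 83) (nat_lit 5) (nat_lit 86) (nat_lit 5) (nat_lit 87) (nat_lit 5) (nat_lit 663) (nat_lit 545) (nat_lit 352)) (XT.lf (nat_lit 0) (nat_lit 16914070297) (nat_lit 304) (nat_lit 4895845675) (nat_lit 76) (nat_lit 4909296780) (nat_lit 83) (nat_lit 5) (nat_lit 87) (nat_lit 5) (nat_lit 84) (nat_lit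 5) (nat_lit 664) (nat_lit 545) (nat_lit 351))) (XT.nd (nat_lit 71916) (nat_lit 0) (nat_lit 41192) (XT.lf (nat_lit 0) (nat_lit 11926782640) (nat_lit 228) (nat_lit 12577737268) (nat_lit 304) (nat_lit 2557189854) (nat_lit 80) (nat_lit 5) (nat_lit 83) (nat_lit 5) (nat_lit 84) (nat_lit 5) (nat_lit 665) (nat_lit 545) (nat_lit 350)) (XT.lf (nat_lit 0) (nat_lit 1404833042) (nat_lit 0) (nat_lit 1404833042) (nat_lit 1292) (nat_lit 1054619023) (nat_lit 622) (nat_lit 5) (nat_lit 622) (nat_lit 3) (nat_lit 639) (nat_lit 3) (nat_lit 546) (nat_lit 546) (nat_lit 468))))) (XT.nd (nat_lit 312) (nat_lit 1292) (nat_lit 0) (XT.nd (nat_lit 156) (nat_lit 0) (nat_lit 0) (XT.nd (nat_lit 78) (nat_lit 1368) (nat_lit 0) (XT.lf (nat_lit 0) (nat_lit 6705928434) (nat_lit 0) (nat_lit 302485837) (nat_lit 1292) (nat_lit 770684634) (nat_lit 622) (nat_lit 5) (nat_lit 622) (nat_lit 3) (nat_lit 639) (nat_lit 3) (nat_lit 547) (nat_lit 546) (nat_lit 467)) (XT.lf (nat_lit 0) (nat_lit 585148479) (nat_lit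 1368) (nat_lit 4980552120) (nat_lit 1444) (nat_lit 2264896757) (nat_lit 604) (nat_lit 5) (nat_lit 622) (nat_lit 5) (nat_lit 623) (nat_lit 5) (nat_lit 548) (nat_lit 546) (nat_lit 466))) (XT.nd (nat_lit 78) (nat_lit 0) (nat_lit 0) (XT.lf (nat_lit 0) (nat_lit 1932527964) (nat_lit 1368) (nat_lit 1042501369) (nat_lit 1444) (nat_lit 4908502076) (nat_lit 604) (nat_lit 5) (nat_lit 622) (nat_lit 5) (nat_lit 623) (nat_lit 5) (nat_lit 549) (nat_lit 546) (nat_lit 465)) (XT.lf (nat_lit 76) (nat_lit 2995322819) (nat_lit 0) (nat_lit 297143648) (nat_lit 1444) (nat_lit 4645347900) (nat_lit 605) (nat_lit 5) (nat_lit 604) (nat_lit 5) (nat_lit 623) (nat_lit 5) (nat_lit 550) (nat_lit 546) (nat_lit 464)))) (XT.nd (nat_lit 156) (nat_lit 1368) (nat_lit 0) (XT.nd (nat_lit 78) (nat_lit 0) (nat_lit 0) (XT.lf (nat_lit 0) (nat_lit 4669258593) (nat_lit 1368) (nat_lit 899777691) (nat_lit 1444) (nat_lit 2424356009) (nat_lit 605) (nat_lit 5) (nat_lit 623) (nat_lit 5) (nat_lit 624) (nat_lit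 5) (nat_lit 551) (nat_lit 546) (nat_lit 463)) (XT.lf (nat_lit 76) (nat_lit 3245845317) (nat_lit 0) (nat_lit 2818241793) (nat_lit 1444) (nat_lit 1986187012) (nat_lit 606) (nat_lit 5) (nat_lit 605) (nat_lit 5) (nat_lit 624) (nat_lit 5) (nat_lit 552) (nat_lit 546) (nat_lit 462))) (XT.nd (nat_lit 78) (nat_lit 1444) (nat_lit 0) (XT.lf (nat_lit 0) (nat_lit 7460874712) (nat_lit 1368) (nat_lit 640710765) (nat_lit 1444) (nat_lit 7229174) (nat_lit 606) (nat_lit 5) (nat_lit 624) (nat_lit 5) (nat_lit 625) (nat_lit 5) (nat_lit 553) (nat_lit 546) (nat_lit 461)) (XT.lf (nat_lit 0) (nat_lit 718571534) (nat_lit 1444) (nat_lit 4556773819) (nat_lit 1520) (nat_lit 2892871664) (nat_lit 587) (nat_lit 5) (nat_lit 606) (nat_lit 5) (nat_lit 607) (nat_lit 5) (nat_lit 554) (nat_lit 546) (nat_lit 460))))))))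
noncomputable def xc126 : XT := (XT.nd (nat_lit 2262) (nat_lit 12616) (nat_lit 0) (XT.nd (nat_lit 1092) (nat_lit 10564) (nat_lit 0) (XT.nd (nat_lit 546) (nat_lit 1444) (nat_lit 0) (XT.nd (nat_lit 234) (nat_lit 1368) (nat_lit 0) (XT.nd (nat_lit 78) (nat_lit 0) (nat_lit 76) (XT.lf (nat_lit 0) (nat_lit 2077051330) (nat_lit 1444) (nat_lit 294787110) (nat_lit 1520) (nat_lit 5857419231) (nat_lit 587) (nat_lit 5) (nat_lit 606) (nat_lit 5) (nat_lit 607) (nat_lit 5) (nat_lit 555) (nat_lit 546) (nat_lit 459)) (XT.nd (nat_lit 78) (nat_lit 0) (nat_lit 0) (XT.lf (nat_lit 0) (nat_lit 3462905482) (nat_lit 1444) (nat_lit 4208331446) (nat_lit 1520) (nat_lit 620280250) (nat_lit 588) (nat_lit 5) (nat_lit 607) (nat_lit 5) (nat_lit 608) (nat_lit 5) (nat_lit 556) (nat_lit 546) (nat_lit 458)) (XT.lf (nat_lit 76) (nat_lit 164924894) (nat_lit 0) (nat_lit 4700457167) (nat_lit 1520) (nat_lit 3489863802) (nat_lit 589) (nat_lit 5) (nat_lit 588) (nat_lit 5) (nat_lit 608) (nat_lit 5) (nat_lit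 557) (nat_lit 546) (nat_lit 457)))) (XT.nd (nat_lit 156) (nat_lit 1444) (nat_lit 0) (XT.nd (nat_lit 78) (nat_lit 0) (nat_lit 76) (XT.lf (nat_lit 76) (nat_lit 4663568918) (nat_lit 0) (nat_lit 1631176515) (nat_lit 1520) (nat_lit 2125528995) (nat_lit 589) (nat_lit 5) (nat_lit 588) (nat_lit 5) (nat_lit 608) (nat_lit 5) (nat_lit 558) (nat_lit 546) (nat_lit 456)) (XT.lf (nat_lit 76) (nat_lit 746242165) (nat_lit 0) (nat_lit 6992273797) (nat_lit 1520) (nat_lit 748373217) (nat_lit 590) (nat_lit 5) (nat_lit 589) (nat_lit 5) (nat_lit 609) (nat_lit 5) (nat_lit 559) (nat_lit 546) (nat_lit 455))) (XT.nd (nat_lit 78) (nat_lit 0) (nat_lit 0) (XT.lf (nat_lit 0) (nat_lit 655385224) (nat_lit 1520) (nat_lit 3199035626) (nat_lit 1596) (nat_lit 4700178735) (nat_lit 569) (nat_lit 5) (nat_lit 589) (nat_lit 5) (nat_lit 590) (nat_lit 5) (nat_lit 560) (nat_lit 546) (nat_lit 454)) (XT.lf (nat_lit 76) (nat_lit 1427919718) (nat_lit 0) (nat_lit 630606280) (nat_lit 1596) (nat_lit 6565414604)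 (nat_lit 570) (nat_lit 5) (nat_lit 569) (nat_lit 5) (nat_lit 590) (nat_lit 5) (nat_lit 561) (nat_lit 546) (nat_lit 453))))) (XT.nd (nat_lit 234) (nat_lit 1520) (nat_lit 0) (XT.nd (nat_lit 78) (nat_lit 0) (nat_lit 0) (XT.lf (nat_lit 0) (nat_lit 3501120309) (nat_lit 1520) (nat_lit 2540598590) (nat_lit 1596) (nat_lit 2652723587) (nat_lit 570) (nat_lit 5) (nat_lit 590) (nat_lit 5) (nat_lit 591) (nat_lit 5) (nat_lit 562) (nat_lit 546) (nat_lit 452)) (XT.nd (nat_lit 78) (nat_lit 0) (nat_lit 76) (XT.lf (nat_lit 76) (nat_lit 2213432759) (nat_lit 0) (nat_lit 2750745616) (nat_lit 1596) (nat_lit 3802345618) (nat_lit 571) (nat_lit 5) (nat_lit 570) (nat_lit 5) (nat_lit 591) (nat_lit 5) (nat_lit 563) (nat_lit 546) (nat_lit 451)) (XT.lf (nat_lit 0) (nat_lit 6451109479) (nat_lit 1520) (nat_lit 1766576008) (nat_lit 1596) (nat_lit 622471191) (nat_lit 571) (nat_lit 5) (nat_lit 591) (nat_lit 5) (nat_lit 592) (nat_lit 5) (nat_lit 564) (nat_lit 546) (nat_lit 450)))) (XT.nd (nat_lit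 156) (nat_lit 0) (nat_lit 76) (XT.nd (nat_lit 78) (nat_lit 1596) (nat_lit 0) (XT.lf (nat_lit 76) (nat_lit 3118941170) (nat_lit 0) (nat_lit 4861339790) (nat_lit 1596) (nat_lit 934732773) (nat_lit 572) (nat_lit 5) (nat_lit 571) (nat_lit 5) (nat_lit 592) (nat_lit 5) (nat_lit 565) (nat_lit 546) (nat_lit 449)) (XT.lf (nat_lit 0) (nat_lit 527652666) (nat_lit 1596) (nat_lit 888289712) (nat_lit 1672) (nat_lit 7575632378) (nat_lit 550) (nat_lit 5) (nat_lit 571) (nat_lit 5) (nat_lit 572) (nat_lit 5) (nat_lit 566) (nat_lit 546) (nat_lit 448))) (XT.nd (nat_lit 78) (nat_lit 0) (nat_lit 0) (XT.lf (nat_lit 0) (nat_lit 2022338477) (nat_lit 1596) (nat_lit 4936799900) (nat_lit 1672) (nat_lit 2110095325) (nat_lit 551) (nat_lit 5) (nat_lit 572) (nat_lit 5) (nat_lit 573) (nat_lit 5) (nat_lit 567) (nat_lit 546) (nat_lit 447)) (XT.lf (nat_lit 76) (nat_lit 89383815) (nat_lit 0) (nat_lit 3448652658) (nat_lit 1672) (nat_lit 5610588604) (nat_lit 552) (nat_lit 5) (nat_lit 551) (nat_lit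 5) (nat_lit 573) (nat_lit 5) (nat_lit 568) (nat_lit 546) (nat_lit 446)))))) (XT.nd (nat_lit 546) (nat_lit 5624) (nat_lit 0) (XT.nd (nat_lit 234) (nat_lit 3496) (nat_lit 0) (XT.nd (nat_lit 78) (nat_lit 1596) (nat_lit 0) (XT.lf (nat_lit 0) (nat_lit 5093806713) (nat_lit 1596) (nat_lit 3967059633) (nat_lit 76) (nat_lit 168544354) (nat_lit 552) (nat_lit 5) (nat_lit 573) (nat_lit 5) (nat_lit 553) (nat_lit 5) (nat_lit 569) (nat_lit 546) (nat_lit 445)) (XT.nd (nat_lit 78) (nat_lit 0) (nat_lit 0) (XT.lf (nat_lit 0) (nat_lit 1200208954) (nat_lit 1596) (nat_lit 5487147120) (nat_lit 1672) (nat_lit 2624324243) (nat_lit 531) (nat_lit 5) (nat_lit 552) (nat_lit 5) (nat_lit 553) (nat_lit 5) (nat_lit 570) (nat_lit 546) (nat_lit 444)) (XT.lf (nat_lit 0) (nat_lit 6505067915) (nat_lit 1596) (nat_lit 1810705126) (nat_lit 1672) (nat_lit 1079763878) (nat_lit 531) (nat_lit 5) (nat_lit 552) (nat_lit 5) (nat_lit 553) (nat_lit 5) (nat_lit 571) (nat_lit 546) (nat_lit 443)))) (XT.nd (nat_lit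 156) (nat_lit 1748) (nat_lit 0) (XT.nd (nat_lit 78) (nat_lit 0) (nat_lit 0) (XT.lf (nat_lit 0) (nat_lit 494483290) (nat_lit 1748) (nat_lit 7049564100) (nat_lit 76) (nat_lit 1936854429) (nat_lit 508) (nat_lit 5) (nat_lit 531) (nat_lit 5) (nat_lit 509) (nat_lit 5) (nat_lit 572) (nat_lit 546) (nat_lit 442)) (XT.lf (nat_lit 0) (nat_lit 2094326653) (nat_lit 1748) (nat_lit 1707909840) (nat_lit 76) (nat_lit 5765424832) (nat_lit 508) (nat_lit 5) (nat_lit 531) (nat_lit 5) (nat_lit 509) (nat_lit 5) (nat_lit 573) (nat_lit 546) (nat_lit 441))) (XT.nd (nat_lit 78) (nat_lit 0) (nat_lit 0) (XT.lf (nat_lit 0) (nat_lit 3728413392) (nat_lit 1824) (nat_lit 5885790326) (nat_lit 76) (nat_lit 41908781) (nat_lit 485) (nat_lit 5) (nat_lit 509) (nat_lit 5) (nat_lit 486) (nat_lit 5) (nat_lit 574) (nat_lit 546) (nat_lit 440)) (XT.lf (nat_lit 0) (nat_lit 5409723534) (nat_lit 1824) (nat_lit 409852267) (nat_lit 76) (nat_lit 3926467443) (nat_lit 485) (nat_lit 5) (nat_lit 509) (nat_lit 5)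 (nat_lit 486) (nat_lit 5) (nat_lit 575) (nat_lit 546) (nat_lit 439))))) (XT.nd (nat_lit 312) (nat_lit 1748) (nat_lit 0) (XT.nd (nat_lit 156) (nat_lit 988) (nat_lit 0) (XT.nd (nat_lit 78) (nat_lit 1064) (nat_lit 0) (XT.lf (nat_lit 0) (nat_lit 5224753120) (nat_lit 1824) (nat_lit 1912088559) (nat_lit 1900) (nat_lit 2700688643) (nat_lit 461) (nat_lit 5) (nat_lit 485) (nat_lit 5) (nat_lit 486) (nat_lit 5) (nat_lit 576) (nat_lit 546) (nat_lit 438)) (XT.lf (nat_lit 0) (nat_lit 1027111935) (nat_lit 1064) (nat_lit 7872865123) (nat_lit 1140) (nat_lit 1030841915) (nat_lit 447) (nat_lit 5) (nat_lit 461) (nat_lit 5) (nat_lit 462) (nat_lit 5) (nat_lit 577) (nat_lit 546) (nat_lit 437))) (XT.nd (nat_lit 78) (nat_lit 912) (nat_lit 0) (XT.lf (nat_lit 0) (nat_lit 686131721) (nat_lit 1140) (nat_lit 3220107885) (nat_lit 76) (nat_lit 6119196779) (nat_lit 446) (nat_lit 5) (nat_lit 461) (nat_lit 5) (nat_lit 447) (nat_lit 5) (nat_lit 578) (nat_lit 546) (nat_lit 436)) (XT.lf (nat_lit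 0) (nat_lit 2420653209) (nat_lit 988) (nat_lit 7538185779) (nat_lit 76) (nat_lit 163031904) (nat_lit 434) (nat_lit 5) (nat_lit 447) (nat_lit 5) (nat_lit 435) (nat_lit 5) (nat_lit 579) (nat_lit 546) (nat_lit 435)))) (XT.nd (nat_lit 156) (nat_lit 836) (nat_lit 0) (XT.nd (nat_lit 78) (nat_lit 912) (nat_lit 0) (XT.lf (nat_lit 0) (nat_lit 4216921281) (nat_lit 988) (nat_lit 1718360706) (nat_lit 76) (nat_lit 4284412206) (nat_lit 434) (nat_lit 5) (nat_lit 447) (nat_lit 5) (nat_lit 435) (nat_lit 5) (nat_lit 580) (nat_lit 546) (nat_lit 434)) (XT.lf (nat_lit 0) (nat_lit 4254294020) (nat_lit 912) (nat_lit 1802280915) (nat_lit 988) (nat_lit 4262751024) (nat_lit 422) (nat_lit 5) (nat_lit 434) (nat_lit 5) (nat_lit 435) (nat_lit 5) (nat_lit 581) (nat_lit 546) (nat_lit 433))) (XT.nd (nat_lit 78) (nat_lit 836) (nat_lit 0) (XT.lf (nat_lit 0) (nat_lit 7940411613) (nat_lit 988) (nat_lit 86409243) (nat_lit 76) (nat_lit 2393982883) (nat_lit 422) (nat_lit 5) (nat_lit 435) (nat_lit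 5) (nat_lit 423) (nat_lit 5) (nat_lit 582) (nat_lit 546) (nat_lit 432)) (XT.lf (nat_lit 0) (nat_lit 6060075775) (nat_lit 836) (nat_lit 3833634069) (nat_lit 912) (nat_lit 629966691) (nat_lit 411) (nat_lit 5) (nat_lit 422) (nat_lit 5) (nat_lit 423) (nat_lit 5) (nat_lit 583) (nat_lit 546) (nat_lit 431))))))) (XT.nd (nat_lit 1170) (nat_lit 5548) (nat_lit 0) (XT.nd (nat_lit 546) (nat_lit 3648) (nat_lit 0) (XT.nd (nat_lit 234) (nat_lit 1672) (nat_lit 0) (XT.nd (nat_lit 78) (nat_lit 836) (nat_lit 0) (XT.lf (nat_lit 0) (nat_lit 1236218029) (nat_lit 912) (nat_lit 8934843132) (nat_lit 76) (nat_lit 457478595) (nat_lit 399) (nat_lit 5) (nat_lit 411) (nat_lit 5) (nat_lit 400) (nat_lit 5) (nat_lit 584) (nat_lit 546) (nat_lit 430)) (XT.nd (nat_lit 78) (nat_lit 836) (nat_lit 0) (XT.lf (nat_lit 0) (nat_lit 3167725362) (nat_lit 912) (nat_lit 2749654740) (nat_lit 76) (nat_lit 4817309265) (nat_lit 399) (nat_lit 5) (nat_lit 411) (nat_lit 5) (nat_lit 400) (nat_lit 5) (nat_lit 585)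 (nat_lit 546) (nat_lit 429)) (XT.lf (nat_lit 0) (nat_lit 3587026856) (nat_lit 836) (nat_lit 1555386624) (nat_lit 912) (nat_lit 5700458546) (nat_lit 388) (nat_lit 5) (nat_lit 399) (nat_lit 5) (nat_lit 400) (nat_lit 5) (nat_lit 586) (nat_lit 546) (nat_lit 428)))) (XT.nd (nat_lit 156) (nat_lit 836) (nat_lit 0) (XT.nd (nat_lit 78) (nat_lit 836) (nat_lit 0) (XT.lf (nat_lit 0) (nat_lit 7175458362) (nat_lit 912) (nat_lit 903541129) (nat_lit 76) (nat_lit 2873842633) (nat_lit 388) (nat_lit 5) (nat_lit 400) (nat_lit 5) (nat_lit 389) (nat_lit 5) (nat_lit 587) (nat_lit 546) (nat_lit 427)) (XT.lf (nat_lit 0) (nat_lit 5620104121) (nat_lit 836) (nat_lit 3657713178) (nat_lit 912) (nat_lit 1786622288) (nat_lit 377) (nat_lit 5) (nat_lit 388) (nat_lit 5) (nat_lit 389) (nat_lit 5) (nat_lit 588) (nat_lit 546) (nat_lit 426))) (XT.nd (nat_lit 78) (nat_lit 0) (nat_lit 0) (XT.lf (nat_lit 0) (nat_lit 241610847) (nat_lit 836) (nat_lit 10082033478) (nat_lit 76) (nat_lit 854576864) (nat_lit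 366) (nat_lit 5) (nat_lit 377) (nat_lit 5) (nat_lit 367) (nat_lit 5) (nat_lit 589) (nat_lit 546) (nat_lit 425)) (XT.lf (nat_lit 0) (nat_lit 2329704542) (nat_lit 836) (nat_lit 3507973760) (nat_lit 76) (nat_lit 5455500521) (nat_lit 366) (nat_lit 5) (nat_lit 377) (nat_lit 5) (nat_lit 367) (nat_lit 5) (nat_lit 590) (nat_lit 546) (nat_lit 424))))) (XT.nd (nat_lit 312) (nat_lit 1444) (nat_lit 0) (XT.nd (nat_lit 156) (nat_lit 1444) (nat_lit 0) (XT.nd (nat_lit 78) (nat_lit 0) (nat_lit 0) (XT.lf (nat_lit 0) (nat_lit 3220739467) (nat_lit 760) (nat_lit 1242277735) (nat_lit 836) (nat_lit 6947350214) (nat_lit 356) (nat_lit 5) (nat_lit 366) (nat_lit 5) (nat_lit 367) (nat_lit 5) (nat_lit 591) (nat_lit 546) (nat_lit 423)) (XT.lf (nat_lit 0) (nat_lit 6667813862) (nat_lit 836) (nat_lit 1439651180) (nat_lit 76) (nat_lit 3421859314) (nat_lit 356) (nat_lit 5) (nat_lit 367) (nat_lit 5) (nat_lit 357) (nat_lit 5) (nat_lit 592) (nat_lit 546) (nat_lit 422))) (XT.nd (nat_lit 78) (nat_lit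 760) (nat_lit 0) (XT.lf (nat_lit 0) (nat_lit 5490203766) (nat_lit 684) (nat_lit 3453467966) (nat_lit 760) (nat_lit 2706450308) (nat_lit 347) (nat_lit 5) (nat_lit 356) (nat_lit 5) (nat_lit 357) (nat_lit 5) (nat_lit 593) (nat_lit 546) (nat_lit 421)) (XT.lf (nat_lit 0) (nat_lit 787801008) (nat_lit 760) (nat_lit 10483772812) (nat_lit 836) (nat_lit 501632210) (nat_lit 337) (nat_lit 5) (nat_lit 347) (nat_lit 5) (nat_lit 348) (nat_lit 5) (nat_lit 594) (nat_lit 546) (nat_lit 420)))) (XT.nd (nat_lit 156) (nat_lit 684) (nat_lit 0) (XT.nd (nat_lit 78) (nat_lit 684) (nat_lit 0) (XT.lf (nat_lit 0) (nat_lit 1772229715) (nat_lit 836) (nat_lit 3993632355) (nat_lit 76) (nat_lit 6131706330) (nat_lit 336) (nat_lit 5) (nat_lit 347) (nat_lit 5) (nat_lit 337) (nat_lit 5) (nat_lit 595) (nat_lit 546) (nat_lit 419)) (XT.lf (nat_lit 0) (nat_lit 3157245404) (nat_lit 684) (nat_lit 931820355) (nat_lit 760) (nat_lit 7935202511) (nat_lit 327) (nat_lit 5) (nat_lit 336) (nat_lit 5) (nat_lit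 337) (nat_lit 5) (nat_lit 596) (nat_lit 546) (nat_lit 418))) (XT.nd (nat_lit 78) (nat_lit 684) (nat_lit 0) (XT.lf (nat_lit 0) (nat_lit 6489068632) (nat_lit 760) (nat_lit 1692829860) (nat_lit 76) (nat_lit 3970867868) (nat_lit 327) (nat_lit 5) (nat_lit 337) (nat_lit 5) (nat_lit 328) (nat_lit 5) (nat_lit 597) (nat_lit 546) (nat_lit 417)) (XT.lf (nat_lit 0) (nat_lit 5674472081) (nat_lit 684) (nat_lit 3289818527) (nat_lit 760) (nat_lit 3319000232) (nat_lit 318) (nat_lit 5) (nat_lit 327) (nat_lit 5) (nat_lit 328) (nat_lit 5) (nat_lit 598) (nat_lit 546) (nat_lit 416)))))) (XT.nd (nat_lit 546) (nat_lit 2888) (nat_lit 0) (XT.nd (nat_lit 234) (nat_lit 1292) (nat_lit 0) (XT.nd (nat_lit 78) (nat_lit 760) (nat_lit 0) (XT.lf (nat_lit 0) (nat_lit 776136762) (nat_lit 608) (nat_lit 10724769021) (nat_lit 684) (nat_lit 915283045) (nat_lit 310) (nat_lit 5) (nat_lit 318) (nat_lit 5) (nat_lit 319) (nat_lit 5) (nat_lit 599) (nat_lit 546) (nat_lit 415)) (XT.nd (nat_lit 78) (nat_lit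 684) (nat_lit 0) (XT.lf (nat_lit 0) (nat_lit 1567244582) (nat_lit 684) (nat_lit 4203419561) (nat_lit 76) (nat_lit 6779864121) (nat_lit 309) (nat_lit 5) (nat_lit 318) (nat_lit 5) (nat_lit 310) (nat_lit 5) (nat_lit 600) (nat_lit 546) (nat_lit 414)) (XT.lf (nat_lit 0) (nat_lit 3401991235) (nat_lit 684) (nat_lit 692038515) (nat_lit 760) (nat_lit 8593267233) (nat_lit 300) (nat_lit 5) (nat_lit 309) (nat_lit 5) (nat_lit 310) (nat_lit 5) (nat_lit 601) (nat_lit 546) (nat_lit 413)))) (XT.nd (nat_lit 156) (nat_lit 684) (nat_lit 0) (XT.nd (nat_lit 78) (nat_lit 608) (nat_lit 0) (XT.lf (nat_lit 0) (nat_lit 6713805620) (nat_lit 760) (nat_lit 1657744221) (nat_lit 76) (nat_lit 4454402870) (nat_lit 300) (nat_lit 5) (nat_lit 310) (nat_lit 5) (nat_lit 301) (nat_lit 5) (nat_lit 602) (nat_lit 546) (nat_lit 412)) (XT.lf (nat_lit 0) (nat_lit 6180541392) (nat_lit 608) (nat_lit 3235363420) (nat_lit 684) (nat_lit 3550878902) (nat_lit 292) (nat_lit 5) (nat_lit 300) (nat_lit 5) (nat_lit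 301) (nat_lit 5) (nat_lit 603) (nat_lit 546) (nat_lit 411))) (XT.nd (nat_lit 78) (nat_lit 76) (nat_lit 0) (XT.lf (nat_lit 0) (nat_lit 1070358589) (nat_lit 608) (nat_lit 11118208467) (nat_lit 684) (nat_lit 921534565) (nat_lit 284) (nat_lit 5) (nat_lit 292) (nat_lit 5) (nat_lit 293) (nat_lit 5) (nat_lit 604) (nat_lit 546) (nat_lit 410)) (XT.lf (nat_lit 0) (nat_lit 1790012508) (nat_lit 684) (nat_lit 4130976952) (nat_lit 76) (nat_lit 7334014434) (nat_lit 283) (nat_lit 5) (nat_lit 292) (nat_lit 5) (nat_lit 284) (nat_lit 5) (nat_lit 605) (nat_lit 546) (nat_lit 409))))) (XT.nd (nat_lit 312) (nat_lit 1140) (nat_lit 0) (XT.nd (nat_lit 156) (nat_lit 1140) (nat_lit 0) (XT.nd (nat_lit 78) (nat_lit 0) (nat_lit 0) (XT.lf (nat_lit 0) (nat_lit 3963684064) (nat_lit 608) (nat_lit 591235745) (nat_lit 684) (nat_lit 8847533868) (nat_lit 275) (nat_lit 5) (nat_lit 283) (nat_lit 5) (nat_lit 284) (nat_lit 5) (nat_lit 606) (nat_lit 546) (nat_lit 408)) (XT.lf (nat_lit 0) (nat_lit 7420347105)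 (nat_lit 684) (nat_lit 1326004426) (nat_lit 76) (nat_lit 4805597140) (nat_lit 275) (nat_lit 5) (nat_lit 284) (nat_lit 5) (nat_lit 276) (nat_lit 5) (nat_lit 607) (nat_lit 546) (nat_lit 407))) (XT.nd (nat_lit 78) (nat_lit 532) (nat_lit 0) (XT.lf (nat_lit 0) (nat_lit 7019217822) (nat_lit 608) (nat_lit 3359490820) (nat_lit 684) (nat_lit 3325013045) (nat_lit 267) (nat_lit 5) (nat_lit 275) (nat_lit 5) (nat_lit 276) (nat_lit 5) (nat_lit 608) (nat_lit 546) (nat_lit 406)) (XT.lf (nat_lit 0) (nat_lit 1681020997) (nat_lit 532) (nat_lit 11735216560) (nat_lit 608) (nat_lit 441893231) (nat_lit 260) (nat_lit 5) (nat_lit 267) (nat_lit 5) (nat_lit 268) (nat_lit 5) (nat_lit 609) (nat_lit 546) (nat_lit 405)))) (XT.nd (nat_lit 156) (nat_lit 532) (nat_lit 0) (XT.nd (nat_lit 78) (nat_lit 532) (nat_lit 0) (XT.lf (nat_lit 0) (nat_lit 2519845868) (nat_lit 608) (nat_lit 3767168654) (nat_lit 76) (nat_lit 7727215054) (nat_lit 259) (nat_lit 5) (nat_lit 267) (nat_lit 5) (nat_lit 260) (nat_lit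 5) (nat_lit 610) (nat_lit 546) (nat_lit 404)) (XT.lf (nat_lit 0) (nat_lit 4853926062) (nat_lit 532) (nat_lit 699093629) (nat_lit 608) (nat_lit 8620010484) (nat_lit 252) (nat_lit 5) (nat_lit 259) (nat_lit 5) (nat_lit 260) (nat_lit 5) (nat_lit 611) (nat_lit 546) (nat_lit 403))) (XT.nd (nat_lit 78) (nat_lit 532) (nat_lit 0) (XT.lf (nat_lit 0) (nat_lit 8691487193) (nat_lit 608) (nat_lit 686527111) (nat_lit 76) (nat_lit 4956100454) (nat_lit 252) (nat_lit 5) (nat_lit 260) (nat_lit 5) (nat_lit 253) (nat_lit 5) (nat_lit 612) (nat_lit 546) (nat_lit 402)) (XT.lf (nat_lit 0) (nat_lit 8204122148) (nat_lit 532) (nat_lit 3733474713) (nat_lit 608) (nat_lit 2559927282) (nat_lit 245) (nat_lit 5) (nat_lit 252) (nat_lit 5) (nat_lit 253) (nat_lit 5) (nat_lit 613) (nat_lit 546) (nat_lit 401))))))))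
noncomputable def xc127 : XT := (XT.nd (nat_lit 2262) (nat_lit 4560) (nat_lit 0) (XT.nd (nat_lit 1092) (nat_lit 3572) (nat_lit 0) (XT.nd (nat_lit 546) (nat_lit 2280) (nat_lit 0) (XT.nd (nat_lit 234) (nat_lit 1064) (nat_lit 0) (XT.nd (nat_lit 78) (nat_lit 456) (nat_lit 0) (XT.lf (nat_lit 0) (nat_lit 598793350) (nat_lit 608) (nat_lit 12046376533) (nat_lit 76) (nat_lit 2018515865) (nat_lit 237) (nat_lit 5) (nat_lit 245) (nat_lit 5) (nat_lit 238) (nat_lit 5) (nat_lit 614) (nat_lit 546) (nat_lit 400)) (XT.nd (nat_lit 78) (nat_lit 456) (nat_lit 0) (XT.lf (nat_lit 0) (nat_lit 3840822939) (nat_lit 608) (nat_lit 3100456860) (nat_lit 76) (nat_lit 7890464657) (nat_lit 237) (nat_lit 5) (nat_lit 245) (nat_lit 5) (nat_lit 238) (nat_lit 5) (nat_lit 615) (nat_lit 546) (nat_lit 399)) (XT.lf (nat_lit 0) (nat_lit 6086842169) (nat_lit 456) (nat_lit 1087766068) (nat_lit 532) (nat_lit 7828018322) (nat_lit 231) (nat_lit 5) (nat_lit 237) (nat_lit 5) (nat_lit 238) (nat_lit 5) (nat_lit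 616) (nat_lit 546) (nat_lit 398)))) (XT.nd (nat_lit 156) (nat_lit 532) (nat_lit 0) (XT.nd (nat_lit 78) (nat_lit 0) (nat_lit 0) (XT.lf (nat_lit 0) (nat_lit 277733107) (nat_lit 532) (nat_lit 10339284694) (nat_lit 608) (nat_lit 4559070047) (nat_lit 224) (nat_lit 5) (nat_lit 231) (nat_lit 5) (nat_lit 232) (nat_lit 5) (nat_lit 617) (nat_lit 546) (nat_lit 397)) (XT.lf (nat_lit 0) (nat_lit 9751318603) (nat_lit 532) (nat_lit 4431574675) (nat_lit 608) (nat_lit 1169033232) (nat_lit 224) (nat_lit 5) (nat_lit 231) (nat_lit 5) (nat_lit 232) (nat_lit 5) (nat_lit 618) (nat_lit 546) (nat_lit 396))) (XT.nd (nat_lit 78) (nat_lit 0) (nat_lit 0) (XT.lf (nat_lit 0) (nat_lit 2282500684) (nat_lit 532) (nat_lit 11639076843) (nat_lit 76) (nat_lit 1608933404) (nat_lit 217) (nat_lit 5) (nat_lit 224) (nat_lit 5) (nat_lit 218) (nat_lit 5) (nat_lit 619) (nat_lit 546) (nat_lit 395)) (XT.lf (nat_lit 0) (nat_lit 5842496268) (nat_lit 532) (nat_lit 2117297366) (nat_lit 76) (nat_lit 7751617648)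 (nat_lit 217) (nat_lit 5) (nat_lit 224) (nat_lit 5) (nat_lit 218) (nat_lit 5) (nat_lit 620) (nat_lit 546) (nat_lit 394))))) (XT.nd (nat_lit 234) (nat_lit 1292) (nat_lit 0) (XT.nd (nat_lit 78) (nat_lit 532) (nat_lit 0) (XT.lf (nat_lit 0) (nat_lit 7678686216) (nat_lit 456) (nat_lit 1832987744) (nat_lit 532) (nat_lit 6383496499) (nat_lit 211) (nat_lit 5) (nat_lit 217) (nat_lit 5) (nat_lit 218) (nat_lit 5) (nat_lit 621) (nat_lit 546) (nat_lit 393)) (XT.nd (nat_lit 78) (nat_lit 76) (nat_lit 0) (XT.lf (nat_lit 0) (nat_lit 1592051513) (nat_lit 456) (nat_lit 11703714174) (nat_lit 532) (nat_lit 2786008981) (nat_lit 205) (nat_lit 5) (nat_lit 211) (nat_lit 5) (nat_lit 212) (nat_lit 5) (nat_lit 622) (nat_lit 546) (nat_lit 392)) (XT.lf (nat_lit 0) (nat_lit 927744206) (nat_lit 532) (nat_lit 4598187840) (nat_lit 76) (nat_lit 10744946592) (nat_lit 204) (nat_lit 5) (nat_lit 211) (nat_lit 5) (nat_lit 205) (nat_lit 5) (nat_lit 623) (nat_lit 546) (nat_lit 391)))) (XT.nd (nat_lit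 156) (nat_lit 836) (nat_lit 0) (XT.nd (nat_lit 78) (nat_lit 0) (nat_lit 0) (XT.lf (nat_lit 0) (nat_lit 4708249057) (nat_lit 532) (nat_lit 10939773253) (nat_lit 76) (nat_lit 814778871) (nat_lit 198) (nat_lit 5) (nat_lit 205) (nat_lit 5) (nat_lit 199) (nat_lit 5) (nat_lit 624) (nat_lit 546) (nat_lit 390)) (XT.lf (nat_lit 0) (nat_lit 8620595210) (nat_lit 532) (nat_lit 802570895) (nat_lit 76) (nat_lit 7234271865) (nat_lit 198) (nat_lit 5) (nat_lit 205) (nat_lit 5) (nat_lit 199) (nat_lit 5) (nat_lit 625) (nat_lit 546) (nat_lit 389))) (XT.nd (nat_lit 78) (nat_lit 456) (nat_lit 0) (XT.lf (nat_lit 0) (nat_lit 9647409308) (nat_lit 380) (nat_lit 3015215398) (nat_lit 456) (nat_lit 4192314474) (nat_lit 193) (nat_lit 5) (nat_lit 198) (nat_lit 5) (nat_lit 199) (nat_lit 5) (nat_lit 626) (nat_lit 546) (nat_lit 388)) (XT.lf (nat_lit 0) (nat_lit 3264329128) (nat_lit 456) (nat_lit 13559519066) (nat_lit 532) (nat_lit 231775558) (nat_lit 187) (nat_lit 5) (nat_lit 193) (nat_lit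 5) (nat_lit 194) (nat_lit 5) (nat_lit 627) (nat_lit 546) (nat_lit 387)))))) (XT.nd (nat_lit 546) (nat_lit 1900) (nat_lit 0) (XT.nd (nat_lit 234) (nat_lit 836) (nat_lit 0) (XT.nd (nat_lit 78) (nat_lit 760) (nat_lit 0) (XT.lf (nat_lit 0) (nat_lit 3815602573) (nat_lit 532) (nat_lit 3277653550) (nat_lit 76) (nat_lit 10165420389) (nat_lit 186) (nat_lit 5) (nat_lit 193) (nat_lit 5) (nat_lit 187) (nat_lit 5) (nat_lit 628) (nat_lit 546) (nat_lit 386)) (XT.nd (nat_lit 78) (nat_lit 380) (nat_lit 0) (XT.lf (nat_lit 0) (nat_lit 7527159556) (nat_lit 380) (nat_lit 451672551) (nat_lit 456) (nat_lit 9486167814) (nat_lit 181) (nat_lit 5) (nat_lit 186) (nat_lit 5) (nat_lit 187) (nat_lit 5) (nat_lit 629) (nat_lit 546) (nat_lit 385)) (XT.lf (nat_lit 0) (nat_lit 871360304) (nat_lit 380) (nat_lit 11412021204) (nat_lit 456) (nat_lit 5390907559) (nat_lit 176) (nat_lit 5) (nat_lit 181) (nat_lit 5) (nat_lit 182) (nat_lit 5) (nat_lit 630) (nat_lit 546) (nat_lit 384)))) (XT.nd (nat_lit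 156) (nat_lit 380) (nat_lit 0) (XT.nd (nat_lit 78) (nat_lit 456) (nat_lit 0) (XT.lf (nat_lit 0) (nat_lit 12012172575) (nat_lit 380) (nat_lit 4720821069) (nat_lit 456) (nat_lit 1153591283) (nat_lit 176) (nat_lit 5) (nat_lit 181) (nat_lit 5) (nat_lit 182) (nat_lit 5) (nat_lit 631) (nat_lit 546) (nat_lit 383)) (XT.lf (nat_lit 0) (nat_lit 3164806079) (nat_lit 456) (nat_lit 12810614736) (nat_lit 76) (nat_lit 2126537010) (nat_lit 170) (nat_lit 5) (nat_lit 176) (nat_lit 5) (nat_lit 171) (nat_lit 5) (nat_lit 632) (nat_lit 546) (nat_lit 382))) (XT.nd (nat_lit 78) (nat_lit 380) (nat_lit 0) (XT.lf (nat_lit 0) (nat_lit 7614603611) (nat_lit 456) (nat_lit 1616112391) (nat_lit 76) (nat_lit 9089560441) (nat_lit 170) (nat_lit 5) (nat_lit 176) (nat_lit 5) (nat_lit 171) (nat_lit 5) (nat_lit 633) (nat_lit 546) (nat_lit 381)) (XT.lf (nat_lit 0) (nat_lit 9916512322) (nat_lit 380) (nat_lit 2290994046) (nat_lit 456) (nat_lit 6334373219) (nat_lit 165) (nat_lit 5) (nat_lit 170) (nat_lit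 5) (nat_lit 171) (nat_lit 5) (nat_lit 634) (nat_lit 546) (nat_lit 380))))) (XT.nd (nat_lit 312) (nat_lit 760) (nat_lit 0) (XT.nd (nat_lit 156) (nat_lit 684) (nat_lit 0) (XT.nd (nat_lit 78) (nat_lit 76) (nat_lit 0) (XT.lf (nat_lit 0) (nat_lit 2925320716) (nat_lit 380) (nat_lit 14017728254) (nat_lit 456) (nat_lit 1823850521) (nat_lit 160) (nat_lit 5) (nat_lit 165) (nat_lit 5) (nat_lit 166) (nat_lit 5) (nat_lit 635) (nat_lit 546) (nat_lit 379)) (XT.lf (nat_lit 0) (nat_lit 2803718094) (nat_lit 456) (nat_lit 4220824782) (nat_lit 76) (nat_lit 11970251553) (nat_lit 159) (nat_lit 5) (nat_lit 165) (nat_lit 5) (nat_lit 160) (nat_lit 5) (nat_lit 636) (nat_lit 546) (nat_lit 378))) (XT.nd (nat_lit 78) (nat_lit 304) (nat_lit 0) (XT.lf (nat_lit 0) (nat_lit 7540567689) (nat_lit 456) (nat_lit 11521563815) (nat_lit 76) (nat_lit 164051942) (nat_lit 154) (nat_lit 5) (nat_lit 160) (nat_lit 5) (nat_lit 155) (nat_lit 5) (nat_lit 637) (nat_lit 546) (nat_lit 377)) (XT.lf (nat_lit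 0) (nat_lit 407119169) (nat_lit 304) (nat_lit 12032786857) (nat_lit 380) (nat_lit 7020939489) (nat_lit 150) (nat_lit 5) (nat_lit 154) (nat_lit 5) (nat_lit 155) (nat_lit 5) (nat_lit 638) (nat_lit 546) (nat_lit 376)))) (XT.nd (nat_lit 156) (nat_lit 304) (nat_lit 0) (XT.nd (nat_lit 78) (nat_lit 456) (nat_lit 0) (XT.lf (nat_lit 0) (nat_lit 12714990607) (nat_lit 304) (nat_lit 4789726588) (nat_lit 380) (nat_lit 2194134210) (nat_lit 150) (nat_lit 5) (nat_lit 154) (nat_lit 5) (nat_lit 155) (nat_lit 5) (nat_lit 639) (nat_lit 546) (nat_lit 375)) (XT.lf (nat_lit 0) (nat_lit 2735723259) (nat_lit 456) (nat_lit 14593287471) (nat_lit 76) (nat_lit 2611406372) (nat_lit 144) (nat_lit 5) (nat_lit 150) (nat_lit 5) (nat_lit 145) (nat_lit 5) (nat_lit 640) (nat_lit 546) (nat_lit 374))) (XT.nd (nat_lit 78) (nat_lit 304) (nat_lit 0) (XT.lf (nat_lit 0) (nat_lit 7804074732) (nat_lit 456) (nat_lit 2228471458) (nat_lit 76) (nat_lit 10152592616) (nat_lit 144) (nat_lit 5) (nat_lit 150)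 (nat_lit 5) (nat_lit 145) (nat_lit 5) (nat_lit 641) (nat_lit 546) (nat_lit 373)) (XT.lf (nat_lit 0) (nat_lit 10506294092) (nat_lit 304) (nat_lit 2526255183) (nat_lit 380) (nat_lit 7401030826) (nat_lit 140) (nat_lit 5) (nat_lit 144) (nat_lit 5) (nat_lit 145) (nat_lit 5) (nat_lit 642) (nat_lit 546) (nat_lit 372))))))) (XT.nd (nat_lit 1170) (nat_lit 1596) (nat_lit 0) (XT.nd (nat_lit 546) (nat_lit 1520) (nat_lit 0) (XT.nd (nat_lit 234) (nat_lit 684) (nat_lit 0) (XT.nd (nat_lit 78) (nat_lit 380) (nat_lit 0) (XT.lf (nat_lit 0) (nat_lit 2827760485) (nat_lit 380) (nat_lit 15595147389) (nat_lit 456) (nat_lit 2262936329) (nat_lit 135) (nat_lit 5) (nat_lit 140) (nat_lit 5) (nat_lit 141) (nat_lit 5) (nat_lit 643) (nat_lit 546) (nat_lit 371)) (XT.nd (nat_lit 78) (nat_lit 304) (nat_lit 0) (XT.lf (nat_lit 0) (nat_lit 3013270446) (nat_lit 456) (nat_lit 5021067329) (nat_lit 76) (nat_lit 12906941254) (nat_lit 134) (nat_lit 5) (nat_lit 140) (nat_lit 5) (nat_lit 135) (nat_lit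 5) (nat_lit 644) (nat_lit 546) (nat_lit 370)) (XT.lf (nat_lit 0) (nat_lit 8149670785) (nat_lit 304) (nat_lit 258772905) (nat_lit 380) (nat_lit 12792205098) (nat_lit 130) (nat_lit 5) (nat_lit 134) (nat_lit 5) (nat_lit 135) (nat_lit 5) (nat_lit 645) (nat_lit 546) (nat_lit 369)))) (XT.nd (nat_lit 156) (nat_lit 380) (nat_lit 0) (XT.nd (nat_lit 78) (nat_lit 0) (nat_lit 0) (XT.lf (nat_lit 0) (nat_lit 123978641) (nat_lit 304) (nat_lit 13862926304) (nat_lit 380) (nat_lit 7476793556) (nat_lit 126) (nat_lit 5) (nat_lit 130) (nat_lit 5) (nat_lit 131) (nat_lit 5) (nat_lit 646) (nat_lit 546) (nat_lit 368)) (XT.lf (nat_lit 0) (nat_lit 13722741776) (nat_lit 304) (nat_lit 6034406722) (nat_lit 380) (nat_lit 1973256697) (nat_lit 126) (nat_lit 5) (nat_lit 130) (nat_lit 5) (nat_lit 131) (nat_lit 5) (nat_lit 647) (nat_lit 546) (nat_lit 367))) (XT.nd (nat_lit 78) (nat_lit 0) (nat_lit 0) (XT.lf (nat_lit 0) (nat_lit 3633214671) (nat_lit 380) (nat_lit 16387950378) (nat_lit 76) (nat_lit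 1979996345) (nat_lit 121) (nat_lit 5) (nat_lit 126) (nat_lit 5) (nat_lit 122) (nat_lit 5) (nat_lit 648) (nat_lit 546) (nat_lit 366)) (XT.lf (nat_lit 0) (nat_lit 9410566624) (nat_lit 380) (nat_lit 2729332857) (nat_lit 76) (nat_lit 10135469145) (nat_lit 121) (nat_lit 5) (nat_lit 126) (nat_lit 5) (nat_lit 122) (nat_lit 5) (nat_lit 649) (nat_lit 546) (nat_lit 365))))) (XT.nd (nat_lit 312) (nat_lit 608) (nat_lit 0) (XT.nd (nat_lit 156) (nat_lit 380) (nat_lit 0) (XT.nd (nat_lit 78) (nat_lit 228) (nat_lit 0) (XT.lf (nat_lit 0) (nat_lit 11336691697) (nat_lit 304) (nat_lit 4031647775) (nat_lit 380) (nat_lit 7185423280) (nat_lit 117) (nat_lit 5) (nat_lit 121) (nat_lit 5) (nat_lit 122) (nat_lit 5) (nat_lit 650) (nat_lit 546) (nat_lit 364)) (XT.lf (nat_lit 0) (nat_lit 2879306236) (nat_lit 228) (nat_lit 18621922907) (nat_lit 304) (nat_lit 1335376615) (nat_lit 114) (nat_lit 5) (nat_lit 117) (nat_lit 5) (nat_lit 118) (nat_lit 5) (nat_lit 651) (nat_lit 546) (nat_lit 363)))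 (XT.nd (nat_lit 78) (nat_lit 304) (nat_lit 0) (XT.lf (nat_lit 0) (nat_lit 4664725614) (nat_lit 304) (nat_lit 5785718200) (nat_lit 76) (nat_lit 12672184589) (nat_lit 113) (nat_lit 5) (nat_lit 117) (nat_lit 5) (nat_lit 114) (nat_lit 5) (nat_lit 652) (nat_lit 546) (nat_lit 362)) (XT.lf (nat_lit 0) (nat_lit 8761130067) (nat_lit 304) (nat_lit 2054218157) (nat_lit 380) (nat_lit 12597878969) (nat_lit 109) (nat_lit 5) (nat_lit 113) (nat_lit 5) (nat_lit 114) (nat_lit 5) (nat_lit 653) (nat_lit 546) (nat_lit 361)))) (XT.nd (nat_lit 156) (nat_lit 380) (nat_lit 0) (XT.nd (nat_lit 78) (nat_lit 228) (nat_lit 0) (XT.lf (nat_lit 0) (nat_lit 17161869554) (nat_lit 380) (nat_lit 88306159) (nat_lit 76) (nat_lit 6458004730) (nat_lit 109) (nat_lit 5) (nat_lit 114) (nat_lit 5) (nat_lit 110) (nat_lit 5) (nat_lit 654) (nat_lit 546) (nat_lit 360)) (XT.lf (nat_lit 0) (nat_lit 14935049038) (nat_lit 228) (nat_lit 8802547682) (nat_lit 304) (nat_lit 269390730) (nat_lit 106) (nat_lit 5) (nat_lit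 109) (nat_lit 5) (nat_lit 110) (nat_lit 5) (nat_lit 655) (nat_lit 546) (nat_lit 359))) (XT.nd (nat_lit 78) (nat_lit 0) (nat_lit 0) (XT.lf (nat_lit 0) (nat_lit 5972818755) (nat_lit 304) (nat_lit 110909699) (nat_lit 380) (nat_lit 18226624001) (nat_lit 101) (nat_lit 5) (nat_lit 105) (nat_lit 5) (nat_lit 106) (nat_lit 5) (nat_lit 656) (nat_lit 546) (nat_lit 358)) (XT.lf (nat_lit 0) (nat_lit 12670183219) (nat_lit 380) (nat_lit 3250188023) (nat_lit 76) (nat_lit 8697180488) (nat_lit 101) (nat_lit 5) (nat_lit 106) (nat_lit 5) (nat_lit 102) (nat_lit 5) (nat_lit 657) (nat_lit 546) (nat_lit 357)))))) (XT.nd (nat_lit 546) (nat_lit 228) (nat_lit 0) (XT.nd (nat_lit 234) (nat_lit 760) (nat_lit 0) (XT.nd (nat_lit 78) (nat_lit 380) (nat_lit 0) (XT.lf (nat_lit 0) (nat_lit 12285535539) (nat_lit 228) (nat_lit 7175249442) (nat_lit 304) (nat_lit 5468661840) (nat_lit 98) (nat_lit 5) (nat_lit 101) (nat_lit 5) (nat_lit 102) (nat_lit 5) (nat_lit 658) (nat_lit 546) (nat_lit 356)) (XT.nd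 (nat_lit 78) (nat_lit 0) (nat_lit 0) (XT.lf (nat_lit 0) (nat_lit 1169302540) (nat_lit 380) (nat_lit 22312178722) (nat_lit 76) (nat_lit 1765058149) (nat_lit 93) (nat_lit 5) (nat_lit 98) (nat_lit 5) (nat_lit 94) (nat_lit 5) (nat_lit 659) (nat_lit 546) (nat_lit 355)) (XT.lf (nat_lit 0) (nat_lit 7991763049) (nat_lit 380) (nat_lit 6670794561) (nat_lit 76) (nat_lit 10904194217) (nat_lit 93) (nat_lit 5) (nat_lit 98) (nat_lit 5) (nat_lit 94) (nat_lit 5) (nat_lit 660) (nat_lit 546) (nat_lit 354)))) (XT.nd (nat_lit 156) (nat_lit 532) (nat_lit 0) (XT.nd (nat_lit 78) (nat_lit 0) (nat_lit 0) (XT.lf (nat_lit 0) (nat_lit 9393068989) (nat_lit 228) (nat_lit 5610713700) (nat_lit 304) (nat_lit 10888523778) (nat_lit 90) (nat_lit 5) (nat_lit 93) (nat_lit 5) (nat_lit 94) (nat_lit 5) (nat_lit 661) (nat_lit 546) (nat_lit 353)) (XT.lf (nat_lit 0) (nat_lit 22216775586) (nat_lit 304) (nat_lit 392227410) (nat_lit 76) (nat_lit 3614154716) (nat_lit 90) (nat_lit 5) (nat_lit 94) (nat_lit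 5) (nat_lit 91) (nat_lit 5) (nat_lit 662) (nat_lit 546) (nat_lit 352))) (XT.nd (nat_lit 78) (nat_lit 228) (nat_lit 0) (XT.lf (nat_lit 0) (nat_lit 3109411854) (nat_lit 304) (nat_lit 10379477175) (nat_lit 76) (nat_lit 13068635197) (nat_lit 86) (nat_lit 5) (nat_lit 90) (nat_lit 5) (nat_lit 87) (nat_lit 5) (nat_lit 663) (nat_lit 546) (nat_lit 351)) (XT.lf (nat_lit 0) (nat_lit 6228335000) (nat_lit 228) (nat_lit 4121001897) (nat_lit 304) (nat_lit 16548002478) (nat_lit 83) (nat_lit 5) (nat_lit 86) (nat_lit 5) (nat_lit 87) (nat_lit 5) (nat_lit 664) (nat_lit 546) (nat_lit 350))))) (XT.nd (nat_lit 72150) (nat_lit 0) (nat_lit 39824) (XT.nd (nat_lit 71994) (nat_lit 0) (nat_lit 39748) (XT.nd (nat_lit 78) (nat_lit 228) (nat_lit 0) (XT.lf (nat_lit 0) (nat_lit 17831806854) (nat_lit 304) (nat_lit 3982649401) (nat_lit 76) (nat_lit 5427539801) (nat_lit 83) (nat_lit 5) (nat_lit 87) (nat_lit 5) (nat_lit 84) (nat_lit 5) (nat_lit 665) (nat_lit 546) (nat_lit 349)) (XT.lf (nat_lit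 0) (nat_lit 13169779419) (nat_lit 228) (nat_lit 12399445800) (nat_lit 304) (nat_lit 2022214824) (nat_lit 80) (nat_lit 5) (nat_lit 83) (nat_lit 5) (nat_lit 84) (nat_lit 5) (nat_lit 666) (nat_lit 546) (nat_lit 348))) (XT.nd (nat_lit 78) (nat_lit 0) (nat_lit 0) (XT.lf (nat_lit 0) (nat_lit 271498593) (nat_lit 1444) (nat_lit 1821726602) (nat_lit 1444) (nat_lit 1821726602) (nat_lit 603) (nat_lit 3) (nat_lit 622) (nat_lit 3) (nat_lit 622) (nat_lit 5) (nat_lit 547) (nat_lit 547) (nat_lit 466)) (XT.lf (nat_lit 76) (nat_lit 246904804) (nat_lit 0) (nat_lit 1592834952) (nat_lit 1444) (nat_lit 6042543111) (nat_lit 604) (nat_lit 5) (nat_lit 603) (nat_lit 3) (nat_lit 622) (nat_lit 5) (nat_lit 548) (nat_lit 547) (nat_lit 465)))) (XT.nd (nat_lit 156) (nat_lit 0) (nat_lit 0) (XT.nd (nat_lit 78) (nat_lit 0) (nat_lit 0) (XT.lf (nat_lit 0) (nat_lit 3160026909) (nat_lit 1368) (nat_lit 3696031004) (nat_lit 1444) (nat_lit 1079702067) (nat_lit 604) (nat_lit 5) (nat_lit 622) (nat_lit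 5) (nat_lit 623) (nat_lit 5) (nat_lit 549) (nat_lit 547) (nat_lit 464)) (XT.lf (nat_lit 76) (nat_lit 297543248) (nat_lit 0) (nat_lit 4188484241) (nat_lit 1444) (nat_lit 3504695399) (nat_lit 605) (nat_lit 5) (nat_lit 604) (nat_lit 5) (nat_lit 623) (nat_lit 5) (nat_lit 550) (nat_lit 547) (nat_lit 463))) (XT.nd (nat_lit 78) (nat_lit 0) (nat_lit 76) (XT.lf (nat_lit 76) (nat_lit 4403294006) (nat_lit 0) (nat_lit 1427418553) (nat_lit 1444) (nat_lit 2216231561) (nat_lit 605) (nat_lit 5) (nat_lit 604) (nat_lit 5) (nat_lit 623) (nat_lit 5) (nat_lit 551) (nat_lit 547) (nat_lit 462)) (XT.lf (nat_lit 76) (nat_lit 465777841) (nat_lit 0) (nat_lit 6716651683) (nat_lit 1444) (nat_lit 922259802) (nat_lit 606) (nat_lit 5) (nat_lit 605) (nat_lit 5) (nat_lit 624) (nat_lit 5) (nat_lit 552) (nat_lit 547) (nat_lit 461))))))))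
noncomputable def xc128 : XT := (XT.nd (nat_lit 2262) (nat_lit 13300) (nat_lit 0) (XT.nd (nat_lit 1092) (nat_lit 8816) (nat_lit 0) (XT.nd (nat_lit 546) (nat_lit 1368) (nat_lit 0) (XT.nd (nat_lit 234) (nat_lit 1368) (nat_lit 0) (XT.nd (nat_lit 78) (nat_lit 0) (nat_lit 0) (XT.lf (nat_lit 0) (nat_lit 394837470) (nat_lit 1444) (nat_lit 3486997957) (nat_lit 1520) (nat_lit 4281655392) (nat_lit 586) (nat_lit 5) (nat_lit 605) (nat_lit 5) (nat_lit 606) (nat_lit 5) (nat_lit 553) (nat_lit 547) (nat_lit 460)) (XT.nd (nat_lit 78) (nat_lit 0) (nat_lit 76) (XT.lf (nat_lit 76) (nat_lit 733340451) (nat_lit 0) (nat_lit 966374487) (nat_lit 1520) (nat_lit 6524157911) (nat_lit 587) (nat_lit 5) (nat_lit 586) (nat_lit 5) (nat_lit 606) (nat_lit 5) (nat_lit 554) (nat_lit 547) (nat_lit 459)) (XT.lf (nat_lit 0) (nat_lit 3036864051) (nat_lit 1444) (nat_lit 3231527533) (nat_lit 1520) (nat_lit 2016949591) (nat_lit 587) (nat_lit 5) (nat_lit 606) (nat_lit 5) (nat_lit 607) (nat_lit 5) (nat_lit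 555) (nat_lit 547) (nat_lit 458)))) (XT.nd (nat_lit 156) (nat_lit 1444) (nat_lit 0) (XT.nd (nat_lit 78) (nat_lit 0) (nat_lit 0) (XT.lf (nat_lit 76) (nat_lit 1102384692) (nat_lit 0) (nat_lit 3282111240) (nat_lit 1520) (nat_lit 3963870232) (nat_lit 588) (nat_lit 5) (nat_lit 587) (nat_lit 5) (nat_lit 607) (nat_lit 5) (nat_lit 556) (nat_lit 547) (nat_lit 457)) (XT.lf (nat_lit 76) (nat_lit 5548569085) (nat_lit 0) (nat_lit 202845582) (nat_lit 1520) (nat_lit 2661392354) (nat_lit 588) (nat_lit 5) (nat_lit 587) (nat_lit 5) (nat_lit 607) (nat_lit 5) (nat_lit 557) (nat_lit 547) (nat_lit 456))) (XT.nd (nat_lit 78) (nat_lit 1520) (nat_lit 0) (XT.lf (nat_lit 76) (nat_lit 1588395426) (nat_lit 0) (nat_lit 5557960139) (nat_lit 1520) (nat_lit 1332169467) (nat_lit 589) (nat_lit 5) (nat_lit 588) (nat_lit 5) (nat_lit 608) (nat_lit 5) (nat_lit 558) (nat_lit 547) (nat_lit 455)) (XT.lf (nat_lit 0) (nat_lit 15568828) (nat_lit 1520) (nat_lit 2396650103) (nat_lit 1596) (nat_lit 6133492517)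 (nat_lit 568) (nat_lit 5) (nat_lit 588) (nat_lit 5) (nat_lit 589) (nat_lit 5) (nat_lit 559) (nat_lit 547) (nat_lit 454))))) (XT.nd (nat_lit 234) (nat_lit 1444) (nat_lit 0) (XT.nd (nat_lit 78) (nat_lit 0) (nat_lit 0) (XT.lf (nat_lit 0) (nat_lit 1364140775) (nat_lit 1520) (nat_lit 6431542967) (nat_lit 1596) (nat_lit 818549301) (nat_lit 569) (nat_lit 5) (nat_lit 589) (nat_lit 5) (nat_lit 590) (nat_lit 5) (nat_lit 560) (nat_lit 547) (nat_lit 453)) (XT.nd (nat_lit 78) (nat_lit 0) (nat_lit 0) (XT.lf (nat_lit 0) (nat_lit 2744444014) (nat_lit 1520) (nat_lit 1832662541) (nat_lit 1596) (nat_lit 4106925177) (nat_lit 569) (nat_lit 5) (nat_lit 589) (nat_lit 5) (nat_lit 590) (nat_lit 5) (nat_lit 561) (nat_lit 547) (nat_lit 452)) (XT.lf (nat_lit 76) (nat_lit 2877421688) (nat_lit 0) (nat_lit 1266746701) (nat_lit 1596) (nat_lit 4611223527) (nat_lit 570) (nat_lit 5) (nat_lit 569) (nat_lit 5) (nat_lit 590) (nat_lit 5) (nat_lit 562) (nat_lit 547) (nat_lit 451)))) (XT.nd (nat_lit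 156) (nat_lit 1520) (nat_lit 0) (XT.nd (nat_lit 78) (nat_lit 0) (nat_lit 0) (XT.lf (nat_lit 0) (nat_lit 5571557922) (nat_lit 1520) (nat_lit 1154136607) (nat_lit 1596) (nat_lit 2102493148) (nat_lit 570) (nat_lit 5) (nat_lit 590) (nat_lit 5) (nat_lit 591) (nat_lit 5) (nat_lit 563) (nat_lit 547) (nat_lit 450)) (XT.lf (nat_lit 76) (nat_lit 3685519619) (nat_lit 0) (nat_lit 3348404045) (nat_lit 1596) (nat_lit 1868388872) (nat_lit 571) (nat_lit 5) (nat_lit 570) (nat_lit 5) (nat_lit 591) (nat_lit 5) (nat_lit 564) (nat_lit 547) (nat_lit 449))) (XT.nd (nat_lit 78) (nat_lit 1596) (nat_lit 0) (XT.lf (nat_lit 0) (nat_lit 8508502767) (nat_lit 1520) (nat_lit 359865036) (nat_lit 1596) (nat_lit 109894488) (nat_lit 571) (nat_lit 5) (nat_lit 591) (nat_lit 5) (nat_lit 592) (nat_lit 5) (nat_lit 565) (nat_lit 547) (nat_lit 448)) (XT.lf (nat_lit 0) (nat_lit 971645679) (nat_lit 1596) (nat_lit 4447706282) (nat_lit 1672) (nat_lit 3635709431) (nat_lit 550) (nat_lit 5) (nat_lit 571)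 (nat_lit 5) (nat_lit 572) (nat_lit 5) (nat_lit 566) (nat_lit 547) (nat_lit 447)))))) (XT.nd (nat_lit 546) (nat_lit 5624) (nat_lit 0) (XT.nd (nat_lit 234) (nat_lit 3192) (nat_lit 0) (XT.nd (nat_lit 78) (nat_lit 0) (nat_lit 76) (XT.lf (nat_lit 76) (nat_lit 530408196) (nat_lit 0) (nat_lit 1886308673) (nat_lit 1672) (nat_lit 6716996563) (nat_lit 551) (nat_lit 5) (nat_lit 550) (nat_lit 5) (nat_lit 572) (nat_lit 5) (nat_lit 567) (nat_lit 547) (nat_lit 446)) (XT.nd (nat_lit 78) (nat_lit 0) (nat_lit 0) (XT.lf (nat_lit 0) (nat_lit 3907531769) (nat_lit 1596) (nat_lit 3575587537) (nat_lit 1672) (nat_lit 1730483949) (nat_lit 551) (nat_lit 5) (nat_lit 572) (nat_lit 5) (nat_lit 573) (nat_lit 5) (nat_lit 568) (nat_lit 547) (nat_lit 445)) (XT.lf (nat_lit 76) (nat_lit 1541514929) (nat_lit 0) (nat_lit 3885273887) (nat_lit 1672) (nat_lit 3868331096) (nat_lit 552) (nat_lit 5) (nat_lit 551) (nat_lit 5) (nat_lit 573) (nat_lit 5) (nat_lit 569) (nat_lit 547) (nat_lit 444)))) (XT.nd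 (nat_lit 156) (nat_lit 1748) (nat_lit 0) (XT.nd (nat_lit 78) (nat_lit 1520) (nat_lit 0) (XT.lf (nat_lit 76) (nat_lit 6790657062) (nat_lit 0) (nat_lit 186239482) (nat_lit 1672) (nat_lit 2401362572) (nat_lit 552) (nat_lit 5) (nat_lit 551) (nat_lit 5) (nat_lit 573) (nat_lit 5) (nat_lit 570) (nat_lit 547) (nat_lit 443)) (XT.lf (nat_lit 0) (nat_lit 2674615779) (nat_lit 1596) (nat_lit 5901006851) (nat_lit 1672) (nat_lit 887087646) (nat_lit 531) (nat_lit 5) (nat_lit 552) (nat_lit 5) (nat_lit 553) (nat_lit 5) (nat_lit 571) (nat_lit 547) (nat_lit 442))) (XT.nd (nat_lit 78) (nat_lit 1672) (nat_lit 0) (XT.lf (nat_lit 0) (nat_lit 644703545) (nat_lit 1672) (nat_lit 1496043097) (nat_lit 76) (nat_lit 7408102806) (nat_lit 530) (nat_lit 5) (nat_lit 552) (nat_lit 5) (nat_lit 531) (nat_lit 5) (nat_lit 572) (nat_lit 547) (nat_lit 441)) (XT.lf (nat_lit 0) (nat_lit 2209596395) (nat_lit 1748) (nat_lit 5718969383) (nat_lit 76) (nat_lit 1707742882) (nat_lit 508) (nat_lit 5) (nat_lit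 531) (nat_lit 5) (nat_lit 509) (nat_lit 5) (nat_lit 573) (nat_lit 547) (nat_lit 440))))) (XT.nd (nat_lit 312) (nat_lit 2052) (nat_lit 0) (XT.nd (nat_lit 156) (nat_lit 1824) (nat_lit 0) (XT.nd (nat_lit 78) (nat_lit 1748) (nat_lit 0) (XT.lf (nat_lit 0) (nat_lit 3808000871) (nat_lit 1748) (nat_lit 299336665) (nat_lit 76) (nat_lit 5618136627) (nat_lit 508) (nat_lit 5) (nat_lit 531) (nat_lit 5) (nat_lit 509) (nat_lit 5) (nat_lit 574) (nat_lit 547) (nat_lit 439)) (XT.lf (nat_lit 0) (nat_lit 5279255189) (nat_lit 1748) (nat_lit 171758318) (nat_lit 1824) (nat_lit 4365158023) (nat_lit 485) (nat_lit 5) (nat_lit 508) (nat_lit 5) (nat_lit 509) (nat_lit 5) (nat_lit 575) (nat_lit 547) (nat_lit 438))) (XT.nd (nat_lit 78) (nat_lit 0) (nat_lit 0) (XT.lf (nat_lit 0) (nat_lit 1034444038) (nat_lit 1824) (nat_lit 6104814458) (nat_lit 1900) (nat_lit 2769178231) (nat_lit 461) (nat_lit 5) (nat_lit 485) (nat_lit 5) (nat_lit 486) (nat_lit 5) (nat_lit 576) (nat_lit 547) (nat_lit 437))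 (XT.lf (nat_lit 0) (nat_lit 6758707992) (nat_lit 1824) (nat_lit 2113116418) (nat_lit 1900) (nat_lit 1130513001) (nat_lit 461) (nat_lit 5) (nat_lit 485) (nat_lit 5) (nat_lit 486) (nat_lit 5) (nat_lit 577) (nat_lit 547) (nat_lit 436)))) (XT.nd (nat_lit 156) (nat_lit 912) (nat_lit 0) (XT.nd (nat_lit 78) (nat_lit 0) (nat_lit 0) (XT.lf (nat_lit 0) (nat_lit 542242230) (nat_lit 1140) (nat_lit 7601024663) (nat_lit 76) (nat_lit 1954612006) (nat_lit 446) (nat_lit 5) (nat_lit 461) (nat_lit 5) (nat_lit 447) (nat_lit 5) (nat_lit 578) (nat_lit 547) (nat_lit 435)) (XT.lf (nat_lit 0) (nat_lit 2248786623) (nat_lit 1140) (nat_lit 1839480878) (nat_lit 76) (nat_lit 6106606055) (nat_lit 446) (nat_lit 5) (nat_lit 461) (nat_lit 5) (nat_lit 447) (nat_lit 5) (nat_lit 579) (nat_lit 547) (nat_lit 434))) (XT.nd (nat_lit 78) (nat_lit 0) (nat_lit 0) (XT.lf (nat_lit 0) (nat_lit 3996348028) (nat_lit 988) (nat_lit 6222178727) (nat_lit 76) (nat_lit 75144831) (nat_lit 434) (nat_lit 5) (nat_lit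 447) (nat_lit 5) (nat_lit 435) (nat_lit 5) (nat_lit 580) (nat_lit 547) (nat_lit 433)) (XT.lf (nat_lit 0) (nat_lit 5798594759) (nat_lit 988) (nat_lit 314717364) (nat_lit 76) (nat_lit 4280739949) (nat_lit 434) (nat_lit 5) (nat_lit 447) (nat_lit 5) (nat_lit 435) (nat_lit 5) (nat_lit 581) (nat_lit 547) (nat_lit 432))))))) (XT.nd (nat_lit 1092) (nat_lit 5852) (nat_lit 0) (XT.nd (nat_lit 546) (nat_lit 3116) (nat_lit 0) (XT.nd (nat_lit 234) (nat_lit 2508) (nat_lit 0) (XT.nd (nat_lit 78) (nat_lit 912) (nat_lit 0) (XT.lf (nat_lit 0) (nat_lit 5767929861) (nat_lit 912) (nat_lit 1887027208) (nat_lit 988) (nat_lit 2841122843) (nat_lit 422) (nat_lit 5) (nat_lit 434) (nat_lit 5) (nat_lit 435) (nat_lit 5) (nat_lit 582) (nat_lit 547) (nat_lit 431)) (XT.nd (nat_lit 78) (nat_lit 76) (nat_lit 0) (XT.lf (nat_lit 0) (nat_lit 1359594608) (nat_lit 836) (nat_lit 8196427567) (nat_lit 912) (nat_lit 1043975756) (nat_lit 411) (nat_lit 5) (nat_lit 422) (nat_lit 5) (nat_lit 423) (nat_lit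 5) (nat_lit 583) (nat_lit 547) (nat_lit 430)) (XT.lf (nat_lit 0) (nat_lit 804212745) (nat_lit 912) (nat_lit 3109009906) (nat_lit 76) (nat_lit 6792161322) (nat_lit 410) (nat_lit 5) (nat_lit 422) (nat_lit 5) (nat_lit 411) (nat_lit 5) (nat_lit 584) (nat_lit 547) (nat_lit 429)))) (XT.nd (nat_lit 156) (nat_lit 1672) (nat_lit 0) (XT.nd (nat_lit 78) (nat_lit 0) (nat_lit 0) (XT.lf (nat_lit 0) (nat_lit 2680446778) (nat_lit 912) (nat_lit 7654921192) (nat_lit 76) (nat_lit 477271610) (nat_lit 399) (nat_lit 5) (nat_lit 411) (nat_lit 5) (nat_lit 400) (nat_lit 5) (nat_lit 585) (nat_lit 547) (nat_lit 428)) (XT.lf (nat_lit 0) (nat_lit 4622750838) (nat_lit 912) (nat_lit 1374629401) (nat_lit 76) (nat_lit 4924090198) (nat_lit 399) (nat_lit 5) (nat_lit 411) (nat_lit 5) (nat_lit 400) (nat_lit 5) (nat_lit 586) (nat_lit 547) (nat_lit 427))) (XT.nd (nat_lit 78) (nat_lit 836) (nat_lit 0) (XT.lf (nat_lit 0) (nat_lit 5079377812) (nat_lit 836) (nat_lit 1539490785) (nat_lit 912) (nat_lit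 4413310989) (nat_lit 388) (nat_lit 5) (nat_lit 399) (nat_lit 5) (nat_lit 400) (nat_lit 5) (nat_lit 587) (nat_lit 547) (nat_lit 426)) (XT.lf (nat_lit 0) (nat_lit 504470069) (nat_lit 836) (nat_lit 8164745389) (nat_lit 912) (nat_lit 2475602330) (nat_lit 377) (nat_lit 5) (nat_lit 388) (nat_lit 5) (nat_lit 389) (nat_lit 5) (nat_lit 588) (nat_lit 547) (nat_lit 425))))) (XT.nd (nat_lit 234) (nat_lit 2280) (nat_lit 0) (XT.nd (nat_lit 78) (nat_lit 836) (nat_lit 0) (XT.lf (nat_lit 0) (nat_lit 7142633418) (nat_lit 836) (nat_lit 3650457056) (nat_lit 912) (nat_lit 465968843) (nat_lit 377) (nat_lit 5) (nat_lit 388) (nat_lit 5) (nat_lit 389) (nat_lit 5) (nat_lit 589) (nat_lit 547) (nat_lit 424)) (XT.nd (nat_lit 78) (nat_lit 0) (nat_lit 0) (XT.lf (nat_lit 0) (nat_lit 1568633192) (nat_lit 836) (nat_lit 8839206086) (nat_lit 76) (nat_lit 967430708) (nat_lit 366) (nat_lit 5) (nat_lit 377) (nat_lit 5) (nat_lit 367) (nat_lit 5) (nat_lit 590) (nat_lit 547) (nat_lit 423)) (XT.lf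 (nat_lit 0) (nat_lit 3672563464) (nat_lit 836) (nat_lit 2161988077) (nat_lit 76) (nat_lit 5658495147) (nat_lit 366) (nat_lit 5) (nat_lit 377) (nat_lit 5) (nat_lit 367) (nat_lit 5) (nat_lit 591) (nat_lit 547) (nat_lit 422)))) (XT.nd (nat_lit 156) (nat_lit 1520) (nat_lit 0) (XT.nd (nat_lit 78) (nat_lit 0) (nat_lit 0) (XT.lf (nat_lit 0) (nat_lit 4691982670) (nat_lit 760) (nat_lit 1140276813) (nat_lit 836) (nat_lit 5780646608) (nat_lit 356) (nat_lit 5) (nat_lit 366) (nat_lit 5) (nat_lit 367) (nat_lit 5) (nat_lit 592) (nat_lit 547) (nat_lit 421)) (XT.lf (nat_lit 0) (nat_lit 8056861814) (nat_lit 836) (nat_lit 64842718) (nat_lit 76) (nat_lit 3613024797) (nat_lit 356) (nat_lit 5) (nat_lit 367) (nat_lit 5) (nat_lit 357) (nat_lit 5) (nat_lit 593) (nat_lit 547) (nat_lit 420))) (XT.nd (nat_lit 78) (nat_lit 836) (nat_lit 0) (XT.lf (nat_lit 0) (nat_lit 6994375107) (nat_lit 684) (nat_lit 3368293486) (nat_lit 760) (nat_lit 1495587065) (nat_lit 347) (nat_lit 5) (nat_lit 356)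 (nat_lit 5) (nat_lit 357) (nat_lit 5) (nat_lit 594) (nat_lit 547) (nat_lit 419)) (XT.lf (nat_lit 0) (nat_lit 729165345) (nat_lit 836) (nat_lit 9776422333) (nat_lit 76) (nat_lit 1478402743) (nat_lit 336) (nat_lit 5) (nat_lit 347) (nat_lit 5) (nat_lit 337) (nat_lit 5) (nat_lit 595) (nat_lit 547) (nat_lit 418)))))) (XT.nd (nat_lit 546) (nat_lit 3116) (nat_lit 0) (XT.nd (nat_lit 234) (nat_lit 2052) (nat_lit 0) (XT.nd (nat_lit 78) (nat_lit 684) (nat_lit 0) (XT.lf (nat_lit 0) (nat_lit 3017595510) (nat_lit 836) (nat_lit 2676084687) (nat_lit 76) (nat_lit 6417578621) (nat_lit 336) (nat_lit 5) (nat_lit 347) (nat_lit 5) (nat_lit 337) (nat_lit 5) (nat_lit 596) (nat_lit 547) (nat_lit 417)) (XT.nd (nat_lit 78) (nat_lit 0) (nat_lit 0) (XT.lf (nat_lit 0) (nat_lit 4608617073) (nat_lit 684) (nat_lit 757440545) (nat_lit 760) (nat_lit 6874730506) (nat_lit 327) (nat_lit 5) (nat_lit 336) (nat_lit 5) (nat_lit 337) (nat_lit 5) (nat_lit 597) (nat_lit 547) (nat_lit 416)) (XT.lf (nat_lit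 0) (nat_lit 7791853664) (nat_lit 760) (nat_lit 343412846) (nat_lit 76) (nat_lit 4237035005) (nat_lit 327) (nat_lit 5) (nat_lit 337) (nat_lit 5) (nat_lit 328) (nat_lit 5) (nat_lit 598) (nat_lit 547) (nat_lit 415)))) (XT.nd (nat_lit 156) (nat_lit 684) (nat_lit 0) (XT.nd (nat_lit 78) (nat_lit 684) (nat_lit 0) (XT.lf (nat_lit 0) (nat_lit 7162134650) (nat_lit 684) (nat_lit 3140367402) (nat_lit 760) (nat_lit 2203217172) (nat_lit 318) (nat_lit 5) (nat_lit 327) (nat_lit 5) (nat_lit 328) (nat_lit 5) (nat_lit 599) (nat_lit 547) (nat_lit 414)) (XT.lf (nat_lit 0) (nat_lit 232881641) (nat_lit 684) (nat_lit 10464567205) (nat_lit 76) (nat_lit 1944043832) (nat_lit 309) (nat_lit 5) (nat_lit 318) (nat_lit 5) (nat_lit 310) (nat_lit 5) (nat_lit 600) (nat_lit 547) (nat_lit 413))) (XT.nd (nat_lit 78) (nat_lit 684) (nat_lit 0) (XT.lf (nat_lit 0) (nat_lit 2730183752) (nat_lit 684) (nat_lit 2912758124) (nat_lit 76) (nat_lit 7135909546) (nat_lit 309) (nat_lit 5) (nat_lit 318) (nat_lit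 5) (nat_lit 310) (nat_lit 5) (nat_lit 601) (nat_lit 547) (nat_lit 412)) (XT.lf (nat_lit 0) (nat_lit 4835716613) (nat_lit 684) (nat_lit 458466824) (nat_lit 760) (nat_lit 7624439591) (nat_lit 300) (nat_lit 5) (nat_lit 309) (nat_lit 5) (nat_lit 310) (nat_lit 5) (nat_lit 602) (nat_lit 547) (nat_lit 411))))) (XT.nd (nat_lit 312) (nat_lit 1824) (nat_lit 0) (XT.nd (nat_lit 156) (nat_lit 684) (nat_lit 0) (XT.nd (nat_lit 78) (nat_lit 608) (nat_lit 0) (XT.lf (nat_lit 0) (nat_lit 7946002769) (nat_lit 760) (nat_lit 331586279) (nat_lit 76) (nat_lit 4782870929) (nat_lit 300) (nat_lit 5) (nat_lit 310) (nat_lit 5) (nat_lit 301) (nat_lit 5) (nat_lit 603) (nat_lit 547) (nat_lit 410)) (XT.lf (nat_lit 0) (nat_lit 7654522199) (nat_lit 608) (nat_lit 3034861381) (nat_lit 684) (nat_lit 2514980275) (nat_lit 292) (nat_lit 5) (nat_lit 300) (nat_lit 5) (nat_lit 301) (nat_lit 5) (nat_lit 604) (nat_lit 547) (nat_lit 409))) (XT.nd (nat_lit 78) (nat_lit 0) (nat_lit 0) (XT.lf (nat_lit 0)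 (nat_lit 153938672) (nat_lit 684) (nat_lit 10898623366) (nat_lit 76) (nat_lit 2298181863) (nat_lit 283) (nat_lit 5) (nat_lit 292) (nat_lit 5) (nat_lit 284) (nat_lit 5) (nat_lit 605) (nat_lit 547) (nat_lit 408)) (XT.lf (nat_lit 0) (nat_lit 2886181499) (nat_lit 684) (nat_lit 2864761540) (nat_lit 76) (nat_lit 7747904256) (nat_lit 283) (nat_lit 5) (nat_lit 292) (nat_lit 5) (nat_lit 284) (nat_lit 5) (nat_lit 606) (nat_lit 547) (nat_lit 407)))) (XT.nd (nat_lit 156) (nat_lit 1216) (nat_lit 0) (XT.nd (nat_lit 78) (nat_lit 0) (nat_lit 0) (XT.lf (nat_lit 0) (nat_lit 5382918782) (nat_lit 608) (nat_lit 311376537) (nat_lit 684) (nat_lit 7955193555) (nat_lit 275) (nat_lit 5) (nat_lit 283) (nat_lit 5) (nat_lit 284) (nat_lit 5) (nat_lit 607) (nat_lit 547) (nat_lit 406)) (XT.lf (nat_lit 0) (nat_lit 8598333378) (nat_lit 684) (nat_lit 20092055) (nat_lit 76) (nat_lit 5183923236) (nat_lit 275) (nat_lit 5) (nat_lit 284) (nat_lit 5) (nat_lit 276) (nat_lit 5) (nat_lit 608) (nat_lit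 547) (nat_lit 405))) (XT.nd (nat_lit 78) (nat_lit 608) (nat_lit 0) (XT.lf (nat_lit 0) (nat_lit 8483268635) (nat_lit 608) (nat_lit 3120999802) (nat_lit 684) (nat_lit 2353121513) (nat_lit 267) (nat_lit 5) (nat_lit 275) (nat_lit 5) (nat_lit 276) (nat_lit 5) (nat_lit 609) (nat_lit 547) (nat_lit 404)) (XT.lf (nat_lit 0) (nat_lit 570532209) (nat_lit 608) (nat_lit 11070928976) (nat_lit 76) (nat_lit 2473539054) (nat_lit 259) (nat_lit 5) (nat_lit 267) (nat_lit 5) (nat_lit 260) (nat_lit 5) (nat_lit 610) (nat_lit 547) (nat_lit 403))))))))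
noncomputable def xc129 : XT := (XT.nd (nat_lit 2262) (nat_lit 5092) (nat_lit 0) (XT.nd (nat_lit 1092) (nat_lit 4104) (nat_lit 0) (XT.nd (nat_lit 546) (nat_lit 2052) (nat_lit 0) (XT.nd (nat_lit 234) (nat_lit 1064) (nat_lit 0) (XT.nd (nat_lit 78) (nat_lit 1064) (nat_lit 0) (XT.lf (nat_lit 0) (nat_lit 3565685811) (nat_lit 608) (nat_lit 2522123237) (nat_lit 76) (nat_lit 8186752480) (nat_lit 259) (nat_lit 5) (nat_lit 267) (nat_lit 5) (nat_lit 260) (nat_lit 5) (nat_lit 611) (nat_lit 547) (nat_lit 402)) (XT.nd (nat_lit 78) (nat_lit 532) (nat_lit 0) (XT.lf (nat_lit 0) (nat_lit 6262706604) (nat_lit 532) (nat_lit 385814455) (nat_lit 608) (nat_lit 7788237979) (nat_lit 252) (nat_lit 5) (nat_lit 259) (nat_lit 5) (nat_lit 260) (nat_lit 5) (nat_lit 612) (nat_lit 547) (nat_lit 401)) (XT.lf (nat_lit 0) (nat_lit 610999802) (nat_lit 532) (nat_lit 9225505494) (nat_lit 608) (nat_lit 4764825911) (nat_lit 245) (nat_lit 5) (nat_lit 252) (nat_lit 5) (nat_lit 253) (nat_lit 5) (nat_lit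 613) (nat_lit 547) (nat_lit 400)))) (XT.nd (nat_lit 156) (nat_lit 456) (nat_lit 0) (XT.nd (nat_lit 78) (nat_lit 608) (nat_lit 0) (XT.lf (nat_lit 0) (nat_lit 9662874700) (nat_lit 532) (nat_lit 3470136174) (nat_lit 608) (nat_lit 1635289256) (nat_lit 245) (nat_lit 5) (nat_lit 252) (nat_lit 5) (nat_lit 253) (nat_lit 5) (nat_lit 614) (nat_lit 547) (nat_lit 399)) (XT.lf (nat_lit 0) (nat_lit 1565606304) (nat_lit 608) (nat_lit 10971554374) (nat_lit 76) (nat_lit 2400662391) (nat_lit 237) (nat_lit 5) (nat_lit 245) (nat_lit 5) (nat_lit 238) (nat_lit 5) (nat_lit 615) (nat_lit 547) (nat_lit 398))) (XT.nd (nat_lit 78) (nat_lit 456) (nat_lit 0) (XT.lf (nat_lit 0) (nat_lit 4853754189) (nat_lit 608) (nat_lit 1872515321) (nat_lit 76) (nat_lit 8383348665) (nat_lit 237) (nat_lit 5) (nat_lit 245) (nat_lit 5) (nat_lit 238) (nat_lit 5) (nat_lit 616) (nat_lit 547) (nat_lit 397)) (XT.lf (nat_lit 0) (nat_lit 7490043172) (nat_lit 456) (nat_lit 754136945) (nat_lit 532) (nat_lit 7039939267)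 (nat_lit 231) (nat_lit 5) (nat_lit 237) (nat_lit 5) (nat_lit 238) (nat_lit 5) (nat_lit 617) (nat_lit 547) (nat_lit 396))))) (XT.nd (nat_lit 234) (nat_lit 988) (nat_lit 0) (XT.nd (nat_lit 78) (nat_lit 532) (nat_lit 0) (XT.lf (nat_lit 0) (nat_lit 1572466634) (nat_lit 532) (nat_lit 10175445164) (nat_lit 608) (nat_lit 3713289368) (nat_lit 224) (nat_lit 5) (nat_lit 231) (nat_lit 5) (nat_lit 232) (nat_lit 5) (nat_lit 618) (nat_lit 547) (nat_lit 395)) (XT.nd (nat_lit 78) (nat_lit 532) (nat_lit 0) (XT.lf (nat_lit 0) (nat_lit 11210245823) (nat_lit 532) (nat_lit 4156848106) (nat_lit 608) (nat_lit 273823622) (nat_lit 224) (nat_lit 5) (nat_lit 231) (nat_lit 5) (nat_lit 232) (nat_lit 5) (nat_lit 619) (nat_lit 547) (nat_lit 394)) (XT.lf (nat_lit 0) (nat_lit 3227554308) (nat_lit 532) (nat_lit 10588699744) (nat_lit 76) (nat_lit 2006843814) (nat_lit 217) (nat_lit 5) (nat_lit 224) (nat_lit 5) (nat_lit 218) (nat_lit 5) (nat_lit 620) (nat_lit 547) (nat_lit 393)))) (XT.nd (nat_lit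 156) (nat_lit 532) (nat_lit 0) (XT.nd (nat_lit 78) (nat_lit 456) (nat_lit 0) (XT.lf (nat_lit 0) (nat_lit 6841114439) (nat_lit 532) (nat_lit 901644651) (nat_lit 76) (nat_lit 8265210532) (nat_lit 217) (nat_lit 5) (nat_lit 224) (nat_lit 5) (nat_lit 218) (nat_lit 5) (nat_lit 621) (nat_lit 547) (nat_lit 392)) (XT.lf (nat_lit 0) (nat_lit 9081982296) (nat_lit 456) (nat_lit 1492517843) (nat_lit 532) (nat_lit 5621088034) (nat_lit 211) (nat_lit 5) (nat_lit 217) (nat_lit 5) (nat_lit 218) (nat_lit 5) (nat_lit 622) (nat_lit 547) (nat_lit 391))) (XT.nd (nat_lit 78) (nat_lit 76) (nat_lit 0) (XT.lf (nat_lit 0) (nat_lit 2880331233) (nat_lit 456) (nat_lit 11547391004) (nat_lit 532) (nat_lit 1958333920) (nat_lit 205) (nat_lit 5) (nat_lit 211) (nat_lit 5) (nat_lit 212) (nat_lit 5) (nat_lit 623) (nat_lit 547) (nat_lit 390)) (XT.lf (nat_lit 0) (nat_lit 1801014141) (nat_lit 532) (nat_lit 3446958356) (nat_lit 76) (nat_lit 11331197521) (nat_lit 204) (nat_lit 5) (nat_lit 211) (nat_lit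 5) (nat_lit 205) (nat_lit 5) (nat_lit 624) (nat_lit 547) (nat_lit 389)))))) (XT.nd (nat_lit 546) (nat_lit 1976) (nat_lit 0) (XT.nd (nat_lit 234) (nat_lit 1292) (nat_lit 0) (XT.nd (nat_lit 78) (nat_lit 380) (nat_lit 0) (XT.lf (nat_lit 0) (nat_lit 5650914408) (nat_lit 532) (nat_lit 9909129530) (nat_lit 76) (nat_lit 1215011993) (nat_lit 198) (nat_lit 5) (nat_lit 205) (nat_lit 5) (nat_lit 199) (nat_lit 5) (nat_lit 625) (nat_lit 547) (nat_lit 388)) (XT.nd (nat_lit 78) (nat_lit 0) (nat_lit 0) (XT.lf (nat_lit 0) (nat_lit 411717819) (nat_lit 380) (nat_lit 9215825548) (nat_lit 456) (nat_lit 7346321986) (nat_lit 193) (nat_lit 5) (nat_lit 198) (nat_lit 5) (nat_lit 199) (nat_lit 5) (nat_lit 626) (nat_lit 547) (nat_lit 387)) (XT.lf (nat_lit 0) (nat_lit 11057239056) (nat_lit 380) (nat_lit 2682091013) (nat_lit 456) (nat_lit 3436208787) (nat_lit 193) (nat_lit 5) (nat_lit 198) (nat_lit 5) (nat_lit 199) (nat_lit 5) (nat_lit 627) (nat_lit 547) (nat_lit 386)))) (XT.nd (nat_lit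 156) (nat_lit 760) (nat_lit 0) (XT.nd (nat_lit 78) (nat_lit 0) (nat_lit 0) (XT.lf (nat_lit 0) (nat_lit 589883954) (nat_lit 532) (nat_lit 12831888146) (nat_lit 76) (nat_lit 3958502053) (nat_lit 186) (nat_lit 5) (nat_lit 193) (nat_lit 5) (nat_lit 187) (nat_lit 5) (nat_lit 628) (nat_lit 547) (nat_lit 385)) (XT.lf (nat_lit 0) (nat_lit 4698968007) (nat_lit 532) (nat_lit 2133699333) (nat_lit 76) (nat_lit 10755013316) (nat_lit 186) (nat_lit 5) (nat_lit 193) (nat_lit 5) (nat_lit 187) (nat_lit 5) (nat_lit 629) (nat_lit 547) (nat_lit 384))) (XT.nd (nat_lit 78) (nat_lit 380) (nat_lit 0) (XT.lf (nat_lit 0) (nat_lit 8879252751) (nat_lit 380) (nat_lit 58186065) (nat_lit 456) (nat_lit 8860852740) (nat_lit 181) (nat_lit 5) (nat_lit 186) (nat_lit 5) (nat_lit 187) (nat_lit 5) (nat_lit 630) (nat_lit 547) (nat_lit 383)) (XT.lf (nat_lit 0) (nat_lit 2095739392) (nat_lit 380) (nat_lit 11227071071) (nat_lit 456) (nat_lit 4689061940) (nat_lit 176) (nat_lit 5) (nat_lit 181) (nat_lit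 5) (nat_lit 182) (nat_lit 5) (nat_lit 631) (nat_lit 547) (nat_lit 382))))) (XT.nd (nat_lit 312) (nat_lit 1140) (nat_lit 0) (XT.nd (nat_lit 156) (nat_lit 380) (nat_lit 0) (XT.nd (nat_lit 78) (nat_lit 456) (nat_lit 0) (XT.lf (nat_lit 0) (nat_lit 13435702186) (nat_lit 380) (nat_lit 4410148709) (nat_lit 456) (nat_lit 382875099) (nat_lit 176) (nat_lit 5) (nat_lit 181) (nat_lit 5) (nat_lit 182) (nat_lit 5) (nat_lit 632) (nat_lit 547) (nat_lit 381)) (XT.lf (nat_lit 0) (nat_lit 4006481635) (nat_lit 456) (nat_lit 11868080487) (nat_lit 76) (nat_lit 2573841621) (nat_lit 170) (nat_lit 5) (nat_lit 176) (nat_lit 5) (nat_lit 171) (nat_lit 5) (nat_lit 633) (nat_lit 547) (nat_lit 380))) (XT.nd (nat_lit 78) (nat_lit 380) (nat_lit 0) (XT.lf (nat_lit 0) (nat_lit 8530012776) (nat_lit 456) (nat_lit 473192930) (nat_lit 76) (nat_lit 9668188779) (nat_lit 170) (nat_lit 5) (nat_lit 176) (nat_lit 5) (nat_lit 171) (nat_lit 5) (nat_lit 634) (nat_lit 547) (nat_lit 379)) (XT.lf (nat_lit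 0) (nat_lit 11282352424) (nat_lit 380) (nat_lit 1925038333) (nat_lit 456) (nat_lit 5690187085) (nat_lit 165) (nat_lit 5) (nat_lit 170) (nat_lit 5) (nat_lit 171) (nat_lit 5) (nat_lit 635) (nat_lit 547) (nat_lit 378)))) (XT.nd (nat_lit 156) (nat_lit 684) (nat_lit 0) (XT.nd (nat_lit 78) (nat_lit 76) (nat_lit 0) (XT.lf (nat_lit 0) (nat_lit 4156039805) (nat_lit 380) (nat_lit 13877017967) (nat_lit 456) (nat_lit 1094132583) (nat_lit 160) (nat_lit 5) (nat_lit 165) (nat_lit 5) (nat_lit 166) (nat_lit 5) (nat_lit 636) (nat_lit 547) (nat_lit 377)) (XT.lf (nat_lit 0) (nat_lit 3601112225) (nat_lit 456) (nat_lit 3146138185) (nat_lit 76) (nat_lit 12612590282) (nat_lit 159) (nat_lit 5) (nat_lit 165) (nat_lit 5) (nat_lit 160) (nat_lit 5) (nat_lit 637) (nat_lit 547) (nat_lit 376))) (XT.nd (nat_lit 78) (nat_lit 304) (nat_lit 0) (XT.lf (nat_lit 0) (nat_lit 8428348135) (nat_lit 456) (nat_lit 10588518548) (nat_lit 76) (nat_lit 579078275) (nat_lit 154) (nat_lit 5) (nat_lit 160) (nat_lit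 5) (nat_lit 155) (nat_lit 5) (nat_lit 638) (nat_lit 547) (nat_lit 375)) (XT.lf (nat_lit 0) (nat_lit 1571083645) (nat_lit 304) (nat_lit 11847643583) (nat_lit 380) (nat_lit 6416712407) (nat_lit 150) (nat_lit 5) (nat_lit 154) (nat_lit 5) (nat_lit 155) (nat_lit 5) (nat_lit 639) (nat_lit 547) (nat_lit 374))))))) (XT.nd (nat_lit 1170) (nat_lit 1976) (nat_lit 0) (XT.nd (nat_lit 546) (nat_lit 1596) (nat_lit 0) (XT.nd (nat_lit 234) (nat_lit 1064) (nat_lit 0) (XT.nd (nat_lit 78) (nat_lit 456) (nat_lit 0) (XT.lf (nat_lit 0) (nat_lit 14102449334) (nat_lit 304) (nat_lit 4468071109) (nat_lit 380) (nat_lit 1507971922) (nat_lit 150) (nat_lit 5) (nat_lit 154) (nat_lit 5) (nat_lit 155) (nat_lit 5) (nat_lit 640) (nat_lit 547) (nat_lit 373)) (XT.nd (nat_lit 78) (nat_lit 0) (nat_lit 0) (XT.lf (nat_lit 0) (nat_lit 3506888674) (nat_lit 456) (nat_lit 13738357780) (nat_lit 76) (nat_lit 3079628930) (nat_lit 144) (nat_lit 5) (nat_lit 150) (nat_lit 5) (nat_lit 145) (nat_lit 5) (nat_lit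 641) (nat_lit 547) (nat_lit 372)) (XT.lf (nat_lit 0) (nat_lit 8662559119) (nat_lit 456) (nat_lit 1148731632) (nat_lit 76) (nat_lit 10763482146) (nat_lit 144) (nat_lit 5) (nat_lit 150) (nat_lit 5) (nat_lit 145) (nat_lit 5) (nat_lit 642) (nat_lit 547) (nat_lit 371)))) (XT.nd (nat_lit 156) (nat_lit 380) (nat_lit 0) (XT.nd (nat_lit 78) (nat_lit 380) (nat_lit 0) (XT.lf (nat_lit 0) (nat_lit 11833332457) (nat_lit 304) (nat_lit 2155749826) (nat_lit 380) (nat_lit 6839231556) (nat_lit 140) (nat_lit 5) (nat_lit 144) (nat_lit 5) (nat_lit 145) (nat_lit 5) (nat_lit 643) (nat_lit 547) (nat_lit 370)) (XT.lf (nat_lit 0) (nat_lit 4005010613) (nat_lit 380) (nat_lit 15478549000) (nat_lit 456) (nat_lit 1602137776) (nat_lit 135) (nat_lit 5) (nat_lit 140) (nat_lit 5) (nat_lit 141) (nat_lit 5) (nat_lit 644) (nat_lit 547) (nat_lit 369))) (XT.nd (nat_lit 78) (nat_lit 304) (nat_lit 0) (XT.lf (nat_lit 0) (nat_lit 3756670376) (nat_lit 456) (nat_lit 4013670613) (nat_lit 76) (nat_lit 13576081874)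 (nat_lit 134) (nat_lit 5) (nat_lit 140) (nat_lit 5) (nat_lit 135) (nat_lit 5) (nat_lit 645) (nat_lit 547) (nat_lit 368)) (XT.lf (nat_lit 0) (nat_lit 9254534514) (nat_lit 380) (nat_lit 12198948246) (nat_lit 76) (nat_lit 157601881) (nat_lit 130) (nat_lit 5) (nat_lit 135) (nat_lit 5) (nat_lit 131) (nat_lit 5) (nat_lit 646) (nat_lit 547) (nat_lit 367))))) (XT.nd (nat_lit 312) (nat_lit 912) (nat_lit 0) (XT.nd (nat_lit 156) (nat_lit 380) (nat_lit 0) (XT.nd (nat_lit 78) (nat_lit 0) (nat_lit 0) (XT.lf (nat_lit 0) (nat_lit 1230482385) (nat_lit 304) (nat_lit 13709638204) (nat_lit 380) (nat_lit 6939364014) (nat_lit 126) (nat_lit 5) (nat_lit 130) (nat_lit 5) (nat_lit 131) (nat_lit 5) (nat_lit 647) (nat_lit 547) (nat_lit 366)) (XT.lf (nat_lit 0) (nat_lit 15079573249) (nat_lit 304) (nat_lit 5732990322) (nat_lit 380) (nat_lit 1339226328) (nat_lit 126) (nat_lit 5) (nat_lit 130) (nat_lit 5) (nat_lit 131) (nat_lit 5) (nat_lit 648) (nat_lit 547) (nat_lit 365))) (XT.nd (nat_lit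 78) (nat_lit 0) (nat_lit 0) (XT.lf (nat_lit 0) (nat_lit 4367309063) (nat_lit 380) (nat_lit 15621232477) (nat_lit 76) (nat_lit 2439397220) (nat_lit 121) (nat_lit 5) (nat_lit 126) (nat_lit 5) (nat_lit 122) (nat_lit 5) (nat_lit 649) (nat_lit 547) (nat_lit 364)) (XT.lf (nat_lit 0) (nat_lit 10247238837) (nat_lit 380) (nat_lit 1710902936) (nat_lit 76) (nat_lit 10749748085) (nat_lit 121) (nat_lit 5) (nat_lit 126) (nat_lit 5) (nat_lit 122) (nat_lit 5) (nat_lit 650) (nat_lit 547) (nat_lit 363)))) (XT.nd (nat_lit 156) (nat_lit 380) (nat_lit 0) (XT.nd (nat_lit 78) (nat_lit 228) (nat_lit 0) (XT.lf (nat_lit 0) (nat_lit 12629382789) (nat_lit 304) (nat_lit 3688990336) (nat_lit 380) (nat_lit 6673594954) (nat_lit 117) (nat_lit 5) (nat_lit 121) (nat_lit 5) (nat_lit 122) (nat_lit 5) (nat_lit 651) (nat_lit 547) (nat_lit 362)) (XT.lf (nat_lit 0) (nat_lit 4005891797) (nat_lit 228) (nat_lit 18565062527) (nat_lit 304) (nat_lit 709573270) (nat_lit 114) (nat_lit 5) (nat_lit 117) (nat_lit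 5) (nat_lit 118) (nat_lit 5) (nat_lit 652) (nat_lit 547) (nat_lit 361))) (XT.nd (nat_lit 78) (nat_lit 304) (nat_lit 0) (XT.lf (nat_lit 0) (nat_lit 5389346675) (nat_lit 304) (nat_lit 4844988269) (nat_lit 76) (nat_lit 13338103862) (nat_lit 113) (nat_lit 5) (nat_lit 117) (nat_lit 5) (nat_lit 114) (nat_lit 5) (nat_lit 653) (nat_lit 547) (nat_lit 360)) (XT.lf (nat_lit 0) (nat_lit 9985846672) (nat_lit 304) (nat_lit 1671570124) (nat_lit 380) (nat_lit 12211544382) (nat_lit 109) (nat_lit 5) (nat_lit 113) (nat_lit 5) (nat_lit 114) (nat_lit 5) (nat_lit 654) (nat_lit 547) (nat_lit 359)))))) (XT.nd (nat_lit 546) (nat_lit 760) (nat_lit 0) (XT.nd (nat_lit 234) (nat_lit 608) (nat_lit 0) (XT.nd (nat_lit 78) (nat_lit 380) (nat_lit 0) (XT.lf (nat_lit 0) (nat_lit 961035211) (nat_lit 228) (nat_lit 17166500392) (nat_lit 304) (nat_lit 6042344849) (nat_lit 106) (nat_lit 5) (nat_lit 109) (nat_lit 5) (nat_lit 110) (nat_lit 5) (nat_lit 655) (nat_lit 547) (nat_lit 358)) (XT.nd (nat_lit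 78) (nat_lit 304) (nat_lit 0) (XT.lf (nat_lit 0) (nat_lit 343689966) (nat_lit 304) (nat_lit 8211736379) (nat_lit 76) (nat_lit 15919424796) (nat_lit 105) (nat_lit 5) (nat_lit 109) (nat_lit 5) (nat_lit 106) (nat_lit 5) (nat_lit 656) (nat_lit 547) (nat_lit 357)) (XT.lf (nat_lit 0) (nat_lit 6816933757) (nat_lit 380) (nat_lit 17661079451) (nat_lit 76) (nat_lit 306301521) (nat_lit 101) (nat_lit 5) (nat_lit 106) (nat_lit 5) (nat_lit 102) (nat_lit 5) (nat_lit 657) (nat_lit 547) (nat_lit 356)))) (XT.nd (nat_lit 156) (nat_lit 380) (nat_lit 0) (XT.nd (nat_lit 78) (nat_lit 228) (nat_lit 0) (XT.lf (nat_lit 0) (nat_lit 13523846918) (nat_lit 380) (nat_lit 2293161957) (nat_lit 76) (nat_lit 9280874807) (nat_lit 101) (nat_lit 5) (nat_lit 106) (nat_lit 5) (nat_lit 102) (nat_lit 5) (nat_lit 658) (nat_lit 547) (nat_lit 355)) (XT.lf (nat_lit 0) (nat_lit 13546552195) (nat_lit 228) (nat_lit 6898530755) (nat_lit 304) (nat_lit 4971037551) (nat_lit 98) (nat_lit 5) (nat_lit 101) (nat_lit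 5) (nat_lit 102) (nat_lit 5) (nat_lit 659) (nat_lit 547) (nat_lit 354))) (XT.nd (nat_lit 78) (nat_lit 0) (nat_lit 0) (XT.lf (nat_lit 0) (nat_lit 1789323692) (nat_lit 380) (nat_lit 21732727503) (nat_lit 76) (nat_lit 2217473220) (nat_lit 93) (nat_lit 5) (nat_lit 98) (nat_lit 5) (nat_lit 94) (nat_lit 5) (nat_lit 660) (nat_lit 547) (nat_lit 353)) (XT.lf (nat_lit 0) (nat_lit 8736534684) (nat_lit 380) (nat_lit 5798627321) (nat_lit 76) (nat_lit 11531213306) (nat_lit 93) (nat_lit 5) (nat_lit 98) (nat_lit 5) (nat_lit 94) (nat_lit 5) (nat_lit 661) (nat_lit 547) (nat_lit 352))))) (XT.nd (nat_lit 312) (nat_lit 0) (nat_lit 0) (XT.nd (nat_lit 156) (nat_lit 304) (nat_lit 0) (XT.nd (nat_lit 78) (nat_lit 228) (nat_lit 0) (XT.lf (nat_lit 0) (nat_lit 10579897821) (nat_lit 228) (nat_lit 5303913515) (nat_lit 304) (nat_lit 10514729628) (nat_lit 90) (nat_lit 5) (nat_lit 93) (nat_lit 5) (nat_lit 94) (nat_lit 5) (nat_lit 662) (nat_lit 547) (nat_lit 351)) (XT.lf (nat_lit 0) (nat_lit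 595839213) (nat_lit 228) (nat_lit 22640389009) (nat_lit 304) (nat_lit 3499877974) (nat_lit 87) (nat_lit 5) (nat_lit 90) (nat_lit 5) (nat_lit 91) (nat_lit 5) (nat_lit 663) (nat_lit 547) (nat_lit 350))) (XT.nd (nat_lit 78) (nat_lit 228) (nat_lit 0) (XT.lf (nat_lit 0) (nat_lit 3741783911) (nat_lit 304) (nat_lit 9597881430) (nat_lit 76) (nat_lit 13737593846) (nat_lit 86) (nat_lit 5) (nat_lit 90) (nat_lit 5) (nat_lit 87) (nat_lit 5) (nat_lit 664) (nat_lit 547) (nat_lit 349)) (XT.lf (nat_lit 0) (nat_lit 7335579191) (nat_lit 228) (nat_lit 3786128384) (nat_lit 304) (nat_lit 16302259294) (nat_lit 83) (nat_lit 5) (nat_lit 86) (nat_lit 5) (nat_lit 87) (nat_lit 5) (nat_lit 665) (nat_lit 547) (nat_lit 348)))) (XT.nd (nat_lit 72072) (nat_lit 0) (nat_lit 39520) (XT.nd (nat_lit 71994) (nat_lit 0) (nat_lit 39520) (XT.lf (nat_lit 0) (nat_lit 18745397192) (nat_lit 304) (nat_lit 3090451959) (nat_lit 76) (nat_lit 5939836353) (nat_lit 83) (nat_lit 5) (nat_lit 87) (nat_lit 5) (nat_lit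 84) (nat_lit 5) (nat_lit 666) (nat_lit 547) (nat_lit 347)) (XT.lf (nat_lit 0) (nat_lit 1558264443) (nat_lit 1444) (nat_lit 1204633383) (nat_lit 1444) (nat_lit 1204633383) (nat_lit 603) (nat_lit 3) (nat_lit 622) (nat_lit 3) (nat_lit 622) (nat_lit 5) (nat_lit 548) (nat_lit 548) (nat_lit 464))) (XT.nd (nat_lit 78) (nat_lit 0) (nat_lit 0) (XT.lf (nat_lit 76) (nat_lit 1550299353) (nat_lit 0) (nat_lit 2847088929) (nat_lit 1444) (nat_lit 3591940997) (nat_lit 604) (nat_lit 5) (nat_lit 603) (nat_lit 3) (nat_lit 622) (nat_lit 5) (nat_lit 549) (nat_lit 548) (nat_lit 463)) (XT.lf (nat_lit 76) (nat_lit 5604910356) (nat_lit 0) (nat_lit 82496949) (nat_lit 1444) (nat_lit 2357605680) (nat_lit 604) (nat_lit 5) (nat_lit 603) (nat_lit 3) (nat_lit 622) (nat_lit 5) (nat_lit 550) (nat_lit 548) (nat_lit 462))))))))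
noncomputable def xc130 : XT := (XT.nd (nat_lit 2262) (nat_lit 12996) (nat_lit 0) (XT.nd (nat_lit 1092) (nat_lit 9272) (nat_lit 0) (XT.nd (nat_lit 546) (nat_lit 1292) (nat_lit 0) (XT.nd (nat_lit 234) (nat_lit 0) (nat_lit 76) (XT.nd (nat_lit 78) (nat_lit 1444) (nat_lit 0) (XT.lf (nat_lit 76) (nat_lit 1625126202) (nat_lit 0) (nat_lit 5374540232) (nat_lit 1444) (nat_lit 1102217447) (nat_lit 605) (nat_lit 5) (nat_lit 604) (nat_lit 5) (nat_lit 623) (nat_lit 5) (nat_lit 551) (nat_lit 548) (nat_lit 461)) (XT.nd (nat_lit 78) (nat_lit 0) (nat_lit 76) (XT.lf (nat_lit 0) (nat_lit 161389089) (nat_lit 1444) (nat_lit 2374167679) (nat_lit 1520) (nat_lit 5624605526) (nat_lit 585) (nat_lit 5) (nat_lit 604) (nat_lit 5) (nat_lit 605) (nat_lit 5) (nat_lit 552) (nat_lit 548) (nat_lit 460)) (XT.lf (nat_lit 0) (nat_lit 1418865888) (nat_lit 1444) (nat_lit 6412674320) (nat_lit 1520) (nat_lit 388255395) (nat_lit 586) (nat_lit 5) (nat_lit 605) (nat_lit 5) (nat_lit 606) (nat_lit 5) (nat_lit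 553) (nat_lit 548) (nat_lit 459)))) (XT.nd (nat_lit 156) (nat_lit 0) (nat_lit 76) (XT.nd (nat_lit 78) (nat_lit 0) (nat_lit 0) (XT.lf (nat_lit 0) (nat_lit 2703943407) (nat_lit 1444) (nat_lit 2210749960) (nat_lit 1520) (nat_lit 3365881322) (nat_lit 586) (nat_lit 5) (nat_lit 605) (nat_lit 5) (nat_lit 606) (nat_lit 5) (nat_lit 554) (nat_lit 548) (nat_lit 458)) (XT.lf (nat_lit 76) (nat_lit 2085140032) (nat_lit 0) (nat_lit 1913338197) (nat_lit 1520) (nat_lit 4344418108) (nat_lit 587) (nat_lit 5) (nat_lit 586) (nat_lit 5) (nat_lit 606) (nat_lit 5) (nat_lit 555) (nat_lit 548) (nat_lit 457))) (XT.nd (nat_lit 78) (nat_lit 0) (nat_lit 0) (XT.lf (nat_lit 0) (nat_lit 5312058354) (nat_lit 1444) (nat_lit 1934776151) (nat_lit 1520) (nat_lit 1159768873) (nat_lit 587) (nat_lit 5) (nat_lit 606) (nat_lit 5) (nat_lit 607) (nat_lit 5) (nat_lit 556) (nat_lit 548) (nat_lit 456)) (XT.lf (nat_lit 76) (nat_lit 2476857858) (nat_lit 0) (nat_lit 4175145131) (nat_lit 1520) (nat_lit 1819581723)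 (nat_lit 588) (nat_lit 5) (nat_lit 587) (nat_lit 5) (nat_lit 607) (nat_lit 5) (nat_lit 557) (nat_lit 548) (nat_lit 455))))) (XT.nd (nat_lit 234) (nat_lit 0) (nat_lit 76) (XT.nd (nat_lit 78) (nat_lit 1444) (nat_lit 0) (XT.lf (nat_lit 76) (nat_lit 6985447792) (nat_lit 0) (nat_lit 1018070794) (nat_lit 1520) (nat_lit 534653619) (nat_lit 588) (nat_lit 5) (nat_lit 587) (nat_lit 5) (nat_lit 607) (nat_lit 5) (nat_lit 558) (nat_lit 548) (nat_lit 454)) (XT.nd (nat_lit 78) (nat_lit 0) (nat_lit 0) (XT.lf (nat_lit 0) (nat_lit 771924075) (nat_lit 1520) (nat_lit 5625861681) (nat_lit 1596) (nat_lit 2208084265) (nat_lit 568) (nat_lit 5) (nat_lit 588) (nat_lit 5) (nat_lit 589) (nat_lit 5) (nat_lit 559) (nat_lit 548) (nat_lit 453)) (XT.lf (nat_lit 0) (nat_lit 2087366339) (nat_lit 1520) (nat_lit 1078653495) (nat_lit 1596) (nat_lit 5509035296) (nat_lit 568) (nat_lit 5) (nat_lit 588) (nat_lit 5) (nat_lit 589) (nat_lit 5) (nat_lit 560) (nat_lit 548) (nat_lit 452)))) (XT.nd (nat_lit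 156) (nat_lit 0) (nat_lit 0) (XT.nd (nat_lit 78) (nat_lit 0) (nat_lit 0) (XT.lf (nat_lit 0) (nat_lit 3426669753) (nat_lit 1520) (nat_lit 5157866181) (nat_lit 1596) (nat_lit 161138784) (nat_lit 569) (nat_lit 5) (nat_lit 589) (nat_lit 5) (nat_lit 590) (nat_lit 5) (nat_lit 561) (nat_lit 548) (nat_lit 451)) (XT.lf (nat_lit 0) (nat_lit 4794672269) (nat_lit 1520) (nat_lit 494504375) (nat_lit 1596) (nat_lit 3528493580) (nat_lit 569) (nat_lit 5) (nat_lit 589) (nat_lit 5) (nat_lit 590) (nat_lit 5) (nat_lit 562) (nat_lit 548) (nat_lit 450))) (XT.nd (nat_lit 78) (nat_lit 0) (nat_lit 76) (XT.lf (nat_lit 76) (nat_lit 4300736727) (nat_lit 0) (nat_lit 1891397566) (nat_lit 1596) (nat_lit 2698931110) (nat_lit 570) (nat_lit 5) (nat_lit 569) (nat_lit 5) (nat_lit 590) (nat_lit 5) (nat_lit 563) (nat_lit 548) (nat_lit 449)) (XT.lf (nat_lit 76) (nat_lit 206957805) (nat_lit 0) (nat_lit 7400111629) (nat_lit 1596) (nat_lit 1359070291) (nat_lit 571) (nat_lit 5) (nat_lit 570) (nat_lit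 5) (nat_lit 591) (nat_lit 5) (nat_lit 564) (nat_lit 548) (nat_lit 448)))))) (XT.nd (nat_lit 546) (nat_lit 7828) (nat_lit 0) (XT.nd (nat_lit 234) (nat_lit 0) (nat_lit 76) (XT.nd (nat_lit 78) (nat_lit 0) (nat_lit 0) (XT.lf (nat_lit 0) (nat_lit 25852548) (nat_lit 1596) (nat_lit 3910918101) (nat_lit 1672) (nat_lit 5105578263) (nat_lit 549) (nat_lit 5) (nat_lit 570) (nat_lit 5) (nat_lit 571) (nat_lit 5) (nat_lit 565) (nat_lit 548) (nat_lit 447)) (XT.nd (nat_lit 78) (nat_lit 0) (nat_lit 76) (XT.lf (nat_lit 76) (nat_lit 1020605071) (nat_lit 0) (nat_lit 381638777) (nat_lit 1672) (nat_lit 7718021025) (nat_lit 550) (nat_lit 5) (nat_lit 549) (nat_lit 5) (nat_lit 571) (nat_lit 5) (nat_lit 566) (nat_lit 548) (nat_lit 446)) (XT.lf (nat_lit 0) (nat_lit 2829379954) (nat_lit 1596) (nat_lit 3135182659) (nat_lit 1672) (nat_lit 3234713788) (nat_lit 550) (nat_lit 5) (nat_lit 571) (nat_lit 5) (nat_lit 572) (nat_lit 5) (nat_lit 567) (nat_lit 548) (nat_lit 445)))) (XT.nd (nat_lit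 156) (nat_lit 0) (nat_lit 76) (XT.nd (nat_lit 78) (nat_lit 0) (nat_lit 76) (XT.lf (nat_lit 76) (nat_lit 1933273860) (nat_lit 0) (nat_lit 2343073042) (nat_lit 1672) (nat_lit 5003697050) (nat_lit 551) (nat_lit 5) (nat_lit 550) (nat_lit 5) (nat_lit 572) (nat_lit 5) (nat_lit 568) (nat_lit 548) (nat_lit 444)) (XT.lf (nat_lit 0) (nat_lit 5758795171) (nat_lit 1596) (nat_lit 2243842501) (nat_lit 1672) (nat_lit 1359659869) (nat_lit 551) (nat_lit 5) (nat_lit 572) (nat_lit 5) (nat_lit 573) (nat_lit 5) (nat_lit 569) (nat_lit 548) (nat_lit 443))) (XT.nd (nat_lit 78) (nat_lit 0) (nat_lit 0) (XT.lf (nat_lit 76) (nat_lit 2966370062) (nat_lit 0) (nat_lit 4316351313) (nat_lit 1672) (nat_lit 2163239740) (nat_lit 552) (nat_lit 5) (nat_lit 551) (nat_lit 5) (nat_lit 573) (nat_lit 5) (nat_lit 570) (nat_lit 548) (nat_lit 442)) (XT.lf (nat_lit 76) (nat_lit 8293161217) (nat_lit 0) (nat_lit 536407359) (nat_lit 1672) (nat_lit 701882002) (nat_lit 552) (nat_lit 5) (nat_lit 551) (nat_lit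 5) (nat_lit 573) (nat_lit 5) (nat_lit 571) (nat_lit 548) (nat_lit 441))))) (XT.nd (nat_lit 312) (nat_lit 2964) (nat_lit 0) (XT.nd (nat_lit 156) (nat_lit 3420) (nat_lit 0) (XT.nd (nat_lit 78) (nat_lit 0) (nat_lit 0) (XT.lf (nat_lit 0) (nat_lit 804702481) (nat_lit 1672) (nat_lit 5501232092) (nat_lit 76) (nat_lit 3312087379) (nat_lit 530) (nat_lit 5) (nat_lit 552) (nat_lit 5) (nat_lit 531) (nat_lit 5) (nat_lit 572) (nat_lit 548) (nat_lit 440)) (XT.lf (nat_lit 0) (nat_lit 2321974950) (nat_lit 1672) (nat_lit 136993819) (nat_lit 76) (nat_lit 7247465487) (nat_lit 530) (nat_lit 5) (nat_lit 552) (nat_lit 5) (nat_lit 531) (nat_lit 5) (nat_lit 573) (nat_lit 548) (nat_lit 439))) (XT.nd (nat_lit 78) (nat_lit 1748) (nat_lit 0) (XT.lf (nat_lit 0) (nat_lit 3892795858) (nat_lit 1748) (nat_lit 4418906250) (nat_lit 76) (nat_lit 1484449993) (nat_lit 508) (nat_lit 5) (nat_lit 531) (nat_lit 5) (nat_lit 509) (nat_lit 5) (nat_lit 574) (nat_lit 548) (nat_lit 438)) (XT.lf (nat_lit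 0) (nat_lit 1095755991) (nat_lit 1748) (nat_lit 4402389404) (nat_lit 1824) (nat_lit 4389457991) (nat_lit 485) (nat_lit 5) (nat_lit 508) (nat_lit 5) (nat_lit 509) (nat_lit 5) (nat_lit 575) (nat_lit 548) (nat_lit 437)))) (XT.nd (nat_lit 156) (nat_lit 1140) (nat_lit 0) (XT.nd (nat_lit 78) (nat_lit 1824) (nat_lit 0) (XT.lf (nat_lit 0) (nat_lit 6762425565) (nat_lit 1748) (nat_lit 381915284) (nat_lit 1824) (nat_lit 2836369371) (nat_lit 485) (nat_lit 5) (nat_lit 508) (nat_lit 5) (nat_lit 509) (nat_lit 5) (nat_lit 576) (nat_lit 548) (nat_lit 436)) (XT.lf (nat_lit 0) (nat_lit 2456564106) (nat_lit 1824) (nat_lit 6386504951) (nat_lit 1900) (nat_lit 1232219232) (nat_lit 461) (nat_lit 5) (nat_lit 485) (nat_lit 5) (nat_lit 486) (nat_lit 5) (nat_lit 577) (nat_lit 548) (nat_lit 435))) (XT.nd (nat_lit 78) (nat_lit 1064) (nat_lit 0) (XT.lf (nat_lit 0) (nat_lit 402645946) (nat_lit 1900) (nat_lit 1906495740) (nat_lit 76) (nat_lit 7862486383) (nat_lit 460) (nat_lit 5) (nat_lit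 485) (nat_lit 5) (nat_lit 461) (nat_lit 5) (nat_lit 578) (nat_lit 548) (nat_lit 434)) (XT.lf (nat_lit 0) (nat_lit 2071648121) (nat_lit 1140) (nat_lit 6336349897) (nat_lit 76) (nat_lit 1861376147) (nat_lit 446) (nat_lit 5) (nat_lit 461) (nat_lit 5) (nat_lit 447) (nat_lit 5) (nat_lit 579) (nat_lit 548) (nat_lit 433))))))) (XT.nd (nat_lit 1092) (nat_lit 6156) (nat_lit 0) (XT.nd (nat_lit 546) (nat_lit 3268) (nat_lit 0) (XT.nd (nat_lit 234) (nat_lit 1748) (nat_lit 0) (XT.nd (nat_lit 78) (nat_lit 1824) (nat_lit 0) (XT.lf (nat_lit 0) (nat_lit 3782547695) (nat_lit 1140) (nat_lit 487353574) (nat_lit 76) (nat_lit 6099004746) (nat_lit 446) (nat_lit 5) (nat_lit 461) (nat_lit 5) (nat_lit 447) (nat_lit 5) (nat_lit 580) (nat_lit 548) (nat_lit 432)) (XT.nd (nat_lit 78) (nat_lit 912) (nat_lit 0) (XT.lf (nat_lit 0) (nat_lit 5533216372) (nat_lit 912) (nat_lit 11106267) (nat_lit 988) (nat_lit 4925773871) (nat_lit 434) (nat_lit 5) (nat_lit 446) (nat_lit 5) (nat_lit 447) (nat_lit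 5) (nat_lit 581) (nat_lit 548) (nat_lit 431)) (XT.lf (nat_lit 0) (nat_lit 1075261389) (nat_lit 912) (nat_lit 6285478284) (nat_lit 988) (nat_lit 3212184145) (nat_lit 422) (nat_lit 5) (nat_lit 434) (nat_lit 5) (nat_lit 435) (nat_lit 5) (nat_lit 582) (nat_lit 548) (nat_lit 430)))) (XT.nd (nat_lit 156) (nat_lit 836) (nat_lit 0) (XT.nd (nat_lit 78) (nat_lit 912) (nat_lit 0) (XT.lf (nat_lit 0) (nat_lit 7256366083) (nat_lit 912) (nat_lit 1971577321) (nat_lit 988) (nat_lit 1449576209) (nat_lit 422) (nat_lit 5) (nat_lit 434) (nat_lit 5) (nat_lit 435) (nat_lit 5) (nat_lit 583) (nat_lit 548) (nat_lit 429)) (XT.lf (nat_lit 0) (nat_lit 359258930) (nat_lit 912) (nat_lit 8006835973) (nat_lit 76) (nat_lit 2417757409) (nat_lit 410) (nat_lit 5) (nat_lit 422) (nat_lit 5) (nat_lit 411) (nat_lit 5) (nat_lit 584) (nat_lit 548) (nat_lit 428))) (XT.nd (nat_lit 78) (nat_lit 836) (nat_lit 0) (XT.lf (nat_lit 0) (nat_lit 2202795464) (nat_lit 912) (nat_lit 1787404153) (nat_lit 76) (nat_lit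 6901562768) (nat_lit 410) (nat_lit 5) (nat_lit 422) (nat_lit 5) (nat_lit 411) (nat_lit 5) (nat_lit 585) (nat_lit 548) (nat_lit 427)) (XT.lf (nat_lit 0) (nat_lit 4098439016) (nat_lit 912) (nat_lit 6406040758) (nat_lit 76) (nat_lit 497047187) (nat_lit 399) (nat_lit 5) (nat_lit 411) (nat_lit 5) (nat_lit 400) (nat_lit 5) (nat_lit 586) (nat_lit 548) (nat_lit 426))))) (XT.nd (nat_lit 234) (nat_lit 1596) (nat_lit 0) (XT.nd (nat_lit 78) (nat_lit 1672) (nat_lit 0) (XT.lf (nat_lit 0) (nat_lit 6052836543) (nat_lit 912) (nat_lit 27632913) (nat_lit 76) (nat_lit 5032601555) (nat_lit 399) (nat_lit 5) (nat_lit 411) (nat_lit 5) (nat_lit 400) (nat_lit 5) (nat_lit 587) (nat_lit 548) (nat_lit 425)) (XT.nd (nat_lit 78) (nat_lit 836) (nat_lit 0) (XT.lf (nat_lit 0) (nat_lit 6546411752) (nat_lit 836) (nat_lit 1525102236) (nat_lit 912) (nat_lit 3154829103) (nat_lit 388) (nat_lit 5) (nat_lit 399) (nat_lit 5) (nat_lit 400) (nat_lit 5) (nat_lit 588) (nat_lit 548) (nat_lit 424)) (XT.lf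 (nat_lit 0) (nat_lit 1897037131) (nat_lit 836) (nat_lit 8249206585) (nat_lit 912) (nat_lit 1195324288) (nat_lit 377) (nat_lit 5) (nat_lit 388) (nat_lit 5) (nat_lit 389) (nat_lit 5) (nat_lit 589) (nat_lit 548) (nat_lit 423)))) (XT.nd (nat_lit 156) (nat_lit 760) (nat_lit 0) (XT.nd (nat_lit 78) (nat_lit 760) (nat_lit 0) (XT.lf (nat_lit 0) (nat_lit 817562576) (nat_lit 912) (nat_lit 2823129392) (nat_lit 76) (nat_lit 7817807491) (nat_lit 376) (nat_lit 5) (nat_lit 388) (nat_lit 5) (nat_lit 377) (nat_lit 5) (nat_lit 590) (nat_lit 548) (nat_lit 422)) (XT.lf (nat_lit 0) (nat_lit 2870853730) (nat_lit 836) (nat_lit 7627612601) (nat_lit 76) (nat_lit 1078823063) (nat_lit 366) (nat_lit 5) (nat_lit 377) (nat_lit 5) (nat_lit 367) (nat_lit 5) (nat_lit 591) (nat_lit 548) (nat_lit 421))) (XT.nd (nat_lit 78) (nat_lit 760) (nat_lit 0) (XT.lf (nat_lit 0) (nat_lit 4991944021) (nat_lit 836) (nat_lit 844073322) (nat_lit 76) (nat_lit 5861904011) (nat_lit 366) (nat_lit 5) (nat_lit 377)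 (nat_lit 5) (nat_lit 367) (nat_lit 5) (nat_lit 592) (nat_lit 548) (nat_lit 420)) (XT.lf (nat_lit 0) (nat_lit 6138021875) (nat_lit 760) (nat_lit 1041161476) (nat_lit 836) (nat_lit 4641308934) (nat_lit 356) (nat_lit 5) (nat_lit 366) (nat_lit 5) (nat_lit 367) (nat_lit 5) (nat_lit 593) (nat_lit 548) (nat_lit 419)))))) (XT.nd (nat_lit 546) (nat_lit 3268) (nat_lit 0) (XT.nd (nat_lit 234) (nat_lit 1368) (nat_lit 0) (XT.nd (nat_lit 78) (nat_lit 836) (nat_lit 0) (XT.lf (nat_lit 0) (nat_lit 1300008198) (nat_lit 684) (nat_lit 8133363004) (nat_lit 760) (nat_lit 2511680217) (nat_lit 347) (nat_lit 5) (nat_lit 356) (nat_lit 5) (nat_lit 357) (nat_lit 5) (nat_lit 594) (nat_lit 548) (nat_lit 418)) (XT.nd (nat_lit 78) (nat_lit 836) (nat_lit 0) (XT.lf (nat_lit 0) (nat_lit 8474484895) (nat_lit 684) (nat_lit 3287404993) (nat_lit 760) (nat_lit 309627748) (nat_lit 347) (nat_lit 5) (nat_lit 356) (nat_lit 5) (nat_lit 357) (nat_lit 5) (nat_lit 595) (nat_lit 548) (nat_lit 417)) (XT.lf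 (nat_lit 0) (nat_lit 1929945907) (nat_lit 836) (nat_lit 8601930863) (nat_lit 76) (nat_lit 1668008215) (nat_lit 336) (nat_lit 5) (nat_lit 347) (nat_lit 5) (nat_lit 337) (nat_lit 5) (nat_lit 596) (nat_lit 548) (nat_lit 416)))) (XT.nd (nat_lit 156) (nat_lit 684) (nat_lit 0) (XT.nd (nat_lit 78) (nat_lit 684) (nat_lit 0) (XT.lf (nat_lit 0) (nat_lit 4240885905) (nat_lit 836) (nat_lit 1386449599) (nat_lit 76) (nat_lit 6702829622) (nat_lit 336) (nat_lit 5) (nat_lit 347) (nat_lit 5) (nat_lit 337) (nat_lit 5) (nat_lit 597) (nat_lit 548) (nat_lit 415)) (XT.lf (nat_lit 0) (nat_lit 6035109639) (nat_lit 684) (nat_lit 587068193) (nat_lit 760) (nat_lit 5840391153) (nat_lit 327) (nat_lit 5) (nat_lit 336) (nat_lit 5) (nat_lit 337) (nat_lit 5) (nat_lit 598) (nat_lit 548) (nat_lit 414))) (XT.nd (nat_lit 78) (nat_lit 0) (nat_lit 0) (XT.lf (nat_lit 0) (nat_lit 992292400) (nat_lit 684) (nat_lit 8089295455) (nat_lit 760) (nat_lit 3515423982) (nat_lit 318) (nat_lit 5) (nat_lit 327)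 (nat_lit 5) (nat_lit 328) (nat_lit 5) (nat_lit 599) (nat_lit 548) (nat_lit 413)) (XT.lf (nat_lit 0) (nat_lit 8626189652) (nat_lit 684) (nat_lit 2996285577) (nat_lit 760) (nat_lit 1111023283) (nat_lit 318) (nat_lit 5) (nat_lit 327) (nat_lit 5) (nat_lit 328) (nat_lit 5) (nat_lit 600) (nat_lit 548) (nat_lit 412))))) (XT.nd (nat_lit 312) (nat_lit 1292) (nat_lit 0) (XT.nd (nat_lit 156) (nat_lit 1292) (nat_lit 0) (XT.nd (nat_lit 78) (nat_lit 0) (nat_lit 0) (XT.lf (nat_lit 0) (nat_lit 1346945430) (nat_lit 684) (nat_lit 9326084208) (nat_lit 76) (nat_lit 2199050338) (nat_lit 309) (nat_lit 5) (nat_lit 318) (nat_lit 5) (nat_lit 310) (nat_lit 5) (nat_lit 601) (nat_lit 548) (nat_lit 411)) (XT.lf (nat_lit 0) (nat_lit 3872440521) (nat_lit 684) (nat_lit 1649665892) (nat_lit 76) (nat_lit 7490515609) (nat_lit 309) (nat_lit 5) (nat_lit 318) (nat_lit 5) (nat_lit 310) (nat_lit 5) (nat_lit 602) (nat_lit 548) (nat_lit 410))) (XT.nd (nat_lit 78) (nat_lit 608) (nat_lit 0) (XT.lf (nat_lit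 0) (nat_lit 6245085264) (nat_lit 684) (nat_lit 229831027) (nat_lit 760) (nat_lit 6680529894) (nat_lit 300) (nat_lit 5) (nat_lit 309) (nat_lit 5) (nat_lit 310) (nat_lit 5) (nat_lit 603) (nat_lit 548) (nat_lit 409)) (XT.lf (nat_lit 0) (nat_lit 981179391) (nat_lit 608) (nat_lit 8185401325) (nat_lit 684) (nat_lit 4133804009) (nat_lit 292) (nat_lit 5) (nat_lit 300) (nat_lit 5) (nat_lit 301) (nat_lit 5) (nat_lit 604) (nat_lit 548) (nat_lit 408)))) (XT.nd (nat_lit 156) (nat_lit 608) (nat_lit 0) (XT.nd (nat_lit 78) (nat_lit 684) (nat_lit 0) (XT.lf (nat_lit 0) (nat_lit 9105546110) (nat_lit 608) (nat_lit 2840647701) (nat_lit 684) (nat_lit 1501346582) (nat_lit 292) (nat_lit 5) (nat_lit 300) (nat_lit 5) (nat_lit 301) (nat_lit 5) (nat_lit 605) (nat_lit 548) (nat_lit 407)) (XT.lf (nat_lit 0) (nat_lit 1196594642) (nat_lit 684) (nat_lit 9794208626) (nat_lit 76) (nat_lit 2606115630) (nat_lit 283) (nat_lit 5) (nat_lit 292) (nat_lit 5) (nat_lit 284) (nat_lit 5) (nat_lit 606)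 (nat_lit 548) (nat_lit 406))) (XT.nd (nat_lit 78) (nat_lit 608) (nat_lit 0) (XT.lf (nat_lit 0) (nat_lit 3963098459) (nat_lit 684) (nat_lit 1625598726) (nat_lit 76) (nat_lit 8159695802) (nat_lit 283) (nat_lit 5) (nat_lit 292) (nat_lit 5) (nat_lit 284) (nat_lit 5) (nat_lit 607) (nat_lit 548) (nat_lit 405)) (XT.lf (nat_lit 0) (nat_lit 6778505874) (nat_lit 608) (nat_lit 37246586) (nat_lit 684) (nat_lit 7086528308) (nat_lit 275) (nat_lit 5) (nat_lit 283) (nat_lit 5) (nat_lit 284) (nat_lit 5) (nat_lit 608) (nat_lit 548) (nat_lit 404))))))))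
noncomputable def xc131 : XT := (XT.nd (nat_lit 2262) (nat_lit 5852) (nat_lit 0) (XT.nd (nat_lit 1092) (nat_lit 3876) (nat_lit 0) (XT.nd (nat_lit 546) (nat_lit 2584) (nat_lit 0) (XT.nd (nat_lit 234) (nat_lit 1064) (nat_lit 0) (XT.nd (nat_lit 78) (nat_lit 608) (nat_lit 0) (XT.lf (nat_lit 0) (nat_lit 1276945962) (nat_lit 608) (nat_lit 8491244375) (nat_lit 684) (nat_lit 4290201953) (nat_lit 267) (nat_lit 5) (nat_lit 275) (nat_lit 5) (nat_lit 276) (nat_lit 5) (nat_lit 609) (nat_lit 548) (nat_lit 403)) (XT.nd (nat_lit 78) (nat_lit 608) (nat_lit 0) (XT.lf (nat_lit 0) (nat_lit 9925200882) (nat_lit 608) (nat_lit 2889608923) (nat_lit 684) (nat_lit 1402114169) (nat_lit 267) (nat_lit 5) (nat_lit 275) (nat_lit 5) (nat_lit 276) (nat_lit 5) (nat_lit 610) (nat_lit 548) (nat_lit 402)) (XT.lf (nat_lit 0) (nat_lit 1557867388) (nat_lit 608) (nat_lit 9997848743) (nat_lit 76) (nat_lit 2822022702) (nat_lit 259) (nat_lit 5) (nat_lit 267) (nat_lit 5) (nat_lit 260) (nat_lit 5) (nat_lit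 611) (nat_lit 548) (nat_lit 401)))) (XT.nd (nat_lit 156) (nat_lit 532) (nat_lit 0) (XT.nd (nat_lit 78) (nat_lit 532) (nat_lit 0) (XT.lf (nat_lit 0) (nat_lit 4593788287) (nat_lit 608) (nat_lit 1303449219) (nat_lit 76) (nat_lit 8643637399) (nat_lit 259) (nat_lit 5) (nat_lit 267) (nat_lit 5) (nat_lit 260) (nat_lit 5) (nat_lit 612) (nat_lit 548) (nat_lit 400)) (XT.lf (nat_lit 0) (nat_lit 7648727769) (nat_lit 532) (nat_lit 78977643) (nat_lit 608) (nat_lit 6978823274) (nat_lit 252) (nat_lit 5) (nat_lit 259) (nat_lit 5) (nat_lit 260) (nat_lit 5) (nat_lit 613) (nat_lit 548) (nat_lit 399))) (XT.nd (nat_lit 78) (nat_lit 0) (nat_lit 0) (XT.lf (nat_lit 0) (nat_lit 1892504219) (nat_lit 532) (nat_lit 9078635179) (nat_lit 608) (nat_lit 3903419908) (nat_lit 245) (nat_lit 5) (nat_lit 252) (nat_lit 5) (nat_lit 253) (nat_lit 5) (nat_lit 614) (nat_lit 548) (nat_lit 398)) (XT.lf (nat_lit 0) (nat_lit 11100528686) (nat_lit 532) (nat_lit 3214656128) (nat_lit 608) (nat_lit 730051393)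 (nat_lit 245) (nat_lit 5) (nat_lit 252) (nat_lit 5) (nat_lit 253) (nat_lit 5) (nat_lit 615) (nat_lit 548) (nat_lit 397))))) (XT.nd (nat_lit 234) (nat_lit 1520) (nat_lit 0) (XT.nd (nat_lit 78) (nat_lit 456) (nat_lit 0) (XT.lf (nat_lit 0) (nat_lit 2514678030) (nat_lit 608) (nat_lit 9926327935) (nat_lit 76) (nat_lit 2777180261) (nat_lit 237) (nat_lit 5) (nat_lit 245) (nat_lit 5) (nat_lit 238) (nat_lit 5) (nat_lit 616) (nat_lit 548) (nat_lit 396)) (XT.nd (nat_lit 78) (nat_lit 456) (nat_lit 0) (XT.lf (nat_lit 0) (nat_lit 5850593586) (nat_lit 608) (nat_lit 670105308) (nat_lit 76) (nat_lit 8873078993) (nat_lit 237) (nat_lit 5) (nat_lit 245) (nat_lit 5) (nat_lit 238) (nat_lit 5) (nat_lit 617) (nat_lit 548) (nat_lit 395)) (XT.lf (nat_lit 0) (nat_lit 8871547379) (nat_lit 456) (nat_lit 427635252) (nat_lit 532) (nat_lit 6272780131) (nat_lit 231) (nat_lit 5) (nat_lit 237) (nat_lit 5) (nat_lit 238) (nat_lit 5) (nat_lit 618) (nat_lit 548) (nat_lit 394)))) (XT.nd (nat_lit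 156) (nat_lit 912) (nat_lit 0) (XT.nd (nat_lit 78) (nat_lit 76) (nat_lit 0) (XT.lf (nat_lit 0) (nat_lit 2843034446) (nat_lit 532) (nat_lit 10022720674) (nat_lit 608) (nat_lit 2886976455) (nat_lit 224) (nat_lit 5) (nat_lit 231) (nat_lit 5) (nat_lit 232) (nat_lit 5) (nat_lit 619) (nat_lit 548) (nat_lit 393)) (XT.lf (nat_lit 0) (nat_lit 595703612) (nat_lit 608) (nat_lit 3291035546) (nat_lit 76) (nat_lit 12049571681) (nat_lit 223) (nat_lit 5) (nat_lit 231) (nat_lit 5) (nat_lit 224) (nat_lit 5) (nat_lit 620) (nat_lit 548) (nat_lit 392))) (XT.nd (nat_lit 78) (nat_lit 456) (nat_lit 0) (XT.lf (nat_lit 0) (nat_lit 4156584067) (nat_lit 532) (nat_lit 9567141718) (nat_lit 76) (nat_lit 2398510623) (nat_lit 217) (nat_lit 5) (nat_lit 224) (nat_lit 5) (nat_lit 218) (nat_lit 5) (nat_lit 621) (nat_lit 548) (nat_lit 391)) (XT.lf (nat_lit 0) (nat_lit 293318420) (nat_lit 456) (nat_lit 7534050836) (nat_lit 532) (nat_lit 8483737930) (nat_lit 211) (nat_lit 5) (nat_lit 217) (nat_lit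 5) (nat_lit 218) (nat_lit 5) (nat_lit 622) (nat_lit 548) (nat_lit 390)))))) (XT.nd (nat_lit 546) (nat_lit 1976) (nat_lit 0) (XT.nd (nat_lit 234) (nat_lit 1368) (nat_lit 0) (XT.nd (nat_lit 78) (nat_lit 532) (nat_lit 0) (XT.lf (nat_lit 0) (nat_lit 10464816054) (nat_lit 456) (nat_lit 1159882948) (nat_lit 532) (nat_lit 4877994228) (nat_lit 211) (nat_lit 5) (nat_lit 217) (nat_lit 5) (nat_lit 218) (nat_lit 5) (nat_lit 623) (nat_lit 548) (nat_lit 389)) (XT.nd (nat_lit 78) (nat_lit 76) (nat_lit 0) (XT.lf (nat_lit 0) (nat_lit 4145587501) (nat_lit 456) (nat_lit 11403100980) (nat_lit 532) (nat_lit 1148408673) (nat_lit 205) (nat_lit 5) (nat_lit 211) (nat_lit 5) (nat_lit 212) (nat_lit 5) (nat_lit 624) (nat_lit 548) (nat_lit 388)) (XT.lf (nat_lit 0) (nat_lit 2658559848) (nat_lit 532) (nat_lit 2320978991) (nat_lit 76) (nat_lit 11914753419) (nat_lit 204) (nat_lit 5) (nat_lit 211) (nat_lit 5) (nat_lit 205) (nat_lit 5) (nat_lit 625) (nat_lit 548) (nat_lit 387)))) (XT.nd (nat_lit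 156) (nat_lit 532) (nat_lit 0) (XT.nd (nat_lit 78) (nat_lit 380) (nat_lit 0) (XT.lf (nat_lit 0) (nat_lit 6579484762) (nat_lit 532) (nat_lit 8906390180) (nat_lit 76) (nat_lit 1608341014) (nat_lit 198) (nat_lit 5) (nat_lit 205) (nat_lit 5) (nat_lit 199) (nat_lit 5) (nat_lit 626) (nat_lit 548) (nat_lit 386)) (XT.lf (nat_lit 0) (nat_lit 1612973313) (nat_lit 380) (nat_lit 9014427654) (nat_lit 456) (nat_lit 6669766095) (nat_lit 193) (nat_lit 5) (nat_lit 198) (nat_lit 5) (nat_lit 199) (nat_lit 5) (nat_lit 627) (nat_lit 548) (nat_lit 385))) (XT.nd (nat_lit 78) (nat_lit 532) (nat_lit 0) (XT.lf (nat_lit 0) (nat_lit 12448012404) (nat_lit 380) (nat_lit 2357581457) (nat_lit 456) (nat_lit 2697597344) (nat_lit 193) (nat_lit 5) (nat_lit 198) (nat_lit 5) (nat_lit 199) (nat_lit 5) (nat_lit 628) (nat_lit 548) (nat_lit 384)) (XT.lf (nat_lit 0) (nat_lit 1392910440) (nat_lit 532) (nat_lit 11902734450) (nat_lit 76) (nat_lit 4416382407) (nat_lit 186) (nat_lit 5) (nat_lit 193) (nat_lit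 5) (nat_lit 187) (nat_lit 5) (nat_lit 629) (nat_lit 548) (nat_lit 383))))) (XT.nd (nat_lit 312) (nat_lit 1140) (nat_lit 0) (XT.nd (nat_lit 156) (nat_lit 456) (nat_lit 0) (XT.nd (nat_lit 78) (nat_lit 380) (nat_lit 0) (XT.lf (nat_lit 0) (nat_lit 5568661884) (nat_lit 532) (nat_lit 1013832674) (nat_lit 76) (nat_lit 11341398203) (nat_lit 186) (nat_lit 5) (nat_lit 193) (nat_lit 5) (nat_lit 187) (nat_lit 5) (nat_lit 630) (nat_lit 548) (nat_lit 382)) (XT.lf (nat_lit 0) (nat_lit 9886316954) (nat_lit 456) (nat_lit 7929267096) (nat_lit 76) (nat_lit 323244065) (nat_lit 181) (nat_lit 5) (nat_lit 187) (nat_lit 5) (nat_lit 182) (nat_lit 5) (nat_lit 631) (nat_lit 548) (nat_lit 381))) (XT.nd (nat_lit 78) (nat_lit 76) (nat_lit 0) (XT.lf (nat_lit 0) (nat_lit 3297738650) (nat_lit 380) (nat_lit 11054466629) (nat_lit 456) (nat_lit 4004619640) (nat_lit 176) (nat_lit 5) (nat_lit 181) (nat_lit 5) (nat_lit 182) (nat_lit 5) (nat_lit 632) (nat_lit 548) (nat_lit 380)) (XT.lf (nat_lit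 0) (nat_lit 367547144) (nat_lit 456) (nat_lit 3738979414) (nat_lit 76) (nat_lit 14471740365) (nat_lit 175) (nat_lit 5) (nat_lit 181) (nat_lit 5) (nat_lit 176) (nat_lit 5) (nat_lit 633) (nat_lit 548) (nat_lit 379)))) (XT.nd (nat_lit 156) (nat_lit 380) (nat_lit 0) (XT.nd (nat_lit 78) (nat_lit 380) (nat_lit 0) (XT.lf (nat_lit 0) (nat_lit 4834765281) (nat_lit 456) (nat_lit 10953244343) (nat_lit 76) (nat_lit 3014374462) (nat_lit 170) (nat_lit 5) (nat_lit 176) (nat_lit 5) (nat_lit 171) (nat_lit 5) (nat_lit 634) (nat_lit 548) (nat_lit 378)) (XT.lf (nat_lit 0) (nat_lit 655546461) (nat_lit 380) (nat_lit 8782807139) (nat_lit 456) (nat_lit 9591689794) (nat_lit 165) (nat_lit 5) (nat_lit 170) (nat_lit 5) (nat_lit 171) (nat_lit 5) (nat_lit 635) (nat_lit 548) (nat_lit 377))) (XT.nd (nat_lit 78) (nat_lit 380) (nat_lit 0) (XT.lf (nat_lit 0) (nat_lit 12630173498) (nat_lit 380) (nat_lit 1567753253) (nat_lit 456) (nat_lit 5063051189) (nat_lit 165) (nat_lit 5) (nat_lit 170) (nat_lit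 5) (nat_lit 171) (nat_lit 5) (nat_lit 636) (nat_lit 548) (nat_lit 376)) (XT.lf (nat_lit 0) (nat_lit 5365854830) (nat_lit 380) (nat_lit 13749843936) (nat_lit 456) (nat_lit 379572569) (nat_lit 160) (nat_lit 5) (nat_lit 165) (nat_lit 5) (nat_lit 166) (nat_lit 5) (nat_lit 637) (nat_lit 548) (nat_lit 375))))))) (XT.nd (nat_lit 1170) (nat_lit 2584) (nat_lit 0) (XT.nd (nat_lit 546) (nat_lit 1748) (nat_lit 0) (XT.nd (nat_lit 234) (nat_lit 760) (nat_lit 0) (XT.nd (nat_lit 78) (nat_lit 684) (nat_lit 0) (XT.lf (nat_lit 0) (nat_lit 4385667888) (nat_lit 456) (nat_lit 2094967241) (nat_lit 76) (nat_lit 13252129380) (nat_lit 159) (nat_lit 5) (nat_lit 165) (nat_lit 5) (nat_lit 160) (nat_lit 5) (nat_lit 638) (nat_lit 548) (nat_lit 374)) (XT.nd (nat_lit 78) (nat_lit 304) (nat_lit 0) (XT.lf (nat_lit 0) (nat_lit 9305266783) (nat_lit 456) (nat_lit 9681991587) (nat_lit 76) (nat_lit 986416563) (nat_lit 154) (nat_lit 5) (nat_lit 160) (nat_lit 5) (nat_lit 155) (nat_lit 5) (nat_lit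 639) (nat_lit 548) (nat_lit 373)) (XT.lf (nat_lit 0) (nat_lit 2713445431) (nat_lit 304) (nat_lit 11675331738) (nat_lit 380) (nat_lit 5829316290) (nat_lit 150) (nat_lit 5) (nat_lit 154) (nat_lit 5) (nat_lit 155) (nat_lit 5) (nat_lit 640) (nat_lit 548) (nat_lit 372)))) (XT.nd (nat_lit 156) (nat_lit 304) (nat_lit 0) (XT.nd (nat_lit 78) (nat_lit 456) (nat_lit 0) (XT.lf (nat_lit 0) (nat_lit 15473655294) (nat_lit 304) (nat_lit 4156192613) (nat_lit 380) (nat_lit 836434924) (nat_lit 150) (nat_lit 5) (nat_lit 154) (nat_lit 5) (nat_lit 155) (nat_lit 5) (nat_lit 641) (nat_lit 548) (nat_lit 371)) (XT.lf (nat_lit 0) (nat_lit 4265656733) (nat_lit 456) (nat_lit 12910860961) (nat_lit 76) (nat_lit 3541062369) (nat_lit 144) (nat_lit 5) (nat_lit 150) (nat_lit 5) (nat_lit 145) (nat_lit 5) (nat_lit 642) (nat_lit 548) (nat_lit 370))) (XT.nd (nat_lit 78) (nat_lit 304) (nat_lit 0) (XT.lf (nat_lit 0) (nat_lit 9510938032) (nat_lit 456) (nat_lit 91055309) (nat_lit 76) (nat_lit 11370752632)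 (nat_lit 144) (nat_lit 5) (nat_lit 150) (nat_lit 5) (nat_lit 145) (nat_lit 5) (nat_lit 643) (nat_lit 548) (nat_lit 369)) (XT.lf (nat_lit 0) (nat_lit 13143540517) (nat_lit 304) (nat_lit 1794183488) (nat_lit 380) (nat_lit 6293759472) (nat_lit 140) (nat_lit 5) (nat_lit 144) (nat_lit 5) (nat_lit 145) (nat_lit 5) (nat_lit 644) (nat_lit 548) (nat_lit 368))))) (XT.nd (nat_lit 312) (nat_lit 684) (nat_lit 0) (XT.nd (nat_lit 156) (nat_lit 608) (nat_lit 0) (XT.nd (nat_lit 78) (nat_lit 76) (nat_lit 0) (XT.lf (nat_lit 0) (nat_lit 5162287793) (nat_lit 380) (nat_lit 15376257872) (nat_lit 456) (nat_lit 955540317) (nat_lit 135) (nat_lit 5) (nat_lit 140) (nat_lit 5) (nat_lit 141) (nat_lit 5) (nat_lit 645) (nat_lit 548) (nat_lit 367)) (XT.lf (nat_lit 0) (nat_lit 4488411358) (nat_lit 456) (nat_lit 3029143888) (nat_lit 76) (nat_lit 14242645606) (nat_lit 134) (nat_lit 5) (nat_lit 140) (nat_lit 5) (nat_lit 135) (nat_lit 5) (nat_lit 646) (nat_lit 548) (nat_lit 366))) (XT.nd (nat_lit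 78) (nat_lit 304) (nat_lit 0) (XT.lf (nat_lit 0) (nat_lit 10092869801) (nat_lit 380) (nat_lit 11374746137) (nat_lit 76) (nat_lit 562607546) (nat_lit 130) (nat_lit 5) (nat_lit 135) (nat_lit 5) (nat_lit 131) (nat_lit 5) (nat_lit 647) (nat_lit 548) (nat_lit 365)) (XT.lf (nat_lit 0) (nat_lit 2316245599) (nat_lit 304) (nat_lit 13570002993) (nat_lit 380) (nat_lit 6417861586) (nat_lit 126) (nat_lit 5) (nat_lit 130) (nat_lit 5) (nat_lit 131) (nat_lit 5) (nat_lit 648) (nat_lit 548) (nat_lit 364)))) (XT.nd (nat_lit 156) (nat_lit 304) (nat_lit 0) (XT.nd (nat_lit 78) (nat_lit 380) (nat_lit 0) (XT.lf (nat_lit 0) (nat_lit 16421511348) (nat_lit 304) (nat_lit 5441936427) (nat_lit 380) (nat_lit 718668002) (nat_lit 126) (nat_lit 5) (nat_lit 130) (nat_lit 5) (nat_lit 131) (nat_lit 5) (nat_lit 649) (nat_lit 548) (nat_lit 363)) (XT.lf (nat_lit 0) (nat_lit 5090401206) (nat_lit 380) (nat_lit 14881680090) (nat_lit 76) (nat_lit 2891684730) (nat_lit 121) (nat_lit 5) (nat_lit 126) (nat_lit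 5) (nat_lit 122) (nat_lit 5) (nat_lit 650) (nat_lit 548) (nat_lit 362))) (XT.nd (nat_lit 78) (nat_lit 304) (nat_lit 0) (XT.lf (nat_lit 0) (nat_lit 11075463969) (nat_lit 380) (nat_lit 713770959) (nat_lit 76) (nat_lit 11360330856) (nat_lit 121) (nat_lit 5) (nat_lit 126) (nat_lit 5) (nat_lit 122) (nat_lit 5) (nat_lit 651) (nat_lit 548) (nat_lit 361)) (XT.lf (nat_lit 0) (nat_lit 13906535283) (nat_lit 304) (nat_lit 3355916630) (nat_lit 380) (nat_lit 6176985355) (nat_lit 117) (nat_lit 5) (nat_lit 121) (nat_lit 5) (nat_lit 122) (nat_lit 5) (nat_lit 652) (nat_lit 548) (nat_lit 360)))))) (XT.nd (nat_lit 546) (nat_lit 1368) (nat_lit 0) (XT.nd (nat_lit 234) (nat_lit 608) (nat_lit 0) (XT.nd (nat_lit 78) (nat_lit 380) (nat_lit 0) (XT.lf (nat_lit 0) (nat_lit 5113498520) (nat_lit 228) (nat_lit 18523735138) (nat_lit 304) (nat_lit 96591651) (nat_lit 114) (nat_lit 5) (nat_lit 117) (nat_lit 5) (nat_lit 118) (nat_lit 5) (nat_lit 653) (nat_lit 548) (nat_lit 359)) (XT.nd (nat_lit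 78) (nat_lit 304) (nat_lit 0) (XT.lf (nat_lit 0) (nat_lit 6103944978) (nat_lit 304) (nat_lit 3926466759) (nat_lit 76) (nat_lit 14001324592) (nat_lit 113) (nat_lit 5) (nat_lit 117) (nat_lit 5) (nat_lit 114) (nat_lit 5) (nat_lit 654) (nat_lit 548) (nat_lit 358)) (XT.lf (nat_lit 0) (nat_lit 11194304478) (nat_lit 304) (nat_lit 1297723176) (nat_lit 380) (nat_lit 11842268766) (nat_lit 109) (nat_lit 5) (nat_lit 113) (nat_lit 5) (nat_lit 114) (nat_lit 5) (nat_lit 655) (nat_lit 548) (nat_lit 357)))) (XT.nd (nat_lit 156) (nat_lit 304) (nat_lit 0) (XT.nd (nat_lit 78) (nat_lit 76) (nat_lit 0) (XT.lf (nat_lit 0) (nat_lit 1991698155) (nat_lit 228) (nat_lit 17097216724) (nat_lit 304) (nat_lit 5552372168) (nat_lit 106) (nat_lit 5) (nat_lit 109) (nat_lit 5) (nat_lit 110) (nat_lit 5) (nat_lit 656) (nat_lit 548) (nat_lit 356)) (XT.lf (nat_lit 0) (nat_lit 941552560) (nat_lit 304) (nat_lit 7376493255) (nat_lit 76) (nat_lit 16634468691) (nat_lit 105) (nat_lit 5) (nat_lit 109) (nat_lit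 5) (nat_lit 106) (nat_lit 5) (nat_lit 657) (nat_lit 548) (nat_lit 355))) (XT.nd (nat_lit 78) (nat_lit 0) (nat_lit 0) (XT.lf (nat_lit 0) (nat_lit 7541762663) (nat_lit 380) (nat_lit 17012311014) (nat_lit 76) (nat_lit 714143933) (nat_lit 101) (nat_lit 5) (nat_lit 106) (nat_lit 5) (nat_lit 102) (nat_lit 5) (nat_lit 658) (nat_lit 548) (nat_lit 354)) (XT.lf (nat_lit 0) (nat_lit 14371275063) (nat_lit 380) (nat_lit 1356682034) (nat_lit 76) (nat_lit 9860331892) (nat_lit 101) (nat_lit 5) (nat_lit 106) (nat_lit 5) (nat_lit 102) (nat_lit 5) (nat_lit 659) (nat_lit 548) (nat_lit 353))))) (XT.nd (nat_lit 312) (nat_lit 532) (nat_lit 0) (XT.nd (nat_lit 156) (nat_lit 228) (nat_lit 0) (XT.nd (nat_lit 78) (nat_lit 380) (nat_lit 0) (XT.lf (nat_lit 0) (nat_lit 14793363617) (nat_lit 228) (nat_lit 6632595492) (nat_lit 304) (nat_lit 4487031231) (nat_lit 98) (nat_lit 5) (nat_lit 101) (nat_lit 5) (nat_lit 102) (nat_lit 5) (nat_lit 660) (nat_lit 548) (nat_lit 352)) (XT.lf (nat_lit 0)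 (nat_lit 2398577200) (nat_lit 380) (nat_lit 21181516238) (nat_lit 76) (nat_lit 2662739551) (nat_lit 93) (nat_lit 5) (nat_lit 98) (nat_lit 5) (nat_lit 94) (nat_lit 5) (nat_lit 661) (nat_lit 548) (nat_lit 351))) (XT.nd (nat_lit 78) (nat_lit 228) (nat_lit 0) (XT.lf (nat_lit 0) (nat_lit 9473487960) (nat_lit 380) (nat_lit 4948064755) (nat_lit 76) (nat_lit 12154893324) (nat_lit 93) (nat_lit 5) (nat_lit 98) (nat_lit 5) (nat_lit 94) (nat_lit 5) (nat_lit 662) (nat_lit 548) (nat_lit 350)) (XT.lf (nat_lit 0) (nat_lit 11751672106) (nat_lit 228) (nat_lit 5007248168) (nat_lit 304) (nat_lit 10156430769) (nat_lit 90) (nat_lit 5) (nat_lit 93) (nat_lit 5) (nat_lit 94) (nat_lit 5) (nat_lit 663) (nat_lit 548) (nat_lit 349)))) (XT.nd (nat_lit 156) (nat_lit 228) (nat_lit 0) (XT.nd (nat_lit 78) (nat_lit 76) (nat_lit 0) (XT.lf (nat_lit 0) (nat_lit 1570105014) (nat_lit 228) (nat_lit 22686162245) (nat_lit 304) (nat_lit 3003442923) (nat_lit 87) (nat_lit 5) (nat_lit 90) (nat_lit 5) (nat_lit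 91) (nat_lit 5) (nat_lit 664) (nat_lit 548) (nat_lit 348)) (XT.lf (nat_lit 0) (nat_lit 4364662476) (nat_lit 304) (nat_lit 8839065041) (nat_lit 76) (nat_lit 14404104608) (nat_lit 86) (nat_lit 5) (nat_lit 90) (nat_lit 5) (nat_lit 87) (nat_lit 5) (nat_lit 665) (nat_lit 548) (nat_lit 347))) (XT.nd (nat_lit 72072) (nat_lit 0) (nat_lit 39520) (XT.lf (nat_lit 0) (nat_lit 8426809700) (nat_lit 228) (nat_lit 3460761417) (nat_lit 304) (nat_lit 16073995336) (nat_lit 83) (nat_lit 5) (nat_lit 86) (nat_lit 5) (nat_lit 87) (nat_lit 5) (nat_lit 666) (nat_lit 548) (nat_lit 346)) (XT.lf (nat_lit 0) (nat_lit 2821009777) (nat_lit 1444) (nat_lit 600575578) (nat_lit 1444) (nat_lit 600575578) (nat_lit 603) (nat_lit 3) (nat_lit 622) (nat_lit 3) (nat_lit 622) (nat_lit 5) (nat_lit 549) (nat_lit 549) (nat_lit 462))))))))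
noncomputable def xc132 : XT := (XT.nd (nat_lit 2262) (nat_lit 13452) (nat_lit 0) (XT.nd (nat_lit 1092) (nat_lit 8132) (nat_lit 0) (XT.nd (nat_lit 546) (nat_lit 1292) (nat_lit 0) (XT.nd (nat_lit 234) (nat_lit 0) (nat_lit 76) (XT.nd (nat_lit 78) (nat_lit 1444) (nat_lit 0) (XT.lf (nat_lit 76) (nat_lit 2829341147) (nat_lit 0) (nat_lit 4078960810) (nat_lit 1444) (nat_lit 1192179494) (nat_lit 604) (nat_lit 5) (nat_lit 603) (nat_lit 3) (nat_lit 622) (nat_lit 5) (nat_lit 550) (nat_lit 549) (nat_lit 461)) (XT.nd (nat_lit 78) (nat_lit 0) (nat_lit 76) (XT.lf (nat_lit 0) (nat_lit 18138723) (nat_lit 1444) (nat_lit 1217778701) (nat_lit 1520) (nat_lit 6922312635) (nat_lit 584) (nat_lit 5) (nat_lit 603) (nat_lit 3) (nat_lit 604) (nat_lit 5) (nat_lit 551) (nat_lit 549) (nat_lit 460)) (XT.lf (nat_lit 0) (nat_lit 1235872983) (nat_lit 1444) (nat_lit 5297347882) (nat_lit 1520) (nat_lit 1683773889) (nat_lit 585) (nat_lit 5) (nat_lit 604) (nat_lit 5) (nat_lit 605) (nat_lit 5) (nat_lit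 552) (nat_lit 549) (nat_lit 459)))) (XT.nd (nat_lit 156) (nat_lit 0) (nat_lit 76) (XT.nd (nat_lit 78) (nat_lit 0) (nat_lit 0) (XT.lf (nat_lit 0) (nat_lit 2464018718) (nat_lit 1444) (nat_lit 1145527995) (nat_lit 1520) (nat_lit 4667669028) (nat_lit 585) (nat_lit 5) (nat_lit 604) (nat_lit 5) (nat_lit 605) (nat_lit 5) (nat_lit 553) (nat_lit 549) (nat_lit 458)) (XT.lf (nat_lit 76) (nat_lit 3113648706) (nat_lit 0) (nat_lit 593535565) (nat_lit 1520) (nat_lit 4631649832) (nat_lit 586) (nat_lit 5) (nat_lit 585) (nat_lit 5) (nat_lit 605) (nat_lit 5) (nat_lit 554) (nat_lit 549) (nat_lit 457))) (XT.nd (nat_lit 78) (nat_lit 0) (nat_lit 0) (XT.lf (nat_lit 0) (nat_lit 4969872706) (nat_lit 1444) (nat_lit 961243356) (nat_lit 1520) (nat_lit 2470677632) (nat_lit 586) (nat_lit 5) (nat_lit 605) (nat_lit 5) (nat_lit 606) (nat_lit 5) (nat_lit 555) (nat_lit 549) (nat_lit 456)) (XT.lf (nat_lit 76) (nat_lit 3412053109) (nat_lit 0) (nat_lit 2843219936) (nat_lit 1520) (nat_lit 2210792281)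 (nat_lit 587) (nat_lit 5) (nat_lit 586) (nat_lit 5) (nat_lit 606) (nat_lit 5) (nat_lit 556) (nat_lit 549) (nat_lit 455))))) (XT.nd (nat_lit 234) (nat_lit 0) (nat_lit 76) (XT.nd (nat_lit 78) (nat_lit 1520) (nat_lit 0) (XT.lf (nat_lit 0) (nat_lit 7546766478) (nat_lit 1444) (nat_lit 664953861) (nat_lit 1520) (nat_lit 320296324) (nat_lit 587) (nat_lit 5) (nat_lit 606) (nat_lit 5) (nat_lit 607) (nat_lit 5) (nat_lit 557) (nat_lit 549) (nat_lit 454)) (XT.nd (nat_lit 78) (nat_lit 0) (nat_lit 0) (XT.lf (nat_lit 0) (nat_lit 277560152) (nat_lit 1520) (nat_lit 4774488346) (nat_lit 1596) (nat_lit 3546881430) (nat_lit 567) (nat_lit 5) (nat_lit 587) (nat_lit 5) (nat_lit 588) (nat_lit 5) (nat_lit 558) (nat_lit 549) (nat_lit 453)) (XT.lf (nat_lit 0) (nat_lit 1529641007) (nat_lit 1520) (nat_lit 278196154) (nat_lit 1596) (nat_lit 6859671773) (nat_lit 567) (nat_lit 5) (nat_lit 587) (nat_lit 5) (nat_lit 588) (nat_lit 5) (nat_lit 559) (nat_lit 549) (nat_lit 452)))) (XT.nd (nat_lit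 156) (nat_lit 0) (nat_lit 0) (XT.nd (nat_lit 78) (nat_lit 0) (nat_lit 0) (XT.lf (nat_lit 0) (nat_lit 2818231317) (nat_lit 1520) (nat_lit 4399232238) (nat_lit 1596) (nat_lit 1519768429) (nat_lit 568) (nat_lit 5) (nat_lit 588) (nat_lit 5) (nat_lit 589) (nat_lit 5) (nat_lit 560) (nat_lit 549) (nat_lit 451)) (XT.lf (nat_lit 76) (nat_lit 215488503) (nat_lit 0) (nat_lit 3906072060) (nat_lit 1596) (nat_lit 4687011377) (nat_lit 569) (nat_lit 5) (nat_lit 568) (nat_lit 5) (nat_lit 589) (nat_lit 5) (nat_lit 561) (nat_lit 549) (nat_lit 450))) (XT.nd (nat_lit 78) (nat_lit 0) (nat_lit 76) (XT.lf (nat_lit 76) (nat_lit 4964919133) (nat_lit 0) (nat_lit 489678405) (nat_lit 1596) (nat_lit 3426670086) (nat_lit 569) (nat_lit 5) (nat_lit 568) (nat_lit 5) (nat_lit 589) (nat_lit 5) (nat_lit 562) (nat_lit 549) (nat_lit 449)) (XT.lf (nat_lit 76) (nat_lit 827889267) (nat_lit 0) (nat_lit 5985909569) (nat_lit 1596) (nat_lit 2141630032) (nat_lit 570) (nat_lit 5) (nat_lit 569) (nat_lit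 5) (nat_lit 590) (nat_lit 5) (nat_lit 563) (nat_lit 549) (nat_lit 448)))))) (XT.nd (nat_lit 546) (nat_lit 6764) (nat_lit 0) (XT.nd (nat_lit 234) (nat_lit 0) (nat_lit 0) (XT.nd (nat_lit 78) (nat_lit 1520) (nat_lit 0) (XT.lf (nat_lit 76) (nat_lit 5699483684) (nat_lit 0) (nat_lit 2505269281) (nat_lit 1596) (nat_lit 826230678) (nat_lit 570) (nat_lit 5) (nat_lit 569) (nat_lit 5) (nat_lit 590) (nat_lit 5) (nat_lit 564) (nat_lit 549) (nat_lit 447)) (XT.nd (nat_lit 78) (nat_lit 0) (nat_lit 0) (XT.lf (nat_lit 0) (nat_lit 501159496) (nat_lit 1596) (nat_lit 7554936427) (nat_lit 1672) (nat_lit 1052039405) (nat_lit 549) (nat_lit 5) (nat_lit 570) (nat_lit 5) (nat_lit 571) (nat_lit 5) (nat_lit 565) (nat_lit 549) (nat_lit 446)) (XT.lf (nat_lit 0) (nat_lit 1858948279) (nat_lit 1596) (nat_lit 2645578947) (nat_lit 1672) (nat_lit 4681896900) (nat_lit 549) (nat_lit 5) (nat_lit 570) (nat_lit 5) (nat_lit 571) (nat_lit 5) (nat_lit 566) (nat_lit 549) (nat_lit 445)))) (XT.nd (nat_lit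 156) (nat_lit 0) (nat_lit 76) (XT.nd (nat_lit 78) (nat_lit 0) (nat_lit 76) (XT.lf (nat_lit 76) (nat_lit 2375735494) (nat_lit 0) (nat_lit 859864872) (nat_lit 1672) (nat_lit 6030845737) (nat_lit 550) (nat_lit 5) (nat_lit 549) (nat_lit 5) (nat_lit 571) (nat_lit 5) (nat_lit 567) (nat_lit 549) (nat_lit 444)) (XT.lf (nat_lit 0) (nat_lit 4652885432) (nat_lit 1596) (nat_lit 1850829652) (nat_lit 1672) (nat_lit 2844092963) (nat_lit 550) (nat_lit 5) (nat_lit 571) (nat_lit 5) (nat_lit 572) (nat_lit 5) (nat_lit 568) (nat_lit 549) (nat_lit 443))) (XT.nd (nat_lit 78) (nat_lit 0) (nat_lit 76) (XT.lf (nat_lit 76) (nat_lit 3310133782) (nat_lit 0) (nat_lit 2792700934) (nat_lit 1672) (nat_lit 3327877638) (nat_lit 551) (nat_lit 5) (nat_lit 550) (nat_lit 5) (nat_lit 572) (nat_lit 5) (nat_lit 569) (nat_lit 549) (nat_lit 442)) (XT.lf (nat_lit 0) (nat_lit 7578231711) (nat_lit 1596) (nat_lit 939952735) (nat_lit 1672) (nat_lit 997162794) (nat_lit 551) (nat_lit 5) (nat_lit 572) (nat_lit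 5) (nat_lit 573) (nat_lit 5) (nat_lit 570) (nat_lit 549) (nat_lit 441))))) (XT.nd (nat_lit 312) (nat_lit 3648) (nat_lit 0) (XT.nd (nat_lit 156) (nat_lit 1596) (nat_lit 0) (XT.nd (nat_lit 78) (nat_lit 1672) (nat_lit 0) (XT.lf (nat_lit 76) (nat_lit 4365590615) (nat_lit 0) (nat_lit 4742328425) (nat_lit 1672) (nat_lit 493261572) (nat_lit 552) (nat_lit 5) (nat_lit 551) (nat_lit 5) (nat_lit 573) (nat_lit 5) (nat_lit 571) (nat_lit 549) (nat_lit 440)) (XT.lf (nat_lit 76) (nat_lit 78375263) (nat_lit 0) (nat_lit 873224425) (nat_lit 1748) (nat_lit 8737305635) (nat_lit 530) (nat_lit 5) (nat_lit 529) (nat_lit 5) (nat_lit 552) (nat_lit 5) (nat_lit 572) (nat_lit 549) (nat_lit 439))) (XT.nd (nat_lit 78) (nat_lit 1672) (nat_lit 0) (XT.lf (nat_lit 0) (nat_lit 2452539015) (nat_lit 1672) (nat_lit 4249521303) (nat_lit 76) (nat_lit 3075584641) (nat_lit 530) (nat_lit 5) (nat_lit 552) (nat_lit 5) (nat_lit 531) (nat_lit 5) (nat_lit 573) (nat_lit 549) (nat_lit 438)) (XT.lf (nat_lit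 0) (nat_lit 1211185961) (nat_lit 1672) (nat_lit 2764839844) (nat_lit 1748) (nat_lit 5892284339) (nat_lit 508) (nat_lit 5) (nat_lit 530) (nat_lit 5) (nat_lit 531) (nat_lit 5) (nat_lit 574) (nat_lit 549) (nat_lit 437)))) (XT.nd (nat_lit 156) (nat_lit 1900) (nat_lit 0) (XT.nd (nat_lit 78) (nat_lit 1748) (nat_lit 0) (XT.lf (nat_lit 0) (nat_lit 5546014650) (nat_lit 1748) (nat_lit 3147766381) (nat_lit 76) (nat_lit 1266688256) (nat_lit 508) (nat_lit 5) (nat_lit 531) (nat_lit 5) (nat_lit 509) (nat_lit 5) (nat_lit 575) (nat_lit 549) (nat_lit 436)) (XT.lf (nat_lit 0) (nat_lit 2468244908) (nat_lit 1748) (nat_lit 4693105623) (nat_lit 1824) (nat_lit 2892843413) (nat_lit 485) (nat_lit 5) (nat_lit 508) (nat_lit 5) (nat_lit 509) (nat_lit 5) (nat_lit 576) (nat_lit 549) (nat_lit 435))) (XT.nd (nat_lit 78) (nat_lit 1900) (nat_lit 0) (XT.lf (nat_lit 0) (nat_lit 8221766034) (nat_lit 1748) (nat_lit 588248130) (nat_lit 1824) (nat_lit 1339759761) (nat_lit 485) (nat_lit 5) (nat_lit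 508) (nat_lit 5) (nat_lit 509) (nat_lit 5) (nat_lit 577) (nat_lit 549) (nat_lit 434)) (XT.lf (nat_lit 0) (nat_lit 270057422) (nat_lit 1900) (nat_lit 6395762367) (nat_lit 76) (nat_lit 3580837643) (nat_lit 460) (nat_lit 5) (nat_lit 485) (nat_lit 5) (nat_lit 461) (nat_lit 5) (nat_lit 578) (nat_lit 549) (nat_lit 433))))))) (XT.nd (nat_lit 1092) (nat_lit 6308) (nat_lit 0) (XT.nd (nat_lit 546) (nat_lit 3344) (nat_lit 0) (XT.nd (nat_lit 234) (nat_lit 1824) (nat_lit 0) (XT.nd (nat_lit 78) (nat_lit 1976) (nat_lit 0) (XT.lf (nat_lit 0) (nat_lit 1891519500) (nat_lit 1900) (nat_lit 604257117) (nat_lit 76) (nat_lit 7849578298) (nat_lit 460) (nat_lit 5) (nat_lit 485) (nat_lit 5) (nat_lit 461) (nat_lit 5) (nat_lit 579) (nat_lit 549) (nat_lit 432)) (XT.nd (nat_lit 78) (nat_lit 912) (nat_lit 0) (XT.lf (nat_lit 0) (nat_lit 3572674554) (nat_lit 1140) (nat_lit 5101393639) (nat_lit 76) (nat_lit 1771414033) (nat_lit 446) (nat_lit 5) (nat_lit 461) (nat_lit 5) (nat_lit 447) (nat_lit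 5) (nat_lit 580) (nat_lit 549) (nat_lit 431)) (XT.lf (nat_lit 0) (nat_lit 849017960) (nat_lit 912) (nat_lit 4445667066) (nat_lit 988) (nat_lit 5252783546) (nat_lit 434) (nat_lit 5) (nat_lit 446) (nat_lit 5) (nat_lit 447) (nat_lit 5) (nat_lit 581) (nat_lit 549) (nat_lit 430)))) (XT.nd (nat_lit 156) (nat_lit 912) (nat_lit 0) (XT.nd (nat_lit 78) (nat_lit 912) (nat_lit 0) (XT.lf (nat_lit 0) (nat_lit 6970081497) (nat_lit 912) (nat_lit 96653848) (nat_lit 988) (nat_lit 3584448418) (nat_lit 434) (nat_lit 5) (nat_lit 446) (nat_lit 5) (nat_lit 447) (nat_lit 5) (nat_lit 582) (nat_lit 549) (nat_lit 429)) (XT.lf (nat_lit 0) (nat_lit 2442921151) (nat_lit 912) (nat_lit 6457079583) (nat_lit 988) (nat_lit 1856458131) (nat_lit 422) (nat_lit 5) (nat_lit 434) (nat_lit 5) (nat_lit 435) (nat_lit 5) (nat_lit 583) (nat_lit 549) (nat_lit 428))) (XT.nd (nat_lit 78) (nat_lit 912) (nat_lit 0) (XT.lf (nat_lit 0) (nat_lit 8721252752) (nat_lit 912) (nat_lit 2056000764) (nat_lit 988) (nat_lit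 86440580) (nat_lit 422) (nat_lit 5) (nat_lit 434) (nat_lit 5) (nat_lit 435) (nat_lit 5) (nat_lit 584) (nat_lit 549) (nat_lit 427)) (XT.lf (nat_lit 0) (nat_lit 1721834759) (nat_lit 912) (nat_lit 6810319798) (nat_lit 76) (nat_lit 2440189242) (nat_lit 410) (nat_lit 5) (nat_lit 422) (nat_lit 5) (nat_lit 411) (nat_lit 5) (nat_lit 585) (nat_lit 549) (nat_lit 426))))) (XT.nd (nat_lit 234) (nat_lit 1672) (nat_lit 0) (XT.nd (nat_lit 78) (nat_lit 1672) (nat_lit 0) (XT.lf (nat_lit 0) (nat_lit 3575665737) (nat_lit 912) (nat_lit 493100380) (nat_lit 76) (nat_lit 7014179009) (nat_lit 410) (nat_lit 5) (nat_lit 422) (nat_lit 5) (nat_lit 411) (nat_lit 5) (nat_lit 586) (nat_lit 549) (nat_lit 425)) (XT.nd (nat_lit 78) (nat_lit 836) (nat_lit 0) (XT.lf (nat_lit 0) (nat_lit 5491810432) (nat_lit 912) (nat_lit 5186623263) (nat_lit 76) (nat_lit 516821026) (nat_lit 399) (nat_lit 5) (nat_lit 411) (nat_lit 5) (nat_lit 400) (nat_lit 5) (nat_lit 587) (nat_lit 549) (nat_lit 424)) (XT.lf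 (nat_lit 0) (nat_lit 1310112783) (nat_lit 836) (nat_lit 6157975471) (nat_lit 912) (nat_lit 3841287018) (nat_lit 388) (nat_lit 5) (nat_lit 399) (nat_lit 5) (nat_lit 400) (nat_lit 5) (nat_lit 588) (nat_lit 549) (nat_lit 423)))) (XT.nd (nat_lit 156) (nat_lit 760) (nat_lit 0) (XT.nd (nat_lit 78) (nat_lit 912) (nat_lit 0) (XT.lf (nat_lit 0) (nat_lit 7989764425) (nat_lit 836) (nat_lit 1512180246) (nat_lit 912) (nat_lit 1923473450) (nat_lit 388) (nat_lit 5) (nat_lit 399) (nat_lit 5) (nat_lit 400) (nat_lit 5) (nat_lit 589) (nat_lit 549) (nat_lit 422)) (XT.lf (nat_lit 0) (nat_lit 58149172) (nat_lit 912) (nat_lit 8279878830) (nat_lit 76) (nat_lit 3205232859) (nat_lit 376) (nat_lit 5) (nat_lit 388) (nat_lit 5) (nat_lit 377) (nat_lit 5) (nat_lit 590) (nat_lit 549) (nat_lit 421))) (XT.nd (nat_lit 78) (nat_lit 760) (nat_lit 0) (XT.lf (nat_lit 0) (nat_lit 2070570216) (nat_lit 912) (nat_lit 1560350209) (nat_lit 76) (nat_lit 8031948214) (nat_lit 376) (nat_lit 5) (nat_lit 388)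 (nat_lit 5) (nat_lit 377) (nat_lit 5) (nat_lit 591) (nat_lit 549) (nat_lit 420)) (XT.lf (nat_lit 0) (nat_lit 4149770107) (nat_lit 836) (nat_lit 6445699642) (nat_lit 76) (nat_lit 1188869093) (nat_lit 366) (nat_lit 5) (nat_lit 377) (nat_lit 5) (nat_lit 367) (nat_lit 5) (nat_lit 592) (nat_lit 549) (nat_lit 419)))))) (XT.nd (nat_lit 546) (nat_lit 3344) (nat_lit 0) (XT.nd (nat_lit 234) (nat_lit 1520) (nat_lit 0) (XT.nd (nat_lit 78) (nat_lit 684) (nat_lit 0) (XT.lf (nat_lit 0) (nat_lit 453289410) (nat_lit 760) (nat_lit 5838984883) (nat_lit 836) (nat_lit 5615530608) (nat_lit 356) (nat_lit 5) (nat_lit 366) (nat_lit 5) (nat_lit 367) (nat_lit 5) (nat_lit 593) (nat_lit 549) (nat_lit 418)) (XT.nd (nat_lit 78) (nat_lit 684) (nat_lit 0) (XT.lf (nat_lit 0) (nat_lit 7560474308) (nat_lit 760) (nat_lit 944798168) (nat_lit 836) (nat_lit 3527915768) (nat_lit 356) (nat_lit 5) (nat_lit 366) (nat_lit 5) (nat_lit 367) (nat_lit 5) (nat_lit 594) (nat_lit 549) (nat_lit 417)) (XT.lf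 (nat_lit 0) (nat_lit 2639951779) (nat_lit 684) (nat_lit 8150682849) (nat_lit 760) (nat_lit 1369883371) (nat_lit 347) (nat_lit 5) (nat_lit 356) (nat_lit 5) (nat_lit 357) (nat_lit 5) (nat_lit 595) (nat_lit 549) (nat_lit 416)))) (XT.nd (nat_lit 156) (nat_lit 684) (nat_lit 0) (XT.nd (nat_lit 78) (nat_lit 760) (nat_lit 0) (XT.lf (nat_lit 0) (nat_lit 841651889) (nat_lit 760) (nat_lit 2363355810) (nat_lit 76) (nat_lit 9084854597) (nat_lit 346) (nat_lit 5) (nat_lit 356) (nat_lit 5) (nat_lit 347) (nat_lit 5) (nat_lit 596) (nat_lit 549) (nat_lit 415)) (XT.lf (nat_lit 0) (nat_lit 3108680595) (nat_lit 836) (nat_lit 7457149106) (nat_lit 76) (nat_lit 1855191348) (nat_lit 336) (nat_lit 5) (nat_lit 347) (nat_lit 5) (nat_lit 337) (nat_lit 5) (nat_lit 597) (nat_lit 549) (nat_lit 414))) (XT.nd (nat_lit 78) (nat_lit 684) (nat_lit 0) (XT.lf (nat_lit 0) (nat_lit 5443483789) (nat_lit 836) (nat_lit 123178224) (nat_lit 76) (nat_lit 6987693046) (nat_lit 336) (nat_lit 5) (nat_lit 347)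 (nat_lit 5) (nat_lit 337) (nat_lit 5) (nat_lit 598) (nat_lit 549) (nat_lit 413)) (XT.lf (nat_lit 0) (nat_lit 7438318775) (nat_lit 684) (nat_lit 420492408) (nat_lit 760) (nat_lit 4830868753) (nat_lit 327) (nat_lit 5) (nat_lit 336) (nat_lit 5) (nat_lit 337) (nat_lit 5) (nat_lit 599) (nat_lit 549) (nat_lit 412))))) (XT.nd (nat_lit 312) (nat_lit 1976) (nat_lit 0) (XT.nd (nat_lit 156) (nat_lit 684) (nat_lit 0) (XT.nd (nat_lit 78) (nat_lit 0) (nat_lit 0) (XT.lf (nat_lit 0) (nat_lit 2307052277) (nat_lit 684) (nat_lit 8048248842) (nat_lit 760) (nat_lit 2471753803) (nat_lit 318) (nat_lit 5) (nat_lit 327) (nat_lit 5) (nat_lit 328) (nat_lit 5) (nat_lit 600) (nat_lit 549) (nat_lit 411)) (XT.lf (nat_lit 0) (nat_lit 10068237003) (nat_lit 684) (nat_lit 2857355875) (nat_lit 760) (nat_lit 41107809) (nat_lit 318) (nat_lit 5) (nat_lit 327) (nat_lit 5) (nat_lit 328) (nat_lit 5) (nat_lit 601) (nat_lit 549) (nat_lit 410))) (XT.nd (nat_lit 78) (nat_lit 0) (nat_lit 0) (XT.lf (nat_lit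 0) (nat_lit 2440210901) (nat_lit 684) (nat_lit 8217167270) (nat_lit 76) (nat_lit 2450764553) (nat_lit 309) (nat_lit 5) (nat_lit 318) (nat_lit 5) (nat_lit 310) (nat_lit 5) (nat_lit 602) (nat_lit 549) (nat_lit 409)) (XT.lf (nat_lit 0) (nat_lit 4995307530) (nat_lit 684) (nat_lit 412621346) (nat_lit 76) (nat_lit 7843985929) (nat_lit 309) (nat_lit 5) (nat_lit 318) (nat_lit 5) (nat_lit 310) (nat_lit 5) (nat_lit 603) (nat_lit 549) (nat_lit 408)))) (XT.nd (nat_lit 156) (nat_lit 684) (nat_lit 0) (XT.nd (nat_lit 78) (nat_lit 608) (nat_lit 0) (XT.lf (nat_lit 0) (nat_lit 7631669321) (nat_lit 684) (nat_lit 5856776) (nat_lit 760) (nat_lit 5760316493) (nat_lit 300) (nat_lit 5) (nat_lit 309) (nat_lit 5) (nat_lit 310) (nat_lit 5) (nat_lit 604) (nat_lit 549) (nat_lit 407)) (XT.lf (nat_lit 0) (nat_lit 2273286770) (nat_lit 608) (nat_lit 8099196698) (nat_lit 684) (nat_lit 3173408227) (nat_lit 292) (nat_lit 5) (nat_lit 300) (nat_lit 5) (nat_lit 301) (nat_lit 5) (nat_lit 605) (nat_lit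 549) (nat_lit 406))) (XT.nd (nat_lit 78) (nat_lit 684) (nat_lit 0) (XT.lf (nat_lit 0) (nat_lit 10535190160) (nat_lit 608) (nat_lit 2652448250) (nat_lit 684) (nat_lit 508754041) (nat_lit 292) (nat_lit 5) (nat_lit 300) (nat_lit 5) (nat_lit 301) (nat_lit 5) (nat_lit 606) (nat_lit 549) (nat_lit 405)) (XT.lf (nat_lit 0) (nat_lit 2219735683) (nat_lit 684) (nat_lit 8719055499) (nat_lit 76) (nat_lit 2910035454) (nat_lit 283) (nat_lit 5) (nat_lit 292) (nat_lit 5) (nat_lit 284) (nat_lit 5) (nat_lit 607) (nat_lit 549) (nat_lit 404))))))))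
noncomputable def xc133 : XT := (XT.nd (nat_lit 2262) (nat_lit 6004) (nat_lit 0) (XT.nd (nat_lit 1092) (nat_lit 4408) (nat_lit 0) (XT.nd (nat_lit 546) (nat_lit 2204) (nat_lit 0) (XT.nd (nat_lit 234) (nat_lit 1140) (nat_lit 0) (XT.nd (nat_lit 78) (nat_lit 1216) (nat_lit 0) (XT.lf (nat_lit 0) (nat_lit 5021977240) (nat_lit 684) (nat_lit 411995700) (nat_lit 76) (nat_lit 8569750023) (nat_lit 283) (nat_lit 5) (nat_lit 292) (nat_lit 5) (nat_lit 284) (nat_lit 5) (nat_lit 608) (nat_lit 549) (nat_lit 403)) (XT.nd (nat_lit 78) (nat_lit 608) (nat_lit 0) (XT.lf (nat_lit 0) (nat_lit 7922016443) (nat_lit 684) (nat_lit 6010422860) (nat_lit 76) (nat_lit 228443447) (nat_lit 275) (nat_lit 5) (nat_lit 284) (nat_lit 5) (nat_lit 276) (nat_lit 5) (nat_lit 609) (nat_lit 549) (nat_lit 402)) (XT.lf (nat_lit 0) (nat_lit 2549805347) (nat_lit 608) (nat_lit 8373019385) (nat_lit 684) (nat_lit 3397506213) (nat_lit 267) (nat_lit 5) (nat_lit 275) (nat_lit 5) (nat_lit 276) (nat_lit 5) (nat_lit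 610) (nat_lit 549) (nat_lit 401)))) (XT.nd (nat_lit 156) (nat_lit 532) (nat_lit 0) (XT.nd (nat_lit 78) (nat_lit 608) (nat_lit 0) (XT.lf (nat_lit 0) (nat_lit 11346568101) (nat_lit 608) (nat_lit 2664999261) (nat_lit 684) (nat_lit 470842944) (nat_lit 267) (nat_lit 5) (nat_lit 275) (nat_lit 5) (nat_lit 276) (nat_lit 5) (nat_lit 611) (nat_lit 549) (nat_lit 400)) (XT.lf (nat_lit 0) (nat_lit 2527052932) (nat_lit 608) (nat_lit 8953573871) (nat_lit 76) (nat_lit 3165864989) (nat_lit 259) (nat_lit 5) (nat_lit 267) (nat_lit 5) (nat_lit 260) (nat_lit 5) (nat_lit 612) (nat_lit 549) (nat_lit 399))) (XT.nd (nat_lit 78) (nat_lit 532) (nat_lit 0) (XT.lf (nat_lit 0) (nat_lit 5605299539) (nat_lit 608) (nat_lit 109683059) (nat_lit 76) (nat_lit 9098276650) (nat_lit 259) (nat_lit 5) (nat_lit 267) (nat_lit 5) (nat_lit 260) (nat_lit 5) (nat_lit 613) (nat_lit 549) (nat_lit 398)) (XT.lf (nat_lit 0) (nat_lit 8793170764) (nat_lit 608) (nat_lit 5970357898) (nat_lit 76) (nat_lit 218872721)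 (nat_lit 252) (nat_lit 5) (nat_lit 260) (nat_lit 5) (nat_lit 253) (nat_lit 5) (nat_lit 614) (nat_lit 549) (nat_lit 397))))) (XT.nd (nat_lit 234) (nat_lit 1064) (nat_lit 0) (XT.nd (nat_lit 78) (nat_lit 608) (nat_lit 0) (XT.lf (nat_lit 0) (nat_lit 3150350863) (nat_lit 532) (nat_lit 8941695364) (nat_lit 608) (nat_lit 3061935710) (nat_lit 245) (nat_lit 5) (nat_lit 252) (nat_lit 5) (nat_lit 253) (nat_lit 5) (nat_lit 615) (nat_lit 549) (nat_lit 396)) (XT.nd (nat_lit 78) (nat_lit 532) (nat_lit 0) (XT.lf (nat_lit 0) (nat_lit 154812356) (nat_lit 608) (nat_lit 2810830847) (nat_lit 76) (nat_lit 12362763089) (nat_lit 244) (nat_lit 5) (nat_lit 252) (nat_lit 5) (nat_lit 245) (nat_lit 5) (nat_lit 616) (nat_lit 549) (nat_lit 395)) (XT.lf (nat_lit 0) (nat_lit 3447093467) (nat_lit 608) (nat_lit 8909305161) (nat_lit 76) (nat_lit 3148472253) (nat_lit 237) (nat_lit 5) (nat_lit 245) (nat_lit 5) (nat_lit 238) (nat_lit 5) (nat_lit 617) (nat_lit 549) (nat_lit 394)))) (XT.nd (nat_lit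 156) (nat_lit 608) (nat_lit 0) (XT.nd (nat_lit 78) (nat_lit 0) (nat_lit 0) (XT.lf (nat_lit 0) (nat_lit 514961429) (nat_lit 456) (nat_lit 6320812869) (nat_lit 532) (nat_lit 8848479857) (nat_lit 231) (nat_lit 5) (nat_lit 237) (nat_lit 5) (nat_lit 238) (nat_lit 5) (nat_lit 618) (nat_lit 549) (nat_lit 393)) (XT.lf (nat_lit 0) (nat_lit 10232853128) (nat_lit 456) (nat_lit 107867664) (nat_lit 532) (nat_lit 5525534925) (nat_lit 231) (nat_lit 5) (nat_lit 237) (nat_lit 5) (nat_lit 238) (nat_lit 5) (nat_lit 619) (nat_lit 549) (nat_lit 392))) (XT.nd (nat_lit 78) (nat_lit 76) (nat_lit 0) (XT.lf (nat_lit 0) (nat_lit 4090897133) (nat_lit 532) (nat_lit 9880774670) (nat_lit 608) (nat_lit 2079107852) (nat_lit 224) (nat_lit 5) (nat_lit 231) (nat_lit 5) (nat_lit 232) (nat_lit 5) (nat_lit 620) (nat_lit 549) (nat_lit 391)) (XT.lf (nat_lit 0) (nat_lit 1445123101) (nat_lit 608) (nat_lit 2178044054) (nat_lit 76) (nat_lit 12615086613) (nat_lit 223) (nat_lit 5) (nat_lit 231) (nat_lit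 5) (nat_lit 224) (nat_lit 5) (nat_lit 621) (nat_lit 549) (nat_lit 390)))))) (XT.nd (nat_lit 546) (nat_lit 2128) (nat_lit 0) (XT.nd (nat_lit 234) (nat_lit 1368) (nat_lit 0) (XT.nd (nat_lit 78) (nat_lit 456) (nat_lit 0) (XT.lf (nat_lit 0) (nat_lit 5070625661) (nat_lit 532) (nat_lit 8573044316) (nat_lit 76) (nat_lit 2784360433) (nat_lit 217) (nat_lit 5) (nat_lit 224) (nat_lit 5) (nat_lit 218) (nat_lit 5) (nat_lit 622) (nat_lit 549) (nat_lit 389)) (XT.nd (nat_lit 78) (nat_lit 0) (nat_lit 0) (XT.lf (nat_lit 0) (nat_lit 1476826075) (nat_lit 456) (nat_lit 7329354155) (nat_lit 532) (nat_lit 7814671936) (nat_lit 211) (nat_lit 5) (nat_lit 217) (nat_lit 5) (nat_lit 218) (nat_lit 5) (nat_lit 623) (nat_lit 549) (nat_lit 388)) (XT.lf (nat_lit 0) (nat_lit 11828662657) (nat_lit 456) (nat_lit 834671099) (nat_lit 532) (nat_lit 4153259258) (nat_lit 211) (nat_lit 5) (nat_lit 217) (nat_lit 5) (nat_lit 218) (nat_lit 5) (nat_lit 624) (nat_lit 549) (nat_lit 387)))) (XT.nd (nat_lit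 156) (nat_lit 836) (nat_lit 0) (XT.nd (nat_lit 78) (nat_lit 76) (nat_lit 0) (XT.lf (nat_lit 0) (nat_lit 5389254388) (nat_lit 456) (nat_lit 11270496098) (nat_lit 532) (nat_lit 355256194) (nat_lit 205) (nat_lit 5) (nat_lit 211) (nat_lit 5) (nat_lit 212) (nat_lit 5) (nat_lit 625) (nat_lit 549) (nat_lit 386)) (XT.lf (nat_lit 0) (nat_lit 3501355636) (nat_lit 532) (nat_lit 1218880182) (nat_lit 76) (nat_lit 12496120331) (nat_lit 204) (nat_lit 5) (nat_lit 211) (nat_lit 5) (nat_lit 205) (nat_lit 5) (nat_lit 626) (nat_lit 549) (nat_lit 385))) (XT.nd (nat_lit 78) (nat_lit 380) (nat_lit 0) (XT.lf (nat_lit 0) (nat_lit 7494957643) (nat_lit 532) (nat_lit 7930229306) (nat_lit 76) (nat_lit 1995206779) (nat_lit 198) (nat_lit 5) (nat_lit 205) (nat_lit 5) (nat_lit 199) (nat_lit 5) (nat_lit 627) (nat_lit 549) (nat_lit 384)) (XT.lf (nat_lit 0) (nat_lit 2791927453) (nat_lit 380) (nat_lit 8823979563) (nat_lit 456) (nat_lit 6011655909) (nat_lit 193) (nat_lit 5) (nat_lit 198) (nat_lit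 5) (nat_lit 199) (nat_lit 5) (nat_lit 628) (nat_lit 549) (nat_lit 383))))) (XT.nd (nat_lit 312) (nat_lit 1216) (nat_lit 0) (XT.nd (nat_lit 156) (nat_lit 380) (nat_lit 0) (XT.nd (nat_lit 78) (nat_lit 532) (nat_lit 0) (XT.lf (nat_lit 0) (nat_lit 13821183117) (nat_lit 380) (nat_lit 2041265788) (nat_lit 456) (nat_lit 1975563499) (nat_lit 193) (nat_lit 5) (nat_lit 198) (nat_lit 5) (nat_lit 199) (nat_lit 5) (nat_lit 629) (nat_lit 549) (nat_lit 382)) (XT.lf (nat_lit 0) (nat_lit 2181273077) (nat_lit 532) (nat_lit 11001043408) (nat_lit 76) (nat_lit 4868714585) (nat_lit 186) (nat_lit 5) (nat_lit 193) (nat_lit 5) (nat_lit 187) (nat_lit 5) (nat_lit 630) (nat_lit 549) (nat_lit 381))) (XT.nd (nat_lit 78) (nat_lit 0) (nat_lit 0) (XT.lf (nat_lit 0) (nat_lit 84395307) (nat_lit 380) (nat_lit 6341780341) (nat_lit 456) (nat_lit 11841245996) (nat_lit 181) (nat_lit 5) (nat_lit 186) (nat_lit 5) (nat_lit 187) (nat_lit 5) (nat_lit 631) (nat_lit 549) (nat_lit 380)) (XT.lf (nat_lit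 0) (nat_lit 10824637968) (nat_lit 456) (nat_lit 6965431111) (nat_lit 76) (nat_lit 696698057) (nat_lit 181) (nat_lit 5) (nat_lit 187) (nat_lit 5) (nat_lit 182) (nat_lit 5) (nat_lit 632) (nat_lit 549) (nat_lit 379)))) (XT.nd (nat_lit 156) (nat_lit 760) (nat_lit 0) (XT.nd (nat_lit 78) (nat_lit 76) (nat_lit 0) (XT.lf (nat_lit 0) (nat_lit 4478730398) (nat_lit 380) (nat_lit 10893831756) (nat_lit 456) (nat_lit 3336707862) (nat_lit 176) (nat_lit 5) (nat_lit 181) (nat_lit 5) (nat_lit 182) (nat_lit 5) (nat_lit 633) (nat_lit 549) (nat_lit 378)) (XT.lf (nat_lit 0) (nat_lit 1098617657) (nat_lit 456) (nat_lit 2710943476) (nat_lit 76) (nat_lit 15125772569) (nat_lit 175) (nat_lit 5) (nat_lit 181) (nat_lit 5) (nat_lit 176) (nat_lit 5) (nat_lit 634) (nat_lit 549) (nat_lit 377))) (XT.nd (nat_lit 78) (nat_lit 380) (nat_lit 0) (XT.lf (nat_lit 0) (nat_lit 5650562868) (nat_lit 456) (nat_lit 10064852719) (nat_lit 76) (nat_lit 3448610440) (nat_lit 170) (nat_lit 5) (nat_lit 176) (nat_lit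 5) (nat_lit 171) (nat_lit 5) (nat_lit 635) (nat_lit 549) (nat_lit 376)) (XT.lf (nat_lit 0) (nat_lit 1768828003) (nat_lit 380) (nat_lit 8570437942) (nat_lit 456) (nat_lit 9057112180) (nat_lit 165) (nat_lit 5) (nat_lit 170) (nat_lit 5) (nat_lit 171) (nat_lit 5) (nat_lit 636) (nat_lit 549) (nat_lit 375))))))) (XT.nd (nat_lit 1170) (nat_lit 2660) (nat_lit 0) (XT.nd (nat_lit 546) (nat_lit 1748) (nat_lit 0) (XT.nd (nat_lit 234) (nat_lit 1140) (nat_lit 0) (XT.nd (nat_lit 78) (nat_lit 456) (nat_lit 0) (XT.lf (nat_lit 0) (nat_lit 13961375608) (nat_lit 380) (nat_lit 1218691319) (nat_lit 456) (nat_lit 4452144164) (nat_lit 165) (nat_lit 5) (nat_lit 170) (nat_lit 5) (nat_lit 171) (nat_lit 5) (nat_lit 637) (nat_lit 549) (nat_lit 374)) (XT.nd (nat_lit 78) (nat_lit 0) (nat_lit 0) (XT.lf (nat_lit 0) (nat_lit 316475879) (nat_lit 456) (nat_lit 13317242378) (nat_lit 76) (nat_lit 6237515646) (nat_lit 159) (nat_lit 5) (nat_lit 165) (nat_lit 5) (nat_lit 160) (nat_lit 5) (nat_lit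 638) (nat_lit 549) (nat_lit 373)) (XT.lf (nat_lit 0) (nat_lit 5158246123) (nat_lit 456) (nat_lit 1066034495) (nat_lit 76) (nat_lit 13889420422) (nat_lit 159) (nat_lit 5) (nat_lit 165) (nat_lit 5) (nat_lit 160) (nat_lit 5) (nat_lit 639) (nat_lit 549) (nat_lit 372)))) (XT.nd (nat_lit 156) (nat_lit 456) (nat_lit 0) (XT.nd (nat_lit 78) (nat_lit 304) (nat_lit 0) (XT.lf (nat_lit 0) (nat_lit 10172217644) (nat_lit 456) (nat_lit 8800758935) (nat_lit 76) (nat_lit 1386533901) (nat_lit 154) (nat_lit 5) (nat_lit 160) (nat_lit 5) (nat_lit 155) (nat_lit 5) (nat_lit 640) (nat_lit 549) (nat_lit 371)) (XT.lf (nat_lit 0) (nat_lit 3835515293) (nat_lit 304) (nat_lit 11515465904) (nat_lit 380) (nat_lit 5257964933) (nat_lit 150) (nat_lit 5) (nat_lit 154) (nat_lit 5) (nat_lit 155) (nat_lit 5) (nat_lit 641) (nat_lit 549) (nat_lit 370))) (XT.nd (nat_lit 78) (nat_lit 456) (nat_lit 0) (XT.lf (nat_lit 0) (nat_lit 16829992080) (nat_lit 304) (nat_lit 3853657182) (nat_lit 380) (nat_lit 178714913)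 (nat_lit 150) (nat_lit 5) (nat_lit 154) (nat_lit 5) (nat_lit 155) (nat_lit 5) (nat_lit 642) (nat_lit 549) (nat_lit 369)) (XT.lf (nat_lit 0) (nat_lit 5012859801) (nat_lit 456) (nat_lit 12109616458) (nat_lit 76) (nat_lit 3996198169) (nat_lit 144) (nat_lit 5) (nat_lit 150) (nat_lit 5) (nat_lit 145) (nat_lit 5) (nat_lit 643) (nat_lit 549) (nat_lit 368))))) (XT.nd (nat_lit 312) (nat_lit 988) (nat_lit 0) (XT.nd (nat_lit 156) (nat_lit 456) (nat_lit 0) (XT.nd (nat_lit 78) (nat_lit 0) (nat_lit 0) (XT.lf (nat_lit 0) (nat_lit 958380884) (nat_lit 304) (nat_lit 9397910051) (nat_lit 380) (nat_lit 11022788217) (nat_lit 140) (nat_lit 5) (nat_lit 144) (nat_lit 5) (nat_lit 145) (nat_lit 5) (nat_lit 644) (nat_lit 549) (nat_lit 367)) (XT.lf (nat_lit 0) (nat_lit 14438265816) (nat_lit 304) (nat_lit 1441100092) (nat_lit 380) (nat_lit 5763870806) (nat_lit 140) (nat_lit 5) (nat_lit 144) (nat_lit 5) (nat_lit 145) (nat_lit 5) (nat_lit 645) (nat_lit 549) (nat_lit 366))) (XT.nd (nat_lit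 78) (nat_lit 76) (nat_lit 0) (XT.lf (nat_lit 0) (nat_lit 6300882423) (nat_lit 380) (nat_lit 15287914029) (nat_lit 456) (nat_lit 322363336) (nat_lit 135) (nat_lit 5) (nat_lit 140) (nat_lit 5) (nat_lit 141) (nat_lit 5) (nat_lit 646) (nat_lit 549) (nat_lit 365)) (XT.lf (nat_lit 0) (nat_lit 5209290287) (nat_lit 456) (nat_lit 2066274115) (nat_lit 76) (nat_lit 14907200646) (nat_lit 134) (nat_lit 5) (nat_lit 140) (nat_lit 5) (nat_lit 135) (nat_lit 5) (nat_lit 647) (nat_lit 549) (nat_lit 364)))) (XT.nd (nat_lit 156) (nat_lit 380) (nat_lit 0) (XT.nd (nat_lit 78) (nat_lit 304) (nat_lit 0) (XT.lf (nat_lit 0) (nat_lit 10922605509) (nat_lit 380) (nat_lit 10575538759) (nat_lit 76) (nat_lit 960108859) (nat_lit 130) (nat_lit 5) (nat_lit 135) (nat_lit 5) (nat_lit 131) (nat_lit 5) (nat_lit 648) (nat_lit 549) (nat_lit 363)) (XT.lf (nat_lit 0) (nat_lit 3382518192) (nat_lit 304) (nat_lit 13443644522) (nat_lit 380) (nat_lit 5911568962) (nat_lit 126) (nat_lit 5) (nat_lit 130) (nat_lit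 5) (nat_lit 131) (nat_lit 5) (nat_lit 649) (nat_lit 549) (nat_lit 362))) (XT.nd (nat_lit 78) (nat_lit 380) (nat_lit 0) (XT.lf (nat_lit 0) (nat_lit 17749890282) (nat_lit 304) (nat_lit 5160815811) (nat_lit 380) (nat_lit 110835622) (nat_lit 126) (nat_lit 5) (nat_lit 130) (nat_lit 5) (nat_lit 131) (nat_lit 5) (nat_lit 650) (nat_lit 549) (nat_lit 361)) (XT.lf (nat_lit 0) (nat_lit 5803268401) (nat_lit 380) (nat_lit 14168186205) (nat_lit 76) (nat_lit 3337349611) (nat_lit 121) (nat_lit 5) (nat_lit 126) (nat_lit 5) (nat_lit 122) (nat_lit 5) (nat_lit 651) (nat_lit 549) (nat_lit 360)))))) (XT.nd (nat_lit 546) (nat_lit 1444) (nat_lit 0) (XT.nd (nat_lit 234) (nat_lit 608) (nat_lit 0) (XT.nd (nat_lit 78) (nat_lit 304) (nat_lit 0) (XT.lf (nat_lit 0) (nat_lit 266753600) (nat_lit 304) (nat_lit 11631029208) (nat_lit 380) (nat_lit 11702742467) (nat_lit 117) (nat_lit 5) (nat_lit 121) (nat_lit 5) (nat_lit 122) (nat_lit 5) (nat_lit 652) (nat_lit 549) (nat_lit 359)) (XT.nd (nat_lit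 78) (nat_lit 304) (nat_lit 0) (XT.lf (nat_lit 0) (nat_lit 15169445726) (nat_lit 304) (nat_lit 3031980067) (nat_lit 380) (nat_lit 5694910396) (nat_lit 117) (nat_lit 5) (nat_lit 121) (nat_lit 5) (nat_lit 122) (nat_lit 5) (nat_lit 653) (nat_lit 549) (nat_lit 358)) (XT.lf (nat_lit 0) (nat_lit 497681775) (nat_lit 304) (nat_lit 17996582591) (nat_lit 76) (nat_lit 5702337249) (nat_lit 113) (nat_lit 5) (nat_lit 117) (nat_lit 5) (nat_lit 114) (nat_lit 5) (nat_lit 654) (nat_lit 549) (nat_lit 357)))) (XT.nd (nat_lit 156) (nat_lit 304) (nat_lit 0) (XT.nd (nat_lit 78) (nat_lit 304) (nat_lit 0) (XT.lf (nat_lit 0) (nat_lit 6809272021) (nat_lit 304) (nat_lit 3029004864) (nat_lit 76) (nat_lit 14662414764) (nat_lit 113) (nat_lit 5) (nat_lit 117) (nat_lit 5) (nat_lit 114) (nat_lit 5) (nat_lit 655) (nat_lit 549) (nat_lit 356)) (XT.lf (nat_lit 0) (nat_lit 12387760802) (nat_lit 304) (nat_lit 932214404) (nat_lit 380) (nat_lit 11489430843) (nat_lit 109) (nat_lit 5) (nat_lit 113) (nat_lit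 5) (nat_lit 114) (nat_lit 5) (nat_lit 656) (nat_lit 549) (nat_lit 355))) (XT.nd (nat_lit 78) (nat_lit 76) (nat_lit 0) (XT.lf (nat_lit 0) (nat_lit 3003698824) (nat_lit 228) (nat_lit 17042569675) (nat_lit 304) (nat_lit 5076318901) (nat_lit 106) (nat_lit 5) (nat_lit 109) (nat_lit 5) (nat_lit 110) (nat_lit 5) (nat_lit 657) (nat_lit 549) (nat_lit 354)) (XT.lf (nat_lit 0) (nat_lit 1528423590) (nat_lit 304) (nat_lit 6563356212) (nat_lit 76) (nat_lit 17348410852) (nat_lit 105) (nat_lit 5) (nat_lit 109) (nat_lit 5) (nat_lit 106) (nat_lit 5) (nat_lit 658) (nat_lit 549) (nat_lit 353))))) (XT.nd (nat_lit 312) (nat_lit 532) (nat_lit 0) (XT.nd (nat_lit 156) (nat_lit 608) (nat_lit 0) (XT.nd (nat_lit 78) (nat_lit 0) (nat_lit 0) (XT.lf (nat_lit 0) (nat_lit 8258236353) (nat_lit 380) (nat_lit 16389475703) (nat_lit 76) (nat_lit 1114544055) (nat_lit 101) (nat_lit 5) (nat_lit 106) (nat_lit 5) (nat_lit 102) (nat_lit 5) (nat_lit 659) (nat_lit 549) (nat_lit 352)) (XT.lf (nat_lit 0)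 (nat_lit 15213248052) (nat_lit 380) (nat_lit 439618095) (nat_lit 76) (nat_lit 10436084848) (nat_lit 101) (nat_lit 5) (nat_lit 106) (nat_lit 5) (nat_lit 102) (nat_lit 5) (nat_lit 660) (nat_lit 549) (nat_lit 351))) (XT.nd (nat_lit 78) (nat_lit 380) (nat_lit 0) (XT.lf (nat_lit 0) (nat_lit 16027216643) (nat_lit 228) (nat_lit 6377025681) (nat_lit 304) (nat_lit 4015999968) (nat_lit 98) (nat_lit 5) (nat_lit 101) (nat_lit 5) (nat_lit 102) (nat_lit 5) (nat_lit 661) (nat_lit 549) (nat_lit 350)) (XT.lf (nat_lit 0) (nat_lit 2997747353) (nat_lit 380) (nat_lit 20657563120) (nat_lit 76) (nat_lit 3101343119) (nat_lit 93) (nat_lit 5) (nat_lit 98) (nat_lit 5) (nat_lit 94) (nat_lit 5) (nat_lit 662) (nat_lit 549) (nat_lit 349)))) (XT.nd (nat_lit 156) (nat_lit 304) (nat_lit 0) (XT.nd (nat_lit 78) (nat_lit 228) (nat_lit 0) (XT.lf (nat_lit 0) (nat_lit 10203348513) (nat_lit 380) (nat_lit 4118022675) (nat_lit 76) (nat_lit 12775784109) (nat_lit 93) (nat_lit 5) (nat_lit 98) (nat_lit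 5) (nat_lit 94) (nat_lit 5) (nat_lit 663) (nat_lit 549) (nat_lit 348)) (XT.lf (nat_lit 0) (nat_lit 12909597060) (nat_lit 228) (nat_lit 4720288539) (nat_lit 304) (nat_lit 9813045111) (nat_lit 90) (nat_lit 5) (nat_lit 93) (nat_lit 5) (nat_lit 94) (nat_lit 5) (nat_lit 664) (nat_lit 549) (nat_lit 347))) (XT.nd (nat_lit 78) (nat_lit 76) (nat_lit 0) (XT.lf (nat_lit 0) (nat_lit 2526486946) (nat_lit 228) (nat_lit 22748656593) (nat_lit 304) (nat_lit 2519074440) (nat_lit 87) (nat_lit 5) (nat_lit 90) (nat_lit 5) (nat_lit 91) (nat_lit 5) (nat_lit 665) (nat_lit 549) (nat_lit 346)) (XT.lf (nat_lit 0) (nat_lit 4978717440) (nat_lit 304) (nat_lit 8101992037) (nat_lit 76) (nat_lit 15068733110) (nat_lit 86) (nat_lit 5) (nat_lit 90) (nat_lit 5) (nat_lit 87) (nat_lit 5) (nat_lit 666) (nat_lit 549) (nat_lit 345))))))))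
noncomputable def xc134 : XT := (XT.nd (nat_lit 74256) (nat_lit 0) (nat_lit 15884) (XT.nd (nat_lit 73086) (nat_lit 0) (nat_lit 30552) (XT.nd (nat_lit 72540) (nat_lit 0) (nat_lit 36708) (XT.nd (nat_lit 72228) (nat_lit 0) (nat_lit 38076) (XT.nd (nat_lit 72072) (nat_lit 0) (nat_lit 38076) (XT.lf (nat_lit 0) (nat_lit 9503187999) (nat_lit 228) (nat_lit 3144461906) (nat_lit 304) (nat_lit 15862690598) (nat_lit 83) (nat_lit 5) (nat_lit 86) (nat_lit 5) (nat_lit 87) (nat_lit 5) (nat_lit 667) (nat_lit 549) (nat_lit 344)) (XT.nd (nat_lit 78) (nat_lit 1444) (nat_lit 0) (XT.lf (nat_lit 0) (nat_lit 4061186263) (nat_lit 1444) (nat_lit 8828466) (nat_lit 1444) (nat_lit 8828466) (nat_lit 603) (nat_lit 3) (nat_lit 622) (nat_lit 3) (nat_lit 622) (nat_lit 5) (nat_lit 550) (nat_lit 550) (nat_lit 460)) (XT.lf (nat_lit 0) (nat_lit 1144393597) (nat_lit 1444) (nat_lit 4137773079) (nat_lit 1520) (nat_lit 2933427944) (nat_lit 584) (nat_lit 5) (nat_lit 603) (nat_lit 3) (nat_lit 604) (nat_lit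 5) (nat_lit 551) (nat_lit 550) (nat_lit 459)))) (XT.nd (nat_lit 156) (nat_lit 0) (nat_lit 76) (XT.nd (nat_lit 78) (nat_lit 0) (nat_lit 76) (XT.lf (nat_lit 0) (nat_lit 2316999851) (nat_lit 1444) (nat_lit 35374665) (nat_lit 1520) (nat_lit 5922888416) (nat_lit 584) (nat_lit 5) (nat_lit 603) (nat_lit 3) (nat_lit 604) (nat_lit 5) (nat_lit 552) (nat_lit 550) (nat_lit 458)) (XT.lf (nat_lit 0) (nat_lit 3514905978) (nat_lit 1444) (nat_lit 4152193822) (nat_lit 1520) (nat_lit 668989948) (nat_lit 585) (nat_lit 5) (nat_lit 604) (nat_lit 5) (nat_lit 605) (nat_lit 5) (nat_lit 553) (nat_lit 550) (nat_lit 457))) (XT.nd (nat_lit 78) (nat_lit 0) (nat_lit 0) (XT.lf (nat_lit 76) (nat_lit 58903600) (nat_lit 0) (nat_lit 4664891203) (nat_lit 1520) (nat_lit 3674599858) (nat_lit 586) (nat_lit 5) (nat_lit 585) (nat_lit 5) (nat_lit 605) (nat_lit 5) (nat_lit 554) (nat_lit 550) (nat_lit 456)) (XT.lf (nat_lit 76) (nat_lit 4394421768) (nat_lit 0) (nat_lit 1561595215) (nat_lit 1520) (nat_lit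 2505947590) (nat_lit 586) (nat_lit 5) (nat_lit 585) (nat_lit 5) (nat_lit 605) (nat_lit 5) (nat_lit 555) (nat_lit 550) (nat_lit 455))))) (XT.nd (nat_lit 234) (nat_lit 0) (nat_lit 76) (XT.nd (nat_lit 78) (nat_lit 1520) (nat_lit 0) (XT.lf (nat_lit 76) (nat_lit 266511944) (nat_lit 0) (nat_lit 6930450170) (nat_lit 1520) (nat_lit 1330164172) (nat_lit 587) (nat_lit 5) (nat_lit 586) (nat_lit 5) (nat_lit 606) (nat_lit 5) (nat_lit 556) (nat_lit 550) (nat_lit 454)) (XT.nd (nat_lit 78) (nat_lit 1520) (nat_lit 0) (XT.lf (nat_lit 76) (nat_lit 4715598167) (nat_lit 0) (nat_lit 3757076814) (nat_lit 1520) (nat_lit 120719211) (nat_lit 587) (nat_lit 5) (nat_lit 586) (nat_lit 5) (nat_lit 606) (nat_lit 5) (nat_lit 557) (nat_lit 550) (nat_lit 453)) (XT.lf (nat_lit 76) (nat_lit 576664445) (nat_lit 0) (nat_lit 498138415) (nat_lit 1596) (nat_lit 7586512252) (nat_lit 567) (nat_lit 5) (nat_lit 566) (nat_lit 5) (nat_lit 587) (nat_lit 5) (nat_lit 558) (nat_lit 550) (nat_lit 452)))) (XT.nd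 (nat_lit 156) (nat_lit 0) (nat_lit 76) (XT.nd (nat_lit 78) (nat_lit 0) (nat_lit 0) (XT.lf (nat_lit 0) (nat_lit 2310400943) (nat_lit 1520) (nat_lit 3593466353) (nat_lit 1596) (nat_lit 2826357378) (nat_lit 567) (nat_lit 5) (nat_lit 587) (nat_lit 5) (nat_lit 588) (nat_lit 5) (nat_lit 559) (nat_lit 550) (nat_lit 451)) (XT.lf (nat_lit 76) (nat_lit 980582557) (nat_lit 0) (nat_lit 2573556673) (nat_lit 1596) (nat_lit 5246706420) (nat_lit 568) (nat_lit 5) (nat_lit 567) (nat_lit 5) (nat_lit 588) (nat_lit 5) (nat_lit 560) (nat_lit 550) (nat_lit 450))) (XT.nd (nat_lit 78) (nat_lit 0) (nat_lit 0) (XT.lf (nat_lit 0) (nat_lit 4826603594) (nat_lit 1520) (nat_lit 3200070904) (nat_lit 1596) (nat_lit 846129273) (nat_lit 568) (nat_lit 5) (nat_lit 588) (nat_lit 5) (nat_lit 589) (nat_lit 5) (nat_lit 561) (nat_lit 550) (nat_lit 449)) (XT.lf (nat_lit 76) (nat_lit 1498476187) (nat_lit 0) (nat_lit 4627550604) (nat_lit 1596) (nat_lit 2820145789) (nat_lit 569) (nat_lit 5) (nat_lit 568)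 (nat_lit 5) (nat_lit 589) (nat_lit 5) (nat_lit 562) (nat_lit 550) (nat_lit 448)))))) (XT.nd (nat_lit 546) (nat_lit 4788) (nat_lit 0) (XT.nd (nat_lit 234) (nat_lit 0) (nat_lit 76) (XT.nd (nat_lit 78) (nat_lit 1520) (nat_lit 0) (XT.lf (nat_lit 76) (nat_lit 6317823313) (nat_lit 0) (nat_lit 1130214231) (nat_lit 1596) (nat_lit 1573040924) (nat_lit 569) (nat_lit 5) (nat_lit 568) (nat_lit 5) (nat_lit 589) (nat_lit 5) (nat_lit 563) (nat_lit 550) (nat_lit 447)) (XT.nd (nat_lit 78) (nat_lit 1596) (nat_lit 0) (XT.lf (nat_lit 76) (nat_lit 2131439428) (nat_lit 0) (nat_lit 6670376547) (nat_lit 1596) (nat_lit 295561599) (nat_lit 570) (nat_lit 5) (nat_lit 569) (nat_lit 5) (nat_lit 590) (nat_lit 5) (nat_lit 564) (nat_lit 550) (nat_lit 446)) (XT.lf (nat_lit 0) (nat_lit 995873827) (nat_lit 1596) (nat_lit 2106493284) (nat_lit 1672) (nat_lit 6072673924) (nat_lit 548) (nat_lit 5) (nat_lit 569) (nat_lit 5) (nat_lit 570) (nat_lit 5) (nat_lit 565) (nat_lit 550) (nat_lit 445)))) (XT.nd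 (nat_lit 156) (nat_lit 0) (nat_lit 0) (XT.nd (nat_lit 78) (nat_lit 0) (nat_lit 0) (XT.lf (nat_lit 0) (nat_lit 2307828450) (nat_lit 1596) (nat_lit 6388821905) (nat_lit 1672) (nat_lit 557596930) (nat_lit 549) (nat_lit 5) (nat_lit 570) (nat_lit 5) (nat_lit 571) (nat_lit 5) (nat_lit 566) (nat_lit 550) (nat_lit 444)) (XT.lf (nat_lit 0) (nat_lit 3657544660) (nat_lit 1596) (nat_lit 1407104986) (nat_lit 1672) (nat_lit 4270159089) (nat_lit 549) (nat_lit 5) (nat_lit 570) (nat_lit 5) (nat_lit 571) (nat_lit 5) (nat_lit 567) (nat_lit 550) (nat_lit 443))) (XT.nd (nat_lit 78) (nat_lit 0) (nat_lit 76) (XT.lf (nat_lit 76) (nat_lit 3706139787) (nat_lit 0) (nat_lit 1329381777) (nat_lit 1672) (nat_lit 4381436020) (nat_lit 550) (nat_lit 5) (nat_lit 549) (nat_lit 5) (nat_lit 571) (nat_lit 5) (nat_lit 568) (nat_lit 550) (nat_lit 442)) (XT.lf (nat_lit 0) (nat_lit 6444249446) (nat_lit 1596) (nat_lit 593097437) (nat_lit 1672) (nat_lit 2463340161) (nat_lit 550) (nat_lit 5) (nat_lit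 571) (nat_lit 5) (nat_lit 572) (nat_lit 5) (nat_lit 569) (nat_lit 550) (nat_lit 441))))) (XT.nd (nat_lit 312) (nat_lit 3344) (nat_lit 0) (XT.nd (nat_lit 156) (nat_lit 1596) (nat_lit 0) (XT.nd (nat_lit 78) (nat_lit 0) (nat_lit 76) (XT.lf (nat_lit 76) (nat_lit 4662567181) (nat_lit 0) (nat_lit 3235681473) (nat_lit 1672) (nat_lit 1687501942) (nat_lit 551) (nat_lit 5) (nat_lit 550) (nat_lit 5) (nat_lit 572) (nat_lit 5) (nat_lit 570) (nat_lit 550) (nat_lit 440)) (XT.lf (nat_lit 76) (nat_lit 342127639) (nat_lit 0) (nat_lit 9027972145) (nat_lit 1672) (nat_lit 302641606) (nat_lit 552) (nat_lit 5) (nat_lit 551) (nat_lit 5) (nat_lit 573) (nat_lit 5) (nat_lit 571) (nat_lit 550) (nat_lit 439))) (XT.nd (nat_lit 78) (nat_lit 0) (nat_lit 0) (XT.lf (nat_lit 0) (nat_lit 1128590472) (nat_lit 1672) (nat_lit 4027472143) (nat_lit 1748) (nat_lit 4604601985) (nat_lit 529) (nat_lit 5) (nat_lit 551) (nat_lit 5) (nat_lit 552) (nat_lit 5) (nat_lit 572) (nat_lit 550) (nat_lit 438)) (XT.lf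 (nat_lit 76) (nat_lit 1380890243) (nat_lit 0) (nat_lit 1191441658) (nat_lit 1748) (nat_lit 7278216952) (nat_lit 530) (nat_lit 5) (nat_lit 529) (nat_lit 5) (nat_lit 552) (nat_lit 5) (nat_lit 573) (nat_lit 550) (nat_lit 437)))) (XT.nd (nat_lit 156) (nat_lit 1748) (nat_lit 0) (XT.nd (nat_lit 78) (nat_lit 1672) (nat_lit 0) (XT.lf (nat_lit 0) (nat_lit 4069969730) (nat_lit 1672) (nat_lit 3025654145) (nat_lit 76) (nat_lit 2846107786) (nat_lit 530) (nat_lit 5) (nat_lit 552) (nat_lit 5) (nat_lit 531) (nat_lit 5) (nat_lit 574) (nat_lit 550) (nat_lit 436)) (XT.lf (nat_lit 0) (nat_lit 2535656360) (nat_lit 1672) (nat_lit 3065959412) (nat_lit 1748) (nat_lit 4433042520) (nat_lit 508) (nat_lit 5) (nat_lit 530) (nat_lit 5) (nat_lit 531) (nat_lit 5) (nat_lit 575) (nat_lit 550) (nat_lit 435))) (XT.nd (nat_lit 78) (nat_lit 1748) (nat_lit 0) (XT.lf (nat_lit 0) (nat_lit 7171124558) (nat_lit 1748) (nat_lit 1903995455) (nat_lit 76) (nat_lit 1054180097) (nat_lit 508) (nat_lit 5) (nat_lit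 531) (nat_lit 5) (nat_lit 509) (nat_lit 5) (nat_lit 576) (nat_lit 550) (nat_lit 434)) (XT.lf (nat_lit 0) (nat_lit 3815739176) (nat_lit 1748) (nat_lit 4981766305) (nat_lit 1824) (nat_lit 1427820872) (nat_lit 485) (nat_lit 5) (nat_lit 508) (nat_lit 5) (nat_lit 509) (nat_lit 5) (nat_lit 577) (nat_lit 550) (nat_lit 433))))))) (XT.nd (nat_lit 1092) (nat_lit 6384) (nat_lit 0) (XT.nd (nat_lit 546) (nat_lit 3496) (nat_lit 0) (XT.nd (nat_lit 234) (nat_lit 1824) (nat_lit 0) (XT.nd (nat_lit 78) (nat_lit 2888) (nat_lit 0) (XT.lf (nat_lit 0) (nat_lit 124805473) (nat_lit 1824) (nat_lit 665349097) (nat_lit 76) (nat_lit 9533234224) (nat_lit 484) (nat_lit 5) (nat_lit 508) (nat_lit 5) (nat_lit 485) (nat_lit 5) (nat_lit 578) (nat_lit 550) (nat_lit 432)) (XT.nd (nat_lit 78) (nat_lit 1064) (nat_lit 0) (XT.lf (nat_lit 0) (nat_lit 1727243507) (nat_lit 1900) (nat_lit 5209590812) (nat_lit 76) (nat_lit 3485633010) (nat_lit 460) (nat_lit 5) (nat_lit 485) (nat_lit 5) (nat_lit 461) (nat_lit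 5) (nat_lit 579) (nat_lit 550) (nat_lit 431)) (XT.lf (nat_lit 0) (nat_lit 680908370) (nat_lit 1064) (nat_lit 2676180993) (nat_lit 1140) (nat_lit 7166532023) (nat_lit 446) (nat_lit 5) (nat_lit 460) (nat_lit 5) (nat_lit 461) (nat_lit 5) (nat_lit 580) (nat_lit 550) (nat_lit 430)))) (XT.nd (nat_lit 156) (nat_lit 912) (nat_lit 0) (XT.nd (nat_lit 78) (nat_lit 912) (nat_lit 0) (XT.lf (nat_lit 0) (nat_lit 5047043722) (nat_lit 1140) (nat_lit 3894614077) (nat_lit 76) (nat_lit 1684591606) (nat_lit 446) (nat_lit 5) (nat_lit 461) (nat_lit 5) (nat_lit 447) (nat_lit 5) (nat_lit 581) (nat_lit 550) (nat_lit 429)) (XT.lf (nat_lit 0) (nat_lit 2166195180) (nat_lit 912) (nat_lit 4618232814) (nat_lit 988) (nat_lit 3946230461) (nat_lit 434) (nat_lit 5) (nat_lit 446) (nat_lit 5) (nat_lit 447) (nat_lit 5) (nat_lit 582) (nat_lit 550) (nat_lit 428))) (XT.nd (nat_lit 78) (nat_lit 912) (nat_lit 0) (XT.lf (nat_lit 0) (nat_lit 8384185931) (nat_lit 912) (nat_lit 180599088) (nat_lit 988)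 (nat_lit 2272207234) (nat_lit 434) (nat_lit 5) (nat_lit 446) (nat_lit 5) (nat_lit 447) (nat_lit 5) (nat_lit 583) (nat_lit 550) (nat_lit 427)) (XT.lf (nat_lit 0) (nat_lit 3785661287) (nat_lit 912) (nat_lit 6630330877) (nat_lit 988) (nat_lit 528756751) (nat_lit 422) (nat_lit 5) (nat_lit 434) (nat_lit 5) (nat_lit 435) (nat_lit 5) (nat_lit 584) (nat_lit 550) (nat_lit 426))))) (XT.nd (nat_lit 234) (nat_lit 1748) (nat_lit 0) (XT.nd (nat_lit 78) (nat_lit 1672) (nat_lit 0) (XT.lf (nat_lit 0) (nat_lit 1233507107) (nat_lit 988) (nat_lit 898580996) (nat_lit 76) (nat_lit 8922404702) (nat_lit 421) (nat_lit 5) (nat_lit 434) (nat_lit 5) (nat_lit 422) (nat_lit 5) (nat_lit 585) (nat_lit 550) (nat_lit 425)) (XT.nd (nat_lit 78) (nat_lit 836) (nat_lit 0) (XT.lf (nat_lit 0) (nat_lit 3059030634) (nat_lit 912) (nat_lit 5642553786) (nat_lit 76) (nat_lit 2464076347) (nat_lit 410) (nat_lit 5) (nat_lit 422) (nat_lit 5) (nat_lit 411) (nat_lit 5) (nat_lit 586) (nat_lit 550) (nat_lit 424))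 (XT.lf (nat_lit 0) (nat_lit 785747149) (nat_lit 836) (nat_lit 4143748376) (nat_lit 912) (nat_lit 6349388913) (nat_lit 399) (nat_lit 5) (nat_lit 410) (nat_lit 5) (nat_lit 411) (nat_lit 5) (nat_lit 587) (nat_lit 550) (nat_lit 423)))) (XT.nd (nat_lit 156) (nat_lit 912) (nat_lit 0) (XT.nd (nat_lit 78) (nat_lit 836) (nat_lit 0) (XT.lf (nat_lit 0) (nat_lit 6862125914) (nat_lit 912) (nat_lit 3995143974) (nat_lit 76) (nat_lit 536608519) (nat_lit 399) (nat_lit 5) (nat_lit 411) (nat_lit 5) (nat_lit 400) (nat_lit 5) (nat_lit 588) (nat_lit 550) (nat_lit 422)) (XT.lf (nat_lit 0) (nat_lit 2623005663) (nat_lit 836) (nat_lit 6238562398) (nat_lit 912) (nat_lit 2649041940) (nat_lit 388) (nat_lit 5) (nat_lit 399) (nat_lit 5) (nat_lit 400) (nat_lit 5) (nat_lit 589) (nat_lit 550) (nat_lit 421))) (XT.nd (nat_lit 78) (nat_lit 912) (nat_lit 0) (XT.lf (nat_lit 0) (nat_lit 9411021110) (nat_lit 836) (nat_lit 1500686025) (nat_lit 912) (nat_lit 717755842) (nat_lit 388) (nat_lit 5) (nat_lit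 399) (nat_lit 5) (nat_lit 400) (nat_lit 5) (nat_lit 590) (nat_lit 550) (nat_lit 420)) (XT.lf (nat_lit 0) (nat_lit 1271720380) (nat_lit 912) (nat_lit 7152102121) (nat_lit 76) (nat_lit 3325989058) (nat_lit 376) (nat_lit 5) (nat_lit 388) (nat_lit 5) (nat_lit 377) (nat_lit 5) (nat_lit 591) (nat_lit 550) (nat_lit 419)))))) (XT.nd (nat_lit 546) (nat_lit 3344) (nat_lit 0) (XT.nd (nat_lit 234) (nat_lit 1520) (nat_lit 0) (XT.nd (nat_lit 78) (nat_lit 1520) (nat_lit 0) (XT.lf (nat_lit 0) (nat_lit 3300617134) (nat_lit 912) (nat_lit 323543208) (nat_lit 76) (nat_lit 8248127907) (nat_lit 376) (nat_lit 5) (nat_lit 388) (nat_lit 5) (nat_lit 377) (nat_lit 5) (nat_lit 592) (nat_lit 550) (nat_lit 418)) (XT.nd (nat_lit 78) (nat_lit 760) (nat_lit 0) (XT.lf (nat_lit 0) (nat_lit 5406832504) (nat_lit 836) (nat_lit 5291967333) (nat_lit 76) (nat_lit 1297680664) (nat_lit 366) (nat_lit 5) (nat_lit 377) (nat_lit 5) (nat_lit 367) (nat_lit 5) (nat_lit 593) (nat_lit 550) (nat_lit 417)) (XT.lf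 (nat_lit 0) (nat_lit 1736563036) (nat_lit 760) (nat_lit 5840875818) (nat_lit 836) (nat_lit 4545273236) (nat_lit 356) (nat_lit 5) (nat_lit 366) (nat_lit 5) (nat_lit 367) (nat_lit 5) (nat_lit 594) (nat_lit 550) (nat_lit 416)))) (XT.nd (nat_lit 156) (nat_lit 836) (nat_lit 0) (XT.nd (nat_lit 78) (nat_lit 684) (nat_lit 0) (XT.lf (nat_lit 0) (nat_lit 8960907165) (nat_lit 760) (nat_lit 851058090) (nat_lit 836) (nat_lit 2439093706) (nat_lit 356) (nat_lit 5) (nat_lit 366) (nat_lit 5) (nat_lit 367) (nat_lit 5) (nat_lit 595) (nat_lit 550) (nat_lit 415)) (XT.lf (nat_lit 0) (nat_lit 3955672208) (nat_lit 684) (nat_lit 8173993109) (nat_lit 760) (nat_lit 251538584) (nat_lit 347) (nat_lit 5) (nat_lit 356) (nat_lit 5) (nat_lit 357) (nat_lit 5) (nat_lit 596) (nat_lit 550) (nat_lit 414))) (XT.nd (nat_lit 78) (nat_lit 760) (nat_lit 0) (XT.lf (nat_lit 0) (nat_lit 1967029865) (nat_lit 760) (nat_lit 1157674954) (nat_lit 76) (nat_lit 9388726060) (nat_lit 346) (nat_lit 5) (nat_lit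 356) (nat_lit 5) (nat_lit 347) (nat_lit 5) (nat_lit 597) (nat_lit 550) (nat_lit 413)) (XT.lf (nat_lit 0) (nat_lit 4266717115) (nat_lit 836) (nat_lit 6340605454) (nat_lit 76) (nat_lit 2040145010) (nat_lit 336) (nat_lit 5) (nat_lit 347) (nat_lit 5) (nat_lit 337) (nat_lit 5) (nat_lit 598) (nat_lit 550) (nat_lit 412))))) (XT.nd (nat_lit 312) (nat_lit 1900) (nat_lit 0) (XT.nd (nat_lit 156) (nat_lit 760) (nat_lit 0) (XT.nd (nat_lit 78) (nat_lit 0) (nat_lit 0) (XT.lf (nat_lit 0) (nat_lit 1130048246) (nat_lit 684) (nat_lit 5504017642) (nat_lit 760) (nat_lit 6149686502) (nat_lit 327) (nat_lit 5) (nat_lit 336) (nat_lit 5) (nat_lit 337) (nat_lit 5) (nat_lit 599) (nat_lit 550) (nat_lit 411)) (XT.lf (nat_lit 0) (nat_lit 8819790786) (nat_lit 684) (nat_lit 257509378) (nat_lit 760) (nat_lit 3844892681) (nat_lit 327) (nat_lit 5) (nat_lit 336) (nat_lit 5) (nat_lit 337) (nat_lit 5) (nat_lit 600) (nat_lit 550) (nat_lit 410))) (XT.nd (nat_lit 78) (nat_lit 76) (nat_lit 0) (XT.lf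 (nat_lit 0) (nat_lit 3597824262) (nat_lit 684) (nat_lit 8014257530) (nat_lit 760) (nat_lit 1450467369) (nat_lit 318) (nat_lit 5) (nat_lit 327) (nat_lit 5) (nat_lit 328) (nat_lit 5) (nat_lit 601) (nat_lit 550) (nat_lit 409)) (XT.lf (nat_lit 0) (nat_lit 994579566) (nat_lit 760) (nat_lit 1722115658) (nat_lit 76) (nat_lit 10488574436) (nat_lit 317) (nat_lit 5) (nat_lit 327) (nat_lit 5) (nat_lit 318) (nat_lit 5) (nat_lit 602) (nat_lit 550) (nat_lit 408)))) (XT.nd (nat_lit 156) (nat_lit 608) (nat_lit 0) (XT.nd (nat_lit 78) (nat_lit 684) (nat_lit 0) (XT.lf (nat_lit 0) (nat_lit 3513934921) (nat_lit 684) (nat_lit 7136375455) (nat_lit 76) (nat_lit 2699446518) (nat_lit 309) (nat_lit 5) (nat_lit 318) (nat_lit 5) (nat_lit 310) (nat_lit 5) (nat_lit 603) (nat_lit 550) (nat_lit 407)) (XT.lf (nat_lit 0) (nat_lit 810476518) (nat_lit 684) (nat_lit 5294822649) (nat_lit 760) (nat_lit 7391402922) (nat_lit 300) (nat_lit 5) (nat_lit 309) (nat_lit 5) (nat_lit 310) (nat_lit 5) (nat_lit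 604) (nat_lit 550) (nat_lit 406))) (XT.nd (nat_lit 78) (nat_lit 608) (nat_lit 0) (XT.lf (nat_lit 0) (nat_lit 8784658744) (nat_lit 760) (nat_lit 4650286442) (nat_lit 76) (nat_lit 210918280) (nat_lit 300) (nat_lit 5) (nat_lit 310) (nat_lit 5) (nat_lit 301) (nat_lit 5) (nat_lit 605) (nat_lit 550) (nat_lit 405)) (XT.lf (nat_lit 0) (nat_lit 3541824200) (nat_lit 608) (nat_lit 8020972391) (nat_lit 684) (nat_lit 2234308281) (nat_lit 292) (nat_lit 5) (nat_lit 300) (nat_lit 5) (nat_lit 301) (nat_lit 5) (nat_lit 606) (nat_lit 550) (nat_lit 404))))))))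
noncomputable def xc135 : XT := (XT.nd (nat_lit 2262) (nat_lit 6460) (nat_lit 0) (XT.nd (nat_lit 1092) (nat_lit 4256) (nat_lit 0) (XT.nd (nat_lit 546) (nat_lit 2128) (nat_lit 0) (XT.nd (nat_lit 234) (nat_lit 1216) (nat_lit 0) (XT.nd (nat_lit 78) (nat_lit 1216) (nat_lit 0) (XT.lf (nat_lit 0) (nat_lit 457895598) (nat_lit 684) (nat_lit 2009030620) (nat_lit 76) (nat_lit 11484015541) (nat_lit 291) (nat_lit 5) (nat_lit 300) (nat_lit 5) (nat_lit 292) (nat_lit 5) (nat_lit 607) (nat_lit 550) (nat_lit 403)) (XT.nd (nat_lit 78) (nat_lit 608) (nat_lit 0) (XT.lf (nat_lit 0) (nat_lit 3224539035) (nat_lit 684) (nat_lit 7671755237) (nat_lit 76) (nat_lit 3210256069) (nat_lit 283) (nat_lit 5) (nat_lit 292) (nat_lit 5) (nat_lit 284) (nat_lit 5) (nat_lit 608) (nat_lit 550) (nat_lit 402)) (XT.lf (nat_lit 0) (nat_lit 787823669) (nat_lit 608) (nat_lit 5281285285) (nat_lit 684) (nat_lit 8195710846) (nat_lit 275) (nat_lit 5) (nat_lit 283) (nat_lit 5) (nat_lit 284) (nat_lit 5) (nat_lit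 609) (nat_lit 550) (nat_lit 401)))) (XT.nd (nat_lit 156) (nat_lit 608) (nat_lit 0) (XT.nd (nat_lit 78) (nat_lit 608) (nat_lit 0) (XT.lf (nat_lit 0) (nat_lit 9012978493) (nat_lit 684) (nat_lit 4923806187) (nat_lit 76) (nat_lit 488622370) (nat_lit 275) (nat_lit 5) (nat_lit 284) (nat_lit 5) (nat_lit 276) (nat_lit 5) (nat_lit 610) (nat_lit 550) (nat_lit 400)) (XT.lf (nat_lit 0) (nat_lit 3799686945) (nat_lit 608) (nat_lit 8263615223) (nat_lit 684) (nat_lit 2524952898) (nat_lit 267) (nat_lit 5) (nat_lit 275) (nat_lit 5) (nat_lit 276) (nat_lit 5) (nat_lit 611) (nat_lit 550) (nat_lit 399))) (XT.nd (nat_lit 78) (nat_lit 532) (nat_lit 0) (XT.lf (nat_lit 0) (nat_lit 436008074) (nat_lit 684) (nat_lit 2007929496) (nat_lit 76) (nat_lit 12309943478) (nat_lit 266) (nat_lit 5) (nat_lit 275) (nat_lit 5) (nat_lit 267) (nat_lit 5) (nat_lit 612) (nat_lit 550) (nat_lit 398)) (XT.lf (nat_lit 0) (nat_lit 3479197408) (nat_lit 608) (nat_lit 7936728541) (nat_lit 76) (nat_lit 3505423959)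 (nat_lit 259) (nat_lit 5) (nat_lit 267) (nat_lit 5) (nat_lit 260) (nat_lit 5) (nat_lit 613) (nat_lit 550) (nat_lit 397))))) (XT.nd (nat_lit 234) (nat_lit 1064) (nat_lit 0) (XT.nd (nat_lit 78) (nat_lit 532) (nat_lit 0) (XT.lf (nat_lit 0) (nat_lit 1074685430) (nat_lit 532) (nat_lit 5533622590) (nat_lit 608) (nat_lit 8483359490) (nat_lit 252) (nat_lit 5) (nat_lit 259) (nat_lit 5) (nat_lit 260) (nat_lit 5) (nat_lit 614) (nat_lit 550) (nat_lit 396)) (XT.nd (nat_lit 78) (nat_lit 532) (nat_lit 0) (XT.lf (nat_lit 0) (nat_lit 9845076350) (nat_lit 608) (nat_lit 4909376736) (nat_lit 76) (nat_lit 510037369) (nat_lit 252) (nat_lit 5) (nat_lit 260) (nat_lit 5) (nat_lit 253) (nat_lit 5) (nat_lit 615) (nat_lit 550) (nat_lit 395)) (XT.lf (nat_lit 0) (nat_lit 4385980487) (nat_lit 532) (nat_lit 8814384982) (nat_lit 608) (nat_lit 2239329176) (nat_lit 245) (nat_lit 5) (nat_lit 252) (nat_lit 5) (nat_lit 253) (nat_lit 5) (nat_lit 616) (nat_lit 550) (nat_lit 394)))) (XT.nd (nat_lit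 156) (nat_lit 456) (nat_lit 0) (XT.nd (nat_lit 78) (nat_lit 532) (nat_lit 0) (XT.lf (nat_lit 0) (nat_lit 1013059053) (nat_lit 608) (nat_lit 1706017044) (nat_lit 76) (nat_lit 12898759398) (nat_lit 244) (nat_lit 5) (nat_lit 252) (nat_lit 5) (nat_lit 245) (nat_lit 5) (nat_lit 617) (nat_lit 550) (nat_lit 393)) (XT.lf (nat_lit 0) (nat_lit 4363903345) (nat_lit 608) (nat_lit 7919143194) (nat_lit 76) (nat_lit 3514929191) (nat_lit 237) (nat_lit 5) (nat_lit 245) (nat_lit 5) (nat_lit 238) (nat_lit 5) (nat_lit 618) (nat_lit 550) (nat_lit 392))) (XT.nd (nat_lit 78) (nat_lit 0) (nat_lit 0) (XT.lf (nat_lit 0) (nat_lit 1685922228) (nat_lit 456) (nat_lit 6125346486) (nat_lit 532) (nat_lit 8169860426) (nat_lit 231) (nat_lit 5) (nat_lit 237) (nat_lit 5) (nat_lit 238) (nat_lit 5) (nat_lit 619) (nat_lit 550) (nat_lit 391)) (XT.lf (nat_lit 0) (nat_lit 11371202035) (nat_lit 532) (nat_lit 4593021195) (nat_lit 76) (nat_lit 202850422) (nat_lit 231) (nat_lit 5) (nat_lit 238) (nat_lit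 5) (nat_lit 232) (nat_lit 5) (nat_lit 620) (nat_lit 550) (nat_lit 390)))))) (XT.nd (nat_lit 546) (nat_lit 2204) (nat_lit 0) (XT.nd (nat_lit 234) (nat_lit 988) (nat_lit 0) (XT.nd (nat_lit 78) (nat_lit 532) (nat_lit 0) (XT.lf (nat_lit 0) (nat_lit 5317469014) (nat_lit 532) (nat_lit 9749285572) (nat_lit 608) (nat_lit 1288694496) (nat_lit 224) (nat_lit 5) (nat_lit 231) (nat_lit 5) (nat_lit 232) (nat_lit 5) (nat_lit 621) (nat_lit 550) (nat_lit 389)) (XT.nd (nat_lit 78) (nat_lit 456) (nat_lit 0) (XT.lf (nat_lit 0) (nat_lit 2279009624) (nat_lit 608) (nat_lit 1088567447) (nat_lit 76) (nat_lit 13179310200) (nat_lit 223) (nat_lit 5) (nat_lit 231) (nat_lit 5) (nat_lit 224) (nat_lit 5) (nat_lit 622) (nat_lit 550) (nat_lit 388)) (XT.lf (nat_lit 0) (nat_lit 5970682842) (nat_lit 532) (nat_lit 7605097055) (nat_lit 76) (nat_lit 3164806962) (nat_lit 217) (nat_lit 5) (nat_lit 224) (nat_lit 5) (nat_lit 218) (nat_lit 5) (nat_lit 623) (nat_lit 550) (nat_lit 387)))) (XT.nd (nat_lit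 156) (nat_lit 532) (nat_lit 0) (XT.nd (nat_lit 78) (nat_lit 0) (nat_lit 0) (XT.lf (nat_lit 0) (nat_lit 2638274637) (nat_lit 456) (nat_lit 7134363290) (nat_lit 532) (nat_lit 7164793949) (nat_lit 211) (nat_lit 5) (nat_lit 217) (nat_lit 5) (nat_lit 218) (nat_lit 5) (nat_lit 624) (nat_lit 550) (nat_lit 386)) (XT.lf (nat_lit 0) (nat_lit 13174953597) (nat_lit 456) (nat_lit 516484180) (nat_lit 532) (nat_lit 3445960300) (nat_lit 211) (nat_lit 5) (nat_lit 217) (nat_lit 5) (nat_lit 218) (nat_lit 5) (nat_lit 625) (nat_lit 550) (nat_lit 385))) (XT.nd (nat_lit 78) (nat_lit 0) (nat_lit 0) (XT.lf (nat_lit 0) (nat_lit 416532870) (nat_lit 532) (nat_lit 10729916228) (nat_lit 76) (nat_lit 6193393050) (nat_lit 204) (nat_lit 5) (nat_lit 211) (nat_lit 5) (nat_lit 205) (nat_lit 5) (nat_lit 626) (nat_lit 550) (nat_lit 384)) (XT.lf (nat_lit 0) (nat_lit 4330345254) (nat_lit 532) (nat_lit 139337766) (nat_lit 76) (nat_lit 13075792684) (nat_lit 204) (nat_lit 5) (nat_lit 211) (nat_lit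 5) (nat_lit 205) (nat_lit 5) (nat_lit 627) (nat_lit 550) (nat_lit 383))))) (XT.nd (nat_lit 312) (nat_lit 836) (nat_lit 0) (XT.nd (nat_lit 156) (nat_lit 532) (nat_lit 0) (XT.nd (nat_lit 78) (nat_lit 380) (nat_lit 0) (XT.lf (nat_lit 0) (nat_lit 8398300842) (nat_lit 532) (nat_lit 6979367650) (nat_lit 76) (nat_lit 2376036467) (nat_lit 198) (nat_lit 5) (nat_lit 205) (nat_lit 5) (nat_lit 199) (nat_lit 5) (nat_lit 628) (nat_lit 550) (nat_lit 382)) (XT.lf (nat_lit 0) (nat_lit 3949933125) (nat_lit 380) (nat_lit 8644118666) (nat_lit 456) (nat_lit 5371118643) (nat_lit 193) (nat_lit 5) (nat_lit 198) (nat_lit 5) (nat_lit 199) (nat_lit 5) (nat_lit 629) (nat_lit 550) (nat_lit 381))) (XT.nd (nat_lit 78) (nat_lit 532) (nat_lit 0) (XT.lf (nat_lit 0) (nat_lit 15178162781) (nat_lit 380) (nat_lit 1732737683) (nat_lit 456) (nat_lit 1269221451) (nat_lit 193) (nat_lit 5) (nat_lit 198) (nat_lit 5) (nat_lit 199) (nat_lit 5) (nat_lit 630) (nat_lit 550) (nat_lit 380)) (XT.lf (nat_lit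 0) (nat_lit 2955871653) (nat_lit 532) (nat_lit 10125576260) (nat_lit 76) (nat_lit 5315958667) (nat_lit 186) (nat_lit 5) (nat_lit 193) (nat_lit 5) (nat_lit 187) (nat_lit 5) (nat_lit 631) (nat_lit 550) (nat_lit 379)))) (XT.nd (nat_lit 156) (nat_lit 456) (nat_lit 0) (XT.nd (nat_lit 78) (nat_lit 0) (nat_lit 0) (XT.lf (nat_lit 0) (nat_lit 1174364071) (nat_lit 380) (nat_lit 6104041240) (nat_lit 456) (nat_lit 11339865498) (nat_lit 181) (nat_lit 5) (nat_lit 186) (nat_lit 5) (nat_lit 187) (nat_lit 5) (nat_lit 632) (nat_lit 550) (nat_lit 378)) (XT.lf (nat_lit 0) (nat_lit 11752967207) (nat_lit 456) (nat_lit 6025903395) (nat_lit 76) (nat_lit 1063370494) (nat_lit 181) (nat_lit 5) (nat_lit 187) (nat_lit 5) (nat_lit 182) (nat_lit 5) (nat_lit 633) (nat_lit 550) (nat_lit 377))) (XT.nd (nat_lit 78) (nat_lit 76) (nat_lit 0) (XT.lf (nat_lit 0) (nat_lit 5640043737) (nat_lit 380) (nat_lit 10744807001) (nat_lit 456) (nat_lit 2684483762) (nat_lit 176) (nat_lit 5) (nat_lit 181) (nat_lit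 5) (nat_lit 182) (nat_lit 5) (nat_lit 634) (nat_lit 550) (nat_lit 376)) (XT.lf (nat_lit 0) (nat_lit 1816206667) (nat_lit 456) (nat_lit 1705170490) (nat_lit 76) (nat_lit 15778727655) (nat_lit 175) (nat_lit 5) (nat_lit 181) (nat_lit 5) (nat_lit 176) (nat_lit 5) (nat_lit 635) (nat_lit 550) (nat_lit 375))))))) (XT.nd (nat_lit 1170) (nat_lit 2736) (nat_lit 0) (XT.nd (nat_lit 546) (nat_lit 1824) (nat_lit 0) (XT.nd (nat_lit 234) (nat_lit 1140) (nat_lit 0) (XT.nd (nat_lit 78) (nat_lit 380) (nat_lit 0) (XT.lf (nat_lit 0) (nat_lit 6454752788) (nat_lit 456) (nat_lit 9201697148) (nat_lit 76) (nat_lit 3877010263) (nat_lit 170) (nat_lit 5) (nat_lit 176) (nat_lit 5) (nat_lit 171) (nat_lit 5) (nat_lit 636) (nat_lit 550) (nat_lit 374)) (XT.nd (nat_lit 78) (nat_lit 0) (nat_lit 0) (XT.lf (nat_lit 0) (nat_lit 2861654211) (nat_lit 380) (nat_lit 8368888859) (nat_lit 456) (nat_lit 8540050454) (nat_lit 165) (nat_lit 5) (nat_lit 170) (nat_lit 5) (nat_lit 171) (nat_lit 5) (nat_lit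 637) (nat_lit 550) (nat_lit 373)) (XT.lf (nat_lit 0) (nat_lit 15277318460) (nat_lit 380) (nat_lit 877420202) (nat_lit 456) (nat_lit 3856673352) (nat_lit 165) (nat_lit 5) (nat_lit 170) (nat_lit 5) (nat_lit 171) (nat_lit 5) (nat_lit 638) (nat_lit 550) (nat_lit 372)))) (XT.nd (nat_lit 156) (nat_lit 684) (nat_lit 0) (XT.nd (nat_lit 78) (nat_lit 0) (nat_lit 0) (XT.lf (nat_lit 0) (nat_lit 994241551) (nat_lit 456) (nat_lit 12533751842) (nat_lit 76) (nat_lit 6727215423) (nat_lit 159) (nat_lit 5) (nat_lit 165) (nat_lit 5) (nat_lit 160) (nat_lit 5) (nat_lit 639) (nat_lit 550) (nat_lit 371)) (XT.lf (nat_lit 0) (nat_lit 5919681785) (nat_lit 456) (nat_lit 58104810) (nat_lit 76) (nat_lit 14525002423) (nat_lit 159) (nat_lit 5) (nat_lit 165) (nat_lit 5) (nat_lit 160) (nat_lit 5) (nat_lit 640) (nat_lit 550) (nat_lit 370))) (XT.nd (nat_lit 78) (nat_lit 304) (nat_lit 0) (XT.lf (nat_lit 0) (nat_lit 11030069461) (nat_lit 456) (nat_lit 7943640239) (nat_lit 76) (nat_lit 1779882617)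 (nat_lit 154) (nat_lit 5) (nat_lit 160) (nat_lit 5) (nat_lit 155) (nat_lit 5) (nat_lit 641) (nat_lit 550) (nat_lit 369)) (XT.lf (nat_lit 0) (nat_lit 4938562541) (nat_lit 304) (nat_lit 11367677886) (nat_lit 380) (nat_lit 4701900007) (nat_lit 150) (nat_lit 5) (nat_lit 154) (nat_lit 5) (nat_lit 155) (nat_lit 5) (nat_lit 642) (nat_lit 550) (nat_lit 368))))) (XT.nd (nat_lit 312) (nat_lit 1064) (nat_lit 0) (XT.nd (nat_lit 156) (nat_lit 304) (nat_lit 0) (XT.nd (nat_lit 78) (nat_lit 380) (nat_lit 0) (XT.lf (nat_lit 0) (nat_lit 459858553) (nat_lit 380) (nat_lit 3097102216) (nat_lit 76) (nat_lit 17709860163) (nat_lit 149) (nat_lit 5) (nat_lit 154) (nat_lit 5) (nat_lit 150) (nat_lit 5) (nat_lit 643) (nat_lit 550) (nat_lit 367)) (XT.lf (nat_lit 0) (nat_lit 5749304937) (nat_lit 456) (nat_lit 11333487256) (nat_lit 76) (nat_lit 4445513282) (nat_lit 144) (nat_lit 5) (nat_lit 150) (nat_lit 5) (nat_lit 145) (nat_lit 5) (nat_lit 644) (nat_lit 550) (nat_lit 366))) (XT.nd (nat_lit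 78) (nat_lit 0) (nat_lit 0) (XT.lf (nat_lit 0) (nat_lit 1989170550) (nat_lit 304) (nat_lit 9204527992) (nat_lit 380) (nat_lit 10600338241) (nat_lit 140) (nat_lit 5) (nat_lit 144) (nat_lit 5) (nat_lit 145) (nat_lit 5) (nat_lit 645) (nat_lit 550) (nat_lit 365)) (XT.lf (nat_lit 0) (nat_lit 15718817454) (nat_lit 304) (nat_lit 1096059094) (nat_lit 380) (nat_lit 5248848477) (nat_lit 140) (nat_lit 5) (nat_lit 144) (nat_lit 5) (nat_lit 145) (nat_lit 5) (nat_lit 646) (nat_lit 550) (nat_lit 364)))) (XT.nd (nat_lit 156) (nat_lit 608) (nat_lit 0) (XT.nd (nat_lit 78) (nat_lit 0) (nat_lit 0) (XT.lf (nat_lit 0) (nat_lit 294237789) (nat_lit 456) (nat_lit 14916963105) (nat_lit 76) (nat_lit 7125832806) (nat_lit 134) (nat_lit 5) (nat_lit 140) (nat_lit 5) (nat_lit 135) (nat_lit 5) (nat_lit 647) (nat_lit 550) (nat_lit 363)) (XT.lf (nat_lit 0) (nat_lit 5920079998) (nat_lit 456) (nat_lit 1123888861) (nat_lit 76) (nat_lit 15570302491) (nat_lit 134) (nat_lit 5) (nat_lit 140) (nat_lit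 5) (nat_lit 135) (nat_lit 5) (nat_lit 648) (nat_lit 550) (nat_lit 362))) (XT.nd (nat_lit 78) (nat_lit 304) (nat_lit 0) (XT.lf (nat_lit 0) (nat_lit 11744554651) (nat_lit 380) (nat_lit 9800215335) (nat_lit 76) (nat_lit 1350561672) (nat_lit 130) (nat_lit 5) (nat_lit 135) (nat_lit 5) (nat_lit 131) (nat_lit 5) (nat_lit 649) (nat_lit 550) (nat_lit 361)) (XT.lf (nat_lit 0) (nat_lit 4430510425) (nat_lit 304) (nat_lit 13330204330) (nat_lit 380) (nat_lit 5419794714) (nat_lit 126) (nat_lit 5) (nat_lit 130) (nat_lit 5) (nat_lit 131) (nat_lit 5) (nat_lit 650) (nat_lit 550) (nat_lit 360)))))) (XT.nd (nat_lit 546) (nat_lit 1444) (nat_lit 0) (XT.nd (nat_lit 234) (nat_lit 608) (nat_lit 0) (XT.nd (nat_lit 78) (nat_lit 608) (nat_lit 0) (XT.lf (nat_lit 0) (nat_lit 478631634) (nat_lit 380) (nat_lit 4407371875) (nat_lit 76) (nat_lit 18584164062) (nat_lit 125) (nat_lit 5) (nat_lit 130) (nat_lit 5) (nat_lit 126) (nat_lit 5) (nat_lit 651) (nat_lit 550) (nat_lit 359)) (XT.nd (nat_lit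 78) (nat_lit 304) (nat_lit 0) (XT.lf (nat_lit 0) (nat_lit 6506664768) (nat_lit 380) (nat_lit 13479685755) (nat_lit 76) (nat_lit 3776867831) (nat_lit 121) (nat_lit 5) (nat_lit 126) (nat_lit 5) (nat_lit 122) (nat_lit 5) (nat_lit 652) (nat_lit 550) (nat_lit 358)) (XT.lf (nat_lit 0) (nat_lit 1237559002) (nat_lit 304) (nat_lit 11480262640) (nat_lit 380) (nat_lit 11343057448) (nat_lit 117) (nat_lit 5) (nat_lit 121) (nat_lit 5) (nat_lit 122) (nat_lit 5) (nat_lit 653) (nat_lit 550) (nat_lit 357)))) (XT.nd (nat_lit 156) (nat_lit 304) (nat_lit 0) (XT.nd (nat_lit 78) (nat_lit 304) (nat_lit 0) (XT.lf (nat_lit 0) (nat_lit 16419374181) (nat_lit 304) (nat_lit 2716749912) (nat_lit 380) (nat_lit 5226710694) (nat_lit 117) (nat_lit 5) (nat_lit 121) (nat_lit 5) (nat_lit 122) (nat_lit 5) (nat_lit 654) (nat_lit 550) (nat_lit 356)) (XT.lf (nat_lit 0) (nat_lit 1079447316) (nat_lit 304) (nat_lit 17399660096) (nat_lit 76) (nat_lit 6189975837) (nat_lit 113) (nat_lit 5) (nat_lit 117)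 (nat_lit 5) (nat_lit 114) (nat_lit 5) (nat_lit 655) (nat_lit 550) (nat_lit 355))) (XT.nd (nat_lit 78) (nat_lit 304) (nat_lit 0) (XT.lf (nat_lit 0) (nat_lit 7506057369) (nat_lit 304) (nat_lit 2151492661) (nat_lit 76) (nat_lit 15321929572) (nat_lit 113) (nat_lit 5) (nat_lit 117) (nat_lit 5) (nat_lit 114) (nat_lit 5) (nat_lit 656) (nat_lit 550) (nat_lit 354)) (XT.lf (nat_lit 0) (nat_lit 13567436659) (nat_lit 304) (nat_lit 574596451) (nat_lit 380) (nat_lit 11152434282) (nat_lit 109) (nat_lit 5) (nat_lit 113) (nat_lit 5) (nat_lit 114) (nat_lit 5) (nat_lit 657) (nat_lit 550) (nat_lit 353))))) (XT.nd (nat_lit 312) (nat_lit 608) (nat_lit 0) (XT.nd (nat_lit 156) (nat_lit 532) (nat_lit 0) (XT.nd (nat_lit 78) (nat_lit 76) (nat_lit 0) (XT.lf (nat_lit 0) (nat_lit 3998189087) (nat_lit 228) (nat_lit 17002229811) (nat_lit 304) (nat_lit 4613542405) (nat_lit 106) (nat_lit 5) (nat_lit 109) (nat_lit 5) (nat_lit 110) (nat_lit 5) (nat_lit 658) (nat_lit 550) (nat_lit 352)) (XT.lf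 (nat_lit 0) (nat_lit 2104974357) (nat_lit 304) (nat_lit 5771260295) (nat_lit 76) (nat_lit 18061827345) (nat_lit 105) (nat_lit 5) (nat_lit 109) (nat_lit 5) (nat_lit 106) (nat_lit 5) (nat_lit 659) (nat_lit 550) (nat_lit 351))) (XT.nd (nat_lit 78) (nat_lit 228) (nat_lit 0) (XT.lf (nat_lit 0) (nat_lit 8967075088) (nat_lit 380) (nat_lit 15791581315) (nat_lit 76) (nat_lit 1507958778) (nat_lit 101) (nat_lit 5) (nat_lit 106) (nat_lit 5) (nat_lit 102) (nat_lit 5) (nat_lit 660) (nat_lit 550) (nat_lit 350)) (XT.lf (nat_lit 0) (nat_lit 465224280) (nat_lit 228) (nat_lit 15588323010) (nat_lit 304) (nat_lit 10546449712) (nat_lit 98) (nat_lit 5) (nat_lit 101) (nat_lit 5) (nat_lit 102) (nat_lit 5) (nat_lit 661) (nat_lit 550) (nat_lit 349)))) (XT.nd (nat_lit 156) (nat_lit 228) (nat_lit 0) (XT.nd (nat_lit 78) (nat_lit 380) (nat_lit 0) (XT.lf (nat_lit 0) (nat_lit 17249323600) (nat_lit 228) (nat_lit 6131419596) (nat_lit 304) (nat_lit 3557323536) (nat_lit 98) (nat_lit 5) (nat_lit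 101) (nat_lit 5) (nat_lit 102) (nat_lit 5) (nat_lit 662) (nat_lit 550) (nat_lit 348)) (XT.lf (nat_lit 0) (nat_lit 3587497196) (nat_lit 380) (nat_lit 20159926759) (nat_lit 76) (nat_lit 3533755195) (nat_lit 93) (nat_lit 5) (nat_lit 98) (nat_lit 5) (nat_lit 94) (nat_lit 5) (nat_lit 663) (nat_lit 550) (nat_lit 347))) (XT.nd (nat_lit 78) (nat_lit 228) (nat_lit 0) (XT.lf (nat_lit 0) (nat_lit 10926822244) (nat_lit 380) (nat_lit 3307454085) (nat_lit 76) (nat_lit 13394422550) (nat_lit 93) (nat_lit 5) (nat_lit 98) (nat_lit 5) (nat_lit 94) (nat_lit 5) (nat_lit 664) (nat_lit 550) (nat_lit 346)) (XT.lf (nat_lit 0) (nat_lit 14054843510) (nat_lit 228) (nat_lit 4442621461) (nat_lit 304) (nat_lit 9484013554) (nat_lit 90) (nat_lit 5) (nat_lit 93) (nat_lit 5) (nat_lit 94) (nat_lit 5) (nat_lit 665) (nat_lit 550) (nat_lit 345))))))))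
noncomputable def xc136 : XT := (XT.nd (nat_lit 74334) (nat_lit 0) (nat_lit 16264) (XT.nd (nat_lit 73164) (nat_lit 0) (nat_lit 32072) (XT.nd (nat_lit 72618) (nat_lit 0) (nat_lit 36480) (XT.nd (nat_lit 72306) (nat_lit 0) (nat_lit 37848) (XT.nd (nat_lit 78) (nat_lit 76) (nat_lit 0) (XT.lf (nat_lit 0) (nat_lit 3466078423) (nat_lit 228) (nat_lit 22827592723) (nat_lit 304) (nat_lit 2046159752) (nat_lit 87) (nat_lit 5) (nat_lit 90) (nat_lit 5) (nat_lit 91) (nat_lit 5) (nat_lit 666) (nat_lit 550) (nat_lit 344)) (XT.nd (nat_lit 72150) (nat_lit 0) (nat_lit 37848) (XT.lf (nat_lit 0) (nat_lit 5584598703) (nat_lit 304) (nat_lit 7385663650) (nat_lit 76) (nat_lit 15732032426) (nat_lit 86) (nat_lit 5) (nat_lit 90) (nat_lit 5) (nat_lit 87) (nat_lit 5) (nat_lit 667) (nat_lit 550) (nat_lit 343)) (XT.lf (nat_lit 0) (nat_lit 567550293) (nat_lit 0) (nat_lit 567550293) (nat_lit 1444) (nat_lit 3002183441) (nat_lit 584) (nat_lit 5) (nat_lit 584) (nat_lit 3) (nat_lit 603) (nat_lit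 3) (nat_lit 551) (nat_lit 551) (nat_lit 458)))) (XT.nd (nat_lit 156) (nat_lit 0) (nat_lit 0) (XT.nd (nat_lit 78) (nat_lit 0) (nat_lit 0) (XT.lf (nat_lit 0) (nat_lit 3420711227) (nat_lit 1444) (nat_lit 3037430884) (nat_lit 1520) (nat_lit 1876537217) (nat_lit 584) (nat_lit 5) (nat_lit 603) (nat_lit 3) (nat_lit 604) (nat_lit 5) (nat_lit 552) (nat_lit 551) (nat_lit 457)) (XT.lf (nat_lit 76) (nat_lit 1138752447) (nat_lit 0) (nat_lit 3441225797) (nat_lit 1520) (nat_lit 3816301698) (nat_lit 585) (nat_lit 5) (nat_lit 584) (nat_lit 5) (nat_lit 604) (nat_lit 5) (nat_lit 553) (nat_lit 551) (nat_lit 456))) (XT.nd (nat_lit 78) (nat_lit 0) (nat_lit 76) (XT.lf (nat_lit 76) (nat_lit 5424421650) (nat_lit 0) (nat_lit 329700800) (nat_lit 1520) (nat_lit 2705158294) (nat_lit 585) (nat_lit 5) (nat_lit 584) (nat_lit 5) (nat_lit 604) (nat_lit 5) (nat_lit 554) (nat_lit 551) (nat_lit 455)) (XT.lf (nat_lit 76) (nat_lit 1254689602) (nat_lit 0) (nat_lit 5695629164) (nat_lit 1520) (nat_lit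 1573253385) (nat_lit 586) (nat_lit 5) (nat_lit 585) (nat_lit 5) (nat_lit 605) (nat_lit 5) (nat_lit 555) (nat_lit 551) (nat_lit 454))))) (XT.nd (nat_lit 234) (nat_lit 0) (nat_lit 0) (XT.nd (nat_lit 78) (nat_lit 1444) (nat_lit 0) (XT.lf (nat_lit 76) (nat_lit 5653494448) (nat_lit 0) (nat_lit 2511886077) (nat_lit 1520) (nat_lit 423871963) (nat_lit 586) (nat_lit 5) (nat_lit 585) (nat_lit 5) (nat_lit 605) (nat_lit 5) (nat_lit 556) (nat_lit 551) (nat_lit 453)) (XT.nd (nat_lit 78) (nat_lit 0) (nat_lit 0) (XT.lf (nat_lit 0) (nat_lit 726024178) (nat_lit 1520) (nat_lit 7178351695) (nat_lit 1596) (nat_lit 752028348) (nat_lit 566) (nat_lit 5) (nat_lit 586) (nat_lit 5) (nat_lit 587) (nat_lit 5) (nat_lit 557) (nat_lit 551) (nat_lit 452)) (XT.lf (nat_lit 0) (nat_lit 1902988564) (nat_lit 1520) (nat_lit 2740174147) (nat_lit 1596) (nat_lit 4081487146) (nat_lit 566) (nat_lit 5) (nat_lit 586) (nat_lit 5) (nat_lit 587) (nat_lit 5) (nat_lit 558) (nat_lit 551) (nat_lit 451)))) (XT.nd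 (nat_lit 156) (nat_lit 0) (nat_lit 76) (XT.nd (nat_lit 78) (nat_lit 0) (nat_lit 76) (XT.lf (nat_lit 76) (nat_lit 1794586737) (nat_lit 0) (nat_lit 1294355879) (nat_lit 1596) (nat_lit 5705610570) (nat_lit 567) (nat_lit 5) (nat_lit 566) (nat_lit 5) (nat_lit 587) (nat_lit 5) (nat_lit 559) (nat_lit 551) (nat_lit 450)) (XT.lf (nat_lit 0) (nat_lit 4305176423) (nat_lit 1520) (nat_lit 2438392427) (nat_lit 1596) (nat_lit 2122156267) (nat_lit 567) (nat_lit 5) (nat_lit 587) (nat_lit 5) (nat_lit 588) (nat_lit 5) (nat_lit 560) (nat_lit 551) (nat_lit 449))) (XT.nd (nat_lit 78) (nat_lit 0) (nat_lit 76) (XT.lf (nat_lit 76) (nat_lit 2219065466) (nat_lit 0) (nat_lit 3324430526) (nat_lit 1596) (nat_lit 3394870993) (nat_lit 568) (nat_lit 5) (nat_lit 567) (nat_lit 5) (nat_lit 588) (nat_lit 5) (nat_lit 561) (nat_lit 551) (nat_lit 448)) (XT.lf (nat_lit 0) (nat_lit 6799344480) (nat_lit 1520) (nat_lit 2026907790) (nat_lit 1596) (nat_lit 186355851) (nat_lit 568) (nat_lit 5) (nat_lit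 588) (nat_lit 5) (nat_lit 589) (nat_lit 5) (nat_lit 562) (nat_lit 551) (nat_lit 447)))))) (XT.nd (nat_lit 546) (nat_lit 2964) (nat_lit 0) (XT.nd (nat_lit 234) (nat_lit 0) (nat_lit 76) (XT.nd (nat_lit 78) (nat_lit 1596) (nat_lit 0) (XT.lf (nat_lit 76) (nat_lit 2757471002) (nat_lit 0) (nat_lit 5338476378) (nat_lit 1596) (nat_lit 992075603) (nat_lit 569) (nat_lit 5) (nat_lit 568) (nat_lit 5) (nat_lit 589) (nat_lit 5) (nat_lit 563) (nat_lit 551) (nat_lit 446)) (XT.nd (nat_lit 78) (nat_lit 0) (nat_lit 76) (XT.lf (nat_lit 0) (nat_lit 239833643) (nat_lit 1596) (nat_lit 1517625229) (nat_lit 1672) (nat_lit 7407663483) (nat_lit 547) (nat_lit 5) (nat_lit 568) (nat_lit 5) (nat_lit 569) (nat_lit 5) (nat_lit 564) (nat_lit 551) (nat_lit 445)) (XT.lf (nat_lit 0) (nat_lit 1494222442) (nat_lit 1596) (nat_lit 5842353521) (nat_lit 1672) (nat_lit 1906835648) (nat_lit 548) (nat_lit 5) (nat_lit 569) (nat_lit 5) (nat_lit 570) (nat_lit 5) (nat_lit 565) (nat_lit 551) (nat_lit 444))))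 (XT.nd (nat_lit 156) (nat_lit 0) (nat_lit 76) (XT.nd (nat_lit 78) (nat_lit 0) (nat_lit 76) (XT.lf (nat_lit 0) (nat_lit 2772400522) (nat_lit 1596) (nat_lit 912401554) (nat_lit 1672) (nat_lit 5638492070) (nat_lit 548) (nat_lit 5) (nat_lit 569) (nat_lit 5) (nat_lit 570) (nat_lit 5) (nat_lit 566) (nat_lit 551) (nat_lit 443)) (XT.lf (nat_lit 0) (nat_lit 4080864838) (nat_lit 1596) (nat_lit 5250534089) (nat_lit 1672) (nat_lit 73282449) (nat_lit 549) (nat_lit 5) (nat_lit 570) (nat_lit 5) (nat_lit 571) (nat_lit 5) (nat_lit 567) (nat_lit 551) (nat_lit 442))) (XT.nd (nat_lit 78) (nat_lit 0) (nat_lit 0) (XT.lf (nat_lit 0) (nat_lit 5423714984) (nat_lit 1596) (nat_lit 194007621) (nat_lit 1672) (nat_lit 3869810879) (nat_lit 549) (nat_lit 5) (nat_lit 570) (nat_lit 5) (nat_lit 571) (nat_lit 5) (nat_lit 568) (nat_lit 551) (nat_lit 441)) (XT.lf (nat_lit 76) (nat_lit 5013335999) (nat_lit 0) (nat_lit 1790724898) (nat_lit 1672) (nat_lit 2767770399) (nat_lit 550) (nat_lit 5) (nat_lit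 549) (nat_lit 5) (nat_lit 571) (nat_lit 5) (nat_lit 569) (nat_lit 551) (nat_lit 440))))) (XT.nd (nat_lit 312) (nat_lit 1596) (nat_lit 0) (XT.nd (nat_lit 156) (nat_lit 1596) (nat_lit 0) (XT.nd (nat_lit 78) (nat_lit 0) (nat_lit 0) (XT.lf (nat_lit 76) (nat_lit 648011534) (nat_lit 0) (nat_lit 7561689221) (nat_lit 1672) (nat_lit 1448161977) (nat_lit 551) (nat_lit 5) (nat_lit 550) (nat_lit 5) (nat_lit 572) (nat_lit 5) (nat_lit 570) (nat_lit 551) (nat_lit 439)) (XT.lf (nat_lit 76) (nat_lit 5992103342) (nat_lit 0) (nat_lit 3672489029) (nat_lit 1672) (nat_lit 80601029) (nat_lit 551) (nat_lit 5) (nat_lit 550) (nat_lit 5) (nat_lit 572) (nat_lit 5) (nat_lit 571) (nat_lit 551) (nat_lit 438))) (XT.nd (nat_lit 78) (nat_lit 0) (nat_lit 0) (XT.lf (nat_lit 0) (nat_lit 1288607750) (nat_lit 1672) (nat_lit 8231336462) (nat_lit 1748) (nat_lit 314326447) (nat_lit 529) (nat_lit 5) (nat_lit 551) (nat_lit 5) (nat_lit 552) (nat_lit 5) (nat_lit 572) (nat_lit 551) (nat_lit 437)) (XT.lf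 (nat_lit 0) (nat_lit 2713175621) (nat_lit 1672) (nat_lit 2849310493) (nat_lit 1748) (nat_lit 4362052913) (nat_lit 529) (nat_lit 5) (nat_lit 551) (nat_lit 5) (nat_lit 552) (nat_lit 5) (nat_lit 573) (nat_lit 551) (nat_lit 436)))) (XT.nd (nat_lit 156) (nat_lit 1596) (nat_lit 0) (XT.nd (nat_lit 78) (nat_lit 0) (nat_lit 76) (XT.lf (nat_lit 76) (nat_lit 2658938147) (nat_lit 0) (nat_lit 1504344641) (nat_lit 1748) (nat_lit 5853390292) (nat_lit 530) (nat_lit 5) (nat_lit 529) (nat_lit 5) (nat_lit 552) (nat_lit 5) (nat_lit 574) (nat_lit 551) (nat_lit 435)) (XT.lf (nat_lit 0) (nat_lit 5658846956) (nat_lit 1672) (nat_lit 1828134178) (nat_lit 76) (nat_lit 2623340834) (nat_lit 530) (nat_lit 5) (nat_lit 552) (nat_lit 5) (nat_lit 531) (nat_lit 5) (nat_lit 575) (nat_lit 551) (nat_lit 434))) (XT.nd (nat_lit 78) (nat_lit 0) (nat_lit 0) (XT.lf (nat_lit 0) (nat_lit 3836126003) (nat_lit 1672) (nat_lit 3363555774) (nat_lit 1748) (nat_lit 3005856095) (nat_lit 508) (nat_lit 5) (nat_lit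 530) (nat_lit 5) (nat_lit 531) (nat_lit 5) (nat_lit 576) (nat_lit 551) (nat_lit 433)) (XT.lf (nat_lit 0) (nat_lit 8769938835) (nat_lit 1748) (nat_lit 686090884) (nat_lit 76) (nat_lit 846657468) (nat_lit 508) (nat_lit 5) (nat_lit 531) (nat_lit 5) (nat_lit 509) (nat_lit 5) (nat_lit 577) (nat_lit 551) (nat_lit 432))))))) (XT.nd (nat_lit 1092) (nat_lit 6612) (nat_lit 0) (XT.nd (nat_lit 546) (nat_lit 3572) (nat_lit 0) (XT.nd (nat_lit 234) (nat_lit 1976) (nat_lit 0) (XT.nd (nat_lit 78) (nat_lit 1824) (nat_lit 0) (XT.lf (nat_lit 0) (nat_lit 7270238) (nat_lit 1824) (nat_lit 5261316908) (nat_lit 76) (nat_lit 5132456358) (nat_lit 484) (nat_lit 5) (nat_lit 508) (nat_lit 5) (nat_lit 485) (nat_lit 5) (nat_lit 578) (nat_lit 551) (nat_lit 431)) (XT.nd (nat_lit 78) (nat_lit 0) (nat_lit 0) (XT.lf (nat_lit 0) (nat_lit 570995615) (nat_lit 1824) (nat_lit 976235678) (nat_lit 1900) (nat_lit 8954140846) (nat_lit 460) (nat_lit 5) (nat_lit 484) (nat_lit 5) (nat_lit 485) (nat_lit 5)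 (nat_lit 579) (nat_lit 551) (nat_lit 430)) (XT.lf (nat_lit 0) (nat_lit 3157198735) (nat_lit 1900) (nat_lit 4050723418) (nat_lit 76) (nat_lit 3395002162) (nat_lit 460) (nat_lit 5) (nat_lit 485) (nat_lit 5) (nat_lit 461) (nat_lit 5) (nat_lit 580) (nat_lit 551) (nat_lit 429)))) (XT.nd (nat_lit 156) (nat_lit 912) (nat_lit 0) (XT.nd (nat_lit 78) (nat_lit 0) (nat_lit 0) (XT.lf (nat_lit 0) (nat_lit 1949276147) (nat_lit 1064) (nat_lit 2851151040) (nat_lit 1140) (nat_lit 5906060203) (nat_lit 446) (nat_lit 5) (nat_lit 460) (nat_lit 5) (nat_lit 461) (nat_lit 5) (nat_lit 581) (nat_lit 551) (nat_lit 428)) (XT.lf (nat_lit 0) (nat_lit 6496423348) (nat_lit 1140) (nat_lit 2714521511) (nat_lit 76) (nat_lit 1600779874) (nat_lit 446) (nat_lit 5) (nat_lit 461) (nat_lit 5) (nat_lit 447) (nat_lit 5) (nat_lit 582) (nat_lit 551) (nat_lit 427))) (XT.nd (nat_lit 78) (nat_lit 0) (nat_lit 0) (XT.lf (nat_lit 0) (nat_lit 3459227715) (nat_lit 912) (nat_lit 4791001553) (nat_lit 988) (nat_lit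 2668360803) (nat_lit 434) (nat_lit 5) (nat_lit 446) (nat_lit 5) (nat_lit 447) (nat_lit 5) (nat_lit 583) (nat_lit 551) (nat_lit 426)) (XT.lf (nat_lit 0) (nat_lit 9777074190) (nat_lit 912) (nat_lit 263038601) (nat_lit 988) (nat_lit 987460921) (nat_lit 434) (nat_lit 5) (nat_lit 446) (nat_lit 5) (nat_lit 447) (nat_lit 5) (nat_lit 584) (nat_lit 551) (nat_lit 425))))) (XT.nd (nat_lit 234) (nat_lit 1748) (nat_lit 0) (XT.nd (nat_lit 78) (nat_lit 836) (nat_lit 0) (XT.lf (nat_lit 0) (nat_lit 762369137) (nat_lit 988) (nat_lit 6037849327) (nat_lit 76) (nat_lit 4337528186) (nat_lit 421) (nat_lit 5) (nat_lit 434) (nat_lit 5) (nat_lit 422) (nat_lit 5) (nat_lit 585) (nat_lit 551) (nat_lit 424)) (XT.nd (nat_lit 78) (nat_lit 0) (nat_lit 0) (XT.lf (nat_lit 0) (nat_lit 323889720) (nat_lit 836) (nat_lit 2205633171) (nat_lit 912) (nat_lit 8720559596) (nat_lit 410) (nat_lit 5) (nat_lit 421) (nat_lit 5) (nat_lit 422) (nat_lit 5) (nat_lit 586) (nat_lit 551) (nat_lit 423)) (XT.lf (nat_lit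 0) (nat_lit 4372382700) (nat_lit 912) (nat_lit 4502067291) (nat_lit 76) (nat_lit 2489408738) (nat_lit 410) (nat_lit 5) (nat_lit 422) (nat_lit 5) (nat_lit 411) (nat_lit 5) (nat_lit 587) (nat_lit 551) (nat_lit 422)))) (XT.nd (nat_lit 156) (nat_lit 912) (nat_lit 0) (XT.nd (nat_lit 78) (nat_lit 0) (nat_lit 0) (XT.lf (nat_lit 0) (nat_lit 2046554021) (nat_lit 836) (nat_lit 4217234449) (nat_lit 912) (nat_lit 5215889180) (nat_lit 399) (nat_lit 5) (nat_lit 410) (nat_lit 5) (nat_lit 411) (nat_lit 5) (nat_lit 588) (nat_lit 551) (nat_lit 421)) (XT.lf (nat_lit 0) (nat_lit 8210901759) (nat_lit 912) (nat_lit 2830129750) (nat_lit 76) (nat_lit 556424765) (nat_lit 399) (nat_lit 5) (nat_lit 411) (nat_lit 5) (nat_lit 400) (nat_lit 5) (nat_lit 589) (nat_lit 551) (nat_lit 420))) (XT.nd (nat_lit 78) (nat_lit 76) (nat_lit 0) (XT.lf (nat_lit 0) (nat_lit 3912192636) (nat_lit 836) (nat_lit 6322414209) (nat_lit 912) (nat_lit 1482231527) (nat_lit 388) (nat_lit 5) (nat_lit 399) (nat_lit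 5) (nat_lit 400) (nat_lit 5) (nat_lit 590) (nat_lit 551) (nat_lit 419)) (XT.lf (nat_lit 0) (nat_lit 457680484) (nat_lit 912) (nat_lit 1029830889) (nat_lit 76) (nat_lit 10350967084) (nat_lit 387) (nat_lit 5) (nat_lit 399) (nat_lit 5) (nat_lit 388) (nat_lit 5) (nat_lit 591) (nat_lit 551) (nat_lit 418)))))) (XT.nd (nat_lit 546) (nat_lit 2736) (nat_lit 0) (XT.nd (nat_lit 234) (nat_lit 2280) (nat_lit 0) (XT.nd (nat_lit 78) (nat_lit 760) (nat_lit 0) (XT.lf (nat_lit 0) (nat_lit 2462483723) (nat_lit 912) (nat_lit 6051993178) (nat_lit 76) (nat_lit 3446960534) (nat_lit 376) (nat_lit 5) (nat_lit 388) (nat_lit 5) (nat_lit 377) (nat_lit 5) (nat_lit 592) (nat_lit 551) (nat_lit 417)) (XT.nd (nat_lit 78) (nat_lit 0) (nat_lit 0) (XT.lf (nat_lit 0) (nat_lit 900572574) (nat_lit 760) (nat_lit 3614383365) (nat_lit 836) (nat_lit 7571749019) (nat_lit 366) (nat_lit 5) (nat_lit 376) (nat_lit 5) (nat_lit 377) (nat_lit 5) (nat_lit 593) (nat_lit 551) (nat_lit 416)) (XT.lf (nat_lit 0)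 (nat_lit 6643445697) (nat_lit 836) (nat_lit 4164967098) (nat_lit 76) (nat_lit 1405366484) (nat_lit 366) (nat_lit 5) (nat_lit 377) (nat_lit 5) (nat_lit 367) (nat_lit 5) (nat_lit 594) (nat_lit 551) (nat_lit 415)))) (XT.nd (nat_lit 156) (nat_lit 1520) (nat_lit 0) (XT.nd (nat_lit 78) (nat_lit 0) (nat_lit 0) (XT.lf (nat_lit 0) (nat_lit 2996023092) (nat_lit 760) (nat_lit 5847265843) (nat_lit 836) (nat_lit 3499531271) (nat_lit 356) (nat_lit 5) (nat_lit 366) (nat_lit 5) (nat_lit 367) (nat_lit 5) (nat_lit 595) (nat_lit 551) (nat_lit 414)) (XT.lf (nat_lit 0) (nat_lit 10340839814) (nat_lit 760) (nat_lit 759817005) (nat_lit 836) (nat_lit 1373515356) (nat_lit 356) (nat_lit 5) (nat_lit 366) (nat_lit 5) (nat_lit 367) (nat_lit 5) (nat_lit 596) (nat_lit 551) (nat_lit 413))) (XT.nd (nat_lit 78) (nat_lit 760) (nat_lit 0) (XT.lf (nat_lit 0) (nat_lit 833604358) (nat_lit 760) (nat_lit 7363996144) (nat_lit 76) (nat_lit 4409467985) (nat_lit 346) (nat_lit 5) (nat_lit 356) (nat_lit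 5) (nat_lit 347) (nat_lit 5) (nat_lit 597) (nat_lit 551) (nat_lit 412)) (XT.lf (nat_lit 0) (nat_lit 23777872) (nat_lit 760) (nat_lit 3048245757) (nat_lit 836) (nat_lit 9670307281) (nat_lit 336) (nat_lit 5) (nat_lit 346) (nat_lit 5) (nat_lit 347) (nat_lit 5) (nat_lit 598) (nat_lit 551) (nat_lit 411))))) (XT.nd (nat_lit 312) (nat_lit 1368) (nat_lit 0) (XT.nd (nat_lit 156) (nat_lit 684) (nat_lit 0) (XT.nd (nat_lit 78) (nat_lit 684) (nat_lit 0) (XT.lf (nat_lit 0) (nat_lit 5405360673) (nat_lit 836) (nat_lit 5250879083) (nat_lit 76) (nat_lit 2223056556) (nat_lit 336) (nat_lit 5) (nat_lit 347) (nat_lit 5) (nat_lit 337) (nat_lit 5) (nat_lit 599) (nat_lit 551) (nat_lit 410)) (XT.lf (nat_lit 0) (nat_lit 2361184148) (nat_lit 684) (nat_lit 5446065762) (nat_lit 760) (nat_lit 5211314108) (nat_lit 327) (nat_lit 5) (nat_lit 336) (nat_lit 5) (nat_lit 337) (nat_lit 5) (nat_lit 600) (nat_lit 551) (nat_lit 409))) (XT.nd (nat_lit 78) (nat_lit 684) (nat_lit 0) (XT.lf (nat_lit 0)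 (nat_lit 10181024775) (nat_lit 684) (nat_lit 97922083) (nat_lit 760) (nat_lit 2881235510) (nat_lit 327) (nat_lit 5) (nat_lit 336) (nat_lit 5) (nat_lit 337) (nat_lit 5) (nat_lit 601) (nat_lit 551) (nat_lit 408)) (XT.lf (nat_lit 0) (nat_lit 4866081150) (nat_lit 684) (nat_lit 7987156783) (nat_lit 760) (nat_lit 450332628) (nat_lit 318) (nat_lit 5) (nat_lit 327) (nat_lit 5) (nat_lit 328) (nat_lit 5) (nat_lit 602) (nat_lit 551) (nat_lit 407)))) (XT.nd (nat_lit 156) (nat_lit 684) (nat_lit 0) (XT.nd (nat_lit 78) (nat_lit 608) (nat_lit 0) (XT.lf (nat_lit 0) (nat_lit 2010203195) (nat_lit 760) (nat_lit 570432382) (nat_lit 76) (nat_lit 10868775533) (nat_lit 317) (nat_lit 5) (nat_lit 327) (nat_lit 5) (nat_lit 318) (nat_lit 5) (nat_lit 603) (nat_lit 551) (nat_lit 406)) (XT.lf (nat_lit 0) (nat_lit 4569334537) (nat_lit 684) (nat_lit 6082317919) (nat_lit 76) (nat_lit 2945348823) (nat_lit 309) (nat_lit 5) (nat_lit 318) (nat_lit 5) (nat_lit 310) (nat_lit 5) (nat_lit 604) (nat_lit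 551) (nat_lit 405))) (XT.nd (nat_lit 78) (nat_lit 0) (nat_lit 0) (XT.lf (nat_lit 0) (nat_lit 2015597508) (nat_lit 684) (nat_lit 5185331665) (nat_lit 760) (nat_lit 6546189090) (nat_lit 300) (nat_lit 5) (nat_lit 309) (nat_lit 5) (nat_lit 310) (nat_lit 5) (nat_lit 605) (nat_lit 551) (nat_lit 404)) (XT.lf (nat_lit 0) (nat_lit 9916158253) (nat_lit 760) (nat_lit 3559928553) (nat_lit 76) (nat_lit 423531343) (nat_lit 300) (nat_lit 5) (nat_lit 310) (nat_lit 5) (nat_lit 301) (nat_lit 5) (nat_lit 606) (nat_lit 551) (nat_lit 403))))))))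
noncomputable def xc137 : XT := (XT.nd (nat_lit 2262) (nat_lit 6308) (nat_lit 0) (XT.nd (nat_lit 1092) (nat_lit 4180) (nat_lit 0) (XT.nd (nat_lit 546) (nat_lit 2660) (nat_lit 0) (XT.nd (nat_lit 234) (nat_lit 1292) (nat_lit 0) (XT.nd (nat_lit 78) (nat_lit 684) (nat_lit 0) (XT.lf (nat_lit 0) (nat_lit 4788239014) (nat_lit 608) (nat_lit 7950511176) (nat_lit 684) (nat_lit 1315357278) (nat_lit 292) (nat_lit 5) (nat_lit 300) (nat_lit 5) (nat_lit 301) (nat_lit 5) (nat_lit 607) (nat_lit 551) (nat_lit 402)) (XT.nd (nat_lit 78) (nat_lit 608) (nat_lit 0) (XT.lf (nat_lit 0) (nat_lit 1399405366) (nat_lit 684) (nat_lit 884249214) (nat_lit 76) (nat_lit 11927615199) (nat_lit 291) (nat_lit 5) (nat_lit 300) (nat_lit 5) (nat_lit 292) (nat_lit 5) (nat_lit 608) (nat_lit 551) (nat_lit 401)) (XT.lf (nat_lit 0) (nat_lit 4212144616) (nat_lit 684) (nat_lit 6650948346) (nat_lit 76) (nat_lit 3507083169) (nat_lit 283) (nat_lit 5) (nat_lit 292) (nat_lit 5) (nat_lit 284) (nat_lit 5) (nat_lit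 609) (nat_lit 551) (nat_lit 400)))) (XT.nd (nat_lit 156) (nat_lit 684) (nat_lit 0) (XT.nd (nat_lit 78) (nat_lit 0) (nat_lit 0) (XT.lf (nat_lit 0) (nat_lit 1970096862) (nat_lit 608) (nat_lit 5132982582) (nat_lit 684) (nat_lit 7428742907) (nat_lit 275) (nat_lit 5) (nat_lit 283) (nat_lit 5) (nat_lit 284) (nat_lit 5) (nat_lit 610) (nat_lit 551) (nat_lit 399)) (XT.lf (nat_lit 0) (nat_lit 10089548830) (nat_lit 684) (nat_lit 3862319671) (nat_lit 76) (nat_lit 744079221) (nat_lit 275) (nat_lit 5) (nat_lit 284) (nat_lit 5) (nat_lit 276) (nat_lit 5) (nat_lit 611) (nat_lit 551) (nat_lit 398))) (XT.nd (nat_lit 78) (nat_lit 76) (nat_lit 0) (XT.lf (nat_lit 0) (nat_lit 5028011991) (nat_lit 608) (nat_lit 8162773966) (nat_lit 684) (nat_lit 1671469411) (nat_lit 267) (nat_lit 5) (nat_lit 275) (nat_lit 5) (nat_lit 276) (nat_lit 5) (nat_lit 612) (nat_lit 551) (nat_lit 397)) (XT.lf (nat_lit 0) (nat_lit 1319362207) (nat_lit 684) (nat_lit 906689211) (nat_lit 76) (nat_lit 12805375697)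 (nat_lit 266) (nat_lit 5) (nat_lit 275) (nat_lit 5) (nat_lit 267) (nat_lit 5) (nat_lit 613) (nat_lit 551) (nat_lit 396))))) (XT.nd (nat_lit 234) (nat_lit 1596) (nat_lit 0) (XT.nd (nat_lit 78) (nat_lit 532) (nat_lit 0) (XT.lf (nat_lit 0) (nat_lit 4415374415) (nat_lit 608) (nat_lit 6945985211) (nat_lit 76) (nat_lit 3841047307) (nat_lit 259) (nat_lit 5) (nat_lit 267) (nat_lit 5) (nat_lit 260) (nat_lit 5) (nat_lit 614) (nat_lit 551) (nat_lit 395)) (XT.nd (nat_lit 78) (nat_lit 0) (nat_lit 0) (XT.lf (nat_lit 0) (nat_lit 2238094684) (nat_lit 532) (nat_lit 5359394606) (nat_lit 608) (nat_lit 7778833902) (nat_lit 252) (nat_lit 5) (nat_lit 259) (nat_lit 5) (nat_lit 260) (nat_lit 5) (nat_lit 615) (nat_lit 551) (nat_lit 394)) (XT.lf (nat_lit 0) (nat_lit 10884002263) (nat_lit 608) (nat_lit 3873011869) (nat_lit 76) (nat_lit 795889013) (nat_lit 252) (nat_lit 5) (nat_lit 260) (nat_lit 5) (nat_lit 253) (nat_lit 5) (nat_lit 616) (nat_lit 551) (nat_lit 393)))) (XT.nd (nat_lit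 156) (nat_lit 988) (nat_lit 0) (XT.nd (nat_lit 78) (nat_lit 76) (nat_lit 0) (XT.lf (nat_lit 0) (nat_lit 5600788338) (nat_lit 532) (nat_lit 8696416348) (nat_lit 608) (nat_lit 1434591300) (nat_lit 245) (nat_lit 5) (nat_lit 252) (nat_lit 5) (nat_lit 253) (nat_lit 5) (nat_lit 617) (nat_lit 551) (nat_lit 392)) (XT.lf (nat_lit 0) (nat_lit 1855264150) (nat_lit 608) (nat_lit 624191191) (nat_lit 76) (nat_lit 13434263466) (nat_lit 244) (nat_lit 5) (nat_lit 252) (nat_lit 5) (nat_lit 245) (nat_lit 5) (nat_lit 618) (nat_lit 551) (nat_lit 391))) (XT.nd (nat_lit 78) (nat_lit 456) (nat_lit 0) (XT.lf (nat_lit 0) (nat_lit 5266125672) (nat_lit 608) (nat_lit 6954546366) (nat_lit 76) (nat_lit 3876930478) (nat_lit 237) (nat_lit 5) (nat_lit 245) (nat_lit 5) (nat_lit 238) (nat_lit 5) (nat_lit 619) (nat_lit 551) (nat_lit 390)) (XT.lf (nat_lit 0) (nat_lit 2835232339) (nat_lit 456) (nat_lit 5938469871) (nat_lit 532) (nat_lit 7510892171) (nat_lit 231) (nat_lit 5) (nat_lit 237) (nat_lit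 5) (nat_lit 238) (nat_lit 5) (nat_lit 620) (nat_lit 551) (nat_lit 389)))))) (XT.nd (nat_lit 546) (nat_lit 2128) (nat_lit 0) (XT.nd (nat_lit 234) (nat_lit 1444) (nat_lit 0) (XT.nd (nat_lit 78) (nat_lit 608) (nat_lit 0) (XT.lf (nat_lit 0) (nat_lit 12390995532) (nat_lit 532) (nat_lit 3577293104) (nat_lit 76) (nat_lit 506246572) (nat_lit 231) (nat_lit 5) (nat_lit 238) (nat_lit 5) (nat_lit 232) (nat_lit 5) (nat_lit 621) (nat_lit 551) (nat_lit 388)) (XT.nd (nat_lit 78) (nat_lit 76) (nat_lit 0) (XT.lf (nat_lit 0) (nat_lit 6524120143) (nat_lit 532) (nat_lit 9627946224) (nat_lit 608) (nat_lit 514780273) (nat_lit 224) (nat_lit 5) (nat_lit 231) (nat_lit 5) (nat_lit 232) (nat_lit 5) (nat_lit 622) (nat_lit 551) (nat_lit 387)) (XT.lf (nat_lit 0) (nat_lit 3098315365) (nat_lit 608) (nat_lit 21298534) (nat_lit 76) (nat_lit 13742705954) (nat_lit 223) (nat_lit 5) (nat_lit 231) (nat_lit 5) (nat_lit 224) (nat_lit 5) (nat_lit 623) (nat_lit 551) (nat_lit 386)))) (XT.nd (nat_lit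 156) (nat_lit 532) (nat_lit 0) (XT.nd (nat_lit 78) (nat_lit 456) (nat_lit 0) (XT.lf (nat_lit 0) (nat_lit 6857728821) (nat_lit 532) (nat_lit 6662035457) (nat_lit 76) (nat_lit 3540251622) (nat_lit 217) (nat_lit 5) (nat_lit 224) (nat_lit 5) (nat_lit 218) (nat_lit 5) (nat_lit 624) (nat_lit 551) (nat_lit 385)) (XT.lf (nat_lit 0) (nat_lit 3778998647) (nat_lit 456) (nat_lit 6948736495) (nat_lit 532) (nat_lit 6533223021) (nat_lit 211) (nat_lit 5) (nat_lit 217) (nat_lit 5) (nat_lit 218) (nat_lit 5) (nat_lit 625) (nat_lit 551) (nat_lit 384))) (XT.nd (nat_lit 78) (nat_lit 532) (nat_lit 0) (XT.lf (nat_lit 0) (nat_lit 14505078665) (nat_lit 456) (nat_lit 204937333) (nat_lit 532) (nat_lit 2755206166) (nat_lit 211) (nat_lit 5) (nat_lit 217) (nat_lit 5) (nat_lit 218) (nat_lit 5) (nat_lit 626) (nat_lit 551) (nat_lit 383)) (XT.lf (nat_lit 0) (nat_lit 1168944415) (nat_lit 532) (nat_lit 9862240023) (nat_lit 76) (nat_lit 6640545172) (nat_lit 204) (nat_lit 5) (nat_lit 211) (nat_lit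 5) (nat_lit 205) (nat_lit 5) (nat_lit 627) (nat_lit 551) (nat_lit 382))))) (XT.nd (nat_lit 312) (nat_lit 1292) (nat_lit 0) (XT.nd (nat_lit 156) (nat_lit 380) (nat_lit 0) (XT.nd (nat_lit 78) (nat_lit 0) (nat_lit 0) (XT.lf (nat_lit 0) (nat_lit 931141020) (nat_lit 456) (nat_lit 4221347791) (nat_lit 532) (nat_lit 12729158457) (nat_lit 198) (nat_lit 5) (nat_lit 204) (nat_lit 5) (nat_lit 205) (nat_lit 5) (nat_lit 628) (nat_lit 551) (nat_lit 381)) (XT.lf (nat_lit 0) (nat_lit 9290453755) (nat_lit 532) (nat_lit 6052570687) (nat_lit 76) (nat_lit 2751244194) (nat_lit 198) (nat_lit 5) (nat_lit 205) (nat_lit 5) (nat_lit 199) (nat_lit 5) (nat_lit 629) (nat_lit 551) (nat_lit 380))) (XT.nd (nat_lit 78) (nat_lit 0) (nat_lit 0) (XT.lf (nat_lit 0) (nat_lit 5088300416) (nat_lit 380) (nat_lit 8474497686) (nat_lit 456) (nat_lit 4747312272) (nat_lit 193) (nat_lit 5) (nat_lit 198) (nat_lit 5) (nat_lit 199) (nat_lit 5) (nat_lit 630) (nat_lit 551) (nat_lit 379)) (XT.lf (nat_lit 0)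 (nat_lit 16520322732) (nat_lit 380) (nat_lit 1431604836) (nat_lit 456) (nat_lit 577714955) (nat_lit 193) (nat_lit 5) (nat_lit 198) (nat_lit 5) (nat_lit 199) (nat_lit 5) (nat_lit 631) (nat_lit 551) (nat_lit 378)))) (XT.nd (nat_lit 156) (nat_lit 380) (nat_lit 0) (XT.nd (nat_lit 78) (nat_lit 380) (nat_lit 0) (XT.lf (nat_lit 0) (nat_lit 3717577624) (nat_lit 532) (nat_lit 9275138905) (nat_lit 76) (nat_lit 5758561761) (nat_lit 186) (nat_lit 5) (nat_lit 193) (nat_lit 5) (nat_lit 187) (nat_lit 5) (nat_lit 632) (nat_lit 551) (nat_lit 377)) (XT.lf (nat_lit 0) (nat_lit 2243872938) (nat_lit 380) (nat_lit 5875704237) (nat_lit 456) (nat_lit 10857122807) (nat_lit 181) (nat_lit 5) (nat_lit 186) (nat_lit 5) (nat_lit 187) (nat_lit 5) (nat_lit 633) (nat_lit 551) (nat_lit 376))) (XT.nd (nat_lit 78) (nat_lit 380) (nat_lit 0) (XT.lf (nat_lit 0) (nat_lit 12672221554) (nat_lit 456) (nat_lit 5109477655) (nat_lit 76) (nat_lit 1423679114) (nat_lit 181) (nat_lit 5) (nat_lit 187) (nat_lit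 5) (nat_lit 182) (nat_lit 5) (nat_lit 634) (nat_lit 551) (nat_lit 375)) (XT.lf (nat_lit 0) (nat_lit 6782966421) (nat_lit 380) (nat_lit 10607048980) (nat_lit 456) (nat_lit 2047133206) (nat_lit 176) (nat_lit 5) (nat_lit 181) (nat_lit 5) (nat_lit 182) (nat_lit 5) (nat_lit 635) (nat_lit 551) (nat_lit 374))))))) (XT.nd (nat_lit 1170) (nat_lit 2812) (nat_lit 0) (XT.nd (nat_lit 546) (nat_lit 1824) (nat_lit 0) (XT.nd (nat_lit 234) (nat_lit 836) (nat_lit 0) (XT.nd (nat_lit 78) (nat_lit 760) (nat_lit 0) (XT.lf (nat_lit 0) (nat_lit 2521135815) (nat_lit 456) (nat_lit 720442820) (nat_lit 76) (nat_lit 16431133845) (nat_lit 175) (nat_lit 5) (nat_lit 181) (nat_lit 5) (nat_lit 176) (nat_lit 5) (nat_lit 636) (nat_lit 551) (nat_lit 373)) (XT.nd (nat_lit 78) (nat_lit 380) (nat_lit 0) (XT.lf (nat_lit 0) (nat_lit 7248187197) (nat_lit 456) (nat_lit 8362612459) (nat_lit 76) (nat_lit 4300021069) (nat_lit 170) (nat_lit 5) (nat_lit 176) (nat_lit 5) (nat_lit 171) (nat_lit 5) (nat_lit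 637) (nat_lit 551) (nat_lit 372)) (XT.lf (nat_lit 0) (nat_lit 3935274883) (nat_lit 380) (nat_lit 8177791201) (nat_lit 456) (nat_lit 8039759605) (nat_lit 165) (nat_lit 5) (nat_lit 170) (nat_lit 5) (nat_lit 171) (nat_lit 5) (nat_lit 638) (nat_lit 551) (nat_lit 371)))) (XT.nd (nat_lit 156) (nat_lit 380) (nat_lit 0) (XT.nd (nat_lit 78) (nat_lit 456) (nat_lit 0) (XT.lf (nat_lit 0) (nat_lit 16579323250) (nat_lit 380) (nat_lit 543522101) (nat_lit 456) (nat_lit 3275873625) (nat_lit 165) (nat_lit 5) (nat_lit 170) (nat_lit 5) (nat_lit 171) (nat_lit 5) (nat_lit 639) (nat_lit 551) (nat_lit 370)) (XT.lf (nat_lit 0) (nat_lit 1659489852) (nat_lit 456) (nat_lit 11775357884) (nat_lit 76) (nat_lit 7212537764) (nat_lit 159) (nat_lit 5) (nat_lit 165) (nat_lit 5) (nat_lit 160) (nat_lit 5) (nat_lit 640) (nat_lit 551) (nat_lit 369))) (XT.nd (nat_lit 78) (nat_lit 0) (nat_lit 0) (XT.lf (nat_lit 0) (nat_lit 942375851) (nat_lit 380) (nat_lit 5734527383) (nat_lit 456) (nat_lit 14223145181)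 (nat_lit 154) (nat_lit 5) (nat_lit 159) (nat_lit 5) (nat_lit 160) (nat_lit 5) (nat_lit 641) (nat_lit 551) (nat_lit 368)) (XT.lf (nat_lit 0) (nat_lit 11879666874) (nat_lit 456) (nat_lit 7109497017) (nat_lit 76) (nat_lit 2166900914) (nat_lit 154) (nat_lit 5) (nat_lit 160) (nat_lit 5) (nat_lit 155) (nat_lit 5) (nat_lit 642) (nat_lit 551) (nat_lit 367))))) (XT.nd (nat_lit 312) (nat_lit 760) (nat_lit 0) (XT.nd (nat_lit 156) (nat_lit 684) (nat_lit 0) (XT.nd (nat_lit 78) (nat_lit 76) (nat_lit 0) (XT.lf (nat_lit 0) (nat_lit 6023816819) (nat_lit 304) (nat_lit 11231616088) (nat_lit 380) (nat_lit 4160389925) (nat_lit 150) (nat_lit 5) (nat_lit 154) (nat_lit 5) (nat_lit 155) (nat_lit 5) (nat_lit 643) (nat_lit 551) (nat_lit 366)) (XT.lf (nat_lit 0) (nat_lit 1083970189) (nat_lit 380) (nat_lit 2183713831) (nat_lit 76) (nat_lit 18412156724) (nat_lit 149) (nat_lit 5) (nat_lit 154) (nat_lit 5) (nat_lit 150) (nat_lit 5) (nat_lit 644) (nat_lit 551) (nat_lit 365))) (XT.nd (nat_lit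 78) (nat_lit 304) (nat_lit 0) (XT.lf (nat_lit 0) (nat_lit 6475775022) (nat_lit 456) (nat_lit 10581378135) (nat_lit 76) (nat_lit 4889470789) (nat_lit 144) (nat_lit 5) (nat_lit 150) (nat_lit 5) (nat_lit 145) (nat_lit 5) (nat_lit 645) (nat_lit 551) (nat_lit 364)) (XT.lf (nat_lit 0) (nat_lit 3001293492) (nat_lit 304) (nat_lit 9022086199) (nat_lit 380) (nat_lit 10194404078) (nat_lit 140) (nat_lit 5) (nat_lit 144) (nat_lit 5) (nat_lit 145) (nat_lit 5) (nat_lit 646) (nat_lit 551) (nat_lit 363)))) (XT.nd (nat_lit 156) (nat_lit 304) (nat_lit 0) (XT.nd (nat_lit 78) (nat_lit 456) (nat_lit 0) (XT.lf (nat_lit 0) (nat_lit 16986467853) (nat_lit 304) (nat_lit 758634831) (nat_lit 380) (nat_lit 4748001008) (nat_lit 140) (nat_lit 5) (nat_lit 144) (nat_lit 5) (nat_lit 145) (nat_lit 5) (nat_lit 647) (nat_lit 551) (nat_lit 362)) (XT.lf (nat_lit 0) (nat_lit 894832256) (nat_lit 456) (nat_lit 14250880076) (nat_lit 76) (nat_lit 7626151258) (nat_lit 134) (nat_lit 5) (nat_lit 140) (nat_lit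 5) (nat_lit 135) (nat_lit 5) (nat_lit 648) (nat_lit 551) (nat_lit 361))) (XT.nd (nat_lit 78) (nat_lit 304) (nat_lit 0) (XT.lf (nat_lit 0) (nat_lit 6621530333) (nat_lit 456) (nat_lit 200854588) (nat_lit 76) (nat_lit 16232494615) (nat_lit 134) (nat_lit 5) (nat_lit 140) (nat_lit 5) (nat_lit 135) (nat_lit 5) (nat_lit 649) (nat_lit 551) (nat_lit 360)) (XT.lf (nat_lit 0) (nat_lit 12559508251) (nat_lit 380) (nat_lit 9047705417) (nat_lit 76) (nat_lit 1734407427) (nat_lit 130) (nat_lit 5) (nat_lit 135) (nat_lit 5) (nat_lit 131) (nat_lit 5) (nat_lit 650) (nat_lit 551) (nat_lit 359)))))) (XT.nd (nat_lit 546) (nat_lit 1520) (nat_lit 0) (XT.nd (nat_lit 234) (nat_lit 608) (nat_lit 0) (XT.nd (nat_lit 78) (nat_lit 380) (nat_lit 0) (XT.lf (nat_lit 0) (nat_lit 5461394633) (nat_lit 304) (nat_lit 13229341018) (nat_lit 380) (nat_lit 4941872243) (nat_lit 126) (nat_lit 5) (nat_lit 130) (nat_lit 5) (nat_lit 131) (nat_lit 5) (nat_lit 651) (nat_lit 551) (nat_lit 358)) (XT.nd (nat_lit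 78) (nat_lit 304) (nat_lit 0) (XT.lf (nat_lit 0) (nat_lit 1055487301) (nat_lit 380) (nat_lit 3564167355) (nat_lit 76) (nat_lit 19308555580) (nat_lit 125) (nat_lit 5) (nat_lit 130) (nat_lit 5) (nat_lit 126) (nat_lit 5) (nat_lit 652) (nat_lit 551) (nat_lit 357)) (XT.lf (nat_lit 0) (nat_lit 7201322284) (nat_lit 380) (nat_lit 12815153967) (nat_lit 76) (nat_lit 4210701255) (nat_lit 121) (nat_lit 5) (nat_lit 126) (nat_lit 5) (nat_lit 122) (nat_lit 5) (nat_lit 653) (nat_lit 551) (nat_lit 356)))) (XT.nd (nat_lit 156) (nat_lit 304) (nat_lit 0) (XT.nd (nat_lit 78) (nat_lit 0) (nat_lit 0) (XT.lf (nat_lit 0) (nat_lit 2190290123) (nat_lit 304) (nat_lit 11341368131) (nat_lit 380) (nat_lit 10999234371) (nat_lit 117) (nat_lit 5) (nat_lit 121) (nat_lit 5) (nat_lit 122) (nat_lit 5) (nat_lit 654) (nat_lit 551) (nat_lit 355)) (XT.lf (nat_lit 0) (nat_lit 17657545920) (nat_lit 304) (nat_lit 2409810634) (nat_lit 380) (nat_lit 4771750569) (nat_lit 117) (nat_lit 5) (nat_lit 121) (nat_lit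 5) (nat_lit 122) (nat_lit 5) (nat_lit 655) (nat_lit 551) (nat_lit 354))) (XT.nd (nat_lit 78) (nat_lit 0) (nat_lit 0) (XT.lf (nat_lit 0) (nat_lit 1650644015) (nat_lit 304) (nat_lit 16827954964) (nat_lit 76) (nat_lit 6672860170) (nat_lit 113) (nat_lit 5) (nat_lit 117) (nat_lit 5) (nat_lit 114) (nat_lit 5) (nat_lit 656) (nat_lit 551) (nat_lit 353)) (XT.lf (nat_lit 0) (nat_lit 8195009647) (nat_lit 304) (nat_lit 1292857481) (nat_lit 76) (nat_lit 15980412101) (nat_lit 113) (nat_lit 5) (nat_lit 117) (nat_lit 5) (nat_lit 114) (nat_lit 5) (nat_lit 657) (nat_lit 551) (nat_lit 352))))) (XT.nd (nat_lit 312) (nat_lit 608) (nat_lit 0) (XT.nd (nat_lit 156) (nat_lit 380) (nat_lit 0) (XT.nd (nat_lit 78) (nat_lit 228) (nat_lit 0) (XT.lf (nat_lit 0) (nat_lit 14734518419) (nat_lit 304) (nat_lit 224436860) (nat_lit 380) (nat_lit 10830706749) (nat_lit 109) (nat_lit 5) (nat_lit 113) (nat_lit 5) (nat_lit 114) (nat_lit 5) (nat_lit 658) (nat_lit 551) (nat_lit 351)) (XT.lf (nat_lit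 0) (nat_lit 4976284633) (nat_lit 228) (nat_lit 16975885271) (nat_lit 304) (nat_lit 4163422947) (nat_lit 106) (nat_lit 5) (nat_lit 109) (nat_lit 5) (nat_lit 110) (nat_lit 5) (nat_lit 659) (nat_lit 551) (nat_lit 350))) (XT.nd (nat_lit 78) (nat_lit 304) (nat_lit 0) (XT.lf (nat_lit 0) (nat_lit 2671854980) (nat_lit 304) (nat_lit 4999177771) (nat_lit 76) (nat_lit 18775282536) (nat_lit 105) (nat_lit 5) (nat_lit 109) (nat_lit 5) (nat_lit 106) (nat_lit 5) (nat_lit 660) (nat_lit 551) (nat_lit 349)) (XT.lf (nat_lit 0) (nat_lit 9668979073) (nat_lit 380) (nat_lit 15217674473) (nat_lit 76) (nat_lit 1894830603) (nat_lit 101) (nat_lit 5) (nat_lit 106) (nat_lit 5) (nat_lit 102) (nat_lit 5) (nat_lit 661) (nat_lit 551) (nat_lit 348)))) (XT.nd (nat_lit 156) (nat_lit 380) (nat_lit 0) (XT.nd (nat_lit 78) (nat_lit 0) (nat_lit 0) (XT.lf (nat_lit 0) (nat_lit 1358413691) (nat_lit 228) (nat_lit 15534259472) (nat_lit 304) (nat_lit 10228950832) (nat_lit 98) (nat_lit 5) (nat_lit 101) (nat_lit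 5) (nat_lit 102) (nat_lit 5) (nat_lit 662) (nat_lit 551) (nat_lit 347)) (XT.lf (nat_lit 0) (nat_lit 18460863921) (nat_lit 228) (nat_lit 5895391127) (nat_lit 304) (nat_lit 3110403464) (nat_lit 98) (nat_lit 5) (nat_lit 101) (nat_lit 5) (nat_lit 102) (nat_lit 5) (nat_lit 663) (nat_lit 551) (nat_lit 346))) (XT.nd (nat_lit 78) (nat_lit 0) (nat_lit 0) (XT.lf (nat_lit 0) (nat_lit 4168469455) (nat_lit 380) (nat_lit 19687704664) (nat_lit 76) (nat_lit 3960433004) (nat_lit 93) (nat_lit 5) (nat_lit 98) (nat_lit 5) (nat_lit 94) (nat_lit 5) (nat_lit 664) (nat_lit 551) (nat_lit 345)) (XT.lf (nat_lit 0) (nat_lit 11644596252) (nat_lit 380) (nat_lit 2515347647) (nat_lit 76) (nat_lit 14011333260) (nat_lit 93) (nat_lit 5) (nat_lit 98) (nat_lit 5) (nat_lit 94) (nat_lit 5) (nat_lit 665) (nat_lit 551) (nat_lit 344))))))))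
noncomputable def xc138 : XT := (XT.nd (nat_lit 74334) (nat_lit 0) (nat_lit 16264) (XT.nd (nat_lit 73164) (nat_lit 0) (nat_lit 32072) (XT.nd (nat_lit 72618) (nat_lit 0) (nat_lit 36404) (XT.nd (nat_lit 72306) (nat_lit 0) (nat_lit 37848) (XT.nd (nat_lit 78) (nat_lit 304) (nat_lit 0) (XT.lf (nat_lit 0) (nat_lit 15188549482) (nat_lit 228) (nat_lit 4173849083) (nat_lit 304) (nat_lit 9168799113) (nat_lit 90) (nat_lit 5) (nat_lit 93) (nat_lit 5) (nat_lit 94) (nat_lit 5) (nat_lit 666) (nat_lit 551) (nat_lit 343)) (XT.nd (nat_lit 78) (nat_lit 76) (nat_lit 0) (XT.lf (nat_lit 0) (nat_lit 4389938378) (nat_lit 228) (nat_lit 22922709550) (nat_lit 304) (nat_lit 1584106999) (nat_lit 87) (nat_lit 5) (nat_lit 90) (nat_lit 5) (nat_lit 91) (nat_lit 5) (nat_lit 667) (nat_lit 551) (nat_lit 342)) (XT.lf (nat_lit 0) (nat_lit 6182937077) (nat_lit 304) (nat_lit 6689116804) (nat_lit 76) (nat_lit 16394543754) (nat_lit 86) (nat_lit 5) (nat_lit 90) (nat_lit 5) (nat_lit 87) (nat_lit 5)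 (nat_lit 668) (nat_lit 551) (nat_lit 341)))) (XT.nd (nat_lit 156) (nat_lit 0) (nat_lit 0) (XT.nd (nat_lit 78) (nat_lit 0) (nat_lit 0) (XT.lf (nat_lit 0) (nat_lit 1133011339) (nat_lit 0) (nat_lit 1133011339) (nat_lit 1444) (nat_lit 1931764888) (nat_lit 584) (nat_lit 5) (nat_lit 584) (nat_lit 3) (nat_lit 603) (nat_lit 3) (nat_lit 552) (nat_lit 552) (nat_lit 456)) (XT.lf (nat_lit 0) (nat_lit 5655051786) (nat_lit 1444) (nat_lit 1961022969) (nat_lit 1520) (nat_lit 841827202) (nat_lit 584) (nat_lit 5) (nat_lit 603) (nat_lit 3) (nat_lit 604) (nat_lit 5) (nat_lit 553) (nat_lit 552) (nat_lit 455))) (XT.nd (nat_lit 78) (nat_lit 0) (nat_lit 0) (XT.lf (nat_lit 76) (nat_lit 2291202736) (nat_lit 0) (nat_lit 4511166864) (nat_lit 1520) (nat_lit 1719070662) (nat_lit 585) (nat_lit 5) (nat_lit 584) (nat_lit 5) (nat_lit 604) (nat_lit 5) (nat_lit 554) (nat_lit 552) (nat_lit 454)) (XT.lf (nat_lit 76) (nat_lit 6640434828) (nat_lit 0) (nat_lit 1317781631) (nat_lit 1520) (nat_lit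 628323156) (nat_lit 585) (nat_lit 5) (nat_lit 584) (nat_lit 5) (nat_lit 604) (nat_lit 5) (nat_lit 555) (nat_lit 552) (nat_lit 453))))) (XT.nd (nat_lit 234) (nat_lit 0) (nat_lit 76) (XT.nd (nat_lit 78) (nat_lit 0) (nat_lit 0) (XT.lf (nat_lit 0) (nat_lit 479298759) (nat_lit 1520) (nat_lit 6228064834) (nat_lit 1596) (nat_lit 1945488134) (nat_lit 565) (nat_lit 5) (nat_lit 585) (nat_lit 5) (nat_lit 586) (nat_lit 5) (nat_lit 556) (nat_lit 552) (nat_lit 452)) (XT.nd (nat_lit 78) (nat_lit 0) (nat_lit 0) (XT.lf (nat_lit 0) (nat_lit 1595841566) (nat_lit 1520) (nat_lit 1838944073) (nat_lit 1596) (nat_lit 5285719566) (nat_lit 565) (nat_lit 5) (nat_lit 585) (nat_lit 5) (nat_lit 586) (nat_lit 5) (nat_lit 557) (nat_lit 552) (nat_lit 451)) (XT.lf (nat_lit 76) (nat_lit 2657899346) (nat_lit 0) (nat_lit 67897170) (nat_lit 1596) (nat_lit 6063895399) (nat_lit 566) (nat_lit 5) (nat_lit 565) (nat_lit 5) (nat_lit 586) (nat_lit 5) (nat_lit 558) (nat_lit 552) (nat_lit 450)))) (XT.nd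 (nat_lit 156) (nat_lit 0) (nat_lit 76) (XT.nd (nat_lit 78) (nat_lit 0) (nat_lit 0) (XT.lf (nat_lit 0) (nat_lit 3886941493) (nat_lit 1520) (nat_lit 1627755087) (nat_lit 1596) (nat_lit 3345395710) (nat_lit 566) (nat_lit 5) (nat_lit 586) (nat_lit 5) (nat_lit 587) (nat_lit 5) (nat_lit 559) (nat_lit 552) (nat_lit 449)) (XT.lf (nat_lit 76) (nat_lit 2990021918) (nat_lit 0) (nat_lit 2075966464) (nat_lit 1596) (nat_lit 3866020429) (nat_lit 567) (nat_lit 5) (nat_lit 566) (nat_lit 5) (nat_lit 587) (nat_lit 5) (nat_lit 560) (nat_lit 552) (nat_lit 448))) (XT.nd (nat_lit 78) (nat_lit 0) (nat_lit 0) (XT.lf (nat_lit 0) (nat_lit 6264182164) (nat_lit 1520) (nat_lit 1307860725) (nat_lit 1596) (nat_lit 1433411139) (nat_lit 567) (nat_lit 5) (nat_lit 587) (nat_lit 5) (nat_lit 588) (nat_lit 5) (nat_lit 561) (nat_lit 552) (nat_lit 447)) (XT.lf (nat_lit 76) (nat_lit 3434987776) (nat_lit 0) (nat_lit 4063163196) (nat_lit 1596) (nat_lit 1581982604) (nat_lit 568) (nat_lit 5) (nat_lit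 567) (nat_lit 5) (nat_lit 588) (nat_lit 5) (nat_lit 562) (nat_lit 552) (nat_lit 446)))))) (XT.nd (nat_lit 546) (nat_lit 2964) (nat_lit 0) (XT.nd (nat_lit 234) (nat_lit 0) (nat_lit 76) (XT.nd (nat_lit 78) (nat_lit 1520) (nat_lit 0) (XT.lf (nat_lit 76) (nat_lit 8275259505) (nat_lit 0) (nat_lit 466453731) (nat_lit 1596) (nat_lit 414896815) (nat_lit 568) (nat_lit 5) (nat_lit 567) (nat_lit 5) (nat_lit 588) (nat_lit 5) (nat_lit 563) (nat_lit 552) (nat_lit 445)) (XT.nd (nat_lit 78) (nat_lit 0) (nat_lit 0) (XT.lf (nat_lit 0) (nat_lit 788895592) (nat_lit 1596) (nat_lit 5245418926) (nat_lit 1672) (nat_lit 3199731667) (nat_lit 547) (nat_lit 5) (nat_lit 568) (nat_lit 5) (nat_lit 569) (nat_lit 5) (nat_lit 564) (nat_lit 552) (nat_lit 444)) (XT.lf (nat_lit 0) (nat_lit 1997121720) (nat_lit 1596) (nat_lit 366434539) (nat_lit 1672) (nat_lit 6949703190) (nat_lit 547) (nat_lit 5) (nat_lit 568) (nat_lit 5) (nat_lit 569) (nat_lit 5) (nat_lit 565) (nat_lit 552) (nat_lit 443))))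 (XT.nd (nat_lit 156) (nat_lit 0) (nat_lit 0) (XT.nd (nat_lit 78) (nat_lit 0) (nat_lit 0) (XT.lf (nat_lit 0) (nat_lit 3246272792) (nat_lit 1596) (nat_lit 4747218635) (nat_lit 1672) (nat_lit 1400231839) (nat_lit 548) (nat_lit 5) (nat_lit 569) (nat_lit 5) (nat_lit 570) (nat_lit 5) (nat_lit 566) (nat_lit 552) (nat_lit 442)) (XT.lf (nat_lit 76) (nat_lit 260990962) (nat_lit 0) (nat_lit 4256950039) (nat_lit 1672) (nat_lit 4957906141) (nat_lit 549) (nat_lit 5) (nat_lit 548) (nat_lit 5) (nat_lit 570) (nat_lit 5) (nat_lit 567) (nat_lit 552) (nat_lit 441))) (XT.nd (nat_lit 78) (nat_lit 0) (nat_lit 76) (XT.lf (nat_lit 76) (nat_lit 5418132215) (nat_lit 0) (nat_lit 406814198) (nat_lit 1672) (nat_lit 3734470443) (nat_lit 549) (nat_lit 5) (nat_lit 548) (nat_lit 5) (nat_lit 570) (nat_lit 5) (nat_lit 568) (nat_lit 552) (nat_lit 440)) (XT.lf (nat_lit 76) (nat_lit 1008377908) (nat_lit 0) (nat_lit 6157635856) (nat_lit 1672) (nat_lit 2478487173) (nat_lit 550) (nat_lit 5) (nat_lit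 549) (nat_lit 5) (nat_lit 571) (nat_lit 5) (nat_lit 569) (nat_lit 552) (nat_lit 439))))) (XT.nd (nat_lit 312) (nat_lit 1520) (nat_lit 0) (XT.nd (nat_lit 156) (nat_lit 0) (nat_lit 0) (XT.nd (nat_lit 78) (nat_lit 1596) (nat_lit 0) (XT.lf (nat_lit 76) (nat_lit 6298794392) (nat_lit 0) (nat_lit 2244412796) (nat_lit 1672) (nat_lit 1187894799) (nat_lit 550) (nat_lit 5) (nat_lit 549) (nat_lit 5) (nat_lit 571) (nat_lit 5) (nat_lit 570) (nat_lit 552) (nat_lit 438)) (XT.lf (nat_lit 0) (nat_lit 129633348) (nat_lit 1672) (nat_lit 7947217715) (nat_lit 1748) (nat_lit 1742512446) (nat_lit 528) (nat_lit 5) (nat_lit 550) (nat_lit 5) (nat_lit 551) (nat_lit 5) (nat_lit 571) (nat_lit 552) (nat_lit 437))) (XT.nd (nat_lit 78) (nat_lit 0) (nat_lit 0) (XT.lf (nat_lit 0) (nat_lit 1475125779) (nat_lit 1672) (nat_lit 2618559224) (nat_lit 1748) (nat_lit 5815199130) (nat_lit 528) (nat_lit 5) (nat_lit 550) (nat_lit 5) (nat_lit 551) (nat_lit 5) (nat_lit 572) (nat_lit 552) (nat_lit 436))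 (XT.lf (nat_lit 76) (nat_lit 2838248883) (nat_lit 0) (nat_lit 7565771) (nat_lit 1748) (nat_lit 7154416059) (nat_lit 529) (nat_lit 5) (nat_lit 528) (nat_lit 5) (nat_lit 551) (nat_lit 5) (nat_lit 573) (nat_lit 552) (nat_lit 435)))) (XT.nd (nat_lit 156) (nat_lit 1596) (nat_lit 0) (XT.nd (nat_lit 78) (nat_lit 0) (nat_lit 0) (XT.lf (nat_lit 0) (nat_lit 4268797591) (nat_lit 1672) (nat_lit 1696462896) (nat_lit 1748) (nat_lit 4127647382) (nat_lit 529) (nat_lit 5) (nat_lit 551) (nat_lit 5) (nat_lit 552) (nat_lit 5) (nat_lit 574) (nat_lit 552) (nat_lit 434)) (XT.lf (nat_lit 76) (nat_lit 3913991284) (nat_lit 0) (nat_lit 1812280582) (nat_lit 1748) (nat_lit 4461047296) (nat_lit 530) (nat_lit 5) (nat_lit 529) (nat_lit 5) (nat_lit 552) (nat_lit 5) (nat_lit 575) (nat_lit 552) (nat_lit 433))) (XT.nd (nat_lit 78) (nat_lit 1672) (nat_lit 0) (XT.lf (nat_lit 0) (nat_lit 7220964524) (nat_lit 1672) (nat_lit 655514769) (nat_lit 76) (nat_lit 2406979212) (nat_lit 530) (nat_lit 5) (nat_lit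 552) (nat_lit 5) (nat_lit 531) (nat_lit 5) (nat_lit 576) (nat_lit 552) (nat_lit 432)) (XT.lf (nat_lit 0) (nat_lit 5114075471) (nat_lit 1672) (nat_lit 3657929133) (nat_lit 1748) (nat_lit 1608988139) (nat_lit 508) (nat_lit 5) (nat_lit 530) (nat_lit 5) (nat_lit 531) (nat_lit 5) (nat_lit 577) (nat_lit 552) (nat_lit 431))))))) (XT.nd (nat_lit 1092) (nat_lit 6688) (nat_lit 0) (XT.nd (nat_lit 546) (nat_lit 3496) (nat_lit 0) (XT.nd (nat_lit 234) (nat_lit 1976) (nat_lit 0) (XT.nd (nat_lit 78) (nat_lit 1900) (nat_lit 0) (XT.lf (nat_lit 0) (nat_lit 514143453) (nat_lit 1748) (nat_lit 9833409468) (nat_lit 1824) (nat_lit 133056151) (nat_lit 485) (nat_lit 5) (nat_lit 508) (nat_lit 5) (nat_lit 509) (nat_lit 5) (nat_lit 578) (nat_lit 552) (nat_lit 430)) (XT.nd (nat_lit 78) (nat_lit 1824) (nat_lit 0) (XT.lf (nat_lit 0) (nat_lit 1395869005) (nat_lit 1824) (nat_lit 4148736398) (nat_lit 76) (nat_lit 5036605751) (nat_lit 484) (nat_lit 5) (nat_lit 508) (nat_lit 5) (nat_lit 485)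 (nat_lit 5) (nat_lit 579) (nat_lit 552) (nat_lit 429)) (XT.lf (nat_lit 0) (nat_lit 1792210489) (nat_lit 1824) (nat_lit 1155049009) (nat_lit 1900) (nat_lit 7736675910) (nat_lit 460) (nat_lit 5) (nat_lit 484) (nat_lit 5) (nat_lit 485) (nat_lit 5) (nat_lit 580) (nat_lit 552) (nat_lit 428)))) (XT.nd (nat_lit 156) (nat_lit 912) (nat_lit 0) (XT.nd (nat_lit 78) (nat_lit 1064) (nat_lit 0) (XT.lf (nat_lit 0) (nat_lit 4561567583) (nat_lit 1900) (nat_lit 2917724805) (nat_lit 76) (nat_lit 3308785031) (nat_lit 460) (nat_lit 5) (nat_lit 485) (nat_lit 5) (nat_lit 461) (nat_lit 5) (nat_lit 581) (nat_lit 552) (nat_lit 427)) (XT.lf (nat_lit 0) (nat_lit 3194287824) (nat_lit 1064) (nat_lit 3024904576) (nat_lit 1140) (nat_lit 4674890306) (nat_lit 446) (nat_lit 5) (nat_lit 460) (nat_lit 5) (nat_lit 461) (nat_lit 5) (nat_lit 582) (nat_lit 552) (nat_lit 426))) (XT.nd (nat_lit 78) (nat_lit 912) (nat_lit 0) (XT.lf (nat_lit 0) (nat_lit 7922429046) (nat_lit 1140) (nat_lit 1559676178)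 (nat_lit 76) (nat_lit 1519854713) (nat_lit 446) (nat_lit 5) (nat_lit 461) (nat_lit 5) (nat_lit 447) (nat_lit 5) (nat_lit 583) (nat_lit 552) (nat_lit 425)) (XT.lf (nat_lit 0) (nat_lit 4729593191) (nat_lit 912) (nat_lit 4964103477) (nat_lit 988) (nat_lit 1417619728) (nat_lit 434) (nat_lit 5) (nat_lit 446) (nat_lit 5) (nat_lit 447) (nat_lit 5) (nat_lit 584) (nat_lit 552) (nat_lit 424))))) (XT.nd (nat_lit 234) (nat_lit 1672) (nat_lit 0) (XT.nd (nat_lit 78) (nat_lit 1748) (nat_lit 0) (XT.lf (nat_lit 0) (nat_lit 267768893) (nat_lit 988) (nat_lit 74500172) (nat_lit 76) (nat_lit 10880678266) (nat_lit 433) (nat_lit 5) (nat_lit 446) (nat_lit 5) (nat_lit 434) (nat_lit 5) (nat_lit 585) (nat_lit 552) (nat_lit 423)) (XT.nd (nat_lit 78) (nat_lit 836) (nat_lit 0) (XT.lf (nat_lit 0) (nat_lit 2021972143) (nat_lit 988) (nat_lit 4946650956) (nat_lit 76) (nat_lit 4366919548) (nat_lit 421) (nat_lit 5) (nat_lit 434) (nat_lit 5) (nat_lit 422) (nat_lit 5) (nat_lit 586) (nat_lit 552)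 (nat_lit 422)) (XT.lf (nat_lit 0) (nat_lit 1534349482) (nat_lit 836) (nat_lit 2273537410) (nat_lit 912) (nat_lit 7642571359) (nat_lit 410) (nat_lit 5) (nat_lit 421) (nat_lit 5) (nat_lit 422) (nat_lit 5) (nat_lit 587) (nat_lit 552) (nat_lit 421)))) (XT.nd (nat_lit 156) (nat_lit 836) (nat_lit 0) (XT.nd (nat_lit 78) (nat_lit 836) (nat_lit 0) (XT.lf (nat_lit 0) (nat_lit 5663378464) (nat_lit 912) (nat_lit 3387439692) (nat_lit 76) (nat_lit 2516177751) (nat_lit 410) (nat_lit 5) (nat_lit 422) (nat_lit 5) (nat_lit 411) (nat_lit 5) (nat_lit 588) (nat_lit 552) (nat_lit 420)) (XT.lf (nat_lit 0) (nat_lit 3284228593) (nat_lit 836) (nat_lit 4292554826) (nat_lit 912) (nat_lit 4108665720) (nat_lit 399) (nat_lit 5) (nat_lit 410) (nat_lit 5) (nat_lit 411) (nat_lit 5) (nat_lit 589) (nat_lit 552) (nat_lit 419))) (XT.nd (nat_lit 78) (nat_lit 836) (nat_lit 0) (XT.lf (nat_lit 0) (nat_lit 9539607805) (nat_lit 912) (nat_lit 1690156889) (nat_lit 76) (nat_lit 576284590) (nat_lit 399)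 (nat_lit 5) (nat_lit 411) (nat_lit 5) (nat_lit 400) (nat_lit 5) (nat_lit 590) (nat_lit 552) (nat_lit 418)) (XT.lf (nat_lit 0) (nat_lit 5179139737) (nat_lit 836) (nat_lit 6409532007) (nat_lit 912) (nat_lit 339450886) (nat_lit 388) (nat_lit 5) (nat_lit 399) (nat_lit 5) (nat_lit 400) (nat_lit 5) (nat_lit 591) (nat_lit 552) (nat_lit 417)))))) (XT.nd (nat_lit 546) (nat_lit 3496) (nat_lit 0) (XT.nd (nat_lit 234) (nat_lit 1520) (nat_lit 0) (XT.nd (nat_lit 78) (nat_lit 760) (nat_lit 0) (XT.lf (nat_lit 0) (nat_lit 131834461) (nat_lit 836) (nat_lit 1470217063) (nat_lit 912) (nat_lit 10450429627) (nat_lit 376) (nat_lit 5) (nat_lit 387) (nat_lit 5) (nat_lit 388) (nat_lit 5) (nat_lit 592) (nat_lit 552) (nat_lit 416)) (XT.nd (nat_lit 78) (nat_lit 760) (nat_lit 0) (XT.lf (nat_lit 0) (nat_lit 3631811189) (nat_lit 912) (nat_lit 4978155124) (nat_lit 76) (nat_lit 3568237013) (nat_lit 376) (nat_lit 5) (nat_lit 388) (nat_lit 5) (nat_lit 377) (nat_lit 5) (nat_lit 593) (nat_lit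 552) (nat_lit 415)) (XT.lf (nat_lit 0) (nat_lit 2105600904) (nat_lit 760) (nat_lit 3605476537) (nat_lit 836) (nat_lit 6595185069) (nat_lit 366) (nat_lit 5) (nat_lit 376) (nat_lit 5) (nat_lit 377) (nat_lit 5) (nat_lit 594) (nat_lit 552) (nat_lit 414)))) (XT.nd (nat_lit 156) (nat_lit 760) (nat_lit 0) (XT.nd (nat_lit 78) (nat_lit 760) (nat_lit 0) (XT.lf (nat_lit 0) (nat_lit 7860971035) (nat_lit 836) (nat_lit 3063299521) (nat_lit 76) (nat_lit 1512032260) (nat_lit 366) (nat_lit 5) (nat_lit 377) (nat_lit 5) (nat_lit 367) (nat_lit 5) (nat_lit 595) (nat_lit 552) (nat_lit 413)) (XT.lf (nat_lit 0) (nat_lit 4233114638) (nat_lit 760) (nat_lit 5858071702) (nat_lit 836) (nat_lit 2477011873) (nat_lit 356) (nat_lit 5) (nat_lit 366) (nat_lit 5) (nat_lit 367) (nat_lit 5) (nat_lit 596) (nat_lit 552) (nat_lit 412))) (XT.nd (nat_lit 78) (nat_lit 760) (nat_lit 0) (XT.lf (nat_lit 0) (nat_lit 11701745908) (nat_lit 760) (nat_lit 670955054) (nat_lit 836) (nat_lit 329897404) (nat_lit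 356) (nat_lit 5) (nat_lit 366) (nat_lit 5) (nat_lit 367) (nat_lit 5) (nat_lit 597) (nat_lit 552) (nat_lit 411)) (XT.lf (nat_lit 0) (nat_lit 1894883099) (nat_lit 760) (nat_lit 6330595209) (nat_lit 76) (nat_lit 4612784984) (nat_lit 346) (nat_lit 5) (nat_lit 356) (nat_lit 5) (nat_lit 347) (nat_lit 5) (nat_lit 598) (nat_lit 552) (nat_lit 410))))) (XT.nd (nat_lit 312) (nat_lit 2052) (nat_lit 0) (XT.nd (nat_lit 156) (nat_lit 684) (nat_lit 0) (XT.nd (nat_lit 78) (nat_lit 0) (nat_lit 0) (XT.lf (nat_lit 0) (nat_lit 1197166651) (nat_lit 760) (nat_lit 2968036951) (nat_lit 836) (nat_lit 8811285770) (nat_lit 336) (nat_lit 5) (nat_lit 346) (nat_lit 5) (nat_lit 347) (nat_lit 5) (nat_lit 599) (nat_lit 552) (nat_lit 409)) (XT.lf (nat_lit 0) (nat_lit 6525875822) (nat_lit 836) (nat_lit 4186597857) (nat_lit 76) (nat_lit 2404108081) (nat_lit 336) (nat_lit 5) (nat_lit 347) (nat_lit 5) (nat_lit 337) (nat_lit 5) (nat_lit 600) (nat_lit 552) (nat_lit 408))) (XT.nd (nat_lit 78) (nat_lit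 0) (nat_lit 0) (XT.lf (nat_lit 0) (nat_lit 3570013883) (nat_lit 684) (nat_lit 5393479741) (nat_lit 760) (nat_lit 4295388405) (nat_lit 327) (nat_lit 5) (nat_lit 336) (nat_lit 5) (nat_lit 337) (nat_lit 5) (nat_lit 601) (nat_lit 552) (nat_lit 407)) (XT.lf (nat_lit 0) (nat_lit 11465394295) (nat_lit 760) (nat_lit 1880630777) (nat_lit 76) (nat_lit 57693286) (nat_lit 327) (nat_lit 5) (nat_lit 337) (nat_lit 5) (nat_lit 328) (nat_lit 5) (nat_lit 602) (nat_lit 552) (nat_lit 406)))) (XT.nd (nat_lit 156) (nat_lit 684) (nat_lit 0) (XT.nd (nat_lit 78) (nat_lit 608) (nat_lit 0) (XT.lf (nat_lit 0) (nat_lit 522892916) (nat_lit 760) (nat_lit 7440388640) (nat_lit 76) (nat_lit 5586847570) (nat_lit 317) (nat_lit 5) (nat_lit 327) (nat_lit 5) (nat_lit 318) (nat_lit 5) (nat_lit 603) (nat_lit 552) (nat_lit 405)) (XT.lf (nat_lit 0) (nat_lit 565644384) (nat_lit 608) (nat_lit 2445501962) (nat_lit 684) (nat_lit 10687990816) (nat_lit 309) (nat_lit 5) (nat_lit 317) (nat_lit 5) (nat_lit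 318) (nat_lit 5) (nat_lit 604) (nat_lit 552) (nat_lit 404))) (XT.nd (nat_lit 78) (nat_lit 684) (nat_lit 0) (XT.lf (nat_lit 0) (nat_lit 5607588699) (nat_lit 684) (nat_lit 5053651854) (nat_lit 76) (nat_lit 3188716943) (nat_lit 309) (nat_lit 5) (nat_lit 318) (nat_lit 5) (nat_lit 310) (nat_lit 5) (nat_lit 605) (nat_lit 552) (nat_lit 403)) (XT.lf (nat_lit 0) (nat_lit 3198654036) (nat_lit 684) (nat_lit 5082014619) (nat_lit 760) (nat_lit 5722632008) (nat_lit 300) (nat_lit 5) (nat_lit 309) (nat_lit 5) (nat_lit 310) (nat_lit 5) (nat_lit 606) (nat_lit 552) (nat_lit 402))))))))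
noncomputable def xc139 : XT := (XT.nd (nat_lit 2262) (nat_lit 6688) (nat_lit 0) (XT.nd (nat_lit 1092) (nat_lit 4256) (nat_lit 0) (XT.nd (nat_lit 546) (nat_lit 2280) (nat_lit 0) (XT.nd (nat_lit 234) (nat_lit 1216) (nat_lit 0) (XT.nd (nat_lit 78) (nat_lit 1292) (nat_lit 0) (XT.lf (nat_lit 0) (nat_lit 11033172627) (nat_lit 760) (nat_lit 2493714959) (nat_lit 76) (nat_lit 632304447) (nat_lit 300) (nat_lit 5) (nat_lit 310) (nat_lit 5) (nat_lit 301) (nat_lit 5) (nat_lit 607) (nat_lit 552) (nat_lit 401)) (XT.nd (nat_lit 78) (nat_lit 684) (nat_lit 0) (XT.lf (nat_lit 0) (nat_lit 6013932985) (nat_lit 608) (nat_lit 7887606115) (nat_lit 684) (nat_lit 415446461) (nat_lit 292) (nat_lit 5) (nat_lit 300) (nat_lit 5) (nat_lit 301) (nat_lit 5) (nat_lit 608) (nat_lit 552) (nat_lit 400)) (XT.lf (nat_lit 0) (nat_lit 220685251) (nat_lit 608) (nat_lit 2104288555) (nat_lit 684) (nat_lit 12152527683) (nat_lit 283) (nat_lit 5) (nat_lit 291) (nat_lit 5) (nat_lit 292) (nat_lit 5) (nat_lit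 609) (nat_lit 552) (nat_lit 399)))) (XT.nd (nat_lit 156) (nat_lit 608) (nat_lit 0) (XT.nd (nat_lit 78) (nat_lit 608) (nat_lit 0) (XT.lf (nat_lit 0) (nat_lit 5183656636) (nat_lit 684) (nat_lit 5655322565) (nat_lit 76) (nat_lit 3800813817) (nat_lit 283) (nat_lit 5) (nat_lit 292) (nat_lit 5) (nat_lit 284) (nat_lit 5) (nat_lit 610) (nat_lit 552) (nat_lit 398)) (XT.lf (nat_lit 0) (nat_lit 3130718252) (nat_lit 608) (nat_lit 4991574175) (nat_lit 684) (nat_lit 6682582898) (nat_lit 275) (nat_lit 5) (nat_lit 283) (nat_lit 5) (nat_lit 284) (nat_lit 5) (nat_lit 611) (nat_lit 552) (nat_lit 397))) (XT.nd (nat_lit 78) (nat_lit 608) (nat_lit 0) (XT.lf (nat_lit 0) (nat_lit 11152845734) (nat_lit 684) (nat_lit 2824646187) (nat_lit 76) (nat_lit 995104985) (nat_lit 275) (nat_lit 5) (nat_lit 284) (nat_lit 5) (nat_lit 276) (nat_lit 5) (nat_lit 612) (nat_lit 552) (nat_lit 396)) (XT.lf (nat_lit 0) (nat_lit 6236157108) (nat_lit 608) (nat_lit 8070249398) (nat_lit 684) (nat_lit 836018998)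 (nat_lit 267) (nat_lit 5) (nat_lit 275) (nat_lit 5) (nat_lit 276) (nat_lit 5) (nat_lit 613) (nat_lit 552) (nat_lit 395))))) (XT.nd (nat_lit 234) (nat_lit 1140) (nat_lit 0) (XT.nd (nat_lit 78) (nat_lit 532) (nat_lit 0) (XT.lf (nat_lit 0) (nat_lit 174543134) (nat_lit 532) (nat_lit 2013010435) (nat_lit 608) (nat_lit 13127628641) (nat_lit 259) (nat_lit 5) (nat_lit 266) (nat_lit 5) (nat_lit 267) (nat_lit 5) (nat_lit 614) (nat_lit 552) (nat_lit 394)) (XT.nd (nat_lit 78) (nat_lit 532) (nat_lit 0) (XT.lf (nat_lit 0) (nat_lit 5336624097) (nat_lit 608) (nat_lit 5980062643) (nat_lit 76) (nat_lit 4173072856) (nat_lit 259) (nat_lit 5) (nat_lit 267) (nat_lit 5) (nat_lit 260) (nat_lit 5) (nat_lit 615) (nat_lit 552) (nat_lit 393)) (XT.lf (nat_lit 0) (nat_lit 3380430151) (nat_lit 532) (nat_lit 5192745095) (nat_lit 608) (nat_lit 7094163773) (nat_lit 252) (nat_lit 5) (nat_lit 259) (nat_lit 5) (nat_lit 260) (nat_lit 5) (nat_lit 616) (nat_lit 552) (nat_lit 392)))) (XT.nd (nat_lit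 156) (nat_lit 608) (nat_lit 0) (XT.nd (nat_lit 78) (nat_lit 532) (nat_lit 0) (XT.lf (nat_lit 0) (nat_lit 11911009860) (nat_lit 608) (nat_lit 2859975757) (nat_lit 76) (nat_lit 1076753830) (nat_lit 252) (nat_lit 5) (nat_lit 260) (nat_lit 5) (nat_lit 253) (nat_lit 5) (nat_lit 617) (nat_lit 552) (nat_lit 391)) (XT.lf (nat_lit 0) (nat_lit 6796126136) (nat_lit 532) (nat_lit 8587514673) (nat_lit 608) (nat_lit 646746736) (nat_lit 245) (nat_lit 5) (nat_lit 252) (nat_lit 5) (nat_lit 253) (nat_lit 5) (nat_lit 618) (nat_lit 552) (nat_lit 390))) (XT.nd (nat_lit 78) (nat_lit 0) (nat_lit 0) (XT.lf (nat_lit 0) (nat_lit 441731008) (nat_lit 532) (nat_lit 2243533266) (nat_lit 608) (nat_lit 13530837833) (nat_lit 237) (nat_lit 5) (nat_lit 244) (nat_lit 5) (nat_lit 245) (nat_lit 5) (nat_lit 619) (nat_lit 552) (nat_lit 389)) (XT.lf (nat_lit 0) (nat_lit 6154747167) (nat_lit 608) (nat_lit 6014264272) (nat_lit 76) (nat_lit 4234844619) (nat_lit 237) (nat_lit 5) (nat_lit 245) (nat_lit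 5) (nat_lit 238) (nat_lit 5) (nat_lit 620) (nat_lit 552) (nat_lit 388)))))) (XT.nd (nat_lit 546) (nat_lit 2280) (nat_lit 0) (XT.nd (nat_lit 234) (nat_lit 912) (nat_lit 0) (XT.nd (nat_lit 78) (nat_lit 608) (nat_lit 0) (XT.lf (nat_lit 0) (nat_lit 3964208869) (nat_lit 456) (nat_lit 5759869464) (nat_lit 532) (nat_lit 6870678004) (nat_lit 231) (nat_lit 5) (nat_lit 237) (nat_lit 5) (nat_lit 238) (nat_lit 5) (nat_lit 621) (nat_lit 552) (nat_lit 387)) (XT.nd (nat_lit 78) (nat_lit 608) (nat_lit 0) (XT.lf (nat_lit 0) (nat_lit 13400416227) (nat_lit 532) (nat_lit 2584259463) (nat_lit 76) (nat_lit 804086941) (nat_lit 231) (nat_lit 5) (nat_lit 238) (nat_lit 5) (nat_lit 232) (nat_lit 5) (nat_lit 622) (nat_lit 552) (nat_lit 386)) (XT.lf (nat_lit 0) (nat_lit 240365045) (nat_lit 608) (nat_lit 9274485355) (nat_lit 76) (nat_lit 7470200214) (nat_lit 223) (nat_lit 5) (nat_lit 231) (nat_lit 5) (nat_lit 224) (nat_lit 5) (nat_lit 623) (nat_lit 552) (nat_lit 385)))) (XT.nd (nat_lit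 156) (nat_lit 456) (nat_lit 0) (XT.nd (nat_lit 78) (nat_lit 0) (nat_lit 0) (XT.lf (nat_lit 0) (nat_lit 1038649064) (nat_lit 456) (nat_lit 2872057049) (nat_lit 532) (nat_lit 13273822187) (nat_lit 217) (nat_lit 5) (nat_lit 223) (nat_lit 5) (nat_lit 224) (nat_lit 5) (nat_lit 624) (nat_lit 552) (nat_lit 384)) (XT.lf (nat_lit 0) (nat_lit 7732707620) (nat_lit 532) (nat_lit 5742639161) (nat_lit 76) (nat_lit 3911084067) (nat_lit 217) (nat_lit 5) (nat_lit 224) (nat_lit 5) (nat_lit 218) (nat_lit 5) (nat_lit 625) (nat_lit 552) (nat_lit 383))) (XT.nd (nat_lit 78) (nat_lit 0) (nat_lit 0) (XT.lf (nat_lit 0) (nat_lit 4900290381) (nat_lit 456) (nat_lit 6772145999) (nat_lit 532) (nat_lit 5919109697) (nat_lit 211) (nat_lit 5) (nat_lit 217) (nat_lit 5) (nat_lit 218) (nat_lit 5) (nat_lit 626) (nat_lit 552) (nat_lit 382)) (XT.lf (nat_lit 0) (nat_lit 15720697741) (nat_lit 532) (nat_lit 1980445883) (nat_lit 76) (nat_lit 99025593) (nat_lit 211) (nat_lit 5) (nat_lit 218) (nat_lit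 5) (nat_lit 212) (nat_lit 5) (nat_lit 627) (nat_lit 552) (nat_lit 381))))) (XT.nd (nat_lit 312) (nat_lit 912) (nat_lit 0) (XT.nd (nat_lit 156) (nat_lit 380) (nat_lit 0) (XT.nd (nat_lit 78) (nat_lit 456) (nat_lit 0) (XT.lf (nat_lit 0) (nat_lit 1907510624) (nat_lit 532) (nat_lit 9019236333) (nat_lit 76) (nat_lit 7084086815) (nat_lit 204) (nat_lit 5) (nat_lit 211) (nat_lit 5) (nat_lit 205) (nat_lit 5) (nat_lit 628) (nat_lit 552) (nat_lit 380)) (XT.lf (nat_lit 0) (nat_lit 1983168591) (nat_lit 456) (nat_lit 3980243584) (nat_lit 532) (nat_lit 12261684404) (nat_lit 198) (nat_lit 5) (nat_lit 204) (nat_lit 5) (nat_lit 205) (nat_lit 5) (nat_lit 629) (nat_lit 552) (nat_lit 379))) (XT.nd (nat_lit 78) (nat_lit 380) (nat_lit 0) (XT.lf (nat_lit 0) (nat_lit 10172328666) (nat_lit 532) (nat_lit 5148646788) (nat_lit 76) (nat_lit 3121231590) (nat_lit 198) (nat_lit 5) (nat_lit 205) (nat_lit 5) (nat_lit 199) (nat_lit 5) (nat_lit 630) (nat_lit 552) (nat_lit 378)) (XT.lf (nat_lit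 0) (nat_lit 6208298479) (nat_lit 380) (nat_lit 8314784110) (nat_lit 456) (nat_lit 4139424278) (nat_lit 193) (nat_lit 5) (nat_lit 198) (nat_lit 5) (nat_lit 199) (nat_lit 5) (nat_lit 631) (nat_lit 552) (nat_lit 377)))) (XT.nd (nat_lit 156) (nat_lit 380) (nat_lit 0) (XT.nd (nat_lit 78) (nat_lit 456) (nat_lit 0) (XT.lf (nat_lit 0) (nat_lit 98475237) (nat_lit 456) (nat_lit 1038352315) (nat_lit 76) (nat_lit 17749859848) (nat_lit 192) (nat_lit 5) (nat_lit 198) (nat_lit 5) (nat_lit 193) (nat_lit 5) (nat_lit 632) (nat_lit 552) (nat_lit 376)) (XT.lf (nat_lit 0) (nat_lit 4467235344) (nat_lit 532) (nat_lit 8448580091) (nat_lit 76) (nat_lit 6196958601) (nat_lit 186) (nat_lit 5) (nat_lit 193) (nat_lit 5) (nat_lit 187) (nat_lit 5) (nat_lit 633) (nat_lit 552) (nat_lit 375))) (XT.nd (nat_lit 78) (nat_lit 0) (nat_lit 0) (XT.lf (nat_lit 0) (nat_lit 3294153689) (nat_lit 380) (nat_lit 5656407645) (nat_lit 456) (nat_lit 10392277564) (nat_lit 181) (nat_lit 5) (nat_lit 186) (nat_lit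 5) (nat_lit 187) (nat_lit 5) (nat_lit 634) (nat_lit 552) (nat_lit 374)) (XT.lf (nat_lit 0) (nat_lit 13583292862) (nat_lit 456) (nat_lit 4214989191) (nat_lit 76) (nat_lit 1778028524) (nat_lit 181) (nat_lit 5) (nat_lit 187) (nat_lit 5) (nat_lit 182) (nat_lit 5) (nat_lit 635) (nat_lit 552) (nat_lit 373))))))) (XT.nd (nat_lit 1170) (nat_lit 2812) (nat_lit 0) (XT.nd (nat_lit 546) (nat_lit 1824) (nat_lit 0) (XT.nd (nat_lit 234) (nat_lit 1216) (nat_lit 0) (XT.nd (nat_lit 78) (nat_lit 456) (nat_lit 0) (XT.lf (nat_lit 0) (nat_lit 7908746674) (nat_lit 380) (nat_lit 10480229789) (nat_lit 456) (nat_lit 1423869572) (nat_lit 176) (nat_lit 5) (nat_lit 181) (nat_lit 5) (nat_lit 182) (nat_lit 5) (nat_lit 636) (nat_lit 552) (nat_lit 372)) (XT.nd (nat_lit 78) (nat_lit 0) (nat_lit 0) (XT.lf (nat_lit 0) (nat_lit 247665123) (nat_lit 380) (nat_lit 2968143681) (nat_lit 456) (nat_lit 16837451458) (nat_lit 170) (nat_lit 5) (nat_lit 175) (nat_lit 5) (nat_lit 176) (nat_lit 5) (nat_lit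 637) (nat_lit 552) (nat_lit 371)) (XT.lf (nat_lit 0) (nat_lit 8031693187) (nat_lit 456) (nat_lit 7546475020) (nat_lit 76) (nat_lit 4718077047) (nat_lit 170) (nat_lit 5) (nat_lit 176) (nat_lit 5) (nat_lit 171) (nat_lit 5) (nat_lit 638) (nat_lit 552) (nat_lit 370)))) (XT.nd (nat_lit 156) (nat_lit 836) (nat_lit 0) (XT.nd (nat_lit 78) (nat_lit 0) (nat_lit 0) (XT.lf (nat_lit 0) (nat_lit 4990900401) (nat_lit 380) (nat_lit 7996791629) (nat_lit 456) (nat_lit 7555522254) (nat_lit 165) (nat_lit 5) (nat_lit 170) (nat_lit 5) (nat_lit 171) (nat_lit 5) (nat_lit 639) (nat_lit 552) (nat_lit 369)) (XT.lf (nat_lit 0) (nat_lit 17868674440) (nat_lit 380) (nat_lit 216593135) (nat_lit 456) (nat_lit 2709006251) (nat_lit 165) (nat_lit 5) (nat_lit 170) (nat_lit 5) (nat_lit 171) (nat_lit 5) (nat_lit 640) (nat_lit 552) (nat_lit 368))) (XT.nd (nat_lit 78) (nat_lit 380) (nat_lit 0) (XT.lf (nat_lit 0) (nat_lit 2312982870) (nat_lit 456) (nat_lit 11040979425) (nat_lit 76) (nat_lit 7693945414)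 (nat_lit 159) (nat_lit 5) (nat_lit 165) (nat_lit 5) (nat_lit 160) (nat_lit 5) (nat_lit 641) (nat_lit 552) (nat_lit 367)) (XT.lf (nat_lit 0) (nat_lit 1924728158) (nat_lit 380) (nat_lit 5500109265) (nat_lit 456) (nat_lit 13880904981) (nat_lit 154) (nat_lit 5) (nat_lit 159) (nat_lit 5) (nat_lit 160) (nat_lit 5) (nat_lit 642) (nat_lit 552) (nat_lit 366))))) (XT.nd (nat_lit 312) (nat_lit 1064) (nat_lit 0) (XT.nd (nat_lit 156) (nat_lit 456) (nat_lit 0) (XT.nd (nat_lit 78) (nat_lit 304) (nat_lit 0) (XT.lf (nat_lit 0) (nat_lit 12721831554) (nat_lit 456) (nat_lit 6297230952) (nat_lit 76) (nat_lit 2548013484) (nat_lit 154) (nat_lit 5) (nat_lit 160) (nat_lit 5) (nat_lit 155) (nat_lit 5) (nat_lit 643) (nat_lit 552) (nat_lit 365)) (XT.lf (nat_lit 0) (nat_lit 7092469844) (nat_lit 304) (nat_lit 11106944915) (nat_lit 380) (nat_lit 3632728749) (nat_lit 150) (nat_lit 5) (nat_lit 154) (nat_lit 5) (nat_lit 155) (nat_lit 5) (nat_lit 644) (nat_lit 552) (nat_lit 364))) (XT.nd (nat_lit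 78) (nat_lit 380) (nat_lit 0) (XT.lf (nat_lit 0) (nat_lit 1696686180) (nat_lit 380) (nat_lit 1289930948) (nat_lit 76) (nat_lit 19114982094) (nat_lit 149) (nat_lit 5) (nat_lit 154) (nat_lit 5) (nat_lit 150) (nat_lit 5) (nat_lit 645) (nat_lit 552) (nat_lit 363)) (XT.lf (nat_lit 0) (nat_lit 7193029841) (nat_lit 456) (nat_lit 9852234008) (nat_lit 76) (nat_lit 5328520529) (nat_lit 144) (nat_lit 5) (nat_lit 150) (nat_lit 5) (nat_lit 145) (nat_lit 5) (nat_lit 646) (nat_lit 552) (nat_lit 362)))) (XT.nd (nat_lit 156) (nat_lit 760) (nat_lit 0) (XT.nd (nat_lit 78) (nat_lit 0) (nat_lit 0) (XT.lf (nat_lit 0) (nat_lit 3995901764) (nat_lit 304) (nat_lit 8850228467) (nat_lit 380) (nat_lit 9804346632) (nat_lit 140) (nat_lit 5) (nat_lit 144) (nat_lit 5) (nat_lit 145) (nat_lit 5) (nat_lit 647) (nat_lit 552) (nat_lit 361)) (XT.lf (nat_lit 0) (nat_lit 18242454467) (nat_lit 304) (nat_lit 428415905) (nat_lit 380) (nat_lit 4260661491) (nat_lit 140) (nat_lit 5) (nat_lit 144) (nat_lit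 5) (nat_lit 145) (nat_lit 5) (nat_lit 648) (nat_lit 552) (nat_lit 360))) (XT.nd (nat_lit 78) (nat_lit 304) (nat_lit 0) (XT.lf (nat_lit 0) (nat_lit 1484345308) (nat_lit 456) (nat_lit 13608925080) (nat_lit 76) (nat_lit 8122582199) (nat_lit 134) (nat_lit 5) (nat_lit 140) (nat_lit 5) (nat_lit 135) (nat_lit 5) (nat_lit 649) (nat_lit 552) (nat_lit 359)) (XT.lf (nat_lit 0) (nat_lit 713279776) (nat_lit 304) (nat_lit 6605720491) (nat_lit 380) (nat_lit 16185660440) (nat_lit 130) (nat_lit 5) (nat_lit 134) (nat_lit 5) (nat_lit 135) (nat_lit 5) (nat_lit 650) (nat_lit 552) (nat_lit 358)))))) (XT.nd (nat_lit 546) (nat_lit 1520) (nat_lit 0) (XT.nd (nat_lit 234) (nat_lit 912) (nat_lit 0) (XT.nd (nat_lit 78) (nat_lit 380) (nat_lit 0) (XT.lf (nat_lit 0) (nat_lit 13368236389) (nat_lit 380) (nat_lit 8316977264) (nat_lit 76) (nat_lit 2112073778) (nat_lit 130) (nat_lit 5) (nat_lit 135) (nat_lit 5) (nat_lit 131) (nat_lit 5) (nat_lit 651) (nat_lit 552) (nat_lit 357)) (XT.nd (nat_lit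 78) (nat_lit 76) (nat_lit 0) (XT.lf (nat_lit 0) (nat_lit 6476306877) (nat_lit 304) (nat_lit 13140729646) (nat_lit 380) (nat_lit 4477158779) (nat_lit 126) (nat_lit 5) (nat_lit 130) (nat_lit 5) (nat_lit 131) (nat_lit 5) (nat_lit 652) (nat_lit 552) (nat_lit 356)) (XT.lf (nat_lit 0) (nat_lit 1621851790) (nat_lit 380) (nat_lit 2740264275) (nat_lit 76) (nat_lit 20033738838) (nat_lit 125) (nat_lit 5) (nat_lit 130) (nat_lit 5) (nat_lit 126) (nat_lit 5) (nat_lit 653) (nat_lit 552) (nat_lit 355)))) (XT.nd (nat_lit 156) (nat_lit 304) (nat_lit 0) (XT.nd (nat_lit 78) (nat_lit 304) (nat_lit 0) (XT.lf (nat_lit 0) (nat_lit 7887951786) (nat_lit 380) (nat_lit 12173604775) (nat_lit 76) (nat_lit 4639298274) (nat_lit 121) (nat_lit 5) (nat_lit 126) (nat_lit 5) (nat_lit 122) (nat_lit 5) (nat_lit 654) (nat_lit 552) (nat_lit 354)) (XT.lf (nat_lit 0) (nat_lit 3126041275) (nat_lit 304) (nat_lit 11214005027) (nat_lit 380) (nat_lit 10670695197) (nat_lit 117) (nat_lit 5) (nat_lit 121)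 (nat_lit 5) (nat_lit 122) (nat_lit 5) (nat_lit 655) (nat_lit 552) (nat_lit 353))) (XT.nd (nat_lit 78) (nat_lit 304) (nat_lit 0) (XT.lf (nat_lit 0) (nat_lit 18885153063) (nat_lit 304) (nat_lit 2110761291) (nat_lit 380) (nat_lit 4329417089) (nat_lit 117) (nat_lit 5) (nat_lit 121) (nat_lit 5) (nat_lit 122) (nat_lit 5) (nat_lit 656) (nat_lit 552) (nat_lit 352)) (XT.lf (nat_lit 0) (nat_lit 2211922709) (nat_lit 304) (nat_lit 16280528737) (nat_lit 76) (nat_lit 7151458489) (nat_lit 113) (nat_lit 5) (nat_lit 117) (nat_lit 5) (nat_lit 114) (nat_lit 5) (nat_lit 657) (nat_lit 552) (nat_lit 351))))) (XT.nd (nat_lit 312) (nat_lit 912) (nat_lit 0) (XT.nd (nat_lit 156) (nat_lit 304) (nat_lit 0) (XT.nd (nat_lit 78) (nat_lit 304) (nat_lit 0) (XT.lf (nat_lit 0) (nat_lit 8876817500) (nat_lit 304) (nat_lit 452062349) (nat_lit 76) (nat_lit 16638393986) (nat_lit 113) (nat_lit 5) (nat_lit 117) (nat_lit 5) (nat_lit 114) (nat_lit 5) (nat_lit 658) (nat_lit 552) (nat_lit 350)) (XT.lf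 (nat_lit 0) (nat_lit 15772247422) (nat_lit 380) (nat_lit 10405787004) (nat_lit 76) (nat_lit 117126009) (nat_lit 109) (nat_lit 5) (nat_lit 114) (nat_lit 5) (nat_lit 110) (nat_lit 5) (nat_lit 659) (nat_lit 552) (nat_lit 349))) (XT.nd (nat_lit 78) (nat_lit 76) (nat_lit 0) (XT.lf (nat_lit 0) (nat_lit 5939066539) (nat_lit 228) (nat_lit 16963241178) (nat_lit 304) (nat_lit 3725362777) (nat_lit 106) (nat_lit 5) (nat_lit 109) (nat_lit 5) (nat_lit 110) (nat_lit 5) (nat_lit 660) (nat_lit 552) (nat_lit 348)) (XT.lf (nat_lit 0) (nat_lit 3229695325) (nat_lit 304) (nat_lit 4246116604) (nat_lit 76) (nat_lit 19489329750) (nat_lit 105) (nat_lit 5) (nat_lit 109) (nat_lit 5) (nat_lit 106) (nat_lit 5) (nat_lit 661) (nat_lit 552) (nat_lit 347)))) (XT.nd (nat_lit 156) (nat_lit 380) (nat_lit 0) (XT.nd (nat_lit 78) (nat_lit 228) (nat_lit 0) (XT.lf (nat_lit 0) (nat_lit 10364629399) (nat_lit 380) (nat_lit 14666839124) (nat_lit 76) (nat_lit 2275588278) (nat_lit 101) (nat_lit 5) (nat_lit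 106) (nat_lit 5) (nat_lit 102) (nat_lit 5) (nat_lit 662) (nat_lit 552) (nat_lit 346)) (XT.lf (nat_lit 0) (nat_lit 2235144561) (nat_lit 228) (nat_lit 15493320288) (nat_lit 304) (nat_lit 9925621473) (nat_lit 98) (nat_lit 5) (nat_lit 101) (nat_lit 5) (nat_lit 102) (nat_lit 5) (nat_lit 663) (nat_lit 552) (nat_lit 345))) (XT.nd (nat_lit 78) (nat_lit 380) (nat_lit 0) (XT.lf (nat_lit 0) (nat_lit 19662985705) (nat_lit 228) (nat_lit 5668569172) (nat_lit 304) (nat_lit 2674662146) (nat_lit 98) (nat_lit 5) (nat_lit 101) (nat_lit 5) (nat_lit 102) (nat_lit 5) (nat_lit 664) (nat_lit 552) (nat_lit 344)) (XT.lf (nat_lit 0) (nat_lit 4741287435) (nat_lit 380) (nat_lit 19240031777) (nat_lit 76) (nat_lit 4381820349) (nat_lit 93) (nat_lit 5) (nat_lit 98) (nat_lit 5) (nat_lit 94) (nat_lit 5) (nat_lit 665) (nat_lit 552) (nat_lit 343))))))))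
noncomputable def xc140 : XT := (XT.nd (nat_lit 74412) (nat_lit 0) (nat_lit 16188) (XT.nd (nat_lit 73242) (nat_lit 0) (nat_lit 31996) (XT.nd (nat_lit 72696) (nat_lit 0) (nat_lit 34884) (XT.nd (nat_lit 72384) (nat_lit 0) (nat_lit 36252) (XT.nd (nat_lit 78) (nat_lit 456) (nat_lit 0) (XT.lf (nat_lit 0) (nat_lit 12357339737) (nat_lit 380) (nat_lit 1740726189) (nat_lit 76) (nat_lit 14627029225) (nat_lit 93) (nat_lit 5) (nat_lit 98) (nat_lit 5) (nat_lit 94) (nat_lit 5) (nat_lit 666) (nat_lit 552) (nat_lit 342)) (XT.nd (nat_lit 78) (nat_lit 228) (nat_lit 0) (XT.lf (nat_lit 0) (nat_lit 16311821723) (nat_lit 228) (nat_lit 3913588266) (nat_lit 304) (nat_lit 8866886060) (nat_lit 90) (nat_lit 5) (nat_lit 93) (nat_lit 5) (nat_lit 94) (nat_lit 5) (nat_lit 667) (nat_lit 552) (nat_lit 341)) (XT.lf (nat_lit 0) (nat_lit 5299092766) (nat_lit 228) (nat_lit 23033763677) (nat_lit 304) (nat_lit 1132344360) (nat_lit 87) (nat_lit 5) (nat_lit 90) (nat_lit 5) (nat_lit 91) (nat_lit 5)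 (nat_lit 668) (nat_lit 552) (nat_lit 340)))) (XT.nd (nat_lit 156) (nat_lit 1520) (nat_lit 0) (XT.nd (nat_lit 78) (nat_lit 0) (nat_lit 0) (XT.lf (nat_lit 0) (nat_lit 1688264838) (nat_lit 0) (nat_lit 1688264838) (nat_lit 1444) (nat_lit 883835190) (nat_lit 584) (nat_lit 5) (nat_lit 584) (nat_lit 3) (nat_lit 603) (nat_lit 3) (nat_lit 553) (nat_lit 553) (nat_lit 454)) (XT.lf (nat_lit 0) (nat_lit 7676879187) (nat_lit 0) (nat_lit 174225597) (nat_lit 1444) (nat_lit 734149659) (nat_lit 584) (nat_lit 5) (nat_lit 584) (nat_lit 3) (nat_lit 603) (nat_lit 3) (nat_lit 554) (nat_lit 553) (nat_lit 453))) (XT.nd (nat_lit 78) (nat_lit 0) (nat_lit 0) (XT.lf (nat_lit 0) (nat_lit 331300317) (nat_lit 1520) (nat_lit 5230108660) (nat_lit 1596) (nat_lit 3089311848) (nat_lit 564) (nat_lit 5) (nat_lit 584) (nat_lit 5) (nat_lit 585) (nat_lit 5) (nat_lit 555) (nat_lit 553) (nat_lit 452)) (XT.lf (nat_lit 0) (nat_lit 1388844736) (nat_lit 1520) (nat_lit 889347134) (nat_lit 1596) (nat_lit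 6439597118) (nat_lit 564) (nat_lit 5) (nat_lit 584) (nat_lit 5) (nat_lit 585) (nat_lit 5) (nat_lit 556) (nat_lit 553) (nat_lit 451))))) (XT.nd (nat_lit 234) (nat_lit 1444) (nat_lit 0) (XT.nd (nat_lit 78) (nat_lit 0) (nat_lit 0) (XT.lf (nat_lit 0) (nat_lit 2471748097) (nat_lit 1520) (nat_lit 5222506494) (nat_lit 1596) (nat_lit 1091861549) (nat_lit 565) (nat_lit 5) (nat_lit 585) (nat_lit 5) (nat_lit 586) (nat_lit 5) (nat_lit 557) (nat_lit 553) (nat_lit 450)) (XT.nd (nat_lit 78) (nat_lit 0) (nat_lit 0) (XT.lf (nat_lit 0) (nat_lit 3571742086) (nat_lit 1520) (nat_lit 767762527) (nat_lit 1596) (nat_lit 4516398322) (nat_lit 565) (nat_lit 5) (nat_lit 585) (nat_lit 5) (nat_lit 586) (nat_lit 5) (nat_lit 558) (nat_lit 553) (nat_lit 449)) (XT.lf (nat_lit 76) (nat_lit 3811728547) (nat_lit 0) (nat_lit 881596547) (nat_lit 1596) (nat_lit 4233770306) (nat_lit 566) (nat_lit 5) (nat_lit 565) (nat_lit 5) (nat_lit 586) (nat_lit 5) (nat_lit 559) (nat_lit 553) (nat_lit 448)))) (XT.nd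 (nat_lit 156) (nat_lit 1520) (nat_lit 0) (XT.nd (nat_lit 78) (nat_lit 0) (nat_lit 0) (XT.lf (nat_lit 0) (nat_lit 5835012077) (nat_lit 1520) (nat_lit 538412321) (nat_lit 1596) (nat_lit 2626335556) (nat_lit 566) (nat_lit 5) (nat_lit 586) (nat_lit 5) (nat_lit 587) (nat_lit 5) (nat_lit 560) (nat_lit 553) (nat_lit 447)) (XT.lf (nat_lit 76) (nat_lit 4164339318) (nat_lit 0) (nat_lit 2843863598) (nat_lit 1596) (nat_lit 2065503130) (nat_lit 567) (nat_lit 5) (nat_lit 566) (nat_lit 5) (nat_lit 587) (nat_lit 5) (nat_lit 561) (nat_lit 553) (nat_lit 446))) (XT.nd (nat_lit 78) (nat_lit 1596) (nat_lit 0) (XT.lf (nat_lit 0) (nat_lit 8189640944) (nat_lit 1520) (nat_lit 200512027) (nat_lit 1596) (nat_lit 759284039) (nat_lit 567) (nat_lit 5) (nat_lit 587) (nat_lit 5) (nat_lit 588) (nat_lit 5) (nat_lit 562) (nat_lit 553) (nat_lit 445)) (XT.lf (nat_lit 0) (nat_lit 191584293) (nat_lit 1596) (nat_lit 4597696538) (nat_lit 1672) (nat_lit 4436866244) (nat_lit 546) (nat_lit 5) (nat_lit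 567) (nat_lit 5) (nat_lit 568) (nat_lit 5) (nat_lit 563) (nat_lit 553) (nat_lit 444)))))) (XT.nd (nat_lit 546) (nat_lit 2888) (nat_lit 0) (XT.nd (nat_lit 234) (nat_lit 0) (nat_lit 152) (XT.nd (nat_lit 78) (nat_lit 0) (nat_lit 76) (XT.lf (nat_lit 76) (nat_lit 234170180) (nat_lit 0) (nat_lit 1098768087) (nat_lit 1672) (nat_lit 7971731760) (nat_lit 547) (nat_lit 5) (nat_lit 546) (nat_lit 5) (nat_lit 568) (nat_lit 5) (nat_lit 564) (nat_lit 553) (nat_lit 443)) (XT.nd (nat_lit 78) (nat_lit 0) (nat_lit 0) (XT.lf (nat_lit 0) (nat_lit 2522802332) (nat_lit 1596) (nat_lit 4191951623) (nat_lit 1672) (nat_lit 2669497318) (nat_lit 547) (nat_lit 5) (nat_lit 568) (nat_lit 5) (nat_lit 569) (nat_lit 5) (nat_lit 565) (nat_lit 553) (nat_lit 442)) (XT.lf (nat_lit 76) (nat_lit 772024441) (nat_lit 0) (nat_lit 2954492235) (nat_lit 1672) (nat_lit 5739107874) (nat_lit 548) (nat_lit 5) (nat_lit 547) (nat_lit 5) (nat_lit 569) (nat_lit 5) (nat_lit 566) (nat_lit 553) (nat_lit 441)))) (XT.nd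 (nat_lit 156) (nat_lit 0) (nat_lit 0) (XT.nd (nat_lit 78) (nat_lit 0) (nat_lit 0) (XT.lf (nat_lit 0) (nat_lit 4966490348) (nat_lit 1596) (nat_lit 3677243787) (nat_lit 1672) (nat_lit 904648893) (nat_lit 548) (nat_lit 5) (nat_lit 569) (nat_lit 5) (nat_lit 570) (nat_lit 5) (nat_lit 567) (nat_lit 553) (nat_lit 440)) (XT.lf (nat_lit 76) (nat_lit 1423466059) (nat_lit 0) (nat_lit 4815182824) (nat_lit 1672) (nat_lit 3394001495) (nat_lit 549) (nat_lit 5) (nat_lit 548) (nat_lit 5) (nat_lit 570) (nat_lit 5) (nat_lit 568) (nat_lit 553) (nat_lit 439))) (XT.nd (nat_lit 78) (nat_lit 0) (nat_lit 76) (XT.lf (nat_lit 76) (nat_lit 6661058858) (nat_lit 0) (nat_lit 878767917) (nat_lit 1672) (nat_lit 2178706157) (nat_lit 549) (nat_lit 5) (nat_lit 548) (nat_lit 5) (nat_lit 570) (nat_lit 5) (nat_lit 569) (nat_lit 553) (nat_lit 438)) (XT.lf (nat_lit 76) (nat_lit 2190498086) (nat_lit 0) (nat_lit 6690468377) (nat_lit 1672) (nat_lit 924889262) (nat_lit 550) (nat_lit 5) (nat_lit 549)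 (nat_lit 5) (nat_lit 571) (nat_lit 5) (nat_lit 570) (nat_lit 553) (nat_lit 437))))) (XT.nd (nat_lit 312) (nat_lit 1444) (nat_lit 0) (XT.nd (nat_lit 156) (nat_lit 0) (nat_lit 76) (XT.nd (nat_lit 78) (nat_lit 0) (nat_lit 76) (XT.lf (nat_lit 0) (nat_lit 355357781) (nat_lit 1672) (nat_lit 2333205499) (nat_lit 1748) (nat_lit 7206197096) (nat_lit 527) (nat_lit 5) (nat_lit 549) (nat_lit 5) (nat_lit 550) (nat_lit 5) (nat_lit 571) (nat_lit 553) (nat_lit 436)) (XT.lf (nat_lit 0) (nat_lit 1657971693) (nat_lit 1672) (nat_lit 6920810252) (nat_lit 1748) (nat_lit 1406357256) (nat_lit 528) (nat_lit 5) (nat_lit 550) (nat_lit 5) (nat_lit 551) (nat_lit 5) (nat_lit 572) (nat_lit 553) (nat_lit 435))) (XT.nd (nat_lit 78) (nat_lit 0) (nat_lit 0) (XT.lf (nat_lit 0) (nat_lit 3000457390) (nat_lit 1672) (nat_lit 1508820784) (nat_lit 1748) (nat_lit 5567772289) (nat_lit 528) (nat_lit 5) (nat_lit 550) (nat_lit 5) (nat_lit 551) (nat_lit 5) (nat_lit 573) (nat_lit 553) (nat_lit 434)) (XT.lf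 (nat_lit 76) (nat_lit 4049478027) (nat_lit 0) (nat_lit 327247580) (nat_lit 1748) (nat_lit 5793936915) (nat_lit 529) (nat_lit 5) (nat_lit 528) (nat_lit 5) (nat_lit 551) (nat_lit 5) (nat_lit 574) (nat_lit 553) (nat_lit 433)))) (XT.nd (nat_lit 156) (nat_lit 1596) (nat_lit 0) (XT.nd (nat_lit 78) (nat_lit 0) (nat_lit 0) (XT.lf (nat_lit 0) (nat_lit 5797232422) (nat_lit 1672) (nat_lit 567537668) (nat_lit 1748) (nat_lit 3901043669) (nat_lit 529) (nat_lit 5) (nat_lit 551) (nat_lit 5) (nat_lit 552) (nat_lit 5) (nat_lit 575) (nat_lit 553) (nat_lit 432)) (XT.lf (nat_lit 76) (nat_lit 5147475237) (nat_lit 0) (nat_lit 2115586024) (nat_lit 1748) (nat_lit 3099469701) (nat_lit 530) (nat_lit 5) (nat_lit 529) (nat_lit 5) (nat_lit 552) (nat_lit 5) (nat_lit 576) (nat_lit 553) (nat_lit 431))) (XT.nd (nat_lit 78) (nat_lit 0) (nat_lit 0) (XT.lf (nat_lit 0) (nat_lit 500162738) (nat_lit 1672) (nat_lit 8261144963) (nat_lit 1748) (nat_lit 1699813943) (nat_lit 508) (nat_lit 5) (nat_lit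 530) (nat_lit 5) (nat_lit 531) (nat_lit 5) (nat_lit 577) (nat_lit 553) (nat_lit 430)) (XT.lf (nat_lit 0) (nat_lit 6370938822) (nat_lit 1672) (nat_lit 3949371302) (nat_lit 1748) (nat_lit 240759329) (nat_lit 508) (nat_lit 5) (nat_lit 530) (nat_lit 5) (nat_lit 531) (nat_lit 5) (nat_lit 578) (nat_lit 553) (nat_lit 429))))))) (XT.nd (nat_lit 1092) (nat_lit 6612) (nat_lit 0) (XT.nd (nat_lit 546) (nat_lit 3572) (nat_lit 0) (XT.nd (nat_lit 234) (nat_lit 1976) (nat_lit 0) (XT.nd (nat_lit 78) (nat_lit 1824) (nat_lit 0) (XT.lf (nat_lit 0) (nat_lit 1227291468) (nat_lit 1824) (nat_lit 8970985482) (nat_lit 76) (nat_lit 464654848) (nat_lit 484) (nat_lit 5) (nat_lit 508) (nat_lit 5) (nat_lit 485) (nat_lit 5) (nat_lit 579) (nat_lit 553) (nat_lit 428)) (XT.nd (nat_lit 78) (nat_lit 1824) (nat_lit 0) (XT.lf (nat_lit 0) (nat_lit 2758324411) (nat_lit 1824) (nat_lit 3061193201) (nat_lit 76) (nat_lit 4946546119) (nat_lit 484) (nat_lit 5) (nat_lit 508) (nat_lit 5) (nat_lit 485) (nat_lit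 5) (nat_lit 580) (nat_lit 553) (nat_lit 427)) (XT.lf (nat_lit 0) (nat_lit 2990871847) (nat_lit 1824) (nat_lit 1331253234) (nat_lit 1900) (nat_lit 6549091327) (nat_lit 460) (nat_lit 5) (nat_lit 484) (nat_lit 5) (nat_lit 485) (nat_lit 5) (nat_lit 581) (nat_lit 553) (nat_lit 426)))) (XT.nd (nat_lit 156) (nat_lit 912) (nat_lit 0) (XT.nd (nat_lit 78) (nat_lit 1064) (nat_lit 0) (XT.lf (nat_lit 0) (nat_lit 5941942412) (nat_lit 1900) (nat_lit 1809207827) (nat_lit 76) (nat_lit 3226828115) (nat_lit 460) (nat_lit 5) (nat_lit 485) (nat_lit 5) (nat_lit 461) (nat_lit 5) (nat_lit 582) (nat_lit 553) (nat_lit 425)) (XT.lf (nat_lit 0) (nat_lit 4417368268) (nat_lit 1064) (nat_lit 3197600394) (nat_lit 1140) (nat_lit 3471491630) (nat_lit 446) (nat_lit 5) (nat_lit 460) (nat_lit 5) (nat_lit 461) (nat_lit 5) (nat_lit 583) (nat_lit 553) (nat_lit 424))) (XT.nd (nat_lit 78) (nat_lit 912) (nat_lit 0) (XT.lf (nat_lit 0) (nat_lit 9326626600) (nat_lit 1140) (nat_lit 428686154) (nat_lit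 76) (nat_lit 1441696677) (nat_lit 446) (nat_lit 5) (nat_lit 461) (nat_lit 5) (nat_lit 447) (nat_lit 5) (nat_lit 584) (nat_lit 553) (nat_lit 423)) (XT.lf (nat_lit 0) (nat_lit 5978722658) (nat_lit 912) (nat_lit 5137666490) (nat_lit 988) (nat_lit 192503945) (nat_lit 434) (nat_lit 5) (nat_lit 446) (nat_lit 5) (nat_lit 447) (nat_lit 5) (nat_lit 585) (nat_lit 553) (nat_lit 422))))) (XT.nd (nat_lit 234) (nat_lit 1748) (nat_lit 0) (XT.nd (nat_lit 78) (nat_lit 836) (nat_lit 0) (XT.lf (nat_lit 0) (nat_lit 1086344572) (nat_lit 912) (nat_lit 406606219) (nat_lit 988) (nat_lit 9929988540) (nat_lit 421) (nat_lit 5) (nat_lit 433) (nat_lit 5) (nat_lit 434) (nat_lit 5) (nat_lit 586) (nat_lit 553) (nat_lit 421)) (XT.nd (nat_lit 78) (nat_lit 836) (nat_lit 0) (XT.lf (nat_lit 0) (nat_lit 3258447363) (nat_lit 988) (nat_lit 3880690322) (nat_lit 76) (nat_lit 4399126065) (nat_lit 421) (nat_lit 5) (nat_lit 434) (nat_lit 5) (nat_lit 422) (nat_lit 5) (nat_lit 587) (nat_lit 553) (nat_lit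 420)) (XT.lf (nat_lit 0) (nat_lit 2722266351) (nat_lit 836) (nat_lit 2341875877) (nat_lit 912) (nat_lit 6591655554) (nat_lit 410) (nat_lit 5) (nat_lit 421) (nat_lit 5) (nat_lit 422) (nat_lit 5) (nat_lit 588) (nat_lit 553) (nat_lit 419)))) (XT.nd (nat_lit 156) (nat_lit 912) (nat_lit 0) (XT.nd (nat_lit 78) (nat_lit 836) (nat_lit 0) (XT.lf (nat_lit 0) (nat_lit 6933458903) (nat_lit 912) (nat_lit 2297298304) (nat_lit 76) (nat_lit 2544376007) (nat_lit 410) (nat_lit 5) (nat_lit 422) (nat_lit 5) (nat_lit 411) (nat_lit 5) (nat_lit 589) (nat_lit 553) (nat_lit 418)) (XT.lf (nat_lit 0) (nat_lit 4500185648) (nat_lit 836) (nat_lit 4369732036) (nat_lit 912) (nat_lit 3026343413) (nat_lit 399) (nat_lit 5) (nat_lit 410) (nat_lit 5) (nat_lit 411) (nat_lit 5) (nat_lit 590) (nat_lit 553) (nat_lit 417))) (XT.nd (nat_lit 78) (nat_lit 912) (nat_lit 0) (XT.lf (nat_lit 0) (nat_lit 10849669484) (nat_lit 912) (nat_lit 573849055) (nat_lit 76) (nat_lit 596202563) (nat_lit 399) (nat_lit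 5) (nat_lit 411) (nat_lit 5) (nat_lit 400) (nat_lit 5) (nat_lit 591) (nat_lit 553) (nat_lit 416)) (XT.lf (nat_lit 0) (nat_lit 770420186) (nat_lit 912) (nat_lit 5724329302) (nat_lit 76) (nat_lit 5649676874) (nat_lit 387) (nat_lit 5) (nat_lit 399) (nat_lit 5) (nat_lit 388) (nat_lit 5) (nat_lit 592) (nat_lit 553) (nat_lit 415)))))) (XT.nd (nat_lit 546) (nat_lit 3496) (nat_lit 0) (XT.nd (nat_lit 234) (nat_lit 1520) (nat_lit 0) (XT.nd (nat_lit 78) (nat_lit 760) (nat_lit 0) (XT.lf (nat_lit 0) (nat_lit 1284242004) (nat_lit 836) (nat_lit 1447628460) (nat_lit 912) (nat_lit 9539644652) (nat_lit 376) (nat_lit 5) (nat_lit 387) (nat_lit 5) (nat_lit 388) (nat_lit 5) (nat_lit 593) (nat_lit 553) (nat_lit 414)) (XT.nd (nat_lit 78) (nat_lit 760) (nat_lit 0) (XT.lf (nat_lit 0) (nat_lit 4781031220) (nat_lit 912) (nat_lit 3929238874) (nat_lit 76) (nat_lit 3689906702) (nat_lit 376) (nat_lit 5) (nat_lit 388) (nat_lit 5) (nat_lit 377) (nat_lit 5) (nat_lit 594) (nat_lit 553) (nat_lit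 413)) (XT.lf (nat_lit 0) (nat_lit 3288636489) (nat_lit 760) (nat_lit 3599544454) (nat_lit 836) (nat_lit 5642891414) (nat_lit 366) (nat_lit 5) (nat_lit 376) (nat_lit 5) (nat_lit 377) (nat_lit 5) (nat_lit 595) (nat_lit 553) (nat_lit 412)))) (XT.nd (nat_lit 156) (nat_lit 760) (nat_lit 0) (XT.nd (nat_lit 78) (nat_lit 760) (nat_lit 0) (XT.lf (nat_lit 0) (nat_lit 9060728348) (nat_lit 836) (nat_lit 1985612303) (nat_lit 76) (nat_lit 1617780830) (nat_lit 366) (nat_lit 5) (nat_lit 377) (nat_lit 5) (nat_lit 367) (nat_lit 5) (nat_lit 596) (nat_lit 553) (nat_lit 411)) (XT.lf (nat_lit 0) (nat_lit 5449237026) (nat_lit 760) (nat_lit 5873215203) (nat_lit 836) (nat_lit 1476465583) (nat_lit 356) (nat_lit 5) (nat_lit 366) (nat_lit 5) (nat_lit 367) (nat_lit 5) (nat_lit 597) (nat_lit 553) (nat_lit 410))) (XT.nd (nat_lit 78) (nat_lit 0) (nat_lit 0) (XT.lf (nat_lit 0) (nat_lit 105529280) (nat_lit 684) (nat_lit 579068292) (nat_lit 760) (nat_lit 12251709495) (nat_lit 346) (nat_lit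 5) (nat_lit 355) (nat_lit 5) (nat_lit 356) (nat_lit 5) (nat_lit 598) (nat_lit 553) (nat_lit 409)) (XT.lf (nat_lit 0) (nat_lit 2936824065) (nat_lit 760) (nat_lit 5322373531) (nat_lit 76) (nat_lit 4815697775) (nat_lit 346) (nat_lit 5) (nat_lit 356) (nat_lit 5) (nat_lit 347) (nat_lit 5) (nat_lit 599) (nat_lit 553) (nat_lit 408))))) (XT.nd (nat_lit 312) (nat_lit 2052) (nat_lit 0) (XT.nd (nat_lit 156) (nat_lit 684) (nat_lit 0) (XT.nd (nat_lit 78) (nat_lit 0) (nat_lit 0) (XT.lf (nat_lit 0) (nat_lit 2348477556) (nat_lit 760) (nat_lit 2891705917) (nat_lit 836) (nat_lit 7975950877) (nat_lit 336) (nat_lit 5) (nat_lit 346) (nat_lit 5) (nat_lit 347) (nat_lit 5) (nat_lit 600) (nat_lit 553) (nat_lit 407)) (XT.lf (nat_lit 0) (nat_lit 7629488240) (nat_lit 836) (nat_lit 3146436304) (nat_lit 76) (nat_lit 2583476665) (nat_lit 336) (nat_lit 5) (nat_lit 347) (nat_lit 5) (nat_lit 337) (nat_lit 5) (nat_lit 601) (nat_lit 553) (nat_lit 406))) (XT.nd (nat_lit 78) (nat_lit 0) (nat_lit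 0) (XT.lf (nat_lit 0) (nat_lit 4757913635) (nat_lit 684) (nat_lit 5346113526) (nat_lit 760) (nat_lit 3400757934) (nat_lit 327) (nat_lit 5) (nat_lit 336) (nat_lit 5) (nat_lit 337) (nat_lit 5) (nat_lit 602) (nat_lit 553) (nat_lit 405)) (XT.lf (nat_lit 0) (nat_lit 12638105669) (nat_lit 760) (nat_lit 805727554) (nat_lit 76) (nat_lit 209043097) (nat_lit 327) (nat_lit 5) (nat_lit 337) (nat_lit 5) (nat_lit 328) (nat_lit 5) (nat_lit 603) (nat_lit 553) (nat_lit 404)))) (XT.nd (nat_lit 156) (nat_lit 684) (nat_lit 0) (XT.nd (nat_lit 78) (nat_lit 608) (nat_lit 0) (XT.lf (nat_lit 0) (nat_lit 1471651313) (nat_lit 760) (nat_lit 6471483778) (nat_lit 76) (nat_lit 5859184148) (nat_lit 317) (nat_lit 5) (nat_lit 327) (nat_lit 5) (nat_lit 318) (nat_lit 5) (nat_lit 604) (nat_lit 553) (nat_lit 403)) (XT.lf (nat_lit 0) (nat_lit 1687316533) (nat_lit 608) (nat_lit 2311164418) (nat_lit 684) (nat_lit 9956051173) (nat_lit 309) (nat_lit 5) (nat_lit 317) (nat_lit 5) (nat_lit 318) (nat_lit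 5) (nat_lit 605) (nat_lit 553) (nat_lit 402))) (XT.nd (nat_lit 78) (nat_lit 684) (nat_lit 0) (XT.lf (nat_lit 0) (nat_lit 6629839927) (nat_lit 684) (nat_lit 4049080501) (nat_lit 76) (nat_lit 3429789575) (nat_lit 309) (nat_lit 5) (nat_lit 318) (nat_lit 5) (nat_lit 310) (nat_lit 5) (nat_lit 606) (nat_lit 553) (nat_lit 401)) (XT.lf (nat_lit 0) (nat_lit 4360997531) (nat_lit 684) (nat_lit 4984670213) (nat_lit 760) (nat_lit 4919667439) (nat_lit 300) (nat_lit 5) (nat_lit 309) (nat_lit 5) (nat_lit 310) (nat_lit 5) (nat_lit 607) (nat_lit 553) (nat_lit 400))))))))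
noncomputable def xc141 : XT := (XT.nd (nat_lit 2262) (nat_lit 6688) (nat_lit 0) (XT.nd (nat_lit 1092) (nat_lit 4256) (nat_lit 0) (XT.nd (nat_lit 546) (nat_lit 2280) (nat_lit 0) (XT.nd (nat_lit 234) (nat_lit 1216) (nat_lit 0) (XT.nd (nat_lit 78) (nat_lit 1292) (nat_lit 0) (XT.lf (nat_lit 0) (nat_lit 12136853390) (nat_lit 760) (nat_lit 1450344193) (nat_lit 76) (nat_lit 837475025) (nat_lit 300) (nat_lit 5) (nat_lit 310) (nat_lit 5) (nat_lit 301) (nat_lit 5) (nat_lit 608) (nat_lit 553) (nat_lit 399)) (XT.nd (nat_lit 78) (nat_lit 608) (nat_lit 0) (XT.lf (nat_lit 0) (nat_lit 460378215) (nat_lit 684) (nat_lit 7368592598) (nat_lit 76) (nat_lit 6756796713) (nat_lit 291) (nat_lit 5) (nat_lit 300) (nat_lit 5) (nat_lit 292) (nat_lit 5) (nat_lit 609) (nat_lit 553) (nat_lit 398)) (XT.lf (nat_lit 0) (nat_lit 1315646516) (nat_lit 608) (nat_lit 1924256322) (nat_lit 684) (nat_lit 11509739644) (nat_lit 283) (nat_lit 5) (nat_lit 291) (nat_lit 5) (nat_lit 292) (nat_lit 5) (nat_lit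 610) (nat_lit 553) (nat_lit 397)))) (XT.nd (nat_lit 156) (nat_lit 608) (nat_lit 0) (XT.nd (nat_lit 78) (nat_lit 608) (nat_lit 0) (XT.lf (nat_lit 0) (nat_lit 6140145155) (nat_lit 684) (nat_lit 4683610920) (nat_lit 76) (nat_lit 4091736844) (nat_lit 283) (nat_lit 5) (nat_lit 292) (nat_lit 5) (nat_lit 284) (nat_lit 5) (nat_lit 611) (nat_lit 553) (nat_lit 396)) (XT.lf (nat_lit 0) (nat_lit 4271013753) (nat_lit 608) (nat_lit 4856815059) (nat_lit 684) (nat_lit 5956243335) (nat_lit 275) (nat_lit 5) (nat_lit 283) (nat_lit 5) (nat_lit 284) (nat_lit 5) (nat_lit 612) (nat_lit 553) (nat_lit 395))) (XT.nd (nat_lit 78) (nat_lit 608) (nat_lit 0) (XT.lf (nat_lit 0) (nat_lit 12203955251) (nat_lit 684) (nat_lit 1809512932) (nat_lit 76) (nat_lit 1241981498) (nat_lit 275) (nat_lit 5) (nat_lit 284) (nat_lit 5) (nat_lit 276) (nat_lit 5) (nat_lit 613) (nat_lit 553) (nat_lit 394)) (XT.lf (nat_lit 0) (nat_lit 7425456257) (nat_lit 608) (nat_lit 7985806589) (nat_lit 684) (nat_lit 17599239)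 (nat_lit 267) (nat_lit 5) (nat_lit 275) (nat_lit 5) (nat_lit 276) (nat_lit 5) (nat_lit 614) (nat_lit 553) (nat_lit 393))))) (XT.nd (nat_lit 234) (nat_lit 1140) (nat_lit 0) (XT.nd (nat_lit 78) (nat_lit 532) (nat_lit 0) (XT.lf (nat_lit 0) (nat_lit 1246523559) (nat_lit 532) (nat_lit 1799745019) (nat_lit 608) (nat_lit 12558882084) (nat_lit 259) (nat_lit 5) (nat_lit 266) (nat_lit 5) (nat_lit 267) (nat_lit 5) (nat_lit 615) (nat_lit 553) (nat_lit 392)) (XT.nd (nat_lit 78) (nat_lit 532) (nat_lit 0) (XT.lf (nat_lit 0) (nat_lit 6243954612) (nat_lit 608) (nat_lit 5037723995) (nat_lit 76) (nat_lit 4501829010) (nat_lit 259) (nat_lit 5) (nat_lit 267) (nat_lit 5) (nat_lit 260) (nat_lit 5) (nat_lit 616) (nat_lit 553) (nat_lit 391)) (XT.lf (nat_lit 0) (nat_lit 4502992208) (nat_lit 532) (nat_lit 5033396033) (nat_lit 608) (nat_lit 6428428049) (nat_lit 252) (nat_lit 5) (nat_lit 259) (nat_lit 5) (nat_lit 260) (nat_lit 5) (nat_lit 617) (nat_lit 553) (nat_lit 390)))) (XT.nd (nat_lit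 156) (nat_lit 532) (nat_lit 0) (XT.nd (nat_lit 78) (nat_lit 608) (nat_lit 0) (XT.lf (nat_lit 0) (nat_lit 12927130435) (nat_lit 608) (nat_lit 1869024224) (nat_lit 76) (nat_lit 1352947726) (nat_lit 252) (nat_lit 5) (nat_lit 260) (nat_lit 5) (nat_lit 253) (nat_lit 5) (nat_lit 618) (nat_lit 553) (nat_lit 389)) (XT.lf (nat_lit 0) (nat_lit 123506281) (nat_lit 608) (nat_lit 8363082525) (nat_lit 76) (nat_lit 7848968902) (nat_lit 244) (nat_lit 5) (nat_lit 252) (nat_lit 5) (nat_lit 245) (nat_lit 5) (nat_lit 619) (nat_lit 553) (nat_lit 388))) (XT.nd (nat_lit 78) (nat_lit 0) (nat_lit 0) (XT.lf (nat_lit 0) (nat_lit 1495228355) (nat_lit 532) (nat_lit 2009872975) (nat_lit 608) (nat_lit 13019968294) (nat_lit 237) (nat_lit 5) (nat_lit 244) (nat_lit 5) (nat_lit 245) (nat_lit 5) (nat_lit 620) (nat_lit 553) (nat_lit 387)) (XT.lf (nat_lit 0) (nat_lit 7030724637) (nat_lit 608) (nat_lit 5097089907) (nat_lit 76) (nat_lit 4589029720) (nat_lit 237) (nat_lit 5) (nat_lit 245) (nat_lit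 5) (nat_lit 238) (nat_lit 5) (nat_lit 621) (nat_lit 553) (nat_lit 386)))))) (XT.nd (nat_lit 546) (nat_lit 2280) (nat_lit 0) (XT.nd (nat_lit 234) (nat_lit 912) (nat_lit 0) (XT.nd (nat_lit 78) (nat_lit 608) (nat_lit 0) (XT.lf (nat_lit 0) (nat_lit 5074127305) (nat_lit 456) (nat_lit 5589244280) (nat_lit 532) (nat_lit 6248352992) (nat_lit 231) (nat_lit 5) (nat_lit 237) (nat_lit 5) (nat_lit 238) (nat_lit 5) (nat_lit 622) (nat_lit 553) (nat_lit 385)) (XT.nd (nat_lit 78) (nat_lit 608) (nat_lit 0) (XT.lf (nat_lit 0) (nat_lit 14400451450) (nat_lit 532) (nat_lit 1612704069) (nat_lit 76) (nat_lit 1096711776) (nat_lit 231) (nat_lit 5) (nat_lit 238) (nat_lit 5) (nat_lit 232) (nat_lit 5) (nat_lit 623) (nat_lit 553) (nat_lit 384)) (XT.lf (nat_lit 0) (nat_lit 974271211) (nat_lit 608) (nat_lit 8433748100) (nat_lit 76) (nat_lit 7902121454) (nat_lit 223) (nat_lit 5) (nat_lit 231) (nat_lit 5) (nat_lit 224) (nat_lit 5) (nat_lit 624) (nat_lit 553) (nat_lit 383)))) (XT.nd (nat_lit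 156) (nat_lit 456) (nat_lit 0) (XT.nd (nat_lit 78) (nat_lit 0) (nat_lit 0) (XT.lf (nat_lit 0) (nat_lit 2078897514) (nat_lit 456) (nat_lit 2631444642) (nat_lit 532) (nat_lit 12803419954) (nat_lit 217) (nat_lit 5) (nat_lit 223) (nat_lit 5) (nat_lit 224) (nat_lit 5) (nat_lit 625) (nat_lit 553) (nat_lit 382)) (XT.lf (nat_lit 0) (nat_lit 8596535382) (nat_lit 532) (nat_lit 4845730117) (nat_lit 76) (nat_lit 4277682732) (nat_lit 217) (nat_lit 5) (nat_lit 224) (nat_lit 5) (nat_lit 218) (nat_lit 5) (nat_lit 626) (nat_lit 553) (nat_lit 381))) (XT.nd (nat_lit 78) (nat_lit 0) (nat_lit 0) (XT.lf (nat_lit 0) (nat_lit 6003401688) (nat_lit 456) (nat_lit 6604277476) (nat_lit 532) (nat_lit 5321634736) (nat_lit 211) (nat_lit 5) (nat_lit 217) (nat_lit 5) (nat_lit 218) (nat_lit 5) (nat_lit 627) (nat_lit 553) (nat_lit 380)) (XT.lf (nat_lit 0) (nat_lit 16725075769) (nat_lit 532) (nat_lit 1022800585) (nat_lit 76) (nat_lit 394470280) (nat_lit 211) (nat_lit 5) (nat_lit 218) (nat_lit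 5) (nat_lit 212) (nat_lit 5) (nat_lit 628) (nat_lit 553) (nat_lit 379))))) (XT.nd (nat_lit 312) (nat_lit 912) (nat_lit 0) (XT.nd (nat_lit 156) (nat_lit 380) (nat_lit 0) (XT.nd (nat_lit 78) (nat_lit 456) (nat_lit 0) (XT.lf (nat_lit 0) (nat_lit 2633076561) (nat_lit 532) (nat_lit 8199766686) (nat_lit 76) (nat_lit 7524433237) (nat_lit 204) (nat_lit 5) (nat_lit 211) (nat_lit 5) (nat_lit 205) (nat_lit 5) (nat_lit 629) (nat_lit 553) (nat_lit 378)) (XT.lf (nat_lit 0) (nat_lit 3016108347) (nat_lit 456) (nat_lit 3746958066) (nat_lit 532) (nat_lit 11812899233) (nat_lit 198) (nat_lit 5) (nat_lit 204) (nat_lit 5) (nat_lit 205) (nat_lit 5) (nat_lit 630) (nat_lit 553) (nat_lit 377))) (XT.nd (nat_lit 78) (nat_lit 380) (nat_lit 0) (XT.lf (nat_lit 0) (nat_lit 11044811991) (nat_lit 532) (nat_lit 4266445451) (nat_lit 76) (nat_lit 3486388355) (nat_lit 198) (nat_lit 5) (nat_lit 205) (nat_lit 5) (nat_lit 199) (nat_lit 5) (nat_lit 631) (nat_lit 553) (nat_lit 376)) (XT.lf (nat_lit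 0) (nat_lit 7311157311) (nat_lit 380) (nat_lit 8164659636) (nat_lit 456) (nat_lit 3546670434) (nat_lit 193) (nat_lit 5) (nat_lit 198) (nat_lit 5) (nat_lit 199) (nat_lit 5) (nat_lit 632) (nat_lit 553) (nat_lit 375)))) (XT.nd (nat_lit 156) (nat_lit 380) (nat_lit 0) (XT.nd (nat_lit 78) (nat_lit 456) (nat_lit 0) (XT.lf (nat_lit 0) (nat_lit 754055007) (nat_lit 456) (nat_lit 90907188) (nat_lit 76) (nat_lit 18406363517) (nat_lit 192) (nat_lit 5) (nat_lit 198) (nat_lit 5) (nat_lit 193) (nat_lit 5) (nat_lit 633) (nat_lit 553) (nat_lit 374)) (XT.lf (nat_lit 0) (nat_lit 5205663258) (nat_lit 532) (nat_lit 7644789685) (nat_lit 76) (nat_lit 6631572135) (nat_lit 186) (nat_lit 5) (nat_lit 193) (nat_lit 5) (nat_lit 187) (nat_lit 5) (nat_lit 634) (nat_lit 553) (nat_lit 373))) (XT.nd (nat_lit 78) (nat_lit 0) (nat_lit 0) (XT.lf (nat_lit 0) (nat_lit 4326399020) (nat_lit 380) (nat_lit 5445803891) (nat_lit 456) (nat_lit 9944617830) (nat_lit 181) (nat_lit 5) (nat_lit 186) (nat_lit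 5) (nat_lit 187) (nat_lit 5) (nat_lit 635) (nat_lit 553) (nat_lit 372)) (XT.lf (nat_lit 0) (nat_lit 14487049143) (nat_lit 456) (nat_lit 3341313181) (nat_lit 76) (nat_lit 2126810766) (nat_lit 181) (nat_lit 5) (nat_lit 187) (nat_lit 5) (nat_lit 182) (nat_lit 5) (nat_lit 636) (nat_lit 553) (nat_lit 371))))))) (XT.nd (nat_lit 1170) (nat_lit 2812) (nat_lit 0) (XT.nd (nat_lit 546) (nat_lit 1824) (nat_lit 0) (XT.nd (nat_lit 234) (nat_lit 1216) (nat_lit 0) (XT.nd (nat_lit 78) (nat_lit 456) (nat_lit 0) (XT.lf (nat_lit 0) (nat_lit 9018594930) (nat_lit 380) (nat_lit 10364036451) (nat_lit 456) (nat_lit 813932607) (nat_lit 176) (nat_lit 5) (nat_lit 181) (nat_lit 5) (nat_lit 182) (nat_lit 5) (nat_lit 637) (nat_lit 553) (nat_lit 370)) (XT.nd (nat_lit 78) (nat_lit 0) (nat_lit 0) (XT.lf (nat_lit 0) (nat_lit 1206369475) (nat_lit 380) (nat_lit 2697635574) (nat_lit 456) (nat_lit 16537822189) (nat_lit 170) (nat_lit 5) (nat_lit 175) (nat_lit 5) (nat_lit 176) (nat_lit 5) (nat_lit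 638) (nat_lit 553) (nat_lit 369)) (XT.lf (nat_lit 0) (nat_lit 8806073924) (nat_lit 456) (nat_lit 6752201052) (nat_lit 76) (nat_lit 5131600023) (nat_lit 170) (nat_lit 5) (nat_lit 176) (nat_lit 5) (nat_lit 171) (nat_lit 5) (nat_lit 639) (nat_lit 553) (nat_lit 368)))) (XT.nd (nat_lit 156) (nat_lit 836) (nat_lit 0) (XT.nd (nat_lit 78) (nat_lit 0) (nat_lit 0) (XT.lf (nat_lit 0) (nat_lit 6029703433) (nat_lit 380) (nat_lit 7825551570) (nat_lit 456) (nat_lit 7086647556) (nat_lit 165) (nat_lit 5) (nat_lit 170) (nat_lit 5) (nat_lit 171) (nat_lit 5) (nat_lit 640) (nat_lit 553) (nat_lit 367)) (XT.lf (nat_lit 0) (nat_lit 19043537895) (nat_lit 456) (nat_lit 2052274217) (nat_lit 76) (nat_lit 102396452) (nat_lit 165) (nat_lit 5) (nat_lit 171) (nat_lit 5) (nat_lit 166) (nat_lit 5) (nat_lit 641) (nat_lit 553) (nat_lit 366))) (XT.nd (nat_lit 78) (nat_lit 380) (nat_lit 0) (XT.lf (nat_lit 0) (nat_lit 2955458617) (nat_lit 456) (nat_lit 10329575237) (nat_lit 76) (nat_lit 8171889003)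 (nat_lit 159) (nat_lit 5) (nat_lit 165) (nat_lit 5) (nat_lit 160) (nat_lit 5) (nat_lit 642) (nat_lit 553) (nat_lit 365)) (XT.lf (nat_lit 0) (nat_lit 2889313447) (nat_lit 380) (nat_lit 5274559099) (nat_lit 456) (nat_lit 13556155622) (nat_lit 154) (nat_lit 5) (nat_lit 159) (nat_lit 5) (nat_lit 160) (nat_lit 5) (nat_lit 643) (nat_lit 553) (nat_lit 364))))) (XT.nd (nat_lit 312) (nat_lit 1064) (nat_lit 0) (XT.nd (nat_lit 156) (nat_lit 456) (nat_lit 0) (XT.nd (nat_lit 78) (nat_lit 304) (nat_lit 0) (XT.lf (nat_lit 0) (nat_lit 13557363285) (nat_lit 456) (nat_lit 5505782256) (nat_lit 76) (nat_lit 2923632109) (nat_lit 154) (nat_lit 5) (nat_lit 160) (nat_lit 5) (nat_lit 155) (nat_lit 5) (nat_lit 644) (nat_lit 553) (nat_lit 363)) (XT.lf (nat_lit 0) (nat_lit 8145677073) (nat_lit 304) (nat_lit 10993344199) (nat_lit 380) (nat_lit 3118235135) (nat_lit 150) (nat_lit 5) (nat_lit 154) (nat_lit 5) (nat_lit 155) (nat_lit 5) (nat_lit 645) (nat_lit 553) (nat_lit 362))) (XT.nd (nat_lit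 78) (nat_lit 380) (nat_lit 0) (XT.lf (nat_lit 0) (nat_lit 2298705819) (nat_lit 380) (nat_lit 414675011) (nat_lit 76) (nat_lit 19818871736) (nat_lit 149) (nat_lit 5) (nat_lit 154) (nat_lit 5) (nat_lit 150) (nat_lit 5) (nat_lit 646) (nat_lit 553) (nat_lit 361)) (XT.lf (nat_lit 0) (nat_lit 7901807122) (nat_lit 456) (nat_lit 9145038310) (nat_lit 76) (nat_lit 5763099709) (nat_lit 144) (nat_lit 5) (nat_lit 150) (nat_lit 5) (nat_lit 145) (nat_lit 5) (nat_lit 647) (nat_lit 553) (nat_lit 360)))) (XT.nd (nat_lit 156) (nat_lit 760) (nat_lit 0) (XT.nd (nat_lit 78) (nat_lit 0) (nat_lit 0) (XT.lf (nat_lit 0) (nat_lit 4974111227) (nat_lit 304) (nat_lit 8688613799) (nat_lit 380) (nat_lit 9429551665) (nat_lit 140) (nat_lit 5) (nat_lit 144) (nat_lit 5) (nat_lit 145) (nat_lit 5) (nat_lit 648) (nat_lit 553) (nat_lit 359)) (XT.lf (nat_lit 0) (nat_lit 19487981427) (nat_lit 304) (nat_lit 105004578) (nat_lit 380) (nat_lit 3786186584) (nat_lit 140) (nat_lit 5) (nat_lit 144) (nat_lit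 5) (nat_lit 145) (nat_lit 5) (nat_lit 649) (nat_lit 553) (nat_lit 358))) (XT.nd (nat_lit 78) (nat_lit 304) (nat_lit 0) (XT.lf (nat_lit 0) (nat_lit 2063452060) (nat_lit 456) (nat_lit 12990126459) (nat_lit 76) (nat_lit 8615587396) (nat_lit 134) (nat_lit 5) (nat_lit 140) (nat_lit 5) (nat_lit 135) (nat_lit 5) (nat_lit 650) (nat_lit 553) (nat_lit 357)) (XT.lf (nat_lit 0) (nat_lit 1612660802) (nat_lit 304) (nat_lit 6397113135) (nat_lit 380) (nat_lit 15954077085) (nat_lit 130) (nat_lit 5) (nat_lit 134) (nat_lit 5) (nat_lit 135) (nat_lit 5) (nat_lit 651) (nat_lit 553) (nat_lit 356)))))) (XT.nd (nat_lit 546) (nat_lit 1520) (nat_lit 0) (XT.nd (nat_lit 234) (nat_lit 912) (nat_lit 0) (XT.nd (nat_lit 78) (nat_lit 380) (nat_lit 0) (XT.lf (nat_lit 0) (nat_lit 14171489211) (nat_lit 380) (nat_lit 7607036281) (nat_lit 76) (nat_lit 2483975194) (nat_lit 130) (nat_lit 5) (nat_lit 135) (nat_lit 5) (nat_lit 131) (nat_lit 5) (nat_lit 652) (nat_lit 553) (nat_lit 355)) (XT.nd (nat_lit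 78) (nat_lit 76) (nat_lit 0) (XT.lf (nat_lit 0) (nat_lit 7476348539) (nat_lit 304) (nat_lit 13064061162) (nat_lit 380) (nat_lit 4025034414) (nat_lit 126) (nat_lit 5) (nat_lit 130) (nat_lit 5) (nat_lit 131) (nat_lit 5) (nat_lit 653) (nat_lit 553) (nat_lit 354)) (XT.lf (nat_lit 0) (nat_lit 2178370662) (nat_lit 380) (nat_lit 1934644314) (nat_lit 76) (nat_lit 20760261506) (nat_lit 125) (nat_lit 5) (nat_lit 130) (nat_lit 5) (nat_lit 126) (nat_lit 5) (nat_lit 654) (nat_lit 553) (nat_lit 353)))) (XT.nd (nat_lit 156) (nat_lit 304) (nat_lit 0) (XT.nd (nat_lit 78) (nat_lit 304) (nat_lit 0) (XT.lf (nat_lit 0) (nat_lit 8567243941) (nat_lit 380) (nat_lit 11554089296) (nat_lit 76) (nat_lit 5063094422) (nat_lit 121) (nat_lit 5) (nat_lit 126) (nat_lit 5) (nat_lit 122) (nat_lit 5) (nat_lit 655) (nat_lit 553) (nat_lit 352)) (XT.lf (nat_lit 0) (nat_lit 4045872124) (nat_lit 304) (nat_lit 11097848308) (nat_lit 380) (nat_lit 10356885089) (nat_lit 117) (nat_lit 5) (nat_lit 121)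 (nat_lit 5) (nat_lit 122) (nat_lit 5) (nat_lit 656) (nat_lit 553) (nat_lit 351))) (XT.nd (nat_lit 78) (nat_lit 304) (nat_lit 0) (XT.lf (nat_lit 0) (nat_lit 20103356147) (nat_lit 304) (nat_lit 1819214929) (nat_lit 380) (nat_lit 3899119144) (nat_lit 117) (nat_lit 5) (nat_lit 121) (nat_lit 5) (nat_lit 122) (nat_lit 5) (nat_lit 657) (nat_lit 553) (nat_lit 350)) (XT.lf (nat_lit 0) (nat_lit 2763913772) (nat_lit 304) (nat_lit 15756480212) (nat_lit 76) (nat_lit 7626226524) (nat_lit 113) (nat_lit 5) (nat_lit 117) (nat_lit 5) (nat_lit 114) (nat_lit 5) (nat_lit 658) (nat_lit 553) (nat_lit 349))))) (XT.nd (nat_lit 312) (nat_lit 912) (nat_lit 0) (XT.nd (nat_lit 156) (nat_lit 304) (nat_lit 0) (XT.nd (nat_lit 78) (nat_lit 0) (nat_lit 0) (XT.lf (nat_lit 0) (nat_lit 376837816) (nat_lit 304) (nat_lit 9177759390) (nat_lit 380) (nat_lit 16922004912) (nat_lit 109) (nat_lit 5) (nat_lit 113) (nat_lit 5) (nat_lit 114) (nat_lit 5) (nat_lit 659) (nat_lit 553) (nat_lit 348)) (XT.lf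 (nat_lit 0) (nat_lit 16583270392) (nat_lit 380) (nat_lit 9778672888) (nat_lit 76) (nat_lit 449196718) (nat_lit 109) (nat_lit 5) (nat_lit 114) (nat_lit 5) (nat_lit 110) (nat_lit 5) (nat_lit 660) (nat_lit 553) (nat_lit 347))) (XT.nd (nat_lit 78) (nat_lit 76) (nat_lit 0) (XT.lf (nat_lit 0) (nat_lit 6887582792) (nat_lit 228) (nat_lit 16964019074) (nat_lit 304) (nat_lit 3298785230) (nat_lit 106) (nat_lit 5) (nat_lit 109) (nat_lit 5) (nat_lit 110) (nat_lit 5) (nat_lit 661) (nat_lit 553) (nat_lit 346)) (XT.lf (nat_lit 0) (nat_lit 3779105884) (nat_lit 304) (nat_lit 3511118980) (nat_lit 76) (nat_lit 20204511928) (nat_lit 105) (nat_lit 5) (nat_lit 109) (nat_lit 5) (nat_lit 106) (nat_lit 5) (nat_lit 662) (nat_lit 553) (nat_lit 345)))) (XT.nd (nat_lit 156) (nat_lit 380) (nat_lit 0) (XT.nd (nat_lit 78) (nat_lit 228) (nat_lit 0) (XT.lf (nat_lit 0) (nat_lit 11054688947) (nat_lit 380) (nat_lit 14138195093) (nat_lit 76) (nat_lit 2650647394) (nat_lit 101) (nat_lit 5) (nat_lit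 106) (nat_lit 5) (nat_lit 102) (nat_lit 5) (nat_lit 663) (nat_lit 553) (nat_lit 344)) (XT.lf (nat_lit 0) (nat_lit 3096420498) (nat_lit 228) (nat_lit 15465216323) (nat_lit 304) (nat_lit 9635948228) (nat_lit 98) (nat_lit 5) (nat_lit 101) (nat_lit 5) (nat_lit 102) (nat_lit 5) (nat_lit 664) (nat_lit 553) (nat_lit 343))) (XT.nd (nat_lit 78) (nat_lit 380) (nat_lit 0) (XT.lf (nat_lit 0) (nat_lit 20856807229) (nat_lit 228) (nat_lit 5450597055) (nat_lit 304) (nat_lit 2249541982) (nat_lit 98) (nat_lit 5) (nat_lit 101) (nat_lit 5) (nat_lit 102) (nat_lit 5) (nat_lit 665) (nat_lit 553) (nat_lit 342)) (XT.lf (nat_lit 0) (nat_lit 5306555890) (nat_lit 380) (nat_lit 18816079068) (nat_lit 76) (nat_lit 4798348227) (nat_lit 93) (nat_lit 5) (nat_lit 98) (nat_lit 5) (nat_lit 94) (nat_lit 5) (nat_lit 666) (nat_lit 553) (nat_lit 341))))))))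
noncomputable def xc142 : XT := (XT.nd (nat_lit 74490) (nat_lit 0) (nat_lit 15276) (XT.nd (nat_lit 73320) (nat_lit 0) (nat_lit 29944) (XT.nd (nat_lit 72774) (nat_lit 0) (nat_lit 34656) (XT.nd (nat_lit 72462) (nat_lit 0) (nat_lit 35948) (XT.nd (nat_lit 78) (nat_lit 228) (nat_lit 0) (XT.lf (nat_lit 0) (nat_lit 13065704871) (nat_lit 380) (nat_lit 982645276) (nat_lit 76) (nat_lit 15242012427) (nat_lit 93) (nat_lit 5) (nat_lit 98) (nat_lit 5) (nat_lit 94) (nat_lit 5) (nat_lit 667) (nat_lit 553) (nat_lit 340)) (XT.nd (nat_lit 72306) (nat_lit 0) (nat_lit 35948) (XT.lf (nat_lit 0) (nat_lit 17425737176) (nat_lit 228) (nat_lit 3661469989) (nat_lit 304) (nat_lit 8577779111) (nat_lit 90) (nat_lit 5) (nat_lit 93) (nat_lit 5) (nat_lit 94) (nat_lit 5) (nat_lit 668) (nat_lit 553) (nat_lit 339)) (XT.lf (nat_lit 0) (nat_lit 140986818) (nat_lit 1596) (nat_lit 2092009246) (nat_lit 1596) (nat_lit 2092009246) (nat_lit 563) (nat_lit 3) (nat_lit 584) (nat_lit 3) (nat_lit 584) (nat_lit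 5) (nat_lit 554) (nat_lit 554) (nat_lit 452)))) (XT.nd (nat_lit 156) (nat_lit 0) (nat_lit 76) (XT.nd (nat_lit 78) (nat_lit 0) (nat_lit 76) (XT.lf (nat_lit 76) (nat_lit 110512803) (nat_lit 0) (nat_lit 1172124948) (nat_lit 1596) (nat_lit 7433847971) (nat_lit 564) (nat_lit 5) (nat_lit 563) (nat_lit 3) (nat_lit 584) (nat_lit 5) (nat_lit 555) (nat_lit 554) (nat_lit 451)) (XT.lf (nat_lit 0) (nat_lit 2319621396) (nat_lit 1520) (nat_lit 4264594491) (nat_lit 1596) (nat_lit 2199750099) (nat_lit 564) (nat_lit 5) (nat_lit 584) (nat_lit 5) (nat_lit 585) (nat_lit 5) (nat_lit 556) (nat_lit 554) (nat_lit 450))) (XT.nd (nat_lit 78) (nat_lit 0) (nat_lit 76) (XT.lf (nat_lit 76) (nat_lit 143886692) (nat_lit 0) (nat_lit 3216507453) (nat_lit 1596) (nat_lit 5492742471) (nat_lit 565) (nat_lit 5) (nat_lit 564) (nat_lit 5) (nat_lit 585) (nat_lit 5) (nat_lit 557) (nat_lit 554) (nat_lit 449)) (XT.lf (nat_lit 0) (nat_lit 4427049420) (nat_lit 1520) (nat_lit 4240720910) (nat_lit 1596) (nat_lit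 255820706) (nat_lit 565) (nat_lit 5) (nat_lit 585) (nat_lit 5) (nat_lit 586) (nat_lit 5) (nat_lit 558) (nat_lit 554) (nat_lit 448))))) (XT.nd (nat_lit 234) (nat_lit 1444) (nat_lit 0) (XT.nd (nat_lit 78) (nat_lit 0) (nat_lit 0) (XT.lf (nat_lit 76) (nat_lit 285564425) (nat_lit 0) (nat_lit 5227963009) (nat_lit 1596) (nat_lit 3481959002) (nat_lit 566) (nat_lit 5) (nat_lit 565) (nat_lit 5) (nat_lit 586) (nat_lit 5) (nat_lit 559) (nat_lit 554) (nat_lit 447)) (XT.nd (nat_lit 78) (nat_lit 0) (nat_lit 76) (XT.lf (nat_lit 76) (nat_lit 4945893928) (nat_lit 0) (nat_lit 1680025704) (nat_lit 1596) (nat_lit 2442818069) (nat_lit 566) (nat_lit 5) (nat_lit 565) (nat_lit 5) (nat_lit 586) (nat_lit 5) (nat_lit 560) (nat_lit 554) (nat_lit 446)) (XT.lf (nat_lit 76) (nat_lit 536184799) (nat_lit 0) (nat_lit 7216713279) (nat_lit 1596) (nat_lit 1390710764) (nat_lit 567) (nat_lit 5) (nat_lit 566) (nat_lit 5) (nat_lit 587) (nat_lit 5) (nat_lit 561) (nat_lit 554) (nat_lit 445)))) (XT.nd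 (nat_lit 156) (nat_lit 0) (nat_lit 0) (XT.nd (nat_lit 78) (nat_lit 1520) (nat_lit 0) (XT.lf (nat_lit 76) (nat_lit 5318865014) (nat_lit 0) (nat_lit 3598912539) (nat_lit 1596) (nat_lit 301894211) (nat_lit 567) (nat_lit 5) (nat_lit 566) (nat_lit 5) (nat_lit 587) (nat_lit 5) (nat_lit 562) (nat_lit 554) (nat_lit 444)) (XT.lf (nat_lit 0) (nat_lit 781555571) (nat_lit 1596) (nat_lit 8405998854) (nat_lit 1672) (nat_lit 109928769) (nat_lit 546) (nat_lit 5) (nat_lit 567) (nat_lit 5) (nat_lit 568) (nat_lit 5) (nat_lit 563) (nat_lit 554) (nat_lit 443))) (XT.nd (nat_lit 78) (nat_lit 0) (nat_lit 0) (XT.lf (nat_lit 0) (nat_lit 1910182995) (nat_lit 1596) (nat_lit 3584426064) (nat_lit 1672) (nat_lit 3881652359) (nat_lit 546) (nat_lit 5) (nat_lit 567) (nat_lit 5) (nat_lit 568) (nat_lit 5) (nat_lit 564) (nat_lit 554) (nat_lit 442)) (XT.lf (nat_lit 76) (nat_lit 1336806776) (nat_lit 0) (nat_lit 1711063030) (nat_lit 1672) (nat_lit 6409017128) (nat_lit 547) (nat_lit 5) (nat_lit 546)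 (nat_lit 5) (nat_lit 568) (nat_lit 5) (nat_lit 565) (nat_lit 554) (nat_lit 441)))))) (XT.nd (nat_lit 546) (nat_lit 3268) (nat_lit 0) (XT.nd (nat_lit 234) (nat_lit 1520) (nat_lit 0) (XT.nd (nat_lit 78) (nat_lit 0) (nat_lit 0) (XT.lf (nat_lit 0) (nat_lit 4224670170) (nat_lit 1596) (nat_lit 3162396114) (nat_lit 1672) (nat_lit 2151732918) (nat_lit 547) (nat_lit 5) (nat_lit 568) (nat_lit 5) (nat_lit 569) (nat_lit 5) (nat_lit 566) (nat_lit 554) (nat_lit 440)) (XT.nd (nat_lit 78) (nat_lit 0) (nat_lit 76) (XT.lf (nat_lit 76) (nat_lit 1893534507) (nat_lit 0) (nat_lit 3533725008) (nat_lit 1672) (nat_lit 4195046549) (nat_lit 548) (nat_lit 5) (nat_lit 547) (nat_lit 5) (nat_lit 569) (nat_lit 5) (nat_lit 567) (nat_lit 554) (nat_lit 439)) (XT.lf (nat_lit 0) (nat_lit 6656835246) (nat_lit 1596) (nat_lit 2631104676) (nat_lit 1672) (nat_lit 419485831) (nat_lit 548) (nat_lit 5) (nat_lit 569) (nat_lit 5) (nat_lit 570) (nat_lit 5) (nat_lit 568) (nat_lit 554) (nat_lit 438)))) (XT.nd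 (nat_lit 156) (nat_lit 1596) (nat_lit 0) (XT.nd (nat_lit 78) (nat_lit 0) (nat_lit 0) (XT.lf (nat_lit 76) (nat_lit 2564253026) (nat_lit 0) (nat_lit 5366209455) (nat_lit 1672) (nat_lit 1863397510) (nat_lit 549) (nat_lit 5) (nat_lit 548) (nat_lit 5) (nat_lit 570) (nat_lit 5) (nat_lit 569) (nat_lit 554) (nat_lit 437)) (XT.lf (nat_lit 76) (nat_lit 7884787530) (nat_lit 0) (nat_lit 1342150113) (nat_lit 1672) (nat_lit 655139089) (nat_lit 549) (nat_lit 5) (nat_lit 548) (nat_lit 5) (nat_lit 570) (nat_lit 5) (nat_lit 570) (nat_lit 554) (nat_lit 436))) (XT.nd (nat_lit 78) (nat_lit 0) (nat_lit 0) (XT.lf (nat_lit 0) (nat_lit 589690971) (nat_lit 1672) (nat_lit 6624401075) (nat_lit 1748) (nat_lit 2757492524) (nat_lit 527) (nat_lit 5) (nat_lit 549) (nat_lit 5) (nat_lit 550) (nat_lit 5) (nat_lit 571) (nat_lit 554) (nat_lit 435)) (XT.lf (nat_lit 0) (nat_lit 1853352513) (nat_lit 1672) (nat_lit 1265027822) (nat_lit 1748) (nat_lit 6944362727) (nat_lit 527) (nat_lit 5) (nat_lit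 549) (nat_lit 5) (nat_lit 550) (nat_lit 5) (nat_lit 572) (nat_lit 554) (nat_lit 434))))) (XT.nd (nat_lit 312) (nat_lit 3344) (nat_lit 0) (XT.nd (nat_lit 156) (nat_lit 0) (nat_lit 0) (XT.nd (nat_lit 78) (nat_lit 0) (nat_lit 0) (XT.lf (nat_lit 0) (nat_lit 3157630240) (nat_lit 1672) (nat_lit 5919903295) (nat_lit 1748) (nat_lit 1077885555) (nat_lit 528) (nat_lit 5) (nat_lit 550) (nat_lit 5) (nat_lit 551) (nat_lit 5) (nat_lit 573) (nat_lit 554) (nat_lit 433)) (XT.lf (nat_lit 0) (nat_lit 4498210767) (nat_lit 1672) (nat_lit 422013708) (nat_lit 1748) (nat_lit 5329521024) (nat_lit 528) (nat_lit 5) (nat_lit 550) (nat_lit 5) (nat_lit 551) (nat_lit 5) (nat_lit 574) (nat_lit 554) (nat_lit 432))) (XT.nd (nat_lit 78) (nat_lit 0) (nat_lit 76) (XT.lf (nat_lit 76) (nat_lit 5240102504) (nat_lit 0) (nat_lit 640915266) (nat_lit 1748) (nat_lit 4464633545) (nat_lit 529) (nat_lit 5) (nat_lit 528) (nat_lit 5) (nat_lit 551) (nat_lit 5) (nat_lit 575) (nat_lit 554) (nat_lit 431)) (XT.lf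 (nat_lit 76) (nat_lit 545971521) (nat_lit 0) (nat_lit 6757773502) (nat_lit 1748) (nat_lit 3139486099) (nat_lit 530) (nat_lit 5) (nat_lit 529) (nat_lit 5) (nat_lit 552) (nat_lit 5) (nat_lit 576) (nat_lit 554) (nat_lit 430)))) (XT.nd (nat_lit 156) (nat_lit 1824) (nat_lit 0) (XT.nd (nat_lit 78) (nat_lit 1596) (nat_lit 0) (XT.lf (nat_lit 76) (nat_lit 6360770885) (nat_lit 0) (nat_lit 2414587317) (nat_lit 1748) (nat_lit 1766996829) (nat_lit 530) (nat_lit 5) (nat_lit 529) (nat_lit 5) (nat_lit 552) (nat_lit 5) (nat_lit 577) (nat_lit 554) (nat_lit 429)) (XT.lf (nat_lit 0) (nat_lit 1642108974) (nat_lit 1672) (nat_lit 8640371379) (nat_lit 1748) (nat_lit 360860642) (nat_lit 508) (nat_lit 5) (nat_lit 530) (nat_lit 5) (nat_lit 531) (nat_lit 5) (nat_lit 578) (nat_lit 554) (nat_lit 428))) (XT.nd (nat_lit 78) (nat_lit 1748) (nat_lit 0) (XT.lf (nat_lit 0) (nat_lit 1086021825) (nat_lit 1748) (nat_lit 3144856493) (nat_lit 76) (nat_lit 6514796015) (nat_lit 507) (nat_lit 5) (nat_lit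 530) (nat_lit 5) (nat_lit 508) (nat_lit 5) (nat_lit 579) (nat_lit 554) (nat_lit 427)) (XT.lf (nat_lit 0) (nat_lit 2560207912) (nat_lit 1824) (nat_lit 8002838599) (nat_lit 76) (nat_lit 286897212) (nat_lit 484) (nat_lit 5) (nat_lit 508) (nat_lit 5) (nat_lit 485) (nat_lit 5) (nat_lit 580) (nat_lit 554) (nat_lit 426))))))) (XT.nd (nat_lit 1170) (nat_lit 6460) (nat_lit 0) (XT.nd (nat_lit 546) (nat_lit 3420) (nat_lit 0) (XT.nd (nat_lit 234) (nat_lit 2964) (nat_lit 0) (XT.nd (nat_lit 78) (nat_lit 1824) (nat_lit 0) (XT.lf (nat_lit 0) (nat_lit 4096207188) (nat_lit 1824) (nat_lit 1997351779) (nat_lit 76) (nat_lit 4862093970) (nat_lit 484) (nat_lit 5) (nat_lit 508) (nat_lit 5) (nat_lit 485) (nat_lit 5) (nat_lit 581) (nat_lit 554) (nat_lit 425)) (XT.nd (nat_lit 78) (nat_lit 0) (nat_lit 0) (XT.lf (nat_lit 0) (nat_lit 4168352826) (nat_lit 1824) (nat_lit 1505036359) (nat_lit 1900) (nat_lit 5389878900) (nat_lit 460) (nat_lit 5) (nat_lit 484) (nat_lit 5) (nat_lit 485) (nat_lit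 5) (nat_lit 582) (nat_lit 554) (nat_lit 424)) (XT.lf (nat_lit 0) (nat_lit 7299865724) (nat_lit 1900) (nat_lit 723831551) (nat_lit 76) (nat_lit 3148984231) (nat_lit 460) (nat_lit 5) (nat_lit 485) (nat_lit 5) (nat_lit 461) (nat_lit 5) (nat_lit 583) (nat_lit 554) (nat_lit 423)))) (XT.nd (nat_lit 156) (nat_lit 988) (nat_lit 0) (XT.nd (nat_lit 78) (nat_lit 912) (nat_lit 0) (XT.lf (nat_lit 0) (nat_lit 5619897379) (nat_lit 1064) (nat_lit 3369393354) (nat_lit 1140) (nat_lit 2294385051) (nat_lit 446) (nat_lit 5) (nat_lit 460) (nat_lit 5) (nat_lit 461) (nat_lit 5) (nat_lit 584) (nat_lit 554) (nat_lit 422)) (XT.lf (nat_lit 0) (nat_lit 688828779) (nat_lit 912) (nat_lit 10026177708) (nat_lit 988) (nat_lit 681834362) (nat_lit 434) (nat_lit 5) (nat_lit 446) (nat_lit 5) (nat_lit 447) (nat_lit 5) (nat_lit 585) (nat_lit 554) (nat_lit 421))) (XT.nd (nat_lit 78) (nat_lit 912) (nat_lit 0) (XT.lf (nat_lit 0) (nat_lit 995214578) (nat_lit 988) (nat_lit 4309923351) (nat_lit 76) (nat_lit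 6206109620) (nat_lit 433) (nat_lit 5) (nat_lit 446) (nat_lit 5) (nat_lit 434) (nat_lit 5) (nat_lit 586) (nat_lit 554) (nat_lit 420)) (XT.lf (nat_lit 0) (nat_lit 2226241993) (nat_lit 912) (nat_lit 469507508) (nat_lit 988) (nat_lit 8932122142) (nat_lit 421) (nat_lit 5) (nat_lit 433) (nat_lit 5) (nat_lit 434) (nat_lit 5) (nat_lit 587) (nat_lit 554) (nat_lit 419))))) (XT.nd (nat_lit 312) (nat_lit 1748) (nat_lit 0) (XT.nd (nat_lit 156) (nat_lit 836) (nat_lit 0) (XT.nd (nat_lit 78) (nat_lit 836) (nat_lit 0) (XT.lf (nat_lit 0) (nat_lit 4473208561) (nat_lit 988) (nat_lit 2838644714) (nat_lit 76) (nat_lit 4434117550) (nat_lit 421) (nat_lit 5) (nat_lit 434) (nat_lit 5) (nat_lit 422) (nat_lit 5) (nat_lit 588) (nat_lit 554) (nat_lit 418)) (XT.lf (nat_lit 0) (nat_lit 3889004911) (nat_lit 836) (nat_lit 2410693133) (nat_lit 912) (nat_lit 5566465181) (nat_lit 410) (nat_lit 5) (nat_lit 421) (nat_lit 5) (nat_lit 422) (nat_lit 5) (nat_lit 589) (nat_lit 554) (nat_lit 417))) (XT.nd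 (nat_lit 78) (nat_lit 836) (nat_lit 0) (XT.lf (nat_lit 0) (nat_lit 8184020497) (nat_lit 912) (nat_lit 1230316375) (nat_lit 76) (nat_lit 2573997380) (nat_lit 410) (nat_lit 5) (nat_lit 422) (nat_lit 5) (nat_lit 411) (nat_lit 5) (nat_lit 590) (nat_lit 554) (nat_lit 416)) (XT.lf (nat_lit 0) (nat_lit 5695795361) (nat_lit 836) (nat_lit 4448789607) (nat_lit 912) (nat_lit 1967593444) (nat_lit 399) (nat_lit 5) (nat_lit 410) (nat_lit 5) (nat_lit 411) (nat_lit 5) (nat_lit 591) (nat_lit 554) (nat_lit 415)))) (XT.nd (nat_lit 156) (nat_lit 836) (nat_lit 0) (XT.nd (nat_lit 78) (nat_lit 76) (nat_lit 0) (XT.lf (nat_lit 0) (nat_lit 527036908) (nat_lit 836) (nat_lit 11618854761) (nat_lit 912) (nat_lit 92577978) (nat_lit 388) (nat_lit 5) (nat_lit 399) (nat_lit 5) (nat_lit 400) (nat_lit 5) (nat_lit 592) (nat_lit 554) (nat_lit 414)) (XT.lf (nat_lit 0) (nat_lit 1854762741) (nat_lit 912) (nat_lit 4726373336) (nat_lit 76) (nat_lit 5784741208) (nat_lit 387) (nat_lit 5) (nat_lit 399)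 (nat_lit 5) (nat_lit 388) (nat_lit 5) (nat_lit 593) (nat_lit 554) (nat_lit 413))) (XT.nd (nat_lit 78) (nat_lit 0) (nat_lit 0) (XT.lf (nat_lit 0) (nat_lit 2415050695) (nat_lit 836) (nat_lit 1426607034) (nat_lit 912) (nat_lit 8654126927) (nat_lit 376) (nat_lit 5) (nat_lit 387) (nat_lit 5) (nat_lit 388) (nat_lit 5) (nat_lit 594) (nat_lit 554) (nat_lit 412)) (XT.lf (nat_lit 0) (nat_lit 5911430589) (nat_lit 912) (nat_lit 2903941153) (nat_lit 76) (nat_lit 3812056383) (nat_lit 376) (nat_lit 5) (nat_lit 388) (nat_lit 5) (nat_lit 377) (nat_lit 5) (nat_lit 595) (nat_lit 554) (nat_lit 411)))))) (XT.nd (nat_lit 546) (nat_lit 3420) (nat_lit 0) (XT.nd (nat_lit 234) (nat_lit 1520) (nat_lit 0) (XT.nd (nat_lit 78) (nat_lit 760) (nat_lit 0) (XT.lf (nat_lit 0) (nat_lit 4451029333) (nat_lit 760) (nat_lit 3596524180) (nat_lit 836) (nat_lit 4713652590) (nat_lit 366) (nat_lit 5) (nat_lit 376) (nat_lit 5) (nat_lit 377) (nat_lit 5) (nat_lit 596) (nat_lit 554) (nat_lit 410)) (XT.nd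 (nat_lit 78) (nat_lit 760) (nat_lit 0) (XT.lf (nat_lit 0) (nat_lit 10243997791) (nat_lit 836) (nat_lit 930598281) (nat_lit 76) (nat_lit 1722712308) (nat_lit 366) (nat_lit 5) (nat_lit 377) (nat_lit 5) (nat_lit 367) (nat_lit 5) (nat_lit 597) (nat_lit 554) (nat_lit 409)) (XT.lf (nat_lit 0) (nat_lit 6645745888) (nat_lit 760) (nat_lit 5892623055) (nat_lit 836) (nat_lit 496684506) (nat_lit 356) (nat_lit 5) (nat_lit 366) (nat_lit 5) (nat_lit 367) (nat_lit 5) (nat_lit 598) (nat_lit 554) (nat_lit 408)))) (XT.nd (nat_lit 156) (nat_lit 760) (nat_lit 0) (XT.nd (nat_lit 78) (nat_lit 0) (nat_lit 0) (XT.lf (nat_lit 0) (nat_lit 1201211399) (nat_lit 684) (nat_lit 480720573) (nat_lit 760) (nat_lit 11493377095) (nat_lit 346) (nat_lit 5) (nat_lit 355) (nat_lit 5) (nat_lit 356) (nat_lit 5) (nat_lit 599) (nat_lit 554) (nat_lit 407)) (XT.lf (nat_lit 0) (nat_lit 3960615625) (nat_lit 760) (nat_lit 4338054391) (nat_lit 76) (nat_lit 5018371873) (nat_lit 346) (nat_lit 5) (nat_lit 356)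 (nat_lit 5) (nat_lit 347) (nat_lit 5) (nat_lit 600) (nat_lit 554) (nat_lit 406))) (XT.nd (nat_lit 78) (nat_lit 0) (nat_lit 0) (XT.lf (nat_lit 0) (nat_lit 3479037621) (nat_lit 760) (nat_lit 2819117340) (nat_lit 836) (nat_lit 7163189418) (nat_lit 336) (nat_lit 5) (nat_lit 346) (nat_lit 5) (nat_lit 347) (nat_lit 5) (nat_lit 601) (nat_lit 554) (nat_lit 405)) (XT.lf (nat_lit 0) (nat_lit 8717386445) (nat_lit 836) (nat_lit 2129113675) (nat_lit 76) (nat_lit 2761334610) (nat_lit 336) (nat_lit 5) (nat_lit 347) (nat_lit 5) (nat_lit 337) (nat_lit 5) (nat_lit 602) (nat_lit 554) (nat_lit 404))))) (XT.nd (nat_lit 312) (nat_lit 1368) (nat_lit 0) (XT.nd (nat_lit 156) (nat_lit 684) (nat_lit 0) (XT.nd (nat_lit 78) (nat_lit 684) (nat_lit 0) (XT.lf (nat_lit 0) (nat_lit 5926216346) (nat_lit 684) (nat_lit 5303827983) (nat_lit 760) (nat_lit 2526310348) (nat_lit 327) (nat_lit 5) (nat_lit 336) (nat_lit 5) (nat_lit 337) (nat_lit 5) (nat_lit 603) (nat_lit 554) (nat_lit 403)) (XT.lf (nat_lit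 0) (nat_lit 250762178) (nat_lit 684) (nat_lit 13548503700) (nat_lit 760) (nat_lit 108453549) (nat_lit 318) (nat_lit 5) (nat_lit 327) (nat_lit 5) (nat_lit 328) (nat_lit 5) (nat_lit 604) (nat_lit 554) (nat_lit 402))) (XT.nd (nat_lit 78) (nat_lit 608) (nat_lit 0) (XT.lf (nat_lit 0) (nat_lit 2402949525) (nat_lit 760) (nat_lit 5526602963) (nat_lit 76) (nat_lit 6130731177) (nat_lit 317) (nat_lit 5) (nat_lit 327) (nat_lit 5) (nat_lit 318) (nat_lit 5) (nat_lit 605) (nat_lit 554) (nat_lit 401)) (XT.lf (nat_lit 0) (nat_lit 2788305522) (nat_lit 608) (nat_lit 2181255850) (nat_lit 684) (nat_lit 9246195401) (nat_lit 309) (nat_lit 5) (nat_lit 317) (nat_lit 5) (nat_lit 318) (nat_lit 5) (nat_lit 606) (nat_lit 554) (nat_lit 400)))) (XT.nd (nat_lit 156) (nat_lit 684) (nat_lit 0) (XT.nd (nat_lit 78) (nat_lit 684) (nat_lit 0) (XT.lf (nat_lit 0) (nat_lit 7637195908) (nat_lit 684) (nat_lit 3067351240) (nat_lit 76) (nat_lit 3668798950) (nat_lit 309) (nat_lit 5) (nat_lit 318) (nat_lit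 5) (nat_lit 310) (nat_lit 5) (nat_lit 607) (nat_lit 554) (nat_lit 399)) (XT.lf (nat_lit 0) (nat_lit 5503936833) (nat_lit 684) (nat_lit 4893105737) (nat_lit 760) (nat_lit 4136268008) (nat_lit 300) (nat_lit 5) (nat_lit 309) (nat_lit 5) (nat_lit 310) (nat_lit 5) (nat_lit 608) (nat_lit 554) (nat_lit 398))) (XT.nd (nat_lit 78) (nat_lit 684) (nat_lit 0) (XT.lf (nat_lit 0) (nat_lit 13228319129) (nat_lit 760) (nat_lit 428558051) (nat_lit 76) (nat_lit 1039273053) (nat_lit 300) (nat_lit 5) (nat_lit 310) (nat_lit 5) (nat_lit 301) (nat_lit 5) (nat_lit 609) (nat_lit 554) (nat_lit 397)) (XT.lf (nat_lit 0) (nat_lit 1314045582) (nat_lit 684) (nat_lit 6460822457) (nat_lit 76) (nat_lit 7085685989) (nat_lit 291) (nat_lit 5) (nat_lit 300) (nat_lit 5) (nat_lit 292) (nat_lit 5) (nat_lit 610) (nat_lit 554) (nat_lit 396))))))))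
noncomputable def xc143 : XT := (XT.nd (nat_lit 2262) (nat_lit 6080) (nat_lit 0) (XT.nd (nat_lit 1092) (nat_lit 4636) (nat_lit 0) (XT.nd (nat_lit 546) (nat_lit 2128) (nat_lit 0) (XT.nd (nat_lit 234) (nat_lit 1216) (nat_lit 0) (XT.nd (nat_lit 78) (nat_lit 608) (nat_lit 0) (XT.lf (nat_lit 0) (nat_lit 2390159716) (nat_lit 608) (nat_lit 1749248558) (nat_lit 684) (nat_lit 10888494037) (nat_lit 283) (nat_lit 5) (nat_lit 291) (nat_lit 5) (nat_lit 292) (nat_lit 5) (nat_lit 611) (nat_lit 554) (nat_lit 395)) (XT.nd (nat_lit 78) (nat_lit 608) (nat_lit 0) (XT.lf (nat_lit 0) (nat_lit 7082647583) (nat_lit 684) (nat_lit 3734589851) (nat_lit 76) (nat_lit 4380133241) (nat_lit 283) (nat_lit 5) (nat_lit 292) (nat_lit 5) (nat_lit 284) (nat_lit 5) (nat_lit 612) (nat_lit 554) (nat_lit 394)) (XT.lf (nat_lit 0) (nat_lit 5392267492) (nat_lit 608) (nat_lit 4728470200) (nat_lit 684) (nat_lit 5248771487) (nat_lit 275) (nat_lit 5) (nat_lit 283) (nat_lit 5) (nat_lit 284) (nat_lit 5) (nat_lit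 613) (nat_lit 554) (nat_lit 393)))) (XT.nd (nat_lit 156) (nat_lit 532) (nat_lit 0) (XT.nd (nat_lit 78) (nat_lit 684) (nat_lit 0) (XT.lf (nat_lit 0) (nat_lit 13243932666) (nat_lit 684) (nat_lit 815689562) (nat_lit 76) (nat_lit 1484981847) (nat_lit 275) (nat_lit 5) (nat_lit 284) (nat_lit 5) (nat_lit 276) (nat_lit 5) (nat_lit 614) (nat_lit 554) (nat_lit 392)) (XT.lf (nat_lit 0) (nat_lit 774467145) (nat_lit 684) (nat_lit 7129557266) (nat_lit 76) (nat_lit 7817538379) (nat_lit 266) (nat_lit 5) (nat_lit 275) (nat_lit 5) (nat_lit 267) (nat_lit 5) (nat_lit 615) (nat_lit 554) (nat_lit 391))) (XT.nd (nat_lit 78) (nat_lit 0) (nat_lit 0) (XT.lf (nat_lit 0) (nat_lit 2298452841) (nat_lit 532) (nat_lit 1592059003) (nat_lit 608) (nat_lit 12011040954) (nat_lit 259) (nat_lit 5) (nat_lit 266) (nat_lit 5) (nat_lit 267) (nat_lit 5) (nat_lit 616) (nat_lit 554) (nat_lit 390)) (XT.lf (nat_lit 0) (nat_lit 7138343540) (nat_lit 608) (nat_lit 4117774995) (nat_lit 76) (nat_lit 4827635196)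 (nat_lit 259) (nat_lit 5) (nat_lit 267) (nat_lit 5) (nat_lit 260) (nat_lit 5) (nat_lit 617) (nat_lit 554) (nat_lit 389))))) (XT.nd (nat_lit 234) (nat_lit 988) (nat_lit 0) (XT.nd (nat_lit 78) (nat_lit 608) (nat_lit 0) (XT.lf (nat_lit 0) (nat_lit 5607040378) (nat_lit 532) (nat_lit 4881080520) (nat_lit 608) (nat_lit 5780738441) (nat_lit 252) (nat_lit 5) (nat_lit 259) (nat_lit 5) (nat_lit 260) (nat_lit 5) (nat_lit 618) (nat_lit 554) (nat_lit 388)) (XT.nd (nat_lit 78) (nat_lit 608) (nat_lit 0) (XT.lf (nat_lit 0) (nat_lit 13933366601) (nat_lit 608) (nat_lit 898954644) (nat_lit 76) (nat_lit 1624776789) (nat_lit 252) (nat_lit 5) (nat_lit 260) (nat_lit 5) (nat_lit 253) (nat_lit 5) (nat_lit 619) (nat_lit 554) (nat_lit 387)) (XT.lf (nat_lit 0) (nat_lit 870436335) (nat_lit 608) (nat_lit 7519597325) (nat_lit 76) (nat_lit 8257314737) (nat_lit 244) (nat_lit 5) (nat_lit 252) (nat_lit 5) (nat_lit 245) (nat_lit 5) (nat_lit 620) (nat_lit 554) (nat_lit 386)))) (XT.nd (nat_lit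 156) (nat_lit 456) (nat_lit 0) (XT.nd (nat_lit 78) (nat_lit 0) (nat_lit 0) (XT.lf (nat_lit 0) (nat_lit 2529230121) (nat_lit 532) (nat_lit 1782355175) (nat_lit 608) (nat_lit 12529227429) (nat_lit 237) (nat_lit 5) (nat_lit 244) (nat_lit 5) (nat_lit 245) (nat_lit 5) (nat_lit 621) (nat_lit 554) (nat_lit 385)) (XT.lf (nat_lit 0) (nat_lit 7894986311) (nat_lit 608) (nat_lit 4201857876) (nat_lit 76) (nat_lit 4939833967) (nat_lit 237) (nat_lit 5) (nat_lit 245) (nat_lit 5) (nat_lit 238) (nat_lit 5) (nat_lit 622) (nat_lit 554) (nat_lit 384))) (XT.nd (nat_lit 78) (nat_lit 0) (nat_lit 0) (XT.lf (nat_lit 0) (nat_lit 6166223326) (nat_lit 456) (nat_lit 5426305432) (nat_lit 532) (nat_lit 5643083055) (nat_lit 231) (nat_lit 5) (nat_lit 237) (nat_lit 5) (nat_lit 238) (nat_lit 5) (nat_lit 623) (nat_lit 554) (nat_lit 383)) (XT.lf (nat_lit 0) (nat_lit 15392061880) (nat_lit 532) (nat_lit 661451246) (nat_lit 76) (nat_lit 1384450603) (nat_lit 231) (nat_lit 5) (nat_lit 238) (nat_lit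 5) (nat_lit 232) (nat_lit 5) (nat_lit 624) (nat_lit 554) (nat_lit 382)))))) (XT.nd (nat_lit 546) (nat_lit 2128) (nat_lit 0) (XT.nd (nat_lit 234) (nat_lit 1444) (nat_lit 0) (XT.nd (nat_lit 78) (nat_lit 456) (nat_lit 0) (XT.lf (nat_lit 0) (nat_lit 1694543704) (nat_lit 608) (nat_lit 7616045744) (nat_lit 76) (nat_lit 8331710629) (nat_lit 223) (nat_lit 5) (nat_lit 231) (nat_lit 5) (nat_lit 224) (nat_lit 5) (nat_lit 625) (nat_lit 554) (nat_lit 381)) (XT.nd (nat_lit 78) (nat_lit 0) (nat_lit 0) (XT.lf (nat_lit 0) (nat_lit 3100363458) (nat_lit 456) (nat_lit 2397593769) (nat_lit 532) (nat_lit 12352184742) (nat_lit 217) (nat_lit 5) (nat_lit 223) (nat_lit 5) (nat_lit 224) (nat_lit 5) (nat_lit 626) (nat_lit 554) (nat_lit 380)) (XT.lf (nat_lit 0) (nat_lit 9450101623) (nat_lit 532) (nat_lit 3970170837) (nat_lit 76) (nat_lit 4640415339) (nat_lit 217) (nat_lit 5) (nat_lit 224) (nat_lit 5) (nat_lit 218) (nat_lit 5) (nat_lit 627) (nat_lit 554) (nat_lit 379)))) (XT.nd (nat_lit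 156) (nat_lit 988) (nat_lit 0) (XT.nd (nat_lit 78) (nat_lit 0) (nat_lit 0) (XT.lf (nat_lit 0) (nat_lit 7089545749) (nat_lit 456) (nat_lit 6444829536) (nat_lit 532) (nat_lit 4740007881) (nat_lit 211) (nat_lit 5) (nat_lit 217) (nat_lit 5) (nat_lit 218) (nat_lit 5) (nat_lit 628) (nat_lit 554) (nat_lit 378)) (XT.lf (nat_lit 0) (nat_lit 17722749212) (nat_lit 532) (nat_lit 84726979) (nat_lit 76) (nat_lit 684428290) (nat_lit 211) (nat_lit 5) (nat_lit 218) (nat_lit 5) (nat_lit 212) (nat_lit 5) (nat_lit 629) (nat_lit 554) (nat_lit 377))) (XT.nd (nat_lit 78) (nat_lit 456) (nat_lit 0) (XT.lf (nat_lit 0) (nat_lit 3346460627) (nat_lit 532) (nat_lit 7402733210) (nat_lit 76) (nat_lit 7961989074) (nat_lit 204) (nat_lit 5) (nat_lit 211) (nat_lit 5) (nat_lit 205) (nat_lit 5) (nat_lit 630) (nat_lit 554) (nat_lit 376)) (XT.lf (nat_lit 0) (nat_lit 4031136766) (nat_lit 456) (nat_lit 3521156752) (nat_lit 532) (nat_lit 11382087956) (nat_lit 198) (nat_lit 5) (nat_lit 204) (nat_lit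 5) (nat_lit 205) (nat_lit 5) (nat_lit 631) (nat_lit 554) (nat_lit 375))))) (XT.nd (nat_lit 312) (nat_lit 1216) (nat_lit 0) (XT.nd (nat_lit 156) (nat_lit 532) (nat_lit 0) (XT.nd (nat_lit 78) (nat_lit 380) (nat_lit 0) (XT.lf (nat_lit 0) (nat_lit 11908765469) (nat_lit 532) (nat_lit 3404855606) (nat_lit 76) (nat_lit 3847092799) (nat_lit 198) (nat_lit 5) (nat_lit 205) (nat_lit 5) (nat_lit 199) (nat_lit 5) (nat_lit 632) (nat_lit 554) (nat_lit 374)) (XT.lf (nat_lit 0) (nat_lit 8398069484) (nat_lit 380) (nat_lit 8023819653) (nat_lit 456) (nat_lit 2968293644) (nat_lit 193) (nat_lit 5) (nat_lit 198) (nat_lit 5) (nat_lit 199) (nat_lit 5) (nat_lit 633) (nat_lit 554) (nat_lit 373))) (XT.nd (nat_lit 78) (nat_lit 0) (nat_lit 0) (XT.lf (nat_lit 0) (nat_lit 849025099) (nat_lit 456) (nat_lit 553853225) (nat_lit 532) (nat_lit 18220776731) (nat_lit 186) (nat_lit 5) (nat_lit 192) (nat_lit 5) (nat_lit 193) (nat_lit 5) (nat_lit 634) (nat_lit 554) (nat_lit 372)) (XT.lf (nat_lit 0)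 (nat_lit 5933655038) (nat_lit 532) (nat_lit 6862697006) (nat_lit 76) (nat_lit 7062814075) (nat_lit 186) (nat_lit 5) (nat_lit 193) (nat_lit 5) (nat_lit 187) (nat_lit 5) (nat_lit 635) (nat_lit 554) (nat_lit 371)))) (XT.nd (nat_lit 156) (nat_lit 836) (nat_lit 0) (XT.nd (nat_lit 78) (nat_lit 0) (nat_lit 0) (XT.lf (nat_lit 0) (nat_lit 5341764233) (nat_lit 380) (nat_lit 5243558966) (nat_lit 456) (nat_lit 9513458971) (nat_lit 181) (nat_lit 5) (nat_lit 186) (nat_lit 5) (nat_lit 187) (nat_lit 5) (nat_lit 636) (nat_lit 554) (nat_lit 370)) (XT.lf (nat_lit 0) (nat_lit 15384335708) (nat_lit 456) (nat_lit 2487363017) (nat_lit 76) (nat_lit 2470405874) (nat_lit 181) (nat_lit 5) (nat_lit 187) (nat_lit 5) (nat_lit 182) (nat_lit 5) (nat_lit 637) (nat_lit 554) (nat_lit 369))) (XT.nd (nat_lit 78) (nat_lit 456) (nat_lit 0) (XT.lf (nat_lit 0) (nat_lit 10113685516) (nat_lit 380) (nat_lit 10258170377) (nat_lit 456) (nat_lit 216587309) (nat_lit 176) (nat_lit 5) (nat_lit 181) (nat_lit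 5) (nat_lit 182) (nat_lit 5) (nat_lit 638) (nat_lit 554) (nat_lit 368)) (XT.lf (nat_lit 0) (nat_lit 2147212599) (nat_lit 380) (nat_lit 2434526597) (nat_lit 456) (nat_lit 16256911679) (nat_lit 170) (nat_lit 5) (nat_lit 175) (nat_lit 5) (nat_lit 176) (nat_lit 5) (nat_lit 639) (nat_lit 554) (nat_lit 367))))))) (XT.nd (nat_lit 1170) (nat_lit 2736) (nat_lit 0) (XT.nd (nat_lit 546) (nat_lit 1824) (nat_lit 0) (XT.nd (nat_lit 234) (nat_lit 1140) (nat_lit 0) (XT.nd (nat_lit 78) (nat_lit 380) (nat_lit 0) (XT.lf (nat_lit 0) (nat_lit 9572109736) (nat_lit 456) (nat_lit 5978745007) (nat_lit 76) (nat_lit 5541000031) (nat_lit 170) (nat_lit 5) (nat_lit 176) (nat_lit 5) (nat_lit 171) (nat_lit 5) (nat_lit 640) (nat_lit 554) (nat_lit 366)) (XT.nd (nat_lit 78) (nat_lit 0) (nat_lit 0) (XT.lf (nat_lit 0) (nat_lit 7052820594) (nat_lit 380) (nat_lit 7663746674) (nat_lit 456) (nat_lit 6632470142) (nat_lit 165) (nat_lit 5) (nat_lit 170) (nat_lit 5) (nat_lit 171) (nat_lit 5) (nat_lit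 641) (nat_lit 554) (nat_lit 365)) (XT.lf (nat_lit 0) (nat_lit 19999186969) (nat_lit 456) (nat_lit 1199045609) (nat_lit 76) (nat_lit 412425908) (nat_lit 165) (nat_lit 5) (nat_lit 171) (nat_lit 5) (nat_lit 166) (nat_lit 5) (nat_lit 642) (nat_lit 554) (nat_lit 364)))) (XT.nd (nat_lit 156) (nat_lit 304) (nat_lit 0) (XT.nd (nat_lit 78) (nat_lit 380) (nat_lit 0) (XT.lf (nat_lit 0) (nat_lit 3587632082) (nat_lit 456) (nat_lit 9640142351) (nat_lit 76) (nat_lit 8646807637) (nat_lit 159) (nat_lit 5) (nat_lit 165) (nat_lit 5) (nat_lit 160) (nat_lit 5) (nat_lit 643) (nat_lit 554) (nat_lit 363)) (XT.lf (nat_lit 0) (nat_lit 3837229209) (nat_lit 380) (nat_lit 5057527836) (nat_lit 456) (nat_lit 13248301939) (nat_lit 154) (nat_lit 5) (nat_lit 159) (nat_lit 5) (nat_lit 160) (nat_lit 5) (nat_lit 644) (nat_lit 554) (nat_lit 362))) (XT.nd (nat_lit 78) (nat_lit 304) (nat_lit 0) (XT.lf (nat_lit 0) (nat_lit 14387041020) (nat_lit 456) (nat_lit 4734128087) (nat_lit 76) (nat_lit 3294156226)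 (nat_lit 154) (nat_lit 5) (nat_lit 160) (nat_lit 5) (nat_lit 155) (nat_lit 5) (nat_lit 645) (nat_lit 554) (nat_lit 361)) (XT.lf (nat_lit 0) (nat_lit 9184559312) (nat_lit 304) (nat_lit 10890508647) (nat_lit 380) (nat_lit 2616251329) (nat_lit 150) (nat_lit 5) (nat_lit 154) (nat_lit 5) (nat_lit 155) (nat_lit 5) (nat_lit 646) (nat_lit 554) (nat_lit 360))))) (XT.nd (nat_lit 312) (nat_lit 1064) (nat_lit 0) (XT.nd (nat_lit 156) (nat_lit 304) (nat_lit 0) (XT.nd (nat_lit 78) (nat_lit 0) (nat_lit 0) (XT.lf (nat_lit 0) (nat_lit 448985524) (nat_lit 380) (nat_lit 2444635971) (nat_lit 456) (nat_lit 20078281026) (nat_lit 144) (nat_lit 5) (nat_lit 149) (nat_lit 5) (nat_lit 150) (nat_lit 5) (nat_lit 647) (nat_lit 554) (nat_lit 359)) (XT.lf (nat_lit 0) (nat_lit 8602823545) (nat_lit 456) (nat_lit 8458811454) (nat_lit 76) (nat_lit 6193633493) (nat_lit 144) (nat_lit 5) (nat_lit 150) (nat_lit 5) (nat_lit 145) (nat_lit 5) (nat_lit 648) (nat_lit 554) (nat_lit 358))) (XT.nd (nat_lit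 78) (nat_lit 0) (nat_lit 0) (XT.lf (nat_lit 0) (nat_lit 5937003129) (nat_lit 304) (nat_lit 8536915835) (nat_lit 380) (nat_lit 9069428840) (nat_lit 140) (nat_lit 5) (nat_lit 144) (nat_lit 5) (nat_lit 145) (nat_lit 5) (nat_lit 649) (nat_lit 554) (nat_lit 357)) (XT.lf (nat_lit 0) (nat_lit 20513613670) (nat_lit 380) (nat_lit 3113348090) (nat_lit 76) (nat_lit 209203595) (nat_lit 140) (nat_lit 5) (nat_lit 145) (nat_lit 5) (nat_lit 141) (nat_lit 5) (nat_lit 650) (nat_lit 554) (nat_lit 356)))) (XT.nd (nat_lit 156) (nat_lit 304) (nat_lit 0) (XT.nd (nat_lit 78) (nat_lit 304) (nat_lit 0) (XT.lf (nat_lit 0) (nat_lit 2632806305) (nat_lit 456) (nat_lit 12393549594) (nat_lit 76) (nat_lit 9105616899) (nat_lit 134) (nat_lit 5) (nat_lit 140) (nat_lit 5) (nat_lit 135) (nat_lit 5) (nat_lit 651) (nat_lit 554) (nat_lit 355)) (XT.lf (nat_lit 0) (nat_lit 2495659338) (nat_lit 304) (nat_lit 6197564272) (nat_lit 380) (nat_lit 15739424905) (nat_lit 130) (nat_lit 5) (nat_lit 134) (nat_lit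 5) (nat_lit 135) (nat_lit 5) (nat_lit 652) (nat_lit 554) (nat_lit 354))) (XT.nd (nat_lit 78) (nat_lit 304) (nat_lit 0) (XT.lf (nat_lit 0) (nat_lit 14969997901) (nat_lit 380) (nat_lit 6916923520) (nat_lit 76) (nat_lit 2850513541) (nat_lit 130) (nat_lit 5) (nat_lit 135) (nat_lit 5) (nat_lit 131) (nat_lit 5) (nat_lit 653) (nat_lit 554) (nat_lit 353)) (XT.lf (nat_lit 0) (nat_lit 8462587855) (nat_lit 304) (nat_lit 12999041851) (nat_lit 380) (nat_lit 3584901173) (nat_lit 126) (nat_lit 5) (nat_lit 130) (nat_lit 5) (nat_lit 131) (nat_lit 5) (nat_lit 654) (nat_lit 554) (nat_lit 352)))))) (XT.nd (nat_lit 546) (nat_lit 1444) (nat_lit 0) (XT.nd (nat_lit 234) (nat_lit 608) (nat_lit 0) (XT.nd (nat_lit 78) (nat_lit 608) (nat_lit 0) (XT.lf (nat_lit 0) (nat_lit 2725669175) (nat_lit 380) (nat_lit 1146323315) (nat_lit 76) (nat_lit 21488661556) (nat_lit 125) (nat_lit 5) (nat_lit 130) (nat_lit 5) (nat_lit 126) (nat_lit 5) (nat_lit 655) (nat_lit 554) (nat_lit 351)) (XT.nd (nat_lit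 78) (nat_lit 304) (nat_lit 0) (XT.lf (nat_lit 0) (nat_lit 9239870172) (nat_lit 380) (nat_lit 10955694368) (nat_lit 76) (nat_lit 5482512964) (nat_lit 121) (nat_lit 5) (nat_lit 126) (nat_lit 5) (nat_lit 122) (nat_lit 5) (nat_lit 656) (nat_lit 554) (nat_lit 350)) (XT.lf (nat_lit 0) (nat_lit 4950809197) (nat_lit 304) (nat_lit 10992588032) (nat_lit 380) (nat_lit 10057271530) (nat_lit 117) (nat_lit 5) (nat_lit 121) (nat_lit 5) (nat_lit 122) (nat_lit 5) (nat_lit 657) (nat_lit 554) (nat_lit 349)))) (XT.nd (nat_lit 156) (nat_lit 304) (nat_lit 0) (XT.nd (nat_lit 78) (nat_lit 304) (nat_lit 0) (XT.lf (nat_lit 0) (nat_lit 21313285654) (nat_lit 304) (nat_lit 1534798010) (nat_lit 380) (nat_lit 3480286566) (nat_lit 117) (nat_lit 5) (nat_lit 121) (nat_lit 5) (nat_lit 122) (nat_lit 5) (nat_lit 658) (nat_lit 554) (nat_lit 348)) (XT.lf (nat_lit 0) (nat_lit 3307228003) (nat_lit 304) (nat_lit 15254944016) (nat_lit 76) (nat_lit 8097608095) (nat_lit 113) (nat_lit 5) (nat_lit 117)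 (nat_lit 5) (nat_lit 114) (nat_lit 5) (nat_lit 659) (nat_lit 554) (nat_lit 347))) (XT.nd (nat_lit 78) (nat_lit 0) (nat_lit 0) (XT.lf (nat_lit 0) (nat_lit 1195667572) (nat_lit 304) (nat_lit 9033755654) (nat_lit 380) (nat_lit 16767024405) (nat_lit 109) (nat_lit 5) (nat_lit 113) (nat_lit 5) (nat_lit 114) (nat_lit 5) (nat_lit 660) (nat_lit 554) (nat_lit 346)) (XT.lf (nat_lit 0) (nat_lit 17391269923) (nat_lit 380) (nat_lit 9171449484) (nat_lit 76) (nat_lit 775105093) (nat_lit 109) (nat_lit 5) (nat_lit 114) (nat_lit 5) (nat_lit 110) (nat_lit 5) (nat_lit 661) (nat_lit 554) (nat_lit 345))))) (XT.nd (nat_lit 312) (nat_lit 608) (nat_lit 0) (XT.nd (nat_lit 156) (nat_lit 532) (nat_lit 0) (XT.nd (nat_lit 78) (nat_lit 76) (nat_lit 0) (XT.lf (nat_lit 0) (nat_lit 7822849752) (nat_lit 228) (nat_lit 16977956388) (nat_lit 304) (nat_lit 2883133865) (nat_lit 106) (nat_lit 5) (nat_lit 109) (nat_lit 5) (nat_lit 110) (nat_lit 5) (nat_lit 662) (nat_lit 554) (nat_lit 344)) (XT.lf (nat_lit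 0) (nat_lit 4320678633) (nat_lit 304) (nat_lit 2793259894) (nat_lit 76) (nat_lit 20921362242) (nat_lit 105) (nat_lit 5) (nat_lit 109) (nat_lit 5) (nat_lit 106) (nat_lit 5) (nat_lit 663) (nat_lit 554) (nat_lit 343))) (XT.nd (nat_lit 78) (nat_lit 228) (nat_lit 0) (XT.lf (nat_lit 0) (nat_lit 11739803256) (nat_lit 380) (nat_lit 13630896697) (nat_lit 76) (nat_lit 3020410966) (nat_lit 101) (nat_lit 5) (nat_lit 106) (nat_lit 5) (nat_lit 102) (nat_lit 5) (nat_lit 664) (nat_lit 554) (nat_lit 342)) (XT.lf (nat_lit 0) (nat_lit 3943213427) (nat_lit 228) (nat_lit 15449674080) (nat_lit 304) (nat_lit 9359438363) (nat_lit 98) (nat_lit 5) (nat_lit 101) (nat_lit 5) (nat_lit 102) (nat_lit 5) (nat_lit 665) (nat_lit 554) (nat_lit 341)))) (XT.nd (nat_lit 156) (nat_lit 228) (nat_lit 0) (XT.nd (nat_lit 78) (nat_lit 380) (nat_lit 0) (XT.lf (nat_lit 0) (nat_lit 22043418392) (nat_lit 228) (nat_lit 5241131967) (nat_lit 304) (nat_lit 1834504558) (nat_lit 98) (nat_lit 5) (nat_lit 101)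 (nat_lit 5) (nat_lit 102) (nat_lit 5) (nat_lit 666) (nat_lit 554) (nat_lit 340)) (XT.lf (nat_lit 0) (nat_lit 5864861850) (nat_lit 380) (nat_lit 18415052182) (nat_lit 76) (nat_lit 5210435405) (nat_lit 93) (nat_lit 5) (nat_lit 98) (nat_lit 5) (nat_lit 94) (nat_lit 5) (nat_lit 667) (nat_lit 554) (nat_lit 339))) (XT.nd (nat_lit 78) (nat_lit 228) (nat_lit 0) (XT.lf (nat_lit 0) (nat_lit 13770327637) (nat_lit 380) (nat_lit 240191842) (nat_lit 76) (nat_lit 15856774454) (nat_lit 93) (nat_lit 5) (nat_lit 98) (nat_lit 5) (nat_lit 94) (nat_lit 5) (nat_lit 668) (nat_lit 554) (nat_lit 338)) (XT.lf (nat_lit 0) (nat_lit 18531344403) (nat_lit 228) (nat_lit 3417138795) (nat_lit 304) (nat_lit 8301002638) (nat_lit 90) (nat_lit 5) (nat_lit 93) (nat_lit 5) (nat_lit 94) (nat_lit 5) (nat_lit 669) (nat_lit 554) (nat_lit 337))))))))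
noncomputable def xc144 : XT := (XT.nd (nat_lit 2262) (nat_lit 13452) (nat_lit 0) (XT.nd (nat_lit 1092) (nat_lit 6460) (nat_lit 0) (XT.nd (nat_lit 546) (nat_lit 1368) (nat_lit 0) (XT.nd (nat_lit 234) (nat_lit 0) (nat_lit 76) (XT.nd (nat_lit 78) (nat_lit 0) (nat_lit 0) (XT.lf (nat_lit 0) (nat_lit 1134459402) (nat_lit 1596) (nat_lit 1628582641) (nat_lit 1596) (nat_lit 1628582641) (nat_lit 563) (nat_lit 3) (nat_lit 584) (nat_lit 3) (nat_lit 584) (nat_lit 5) (nat_lit 555) (nat_lit 555) (nat_lit 450)) (XT.nd (nat_lit 78) (nat_lit 0) (nat_lit 76) (XT.lf (nat_lit 76) (nat_lit 1116608393) (nat_lit 0) (nat_lit 2140656565) (nat_lit 1596) (nat_lit 5594438289) (nat_lit 564) (nat_lit 5) (nat_lit 563) (nat_lit 3) (nat_lit 584) (nat_lit 5) (nat_lit 556) (nat_lit 555) (nat_lit 449)) (XT.lf (nat_lit 0) (nat_lit 4270757262) (nat_lit 1520) (nat_lit 3321323960) (nat_lit 1596) (nat_lit 1329339116) (nat_lit 564) (nat_lit 5) (nat_lit 584) (nat_lit 5) (nat_lit 585) (nat_lit 5) (nat_lit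 557) (nat_lit 555) (nat_lit 448)))) (XT.nd (nat_lit 156) (nat_lit 0) (nat_lit 76) (XT.nd (nat_lit 78) (nat_lit 0) (nat_lit 0) (XT.lf (nat_lit 76) (nat_lit 1168559989) (nat_lit 0) (nat_lit 4133071741) (nat_lit 1596) (nat_lit 3690959477) (nat_lit 565) (nat_lit 5) (nat_lit 564) (nat_lit 5) (nat_lit 585) (nat_lit 5) (nat_lit 558) (nat_lit 555) (nat_lit 447)) (XT.lf (nat_lit 76) (nat_lit 5780038911) (nat_lit 0) (nat_lit 571118827) (nat_lit 1596) (nat_lit 2714068726) (nat_lit 565) (nat_lit 5) (nat_lit 564) (nat_lit 5) (nat_lit 585) (nat_lit 5) (nat_lit 559) (nat_lit 555) (nat_lit 446))) (XT.nd (nat_lit 78) (nat_lit 0) (nat_lit 0) (XT.lf (nat_lit 76) (nat_lit 1328462782) (nat_lit 0) (nat_lit 6098009746) (nat_lit 1596) (nat_lit 1712747551) (nat_lit 566) (nat_lit 5) (nat_lit 565) (nat_lit 5) (nat_lit 586) (nat_lit 5) (nat_lit 560) (nat_lit 555) (nat_lit 445)) (XT.lf (nat_lit 76) (nat_lit 6061661874) (nat_lit 0) (nat_lit 2464104137) (nat_lit 1596) (nat_lit 688879693)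 (nat_lit 566) (nat_lit 5) (nat_lit 565) (nat_lit 5) (nat_lit 586) (nat_lit 5) (nat_lit 561) (nat_lit 555) (nat_lit 444))))) (XT.nd (nat_lit 234) (nat_lit 0) (nat_lit 76) (XT.nd (nat_lit 78) (nat_lit 0) (nat_lit 0) (XT.lf (nat_lit 0) (nat_lit 346399960) (nat_lit 1596) (nat_lit 7696805087) (nat_lit 1672) (nat_lit 1248418234) (nat_lit 545) (nat_lit 5) (nat_lit 566) (nat_lit 5) (nat_lit 567) (nat_lit 5) (nat_lit 562) (nat_lit 555) (nat_lit 443)) (XT.nd (nat_lit 78) (nat_lit 0) (nat_lit 0) (XT.lf (nat_lit 0) (nat_lit 1408185636) (nat_lit 1596) (nat_lit 2924316299) (nat_lit 1672) (nat_lit 5037248409) (nat_lit 545) (nat_lit 5) (nat_lit 566) (nat_lit 5) (nat_lit 567) (nat_lit 5) (nat_lit 563) (nat_lit 555) (nat_lit 442)) (XT.lf (nat_lit 76) (nat_lit 1955649358) (nat_lit 0) (nat_lit 526097230) (nat_lit 1672) (nat_lit 6967884034) (nat_lit 546) (nat_lit 5) (nat_lit 545) (nat_lit 5) (nat_lit 567) (nat_lit 5) (nat_lit 564) (nat_lit 555) (nat_lit 441)))) (XT.nd (nat_lit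 156) (nat_lit 0) (nat_lit 76) (XT.nd (nat_lit 78) (nat_lit 0) (nat_lit 0) (XT.lf (nat_lit 0) (nat_lit 3596567177) (nat_lit 1596) (nat_lit 2593807390) (nat_lit 1672) (nat_lit 3340339607) (nat_lit 546) (nat_lit 5) (nat_lit 567) (nat_lit 5) (nat_lit 568) (nat_lit 5) (nat_lit 565) (nat_lit 555) (nat_lit 440)) (XT.lf (nat_lit 76) (nat_lit 2418861243) (nat_lit 0) (nat_lit 2312681043) (nat_lit 1672) (nat_lit 4881921358) (nat_lit 547) (nat_lit 5) (nat_lit 546) (nat_lit 5) (nat_lit 568) (nat_lit 5) (nat_lit 566) (nat_lit 555) (nat_lit 439))) (XT.nd (nat_lit 78) (nat_lit 0) (nat_lit 0) (XT.lf (nat_lit 0) (nat_lit 5896449032) (nat_lit 1596) (nat_lit 2155483962) (nat_lit 1672) (nat_lit 1645791849) (nat_lit 547) (nat_lit 5) (nat_lit 568) (nat_lit 5) (nat_lit 569) (nat_lit 5) (nat_lit 567) (nat_lit 555) (nat_lit 438)) (XT.lf (nat_lit 76) (nat_lit 2994524745) (nat_lit 0) (nat_lit 4104344652) (nat_lit 1672) (nat_lit 2684518912) (nat_lit 548) (nat_lit 5) (nat_lit 547) (nat_lit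 5) (nat_lit 569) (nat_lit 5) (nat_lit 568) (nat_lit 555) (nat_lit 437)))))) (XT.nd (nat_lit 546) (nat_lit 5016) (nat_lit 0) (XT.nd (nat_lit 234) (nat_lit 0) (nat_lit 76) (XT.nd (nat_lit 78) (nat_lit 1596) (nat_lit 0) (XT.lf (nat_lit 76) (nat_lit 8262992836) (nat_lit 0) (nat_lit 56580508) (nat_lit 1672) (nat_lit 1551308325) (nat_lit 548) (nat_lit 5) (nat_lit 547) (nat_lit 5) (nat_lit 569) (nat_lit 5) (nat_lit 569) (nat_lit 555) (nat_lit 436)) (XT.nd (nat_lit 78) (nat_lit 1672) (nat_lit 0) (XT.lf (nat_lit 76) (nat_lit 3684663081) (nat_lit 0) (nat_lit 5910599172) (nat_lit 1672) (nat_lit 364252527) (nat_lit 549) (nat_lit 5) (nat_lit 548) (nat_lit 5) (nat_lit 570) (nat_lit 5) (nat_lit 570) (nat_lit 555) (nat_lit 435)) (XT.lf (nat_lit 0) (nat_lit 827054202) (nat_lit 1672) (nat_lit 964884560) (nat_lit 1748) (nat_lit 8258040869) (nat_lit 526) (nat_lit 5) (nat_lit 548) (nat_lit 5) (nat_lit 549) (nat_lit 5) (nat_lit 571) (nat_lit 555) (nat_lit 434)))) (XT.nd (nat_lit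 156) (nat_lit 0) (nat_lit 76) (XT.nd (nat_lit 78) (nat_lit 0) (nat_lit 0) (XT.lf (nat_lit 0) (nat_lit 2063139276) (nat_lit 1672) (nat_lit 5663906952) (nat_lit 1748) (nat_lit 2414644031) (nat_lit 527) (nat_lit 5) (nat_lit 549) (nat_lit 5) (nat_lit 550) (nat_lit 5) (nat_lit 572) (nat_lit 555) (nat_lit 433)) (XT.lf (nat_lit 0) (nat_lit 3323414157) (nat_lit 1672) (nat_lit 218777257) (nat_lit 1748) (nat_lit 6693055527) (nat_lit 527) (nat_lit 5) (nat_lit 549) (nat_lit 5) (nat_lit 550) (nat_lit 5) (nat_lit 573) (nat_lit 555) (nat_lit 432))) (XT.nd (nat_lit 78) (nat_lit 0) (nat_lit 0) (XT.lf (nat_lit 0) (nat_lit 4630336010) (nat_lit 1672) (nat_lit 4943219507) (nat_lit 1748) (nat_lit 756691589) (nat_lit 528) (nat_lit 5) (nat_lit 550) (nat_lit 5) (nat_lit 551) (nat_lit 5) (nat_lit 574) (nat_lit 555) (nat_lit 431)) (XT.lf (nat_lit 76) (nat_lit 651702879) (nat_lit 0) (nat_lit 5322618258) (nat_lit 1748) (nat_lit 4452608795) (nat_lit 529) (nat_lit 5) (nat_lit 528) (nat_lit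 5) (nat_lit 551) (nat_lit 5) (nat_lit 575) (nat_lit 555) (nat_lit 430))))) (XT.nd (nat_lit 312) (nat_lit 3572) (nat_lit 0) (XT.nd (nat_lit 156) (nat_lit 1596) (nat_lit 0) (XT.nd (nat_lit 78) (nat_lit 0) (nat_lit 76) (XT.lf (nat_lit 76) (nat_lit 6411450994) (nat_lit 0) (nat_lit 948930357) (nat_lit 1748) (nat_lit 3164862290) (nat_lit 529) (nat_lit 5) (nat_lit 528) (nat_lit 5) (nat_lit 551) (nat_lit 5) (nat_lit 576) (nat_lit 555) (nat_lit 429)) (XT.lf (nat_lit 76) (nat_lit 1645465602) (nat_lit 0) (nat_lit 7144585415) (nat_lit 1748) (nat_lit 1835155953) (nat_lit 530) (nat_lit 5) (nat_lit 529) (nat_lit 5) (nat_lit 552) (nat_lit 5) (nat_lit 577) (nat_lit 555) (nat_lit 428))) (XT.nd (nat_lit 78) (nat_lit 1672) (nat_lit 0) (XT.lf (nat_lit 76) (nat_lit 7555216352) (nat_lit 0) (nat_lit 2709601066) (nat_lit 1748) (nat_lit 462023169) (nat_lit 530) (nat_lit 5) (nat_lit 529) (nat_lit 5) (nat_lit 552) (nat_lit 5) (nat_lit 578) (nat_lit 555) (nat_lit 427)) (XT.lf (nat_lit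 0) (nat_lit 939078560) (nat_lit 1748) (nat_lit 8073492033) (nat_lit 76) (nat_lit 1817559138) (nat_lit 507) (nat_lit 5) (nat_lit 530) (nat_lit 5) (nat_lit 508) (nat_lit 5) (nat_lit 579) (nat_lit 555) (nat_lit 426)))) (XT.nd (nat_lit 156) (nat_lit 1824) (nat_lit 0) (XT.nd (nat_lit 78) (nat_lit 1748) (nat_lit 0) (XT.lf (nat_lit 0) (nat_lit 2384535407) (nat_lit 1748) (nat_lit 2124052816) (nat_lit 76) (nat_lit 6426385990) (nat_lit 507) (nat_lit 5) (nat_lit 530) (nat_lit 5) (nat_lit 508) (nat_lit 5) (nat_lit 580) (nat_lit 555) (nat_lit 425)) (XT.lf (nat_lit 0) (nat_lit 3868977058) (nat_lit 1824) (nat_lit 7059890188) (nat_lit 76) (nat_lit 112847831) (nat_lit 484) (nat_lit 5) (nat_lit 508) (nat_lit 5) (nat_lit 485) (nat_lit 5) (nat_lit 581) (nat_lit 555) (nat_lit 424))) (XT.nd (nat_lit 78) (nat_lit 1824) (nat_lit 0) (XT.lf (nat_lit 0) (nat_lit 5411038183) (nat_lit 1824) (nat_lit 955921184) (nat_lit 76) (nat_lit 4783073766) (nat_lit 484) (nat_lit 5) (nat_lit 508) (nat_lit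 5) (nat_lit 485) (nat_lit 5) (nat_lit 582) (nat_lit 555) (nat_lit 423)) (XT.lf (nat_lit 0) (nat_lit 5325983186) (nat_lit 1824) (nat_lit 1676580819) (nat_lit 1900) (nat_lit 4257582040) (nat_lit 460) (nat_lit 5) (nat_lit 484) (nat_lit 5) (nat_lit 485) (nat_lit 5) (nat_lit 583) (nat_lit 555) (nat_lit 422))))))) (XT.nd (nat_lit 1092) (nat_lit 6308) (nat_lit 0) (XT.nd (nat_lit 546) (nat_lit 3344) (nat_lit 0) (XT.nd (nat_lit 234) (nat_lit 1748) (nat_lit 0) (XT.nd (nat_lit 78) (nat_lit 988) (nat_lit 0) (XT.lf (nat_lit 0) (nat_lit 344215134) (nat_lit 1064) (nat_lit 8294852081) (nat_lit 1140) (nat_lit 2733132013) (nat_lit 446) (nat_lit 5) (nat_lit 460) (nat_lit 5) (nat_lit 461) (nat_lit 5) (nat_lit 584) (nat_lit 555) (nat_lit 421)) (XT.nd (nat_lit 78) (nat_lit 988) (nat_lit 0) (XT.lf (nat_lit 0) (nat_lit 6803212037) (nat_lit 1064) (nat_lit 3540434577) (nat_lit 1140) (nat_lit 1142140868) (nat_lit 446) (nat_lit 5) (nat_lit 460) (nat_lit 5) (nat_lit 461) (nat_lit 5) (nat_lit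 585) (nat_lit 555) (nat_lit 420)) (XT.lf (nat_lit 0) (nat_lit 479329966) (nat_lit 988) (nat_lit 9814151332) (nat_lit 76) (nat_lit 1308005401) (nat_lit 433) (nat_lit 5) (nat_lit 446) (nat_lit 5) (nat_lit 434) (nat_lit 5) (nat_lit 586) (nat_lit 555) (nat_lit 419)))) (XT.nd (nat_lit 156) (nat_lit 836) (nat_lit 0) (XT.nd (nat_lit 78) (nat_lit 912) (nat_lit 0) (XT.lf (nat_lit 0) (nat_lit 2157942192) (nat_lit 988) (nat_lit 3314253660) (nat_lit 76) (nat_lit 6246353828) (nat_lit 433) (nat_lit 5) (nat_lit 446) (nat_lit 5) (nat_lit 434) (nat_lit 5) (nat_lit 587) (nat_lit 555) (nat_lit 418)) (XT.lf (nat_lit 0) (nat_lit 3345517437) (nat_lit 912) (nat_lit 531540069) (nat_lit 988) (nat_lit 7960758656) (nat_lit 421) (nat_lit 5) (nat_lit 433) (nat_lit 5) (nat_lit 434) (nat_lit 5) (nat_lit 588) (nat_lit 555) (nat_lit 417))) (XT.nd (nat_lit 78) (nat_lit 836) (nat_lit 0) (XT.lf (nat_lit 0) (nat_lit 5667624915) (nat_lit 988) (nat_lit 1819235935) (nat_lit 76) (nat_lit 4471866572)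 (nat_lit 421) (nat_lit 5) (nat_lit 434) (nat_lit 5) (nat_lit 422) (nat_lit 5) (nat_lit 589) (nat_lit 555) (nat_lit 416)) (XT.lf (nat_lit 0) (nat_lit 5035886541) (nat_lit 836) (nat_lit 2480033234) (nat_lit 912) (nat_lit 4565699633) (nat_lit 410) (nat_lit 5) (nat_lit 421) (nat_lit 5) (nat_lit 422) (nat_lit 5) (nat_lit 590) (nat_lit 555) (nat_lit 415))))) (XT.nd (nat_lit 234) (nat_lit 1596) (nat_lit 0) (XT.nd (nat_lit 78) (nat_lit 1748) (nat_lit 0) (XT.lf (nat_lit 0) (nat_lit 9416417185) (nat_lit 912) (nat_lit 185211154) (nat_lit 76) (nat_lit 2605036971) (nat_lit 410) (nat_lit 5) (nat_lit 422) (nat_lit 5) (nat_lit 411) (nat_lit 5) (nat_lit 591) (nat_lit 555) (nat_lit 414)) (XT.nd (nat_lit 78) (nat_lit 912) (nat_lit 0) (XT.lf (nat_lit 0) (nat_lit 6872385241) (nat_lit 836) (nat_lit 4529752069) (nat_lit 912) (nat_lit 931131359) (nat_lit 399) (nat_lit 5) (nat_lit 410) (nat_lit 5) (nat_lit 411) (nat_lit 5) (nat_lit 592) (nat_lit 555) (nat_lit 413)) (XT.lf (nat_lit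 0) (nat_lit 954783580) (nat_lit 912) (nat_lit 10854418342) (nat_lit 76) (nat_lit 653032121) (nat_lit 387) (nat_lit 5) (nat_lit 399) (nat_lit 5) (nat_lit 388) (nat_lit 5) (nat_lit 593) (nat_lit 555) (nat_lit 412)))) (XT.nd (nat_lit 156) (nat_lit 760) (nat_lit 0) (XT.nd (nat_lit 78) (nat_lit 836) (nat_lit 0) (XT.lf (nat_lit 0) (nat_lit 2919284132) (nat_lit 912) (nat_lit 3751655751) (nat_lit 76) (nat_lit 5921649792) (nat_lit 387) (nat_lit 5) (nat_lit 399) (nat_lit 5) (nat_lit 388) (nat_lit 5) (nat_lit 594) (nat_lit 555) (nat_lit 411)) (XT.lf (nat_lit 0) (nat_lit 3525562254) (nat_lit 836) (nat_lit 1407105731) (nat_lit 912) (nat_lit 7792693301) (nat_lit 376) (nat_lit 5) (nat_lit 387) (nat_lit 5) (nat_lit 388) (nat_lit 5) (nat_lit 595) (nat_lit 555) (nat_lit 410))) (XT.nd (nat_lit 78) (nat_lit 760) (nat_lit 0) (XT.lf (nat_lit 0) (nat_lit 7024256226) (nat_lit 912) (nat_lit 1901002580) (nat_lit 76) (nat_lit 3934771507) (nat_lit 376) (nat_lit 5) (nat_lit 388) (nat_lit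 5) (nat_lit 377) (nat_lit 5) (nat_lit 596) (nat_lit 555) (nat_lit 409)) (XT.lf (nat_lit 0) (nat_lit 5594086938) (nat_lit 760) (nat_lit 3596356275) (nat_lit 836) (nat_lit 3806294872) (nat_lit 366) (nat_lit 5) (nat_lit 376) (nat_lit 5) (nat_lit 377) (nat_lit 5) (nat_lit 597) (nat_lit 555) (nat_lit 408)))))) (XT.nd (nat_lit 546) (nat_lit 3344) (nat_lit 0) (XT.nd (nat_lit 234) (nat_lit 1444) (nat_lit 0) (XT.nd (nat_lit 78) (nat_lit 760) (nat_lit 0) (XT.lf (nat_lit 0) (nat_lit 104375366) (nat_lit 760) (nat_lit 11308323918) (nat_lit 836) (nat_lit 1723226513) (nat_lit 356) (nat_lit 5) (nat_lit 366) (nat_lit 5) (nat_lit 367) (nat_lit 5) (nat_lit 598) (nat_lit 555) (nat_lit 407)) (XT.nd (nat_lit 78) (nat_lit 684) (nat_lit 0) (XT.lf (nat_lit 0) (nat_lit 457420560) (nat_lit 836) (nat_lit 5455736622) (nat_lit 76) (nat_lit 7363464946) (nat_lit 355) (nat_lit 5) (nat_lit 366) (nat_lit 5) (nat_lit 356) (nat_lit 5) (nat_lit 599) (nat_lit 555) (nat_lit 406)) (XT.lf (nat_lit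 0) (nat_lit 2276342444) (nat_lit 684) (nat_lit 384674580) (nat_lit 760) (nat_lit 10758839994) (nat_lit 346) (nat_lit 5) (nat_lit 355) (nat_lit 5) (nat_lit 356) (nat_lit 5) (nat_lit 600) (nat_lit 555) (nat_lit 405)))) (XT.nd (nat_lit 156) (nat_lit 684) (nat_lit 0) (XT.nd (nat_lit 78) (nat_lit 760) (nat_lit 0) (XT.lf (nat_lit 0) (nat_lit 4967408751) (nat_lit 760) (nat_lit 3376404665) (nat_lit 76) (nat_lit 5220969359) (nat_lit 346) (nat_lit 5) (nat_lit 356) (nat_lit 5) (nat_lit 347) (nat_lit 5) (nat_lit 601) (nat_lit 555) (nat_lit 404)) (XT.lf (nat_lit 0) (nat_lit 4590131748) (nat_lit 760) (nat_lit 2750141463) (nat_lit 836) (nat_lit 6371927565) (nat_lit 336) (nat_lit 5) (nat_lit 346) (nat_lit 5) (nat_lit 347) (nat_lit 5) (nat_lit 602) (nat_lit 555) (nat_lit 403))) (XT.nd (nat_lit 78) (nat_lit 684) (nat_lit 0) (XT.lf (nat_lit 0) (nat_lit 9790723447) (nat_lit 836) (nat_lit 1133392070) (nat_lit 76) (nat_lit 2937849663) (nat_lit 336) (nat_lit 5) (nat_lit 347) (nat_lit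 5) (nat_lit 337) (nat_lit 5) (nat_lit 603) (nat_lit 555) (nat_lit 402)) (XT.lf (nat_lit 0) (nat_lit 7076213605) (nat_lit 684) (nat_lit 5266490650) (nat_lit 760) (nat_lit 1670970787) (nat_lit 327) (nat_lit 5) (nat_lit 336) (nat_lit 5) (nat_lit 337) (nat_lit 5) (nat_lit 604) (nat_lit 555) (nat_lit 401))))) (XT.nd (nat_lit 312) (nat_lit 1976) (nat_lit 0) (XT.nd (nat_lit 156) (nat_lit 608) (nat_lit 0) (XT.nd (nat_lit 78) (nat_lit 0) (nat_lit 0) (XT.lf (nat_lit 0) (nat_lit 775009769) (nat_lit 760) (nat_lit 12876132580) (nat_lit 76) (nat_lit 517018421) (nat_lit 317) (nat_lit 5) (nat_lit 327) (nat_lit 5) (nat_lit 318) (nat_lit 5) (nat_lit 605) (nat_lit 555) (nat_lit 400)) (XT.lf (nat_lit 0) (nat_lit 3317853176) (nat_lit 760) (nat_lit 4604541318) (nat_lit 76) (nat_lit 6401715031) (nat_lit 317) (nat_lit 5) (nat_lit 327) (nat_lit 5) (nat_lit 318) (nat_lit 5) (nat_lit 606) (nat_lit 555) (nat_lit 399))) (XT.nd (nat_lit 78) (nat_lit 0) (nat_lit 0) (XT.lf (nat_lit 0) (nat_lit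 3869871958) (nat_lit 608) (nat_lit 2055588525) (nat_lit 684) (nat_lit 8557439189) (nat_lit 309) (nat_lit 5) (nat_lit 317) (nat_lit 5) (nat_lit 318) (nat_lit 5) (nat_lit 607) (nat_lit 555) (nat_lit 398)) (XT.lf (nat_lit 0) (nat_lit 8630731044) (nat_lit 684) (nat_lit 2107253752) (nat_lit 76) (nat_lit 3905971146) (nat_lit 309) (nat_lit 5) (nat_lit 318) (nat_lit 5) (nat_lit 310) (nat_lit 5) (nat_lit 608) (nat_lit 555) (nat_lit 397)))) (XT.nd (nat_lit 156) (nat_lit 684) (nat_lit 0) (XT.nd (nat_lit 78) (nat_lit 608) (nat_lit 0) (XT.lf (nat_lit 0) (nat_lit 6628740053) (nat_lit 684) (nat_lit 4807136749) (nat_lit 760) (nat_lit 3371441676) (nat_lit 300) (nat_lit 5) (nat_lit 309) (nat_lit 5) (nat_lit 310) (nat_lit 5) (nat_lit 609) (nat_lit 555) (nat_lit 396)) (XT.lf (nat_lit 0) (nat_lit 580473251) (nat_lit 608) (nat_lit 13731952580) (nat_lit 684) (nat_lit 661216948) (nat_lit 292) (nat_lit 5) (nat_lit 300) (nat_lit 5) (nat_lit 301) (nat_lit 5) (nat_lit 610) (nat_lit 555)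 (nat_lit 395))) (XT.nd (nat_lit 78) (nat_lit 608) (nat_lit 0) (XT.lf (nat_lit 0) (nat_lit 2151994892) (nat_lit 684) (nat_lit 5575869363) (nat_lit 76) (nat_lit 7413629373) (nat_lit 291) (nat_lit 5) (nat_lit 300) (nat_lit 5) (nat_lit 292) (nat_lit 5) (nat_lit 611) (nat_lit 555) (nat_lit 394)) (XT.lf (nat_lit 0) (nat_lit 3445460285) (nat_lit 608) (nat_lit 1579030827) (nat_lit 684) (nat_lit 10287885986) (nat_lit 283) (nat_lit 5) (nat_lit 291) (nat_lit 5) (nat_lit 292) (nat_lit 5) (nat_lit 612) (nat_lit 555) (nat_lit 393))))))))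
noncomputable def xc145 : XT := (XT.nd (nat_lit 2262) (nat_lit 6080) (nat_lit 0) (XT.nd (nat_lit 1092) (nat_lit 4028) (nat_lit 0) (XT.nd (nat_lit 546) (nat_lit 2204) (nat_lit 0) (XT.nd (nat_lit 234) (nat_lit 1140) (nat_lit 0) (XT.nd (nat_lit 78) (nat_lit 1216) (nat_lit 0) (XT.lf (nat_lit 0) (nat_lit 8012170128) (nat_lit 684) (nat_lit 2807077411) (nat_lit 76) (nat_lit 4666276525) (nat_lit 283) (nat_lit 5) (nat_lit 292) (nat_lit 5) (nat_lit 284) (nat_lit 5) (nat_lit 613) (nat_lit 555) (nat_lit 392)) (XT.nd (nat_lit 78) (nat_lit 608) (nat_lit 0) (XT.lf (nat_lit 0) (nat_lit 6495723629) (nat_lit 608) (nat_lit 4606314152) (nat_lit 684) (nat_lit 4559247960) (nat_lit 275) (nat_lit 5) (nat_lit 283) (nat_lit 5) (nat_lit 284) (nat_lit 5) (nat_lit 614) (nat_lit 555) (nat_lit 391)) (XT.lf (nat_lit 0) (nat_lit 160113507) (nat_lit 608) (nat_lit 14114729984) (nat_lit 684) (nat_lit 1565296813) (nat_lit 267) (nat_lit 5) (nat_lit 275) (nat_lit 5) (nat_lit 276) (nat_lit 5) (nat_lit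 615) (nat_lit 555) (nat_lit 390)))) (XT.nd (nat_lit 156) (nat_lit 532) (nat_lit 0) (XT.nd (nat_lit 78) (nat_lit 532) (nat_lit 0) (XT.lf (nat_lit 0) (nat_lit 1551377994) (nat_lit 684) (nat_lit 6278492004) (nat_lit 76) (nat_lit 8190861775) (nat_lit 266) (nat_lit 5) (nat_lit 275) (nat_lit 5) (nat_lit 267) (nat_lit 5) (nat_lit 616) (nat_lit 555) (nat_lit 389)) (XT.lf (nat_lit 0) (nat_lit 3331541093) (nat_lit 532) (nat_lit 1389681694) (nat_lit 608) (nat_lit 11483269874) (nat_lit 259) (nat_lit 5) (nat_lit 266) (nat_lit 5) (nat_lit 267) (nat_lit 5) (nat_lit 617) (nat_lit 555) (nat_lit 388))) (XT.nd (nat_lit 78) (nat_lit 532) (nat_lit 0) (XT.lf (nat_lit 0) (nat_lit 8020739241) (nat_lit 608) (nat_lit 3219062175) (nat_lit 76) (nat_lit 5150802283) (nat_lit 259) (nat_lit 5) (nat_lit 267) (nat_lit 5) (nat_lit 260) (nat_lit 5) (nat_lit 618) (nat_lit 555) (nat_lit 387)) (XT.lf (nat_lit 0) (nat_lit 6693795108) (nat_lit 532) (nat_lit 4735542352) (nat_lit 608) (nat_lit 5150238092)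 (nat_lit 252) (nat_lit 5) (nat_lit 259) (nat_lit 5) (nat_lit 260) (nat_lit 5) (nat_lit 619) (nat_lit 555) (nat_lit 386))))) (XT.nd (nat_lit 234) (nat_lit 1064) (nat_lit 0) (XT.nd (nat_lit 78) (nat_lit 608) (nat_lit 0) (XT.lf (nat_lit 0) (nat_lit 52078836) (nat_lit 532) (nat_lit 14878952932) (nat_lit 608) (nat_lit 1840797004) (nat_lit 245) (nat_lit 5) (nat_lit 252) (nat_lit 5) (nat_lit 253) (nat_lit 5) (nat_lit 620) (nat_lit 555) (nat_lit 385)) (XT.nd (nat_lit 78) (nat_lit 532) (nat_lit 0) (XT.lf (nat_lit 0) (nat_lit 1603396704) (nat_lit 608) (nat_lit 6698490954) (nat_lit 76) (nat_lit 8664066624) (nat_lit 244) (nat_lit 5) (nat_lit 252) (nat_lit 5) (nat_lit 245) (nat_lit 5) (nat_lit 621) (nat_lit 555) (nat_lit 384)) (XT.lf (nat_lit 0) (nat_lit 3544921605) (nat_lit 532) (nat_lit 1560682729) (nat_lit 608) (nat_lit 12057839437) (nat_lit 237) (nat_lit 5) (nat_lit 244) (nat_lit 5) (nat_lit 245) (nat_lit 5) (nat_lit 622) (nat_lit 555) (nat_lit 383)))) (XT.nd (nat_lit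 156) (nat_lit 608) (nat_lit 0) (XT.nd (nat_lit 78) (nat_lit 456) (nat_lit 0) (XT.lf (nat_lit 0) (nat_lit 8748433117) (nat_lit 608) (nat_lit 3327442680) (nat_lit 76) (nat_lit 5287596094) (nat_lit 237) (nat_lit 5) (nat_lit 245) (nat_lit 5) (nat_lit 238) (nat_lit 5) (nat_lit 623) (nat_lit 555) (nat_lit 382)) (XT.lf (nat_lit 0) (nat_lit 7241694538) (nat_lit 456) (nat_lit 5270775664) (nat_lit 532) (nat_lit 5054063711) (nat_lit 231) (nat_lit 5) (nat_lit 237) (nat_lit 5) (nat_lit 238) (nat_lit 5) (nat_lit 624) (nat_lit 555) (nat_lit 381))) (XT.nd (nat_lit 78) (nat_lit 76) (nat_lit 0) (XT.lf (nat_lit 0) (nat_lit 274232469) (nat_lit 532) (nat_lit 16103730848) (nat_lit 608) (nat_lit 1395170719) (nat_lit 224) (nat_lit 5) (nat_lit 231) (nat_lit 5) (nat_lit 232) (nat_lit 5) (nat_lit 625) (nat_lit 555) (nat_lit 380)) (XT.lf (nat_lit 0) (nat_lit 2402009230) (nat_lit 608) (nat_lit 6820291574) (nat_lit 76) (nat_lit 8759347097) (nat_lit 223) (nat_lit 5) (nat_lit 231) (nat_lit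 5) (nat_lit 224) (nat_lit 5) (nat_lit 626) (nat_lit 555) (nat_lit 379)))))) (XT.nd (nat_lit 546) (nat_lit 2128) (nat_lit 0) (XT.nd (nat_lit 234) (nat_lit 988) (nat_lit 0) (XT.nd (nat_lit 78) (nat_lit 456) (nat_lit 0) (XT.lf (nat_lit 0) (nat_lit 4104208476) (nat_lit 456) (nat_lit 2170190237) (nat_lit 532) (nat_lit 11919390288) (nat_lit 217) (nat_lit 5) (nat_lit 223) (nat_lit 5) (nat_lit 224) (nat_lit 5) (nat_lit 627) (nat_lit 555) (nat_lit 378)) (XT.nd (nat_lit 78) (nat_lit 456) (nat_lit 0) (XT.lf (nat_lit 0) (nat_lit 10294270451) (nat_lit 532) (nat_lit 3114862718) (nat_lit 76) (nat_lit 4999639403) (nat_lit 217) (nat_lit 5) (nat_lit 224) (nat_lit 5) (nat_lit 218) (nat_lit 5) (nat_lit 628) (nat_lit 555) (nat_lit 377)) (XT.lf (nat_lit 0) (nat_lit 8159898782) (nat_lit 456) (nat_lit 6293513237) (nat_lit 532) (nat_lit 4173466679) (nat_lit 211) (nat_lit 5) (nat_lit 217) (nat_lit 5) (nat_lit 218) (nat_lit 5) (nat_lit 629) (nat_lit 555) (nat_lit 376)))) (XT.nd (nat_lit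 156) (nat_lit 456) (nat_lit 0) (XT.nd (nat_lit 78) (nat_lit 76) (nat_lit 0) (XT.lf (nat_lit 0) (nat_lit 845982438) (nat_lit 456) (nat_lit 17874134591) (nat_lit 532) (nat_lit 128742632) (nat_lit 205) (nat_lit 5) (nat_lit 211) (nat_lit 5) (nat_lit 212) (nat_lit 5) (nat_lit 630) (nat_lit 555) (nat_lit 375)) (XT.lf (nat_lit 0) (nat_lit 4048455713) (nat_lit 532) (nat_lit 6627076985) (nat_lit 76) (nat_lit 8397148860) (nat_lit 204) (nat_lit 5) (nat_lit 211) (nat_lit 5) (nat_lit 205) (nat_lit 5) (nat_lit 631) (nat_lit 555) (nat_lit 374))) (XT.nd (nat_lit 78) (nat_lit 0) (nat_lit 0) (XT.lf (nat_lit 0) (nat_lit 5029393346) (nat_lit 456) (nat_lit 3302517531) (nat_lit 532) (nat_lit 10968563566) (nat_lit 198) (nat_lit 5) (nat_lit 204) (nat_lit 5) (nat_lit 205) (nat_lit 5) (nat_lit 632) (nat_lit 555) (nat_lit 373)) (XT.lf (nat_lit 0) (nat_lit 12765027321) (nat_lit 532) (nat_lit 2562803972) (nat_lit 76) (nat_lit 4203712352) (nat_lit 198) (nat_lit 5) (nat_lit 205) (nat_lit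 5) (nat_lit 199) (nat_lit 5) (nat_lit 633) (nat_lit 555) (nat_lit 372))))) (XT.nd (nat_lit 312) (nat_lit 836) (nat_lit 0) (XT.nd (nat_lit 156) (nat_lit 380) (nat_lit 0) (XT.nd (nat_lit 78) (nat_lit 532) (nat_lit 0) (XT.lf (nat_lit 0) (nat_lit 9470191798) (nat_lit 380) (nat_lit 7891972732) (nat_lit 456) (nat_lit 2403562826) (nat_lit 193) (nat_lit 5) (nat_lit 198) (nat_lit 5) (nat_lit 199) (nat_lit 5) (nat_lit 634) (nat_lit 555) (nat_lit 371)) (XT.lf (nat_lit 0) (nat_lit 1772371136) (nat_lit 456) (nat_lit 268284335) (nat_lit 532) (nat_lit 17963256832) (nat_lit 186) (nat_lit 5) (nat_lit 192) (nat_lit 5) (nat_lit 193) (nat_lit 5) (nat_lit 635) (nat_lit 555) (nat_lit 370))) (XT.nd (nat_lit 78) (nat_lit 380) (nat_lit 0) (XT.lf (nat_lit 0) (nat_lit 6651980690) (nat_lit 532) (nat_lit 6101269215) (nat_lit 76) (nat_lit 7491085444) (nat_lit 186) (nat_lit 5) (nat_lit 193) (nat_lit 5) (nat_lit 187) (nat_lit 5) (nat_lit 636) (nat_lit 555) (nat_lit 369)) (XT.lf (nat_lit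 0) (nat_lit 6341368869) (nat_lit 380) (nat_lit 5049351903) (nat_lit 456) (nat_lit 9098142591) (nat_lit 181) (nat_lit 5) (nat_lit 186) (nat_lit 5) (nat_lit 187) (nat_lit 5) (nat_lit 637) (nat_lit 555) (nat_lit 368)))) (XT.nd (nat_lit 156) (nat_lit 380) (nat_lit 0) (XT.nd (nat_lit 78) (nat_lit 456) (nat_lit 0) (XT.lf (nat_lit 0) (nat_lit 16275976268) (nat_lit 456) (nat_lit 1652088722) (nat_lit 76) (nat_lit 2809182401) (nat_lit 181) (nat_lit 5) (nat_lit 187) (nat_lit 5) (nat_lit 182) (nat_lit 5) (nat_lit 638) (nat_lit 555) (nat_lit 367)) (XT.lf (nat_lit 0) (nat_lit 364039238) (nat_lit 456) (nat_lit 9795864720) (nat_lit 76) (nat_lit 10828676138) (nat_lit 175) (nat_lit 5) (nat_lit 181) (nat_lit 5) (nat_lit 176) (nat_lit 5) (nat_lit 639) (nat_lit 555) (nat_lit 366))) (XT.nd (nat_lit 78) (nat_lit 0) (nat_lit 0) (XT.lf (nat_lit 0) (nat_lit 3071275396) (nat_lit 380) (nat_lit 2178467332) (nat_lit 456) (nat_lit 15994134733) (nat_lit 170) (nat_lit 5) (nat_lit 175) (nat_lit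 5) (nat_lit 176) (nat_lit 5) (nat_lit 640) (nat_lit 555) (nat_lit 365)) (XT.lf (nat_lit 0) (nat_lit 10330559171) (nat_lit 456) (nat_lit 5225098006) (nat_lit 76) (nat_lit 5946675863) (nat_lit 170) (nat_lit 5) (nat_lit 176) (nat_lit 5) (nat_lit 171) (nat_lit 5) (nat_lit 641) (nat_lit 555) (nat_lit 364))))))) (XT.nd (nat_lit 1170) (nat_lit 2660) (nat_lit 0) (XT.nd (nat_lit 546) (nat_lit 1444) (nat_lit 0) (XT.nd (nat_lit 234) (nat_lit 1140) (nat_lit 0) (XT.nd (nat_lit 78) (nat_lit 456) (nat_lit 0) (XT.lf (nat_lit 0) (nat_lit 8061354026) (nat_lit 380) (nat_lit 7511066276) (nat_lit 456) (nat_lit 6192349106) (nat_lit 165) (nat_lit 5) (nat_lit 170) (nat_lit 5) (nat_lit 171) (nat_lit 5) (nat_lit 642) (nat_lit 555) (nat_lit 363)) (XT.nd (nat_lit 78) (nat_lit 456) (nat_lit 0) (XT.lf (nat_lit 0) (nat_lit 20951629682) (nat_lit 456) (nat_lit 363478182) (nat_lit 76) (nat_lit 716696654) (nat_lit 165) (nat_lit 5) (nat_lit 171) (nat_lit 5) (nat_lit 166) (nat_lit 5) (nat_lit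 643) (nat_lit 555) (nat_lit 362)) (XT.lf (nat_lit 0) (nat_lit 4210196232) (nat_lit 456) (nat_lit 8971714526) (nat_lit 76) (nat_lit 9119129463) (nat_lit 159) (nat_lit 5) (nat_lit 165) (nat_lit 5) (nat_lit 160) (nat_lit 5) (nat_lit 644) (nat_lit 555) (nat_lit 361)))) (XT.nd (nat_lit 156) (nat_lit 760) (nat_lit 0) (XT.nd (nat_lit 78) (nat_lit 0) (nat_lit 0) (XT.lf (nat_lit 0) (nat_lit 4769538474) (nat_lit 380) (nat_lit 4848679888) (nat_lit 456) (nat_lit 12956773556) (nat_lit 154) (nat_lit 5) (nat_lit 159) (nat_lit 5) (nat_lit 160) (nat_lit 5) (nat_lit 645) (nat_lit 555) (nat_lit 360)) (XT.lf (nat_lit 0) (nat_lit 15211623891) (nat_lit 456) (nat_lit 3981281031) (nat_lit 76) (nat_lit 3659973487) (nat_lit 154) (nat_lit 5) (nat_lit 160) (nat_lit 5) (nat_lit 155) (nat_lit 5) (nat_lit 646) (nat_lit 555) (nat_lit 359))) (XT.nd (nat_lit 78) (nat_lit 456) (nat_lit 0) (XT.lf (nat_lit 0) (nat_lit 10210204263) (nat_lit 304) (nat_lit 10798147313) (nat_lit 380) (nat_lit 2126142188)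 (nat_lit 150) (nat_lit 5) (nat_lit 154) (nat_lit 5) (nat_lit 155) (nat_lit 5) (nat_lit 647) (nat_lit 555) (nat_lit 358)) (XT.lf (nat_lit 0) (nat_lit 1301462989) (nat_lit 380) (nat_lit 2180331057) (nat_lit 456) (nat_lit 19938924889) (nat_lit 144) (nat_lit 5) (nat_lit 149) (nat_lit 5) (nat_lit 150) (nat_lit 5) (nat_lit 648) (nat_lit 555) (nat_lit 357))))) (XT.nd (nat_lit 312) (nat_lit 684) (nat_lit 0) (XT.nd (nat_lit 156) (nat_lit 456) (nat_lit 0) (XT.nd (nat_lit 78) (nat_lit 304) (nat_lit 0) (XT.lf (nat_lit 0) (nat_lit 9296775711) (nat_lit 456) (nat_lit 7792609346) (nat_lit 76) (nat_lit 6620535565) (nat_lit 144) (nat_lit 5) (nat_lit 150) (nat_lit 5) (nat_lit 145) (nat_lit 5) (nat_lit 649) (nat_lit 555) (nat_lit 356)) (XT.lf (nat_lit 0) (nat_lit 6885625619) (nat_lit 304) (nat_lit 8394822317) (nat_lit 380) (nat_lit 8723410785) (nat_lit 140) (nat_lit 5) (nat_lit 144) (nat_lit 5) (nat_lit 145) (nat_lit 5) (nat_lit 650) (nat_lit 555) (nat_lit 355))) (XT.nd (nat_lit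 78) (nat_lit 456) (nat_lit 0) (XT.lf (nat_lit 0) (nat_lit 21432789576) (nat_lit 380) (nat_lit 2353843137) (nat_lit 76) (nat_lit 516063145) (nat_lit 140) (nat_lit 5) (nat_lit 145) (nat_lit 5) (nat_lit 141) (nat_lit 5) (nat_lit 651) (nat_lit 555) (nat_lit 354)) (XT.lf (nat_lit 0) (nat_lit 3193041442) (nat_lit 456) (nat_lit 11818295447) (nat_lit 76) (nat_lit 9593109624) (nat_lit 134) (nat_lit 5) (nat_lit 140) (nat_lit 5) (nat_lit 135) (nat_lit 5) (nat_lit 652) (nat_lit 555) (nat_lit 353)))) (XT.nd (nat_lit 156) (nat_lit 380) (nat_lit 0) (XT.nd (nat_lit 78) (nat_lit 0) (nat_lit 0) (XT.lf (nat_lit 0) (nat_lit 3363282366) (nat_lit 304) (nat_lit 6006741312) (nat_lit 380) (nat_lit 15541205213) (nat_lit 130) (nat_lit 5) (nat_lit 134) (nat_lit 5) (nat_lit 135) (nat_lit 5) (nat_lit 653) (nat_lit 555) (nat_lit 352)) (XT.lf (nat_lit 0) (nat_lit 15764475623) (nat_lit 380) (nat_lit 6245714233) (nat_lit 76) (nat_lit 3212078640) (nat_lit 130) (nat_lit 5) (nat_lit 135) (nat_lit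 5) (nat_lit 131) (nat_lit 5) (nat_lit 654) (nat_lit 555) (nat_lit 351))) (XT.nd (nat_lit 78) (nat_lit 76) (nat_lit 0) (XT.lf (nat_lit 0) (nat_lit 9436061398) (nat_lit 304) (nat_lit 12945392801) (nat_lit 380) (nat_lit 3156182117) (nat_lit 126) (nat_lit 5) (nat_lit 130) (nat_lit 5) (nat_lit 131) (nat_lit 5) (nat_lit 655) (nat_lit 555) (nat_lit 350)) (XT.lf (nat_lit 0) (nat_lit 3264353166) (nat_lit 380) (nat_lit 374349853) (nat_lit 76) (nat_lit 22219467872) (nat_lit 125) (nat_lit 5) (nat_lit 130) (nat_lit 5) (nat_lit 126) (nat_lit 5) (nat_lit 656) (nat_lit 555) (nat_lit 349)))))) (XT.nd (nat_lit 546) (nat_lit 1216) (nat_lit 0) (XT.nd (nat_lit 234) (nat_lit 836) (nat_lit 0) (XT.nd (nat_lit 78) (nat_lit 304) (nat_lit 0) (XT.lf (nat_lit 0) (nat_lit 9906483562) (nat_lit 380) (nat_lit 10377541133) (nat_lit 76) (nat_lit 5897965466) (nat_lit 121) (nat_lit 5) (nat_lit 126) (nat_lit 5) (nat_lit 122) (nat_lit 5) (nat_lit 657) (nat_lit 555) (nat_lit 348)) (XT.nd (nat_lit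 78) (nat_lit 0) (nat_lit 0) (XT.lf (nat_lit 0) (nat_lit 5841847325) (nat_lit 304) (nat_lit 10897928794) (nat_lit 380) (nat_lit 9771343469) (nat_lit 117) (nat_lit 5) (nat_lit 121) (nat_lit 5) (nat_lit 122) (nat_lit 5) (nat_lit 658) (nat_lit 555) (nat_lit 347)) (XT.lf (nat_lit 0) (nat_lit 22516043469) (nat_lit 304) (nat_lit 1257149854) (nat_lit 380) (nat_lit 3072369266) (nat_lit 117) (nat_lit 5) (nat_lit 121) (nat_lit 5) (nat_lit 122) (nat_lit 5) (nat_lit 659) (nat_lit 555) (nat_lit 346)))) (XT.nd (nat_lit 156) (nat_lit 228) (nat_lit 0) (XT.nd (nat_lit 78) (nat_lit 304) (nat_lit 0) (XT.lf (nat_lit 0) (nat_lit 3842457488) (nat_lit 304) (nat_lit 14775089223) (nat_lit 76) (nat_lit 8566035690) (nat_lit 113) (nat_lit 5) (nat_lit 117) (nat_lit 5) (nat_lit 114) (nat_lit 5) (nat_lit 660) (nat_lit 555) (nat_lit 345)) (XT.lf (nat_lit 0) (nat_lit 1999370427) (nat_lit 304) (nat_lit 8899591355) (nat_lit 380) (nat_lit 16628104411) (nat_lit 109) (nat_lit 5) (nat_lit 113) (nat_lit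 5) (nat_lit 114) (nat_lit 5) (nat_lit 661) (nat_lit 555) (nat_lit 344))) (XT.nd (nat_lit 78) (nat_lit 228) (nat_lit 0) (XT.lf (nat_lit 0) (nat_lit 18196932810) (nat_lit 380) (nat_lit 8583255192) (nat_lit 76) (nat_lit 1095225074) (nat_lit 109) (nat_lit 5) (nat_lit 114) (nat_lit 5) (nat_lit 110) (nat_lit 5) (nat_lit 662) (nat_lit 555) (nat_lit 343)) (XT.lf (nat_lit 0) (nat_lit 8745853560) (nat_lit 228) (nat_lit 17004805916) (nat_lit 304) (nat_lit 2477871639) (nat_lit 106) (nat_lit 5) (nat_lit 109) (nat_lit 5) (nat_lit 110) (nat_lit 5) (nat_lit 663) (nat_lit 555) (nat_lit 342))))) (XT.nd (nat_lit 312) (nat_lit 608) (nat_lit 0) (XT.nd (nat_lit 156) (nat_lit 228) (nat_lit 0) (XT.nd (nat_lit 78) (nat_lit 304) (nat_lit 0) (XT.lf (nat_lit 0) (nat_lit 4854987853) (nat_lit 304) (nat_lit 2091645791) (nat_lit 76) (nat_lit 21640404707) (nat_lit 105) (nat_lit 5) (nat_lit 109) (nat_lit 5) (nat_lit 106) (nat_lit 5) (nat_lit 664) (nat_lit 555) (nat_lit 341)) (XT.lf (nat_lit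 0) (nat_lit 12420601369) (nat_lit 380) (nat_lit 13144131416) (nat_lit 76) (nat_lit 3385269998) (nat_lit 101) (nat_lit 5) (nat_lit 106) (nat_lit 5) (nat_lit 102) (nat_lit 5) (nat_lit 665) (nat_lit 555) (nat_lit 340))) (XT.nd (nat_lit 78) (nat_lit 0) (nat_lit 0) (XT.lf (nat_lit 0) (nat_lit 4776464968) (nat_lit 228) (nat_lit 15446435181) (nat_lit 304) (nat_lit 9095619028) (nat_lit 98) (nat_lit 5) (nat_lit 101) (nat_lit 5) (nat_lit 102) (nat_lit 5) (nat_lit 666) (nat_lit 555) (nat_lit 339)) (XT.lf (nat_lit 0) (nat_lit 23223882125) (nat_lit 228) (nat_lit 5039844429) (nat_lit 304) (nat_lit 1429029843) (nat_lit 98) (nat_lit 5) (nat_lit 101) (nat_lit 5) (nat_lit 102) (nat_lit 5) (nat_lit 667) (nat_lit 555) (nat_lit 338)))) (XT.nd (nat_lit 72462) (nat_lit 0) (nat_lit 35948) (XT.nd (nat_lit 78) (nat_lit 228) (nat_lit 0) (XT.lf (nat_lit 0) (nat_lit 6416775429) (nat_lit 380) (nat_lit 18036190147) (nat_lit 76) (nat_lit 5618488993) (nat_lit 93) (nat_lit 5) (nat_lit 98)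 (nat_lit 5) (nat_lit 94) (nat_lit 5) (nat_lit 668) (nat_lit 555) (nat_lit 337)) (XT.lf (nat_lit 0) (nat_lit 493995989) (nat_lit 228) (nat_lit 13981040003) (nat_lit 304) (nat_lit 15981008441) (nat_lit 90) (nat_lit 5) (nat_lit 93) (nat_lit 5) (nat_lit 94) (nat_lit 5) (nat_lit 669) (nat_lit 555) (nat_lit 336))) (XT.nd (nat_lit 78) (nat_lit 0) (nat_lit 0) (XT.lf (nat_lit 0) (nat_lit 2109333179) (nat_lit 1596) (nat_lit 1175507628) (nat_lit 1596) (nat_lit 1175507628) (nat_lit 563) (nat_lit 3) (nat_lit 584) (nat_lit 3) (nat_lit 584) (nat_lit 5) (nat_lit 556) (nat_lit 556) (nat_lit 448)) (XT.lf (nat_lit 76) (nat_lit 2103843804) (nat_lit 0) (nat_lit 3091859852) (nat_lit 1596) (nat_lit 3795440240) (nat_lit 564) (nat_lit 5) (nat_lit 563) (nat_lit 3) (nat_lit 584) (nat_lit 5) (nat_lit 557) (nat_lit 556) (nat_lit 447))))))))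
noncomputable def xc146 : XT := (XT.nd (nat_lit 2262) (nat_lit 12996) (nat_lit 0) (XT.nd (nat_lit 1092) (nat_lit 6080) (nat_lit 0) (XT.nd (nat_lit 546) (nat_lit 1368) (nat_lit 0) (XT.nd (nat_lit 234) (nat_lit 1520) (nat_lit 0) (XT.nd (nat_lit 78) (nat_lit 0) (nat_lit 0) (XT.lf (nat_lit 0) (nat_lit 6186952336) (nat_lit 1520) (nat_lit 2399128350) (nat_lit 1596) (nat_lit 477027413) (nat_lit 564) (nat_lit 5) (nat_lit 584) (nat_lit 5) (nat_lit 585) (nat_lit 5) (nat_lit 558) (nat_lit 556) (nat_lit 446)) (XT.nd (nat_lit 78) (nat_lit 0) (nat_lit 0) (XT.lf (nat_lit 76) (nat_lit 2174049185) (nat_lit 0) (nat_lit 5034874025) (nat_lit 1596) (nat_lit 1927372050) (nat_lit 565) (nat_lit 5) (nat_lit 564) (nat_lit 5) (nat_lit 585) (nat_lit 5) (nat_lit 559) (nat_lit 556) (nat_lit 445)) (XT.lf (nat_lit 76) (nat_lit 6858500469) (nat_lit 0) (nat_lit 1385620467) (nat_lit 1596) (nat_lit 966971064) (nat_lit 565) (nat_lit 5) (nat_lit 564) (nat_lit 5) (nat_lit 585) (nat_lit 5) (nat_lit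 560) (nat_lit 556) (nat_lit 444)))) (XT.nd (nat_lit 156) (nat_lit 0) (nat_lit 76) (XT.nd (nat_lit 78) (nat_lit 0) (nat_lit 0) (XT.lf (nat_lit 0) (nat_lit 20175199) (nat_lit 1596) (nat_lit 6935422019) (nat_lit 1672) (nat_lit 2331633282) (nat_lit 544) (nat_lit 5) (nat_lit 565) (nat_lit 5) (nat_lit 566) (nat_lit 5) (nat_lit 561) (nat_lit 556) (nat_lit 443)) (XT.lf (nat_lit 0) (nat_lit 1016622355) (nat_lit 1596) (nat_lit 2211277739) (nat_lit 1672) (nat_lit 6136815224) (nat_lit 544) (nat_lit 5) (nat_lit 565) (nat_lit 5) (nat_lit 566) (nat_lit 5) (nat_lit 562) (nat_lit 556) (nat_lit 442))) (XT.nd (nat_lit 78) (nat_lit 0) (nat_lit 0) (XT.lf (nat_lit 0) (nat_lit 2031836927) (nat_lit 1596) (nat_lit 6818871299) (nat_lit 1672) (nat_lit 593066303) (nat_lit 545) (nat_lit 5) (nat_lit 566) (nat_lit 5) (nat_lit 567) (nat_lit 5) (nat_lit 563) (nat_lit 556) (nat_lit 441)) (XT.lf (nat_lit 0) (nat_lit 3081946376) (nat_lit 1596) (nat_lit 1971165478) (nat_lit 1672) (nat_lit 4471012694)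 (nat_lit 545) (nat_lit 5) (nat_lit 566) (nat_lit 5) (nat_lit 567) (nat_lit 5) (nat_lit 564) (nat_lit 556) (nat_lit 440))))) (XT.nd (nat_lit 234) (nat_lit 1444) (nat_lit 0) (XT.nd (nat_lit 78) (nat_lit 0) (nat_lit 76) (XT.lf (nat_lit 76) (nat_lit 2999743984) (nat_lit 0) (nat_lit 1151492962) (nat_lit 1672) (nat_lit 5454882453) (nat_lit 546) (nat_lit 5) (nat_lit 545) (nat_lit 5) (nat_lit 567) (nat_lit 5) (nat_lit 565) (nat_lit 556) (nat_lit 439)) (XT.nd (nat_lit 78) (nat_lit 0) (nat_lit 0) (XT.lf (nat_lit 0) (nat_lit 5252678185) (nat_lit 1596) (nat_lit 1624627026) (nat_lit 1672) (nat_lit 2812235019) (nat_lit 546) (nat_lit 5) (nat_lit 567) (nat_lit 5) (nat_lit 568) (nat_lit 5) (nat_lit 566) (nat_lit 556) (nat_lit 438)) (XT.lf (nat_lit 76) (nat_lit 3481577503) (nat_lit 0) (nat_lit 2904298709) (nat_lit 1672) (nat_lit 3388560062) (nat_lit 547) (nat_lit 5) (nat_lit 546) (nat_lit 5) (nat_lit 568) (nat_lit 5) (nat_lit 567) (nat_lit 556) (nat_lit 437)))) (XT.nd (nat_lit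 156) (nat_lit 1596) (nat_lit 0) (XT.nd (nat_lit 78) (nat_lit 0) (nat_lit 0) (XT.lf (nat_lit 0) (nat_lit 7540027243) (nat_lit 1596) (nat_lit 1169989187) (nat_lit 1672) (nat_lit 1151049355) (nat_lit 547) (nat_lit 5) (nat_lit 568) (nat_lit 5) (nat_lit 569) (nat_lit 5) (nat_lit 568) (nat_lit 556) (nat_lit 436)) (XT.lf (nat_lit 76) (nat_lit 4076252560) (nat_lit 0) (nat_lit 4666963210) (nat_lit 1672) (nat_lit 1205694327) (nat_lit 548) (nat_lit 5) (nat_lit 547) (nat_lit 5) (nat_lit 569) (nat_lit 5) (nat_lit 569) (nat_lit 556) (nat_lit 435))) (XT.nd (nat_lit 78) (nat_lit 1596) (nat_lit 0) (XT.lf (nat_lit 76) (nat_lit 9430053987) (nat_lit 0) (nat_lit 528821594) (nat_lit 1672) (nat_lit 79868842) (nat_lit 548) (nat_lit 5) (nat_lit 547) (nat_lit 5) (nat_lit 569) (nat_lit 5) (nat_lit 570) (nat_lit 556) (nat_lit 434)) (XT.lf (nat_lit 0) (nat_lit 1090719479) (nat_lit 1672) (nat_lit 5350866115) (nat_lit 1748) (nat_lit 3687927130) (nat_lit 526) (nat_lit 5) (nat_lit 548) (nat_lit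 5) (nat_lit 549) (nat_lit 5) (nat_lit 571) (nat_lit 556) (nat_lit 433)))))) (XT.nd (nat_lit 546) (nat_lit 6080) (nat_lit 0) (XT.nd (nat_lit 234) (nat_lit 0) (nat_lit 152) (XT.nd (nat_lit 78) (nat_lit 0) (nat_lit 76) (XT.lf (nat_lit 76) (nat_lit 42920213) (nat_lit 0) (nat_lit 2229761852) (nat_lit 1748) (nat_lit 7949624333) (nat_lit 527) (nat_lit 5) (nat_lit 526) (nat_lit 5) (nat_lit 549) (nat_lit 5) (nat_lit 572) (nat_lit 556) (nat_lit 432)) (XT.nd (nat_lit 78) (nat_lit 0) (nat_lit 0) (XT.lf (nat_lit 0) (nat_lit 3509298723) (nat_lit 1672) (nat_lit 4726644776) (nat_lit 1748) (nat_lit 2080393329) (nat_lit 527) (nat_lit 5) (nat_lit 549) (nat_lit 5) (nat_lit 550) (nat_lit 5) (nat_lit 573) (nat_lit 556) (nat_lit 431)) (XT.lf (nat_lit 76) (nat_lit 817510480) (nat_lit 0) (nat_lit 3955029448) (nat_lit 1748) (nat_lit 5639671249) (nat_lit 528) (nat_lit 5) (nat_lit 527) (nat_lit 5) (nat_lit 550) (nat_lit 5) (nat_lit 574) (nat_lit 556) (nat_lit 430)))) (XT.nd (nat_lit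 156) (nat_lit 0) (nat_lit 0) (XT.nd (nat_lit 78) (nat_lit 0) (nat_lit 0) (XT.lf (nat_lit 0) (nat_lit 6077761229) (nat_lit 1672) (nat_lit 3989525405) (nat_lit 1748) (nat_lit 442383208) (nat_lit 528) (nat_lit 5) (nat_lit 550) (nat_lit 5) (nat_lit 551) (nat_lit 5) (nat_lit 575) (nat_lit 556) (nat_lit 429)) (XT.lf (nat_lit 76) (nat_lit 1710370702) (nat_lit 0) (nat_lit 5718479236) (nat_lit 1748) (nat_lit 3179833593) (nat_lit 529) (nat_lit 5) (nat_lit 528) (nat_lit 5) (nat_lit 551) (nat_lit 5) (nat_lit 576) (nat_lit 556) (nat_lit 428))) (XT.nd (nat_lit 78) (nat_lit 0) (nat_lit 76) (XT.lf (nat_lit 76) (nat_lit 7564811156) (nat_lit 0) (nat_lit 1251642898) (nat_lit 1748) (nat_lit 1893034655) (nat_lit 529) (nat_lit 5) (nat_lit 528) (nat_lit 5) (nat_lit 551) (nat_lit 5) (nat_lit 577) (nat_lit 556) (nat_lit 427)) (XT.lf (nat_lit 76) (nat_lit 2724678884) (nat_lit 0) (nat_lit 7529361440) (nat_lit 1748) (nat_lit 557826134) (nat_lit 530) (nat_lit 5) (nat_lit 529) (nat_lit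 5) (nat_lit 552) (nat_lit 5) (nat_lit 578) (nat_lit 556) (nat_lit 426))))) (XT.nd (nat_lit 312) (nat_lit 2888) (nat_lit 0) (XT.nd (nat_lit 156) (nat_lit 1672) (nat_lit 0) (XT.nd (nat_lit 78) (nat_lit 0) (nat_lit 76) (XT.lf (nat_lit 0) (nat_lit 806288799) (nat_lit 1748) (nat_lit 2189235153) (nat_lit 1824) (nat_lit 7920409464) (nat_lit 506) (nat_lit 5) (nat_lit 529) (nat_lit 5) (nat_lit 530) (nat_lit 5) (nat_lit 579) (nat_lit 556) (nat_lit 425)) (XT.lf (nat_lit 0) (nat_lit 2209618116) (nat_lit 1748) (nat_lit 7172510103) (nat_lit 76) (nat_lit 1639492727) (nat_lit 507) (nat_lit 5) (nat_lit 530) (nat_lit 5) (nat_lit 508) (nat_lit 5) (nat_lit 580) (nat_lit 556) (nat_lit 424))) (XT.nd (nat_lit 78) (nat_lit 1748) (nat_lit 0) (XT.lf (nat_lit 0) (nat_lit 3659439826) (nat_lit 1748) (nat_lit 1124914489) (nat_lit 76) (nat_lit 6344700382) (nat_lit 507) (nat_lit 5) (nat_lit 530) (nat_lit 5) (nat_lit 508) (nat_lit 5) (nat_lit 581) (nat_lit 556) (nat_lit 423)) (XT.lf (nat_lit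 0) (nat_lit 5097000425) (nat_lit 1748) (nat_lit 58467994) (nat_lit 1824) (nat_lit 6082825463) (nat_lit 484) (nat_lit 5) (nat_lit 507) (nat_lit 5) (nat_lit 508) (nat_lit 5) (nat_lit 582) (nat_lit 556) (nat_lit 422)))) (XT.nd (nat_lit 156) (nat_lit 1064) (nat_lit 0) (XT.nd (nat_lit 78) (nat_lit 0) (nat_lit 0) (XT.lf (nat_lit 0) (nat_lit 65201946) (nat_lit 1824) (nat_lit 6639511910) (nat_lit 1900) (nat_lit 4644539017) (nat_lit 460) (nat_lit 5) (nat_lit 484) (nat_lit 5) (nat_lit 485) (nat_lit 5) (nat_lit 583) (nat_lit 556) (nat_lit 421)) (XT.lf (nat_lit 0) (nat_lit 6465051200) (nat_lit 1824) (nat_lit 1846063736) (nat_lit 1900) (nat_lit 3150793621) (nat_lit 460) (nat_lit 5) (nat_lit 484) (nat_lit 5) (nat_lit 485) (nat_lit 5) (nat_lit 584) (nat_lit 556) (nat_lit 420))) (XT.nd (nat_lit 78) (nat_lit 0) (nat_lit 0) (XT.lf (nat_lit 0) (nat_lit 1401017781) (nat_lit 1064) (nat_lit 8562370060) (nat_lit 1140) (nat_lit 1613155552) (nat_lit 446) (nat_lit 5) (nat_lit 460)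 (nat_lit 5) (nat_lit 461) (nat_lit 5) (nat_lit 585) (nat_lit 556) (nat_lit 419)) (XT.lf (nat_lit 0) (nat_lit 7968607987) (nat_lit 1064) (nat_lit 3710871639) (nat_lit 1140) (nat_lit 13376723) (nat_lit 446) (nat_lit 5) (nat_lit 460) (nat_lit 5) (nat_lit 461) (nat_lit 5) (nat_lit 586) (nat_lit 556) (nat_lit 418))))))) (XT.nd (nat_lit 1092) (nat_lit 6080) (nat_lit 0) (XT.nd (nat_lit 546) (nat_lit 3268) (nat_lit 0) (XT.nd (nat_lit 234) (nat_lit 1748) (nat_lit 0) (XT.nd (nat_lit 78) (nat_lit 912) (nat_lit 0) (XT.lf (nat_lit 0) (nat_lit 1609331587) (nat_lit 988) (nat_lit 8949779301) (nat_lit 76) (nat_lit 1251932191) (nat_lit 433) (nat_lit 5) (nat_lit 446) (nat_lit 5) (nat_lit 434) (nat_lit 5) (nat_lit 587) (nat_lit 556) (nat_lit 417)) (XT.nd (nat_lit 78) (nat_lit 912) (nat_lit 0) (XT.lf (nat_lit 0) (nat_lit 3299547135) (nat_lit 988) (nat_lit 2340680834) (nat_lit 76) (nat_lit 6290660005) (nat_lit 433) (nat_lit 5) (nat_lit 446) (nat_lit 5) (nat_lit 434) (nat_lit 5)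 (nat_lit 588) (nat_lit 556) (nat_lit 416)) (XT.lf (nat_lit 0) (nat_lit 4445444515) (nat_lit 912) (nat_lit 592769112) (nat_lit 988) (nat_lit 7014624032) (nat_lit 421) (nat_lit 5) (nat_lit 433) (nat_lit 5) (nat_lit 434) (nat_lit 5) (nat_lit 589) (nat_lit 556) (nat_lit 415)))) (XT.nd (nat_lit 156) (nat_lit 912) (nat_lit 0) (XT.nd (nat_lit 78) (nat_lit 836) (nat_lit 0) (XT.lf (nat_lit 0) (nat_lit 6843022955) (nat_lit 988) (nat_lit 821228425) (nat_lit 76) (nat_lit 4512348377) (nat_lit 421) (nat_lit 5) (nat_lit 434) (nat_lit 5) (nat_lit 422) (nat_lit 5) (nat_lit 590) (nat_lit 556) (nat_lit 414)) (XT.lf (nat_lit 0) (nat_lit 6164191288) (nat_lit 836) (nat_lit 2549939779) (nat_lit 912) (nat_lit 3588102772) (nat_lit 410) (nat_lit 5) (nat_lit 421) (nat_lit 5) (nat_lit 422) (nat_lit 5) (nat_lit 591) (nat_lit 556) (nat_lit 413))) (XT.nd (nat_lit 78) (nat_lit 76) (nat_lit 0) (XT.lf (nat_lit 0) (nat_lit 850411263) (nat_lit 836) (nat_lit 9787072422) (nat_lit 912) (nat_lit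 1792601248) (nat_lit 399) (nat_lit 5) (nat_lit 410) (nat_lit 5) (nat_lit 411) (nat_lit 5) (nat_lit 592) (nat_lit 556) (nat_lit 412)) (XT.lf (nat_lit 0) (nat_lit 83179388) (nat_lit 912) (nat_lit 4528907380) (nat_lit 76) (nat_lit 7947504426) (nat_lit 398) (nat_lit 5) (nat_lit 410) (nat_lit 5) (nat_lit 399) (nat_lit 5) (nat_lit 593) (nat_lit 556) (nat_lit 411))))) (XT.nd (nat_lit 234) (nat_lit 1596) (nat_lit 0) (XT.nd (nat_lit 78) (nat_lit 836) (nat_lit 0) (XT.lf (nat_lit 0) (nat_lit 1981159777) (nat_lit 912) (nat_lit 10023227247) (nat_lit 76) (nat_lit 686890568) (nat_lit 387) (nat_lit 5) (nat_lit 399) (nat_lit 5) (nat_lit 388) (nat_lit 5) (nat_lit 594) (nat_lit 556) (nat_lit 410)) (XT.nd (nat_lit 78) (nat_lit 836) (nat_lit 0) (XT.lf (nat_lit 0) (nat_lit 3965199742) (nat_lit 912) (nat_lit 2798963903) (nat_lit 76) (nat_lit 6060472792) (nat_lit 387) (nat_lit 5) (nat_lit 399) (nat_lit 5) (nat_lit 388) (nat_lit 5) (nat_lit 595) (nat_lit 556) (nat_lit 409)) (XT.lf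 (nat_lit 0) (nat_lit 4617037114) (nat_lit 836) (nat_lit 1389079598) (nat_lit 912) (nat_lit 6954202525) (nat_lit 376) (nat_lit 5) (nat_lit 387) (nat_lit 5) (nat_lit 388) (nat_lit 5) (nat_lit 596) (nat_lit 556) (nat_lit 408)))) (XT.nd (nat_lit 156) (nat_lit 836) (nat_lit 0) (XT.nd (nat_lit 78) (nat_lit 760) (nat_lit 0) (XT.lf (nat_lit 0) (nat_lit 8120716962) (nat_lit 912) (nat_lit 919205834) (nat_lit 76) (nat_lit 4058136292) (nat_lit 376) (nat_lit 5) (nat_lit 388) (nat_lit 5) (nat_lit 377) (nat_lit 5) (nat_lit 597) (nat_lit 556) (nat_lit 407)) (XT.lf (nat_lit 0) (nat_lit 6719076153) (nat_lit 760) (nat_lit 3598984681) (nat_lit 836) (nat_lit 2919684544) (nat_lit 366) (nat_lit 5) (nat_lit 376) (nat_lit 5) (nat_lit 377) (nat_lit 5) (nat_lit 598) (nat_lit 556) (nat_lit 406))) (XT.nd (nat_lit 78) (nat_lit 76) (nat_lit 0) (XT.lf (nat_lit 0) (nat_lit 1131261142) (nat_lit 760) (nat_lit 11442089611) (nat_lit 836) (nat_lit 806595322) (nat_lit 356) (nat_lit 5) (nat_lit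 366) (nat_lit 5) (nat_lit 367) (nat_lit 5) (nat_lit 599) (nat_lit 556) (nat_lit 405)) (XT.lf (nat_lit 0) (nat_lit 1386786550) (nat_lit 836) (nat_lit 4547869627) (nat_lit 76) (nat_lit 7589045707) (nat_lit 355) (nat_lit 5) (nat_lit 366) (nat_lit 5) (nat_lit 356) (nat_lit 5) (nat_lit 600) (nat_lit 556) (nat_lit 404)))))) (XT.nd (nat_lit 546) (nat_lit 3192) (nat_lit 0) (XT.nd (nat_lit 234) (nat_lit 1444) (nat_lit 0) (XT.nd (nat_lit 78) (nat_lit 760) (nat_lit 0) (XT.lf (nat_lit 0) (nat_lit 3332160351) (nat_lit 684) (nat_lit 290810589) (nat_lit 760) (nat_lit 10047061158) (nat_lit 346) (nat_lit 5) (nat_lit 355) (nat_lit 5) (nat_lit 356) (nat_lit 5) (nat_lit 601) (nat_lit 556) (nat_lit 403)) (XT.nd (nat_lit 78) (nat_lit 760) (nat_lit 0) (XT.lf (nat_lit 0) (nat_lit 5958318646) (nat_lit 760) (nat_lit 2436233014) (nat_lit 76) (nat_lit 5423649077) (nat_lit 346) (nat_lit 5) (nat_lit 356) (nat_lit 5) (nat_lit 347) (nat_lit 5) (nat_lit 602) (nat_lit 556) (nat_lit 402)) (XT.lf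 (nat_lit 0) (nat_lit 5683004523) (nat_lit 760) (nat_lit 2684653881) (nat_lit 836) (nat_lit 5601129245) (nat_lit 336) (nat_lit 5) (nat_lit 346) (nat_lit 5) (nat_lit 347) (nat_lit 5) (nat_lit 603) (nat_lit 556) (nat_lit 401)))) (XT.nd (nat_lit 156) (nat_lit 760) (nat_lit 0) (XT.nd (nat_lit 78) (nat_lit 684) (nat_lit 0) (XT.lf (nat_lit 0) (nat_lit 10850618341) (nat_lit 836) (nat_lit 158074638) (nat_lit 76) (nat_lit 3113185242) (nat_lit 336) (nat_lit 5) (nat_lit 347) (nat_lit 5) (nat_lit 337) (nat_lit 5) (nat_lit 604) (nat_lit 556) (nat_lit 400)) (XT.lf (nat_lit 0) (nat_lit 8209157458) (nat_lit 684) (nat_lit 5233975507) (nat_lit 760) (nat_lit 833700307) (nat_lit 327) (nat_lit 5) (nat_lit 336) (nat_lit 5) (nat_lit 337) (nat_lit 5) (nat_lit 605) (nat_lit 556) (nat_lit 399))) (XT.nd (nat_lit 78) (nat_lit 0) (nat_lit 0) (XT.lf (nat_lit 0) (nat_lit 1640357671) (nat_lit 760) (nat_lit 12121308462) (nat_lit 76) (nat_lit 672818819) (nat_lit 317) (nat_lit 5) (nat_lit 327)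 (nat_lit 5) (nat_lit 318) (nat_lit 5) (nat_lit 606) (nat_lit 556) (nat_lit 398)) (XT.lf (nat_lit 0) (nat_lit 4217394266) (nat_lit 760) (nat_lit 3704135312) (nat_lit 76) (nat_lit 6672357204) (nat_lit 317) (nat_lit 5) (nat_lit 327) (nat_lit 5) (nat_lit 318) (nat_lit 5) (nat_lit 607) (nat_lit 556) (nat_lit 397))))) (XT.nd (nat_lit 312) (nat_lit 1216) (nat_lit 0) (XT.nd (nat_lit 156) (nat_lit 1368) (nat_lit 0) (XT.nd (nat_lit 78) (nat_lit 0) (nat_lit 0) (XT.lf (nat_lit 0) (nat_lit 4933236645) (nat_lit 608) (nat_lit 1933981685) (nat_lit 684) (nat_lit 7888833917) (nat_lit 309) (nat_lit 5) (nat_lit 317) (nat_lit 5) (nat_lit 318) (nat_lit 5) (nat_lit 608) (nat_lit 556) (nat_lit 396)) (XT.lf (nat_lit 0) (nat_lit 9611487934) (nat_lit 684) (nat_lit 1167618250) (nat_lit 76) (nat_lit 4141526379) (nat_lit 309) (nat_lit 5) (nat_lit 318) (nat_lit 5) (nat_lit 310) (nat_lit 5) (nat_lit 609) (nat_lit 556) (nat_lit 395))) (XT.nd (nat_lit 78) (nat_lit 684) (nat_lit 0) (XT.lf (nat_lit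 0) (nat_lit 7736636348) (nat_lit 684) (nat_lit 4726586766) (nat_lit 760) (nat_lit 2624230283) (nat_lit 300) (nat_lit 5) (nat_lit 309) (nat_lit 5) (nat_lit 310) (nat_lit 5) (nat_lit 610) (nat_lit 556) (nat_lit 394)) (XT.lf (nat_lit 0) (nat_lit 130157464) (nat_lit 684) (nat_lit 13682370133) (nat_lit 76) (nat_lit 1444723185) (nat_lit 291) (nat_lit 5) (nat_lit 300) (nat_lit 5) (nat_lit 292) (nat_lit 5) (nat_lit 611) (nat_lit 556) (nat_lit 393)))) (XT.nd (nat_lit 156) (nat_lit 608) (nat_lit 0) (XT.nd (nat_lit 78) (nat_lit 608) (nat_lit 0) (XT.lf (nat_lit 0) (nat_lit 2975185116) (nat_lit 684) (nat_lit 4712598646) (nat_lit 76) (nat_lit 7740900100) (nat_lit 291) (nat_lit 5) (nat_lit 300) (nat_lit 5) (nat_lit 292) (nat_lit 5) (nat_lit 612) (nat_lit 556) (nat_lit 392)) (XT.lf (nat_lit 0) (nat_lit 4482744515) (nat_lit 608) (nat_lit 1413377013) (nat_lit 684) (nat_lit 9707044386) (nat_lit 283) (nat_lit 5) (nat_lit 291) (nat_lit 5) (nat_lit 292) (nat_lit 5) (nat_lit 613)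 (nat_lit 556) (nat_lit 391))) (XT.nd (nat_lit 78) (nat_lit 608) (nat_lit 0) (XT.lf (nat_lit 0) (nat_lit 8929689188) (nat_lit 684) (nat_lit 1899931535) (nat_lit 76) (nat_lit 4950433100) (nat_lit 283) (nat_lit 5) (nat_lit 292) (nat_lit 5) (nat_lit 284) (nat_lit 5) (nat_lit 614) (nat_lit 556) (nat_lit 390)) (XT.lf (nat_lit 0) (nat_lit 7582588109) (nat_lit 608) (nat_lit 4490130697) (nat_lit 684) (nat_lit 3886785326) (nat_lit 275) (nat_lit 5) (nat_lit 283) (nat_lit 5) (nat_lit 284) (nat_lit 5) (nat_lit 615) (nat_lit 556) (nat_lit 389))))))))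
noncomputable def xc147 : XT := (XT.nd (nat_lit 2262) (nat_lit 5092) (nat_lit 0) (XT.nd (nat_lit 1092) (nat_lit 4332) (nat_lit 0) (XT.nd (nat_lit 546) (nat_lit 2052) (nat_lit 0) (XT.nd (nat_lit 234) (nat_lit 1140) (nat_lit 0) (XT.nd (nat_lit 78) (nat_lit 608) (nat_lit 0) (XT.lf (nat_lit 0) (nat_lit 1127535066) (nat_lit 608) (nat_lit 14174352660) (nat_lit 684) (nat_lit 840190594) (nat_lit 267) (nat_lit 5) (nat_lit 275) (nat_lit 5) (nat_lit 276) (nat_lit 5) (nat_lit 616) (nat_lit 556) (nat_lit 388)) (XT.nd (nat_lit 78) (nat_lit 532) (nat_lit 0) (XT.lf (nat_lit 0) (nat_lit 2314260136) (nat_lit 684) (nat_lit 5448990325) (nat_lit 76) (nat_lit 8563226328) (nat_lit 266) (nat_lit 5) (nat_lit 275) (nat_lit 5) (nat_lit 267) (nat_lit 5) (nat_lit 617) (nat_lit 556) (nat_lit 387)) (XT.lf (nat_lit 0) (nat_lit 4346960068) (nat_lit 532) (nat_lit 1192351828) (nat_lit 608) (nat_lit 10974765434) (nat_lit 259) (nat_lit 5) (nat_lit 266) (nat_lit 5) (nat_lit 267) (nat_lit 5) (nat_lit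 618) (nat_lit 556) (nat_lit 386)))) (XT.nd (nat_lit 156) (nat_lit 608) (nat_lit 0) (XT.nd (nat_lit 78) (nat_lit 532) (nat_lit 0) (XT.lf (nat_lit 0) (nat_lit 8892062168) (nat_lit 608) (nat_lit 2340471177) (nat_lit 76) (nat_lit 5471633000) (nat_lit 259) (nat_lit 5) (nat_lit 267) (nat_lit 5) (nat_lit 260) (nat_lit 5) (nat_lit 619) (nat_lit 556) (nat_lit 385)) (XT.lf (nat_lit 0) (nat_lit 7764439487) (nat_lit 532) (nat_lit 4596535612) (nat_lit 608) (nat_lit 4536100295) (nat_lit 252) (nat_lit 5) (nat_lit 259) (nat_lit 5) (nat_lit 260) (nat_lit 5) (nat_lit 620) (nat_lit 556) (nat_lit 384))) (XT.nd (nat_lit 78) (nat_lit 76) (nat_lit 0) (XT.lf (nat_lit 0) (nat_lit 996217434) (nat_lit 532) (nat_lit 14930311454) (nat_lit 608) (nat_lit 1166768879) (nat_lit 245) (nat_lit 5) (nat_lit 252) (nat_lit 5) (nat_lit 253) (nat_lit 5) (nat_lit 621) (nat_lit 556) (nat_lit 383)) (XT.lf (nat_lit 0) (nat_lit 2323230538) (nat_lit 608) (nat_lit 5898686920) (nat_lit 76) (nat_lit 9069571708)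 (nat_lit 244) (nat_lit 5) (nat_lit 252) (nat_lit 5) (nat_lit 245) (nat_lit 5) (nat_lit 622) (nat_lit 556) (nat_lit 382))))) (XT.nd (nat_lit 234) (nat_lit 1064) (nat_lit 0) (XT.nd (nat_lit 78) (nat_lit 456) (nat_lit 0) (XT.lf (nat_lit 0) (nat_lit 4543450642) (nat_lit 532) (nat_lit 1344568866) (nat_lit 608) (nat_lit 11605058759) (nat_lit 237) (nat_lit 5) (nat_lit 244) (nat_lit 5) (nat_lit 245) (nat_lit 5) (nat_lit 623) (nat_lit 556) (nat_lit 381)) (XT.nd (nat_lit 78) (nat_lit 456) (nat_lit 0) (XT.lf (nat_lit 0) (nat_lit 9591939918) (nat_lit 608) (nat_lit 2472757053) (nat_lit 76) (nat_lit 5632645833) (nat_lit 237) (nat_lit 5) (nat_lit 245) (nat_lit 5) (nat_lit 238) (nat_lit 5) (nat_lit 624) (nat_lit 556) (nat_lit 380)) (XT.lf (nat_lit 0) (nat_lit 8301702156) (nat_lit 456) (nat_lit 5122388912) (nat_lit 532) (nat_lit 4480518876) (nat_lit 231) (nat_lit 5) (nat_lit 237) (nat_lit 5) (nat_lit 238) (nat_lit 5) (nat_lit 625) (nat_lit 556) (nat_lit 379)))) (XT.nd (nat_lit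 156) (nat_lit 456) (nat_lit 0) (XT.nd (nat_lit 78) (nat_lit 76) (nat_lit 0) (XT.lf (nat_lit 0) (nat_lit 1200400400) (nat_lit 532) (nat_lit 16161118806) (nat_lit 608) (nat_lit 753930894) (nat_lit 224) (nat_lit 5) (nat_lit 231) (nat_lit 5) (nat_lit 232) (nat_lit 5) (nat_lit 626) (nat_lit 556) (nat_lit 378)) (XT.lf (nat_lit 0) (nat_lit 3097468342) (nat_lit 608) (nat_lit 6045437232) (nat_lit 76) (nat_lit 9185401258) (nat_lit 223) (nat_lit 5) (nat_lit 231) (nat_lit 5) (nat_lit 224) (nat_lit 5) (nat_lit 627) (nat_lit 556) (nat_lit 377))) (XT.nd (nat_lit 78) (nat_lit 0) (nat_lit 0) (XT.lf (nat_lit 0) (nat_lit 5091557687) (nat_lit 456) (nat_lit 1948931020) (nat_lit 532) (nat_lit 11504338888) (nat_lit 217) (nat_lit 5) (nat_lit 223) (nat_lit 5) (nat_lit 224) (nat_lit 5) (nat_lit 628) (nat_lit 556) (nat_lit 376)) (XT.lf (nat_lit 0) (nat_lit 11129881730) (nat_lit 532) (nat_lit 2278744424) (nat_lit 76) (nat_lit 5355702699) (nat_lit 217) (nat_lit 5) (nat_lit 224) (nat_lit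 5) (nat_lit 218) (nat_lit 5) (nat_lit 629) (nat_lit 556) (nat_lit 375)))))) (XT.nd (nat_lit 546) (nat_lit 1976) (nat_lit 0) (XT.nd (nat_lit 234) (nat_lit 1368) (nat_lit 0) (XT.nd (nat_lit 78) (nat_lit 532) (nat_lit 0) (XT.lf (nat_lit 0) (nat_lit 9215601677) (nat_lit 456) (nat_lit 6150051620) (nat_lit 532) (nat_lit 3621275345) (nat_lit 211) (nat_lit 5) (nat_lit 217) (nat_lit 5) (nat_lit 218) (nat_lit 5) (nat_lit 630) (nat_lit 556) (nat_lit 374)) (XT.nd (nat_lit 78) (nat_lit 0) (nat_lit 0) (XT.lf (nat_lit 0) (nat_lit 493018367) (nat_lit 532) (nat_lit 17456483256) (nat_lit 76) (nat_lit 1263876780) (nat_lit 204) (nat_lit 5) (nat_lit 211) (nat_lit 5) (nat_lit 205) (nat_lit 5) (nat_lit 631) (nat_lit 556) (nat_lit 373)) (XT.lf (nat_lit 0) (nat_lit 4739830318) (nat_lit 532) (nat_lit 5871776454) (nat_lit 76) (nat_lit 8830297531) (nat_lit 204) (nat_lit 5) (nat_lit 211) (nat_lit 5) (nat_lit 205) (nat_lit 5) (nat_lit 632) (nat_lit 556) (nat_lit 372)))) (XT.nd (nat_lit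 156) (nat_lit 912) (nat_lit 0) (XT.nd (nat_lit 78) (nat_lit 0) (nat_lit 0) (XT.lf (nat_lit 0) (nat_lit 6011982217) (nat_lit 456) (nat_lit 3090730170) (nat_lit 532) (nat_lit 10571665952) (nat_lit 198) (nat_lit 5) (nat_lit 204) (nat_lit 5) (nat_lit 205) (nat_lit 5) (nat_lit 633) (nat_lit 556) (nat_lit 371)) (XT.lf (nat_lit 0) (nat_lit 13614413356) (nat_lit 532) (nat_lit 1739253491) (nat_lit 76) (nat_lit 4556604070) (nat_lit 198) (nat_lit 5) (nat_lit 205) (nat_lit 5) (nat_lit 199) (nat_lit 5) (nat_lit 634) (nat_lit 556) (nat_lit 370))) (XT.nd (nat_lit 78) (nat_lit 532) (nat_lit 0) (XT.lf (nat_lit 0) (nat_lit 10528646888) (nat_lit 380) (nat_lit 7768840144) (nat_lit 456) (nat_lit 1851771826) (nat_lit 193) (nat_lit 5) (nat_lit 198) (nat_lit 5) (nat_lit 199) (nat_lit 5) (nat_lit 635) (nat_lit 556) (nat_lit 369)) (XT.lf (nat_lit 0) (nat_lit 2667586521) (nat_lit 532) (nat_lit 17713334753) (nat_lit 76) (nat_lit 11326288) (nat_lit 186) (nat_lit 5) (nat_lit 193) (nat_lit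 5) (nat_lit 187) (nat_lit 5) (nat_lit 636) (nat_lit 556) (nat_lit 368))))) (XT.nd (nat_lit 312) (nat_lit 1140) (nat_lit 0) (XT.nd (nat_lit 156) (nat_lit 456) (nat_lit 0) (XT.nd (nat_lit 78) (nat_lit 380) (nat_lit 0) (XT.lf (nat_lit 0) (nat_lit 7361387616) (nat_lit 532) (nat_lit 5359509775) (nat_lit 76) (nat_lit 7916777095) (nat_lit 186) (nat_lit 5) (nat_lit 193) (nat_lit 5) (nat_lit 187) (nat_lit 5) (nat_lit 637) (nat_lit 556) (nat_lit 367)) (XT.lf (nat_lit 0) (nat_lit 7326298276) (nat_lit 380) (nat_lit 4862874272) (nat_lit 456) (nat_lit 8698035508) (nat_lit 181) (nat_lit 5) (nat_lit 186) (nat_lit 5) (nat_lit 187) (nat_lit 5) (nat_lit 638) (nat_lit 556) (nat_lit 366))) (XT.nd (nat_lit 78) (nat_lit 456) (nat_lit 0) (XT.lf (nat_lit 0) (nat_lit 17162774001) (nat_lit 456) (nat_lit 834475406) (nat_lit 76) (nat_lit 3143497930) (nat_lit 181) (nat_lit 5) (nat_lit 187) (nat_lit 5) (nat_lit 182) (nat_lit 5) (nat_lit 639) (nat_lit 556) (nat_lit 365)) (XT.lf (nat_lit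 0) (nat_lit 930778789) (nat_lit 456) (nat_lit 9139269743) (nat_lit 76) (nat_lit 11327095307) (nat_lit 175) (nat_lit 5) (nat_lit 181) (nat_lit 5) (nat_lit 176) (nat_lit 5) (nat_lit 640) (nat_lit 556) (nat_lit 364)))) (XT.nd (nat_lit 156) (nat_lit 760) (nat_lit 0) (XT.nd (nat_lit 78) (nat_lit 0) (nat_lit 0) (XT.lf (nat_lit 0) (nat_lit 3979604541) (nat_lit 380) (nat_lit 1929120688) (nat_lit 456) (nat_lit 15748931710) (nat_lit 170) (nat_lit 5) (nat_lit 175) (nat_lit 5) (nat_lit 176) (nat_lit 5) (nat_lit 641) (nat_lit 556) (nat_lit 363)) (XT.lf (nat_lit 0) (nat_lit 11082160014) (nat_lit 456) (nat_lit 4490286336) (nat_lit 76) (nat_lit 6349015601) (nat_lit 170) (nat_lit 5) (nat_lit 176) (nat_lit 5) (nat_lit 171) (nat_lit 5) (nat_lit 642) (nat_lit 556) (nat_lit 362))) (XT.nd (nat_lit 78) (nat_lit 380) (nat_lit 0) (XT.lf (nat_lit 0) (nat_lit 9056372937) (nat_lit 380) (nat_lit 7367212888) (nat_lit 456) (nat_lit 5765667023) (nat_lit 165) (nat_lit 5) (nat_lit 170) (nat_lit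 5) (nat_lit 171) (nat_lit 5) (nat_lit 643) (nat_lit 556) (nat_lit 361)) (XT.lf (nat_lit 0) (nat_lit 461475619) (nat_lit 380) (nat_lit 21443189181) (nat_lit 456) (nat_lit 557078498) (nat_lit 160) (nat_lit 5) (nat_lit 165) (nat_lit 5) (nat_lit 166) (nat_lit 5) (nat_lit 644) (nat_lit 556) (nat_lit 360))))))) (XT.nd (nat_lit 1170) (nat_lit 1824) (nat_lit 0) (XT.nd (nat_lit 546) (nat_lit 1748) (nat_lit 0) (XT.nd (nat_lit 234) (nat_lit 1064) (nat_lit 0) (XT.nd (nat_lit 78) (nat_lit 380) (nat_lit 0) (XT.lf (nat_lit 0) (nat_lit 4823822982) (nat_lit 456) (nat_lit 8323360782) (nat_lit 76) (nat_lit 9589272215) (nat_lit 159) (nat_lit 5) (nat_lit 165) (nat_lit 5) (nat_lit 160) (nat_lit 5) (nat_lit 645) (nat_lit 556) (nat_lit 359)) (XT.nd (nat_lit 78) (nat_lit 0) (nat_lit 0) (XT.lf (nat_lit 0) (nat_lit 5687271304) (nat_lit 380) (nat_lit 4647692601) (nat_lit 456) (nat_lit 12681023963) (nat_lit 154) (nat_lit 5) (nat_lit 159) (nat_lit 5) (nat_lit 160) (nat_lit 5) (nat_lit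 646) (nat_lit 556) (nat_lit 358)) (XT.lf (nat_lit 0) (nat_lit 16031852188) (nat_lit 456) (nat_lit 3246287642) (nat_lit 76) (nat_lit 4021460284) (nat_lit 154) (nat_lit 5) (nat_lit 160) (nat_lit 5) (nat_lit 155) (nat_lit 5) (nat_lit 647) (nat_lit 556) (nat_lit 357)))) (XT.nd (nat_lit 156) (nat_lit 304) (nat_lit 0) (XT.nd (nat_lit 78) (nat_lit 456) (nat_lit 0) (XT.lf (nat_lit 0) (nat_lit 11223668023) (nat_lit 304) (nat_lit 10715983090) (nat_lit 380) (nat_lit 1647294243) (nat_lit 150) (nat_lit 5) (nat_lit 154) (nat_lit 5) (nat_lit 155) (nat_lit 5) (nat_lit 648) (nat_lit 556) (nat_lit 356)) (XT.lf (nat_lit 0) (nat_lit 2138235958) (nat_lit 380) (nat_lit 1922901891) (nat_lit 456) (nat_lit 19817786280) (nat_lit 144) (nat_lit 5) (nat_lit 149) (nat_lit 5) (nat_lit 150) (nat_lit 5) (nat_lit 649) (nat_lit 556) (nat_lit 355))) (XT.nd (nat_lit 78) (nat_lit 304) (nat_lit 0) (XT.lf (nat_lit 0) (nat_lit 9984341074) (nat_lit 456) (nat_lit 7145521954) (nat_lit 76) (nat_lit 7044208677)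 (nat_lit 144) (nat_lit 5) (nat_lit 150) (nat_lit 5) (nat_lit 145) (nat_lit 5) (nat_lit 650) (nat_lit 556) (nat_lit 354)) (XT.lf (nat_lit 0) (nat_lit 7820995213) (nat_lit 304) (nat_lit 8262034571) (nat_lit 380) (nat_lit 8390952212) (nat_lit 140) (nat_lit 5) (nat_lit 144) (nat_lit 5) (nat_lit 145) (nat_lit 5) (nat_lit 651) (nat_lit 556) (nat_lit 353))))) (XT.nd (nat_lit 312) (nat_lit 988) (nat_lit 0) (XT.nd (nat_lit 156) (nat_lit 304) (nat_lit 0) (XT.nd (nat_lit 78) (nat_lit 456) (nat_lit 0) (XT.lf (nat_lit 0) (nat_lit 22350587651) (nat_lit 380) (nat_lit 1611058489) (nat_lit 76) (nat_lit 817306629) (nat_lit 140) (nat_lit 5) (nat_lit 145) (nat_lit 5) (nat_lit 141) (nat_lit 5) (nat_lit 652) (nat_lit 556) (nat_lit 352)) (XT.lf (nat_lit 0) (nat_lit 3744771371) (nat_lit 456) (nat_lit 11263499169) (nat_lit 76) (nat_lit 10078493912) (nat_lit 134) (nat_lit 5) (nat_lit 140) (nat_lit 5) (nat_lit 135) (nat_lit 5) (nat_lit 653) (nat_lit 556) (nat_lit 351))) (XT.nd (nat_lit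 78) (nat_lit 0) (nat_lit 0) (XT.lf (nat_lit 0) (nat_lit 4216505186) (nat_lit 304) (nat_lit 5824324961) (nat_lit 380) (nat_lit 15358941860) (nat_lit 130) (nat_lit 5) (nat_lit 134) (nat_lit 5) (nat_lit 135) (nat_lit 5) (nat_lit 654) (nat_lit 556) (nat_lit 350)) (XT.lf (nat_lit 0) (nat_lit 16555618427) (nat_lit 380) (nat_lit 5592516486) (nat_lit 76) (nat_lit 3569048805) (nat_lit 130) (nat_lit 5) (nat_lit 135) (nat_lit 5) (nat_lit 131) (nat_lit 5) (nat_lit 655) (nat_lit 556) (nat_lit 349)))) (XT.nd (nat_lit 156) (nat_lit 304) (nat_lit 0) (XT.nd (nat_lit 78) (nat_lit 380) (nat_lit 0) (XT.lf (nat_lit 0) (nat_lit 10397775499) (nat_lit 304) (nat_lit 12902849401) (nat_lit 380) (nat_lit 2738320485) (nat_lit 126) (nat_lit 5) (nat_lit 130) (nat_lit 5) (nat_lit 131) (nat_lit 5) (nat_lit 656) (nat_lit 556) (nat_lit 348)) (XT.lf (nat_lit 0) (nat_lit 387275330) (nat_lit 304) (nat_lit 3410249020) (nat_lit 380) (nat_lit 22568439950) (nat_lit 121) (nat_lit 5) (nat_lit 125) (nat_lit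 5) (nat_lit 126) (nat_lit 5) (nat_lit 657) (nat_lit 556) (nat_lit 347))) (XT.nd (nat_lit 78) (nat_lit 304) (nat_lit 0) (XT.lf (nat_lit 0) (nat_lit 10567719718) (nat_lit 380) (nat_lit 9818783687) (nat_lit 76) (nat_lit 6309852345) (nat_lit 121) (nat_lit 5) (nat_lit 126) (nat_lit 5) (nat_lit 122) (nat_lit 5) (nat_lit 658) (nat_lit 556) (nat_lit 346)) (XT.lf (nat_lit 0) (nat_lit 6719951039) (nat_lit 304) (nat_lit 10813589217) (nat_lit 380) (nat_lit 9498610504) (nat_lit 117) (nat_lit 5) (nat_lit 121) (nat_lit 5) (nat_lit 122) (nat_lit 5) (nat_lit 659) (nat_lit 556) (nat_lit 345)))))) (XT.nd (nat_lit 546) (nat_lit 608) (nat_lit 0) (XT.nd (nat_lit 234) (nat_lit 608) (nat_lit 0) (XT.nd (nat_lit 78) (nat_lit 608) (nat_lit 0) (XT.lf (nat_lit 0) (nat_lit 23712704306) (nat_lit 304) (nat_lit 985922113) (nat_lit 380) (nat_lit 2674836422) (nat_lit 117) (nat_lit 5) (nat_lit 121) (nat_lit 5) (nat_lit 122) (nat_lit 5) (nat_lit 660) (nat_lit 556) (nat_lit 344)) (XT.nd (nat_lit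 78) (nat_lit 304) (nat_lit 0) (XT.lf (nat_lit 0) (nat_lit 4370176423) (nat_lit 304) (nat_lit 14316118043) (nat_lit 76) (nat_lit 9031931023) (nat_lit 113) (nat_lit 5) (nat_lit 117) (nat_lit 5) (nat_lit 114) (nat_lit 5) (nat_lit 661) (nat_lit 556) (nat_lit 343)) (XT.lf (nat_lit 0) (nat_lit 2788867162) (nat_lit 304) (nat_lit 8774969369) (nat_lit 380) (nat_lit 16504822130) (nat_lit 109) (nat_lit 5) (nat_lit 113) (nat_lit 5) (nat_lit 114) (nat_lit 5) (nat_lit 662) (nat_lit 556) (nat_lit 342)))) (XT.nd (nat_lit 156) (nat_lit 380) (nat_lit 0) (XT.nd (nat_lit 78) (nat_lit 228) (nat_lit 0) (XT.lf (nat_lit 0) (nat_lit 19000930567) (nat_lit 380) (nat_lit 8013260086) (nat_lit 76) (nat_lit 1409918770) (nat_lit 109) (nat_lit 5) (nat_lit 114) (nat_lit 5) (nat_lit 110) (nat_lit 5) (nat_lit 663) (nat_lit 556) (nat_lit 341)) (XT.lf (nat_lit 0) (nat_lit 9657551496) (nat_lit 228) (nat_lit 17044335330) (nat_lit 304) (nat_lit 2082480107) (nat_lit 106) (nat_lit 5) (nat_lit 109)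 (nat_lit 5) (nat_lit 110) (nat_lit 5) (nat_lit 664) (nat_lit 556) (nat_lit 340))) (XT.nd (nat_lit 78) (nat_lit 304) (nat_lit 0) (XT.lf (nat_lit 0) (nat_lit 5382590923) (nat_lit 304) (nat_lit 1405413250) (nat_lit 76) (nat_lit 22362154767) (nat_lit 105) (nat_lit 5) (nat_lit 109) (nat_lit 5) (nat_lit 106) (nat_lit 5) (nat_lit 665) (nat_lit 556) (nat_lit 339)) (XT.lf (nat_lit 0) (nat_lit 13097696641) (nat_lit 380) (nat_lit 12677118605) (nat_lit 76) (nat_lit 3745604014) (nat_lit 101) (nat_lit 5) (nat_lit 106) (nat_lit 5) (nat_lit 102) (nat_lit 5) (nat_lit 666) (nat_lit 556) (nat_lit 338))))) (XT.nd (nat_lit 72696) (nat_lit 0) (nat_lit 34200) (XT.nd (nat_lit 156) (nat_lit 380) (nat_lit 0) (XT.nd (nat_lit 78) (nat_lit 0) (nat_lit 0) (XT.lf (nat_lit 0) (nat_lit 5597087763) (nat_lit 228) (nat_lit 15455255867) (nat_lit 304) (nat_lit 8844036501) (nat_lit 98) (nat_lit 5) (nat_lit 101) (nat_lit 5) (nat_lit 102) (nat_lit 5) (nat_lit 667) (nat_lit 556) (nat_lit 337)) (XT.lf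 (nat_lit 0) (nat_lit 24399235744) (nat_lit 228) (nat_lit 4846417772) (nat_lit 304) (nat_lit 1032615432) (nat_lit 98) (nat_lit 5) (nat_lit 101) (nat_lit 5) (nat_lit 102) (nat_lit 5) (nat_lit 668) (nat_lit 556) (nat_lit 336))) (XT.nd (nat_lit 72462) (nat_lit 0) (nat_lit 35720) (XT.lf (nat_lit 0) (nat_lit 6962850597) (nat_lit 380) (nat_lit 17678764125) (nat_lit 76) (nat_lit 6022904987) (nat_lit 93) (nat_lit 5) (nat_lit 98) (nat_lit 5) (nat_lit 94) (nat_lit 5) (nat_lit 669) (nat_lit 556) (nat_lit 335)) (XT.lf (nat_lit 0) (nat_lit 3066729944) (nat_lit 1596) (nat_lit 732229367) (nat_lit 1596) (nat_lit 732229367) (nat_lit 563) (nat_lit 3) (nat_lit 584) (nat_lit 3) (nat_lit 584) (nat_lit 5) (nat_lit 557) (nat_lit 557) (nat_lit 446)))) (XT.nd (nat_lit 156) (nat_lit 1520) (nat_lit 0) (XT.nd (nat_lit 78) (nat_lit 0) (nat_lit 0) (XT.lf (nat_lit 76) (nat_lit 3073355555) (nat_lit 0) (nat_lit 4026813308) (nat_lit 1596) (nat_lit 2034664294) (nat_lit 564) (nat_lit 5) (nat_lit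 563) (nat_lit 3) (nat_lit 584) (nat_lit 5) (nat_lit 558) (nat_lit 557) (nat_lit 445)) (XT.lf (nat_lit 76) (nat_lit 7709774348) (nat_lit 0) (nat_lit 362962138) (nat_lit 1596) (nat_lit 1136272681) (nat_lit 564) (nat_lit 5) (nat_lit 563) (nat_lit 3) (nat_lit 584) (nat_lit 5) (nat_lit 559) (nat_lit 557) (nat_lit 444))) (XT.nd (nat_lit 78) (nat_lit 1596) (nat_lit 0) (XT.lf (nat_lit 76) (nat_lit 3161511326) (nat_lit 0) (nat_lit 5922904116) (nat_lit 1596) (nat_lit 199861612) (nat_lit 565) (nat_lit 5) (nat_lit 564) (nat_lit 5) (nat_lit 585) (nat_lit 5) (nat_lit 560) (nat_lit 557) (nat_lit 443)) (XT.lf (nat_lit 0) (nat_lit 735346439) (nat_lit 1596) (nat_lit 1444946592) (nat_lit 1672) (nat_lit 7180861201) (nat_lit 543) (nat_lit 5) (nat_lit 564) (nat_lit 5) (nat_lit 565) (nat_lit 5) (nat_lit 561) (nat_lit 557) (nat_lit 442))))))))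
noncomputable def xc148 : XT := (XT.nd (nat_lit 2262) (nat_lit 12312) (nat_lit 0) (XT.nd (nat_lit 1092) (nat_lit 7904) (nat_lit 0) (XT.nd (nat_lit 546) (nat_lit 1444) (nat_lit 0) (XT.nd (nat_lit 234) (nat_lit 0) (nat_lit 76) (XT.nd (nat_lit 78) (nat_lit 0) (nat_lit 0) (XT.lf (nat_lit 0) (nat_lit 1697112201) (nat_lit 1596) (nat_lit 6093538644) (nat_lit 1672) (nat_lit 1648682558) (nat_lit 544) (nat_lit 5) (nat_lit 565) (nat_lit 5) (nat_lit 566) (nat_lit 5) (nat_lit 562) (nat_lit 557) (nat_lit 441)) (XT.nd (nat_lit 78) (nat_lit 0) (nat_lit 0) (XT.lf (nat_lit 0) (nat_lit 2680615094) (nat_lit 1596) (nat_lit 1294138769) (nat_lit 1672) (nat_lit 5544273696) (nat_lit 544) (nat_lit 5) (nat_lit 565) (nat_lit 5) (nat_lit 566) (nat_lit 5) (nat_lit 563) (nat_lit 557) (nat_lit 440)) (XT.lf (nat_lit 76) (nat_lit 3636500435) (nat_lit 0) (nat_lit 49625852) (nat_lit 1672) (nat_lit 5914143953) (nat_lit 545) (nat_lit 5) (nat_lit 544) (nat_lit 5) (nat_lit 566) (nat_lit 5) (nat_lit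 564) (nat_lit 557) (nat_lit 439)))) (XT.nd (nat_lit 156) (nat_lit 0) (nat_lit 76) (XT.nd (nat_lit 78) (nat_lit 0) (nat_lit 0) (XT.lf (nat_lit 0) (nat_lit 4725281792) (nat_lit 1596) (nat_lit 1038234745) (nat_lit 1672) (nat_lit 3919351939) (nat_lit 545) (nat_lit 5) (nat_lit 566) (nat_lit 5) (nat_lit 567) (nat_lit 5) (nat_lit 565) (nat_lit 557) (nat_lit 438)) (XT.lf (nat_lit 76) (nat_lit 4025695840) (nat_lit 0) (nat_lit 1765520310) (nat_lit 1672) (nat_lit 3975783965) (nat_lit 546) (nat_lit 5) (nat_lit 545) (nat_lit 5) (nat_lit 567) (nat_lit 5) (nat_lit 566) (nat_lit 557) (nat_lit 437))) (XT.nd (nat_lit 78) (nat_lit 0) (nat_lit 0) (XT.lf (nat_lit 0) (nat_lit 6880395786) (nat_lit 1596) (nat_lit 675711923) (nat_lit 1672) (nat_lit 2296669474) (nat_lit 546) (nat_lit 5) (nat_lit 567) (nat_lit 5) (nat_lit 568) (nat_lit 5) (nat_lit 567) (nat_lit 557) (nat_lit 436)) (XT.lf (nat_lit 76) (nat_lit 4526160067) (nat_lit 0) (nat_lit 3486571577) (nat_lit 1672) (nat_lit 1927111998)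 (nat_lit 547) (nat_lit 5) (nat_lit 546) (nat_lit 5) (nat_lit 568) (nat_lit 5) (nat_lit 568) (nat_lit 557) (nat_lit 435))))) (XT.nd (nat_lit 234) (nat_lit 0) (nat_lit 76) (XT.nd (nat_lit 78) (nat_lit 1672) (nat_lit 0) (XT.lf (nat_lit 0) (nat_lit 9157234199) (nat_lit 1596) (nat_lit 204726480) (nat_lit 1672) (nat_lit 666901627) (nat_lit 547) (nat_lit 5) (nat_lit 568) (nat_lit 5) (nat_lit 569) (nat_lit 5) (nat_lit 569) (nat_lit 557) (nat_lit 434)) (XT.nd (nat_lit 78) (nat_lit 0) (nat_lit 0) (XT.lf (nat_lit 0) (nat_lit 240007748) (nat_lit 1672) (nat_lit 4980556182) (nat_lit 1748) (nat_lit 4898317416) (nat_lit 525) (nat_lit 5) (nat_lit 547) (nat_lit 5) (nat_lit 548) (nat_lit 5) (nat_lit 570) (nat_lit 557) (nat_lit 433)) (XT.lf (nat_lit 76) (nat_lit 366401258) (nat_lit 0) (nat_lit 980763030) (nat_lit 1748) (nat_lit 8863723270) (nat_lit 526) (nat_lit 5) (nat_lit 525) (nat_lit 5) (nat_lit 548) (nat_lit 5) (nat_lit 571) (nat_lit 557) (nat_lit 432)))) (XT.nd (nat_lit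 156) (nat_lit 0) (nat_lit 76) (XT.nd (nat_lit 78) (nat_lit 0) (nat_lit 0) (XT.lf (nat_lit 0) (nat_lit 2513326137) (nat_lit 1672) (nat_lit 4451472105) (nat_lit 1748) (nat_lit 3339199588) (nat_lit 526) (nat_lit 5) (nat_lit 548) (nat_lit 5) (nat_lit 549) (nat_lit 5) (nat_lit 572) (nat_lit 557) (nat_lit 431)) (XT.lf (nat_lit 76) (nat_lit 1043568823) (nat_lit 0) (nat_lit 2654383938) (nat_lit 1748) (nat_lit 6701115871) (nat_lit 527) (nat_lit 5) (nat_lit 526) (nat_lit 5) (nat_lit 549) (nat_lit 5) (nat_lit 573) (nat_lit 557) (nat_lit 430))) (XT.nd (nat_lit 78) (nat_lit 0) (nat_lit 0) (XT.lf (nat_lit 0) (nat_lit 4929827509) (nat_lit 1672) (nat_lit 3811431117) (nat_lit 1748) (nat_lit 1754312246) (nat_lit 527) (nat_lit 5) (nat_lit 549) (nat_lit 5) (nat_lit 550) (nat_lit 5) (nat_lit 574) (nat_lit 557) (nat_lit 429)) (XT.lf (nat_lit 76) (nat_lit 1836964175) (nat_lit 0) (nat_lit 4361404867) (nat_lit 1748) (nat_lit 4395394640) (nat_lit 528) (nat_lit 5) (nat_lit 527) (nat_lit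 5) (nat_lit 550) (nat_lit 5) (nat_lit 575) (nat_lit 557) (nat_lit 428)))))) (XT.nd (nat_lit 546) (nat_lit 6460) (nat_lit 0) (XT.nd (nat_lit 234) (nat_lit 1672) (nat_lit 0) (XT.nd (nat_lit 78) (nat_lit 0) (nat_lit 0) (XT.lf (nat_lit 0) (nat_lit 7501525698) (nat_lit 1672) (nat_lit 3057629551) (nat_lit 1748) (nat_lit 134581302) (nat_lit 528) (nat_lit 5) (nat_lit 550) (nat_lit 5) (nat_lit 551) (nat_lit 5) (nat_lit 576) (nat_lit 557) (nat_lit 427)) (XT.nd (nat_lit 78) (nat_lit 0) (nat_lit 0) (XT.lf (nat_lit 76) (nat_lit 2749608647) (nat_lit 0) (nat_lit 6111019344) (nat_lit 1748) (nat_lit 1934484303) (nat_lit 529) (nat_lit 5) (nat_lit 528) (nat_lit 5) (nat_lit 551) (nat_lit 5) (nat_lit 577) (nat_lit 557) (nat_lit 426)) (XT.lf (nat_lit 76) (nat_lit 8701431429) (nat_lit 0) (nat_lit 1549391956) (nat_lit 1748) (nat_lit 647614994) (nat_lit 529) (nat_lit 5) (nat_lit 528) (nat_lit 5) (nat_lit 551) (nat_lit 5) (nat_lit 578) (nat_lit 557) (nat_lit 425)))) (XT.nd (nat_lit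 156) (nat_lit 0) (nat_lit 76) (XT.nd (nat_lit 78) (nat_lit 0) (nat_lit 0) (XT.lf (nat_lit 0) (nat_lit 684922520) (nat_lit 1748) (nat_lit 7222921612) (nat_lit 1824) (nat_lit 3095328463) (nat_lit 506) (nat_lit 5) (nat_lit 529) (nat_lit 5) (nat_lit 530) (nat_lit 5) (nat_lit 579) (nat_lit 557) (nat_lit 424)) (XT.lf (nat_lit 0) (nat_lit 2044417386) (nat_lit 1748) (nat_lit 1230749757) (nat_lit 1824) (nat_lit 7834570159) (nat_lit 506) (nat_lit 5) (nat_lit 529) (nat_lit 5) (nat_lit 530) (nat_lit 5) (nat_lit 580) (nat_lit 557) (nat_lit 423))) (XT.nd (nat_lit 78) (nat_lit 0) (nat_lit 0) (XT.lf (nat_lit 0) (nat_lit 3456961176) (nat_lit 1748) (nat_lit 6294764832) (nat_lit 76) (nat_lit 1466191083) (nat_lit 507) (nat_lit 5) (nat_lit 530) (nat_lit 5) (nat_lit 508) (nat_lit 5) (nat_lit 581) (nat_lit 557) (nat_lit 422)) (XT.lf (nat_lit 0) (nat_lit 4912188130) (nat_lit 1748) (nat_lit 146240746) (nat_lit 76) (nat_lit 6269543901) (nat_lit 507) (nat_lit 5) (nat_lit 530) (nat_lit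 5) (nat_lit 508) (nat_lit 5) (nat_lit 582) (nat_lit 557) (nat_lit 421))))) (XT.nd (nat_lit 312) (nat_lit 1900) (nat_lit 0) (XT.nd (nat_lit 156) (nat_lit 1064) (nat_lit 0) (XT.nd (nat_lit 78) (nat_lit 1824) (nat_lit 0) (XT.lf (nat_lit 0) (nat_lit 6193525808) (nat_lit 1748) (nat_lit 227940376) (nat_lit 1824) (nat_lit 5018265391) (nat_lit 484) (nat_lit 5) (nat_lit 507) (nat_lit 5) (nat_lit 508) (nat_lit 5) (nat_lit 583) (nat_lit 557) (nat_lit 420)) (XT.lf (nat_lit 0) (nat_lit 1078808289) (nat_lit 1824) (nat_lit 6905587737) (nat_lit 1900) (nat_lit 3568861111) (nat_lit 460) (nat_lit 5) (nat_lit 484) (nat_lit 5) (nat_lit 485) (nat_lit 5) (nat_lit 584) (nat_lit 557) (nat_lit 419))) (XT.nd (nat_lit 78) (nat_lit 1064) (nat_lit 0) (XT.lf (nat_lit 0) (nat_lit 7586805464) (nat_lit 1824) (nat_lit 2013657157) (nat_lit 1900) (nat_lit 2068153919) (nat_lit 460) (nat_lit 5) (nat_lit 484) (nat_lit 5) (nat_lit 485) (nat_lit 5) (nat_lit 585) (nat_lit 557) (nat_lit 418)) (XT.lf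 (nat_lit 0) (nat_lit 2438186871) (nat_lit 1064) (nat_lit 8831292334) (nat_lit 1140) (nat_lit 516392229) (nat_lit 446) (nat_lit 5) (nat_lit 460) (nat_lit 5) (nat_lit 461) (nat_lit 5) (nat_lit 586) (nat_lit 557) (nat_lit 417)))) (XT.nd (nat_lit 156) (nat_lit 912) (nat_lit 0) (XT.nd (nat_lit 78) (nat_lit 912) (nat_lit 0) (XT.lf (nat_lit 0) (nat_lit 1078906305) (nat_lit 1140) (nat_lit 2794702416) (nat_lit 76) (nat_lit 8031195317) (nat_lit 445) (nat_lit 5) (nat_lit 460) (nat_lit 5) (nat_lit 446) (nat_lit 5) (nat_lit 587) (nat_lit 557) (nat_lit 416)) (XT.lf (nat_lit 0) (nat_lit 2718426159) (nat_lit 988) (nat_lit 8109306359) (nat_lit 76) (nat_lit 1197930737) (nat_lit 433) (nat_lit 5) (nat_lit 446) (nat_lit 5) (nat_lit 434) (nat_lit 5) (nat_lit 588) (nat_lit 557) (nat_lit 415))) (XT.nd (nat_lit 78) (nat_lit 912) (nat_lit 0) (XT.lf (nat_lit 0) (nat_lit 4421330177) (nat_lit 988) (nat_lit 1388015501) (nat_lit 76) (nat_lit 6338982912) (nat_lit 433) (nat_lit 5) (nat_lit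 446) (nat_lit 5) (nat_lit 434) (nat_lit 5) (nat_lit 589) (nat_lit 557) (nat_lit 414)) (XT.lf (nat_lit 0) (nat_lit 5527256836) (nat_lit 912) (nat_lit 653257945) (nat_lit 988) (nat_lit 6092488796) (nat_lit 421) (nat_lit 5) (nat_lit 433) (nat_lit 5) (nat_lit 434) (nat_lit 5) (nat_lit 590) (nat_lit 557) (nat_lit 413))))))) (XT.nd (nat_lit 1092) (nat_lit 5852) (nat_lit 0) (XT.nd (nat_lit 546) (nat_lit 3040) (nat_lit 0) (XT.nd (nat_lit 234) (nat_lit 1748) (nat_lit 0) (XT.nd (nat_lit 78) (nat_lit 836) (nat_lit 0) (XT.lf (nat_lit 0) (nat_lit 158653288) (nat_lit 836) (nat_lit 7843065227) (nat_lit 912) (nat_lit 4397917614) (nat_lit 410) (nat_lit 5) (nat_lit 421) (nat_lit 5) (nat_lit 422) (nat_lit 5) (nat_lit 591) (nat_lit 557) (nat_lit 412)) (XT.nd (nat_lit 78) (nat_lit 836) (nat_lit 0) (XT.lf (nat_lit 0) (nat_lit 7275159673) (nat_lit 836) (nat_lit 2620455953) (nat_lit 912) (nat_lit 2632461085) (nat_lit 410) (nat_lit 5) (nat_lit 421) (nat_lit 5) (nat_lit 422) (nat_lit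 5) (nat_lit 592) (nat_lit 557) (nat_lit 411)) (XT.lf (nat_lit 0) (nat_lit 1868800907) (nat_lit 836) (nat_lit 9975262730) (nat_lit 912) (nat_lit 814689757) (nat_lit 399) (nat_lit 5) (nat_lit 410) (nat_lit 5) (nat_lit 411) (nat_lit 5) (nat_lit 593) (nat_lit 557) (nat_lit 410)))) (XT.nd (nat_lit 156) (nat_lit 836) (nat_lit 0) (XT.nd (nat_lit 78) (nat_lit 836) (nat_lit 0) (XT.lf (nat_lit 0) (nat_lit 1065693785) (nat_lit 912) (nat_lit 3624649615) (nat_lit 76) (nat_lit 8100768169) (nat_lit 398) (nat_lit 5) (nat_lit 410) (nat_lit 5) (nat_lit 399) (nat_lit 5) (nat_lit 594) (nat_lit 557) (nat_lit 409)) (XT.lf (nat_lit 0) (nat_lit 2988949568) (nat_lit 912) (nat_lit 9216118298) (nat_lit 76) (nat_lit 720618580) (nat_lit 387) (nat_lit 5) (nat_lit 399) (nat_lit 5) (nat_lit 388) (nat_lit 5) (nat_lit 595) (nat_lit 557) (nat_lit 408))) (XT.nd (nat_lit 78) (nat_lit 836) (nat_lit 0) (XT.lf (nat_lit 0) (nat_lit 4993686673) (nat_lit 912) (nat_lit 1867126030) (nat_lit 76) (nat_lit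 6201280484) (nat_lit 387) (nat_lit 5) (nat_lit 399) (nat_lit 5) (nat_lit 388) (nat_lit 5) (nat_lit 596) (nat_lit 557) (nat_lit 407)) (XT.lf (nat_lit 0) (nat_lit 5690696210) (nat_lit 836) (nat_lit 1372485713) (nat_lit 912) (nat_lit 6137553549) (nat_lit 376) (nat_lit 5) (nat_lit 387) (nat_lit 5) (nat_lit 388) (nat_lit 5) (nat_lit 597) (nat_lit 557) (nat_lit 406))))) (XT.nd (nat_lit 234) (nat_lit 1444) (nat_lit 0) (XT.nd (nat_lit 78) (nat_lit 836) (nat_lit 0) (XT.lf (nat_lit 0) (nat_lit 43192595) (nat_lit 760) (nat_lit 9159073052) (nat_lit 836) (nat_lit 4139321646) (nat_lit 366) (nat_lit 5) (nat_lit 376) (nat_lit 5) (nat_lit 377) (nat_lit 5) (nat_lit 598) (nat_lit 557) (nat_lit 405)) (XT.nd (nat_lit 78) (nat_lit 836) (nat_lit 0) (XT.lf (nat_lit 0) (nat_lit 7827224955) (nat_lit 760) (nat_lit 3604356608) (nat_lit 836) (nat_lit 2052726230) (nat_lit 366) (nat_lit 5) (nat_lit 376) (nat_lit 5) (nat_lit 377) (nat_lit 5) (nat_lit 599) (nat_lit 557) (nat_lit 404)) (XT.lf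 (nat_lit 0) (nat_lit 90237082) (nat_lit 836) (nat_lit 11491276032) (nat_lit 76) (nat_lit 2048047847) (nat_lit 355) (nat_lit 5) (nat_lit 366) (nat_lit 5) (nat_lit 356) (nat_lit 5) (nat_lit 600) (nat_lit 557) (nat_lit 403)))) (XT.nd (nat_lit 156) (nat_lit 760) (nat_lit 0) (XT.nd (nat_lit 78) (nat_lit 684) (nat_lit 0) (XT.lf (nat_lit 0) (nat_lit 2299006690) (nat_lit 836) (nat_lit 3661335932) (nat_lit 76) (nat_lit 7816097154) (nat_lit 355) (nat_lit 5) (nat_lit 366) (nat_lit 5) (nat_lit 356) (nat_lit 5) (nat_lit 601) (nat_lit 557) (nat_lit 402)) (XT.lf (nat_lit 0) (nat_lit 4369863783) (nat_lit 684) (nat_lit 199012920) (nat_lit 760) (nat_lit 9357041563) (nat_lit 346) (nat_lit 5) (nat_lit 355) (nat_lit 5) (nat_lit 356) (nat_lit 5) (nat_lit 602) (nat_lit 557) (nat_lit 401))) (XT.nd (nat_lit 78) (nat_lit 760) (nat_lit 0) (XT.lf (nat_lit 0) (nat_lit 6934426312) (nat_lit 760) (nat_lit 1516388139) (nat_lit 76) (nat_lit 5626566821) (nat_lit 346) (nat_lit 5) (nat_lit 356)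 (nat_lit 5) (nat_lit 347) (nat_lit 5) (nat_lit 603) (nat_lit 557) (nat_lit 400)) (XT.lf (nat_lit 0) (nat_lit 6758861981) (nat_lit 760) (nat_lit 2622535337) (nat_lit 836) (nat_lit 4849794591) (nat_lit 336) (nat_lit 5) (nat_lit 346) (nat_lit 5) (nat_lit 347) (nat_lit 5) (nat_lit 604) (nat_lit 557) (nat_lit 399)))))) (XT.nd (nat_lit 546) (nat_lit 3116) (nat_lit 0) (XT.nd (nat_lit 234) (nat_lit 1292) (nat_lit 0) (XT.nd (nat_lit 78) (nat_lit 760) (nat_lit 0) (XT.lf (nat_lit 0) (nat_lit 808601106) (nat_lit 684) (nat_lit 11094806704) (nat_lit 760) (nat_lit 2484149512) (nat_lit 327) (nat_lit 5) (nat_lit 336) (nat_lit 5) (nat_lit 337) (nat_lit 5) (nat_lit 605) (nat_lit 557) (nat_lit 398)) (XT.nd (nat_lit 78) (nat_lit 760) (nat_lit 0) (XT.lf (nat_lit 0) (nat_lit 9326262157) (nat_lit 684) (nat_lit 5206162748) (nat_lit 760) (nat_lit 13494367) (nat_lit 327) (nat_lit 5) (nat_lit 336) (nat_lit 5) (nat_lit 337) (nat_lit 5) (nat_lit 606) (nat_lit 557) (nat_lit 397)) (XT.lf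 (nat_lit 0) (nat_lit 2490011909) (nat_lit 760) (nat_lit 11390698521) (nat_lit 76) (nat_lit 826086834) (nat_lit 317) (nat_lit 5) (nat_lit 327) (nat_lit 5) (nat_lit 318) (nat_lit 5) (nat_lit 607) (nat_lit 557) (nat_lit 396)))) (XT.nd (nat_lit 156) (nat_lit 684) (nat_lit 0) (XT.nd (nat_lit 78) (nat_lit 608) (nat_lit 0) (XT.lf (nat_lit 0) (nat_lit 5102572627) (nat_lit 760) (nat_lit 2824261047) (nat_lit 76) (nat_lit 6942874582) (nat_lit 317) (nat_lit 5) (nat_lit 327) (nat_lit 5) (nat_lit 318) (nat_lit 5) (nat_lit 608) (nat_lit 557) (nat_lit 395)) (XT.lf (nat_lit 0) (nat_lit 5979582316) (nat_lit 608) (nat_lit 1816261270) (nat_lit 684) (nat_lit 7239465213) (nat_lit 309) (nat_lit 5) (nat_lit 317) (nat_lit 5) (nat_lit 318) (nat_lit 5) (nat_lit 609) (nat_lit 557) (nat_lit 394))) (XT.nd (nat_lit 78) (nat_lit 684) (nat_lit 0) (XT.lf (nat_lit 0) (nat_lit 10580478813) (nat_lit 684) (nat_lit 247313775) (nat_lit 76) (nat_lit 4375679293) (nat_lit 309) (nat_lit 5) (nat_lit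 318) (nat_lit 5) (nat_lit 310) (nat_lit 5) (nat_lit 610) (nat_lit 557) (nat_lit 393)) (XT.lf (nat_lit 0) (nat_lit 8828817647) (nat_lit 684) (nat_lit 4651286978) (nat_lit 760) (nat_lit 1893708134) (nat_lit 300) (nat_lit 5) (nat_lit 309) (nat_lit 5) (nat_lit 310) (nat_lit 5) (nat_lit 611) (nat_lit 557) (nat_lit 392))))) (XT.nd (nat_lit 312) (nat_lit 1824) (nat_lit 0) (XT.nd (nat_lit 156) (nat_lit 608) (nat_lit 0) (XT.nd (nat_lit 78) (nat_lit 0) (nat_lit 0) (XT.lf (nat_lit 0) (nat_lit 897613873) (nat_lit 684) (nat_lit 13000342924) (nat_lit 76) (nat_lit 1649106021) (nat_lit 291) (nat_lit 5) (nat_lit 300) (nat_lit 5) (nat_lit 292) (nat_lit 5) (nat_lit 612) (nat_lit 557) (nat_lit 391)) (XT.lf (nat_lit 0) (nat_lit 3784544956) (nat_lit 684) (nat_lit 3869914725) (nat_lit 76) (nat_lit 8067765526) (nat_lit 291) (nat_lit 5) (nat_lit 300) (nat_lit 5) (nat_lit 292) (nat_lit 5) (nat_lit 613) (nat_lit 557) (nat_lit 390))) (XT.nd (nat_lit 78) (nat_lit 0) (nat_lit 0) (XT.lf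 (nat_lit 0) (nat_lit 5503171247) (nat_lit 608) (nat_lit 1252068976) (nat_lit 684) (nat_lit 9145130565) (nat_lit 283) (nat_lit 5) (nat_lit 291) (nat_lit 5) (nat_lit 292) (nat_lit 5) (nat_lit 614) (nat_lit 557) (nat_lit 389)) (XT.lf (nat_lit 0) (nat_lit 9836152692) (nat_lit 684) (nat_lit 1012048365) (nat_lit 76) (nat_lit 5232862605) (nat_lit 283) (nat_lit 5) (nat_lit 292) (nat_lit 5) (nat_lit 284) (nat_lit 5) (nat_lit 615) (nat_lit 557) (nat_lit 388)))) (XT.nd (nat_lit 156) (nat_lit 608) (nat_lit 0) (XT.nd (nat_lit 78) (nat_lit 608) (nat_lit 0) (XT.lf (nat_lit 0) (nat_lit 8654030344) (nat_lit 608) (nat_lit 4379712493) (nat_lit 684) (nat_lit 3230526805) (nat_lit 275) (nat_lit 5) (nat_lit 283) (nat_lit 5) (nat_lit 284) (nat_lit 5) (nat_lit 616) (nat_lit 557) (nat_lit 387)) (XT.lf (nat_lit 0) (nat_lit 2076863247) (nat_lit 608) (nat_lit 14243814411) (nat_lit 684) (nat_lit 129954657) (nat_lit 267) (nat_lit 5) (nat_lit 275) (nat_lit 5) (nat_lit 276) (nat_lit 5) (nat_lit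 617) (nat_lit 557) (nat_lit 386))) (XT.nd (nat_lit 78) (nat_lit 532) (nat_lit 0) (XT.lf (nat_lit 0) (nat_lit 3063981115) (nat_lit 684) (nat_lit 4639985203) (nat_lit 76) (nat_lit 8934940025) (nat_lit 266) (nat_lit 5) (nat_lit 275) (nat_lit 5) (nat_lit 267) (nat_lit 5) (nat_lit 618) (nat_lit 557) (nat_lit 385)) (XT.lf (nat_lit 0) (nat_lit 5345844823) (nat_lit 532) (nat_lit 999817184) (nat_lit 608) (nat_lit 10484754940) (nat_lit 259) (nat_lit 5) (nat_lit 266) (nat_lit 5) (nat_lit 267) (nat_lit 5) (nat_lit 619) (nat_lit 557) (nat_lit 384))))))))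
noncomputable def xc149 : XT := (XT.nd (nat_lit 2262) (nat_lit 4256) (nat_lit 0) (XT.nd (nat_lit 1092) (nat_lit 3800) (nat_lit 0) (XT.nd (nat_lit 546) (nat_lit 2052) (nat_lit 0) (XT.nd (nat_lit 234) (nat_lit 1064) (nat_lit 0) (XT.nd (nat_lit 78) (nat_lit 1064) (nat_lit 0) (XT.lf (nat_lit 0) (nat_lit 9753206124) (nat_lit 608) (nat_lit 1480925121) (nat_lit 76) (nat_lit 5790422323) (nat_lit 259) (nat_lit 5) (nat_lit 267) (nat_lit 5) (nat_lit 260) (nat_lit 5) (nat_lit 620) (nat_lit 557) (nat_lit 383)) (XT.nd (nat_lit 78) (nat_lit 532) (nat_lit 0) (XT.lf (nat_lit 0) (nat_lit 8820120892) (nat_lit 532) (nat_lit 4463824275) (nat_lit 608) (nat_lit 3937527261) (nat_lit 252) (nat_lit 5) (nat_lit 259) (nat_lit 5) (nat_lit 260) (nat_lit 5) (nat_lit 621) (nat_lit 557) (nat_lit 382)) (XT.lf (nat_lit 0) (nat_lit 1922617197) (nat_lit 532) (nat_lit 14992258190) (nat_lit 608) (nat_lit 506863133) (nat_lit 245) (nat_lit 5) (nat_lit 252) (nat_lit 5) (nat_lit 253) (nat_lit 5) (nat_lit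 622) (nat_lit 557) (nat_lit 381)))) (XT.nd (nat_lit 156) (nat_lit 456) (nat_lit 0) (XT.nd (nat_lit 78) (nat_lit 532) (nat_lit 0) (XT.lf (nat_lit 0) (nat_lit 3030754260) (nat_lit 608) (nat_lit 5119146381) (nat_lit 76) (nat_lit 9474169363) (nat_lit 244) (nat_lit 5) (nat_lit 252) (nat_lit 5) (nat_lit 245) (nat_lit 5) (nat_lit 623) (nat_lit 557) (nat_lit 380)) (XT.lf (nat_lit 0) (nat_lit 5525929233) (nat_lit 532) (nat_lit 1133736754) (nat_lit 608) (nat_lit 11170168906) (nat_lit 237) (nat_lit 5) (nat_lit 244) (nat_lit 5) (nat_lit 245) (nat_lit 5) (nat_lit 624) (nat_lit 557) (nat_lit 379))) (XT.nd (nat_lit 78) (nat_lit 456) (nat_lit 0) (XT.lf (nat_lit 0) (nat_lit 10426356704) (nat_lit 608) (nat_lit 1636750371) (nat_lit 76) (nat_lit 5975304341) (nat_lit 237) (nat_lit 5) (nat_lit 245) (nat_lit 5) (nat_lit 238) (nat_lit 5) (nat_lit 625) (nat_lit 557) (nat_lit 378)) (XT.lf (nat_lit 0) (nat_lit 9347372616) (nat_lit 456) (nat_lit 4980889877) (nat_lit 532) (nat_lit 3921699697)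 (nat_lit 231) (nat_lit 5) (nat_lit 237) (nat_lit 5) (nat_lit 238) (nat_lit 5) (nat_lit 626) (nat_lit 557) (nat_lit 377))))) (XT.nd (nat_lit 234) (nat_lit 988) (nat_lit 0) (XT.nd (nat_lit 78) (nat_lit 532) (nat_lit 0) (XT.lf (nat_lit 0) (nat_lit 2109340436) (nat_lit 532) (nat_lit 16229932629) (nat_lit 608) (nat_lit 125849919) (nat_lit 224) (nat_lit 5) (nat_lit 231) (nat_lit 5) (nat_lit 232) (nat_lit 5) (nat_lit 627) (nat_lit 557) (nat_lit 376)) (XT.nd (nat_lit 78) (nat_lit 456) (nat_lit 0) (XT.lf (nat_lit 0) (nat_lit 3781696570) (nat_lit 608) (nat_lit 5290471146) (nat_lit 76) (nat_lit 9610235023) (nat_lit 223) (nat_lit 5) (nat_lit 231) (nat_lit 5) (nat_lit 224) (nat_lit 5) (nat_lit 628) (nat_lit 557) (nat_lit 375)) (XT.lf (nat_lit 0) (nat_lit 6063501336) (nat_lit 456) (nat_lit 1733523807) (nat_lit 532) (nat_lit 11106360301) (nat_lit 217) (nat_lit 5) (nat_lit 223) (nat_lit 5) (nat_lit 224) (nat_lit 5) (nat_lit 629) (nat_lit 557) (nat_lit 374)))) (XT.nd (nat_lit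 156) (nat_lit 532) (nat_lit 0) (XT.nd (nat_lit 78) (nat_lit 456) (nat_lit 0) (XT.lf (nat_lit 0) (nat_lit 11957752212) (nat_lit 532) (nat_lit 1460790336) (nat_lit 76) (nat_lit 5708943731) (nat_lit 217) (nat_lit 5) (nat_lit 224) (nat_lit 5) (nat_lit 218) (nat_lit 5) (nat_lit 630) (nat_lit 557) (nat_lit 373)) (XT.lf (nat_lit 0) (nat_lit 10257761576) (nat_lit 456) (nat_lit 6014179257) (nat_lit 532) (nat_lit 3082723663) (nat_lit 211) (nat_lit 5) (nat_lit 217) (nat_lit 5) (nat_lit 218) (nat_lit 5) (nat_lit 631) (nat_lit 557) (nat_lit 372))) (XT.nd (nat_lit 78) (nat_lit 0) (nat_lit 0) (XT.lf (nat_lit 0) (nat_lit 1101315491) (nat_lit 532) (nat_lit 16935179519) (nat_lit 76) (nat_lit 1549159898) (nat_lit 204) (nat_lit 5) (nat_lit 211) (nat_lit 5) (nat_lit 205) (nat_lit 5) (nat_lit 632) (nat_lit 557) (nat_lit 371)) (XT.lf (nat_lit 0) (nat_lit 5421329627) (nat_lit 532) (nat_lit 5135845903) (nat_lit 76) (nat_lit 9261810916) (nat_lit 204) (nat_lit 5) (nat_lit 211) (nat_lit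 5) (nat_lit 205) (nat_lit 5) (nat_lit 633) (nat_lit 557) (nat_lit 370)))))) (XT.nd (nat_lit 546) (nat_lit 2052) (nat_lit 0) (XT.nd (nat_lit 234) (nat_lit 912) (nat_lit 0) (XT.nd (nat_lit 78) (nat_lit 380) (nat_lit 0) (XT.lf (nat_lit 0) (nat_lit 6979973691) (nat_lit 456) (nat_lit 2885495838) (nat_lit 532) (nat_lit 10190760857) (nat_lit 198) (nat_lit 5) (nat_lit 204) (nat_lit 5) (nat_lit 205) (nat_lit 5) (nat_lit 634) (nat_lit 557) (nat_lit 369)) (XT.nd (nat_lit 78) (nat_lit 380) (nat_lit 0) (XT.lf (nat_lit 0) (nat_lit 14457718048) (nat_lit 532) (nat_lit 933201806) (nat_lit 76) (nat_lit 4906115113) (nat_lit 198) (nat_lit 5) (nat_lit 205) (nat_lit 5) (nat_lit 199) (nat_lit 5) (nat_lit 635) (nat_lit 557) (nat_lit 368)) (XT.lf (nat_lit 0) (nat_lit 11574524761) (nat_lit 380) (nat_lit 7654155390) (nat_lit 456) (nat_lit 1312238388) (nat_lit 193) (nat_lit 5) (nat_lit 198) (nat_lit 5) (nat_lit 199) (nat_lit 5) (nat_lit 636) (nat_lit 557) (nat_lit 367)))) (XT.nd (nat_lit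 156) (nat_lit 380) (nat_lit 0) (XT.nd (nat_lit 78) (nat_lit 0) (nat_lit 0) (XT.lf (nat_lit 0) (nat_lit 3286004244) (nat_lit 532) (nat_lit 17220753581) (nat_lit 76) (nat_lit 282013541) (nat_lit 186) (nat_lit 5) (nat_lit 193) (nat_lit 5) (nat_lit 187) (nat_lit 5) (nat_lit 637) (nat_lit 557) (nat_lit 366)) (XT.lf (nat_lit 0) (nat_lit 8062601636) (nat_lit 532) (nat_lit 4636456964) (nat_lit 76) (nat_lit 8340270213) (nat_lit 186) (nat_lit 5) (nat_lit 193) (nat_lit 5) (nat_lit 187) (nat_lit 5) (nat_lit 638) (nat_lit 557) (nat_lit 365))) (XT.nd (nat_lit 78) (nat_lit 0) (nat_lit 0) (XT.lf (nat_lit 0) (nat_lit 8297605123) (nat_lit 380) (nat_lit 4683829691) (nat_lit 456) (nat_lit 8312528769) (nat_lit 181) (nat_lit 5) (nat_lit 186) (nat_lit 5) (nat_lit 187) (nat_lit 5) (nat_lit 639) (nat_lit 557) (nat_lit 364)) (XT.lf (nat_lit 0) (nat_lit 18045512571) (nat_lit 456) (nat_lit 33541798) (nat_lit 76) (nat_lit 3473699569) (nat_lit 181) (nat_lit 5) (nat_lit 187) (nat_lit 5)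 (nat_lit 182) (nat_lit 5) (nat_lit 640) (nat_lit 557) (nat_lit 363))))) (XT.nd (nat_lit 312) (nat_lit 836) (nat_lit 0) (XT.nd (nat_lit 156) (nat_lit 380) (nat_lit 0) (XT.nd (nat_lit 78) (nat_lit 380) (nat_lit 0) (XT.lf (nat_lit 0) (nat_lit 1487128666) (nat_lit 456) (nat_lit 8502646957) (nat_lit 76) (nat_lit 11824538449) (nat_lit 175) (nat_lit 5) (nat_lit 181) (nat_lit 5) (nat_lit 176) (nat_lit 5) (nat_lit 641) (nat_lit 557) (nat_lit 362)) (XT.lf (nat_lit 0) (nat_lit 4873213970) (nat_lit 380) (nat_lit 1686161396) (nat_lit 456) (nat_lit 15520767595) (nat_lit 170) (nat_lit 5) (nat_lit 175) (nat_lit 5) (nat_lit 176) (nat_lit 5) (nat_lit 642) (nat_lit 557) (nat_lit 361))) (XT.nd (nat_lit 78) (nat_lit 380) (nat_lit 0) (XT.lf (nat_lit 0) (nat_lit 11827630260) (nat_lit 456) (nat_lit 3773370003) (nat_lit 76) (nat_lit 6748397125) (nat_lit 170) (nat_lit 5) (nat_lit 176) (nat_lit 5) (nat_lit 171) (nat_lit 5) (nat_lit 643) (nat_lit 557) (nat_lit 360)) (XT.lf (nat_lit 0)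 (nat_lit 10038915073) (nat_lit 380) (nat_lit 7231901712) (nat_lit 456) (nat_lit 5351829013) (nat_lit 165) (nat_lit 5) (nat_lit 170) (nat_lit 5) (nat_lit 171) (nat_lit 5) (nat_lit 644) (nat_lit 557) (nat_lit 359)))) (XT.nd (nat_lit 156) (nat_lit 380) (nat_lit 0) (XT.nd (nat_lit 78) (nat_lit 76) (nat_lit 0) (XT.lf (nat_lit 0) (nat_lit 1275347969) (nat_lit 380) (nat_lit 21583021098) (nat_lit 456) (nat_lit 42280287) (nat_lit 160) (nat_lit 5) (nat_lit 165) (nat_lit 5) (nat_lit 166) (nat_lit 5) (nat_lit 645) (nat_lit 557) (nat_lit 358)) (XT.lf (nat_lit 0) (nat_lit 5429164133) (nat_lit 456) (nat_lit 7694183981) (nat_lit 76) (nat_lit 10057643744) (nat_lit 159) (nat_lit 5) (nat_lit 165) (nat_lit 5) (nat_lit 160) (nat_lit 5) (nat_lit 646) (nat_lit 557) (nat_lit 357))) (XT.nd (nat_lit 78) (nat_lit 0) (nat_lit 0) (XT.lf (nat_lit 0) (nat_lit 6591426247) (nat_lit 380) (nat_lit 4454255752) (nat_lit 456) (nat_lit 12420529617) (nat_lit 154) (nat_lit 5) (nat_lit 159) (nat_lit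 5) (nat_lit 160) (nat_lit 5) (nat_lit 647) (nat_lit 557) (nat_lit 356)) (XT.lf (nat_lit 0) (nat_lit 16848448305) (nat_lit 456) (nat_lit 2528227034) (nat_lit 76) (nat_lit 4378982270) (nat_lit 154) (nat_lit 5) (nat_lit 160) (nat_lit 5) (nat_lit 155) (nat_lit 5) (nat_lit 648) (nat_lit 557) (nat_lit 355))))))) (XT.nd (nat_lit 1170) (nat_lit 836) (nat_lit 0) (XT.nd (nat_lit 546) (nat_lit 1596) (nat_lit 0) (XT.nd (nat_lit 234) (nat_lit 1064) (nat_lit 0) (XT.nd (nat_lit 78) (nat_lit 456) (nat_lit 0) (XT.lf (nat_lit 0) (nat_lit 12225976518) (nat_lit 304) (nat_lit 10643752224) (nat_lit 380) (nat_lit 1179114803) (nat_lit 150) (nat_lit 5) (nat_lit 154) (nat_lit 5) (nat_lit 155) (nat_lit 5) (nat_lit 649) (nat_lit 557) (nat_lit 354)) (XT.nd (nat_lit 78) (nat_lit 0) (nat_lit 0) (XT.lf (nat_lit 0) (nat_lit 2960262220) (nat_lit 380) (nat_lit 1672013728) (nat_lit 456) (nat_lit 19714413914) (nat_lit 144) (nat_lit 5) (nat_lit 149) (nat_lit 5) (nat_lit 150) (nat_lit 5) (nat_lit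 650) (nat_lit 557) (nat_lit 353)) (XT.lf (nat_lit 0) (nat_lit 10666178846) (nat_lit 456) (nat_lit 6516671938) (nat_lit 76) (nat_lit 7465045177) (nat_lit 144) (nat_lit 5) (nat_lit 150) (nat_lit 5) (nat_lit 145) (nat_lit 5) (nat_lit 651) (nat_lit 557) (nat_lit 352)))) (XT.nd (nat_lit 156) (nat_lit 760) (nat_lit 0) (XT.nd (nat_lit 78) (nat_lit 0) (nat_lit 0) (XT.lf (nat_lit 0) (nat_lit 8744098202) (nat_lit 304) (nat_lit 8138267003) (nat_lit 380) (nat_lit 8071529052) (nat_lit 140) (nat_lit 5) (nat_lit 144) (nat_lit 5) (nat_lit 145) (nat_lit 5) (nat_lit 652) (nat_lit 557) (nat_lit 351)) (XT.lf (nat_lit 0) (nat_lit 23267747697) (nat_lit 380) (nat_lit 884089434) (nat_lit 76) (nat_lit 1113278119) (nat_lit 140) (nat_lit 5) (nat_lit 145) (nat_lit 5) (nat_lit 141) (nat_lit 5) (nat_lit 653) (nat_lit 557) (nat_lit 350))) (XT.nd (nat_lit 78) (nat_lit 304) (nat_lit 0) (XT.lf (nat_lit 0) (nat_lit 4288591346) (nat_lit 456) (nat_lit 10728328758) (nat_lit 76) (nat_lit 10562188064)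 (nat_lit 134) (nat_lit 5) (nat_lit 140) (nat_lit 5) (nat_lit 135) (nat_lit 5) (nat_lit 654) (nat_lit 557) (nat_lit 349)) (XT.lf (nat_lit 0) (nat_lit 5056272787) (nat_lit 304) (nat_lit 5650008713) (nat_lit 380) (nat_lit 15192180427) (nat_lit 130) (nat_lit 5) (nat_lit 134) (nat_lit 5) (nat_lit 135) (nat_lit 5) (nat_lit 655) (nat_lit 557) (nat_lit 348))))) (XT.nd (nat_lit 312) (nat_lit 912) (nat_lit 0) (XT.nd (nat_lit 156) (nat_lit 380) (nat_lit 0) (XT.nd (nat_lit 78) (nat_lit 304) (nat_lit 0) (XT.lf (nat_lit 0) (nat_lit 17344106124) (nat_lit 380) (nat_lit 4956469823) (nat_lit 76) (nat_lit 3921791366) (nat_lit 130) (nat_lit 5) (nat_lit 135) (nat_lit 5) (nat_lit 131) (nat_lit 5) (nat_lit 656) (nat_lit 557) (nat_lit 347)) (XT.lf (nat_lit 0) (nat_lit 11348707627) (nat_lit 304) (nat_lit 12871160852) (nat_lit 380) (nat_lit 2330778865) (nat_lit 126) (nat_lit 5) (nat_lit 130) (nat_lit 5) (nat_lit 131) (nat_lit 5) (nat_lit 657) (nat_lit 557) (nat_lit 346))) (XT.nd (nat_lit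 78) (nat_lit 0) (nat_lit 0) (XT.lf (nat_lit 0) (nat_lit 1139144819) (nat_lit 304) (nat_lit 3186460165) (nat_lit 380) (nat_lit 22558624150) (nat_lit 121) (nat_lit 5) (nat_lit 125) (nat_lit 5) (nat_lit 126) (nat_lit 5) (nat_lit 658) (nat_lit 557) (nat_lit 345)) (XT.lf (nat_lit 0) (nat_lit 11224197607) (nat_lit 380) (nat_lit 9278607776) (nat_lit 76) (nat_lit 6718563396) (nat_lit 121) (nat_lit 5) (nat_lit 126) (nat_lit 5) (nat_lit 122) (nat_lit 5) (nat_lit 659) (nat_lit 557) (nat_lit 344)))) (XT.nd (nat_lit 156) (nat_lit 608) (nat_lit 0) (XT.nd (nat_lit 78) (nat_lit 0) (nat_lit 0) (XT.lf (nat_lit 0) (nat_lit 7586055910) (nat_lit 304) (nat_lit 10739301454) (nat_lit 380) (nat_lit 9238602097) (nat_lit 117) (nat_lit 5) (nat_lit 121) (nat_lit 5) (nat_lit 122) (nat_lit 5) (nat_lit 660) (nat_lit 557) (nat_lit 343)) (XT.lf (nat_lit 0) (nat_lit 24904317069) (nat_lit 304) (nat_lit 720778254) (nat_lit 380) (nat_lit 2287175682) (nat_lit 117) (nat_lit 5) (nat_lit 121) (nat_lit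 5) (nat_lit 122) (nat_lit 5) (nat_lit 661) (nat_lit 557) (nat_lit 342))) (XT.nd (nat_lit 78) (nat_lit 304) (nat_lit 0) (XT.lf (nat_lit 0) (nat_lit 4890941914) (nat_lit 304) (nat_lit 13877264544) (nat_lit 76) (nat_lit 9495705570) (nat_lit 113) (nat_lit 5) (nat_lit 117) (nat_lit 5) (nat_lit 114) (nat_lit 5) (nat_lit 662) (nat_lit 557) (nat_lit 341)) (XT.lf (nat_lit 0) (nat_lit 3565049471) (nat_lit 304) (nat_lit 8659605806) (nat_lit 380) (nat_lit 16396775196) (nat_lit 109) (nat_lit 5) (nat_lit 113) (nat_lit 5) (nat_lit 114) (nat_lit 5) (nat_lit 663) (nat_lit 557) (nat_lit 340)))))) (XT.nd (nat_lit 73008) (nat_lit 0) (nat_lit 33744) (XT.nd (nat_lit 234) (nat_lit 532) (nat_lit 0) (XT.nd (nat_lit 78) (nat_lit 304) (nat_lit 0) (XT.lf (nat_lit 0) (nat_lit 19803920247) (nat_lit 380) (nat_lit 7460664649) (nat_lit 76) (nat_lit 1719536979) (nat_lit 109) (nat_lit 5) (nat_lit 114) (nat_lit 5) (nat_lit 110) (nat_lit 5) (nat_lit 664) (nat_lit 557) (nat_lit 339)) (XT.nd (nat_lit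 78) (nat_lit 76) (nat_lit 0) (XT.lf (nat_lit 0) (nat_lit 10558873293) (nat_lit 228) (nat_lit 17096326703) (nat_lit 304) (nat_lit 1696458654) (nat_lit 106) (nat_lit 5) (nat_lit 109) (nat_lit 5) (nat_lit 110) (nat_lit 5) (nat_lit 665) (nat_lit 557) (nat_lit 338)) (XT.lf (nat_lit 0) (nat_lit 5904029086) (nat_lit 304) (nat_lit 733727727) (nat_lit 76) (nat_lit 23087119858) (nat_lit 105) (nat_lit 5) (nat_lit 109) (nat_lit 5) (nat_lit 106) (nat_lit 5) (nat_lit 666) (nat_lit 557) (nat_lit 337)))) (XT.nd (nat_lit 156) (nat_lit 0) (nat_lit 0) (XT.nd (nat_lit 78) (nat_lit 228) (nat_lit 0) (XT.lf (nat_lit 0) (nat_lit 13771687526) (nat_lit 380) (nat_lit 12229108267) (nat_lit 76) (nat_lit 4101781584) (nat_lit 101) (nat_lit 5) (nat_lit 106) (nat_lit 5) (nat_lit 102) (nat_lit 5) (nat_lit 667) (nat_lit 557) (nat_lit 336)) (XT.lf (nat_lit 0) (nat_lit 6405966750) (nat_lit 228) (nat_lit 15475906528) (nat_lit 304) (nat_lit 8604255459) (nat_lit 98) (nat_lit 5) (nat_lit 101) (nat_lit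 5) (nat_lit 102) (nat_lit 5) (nat_lit 668) (nat_lit 557) (nat_lit 335))) (XT.nd (nat_lit 72540) (nat_lit 0) (nat_lit 35340) (XT.lf (nat_lit 0) (nat_lit 25570492255) (nat_lit 228) (nat_lit 4660547640) (nat_lit 304) (nat_lit 644775807) (nat_lit 98) (nat_lit 5) (nat_lit 101) (nat_lit 5) (nat_lit 102) (nat_lit 5) (nat_lit 669) (nat_lit 557) (nat_lit 334)) (XT.lf (nat_lit 0) (nat_lit 4007735921) (nat_lit 1596) (nat_lit 298211504) (nat_lit 1596) (nat_lit 298211504) (nat_lit 563) (nat_lit 3) (nat_lit 584) (nat_lit 3) (nat_lit 584) (nat_lit 5) (nat_lit 558) (nat_lit 558) (nat_lit 444))))) (XT.nd (nat_lit 312) (nat_lit 0) (nat_lit 152) (XT.nd (nat_lit 156) (nat_lit 0) (nat_lit 76) (XT.nd (nat_lit 78) (nat_lit 1596) (nat_lit 0) (XT.lf (nat_lit 76) (nat_lit 4026244113) (nat_lit 0) (nat_lit 4946561665) (nat_lit 1596) (nat_lit 309993536) (nat_lit 564) (nat_lit 5) (nat_lit 563) (nat_lit 3) (nat_lit 584) (nat_lit 5) (nat_lit 559) (nat_lit 558) (nat_lit 443)) (XT.lf (nat_lit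 0) (nat_lit 564252310) (nat_lit 1596) (nat_lit 624939592) (nat_lit 1672) (nat_lit 8169873690) (nat_lit 542) (nat_lit 5) (nat_lit 563) (nat_lit 3) (nat_lit 564) (nat_lit 5) (nat_lit 560) (nat_lit 558) (nat_lit 442))) (XT.nd (nat_lit 78) (nat_lit 0) (nat_lit 0) (XT.lf (nat_lit 0) (nat_lit 1474031747) (nat_lit 1596) (nat_lit 5314198449) (nat_lit 1672) (nat_lit 2648143495) (nat_lit 543) (nat_lit 5) (nat_lit 564) (nat_lit 5) (nat_lit 565) (nat_lit 5) (nat_lit 561) (nat_lit 558) (nat_lit 441)) (XT.lf (nat_lit 0) (nat_lit 2392422924) (nat_lit 1596) (nat_lit 562375908) (nat_lit 1672) (nat_lit 6560622232) (nat_lit 543) (nat_lit 5) (nat_lit 564) (nat_lit 5) (nat_lit 565) (nat_lit 5) (nat_lit 562) (nat_lit 558) (nat_lit 440)))) (XT.nd (nat_lit 156) (nat_lit 0) (nat_lit 0) (XT.nd (nat_lit 78) (nat_lit 0) (nat_lit 0) (XT.lf (nat_lit 0) (nat_lit 3342486103) (nat_lit 1596) (nat_lit 5272895177) (nat_lit 1672) (nat_lit 980403431) (nat_lit 544) (nat_lit 5) (nat_lit 565) (nat_lit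 5) (nat_lit 566) (nat_lit 5) (nat_lit 563) (nat_lit 558) (nat_lit 439)) (XT.lf (nat_lit 0) (nat_lit 4314062355) (nat_lit 1596) (nat_lit 395987975) (nat_lit 1672) (nat_lit 4967656446) (nat_lit 544) (nat_lit 5) (nat_lit 565) (nat_lit 5) (nat_lit 566) (nat_lit 5) (nat_lit 564) (nat_lit 558) (nat_lit 438))) (XT.nd (nat_lit 78) (nat_lit 0) (nat_lit 76) (XT.lf (nat_lit 76) (nat_lit 4627184844) (nat_lit 0) (nat_lit 687481740) (nat_lit 1672) (nat_lit 4446410123) (nat_lit 545) (nat_lit 5) (nat_lit 544) (nat_lit 5) (nat_lit 566) (nat_lit 5) (nat_lit 565) (nat_lit 558) (nat_lit 437)) (XT.lf (nat_lit 0) (nat_lit 6340064715) (nat_lit 1596) (nat_lit 124403090) (nat_lit 1672) (nat_lit 3381551925) (nat_lit 545) (nat_lit 5) (nat_lit 566) (nat_lit 5) (nat_lit 567) (nat_lit 5) (nat_lit 566) (nat_lit 558) (nat_lit 436))))))))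
noncomputable def xc150 : XT := (XT.nd (nat_lit 2262) (nat_lit 12236) (nat_lit 0) (XT.nd (nat_lit 1092) (nat_lit 8132) (nat_lit 0) (XT.nd (nat_lit 546) (nat_lit 1520) (nat_lit 0) (XT.nd (nat_lit 234) (nat_lit 1520) (nat_lit 0) (XT.nd (nat_lit 78) (nat_lit 0) (nat_lit 76) (XT.lf (nat_lit 76) (nat_lit 5034657447) (nat_lit 0) (nat_lit 2368879052) (nat_lit 1672) (nat_lit 2528775099) (nat_lit 546) (nat_lit 5) (nat_lit 545) (nat_lit 5) (nat_lit 567) (nat_lit 5) (nat_lit 567) (nat_lit 558) (nat_lit 435)) (XT.nd (nat_lit 78) (nat_lit 0) (nat_lit 0) (XT.lf (nat_lit 76) (nat_lit 257448712) (nat_lit 0) (nat_lit 8225763654) (nat_lit 1672) (nat_lit 1537219523) (nat_lit 547) (nat_lit 5) (nat_lit 546) (nat_lit 5) (nat_lit 568) (nat_lit 5) (nat_lit 568) (nat_lit 558) (nat_lit 434)) (XT.lf (nat_lit 76) (nat_lit 5553775746) (nat_lit 0) (nat_lit 4060135087) (nat_lit 1672) (nat_lit 495816421) (nat_lit 547) (nat_lit 5) (nat_lit 546) (nat_lit 5) (nat_lit 568) (nat_lit 5) (nat_lit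 569) (nat_lit 558) (nat_lit 433)))) (XT.nd (nat_lit 156) (nat_lit 0) (nat_lit 0) (XT.nd (nat_lit 78) (nat_lit 0) (nat_lit 0) (XT.lf (nat_lit 0) (nat_lit 546399743) (nat_lit 1672) (nat_lit 9453350539) (nat_lit 1748) (nat_lit 201237623) (nat_lit 525) (nat_lit 5) (nat_lit 547) (nat_lit 5) (nat_lit 548) (nat_lit 5) (nat_lit 570) (nat_lit 558) (nat_lit 432)) (XT.lf (nat_lit 0) (nat_lit 1642046280) (nat_lit 1672) (nat_lit 4117489705) (nat_lit 1748) (nat_lit 4533688917) (nat_lit 525) (nat_lit 5) (nat_lit 547) (nat_lit 5) (nat_lit 548) (nat_lit 5) (nat_lit 571) (nat_lit 558) (nat_lit 431))) (XT.nd (nat_lit 78) (nat_lit 0) (nat_lit 76) (XT.lf (nat_lit 76) (nat_lit 1330073479) (nat_lit 0) (nat_lit 1420084862) (nat_lit 1748) (nat_lit 7637338401) (nat_lit 526) (nat_lit 5) (nat_lit 525) (nat_lit 5) (nat_lit 548) (nat_lit 5) (nat_lit 572) (nat_lit 558) (nat_lit 430)) (XT.lf (nat_lit 0) (nat_lit 3909990457) (nat_lit 1672) (nat_lit 3573170393) (nat_lit 1748) (nat_lit 2999903145)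 (nat_lit 526) (nat_lit 5) (nat_lit 548) (nat_lit 5) (nat_lit 549) (nat_lit 5) (nat_lit 573) (nat_lit 558) (nat_lit 429))))) (XT.nd (nat_lit 234) (nat_lit 1596) (nat_lit 0) (XT.nd (nat_lit 78) (nat_lit 0) (nat_lit 76) (XT.lf (nat_lit 76) (nat_lit 2025407333) (nat_lit 0) (nat_lit 3072741560) (nat_lit 1748) (nat_lit 5482292218) (nat_lit 527) (nat_lit 5) (nat_lit 526) (nat_lit 5) (nat_lit 549) (nat_lit 5) (nat_lit 574) (nat_lit 558) (nat_lit 428)) (XT.nd (nat_lit 78) (nat_lit 0) (nat_lit 0) (XT.lf (nat_lit 0) (nat_lit 6326331414) (nat_lit 1672) (nat_lit 2917122874) (nat_lit 1748) (nat_lit 1435987352) (nat_lit 527) (nat_lit 5) (nat_lit 549) (nat_lit 5) (nat_lit 550) (nat_lit 5) (nat_lit 575) (nat_lit 558) (nat_lit 427)) (XT.lf (nat_lit 76) (nat_lit 2837855213) (nat_lit 0) (nat_lit 4763199313) (nat_lit 1748) (nat_lit 3178929182) (nat_lit 528) (nat_lit 5) (nat_lit 527) (nat_lit 5) (nat_lit 550) (nat_lit 5) (nat_lit 576) (nat_lit 558) (nat_lit 426)))) (XT.nd (nat_lit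 156) (nat_lit 1672) (nat_lit 0) (XT.nd (nat_lit 78) (nat_lit 0) (nat_lit 76) (XT.lf (nat_lit 76) (nat_lit 8734997132) (nat_lit 0) (nat_lit 169301167) (nat_lit 1748) (nat_lit 1978178841) (nat_lit 528) (nat_lit 5) (nat_lit 527) (nat_lit 5) (nat_lit 550) (nat_lit 5) (nat_lit 577) (nat_lit 558) (nat_lit 425)) (XT.lf (nat_lit 76) (nat_lit 3770604791) (nat_lit 0) (nat_lit 6500608554) (nat_lit 1748) (nat_lit 715055995) (nat_lit 529) (nat_lit 5) (nat_lit 528) (nat_lit 5) (nat_lit 551) (nat_lit 5) (nat_lit 578) (nat_lit 558) (nat_lit 424))) (XT.nd (nat_lit 78) (nat_lit 0) (nat_lit 76) (XT.lf (nat_lit 0) (nat_lit 565368272) (nat_lit 1748) (nat_lit 1273343901) (nat_lit 1824) (nat_lit 9253360583) (nat_lit 505) (nat_lit 5) (nat_lit 528) (nat_lit 5) (nat_lit 529) (nat_lit 5) (nat_lit 579) (nat_lit 558) (nat_lit 423)) (XT.lf (nat_lit 0) (nat_lit 1896662942) (nat_lit 1748) (nat_lit 6384762300) (nat_lit 1824) (nat_lit 2917776705) (nat_lit 506) (nat_lit 5) (nat_lit 529) (nat_lit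 5) (nat_lit 530) (nat_lit 5) (nat_lit 580) (nat_lit 558) (nat_lit 422)))))) (XT.nd (nat_lit 546) (nat_lit 3572) (nat_lit 0) (XT.nd (nat_lit 234) (nat_lit 2964) (nat_lit 0) (XT.nd (nat_lit 78) (nat_lit 1672) (nat_lit 0) (XT.lf (nat_lit 0) (nat_lit 3259856687) (nat_lit 1748) (nat_lit 292014022) (nat_lit 1824) (nat_lit 7756498497) (nat_lit 506) (nat_lit 5) (nat_lit 529) (nat_lit 5) (nat_lit 530) (nat_lit 5) (nat_lit 581) (nat_lit 558) (nat_lit 421)) (XT.nd (nat_lit 78) (nat_lit 1748) (nat_lit 0) (XT.lf (nat_lit 0) (nat_lit 4682531289) (nat_lit 1748) (nat_lit 5439118919) (nat_lit 76) (nat_lit 1297426191) (nat_lit 507) (nat_lit 5) (nat_lit 530) (nat_lit 5) (nat_lit 508) (nat_lit 5) (nat_lit 582) (nat_lit 558) (nat_lit 420)) (XT.lf (nat_lit 0) (nat_lit 823935807) (nat_lit 1748) (nat_lit 5325601396) (nat_lit 1824) (nat_lit 5382143888) (nat_lit 484) (nat_lit 5) (nat_lit 507) (nat_lit 5) (nat_lit 508) (nat_lit 5) (nat_lit 583) (nat_lit 558) (nat_lit 419)))) (XT.nd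 (nat_lit 156) (nat_lit 1140) (nat_lit 0) (XT.nd (nat_lit 78) (nat_lit 1824) (nat_lit 0) (XT.lf (nat_lit 0) (nat_lit 7273360737) (nat_lit 1748) (nat_lit 394266794) (nat_lit 1824) (nat_lit 3978476354) (nat_lit 484) (nat_lit 5) (nat_lit 507) (nat_lit 5) (nat_lit 508) (nat_lit 5) (nat_lit 584) (nat_lit 558) (nat_lit 418)) (XT.lf (nat_lit 0) (nat_lit 2073377827) (nat_lit 1824) (nat_lit 7171809439) (nat_lit 1900) (nat_lit 2517046594) (nat_lit 460) (nat_lit 5) (nat_lit 484) (nat_lit 5) (nat_lit 485) (nat_lit 5) (nat_lit 585) (nat_lit 558) (nat_lit 417))) (XT.nd (nat_lit 78) (nat_lit 1140) (nat_lit 0) (XT.lf (nat_lit 0) (nat_lit 8692456644) (nat_lit 1824) (nat_lit 2179528287) (nat_lit 1900) (nat_lit 1008348626) (nat_lit 460) (nat_lit 5) (nat_lit 484) (nat_lit 5) (nat_lit 485) (nat_lit 5) (nat_lit 586) (nat_lit 558) (nat_lit 416)) (XT.lf (nat_lit 0) (nat_lit 551140519) (nat_lit 1140) (nat_lit 8546961257) (nat_lit 76) (nat_lit 2902073905) (nat_lit 445) (nat_lit 5) (nat_lit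 460) (nat_lit 5) (nat_lit 446) (nat_lit 5) (nat_lit 587) (nat_lit 558) (nat_lit 415))))) (XT.nd (nat_lit 312) (nat_lit 1748) (nat_lit 0) (XT.nd (nat_lit 156) (nat_lit 912) (nat_lit 0) (XT.nd (nat_lit 78) (nat_lit 912) (nat_lit 0) (XT.lf (nat_lit 0) (nat_lit 2150437926) (nat_lit 1140) (nat_lit 1885638443) (nat_lit 76) (nat_lit 8085763379) (nat_lit 445) (nat_lit 5) (nat_lit 460) (nat_lit 5) (nat_lit 446) (nat_lit 5) (nat_lit 588) (nat_lit 558) (nat_lit 414)) (XT.lf (nat_lit 0) (nat_lit 3807884975) (nat_lit 988) (nat_lit 7291611163) (nat_lit 76) (nat_lit 1145918477) (nat_lit 433) (nat_lit 5) (nat_lit 446) (nat_lit 5) (nat_lit 434) (nat_lit 5) (nat_lit 589) (nat_lit 558) (nat_lit 413))) (XT.nd (nat_lit 78) (nat_lit 912) (nat_lit 0) (XT.lf (nat_lit 0) (nat_lit 5524551185) (nat_lit 988) (nat_lit 455107847) (nat_lit 76) (nat_lit 6391281321) (nat_lit 433) (nat_lit 5) (nat_lit 446) (nat_lit 5) (nat_lit 434) (nat_lit 5) (nat_lit 590) (nat_lit 558) (nat_lit 412)) (XT.lf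 (nat_lit 0) (nat_lit 6592149752) (nat_lit 912) (nat_lit 713068058) (nat_lit 988) (nat_lit 5193166218) (nat_lit 421) (nat_lit 5) (nat_lit 433) (nat_lit 5) (nat_lit 434) (nat_lit 5) (nat_lit 591) (nat_lit 558) (nat_lit 411)))) (XT.nd (nat_lit 156) (nat_lit 912) (nat_lit 0) (XT.nd (nat_lit 78) (nat_lit 0) (nat_lit 0) (XT.lf (nat_lit 0) (nat_lit 1130144550) (nat_lit 836) (nat_lit 8019061217) (nat_lit 912) (nat_lit 3478617396) (nat_lit 410) (nat_lit 5) (nat_lit 421) (nat_lit 5) (nat_lit 422) (nat_lit 5) (nat_lit 592) (nat_lit 558) (nat_lit 410)) (XT.lf (nat_lit 0) (nat_lit 8369994431) (nat_lit 836) (nat_lit 2691624567) (nat_lit 912) (nat_lit 1697601904) (nat_lit 410) (nat_lit 5) (nat_lit 421) (nat_lit 5) (nat_lit 422) (nat_lit 5) (nat_lit 593) (nat_lit 558) (nat_lit 409))) (XT.nd (nat_lit 78) (nat_lit 0) (nat_lit 0) (XT.lf (nat_lit 0) (nat_lit 141533386) (nat_lit 912) (nat_lit 10025026914) (nat_lit 76) (nat_lit 2726190333) (nat_lit 398) (nat_lit 5) (nat_lit 410)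 (nat_lit 5) (nat_lit 399) (nat_lit 5) (nat_lit 594) (nat_lit 558) (nat_lit 408)) (XT.lf (nat_lit 0) (nat_lit 2029770838) (nat_lit 912) (nat_lit 2740937385) (nat_lit 76) (nat_lit 8257317995) (nat_lit 398) (nat_lit 5) (nat_lit 410) (nat_lit 5) (nat_lit 399) (nat_lit 5) (nat_lit 595) (nat_lit 558) (nat_lit 407))))))) (XT.nd (nat_lit 1170) (nat_lit 5472) (nat_lit 0) (XT.nd (nat_lit 546) (nat_lit 3496) (nat_lit 0) (XT.nd (nat_lit 234) (nat_lit 1596) (nat_lit 0) (XT.nd (nat_lit 78) (nat_lit 836) (nat_lit 0) (XT.lf (nat_lit 0) (nat_lit 3979300065) (nat_lit 912) (nat_lit 8431992478) (nat_lit 76) (nat_lit 754244908) (nat_lit 387) (nat_lit 5) (nat_lit 399) (nat_lit 5) (nat_lit 388) (nat_lit 5) (nat_lit 596) (nat_lit 558) (nat_lit 406)) (XT.nd (nat_lit 78) (nat_lit 836) (nat_lit 0) (XT.lf (nat_lit 0) (nat_lit 6005885412) (nat_lit 912) (nat_lit 955009544) (nat_lit 76) (nat_lit 6344143306) (nat_lit 387) (nat_lit 5) (nat_lit 399) (nat_lit 5) (nat_lit 388) (nat_lit 5) (nat_lit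 597) (nat_lit 558) (nat_lit 405)) (XT.lf (nat_lit 0) (nat_lit 6747722700) (nat_lit 836) (nat_lit 1357283104) (nat_lit 912) (nat_lit 5341683871) (nat_lit 376) (nat_lit 5) (nat_lit 387) (nat_lit 5) (nat_lit 388) (nat_lit 5) (nat_lit 598) (nat_lit 558) (nat_lit 404)))) (XT.nd (nat_lit 156) (nat_lit 836) (nat_lit 0) (XT.nd (nat_lit 78) (nat_lit 0) (nat_lit 0) (XT.lf (nat_lit 0) (nat_lit 998730250) (nat_lit 760) (nat_lit 9276952782) (nat_lit 836) (nat_lit 3314900231) (nat_lit 366) (nat_lit 5) (nat_lit 376) (nat_lit 5) (nat_lit 377) (nat_lit 5) (nat_lit 599) (nat_lit 558) (nat_lit 403)) (XT.lf (nat_lit 0) (nat_lit 8919724162) (nat_lit 760) (nat_lit 3612422435) (nat_lit 836) (nat_lit 1204361297) (nat_lit 366) (nat_lit 5) (nat_lit 376) (nat_lit 5) (nat_lit 377) (nat_lit 5) (nat_lit 600) (nat_lit 558) (nat_lit 402))) (XT.nd (nat_lit 78) (nat_lit 0) (nat_lit 0) (XT.lf (nat_lit 0) (nat_lit 959183401) (nat_lit 836) (nat_lit 10762776957) (nat_lit 76) (nat_lit 2162803444)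 (nat_lit 355) (nat_lit 5) (nat_lit 366) (nat_lit 5) (nat_lit 356) (nat_lit 5) (nat_lit 601) (nat_lit 558) (nat_lit 401)) (XT.lf (nat_lit 0) (nat_lit 3195125624) (nat_lit 836) (nat_lit 2795028733) (nat_lit 76) (nat_lit 8044766783) (nat_lit 355) (nat_lit 5) (nat_lit 366) (nat_lit 5) (nat_lit 356) (nat_lit 5) (nat_lit 602) (nat_lit 558) (nat_lit 400))))) (XT.nd (nat_lit 312) (nat_lit 1368) (nat_lit 0) (XT.nd (nat_lit 156) (nat_lit 1444) (nat_lit 0) (XT.nd (nat_lit 78) (nat_lit 0) (nat_lit 0) (XT.lf (nat_lit 0) (nat_lit 5390613832) (nat_lit 684) (nat_lit 109169762) (nat_lit 760) (nat_lit 8687818670) (nat_lit 346) (nat_lit 5) (nat_lit 355) (nat_lit 5) (nat_lit 356) (nat_lit 5) (nat_lit 603) (nat_lit 558) (nat_lit 399)) (XT.lf (nat_lit 0) (nat_lit 7896780055) (nat_lit 760) (nat_lit 615757103) (nat_lit 76) (nat_lit 5829875515) (nat_lit 346) (nat_lit 5) (nat_lit 356) (nat_lit 5) (nat_lit 347) (nat_lit 5) (nat_lit 604) (nat_lit 558) (nat_lit 398))) (XT.nd (nat_lit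 78) (nat_lit 684) (nat_lit 0) (XT.lf (nat_lit 0) (nat_lit 7818873291) (nat_lit 760) (nat_lit 2563671528) (nat_lit 836) (nat_lit 4116958458) (nat_lit 336) (nat_lit 5) (nat_lit 346) (nat_lit 5) (nat_lit 347) (nat_lit 5) (nat_lit 605) (nat_lit 558) (nat_lit 397)) (XT.lf (nat_lit 0) (nat_lit 1759009943) (nat_lit 684) (nat_lit 11186808457) (nat_lit 760) (nat_lit 1713361967) (nat_lit 327) (nat_lit 5) (nat_lit 336) (nat_lit 5) (nat_lit 337) (nat_lit 5) (nat_lit 606) (nat_lit 558) (nat_lit 396)))) (XT.nd (nat_lit 156) (nat_lit 608) (nat_lit 0) (XT.nd (nat_lit 78) (nat_lit 684) (nat_lit 0) (XT.lf (nat_lit 0) (nat_lit 780249517) (nat_lit 760) (nat_lit 4397453168) (nat_lit 76) (nat_lit 9643220443) (nat_lit 326) (nat_lit 5) (nat_lit 336) (nat_lit 5) (nat_lit 327) (nat_lit 5) (nat_lit 607) (nat_lit 558) (nat_lit 395)) (XT.lf (nat_lit 0) (nat_lit 3324940064) (nat_lit 760) (nat_lit 10683260559) (nat_lit 76) (nat_lit 976991154) (nat_lit 317) (nat_lit 5) (nat_lit 327) (nat_lit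 5) (nat_lit 318) (nat_lit 5) (nat_lit 608) (nat_lit 558) (nat_lit 394))) (XT.nd (nat_lit 78) (nat_lit 608) (nat_lit 0) (XT.lf (nat_lit 0) (nat_lit 5974357331) (nat_lit 760) (nat_lit 1963832609) (nat_lit 76) (nat_lit 7213479704) (nat_lit 317) (nat_lit 5) (nat_lit 327) (nat_lit 5) (nat_lit 318) (nat_lit 5) (nat_lit 609) (nat_lit 558) (nat_lit 393)) (XT.lf (nat_lit 0) (nat_lit 7010055295) (nat_lit 608) (nat_lit 1702259652) (nat_lit 684) (nat_lit 6608451574) (nat_lit 309) (nat_lit 5) (nat_lit 317) (nat_lit 5) (nat_lit 318) (nat_lit 5) (nat_lit 610) (nat_lit 558) (nat_lit 392)))))) (XT.nd (nat_lit 546) (nat_lit 2888) (nat_lit 0) (XT.nd (nat_lit 234) (nat_lit 1216) (nat_lit 0) (XT.nd (nat_lit 78) (nat_lit 684) (nat_lit 0) (XT.lf (nat_lit 0) (nat_lit 663454773) (nat_lit 684) (nat_lit 10879539744) (nat_lit 760) (nat_lit 3949492047) (nat_lit 300) (nat_lit 5) (nat_lit 309) (nat_lit 5) (nat_lit 310) (nat_lit 5) (nat_lit 611) (nat_lit 558) (nat_lit 391)) (XT.nd (nat_lit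 78) (nat_lit 684) (nat_lit 0) (XT.lf (nat_lit 0) (nat_lit 9906440301) (nat_lit 684) (nat_lit 4581075958) (nat_lit 760) (nat_lit 1178980650) (nat_lit 300) (nat_lit 5) (nat_lit 309) (nat_lit 5) (nat_lit 310) (nat_lit 5) (nat_lit 612) (nat_lit 558) (nat_lit 390)) (XT.lf (nat_lit 0) (nat_lit 1650719227) (nat_lit 684) (nat_lit 12341785181) (nat_lit 76) (nat_lit 1850762086) (nat_lit 291) (nat_lit 5) (nat_lit 300) (nat_lit 5) (nat_lit 292) (nat_lit 5) (nat_lit 613) (nat_lit 558) (nat_lit 389)))) (XT.nd (nat_lit 156) (nat_lit 608) (nat_lit 0) (XT.nd (nat_lit 78) (nat_lit 608) (nat_lit 0) (XT.lf (nat_lit 0) (nat_lit 4580974165) (nat_lit 684) (nat_lit 3046759489) (nat_lit 76) (nat_lit 8394487449) (nat_lit 291) (nat_lit 5) (nat_lit 300) (nat_lit 5) (nat_lit 292) (nat_lit 5) (nat_lit 614) (nat_lit 558) (nat_lit 388)) (XT.lf (nat_lit 0) (nat_lit 6507863509) (nat_lit 608) (nat_lit 1094896229) (nat_lit 684) (nat_lit 8601336993) (nat_lit 283) (nat_lit 5) (nat_lit 291) (nat_lit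 5) (nat_lit 292) (nat_lit 5) (nat_lit 615) (nat_lit 558) (nat_lit 387))) (XT.nd (nat_lit 78) (nat_lit 608) (nat_lit 0) (XT.lf (nat_lit 0) (nat_lit 10732481398) (nat_lit 684) (nat_lit 142360651) (nat_lit 76) (nat_lit 5513818245) (nat_lit 283) (nat_lit 5) (nat_lit 292) (nat_lit 5) (nat_lit 284) (nat_lit 5) (nat_lit 616) (nat_lit 558) (nat_lit 386)) (XT.lf (nat_lit 0) (nat_lit 9711184838) (nat_lit 608) (nat_lit 4274860744) (nat_lit 684) (nat_lit 2589645005) (nat_lit 275) (nat_lit 5) (nat_lit 283) (nat_lit 5) (nat_lit 284) (nat_lit 5) (nat_lit 617) (nat_lit 558) (nat_lit 385))))) (XT.nd (nat_lit 312) (nat_lit 1672) (nat_lit 0) (XT.nd (nat_lit 156) (nat_lit 532) (nat_lit 0) (XT.nd (nat_lit 78) (nat_lit 0) (nat_lit 0) (XT.lf (nat_lit 0) (nat_lit 558827633) (nat_lit 684) (nat_lit 13760398600) (nat_lit 76) (nat_lit 2446612431) (nat_lit 266) (nat_lit 5) (nat_lit 275) (nat_lit 5) (nat_lit 267) (nat_lit 5) (nat_lit 618) (nat_lit 558) (nat_lit 384)) (XT.lf (nat_lit 0)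 (nat_lit 3801381245) (nat_lit 684) (nat_lit 3850446453) (nat_lit 76) (nat_lit 9306304311) (nat_lit 266) (nat_lit 5) (nat_lit 275) (nat_lit 5) (nat_lit 267) (nat_lit 5) (nat_lit 619) (nat_lit 558) (nat_lit 383))) (XT.nd (nat_lit 78) (nat_lit 0) (nat_lit 0) (XT.lf (nat_lit 0) (nat_lit 6329295315) (nat_lit 532) (nat_lit 811834212) (nat_lit 608) (nat_lit 10012495211) (nat_lit 259) (nat_lit 5) (nat_lit 266) (nat_lit 5) (nat_lit 267) (nat_lit 5) (nat_lit 620) (nat_lit 558) (nat_lit 382)) (XT.lf (nat_lit 0) (nat_lit 10605039482) (nat_lit 608) (nat_lit 639383031) (nat_lit 76) (nat_lit 6107457857) (nat_lit 259) (nat_lit 5) (nat_lit 267) (nat_lit 5) (nat_lit 260) (nat_lit 5) (nat_lit 621) (nat_lit 558) (nat_lit 381)))) (XT.nd (nat_lit 156) (nat_lit 532) (nat_lit 0) (XT.nd (nat_lit 78) (nat_lit 608) (nat_lit 0) (XT.lf (nat_lit 0) (nat_lit 9861952582) (nat_lit 532) (nat_lit 4337181836) (nat_lit 608) (nat_lit 3353748934) (nat_lit 252) (nat_lit 5) (nat_lit 259) (nat_lit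 5) (nat_lit 260) (nat_lit 5) (nat_lit 622) (nat_lit 558) (nat_lit 380)) (XT.lf (nat_lit 0) (nat_lit 137877325) (nat_lit 608) (nat_lit 14925831082) (nat_lit 76) (nat_lit 2693542856) (nat_lit 244) (nat_lit 5) (nat_lit 252) (nat_lit 5) (nat_lit 245) (nat_lit 5) (nat_lit 623) (nat_lit 558) (nat_lit 379))) (XT.nd (nat_lit 78) (nat_lit 532) (nat_lit 0) (XT.lf (nat_lit 0) (nat_lit 3726758726) (nat_lit 608) (nat_lit 4358866605) (nat_lit 76) (nat_lit 9878191602) (nat_lit 244) (nat_lit 5) (nat_lit 252) (nat_lit 5) (nat_lit 245) (nat_lit 5) (nat_lit 624) (nat_lit 558) (nat_lit 378)) (XT.lf (nat_lit 0) (nat_lit 6493435109) (nat_lit 532) (nat_lit 927919093) (nat_lit 608) (nat_lit 10752481329) (nat_lit 237) (nat_lit 5) (nat_lit 244) (nat_lit 5) (nat_lit 245) (nat_lit 5) (nat_lit 625) (nat_lit 558) (nat_lit 377))))))))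
noncomputable def xc151 : XT := (XT.nd (nat_lit 2262) (nat_lit 3192) (nat_lit 0) (XT.nd (nat_lit 1092) (nat_lit 3496) (nat_lit 0) (XT.nd (nat_lit 546) (nat_lit 1900) (nat_lit 0) (XT.nd (nat_lit 234) (nat_lit 912) (nat_lit 0) (XT.nd (nat_lit 78) (nat_lit 1064) (nat_lit 0) (XT.lf (nat_lit 0) (nat_lit 11252509739) (nat_lit 608) (nat_lit 818407118) (nat_lit 76) (nat_lit 6315884621) (nat_lit 237) (nat_lit 5) (nat_lit 245) (nat_lit 5) (nat_lit 238) (nat_lit 5) (nat_lit 626) (nat_lit 558) (nat_lit 376)) (XT.nd (nat_lit 78) (nat_lit 608) (nat_lit 0) (XT.lf (nat_lit 0) (nat_lit 10379799130) (nat_lit 456) (nat_lit 4846033613) (nat_lit 532) (nat_lit 3376883445) (nat_lit 231) (nat_lit 5) (nat_lit 237) (nat_lit 5) (nat_lit 238) (nat_lit 5) (nat_lit 627) (nat_lit 558) (nat_lit 375)) (XT.lf (nat_lit 0) (nat_lit 483393952) (nat_lit 608) (nat_lit 15823363942) (nat_lit 76) (nat_lit 2515458504) (nat_lit 223) (nat_lit 5) (nat_lit 231) (nat_lit 5) (nat_lit 224) (nat_lit 5) (nat_lit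 628) (nat_lit 558) (nat_lit 374)))) (XT.nd (nat_lit 156) (nat_lit 456) (nat_lit 0) (XT.nd (nat_lit 78) (nat_lit 456) (nat_lit 0) (XT.lf (nat_lit 0) (nat_lit 4455445516) (nat_lit 608) (nat_lit 4554417026) (nat_lit 76) (nat_lit 10034202256) (nat_lit 223) (nat_lit 5) (nat_lit 231) (nat_lit 5) (nat_lit 224) (nat_lit 5) (nat_lit 629) (nat_lit 558) (nat_lit 373)) (XT.lf (nat_lit 0) (nat_lit 7021096331) (nat_lit 456) (nat_lit 1523686562) (nat_lit 532) (nat_lit 10724810686) (nat_lit 217) (nat_lit 5) (nat_lit 223) (nat_lit 5) (nat_lit 224) (nat_lit 5) (nat_lit 630) (nat_lit 558) (nat_lit 372))) (XT.nd (nat_lit 78) (nat_lit 456) (nat_lit 0) (XT.lf (nat_lit 0) (nat_lit 12778676621) (nat_lit 532) (nat_lit 660009048) (nat_lit 76) (nat_lit 6059692173) (nat_lit 217) (nat_lit 5) (nat_lit 224) (nat_lit 5) (nat_lit 218) (nat_lit 5) (nat_lit 631) (nat_lit 558) (nat_lit 371)) (XT.lf (nat_lit 0) (nat_lit 11287453396) (nat_lit 456) (nat_lit 5885641815) (nat_lit 532) (nat_lit 2557125936)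 (nat_lit 211) (nat_lit 5) (nat_lit 217) (nat_lit 5) (nat_lit 218) (nat_lit 5) (nat_lit 632) (nat_lit 558) (nat_lit 370))))) (XT.nd (nat_lit 234) (nat_lit 912) (nat_lit 0) (XT.nd (nat_lit 78) (nat_lit 456) (nat_lit 0) (XT.lf (nat_lit 0) (nat_lit 1698540528) (nat_lit 532) (nat_lit 16437249697) (nat_lit 76) (nat_lit 1830052345) (nat_lit 204) (nat_lit 5) (nat_lit 211) (nat_lit 5) (nat_lit 205) (nat_lit 5) (nat_lit 633) (nat_lit 558) (nat_lit 369)) (XT.nd (nat_lit 78) (nat_lit 456) (nat_lit 0) (XT.lf (nat_lit 0) (nat_lit 6093676540) (nat_lit 532) (nat_lit 4418333985) (nat_lit 76) (nat_lit 9692056202) (nat_lit 204) (nat_lit 5) (nat_lit 211) (nat_lit 5) (nat_lit 205) (nat_lit 5) (nat_lit 634) (nat_lit 558) (nat_lit 368)) (XT.lf (nat_lit 0) (nat_lit 7934405758) (nat_lit 456) (nat_lit 2686526655) (nat_lit 532) (nat_lit 9825238882) (nat_lit 198) (nat_lit 5) (nat_lit 204) (nat_lit 5) (nat_lit 205) (nat_lit 5) (nat_lit 635) (nat_lit 558) (nat_lit 367)))) (XT.nd (nat_lit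 156) (nat_lit 532) (nat_lit 0) (XT.nd (nat_lit 78) (nat_lit 380) (nat_lit 0) (XT.lf (nat_lit 0) (nat_lit 15295715571) (nat_lit 532) (nat_lit 143679802) (nat_lit 76) (nat_lit 5252583206) (nat_lit 198) (nat_lit 5) (nat_lit 205) (nat_lit 5) (nat_lit 199) (nat_lit 5) (nat_lit 636) (nat_lit 558) (nat_lit 366)) (XT.lf (nat_lit 0) (nat_lit 12608884282) (nat_lit 380) (nat_lit 7547663761) (nat_lit 456) (nat_lit 784303154) (nat_lit 193) (nat_lit 5) (nat_lit 198) (nat_lit 5) (nat_lit 199) (nat_lit 5) (nat_lit 637) (nat_lit 558) (nat_lit 365))) (XT.nd (nat_lit 78) (nat_lit 0) (nat_lit 0) (XT.lf (nat_lit 0) (nat_lit 3894848120) (nat_lit 532) (nat_lit 16751204921) (nat_lit 76) (nat_lit 547612220) (nat_lit 186) (nat_lit 5) (nat_lit 193) (nat_lit 5) (nat_lit 187) (nat_lit 5) (nat_lit 638) (nat_lit 558) (nat_lit 364)) (XT.lf (nat_lit 0) (nat_lit 8756327973) (nat_lit 532) (nat_lit 3931182445) (nat_lit 76) (nat_lit 8761936802) (nat_lit 186) (nat_lit 5) (nat_lit 193) (nat_lit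 5) (nat_lit 187) (nat_lit 5) (nat_lit 639) (nat_lit 558) (nat_lit 363)))))) (XT.nd (nat_lit 546) (nat_lit 1444) (nat_lit 0) (XT.nd (nat_lit 234) (nat_lit 1216) (nat_lit 0) (XT.nd (nat_lit 78) (nat_lit 456) (nat_lit 0) (XT.lf (nat_lit 0) (nat_lit 9256310860) (nat_lit 380) (nat_lit 4511933365) (nat_lit 456) (nat_lit 7941036699) (nat_lit 181) (nat_lit 5) (nat_lit 186) (nat_lit 5) (nat_lit 187) (nat_lit 5) (nat_lit 640) (nat_lit 558) (nat_lit 362)) (XT.nd (nat_lit 78) (nat_lit 76) (nat_lit 0) (XT.lf (nat_lit 0) (nat_lit 761650361) (nat_lit 380) (nat_lit 18168251904) (nat_lit 456) (nat_lit 3043419204) (nat_lit 176) (nat_lit 5) (nat_lit 181) (nat_lit 5) (nat_lit 182) (nat_lit 5) (nat_lit 641) (nat_lit 558) (nat_lit 361)) (XT.lf (nat_lit 0) (nat_lit 2033724662) (nat_lit 456) (nat_lit 7885110334) (nat_lit 76) (nat_lit 12321411029) (nat_lit 175) (nat_lit 5) (nat_lit 181) (nat_lit 5) (nat_lit 176) (nat_lit 5) (nat_lit 642) (nat_lit 558) (nat_lit 360)))) (XT.nd (nat_lit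 156) (nat_lit 836) (nat_lit 0) (XT.nd (nat_lit 78) (nat_lit 0) (nat_lit 0) (XT.lf (nat_lit 0) (nat_lit 5753086301) (nat_lit 380) (nat_lit 1449275525) (nat_lit 456) (nat_lit 15309131091) (nat_lit 170) (nat_lit 5) (nat_lit 175) (nat_lit 5) (nat_lit 176) (nat_lit 5) (nat_lit 643) (nat_lit 558) (nat_lit 359)) (XT.lf (nat_lit 0) (nat_lit 12567669069) (nat_lit 456) (nat_lit 3073441345) (nat_lit 76) (nat_lit 7145188608) (nat_lit 170) (nat_lit 5) (nat_lit 176) (nat_lit 5) (nat_lit 171) (nat_lit 5) (nat_lit 644) (nat_lit 558) (nat_lit 358))) (XT.nd (nat_lit 78) (nat_lit 456) (nat_lit 0) (XT.lf (nat_lit 0) (nat_lit 11009988143) (nat_lit 380) (nat_lit 7104860167) (nat_lit 456) (nat_lit 4950261835) (nat_lit 165) (nat_lit 5) (nat_lit 170) (nat_lit 5) (nat_lit 171) (nat_lit 5) (nat_lit 645) (nat_lit 558) (nat_lit 357)) (XT.lf (nat_lit 0) (nat_lit 456326663) (nat_lit 456) (nat_lit 21277484257) (nat_lit 76) (nat_lit 1614863647) (nat_lit 159) (nat_lit 5) (nat_lit 165) (nat_lit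 5) (nat_lit 160) (nat_lit 5) (nat_lit 646) (nat_lit 558) (nat_lit 356))))) (XT.nd (nat_lit 312) (nat_lit 760) (nat_lit 0) (XT.nd (nat_lit 156) (nat_lit 304) (nat_lit 0) (XT.nd (nat_lit 78) (nat_lit 380) (nat_lit 0) (XT.lf (nat_lit 0) (nat_lit 6026852272) (nat_lit 456) (nat_lit 7083319470) (nat_lit 76) (nat_lit 10524642529) (nat_lit 159) (nat_lit 5) (nat_lit 165) (nat_lit 5) (nat_lit 160) (nat_lit 5) (nat_lit 647) (nat_lit 558) (nat_lit 355)) (XT.lf (nat_lit 0) (nat_lit 7482971724) (nat_lit 380) (nat_lit 4268071066) (nat_lit 456) (nat_lit 12174789089) (nat_lit 154) (nat_lit 5) (nat_lit 159) (nat_lit 5) (nat_lit 160) (nat_lit 5) (nat_lit 648) (nat_lit 558) (nat_lit 354))) (XT.nd (nat_lit 78) (nat_lit 304) (nat_lit 0) (XT.lf (nat_lit 0) (nat_lit 17662117649) (nat_lit 456) (nat_lit 1826209529) (nat_lit 76) (nat_lit 4732894844) (nat_lit 154) (nat_lit 5) (nat_lit 160) (nat_lit 5) (nat_lit 155) (nat_lit 5) (nat_lit 649) (nat_lit 558) (nat_lit 353)) (XT.lf (nat_lit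 0) (nat_lit 13218126897) (nat_lit 304) (nat_lit 10581203846) (nat_lit 380) (nat_lit 721031081) (nat_lit 150) (nat_lit 5) (nat_lit 154) (nat_lit 5) (nat_lit 155) (nat_lit 5) (nat_lit 650) (nat_lit 558) (nat_lit 352)))) (XT.nd (nat_lit 156) (nat_lit 304) (nat_lit 0) (XT.nd (nat_lit 78) (nat_lit 0) (nat_lit 0) (XT.lf (nat_lit 0) (nat_lit 3768469332) (nat_lit 380) (nat_lit 1427343468) (nat_lit 456) (nat_lit 19628379151) (nat_lit 144) (nat_lit 5) (nat_lit 149) (nat_lit 5) (nat_lit 150) (nat_lit 5) (nat_lit 651) (nat_lit 558) (nat_lit 351)) (XT.lf (nat_lit 0) (nat_lit 11342930865) (nat_lit 456) (nat_lit 5905213319) (nat_lit 76) (nat_lit 7883427517) (nat_lit 144) (nat_lit 5) (nat_lit 150) (nat_lit 5) (nat_lit 145) (nat_lit 5) (nat_lit 652) (nat_lit 558) (nat_lit 350))) (XT.nd (nat_lit 78) (nat_lit 0) (nat_lit 0) (XT.lf (nat_lit 0) (nat_lit 9655892012) (nat_lit 304) (nat_lit 8023246627) (nat_lit 380) (nat_lit 7764637637) (nat_lit 140) (nat_lit 5) (nat_lit 144) (nat_lit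 5) (nat_lit 145) (nat_lit 5) (nat_lit 653) (nat_lit 558) (nat_lit 349)) (XT.lf (nat_lit 0) (nat_lit 24184994513) (nat_lit 380) (nat_lit 172061279) (nat_lit 76) (nat_lit 1404310844) (nat_lit 140) (nat_lit 5) (nat_lit 145) (nat_lit 5) (nat_lit 141) (nat_lit 5) (nat_lit 654) (nat_lit 558) (nat_lit 348))))))) (XT.nd (nat_lit 1170) (nat_lit 0) (nat_lit 0) (XT.nd (nat_lit 546) (nat_lit 1444) (nat_lit 0) (XT.nd (nat_lit 234) (nat_lit 988) (nat_lit 0) (XT.nd (nat_lit 78) (nat_lit 304) (nat_lit 0) (XT.lf (nat_lit 0) (nat_lit 4825078809) (nat_lit 456) (nat_lit 10211983766) (nat_lit 76) (nat_lit 11044600870) (nat_lit 134) (nat_lit 5) (nat_lit 140) (nat_lit 5) (nat_lit 135) (nat_lit 5) (nat_lit 655) (nat_lit 558) (nat_lit 347)) (XT.nd (nat_lit 78) (nat_lit 0) (nat_lit 0) (XT.lf (nat_lit 0) (nat_lit 5883501181) (nat_lit 304) (nat_lit 5483498365) (nat_lit 380) (nat_lit 15040487444) (nat_lit 130) (nat_lit 5) (nat_lit 134) (nat_lit 5) (nat_lit 135) (nat_lit 5) (nat_lit 656)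 (nat_lit 558) (nat_lit 346)) (XT.lf (nat_lit 0) (nat_lit 18130603133) (nat_lit 380) (nat_lit 4336743978) (nat_lit 76) (nat_lit 4270663165) (nat_lit 130) (nat_lit 5) (nat_lit 135) (nat_lit 5) (nat_lit 131) (nat_lit 5) (nat_lit 657) (nat_lit 558) (nat_lit 345)))) (XT.nd (nat_lit 156) (nat_lit 304) (nat_lit 0) (XT.nd (nat_lit 78) (nat_lit 380) (nat_lit 0) (XT.lf (nat_lit 0) (nat_lit 12289807710) (nat_lit 304) (nat_lit 12850089705) (nat_lit 380) (nat_lit 1933038397) (nat_lit 126) (nat_lit 5) (nat_lit 130) (nat_lit 5) (nat_lit 131) (nat_lit 5) (nat_lit 658) (nat_lit 558) (nat_lit 344)) (XT.lf (nat_lit 0) (nat_lit 1877156457) (nat_lit 304) (nat_lit 2969534009) (nat_lit 380) (nat_lit 22566520395) (nat_lit 121) (nat_lit 5) (nat_lit 125) (nat_lit 5) (nat_lit 126) (nat_lit 5) (nat_lit 659) (nat_lit 558) (nat_lit 343))) (XT.nd (nat_lit 78) (nat_lit 304) (nat_lit 0) (XT.lf (nat_lit 0) (nat_lit 11876520367) (nat_lit 380) (nat_lit 8756229542) (nat_lit 76) (nat_lit 7124478304)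 (nat_lit 121) (nat_lit 5) (nat_lit 126) (nat_lit 5) (nat_lit 122) (nat_lit 5) (nat_lit 660) (nat_lit 558) (nat_lit 342)) (XT.lf (nat_lit 0) (nat_lit 8441069849) (nat_lit 304) (nat_lit 10674810717) (nat_lit 380) (nat_lit 8990866817) (nat_lit 117) (nat_lit 5) (nat_lit 121) (nat_lit 5) (nat_lit 122) (nat_lit 5) (nat_lit 661) (nat_lit 558) (nat_lit 341))))) (XT.nd (nat_lit 312) (nat_lit 836) (nat_lit 0) (XT.nd (nat_lit 156) (nat_lit 304) (nat_lit 0) (XT.nd (nat_lit 78) (nat_lit 304) (nat_lit 0) (XT.lf (nat_lit 0) (nat_lit 26091906175) (nat_lit 304) (nat_lit 461393068) (nat_lit 380) (nat_lit 1908892410) (nat_lit 117) (nat_lit 5) (nat_lit 121) (nat_lit 5) (nat_lit 122) (nat_lit 5) (nat_lit 662) (nat_lit 558) (nat_lit 340)) (XT.lf (nat_lit 0) (nat_lit 5405294741) (nat_lit 304) (nat_lit 13457793437) (nat_lit 76) (nat_lit 9957761096) (nat_lit 113) (nat_lit 5) (nat_lit 117) (nat_lit 5) (nat_lit 114) (nat_lit 5) (nat_lit 663) (nat_lit 558) (nat_lit 339))) (XT.nd (nat_lit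 78) (nat_lit 0) (nat_lit 0) (XT.lf (nat_lit 0) (nat_lit 4328781224) (nat_lit 304) (nat_lit 8553229534) (nat_lit 380) (nat_lit 16303580964) (nat_lit 109) (nat_lit 5) (nat_lit 113) (nat_lit 5) (nat_lit 114) (nat_lit 5) (nat_lit 664) (nat_lit 558) (nat_lit 338)) (XT.lf (nat_lit 0) (nat_lit 20606545240) (nat_lit 380) (nat_lit 6924698550) (nat_lit 76) (nat_lit 2024419678) (nat_lit 109) (nat_lit 5) (nat_lit 114) (nat_lit 5) (nat_lit 110) (nat_lit 5) (nat_lit 665) (nat_lit 558) (nat_lit 337)))) (XT.nd (nat_lit 156) (nat_lit 532) (nat_lit 0) (XT.nd (nat_lit 78) (nat_lit 76) (nat_lit 0) (XT.lf (nat_lit 0) (nat_lit 11450722392) (nat_lit 228) (nat_lit 17160576062) (nat_lit 304) (nat_lit 1319323761) (nat_lit 106) (nat_lit 5) (nat_lit 109) (nat_lit 5) (nat_lit 110) (nat_lit 5) (nat_lit 666) (nat_lit 558) (nat_lit 336)) (XT.lf (nat_lit 0) (nat_lit 6419828185) (nat_lit 304) (nat_lit 75782339) (nat_lit 76) (nat_lit 23815799968) (nat_lit 105) (nat_lit 5) (nat_lit 109) (nat_lit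 5) (nat_lit 106) (nat_lit 5) (nat_lit 667) (nat_lit 558) (nat_lit 335))) (XT.nd (nat_lit 78) (nat_lit 228) (nat_lit 0) (XT.lf (nat_lit 0) (nat_lit 14443158331) (nat_lit 380) (nat_lit 11799379869) (nat_lit 76) (nat_lit 4454160824) (nat_lit 101) (nat_lit 5) (nat_lit 106) (nat_lit 5) (nat_lit 102) (nat_lit 5) (nat_lit 668) (nat_lit 558) (nat_lit 334)) (XT.lf (nat_lit 0) (nat_lit 7203960395) (nat_lit 228) (nat_lit 15508171239) (nat_lit 304) (nat_lit 8375858280) (nat_lit 98) (nat_lit 5) (nat_lit 101) (nat_lit 5) (nat_lit 102) (nat_lit 5) (nat_lit 669) (nat_lit 558) (nat_lit 333)))))) (XT.nd (nat_lit 73008) (nat_lit 0) (nat_lit 32376) (XT.nd (nat_lit 72696) (nat_lit 0) (nat_lit 33744) (XT.nd (nat_lit 72540) (nat_lit 0) (nat_lit 33744) (XT.lf (nat_lit 0) (nat_lit 26738641619) (nat_lit 228) (nat_lit 4481941515) (nat_lit 304) (nat_lit 265041629) (nat_lit 98) (nat_lit 5) (nat_lit 101) (nat_lit 5) (nat_lit 102) (nat_lit 5) (nat_lit 670) (nat_lit 558) (nat_lit 332)) (XT.nd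 (nat_lit 78) (nat_lit 0) (nat_lit 0) (XT.lf (nat_lit 0) (nat_lit 126228654) (nat_lit 0) (nat_lit 126228654) (nat_lit 1596) (nat_lit 4426750563) (nat_lit 542) (nat_lit 5) (nat_lit 542) (nat_lit 3) (nat_lit 563) (nat_lit 3) (nat_lit 559) (nat_lit 559) (nat_lit 442)) (XT.lf (nat_lit 0) (nat_lit 1362512326) (nat_lit 1596) (nat_lit 4480461858) (nat_lit 1672) (nat_lit 3591919960) (nat_lit 542) (nat_lit 5) (nat_lit 563) (nat_lit 3) (nat_lit 564) (nat_lit 5) (nat_lit 560) (nat_lit 559) (nat_lit 441)))) (XT.nd (nat_lit 156) (nat_lit 0) (nat_lit 76) (XT.nd (nat_lit 78) (nat_lit 0) (nat_lit 76) (XT.lf (nat_lit 76) (nat_lit 227477881) (nat_lit 0) (nat_lit 1991260727) (nat_lit 1672) (nat_lit 7294535410) (nat_lit 543) (nat_lit 5) (nat_lit 542) (nat_lit 5) (nat_lit 564) (nat_lit 5) (nat_lit 561) (nat_lit 559) (nat_lit 440)) (XT.lf (nat_lit 0) (nat_lit 3113678613) (nat_lit 1596) (nat_lit 4526884755) (nat_lit 1672) (nat_lit 1952227745) (nat_lit 543) (nat_lit 5) (nat_lit 564)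 (nat_lit 5) (nat_lit 565) (nat_lit 5) (nat_lit 562) (nat_lit 559) (nat_lit 439))) (XT.nd (nat_lit 78) (nat_lit 0) (nat_lit 76) (XT.lf (nat_lit 76) (nat_lit 306472150) (nat_lit 0) (nat_lit 3714383397) (nat_lit 1672) (nat_lit 5653157622) (nat_lit 544) (nat_lit 5) (nat_lit 543) (nat_lit 5) (nat_lit 565) (nat_lit 5) (nat_lit 563) (nat_lit 559) (nat_lit 438)) (XT.lf (nat_lit 0) (nat_lit 4958193628) (nat_lit 1596) (nat_lit 4472437818) (nat_lit 1672) (nat_lit 325989222) (nat_lit 544) (nat_lit 5) (nat_lit 565) (nat_lit 5) (nat_lit 566) (nat_lit 5) (nat_lit 564) (nat_lit 559) (nat_lit 437))))) (XT.nd (nat_lit 312) (nat_lit 1520) (nat_lit 0) (XT.nd (nat_lit 156) (nat_lit 0) (nat_lit 76) (XT.nd (nat_lit 78) (nat_lit 0) (nat_lit 0) (XT.lf (nat_lit 76) (nat_lit 490679837) (nat_lit 0) (nat_lit 5431337625) (nat_lit 1672) (nat_lit 3918709402) (nat_lit 545) (nat_lit 5) (nat_lit 544) (nat_lit 5) (nat_lit 566) (nat_lit 5) (nat_lit 565) (nat_lit 559) (nat_lit 436)) (XT.lf (nat_lit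 76) (nat_lit 5602037654) (nat_lit 0) (nat_lit 1313364566) (nat_lit 1672) (nat_lit 3010908578) (nat_lit 545) (nat_lit 5) (nat_lit 544) (nat_lit 5) (nat_lit 566) (nat_lit 5) (nat_lit 566) (nat_lit 559) (nat_lit 435))) (XT.nd (nat_lit 78) (nat_lit 0) (nat_lit 0) (XT.lf (nat_lit 76) (nat_lit 781665364) (nat_lit 0) (nat_lit 7151518801) (nat_lit 1672) (nat_lit 2080332930) (nat_lit 546) (nat_lit 5) (nat_lit 545) (nat_lit 5) (nat_lit 567) (nat_lit 5) (nat_lit 567) (nat_lit 559) (nat_lit 434)) (XT.lf (nat_lit 76) (nat_lit 6027745531) (nat_lit 0) (nat_lit 2962246960) (nat_lit 1672) (nat_lit 1112102864) (nat_lit 546) (nat_lit 5) (nat_lit 545) (nat_lit 5) (nat_lit 567) (nat_lit 5) (nat_lit 568) (nat_lit 559) (nat_lit 433)))) (XT.nd (nat_lit 156) (nat_lit 0) (nat_lit 0) (XT.nd (nat_lit 78) (nat_lit 1672) (nat_lit 0) (XT.lf (nat_lit 76) (nat_lit 1181315801) (nat_lit 0) (nat_lit 8884231946) (nat_lit 1672) (nat_lit 126946445) (nat_lit 547) (nat_lit 5) (nat_lit 546) (nat_lit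 5) (nat_lit 568) (nat_lit 5) (nat_lit 569) (nat_lit 559) (nat_lit 432)) (XT.lf (nat_lit 0) (nat_lit 895133619) (nat_lit 1672) (nat_lit 3724465017) (nat_lit 1748) (nat_lit 5664414858) (nat_lit 524) (nat_lit 5) (nat_lit 546) (nat_lit 5) (nat_lit 547) (nat_lit 5) (nat_lit 570) (nat_lit 559) (nat_lit 431))) (XT.nd (nat_lit 78) (nat_lit 0) (nat_lit 76) (XT.lf (nat_lit 76) (nat_lit 1677241331) (nat_lit 0) (nat_lit 251561254) (nat_lit 1748) (nat_lit 8448688028) (nat_lit 525) (nat_lit 5) (nat_lit 524) (nat_lit 5) (nat_lit 547) (nat_lit 5) (nat_lit 571) (nat_lit 559) (nat_lit 430)) (XT.lf (nat_lit 0) (nat_lit 3017869113) (nat_lit 1672) (nat_lit 3274543843) (nat_lit 1748) (nat_lit 4179730969) (nat_lit 525) (nat_lit 5) (nat_lit 547) (nat_lit 5) (nat_lit 548) (nat_lit 5) (nat_lit 572) (nat_lit 559) (nat_lit 429))))))))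
noncomputable def xc152 : XT := (XT.nd (nat_lit 2262) (nat_lit 10868) (nat_lit 0) (XT.nd (nat_lit 1092) (nat_lit 7144) (nat_lit 0) (XT.nd (nat_lit 546) (nat_lit 3420) (nat_lit 0) (XT.nd (nat_lit 234) (nat_lit 1520) (nat_lit 0) (XT.nd (nat_lit 78) (nat_lit 0) (nat_lit 76) (XT.lf (nat_lit 76) (nat_lit 2275883133) (nat_lit 0) (nat_lit 1851895413) (nat_lit 1748) (nat_lit 6440931637) (nat_lit 526) (nat_lit 5) (nat_lit 525) (nat_lit 5) (nat_lit 548) (nat_lit 5) (nat_lit 573) (nat_lit 559) (nat_lit 428)) (XT.nd (nat_lit 78) (nat_lit 0) (nat_lit 0) (XT.lf (nat_lit 0) (nat_lit 5282305796) (nat_lit 1672) (nat_lit 2714865295) (nat_lit 1748) (nat_lit 2669589371) (nat_lit 526) (nat_lit 5) (nat_lit 548) (nat_lit 5) (nat_lit 549) (nat_lit 5) (nat_lit 574) (nat_lit 559) (nat_lit 427)) (XT.lf (nat_lit 76) (nat_lit 2989567088) (nat_lit 0) (nat_lit 3485282457) (nat_lit 1748) (nat_lit 4291624749) (nat_lit 527) (nat_lit 5) (nat_lit 526) (nat_lit 5) (nat_lit 549) (nat_lit 5) (nat_lit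 575) (nat_lit 559) (nat_lit 426)))) (XT.nd (nat_lit 156) (nat_lit 1672) (nat_lit 0) (XT.nd (nat_lit 78) (nat_lit 0) (nat_lit 0) (XT.lf (nat_lit 0) (nat_lit 7700366072) (nat_lit 1672) (nat_lit 2042615595) (nat_lit 1748) (nat_lit 1125019345) (nat_lit 527) (nat_lit 5) (nat_lit 549) (nat_lit 5) (nat_lit 550) (nat_lit 5) (nat_lit 576) (nat_lit 559) (nat_lit 425)) (XT.lf (nat_lit 76) (nat_lit 3821324884) (nat_lit 0) (nat_lit 5160814654) (nat_lit 1748) (nat_lit 1988784822) (nat_lit 528) (nat_lit 5) (nat_lit 527) (nat_lit 5) (nat_lit 550) (nat_lit 5) (nat_lit 577) (nat_lit 559) (nat_lit 424))) (XT.nd (nat_lit 78) (nat_lit 1672) (nat_lit 0) (XT.lf (nat_lit 76) (nat_lit 9818238807) (nat_lit 0) (nat_lit 469110087) (nat_lit 1748) (nat_lit 788602277) (nat_lit 528) (nat_lit 5) (nat_lit 527) (nat_lit 5) (nat_lit 550) (nat_lit 5) (nat_lit 578) (nat_lit 559) (nat_lit 423)) (XT.lf (nat_lit 0) (nat_lit 473612561) (nat_lit 1748) (nat_lit 6410816540) (nat_lit 1824) (nat_lit 4297718994)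 (nat_lit 505) (nat_lit 5) (nat_lit 528) (nat_lit 5) (nat_lit 529) (nat_lit 5) (nat_lit 579) (nat_lit 559) (nat_lit 422))))) (XT.nd (nat_lit 234) (nat_lit 3420) (nat_lit 0) (XT.nd (nat_lit 78) (nat_lit 0) (nat_lit 76) (XT.lf (nat_lit 0) (nat_lit 1746679586) (nat_lit 1748) (nat_lit 372903101) (nat_lit 1824) (nat_lit 9170859621) (nat_lit 505) (nat_lit 5) (nat_lit 528) (nat_lit 5) (nat_lit 529) (nat_lit 5) (nat_lit 580) (nat_lit 559) (nat_lit 421)) (XT.nd (nat_lit 78) (nat_lit 0) (nat_lit 0) (XT.lf (nat_lit 0) (nat_lit 3086116743) (nat_lit 1748) (nat_lit 5567996046) (nat_lit 1824) (nat_lit 2745972370) (nat_lit 506) (nat_lit 5) (nat_lit 529) (nat_lit 5) (nat_lit 530) (nat_lit 5) (nat_lit 581) (nat_lit 559) (nat_lit 420)) (XT.lf (nat_lit 76) (nat_lit 636435307) (nat_lit 0) (nat_lit 3821692381) (nat_lit 1824) (nat_lit 7053678389) (nat_lit 507) (nat_lit 5) (nat_lit 506) (nat_lit 5) (nat_lit 530) (nat_lit 5) (nat_lit 582) (nat_lit 559) (nat_lit 419)))) (XT.nd (nat_lit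 156) (nat_lit 1824) (nat_lit 0) (XT.nd (nat_lit 78) (nat_lit 1748) (nat_lit 0) (XT.lf (nat_lit 0) (nat_lit 5887707183) (nat_lit 1748) (nat_lit 4604474530) (nat_lit 76) (nat_lit 1132978028) (nat_lit 507) (nat_lit 5) (nat_lit 530) (nat_lit 5) (nat_lit 508) (nat_lit 5) (nat_lit 583) (nat_lit 559) (nat_lit 418)) (XT.lf (nat_lit 0) (nat_lit 1777634536) (nat_lit 1748) (nat_lit 5590709121) (nat_lit 1824) (nat_lit 4371988389) (nat_lit 484) (nat_lit 5) (nat_lit 507) (nat_lit 5) (nat_lit 508) (nat_lit 5) (nat_lit 584) (nat_lit 559) (nat_lit 417))) (XT.nd (nat_lit 78) (nat_lit 1824) (nat_lit 0) (XT.lf (nat_lit 0) (nat_lit 8337671101) (nat_lit 1748) (nat_lit 557638108) (nat_lit 1824) (nat_lit 2962165119) (nat_lit 484) (nat_lit 5) (nat_lit 507) (nat_lit 5) (nat_lit 508) (nat_lit 5) (nat_lit 585) (nat_lit 559) (nat_lit 416)) (XT.lf (nat_lit 0) (nat_lit 3050056238) (nat_lit 1824) (nat_lit 7438380909) (nat_lit 1900) (nat_lit 1487810690) (nat_lit 460) (nat_lit 5) (nat_lit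 484) (nat_lit 5) (nat_lit 485) (nat_lit 5) (nat_lit 586) (nat_lit 559) (nat_lit 415)))))) (XT.nd (nat_lit 546) (nat_lit 3344) (nat_lit 0) (XT.nd (nat_lit 234) (nat_lit 2660) (nat_lit 0) (XT.nd (nat_lit 78) (nat_lit 1064) (nat_lit 0) (XT.lf (nat_lit 0) (nat_lit 29501010) (nat_lit 1900) (nat_lit 2314140739) (nat_lit 76) (nat_lit 9753480185) (nat_lit 459) (nat_lit 5) (nat_lit 484) (nat_lit 5) (nat_lit 460) (nat_lit 5) (nat_lit 587) (nat_lit 559) (nat_lit 414)) (XT.nd (nat_lit 78) (nat_lit 0) (nat_lit 0) (XT.lf (nat_lit 0) (nat_lit 1591529501) (nat_lit 1140) (nat_lit 7771863206) (nat_lit 76) (nat_lit 2856139065) (nat_lit 445) (nat_lit 5) (nat_lit 460) (nat_lit 5) (nat_lit 446) (nat_lit 5) (nat_lit 588) (nat_lit 559) (nat_lit 413)) (XT.lf (nat_lit 0) (nat_lit 3202629206) (nat_lit 1140) (nat_lit 995863686) (nat_lit 76) (nat_lit 8145541080) (nat_lit 445) (nat_lit 5) (nat_lit 460) (nat_lit 5) (nat_lit 446) (nat_lit 5) (nat_lit 589) (nat_lit 559) (nat_lit 412)))) (XT.nd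 (nat_lit 156) (nat_lit 836) (nat_lit 0) (XT.nd (nat_lit 78) (nat_lit 912) (nat_lit 0) (XT.lf (nat_lit 0) (nat_lit 4878939150) (nat_lit 988) (nat_lit 6495612049) (nat_lit 76) (nat_lit 1095816014) (nat_lit 433) (nat_lit 5) (nat_lit 446) (nat_lit 5) (nat_lit 434) (nat_lit 5) (nat_lit 590) (nat_lit 559) (nat_lit 411)) (XT.lf (nat_lit 0) (nat_lit 465255966) (nat_lit 912) (nat_lit 6148195694) (nat_lit 988) (nat_lit 5985282679) (nat_lit 421) (nat_lit 5) (nat_lit 433) (nat_lit 5) (nat_lit 434) (nat_lit 5) (nat_lit 591) (nat_lit 559) (nat_lit 410))) (XT.nd (nat_lit 78) (nat_lit 836) (nat_lit 0) (XT.lf (nat_lit 0) (nat_lit 7641282040) (nat_lit 912) (nat_lit 772259210) (nat_lit 988) (nat_lit 4315510555) (nat_lit 421) (nat_lit 5) (nat_lit 433) (nat_lit 5) (nat_lit 434) (nat_lit 5) (nat_lit 592) (nat_lit 559) (nat_lit 409)) (XT.lf (nat_lit 0) (nat_lit 2083464661) (nat_lit 836) (nat_lit 8197834103) (nat_lit 912) (nat_lit 2580044251) (nat_lit 410) (nat_lit 5) (nat_lit 421)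 (nat_lit 5) (nat_lit 422) (nat_lit 5) (nat_lit 593) (nat_lit 559) (nat_lit 408))))) (XT.nd (nat_lit 312) (nat_lit 1596) (nat_lit 0) (XT.nd (nat_lit 156) (nat_lit 836) (nat_lit 0) (XT.nd (nat_lit 78) (nat_lit 912) (nat_lit 0) (XT.lf (nat_lit 0) (nat_lit 9449862183) (nat_lit 836) (nat_lit 2763488099) (nat_lit 912) (nat_lit 782391694) (nat_lit 410) (nat_lit 5) (nat_lit 421) (nat_lit 5) (nat_lit 422) (nat_lit 5) (nat_lit 594) (nat_lit 559) (nat_lit 407)) (XT.lf (nat_lit 0) (nat_lit 1068641678) (nat_lit 912) (nat_lit 9288071352) (nat_lit 76) (nat_lit 2775355769) (nat_lit 398) (nat_lit 5) (nat_lit 410) (nat_lit 5) (nat_lit 399) (nat_lit 5) (nat_lit 595) (nat_lit 559) (nat_lit 406))) (XT.nd (nat_lit 78) (nat_lit 836) (nat_lit 0) (XT.lf (nat_lit 0) (nat_lit 2976520788) (nat_lit 912) (nat_lit 1876681525) (nat_lit 76) (nat_lit 8417211050) (nat_lit 398) (nat_lit 5) (nat_lit 410) (nat_lit 5) (nat_lit 399) (nat_lit 5) (nat_lit 596) (nat_lit 559) (nat_lit 405)) (XT.lf (nat_lit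 0) (nat_lit 4953322347) (nat_lit 912) (nat_lit 7669790164) (nat_lit 76) (nat_lit 787797661) (nat_lit 387) (nat_lit 5) (nat_lit 399) (nat_lit 5) (nat_lit 388) (nat_lit 5) (nat_lit 597) (nat_lit 559) (nat_lit 404)))) (XT.nd (nat_lit 156) (nat_lit 760) (nat_lit 0) (XT.nd (nat_lit 78) (nat_lit 836) (nat_lit 0) (XT.lf (nat_lit 0) (nat_lit 7002901435) (nat_lit 912) (nat_lit 61519379) (nat_lit 76) (nat_lit 6489131912) (nat_lit 387) (nat_lit 5) (nat_lit 399) (nat_lit 5) (nat_lit 388) (nat_lit 5) (nat_lit 598) (nat_lit 559) (nat_lit 403)) (XT.lf (nat_lit 0) (nat_lit 7789263626) (nat_lit 836) (nat_lit 1343432684) (nat_lit 912) (nat_lit 4565567962) (nat_lit 376) (nat_lit 5) (nat_lit 387) (nat_lit 5) (nat_lit 388) (nat_lit 5) (nat_lit 599) (nat_lit 559) (nat_lit 402))) (XT.nd (nat_lit 78) (nat_lit 0) (nat_lit 0) (XT.lf (nat_lit 0) (nat_lit 1936307510) (nat_lit 760) (nat_lit 9399725852) (nat_lit 836) (nat_lit 2509218375) (nat_lit 366) (nat_lit 5) (nat_lit 376) (nat_lit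 5) (nat_lit 377) (nat_lit 5) (nat_lit 600) (nat_lit 559) (nat_lit 401)) (XT.lf (nat_lit 0) (nat_lit 9997729091) (nat_lit 760) (nat_lit 3623135604) (nat_lit 836) (nat_lit 373566306) (nat_lit 366) (nat_lit 5) (nat_lit 376) (nat_lit 5) (nat_lit 377) (nat_lit 5) (nat_lit 601) (nat_lit 559) (nat_lit 400))))))) (XT.nd (nat_lit 1092) (nat_lit 5168) (nat_lit 0) (XT.nd (nat_lit 546) (nat_lit 2660) (nat_lit 0) (XT.nd (nat_lit 234) (nat_lit 1520) (nat_lit 0) (XT.nd (nat_lit 78) (nat_lit 684) (nat_lit 0) (XT.lf (nat_lit 0) (nat_lit 1811836481) (nat_lit 836) (nat_lit 10056920813) (nat_lit 76) (nat_lit 2276988617) (nat_lit 355) (nat_lit 5) (nat_lit 366) (nat_lit 5) (nat_lit 356) (nat_lit 5) (nat_lit 602) (nat_lit 559) (nat_lit 399)) (XT.nd (nat_lit 78) (nat_lit 684) (nat_lit 0) (XT.lf (nat_lit 0) (nat_lit 4076155012) (nat_lit 836) (nat_lit 1947878637) (nat_lit 76) (nat_lit 8275200457) (nat_lit 355) (nat_lit 5) (nat_lit 366) (nat_lit 5) (nat_lit 356) (nat_lit 5) (nat_lit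 603) (nat_lit 559) (nat_lit 398)) (XT.lf (nat_lit 0) (nat_lit 6395535657) (nat_lit 684) (nat_lit 21173020) (nat_lit 760) (nat_lit 8038464967) (nat_lit 346) (nat_lit 5) (nat_lit 355) (nat_lit 5) (nat_lit 356) (nat_lit 5) (nat_lit 604) (nat_lit 559) (nat_lit 397)))) (XT.nd (nat_lit 156) (nat_lit 760) (nat_lit 0) (XT.nd (nat_lit 78) (nat_lit 0) (nat_lit 0) (XT.lf (nat_lit 0) (nat_lit 270281074) (nat_lit 760) (nat_lit 8577870719) (nat_lit 836) (nat_lit 5765199157) (nat_lit 336) (nat_lit 5) (nat_lit 346) (nat_lit 5) (nat_lit 347) (nat_lit 5) (nat_lit 605) (nat_lit 559) (nat_lit 396)) (XT.lf (nat_lit 0) (nat_lit 8864172393) (nat_lit 760) (nat_lit 2507952922) (nat_lit 836) (nat_lit 3401688990) (nat_lit 336) (nat_lit 5) (nat_lit 346) (nat_lit 5) (nat_lit 347) (nat_lit 5) (nat_lit 606) (nat_lit 559) (nat_lit 395))) (XT.nd (nat_lit 78) (nat_lit 76) (nat_lit 0) (XT.lf (nat_lit 0) (nat_lit 2692149401) (nat_lit 684) (nat_lit 11285694202) (nat_lit 760) (nat_lit 959018542)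 (nat_lit 327) (nat_lit 5) (nat_lit 336) (nat_lit 5) (nat_lit 337) (nat_lit 5) (nat_lit 607) (nat_lit 559) (nat_lit 394)) (XT.lf (nat_lit 0) (nat_lit 1558862247) (nat_lit 760) (nat_lit 3594871933) (nat_lit 76) (nat_lit 9948309145) (nat_lit 326) (nat_lit 5) (nat_lit 336) (nat_lit 5) (nat_lit 327) (nat_lit 5) (nat_lit 608) (nat_lit 559) (nat_lit 393))))) (XT.nd (nat_lit 234) (nat_lit 1368) (nat_lit 0) (XT.nd (nat_lit 78) (nat_lit 608) (nat_lit 0) (XT.lf (nat_lit 0) (nat_lit 4146079308) (nat_lit 760) (nat_lit 9997990811) (nat_lit 76) (nat_lit 1125695320) (nat_lit 317) (nat_lit 5) (nat_lit 327) (nat_lit 5) (nat_lit 318) (nat_lit 5) (nat_lit 609) (nat_lit 559) (nat_lit 392)) (XT.nd (nat_lit 78) (nat_lit 608) (nat_lit 0) (XT.lf (nat_lit 0) (nat_lit 6833688049) (nat_lit 760) (nat_lit 1121800477) (nat_lit 76) (nat_lit 7484381007) (nat_lit 317) (nat_lit 5) (nat_lit 327) (nat_lit 5) (nat_lit 318) (nat_lit 5) (nat_lit 610) (nat_lit 559) (nat_lit 391)) (XT.lf (nat_lit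 0) (nat_lit 8025767101) (nat_lit 608) (nat_lit 1591815376) (nat_lit 684) (nat_lit 5994943036) (nat_lit 309) (nat_lit 5) (nat_lit 317) (nat_lit 5) (nat_lit 318) (nat_lit 5) (nat_lit 611) (nat_lit 559) (nat_lit 390)))) (XT.nd (nat_lit 156) (nat_lit 684) (nat_lit 0) (XT.nd (nat_lit 78) (nat_lit 0) (nat_lit 0) (XT.lf (nat_lit 0) (nat_lit 1560102596) (nat_lit 684) (nat_lit 10937094501) (nat_lit 760) (nat_lit 3290637135) (nat_lit 300) (nat_lit 5) (nat_lit 309) (nat_lit 5) (nat_lit 310) (nat_lit 5) (nat_lit 612) (nat_lit 559) (nat_lit 389)) (XT.lf (nat_lit 0) (nat_lit 10970626683) (nat_lit 684) (nat_lit 4515799401) (nat_lit 760) (nat_lit 479183054) (nat_lit 300) (nat_lit 5) (nat_lit 309) (nat_lit 5) (nat_lit 310) (nat_lit 5) (nat_lit 613) (nat_lit 559) (nat_lit 388))) (XT.nd (nat_lit 78) (nat_lit 0) (nat_lit 0) (XT.lf (nat_lit 0) (nat_lit 2390339798) (nat_lit 684) (nat_lit 11705725266) (nat_lit 76) (nat_lit 2049901457) (nat_lit 291) (nat_lit 5) (nat_lit 300) (nat_lit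 5) (nat_lit 292) (nat_lit 5) (nat_lit 614) (nat_lit 559) (nat_lit 387)) (XT.lf (nat_lit 0) (nat_lit 5365344811) (nat_lit 684) (nat_lit 2242110739) (nat_lit 76) (nat_lit 8721322423) (nat_lit 291) (nat_lit 5) (nat_lit 300) (nat_lit 5) (nat_lit 292) (nat_lit 5) (nat_lit 615) (nat_lit 559) (nat_lit 386)))))) (XT.nd (nat_lit 546) (nat_lit 2204) (nat_lit 0) (XT.nd (nat_lit 234) (nat_lit 1748) (nat_lit 0) (XT.nd (nat_lit 78) (nat_lit 608) (nat_lit 0) (XT.lf (nat_lit 0) (nat_lit 7497910088) (nat_lit 608) (nat_lit 941655623) (nat_lit 684) (nat_lit 8074886048) (nat_lit 283) (nat_lit 5) (nat_lit 291) (nat_lit 5) (nat_lit 292) (nat_lit 5) (nat_lit 616) (nat_lit 559) (nat_lit 385)) (XT.nd (nat_lit 78) (nat_lit 0) (nat_lit 0) (XT.lf (nat_lit 0) (nat_lit 719601504) (nat_lit 608) (nat_lit 10904640764) (nat_lit 684) (nat_lit 5078617742) (nat_lit 275) (nat_lit 5) (nat_lit 283) (nat_lit 5) (nat_lit 284) (nat_lit 5) (nat_lit 617) (nat_lit 559) (nat_lit 384)) (XT.lf (nat_lit 0)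 (nat_lit 10755152756) (nat_lit 608) (nat_lit 4175384873) (nat_lit 684) (nat_lit 1963340696) (nat_lit 275) (nat_lit 5) (nat_lit 283) (nat_lit 5) (nat_lit 284) (nat_lit 5) (nat_lit 618) (nat_lit 559) (nat_lit 383)))) (XT.nd (nat_lit 156) (nat_lit 1064) (nat_lit 0) (XT.nd (nat_lit 78) (nat_lit 0) (nat_lit 0) (XT.lf (nat_lit 0) (nat_lit 1232867428) (nat_lit 684) (nat_lit 13170568872) (nat_lit 76) (nat_lit 2684432410) (nat_lit 266) (nat_lit 5) (nat_lit 275) (nat_lit 5) (nat_lit 267) (nat_lit 5) (nat_lit 619) (nat_lit 559) (nat_lit 382)) (XT.lf (nat_lit 0) (nat_lit 4527274794) (nat_lit 684) (nat_lit 3079379206) (nat_lit 76) (nat_lit 9677614447) (nat_lit 266) (nat_lit 5) (nat_lit 275) (nat_lit 5) (nat_lit 267) (nat_lit 5) (nat_lit 620) (nat_lit 559) (nat_lit 381))) (XT.nd (nat_lit 78) (nat_lit 532) (nat_lit 0) (XT.lf (nat_lit 0) (nat_lit 7298377950) (nat_lit 532) (nat_lit 628167671) (nat_lit 608) (nat_lit 9557271424) (nat_lit 259) (nat_lit 5) (nat_lit 266) (nat_lit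 5) (nat_lit 267) (nat_lit 5) (nat_lit 621) (nat_lit 559) (nat_lit 380)) (XT.lf (nat_lit 0) (nat_lit 187622373) (nat_lit 532) (nat_lit 11262002153) (nat_lit 608) (nat_lit 6236616004) (nat_lit 252) (nat_lit 5) (nat_lit 259) (nat_lit 5) (nat_lit 260) (nat_lit 5) (nat_lit 622) (nat_lit 559) (nat_lit 379))))) (XT.nd (nat_lit 312) (nat_lit 1064) (nat_lit 0) (XT.nd (nat_lit 156) (nat_lit 532) (nat_lit 0) (XT.nd (nat_lit 78) (nat_lit 608) (nat_lit 0) (XT.lf (nat_lit 0) (nat_lit 10891015232) (nat_lit 532) (nat_lit 4216390944) (nat_lit 608) (nat_lit 2784021843) (nat_lit 252) (nat_lit 5) (nat_lit 259) (nat_lit 5) (nat_lit 260) (nat_lit 5) (nat_lit 623) (nat_lit 559) (nat_lit 378)) (XT.lf (nat_lit 0) (nat_lit 763565637) (nat_lit 608) (nat_lit 14378599955) (nat_lit 76) (nat_lit 2957745920) (nat_lit 244) (nat_lit 5) (nat_lit 252) (nat_lit 5) (nat_lit 245) (nat_lit 5) (nat_lit 624) (nat_lit 559) (nat_lit 377))) (XT.nd (nat_lit 78) (nat_lit 532) (nat_lit 0) (XT.lf (nat_lit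 0) (nat_lit 4412010337) (nat_lit 608) (nat_lit 3616879477) (nat_lit 76) (nat_lit 10281963480) (nat_lit 244) (nat_lit 5) (nat_lit 252) (nat_lit 5) (nat_lit 245) (nat_lit 5) (nat_lit 625) (nat_lit 559) (nat_lit 376)) (XT.lf (nat_lit 0) (nat_lit 7447013241) (nat_lit 532) (nat_lit 726857717) (nat_lit 608) (nat_lit 10351334345) (nat_lit 237) (nat_lit 5) (nat_lit 244) (nat_lit 5) (nat_lit 245) (nat_lit 5) (nat_lit 626) (nat_lit 559) (nat_lit 375)))) (XT.nd (nat_lit 156) (nat_lit 608) (nat_lit 0) (XT.nd (nat_lit 78) (nat_lit 456) (nat_lit 0) (XT.lf (nat_lit 0) (nat_lit 12071202669) (nat_lit 608) (nat_lit 16745405) (nat_lit 76) (nat_lit 6654691926) (nat_lit 237) (nat_lit 5) (nat_lit 245) (nat_lit 5) (nat_lit 238) (nat_lit 5) (nat_lit 627) (nat_lit 559) (nat_lit 374)) (XT.lf (nat_lit 0) (nat_lit 11400043192) (nat_lit 456) (nat_lit 4717585137) (nat_lit 532) (nat_lit 2845372435) (nat_lit 231) (nat_lit 5) (nat_lit 237) (nat_lit 5) (nat_lit 238) (nat_lit 5) (nat_lit 628)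 (nat_lit 559) (nat_lit 373))) (XT.nd (nat_lit 78) (nat_lit 0) (nat_lit 0) (XT.lf (nat_lit 0) (nat_lit 1079449100) (nat_lit 608) (nat_lit 15314474806) (nat_lit 76) (nat_lit 2792985844) (nat_lit 223) (nat_lit 5) (nat_lit 231) (nat_lit 5) (nat_lit 224) (nat_lit 5) (nat_lit 629) (nat_lit 559) (nat_lit 372)) (XT.lf (nat_lit 0) (nat_lit 5119443906) (nat_lit 608) (nat_lit 3836332410) (nat_lit 76) (nat_lit 10457649213) (nat_lit 223) (nat_lit 5) (nat_lit 231) (nat_lit 5) (nat_lit 224) (nat_lit 5) (nat_lit 630) (nat_lit 559) (nat_lit 371))))))))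
noncomputable def xc153 : XT := (XT.nd (nat_lit 2262) (nat_lit 2128) (nat_lit 0) (XT.nd (nat_lit 1092) (nat_lit 3344) (nat_lit 0) (XT.nd (nat_lit 546) (nat_lit 1748) (nat_lit 0) (XT.nd (nat_lit 234) (nat_lit 1368) (nat_lit 0) (XT.nd (nat_lit 78) (nat_lit 456) (nat_lit 0) (XT.lf (nat_lit 0) (nat_lit 7965367707) (nat_lit 456) (nat_lit 1319147104) (nat_lit 532) (nat_lit 10359071585) (nat_lit 217) (nat_lit 5) (nat_lit 223) (nat_lit 5) (nat_lit 224) (nat_lit 5) (nat_lit 631) (nat_lit 559) (nat_lit 370)) (XT.nd (nat_lit 78) (nat_lit 0) (nat_lit 0) (XT.lf (nat_lit 0) (nat_lit 126213378) (nat_lit 456) (nat_lit 13468034788) (nat_lit 532) (nat_lit 6282875383) (nat_lit 211) (nat_lit 5) (nat_lit 217) (nat_lit 5) (nat_lit 218) (nat_lit 5) (nat_lit 632) (nat_lit 559) (nat_lit 369)) (XT.lf (nat_lit 0) (nat_lit 12305721290) (nat_lit 456) (nat_lit 5764195648) (nat_lit 532) (nat_lit 2043819973) (nat_lit 211) (nat_lit 5) (nat_lit 217) (nat_lit 5) (nat_lit 218) (nat_lit 5) (nat_lit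 633) (nat_lit 559) (nat_lit 368)))) (XT.nd (nat_lit 156) (nat_lit 836) (nat_lit 0) (XT.nd (nat_lit 78) (nat_lit 0) (nat_lit 0) (XT.lf (nat_lit 0) (nat_lit 2285374399) (nat_lit 532) (nat_lit 15961848774) (nat_lit 76) (nat_lit 2106858360) (nat_lit 204) (nat_lit 5) (nat_lit 211) (nat_lit 5) (nat_lit 205) (nat_lit 5) (nat_lit 634) (nat_lit 559) (nat_lit 367)) (XT.lf (nat_lit 0) (nat_lit 6757572679) (nat_lit 532) (nat_lit 3718322314) (nat_lit 76) (nat_lit 10121392392) (nat_lit 204) (nat_lit 5) (nat_lit 211) (nat_lit 5) (nat_lit 205) (nat_lit 5) (nat_lit 635) (nat_lit 559) (nat_lit 366))) (XT.nd (nat_lit 78) (nat_lit 380) (nat_lit 0) (XT.lf (nat_lit 0) (nat_lit 8876285524) (nat_lit 456) (nat_lit 2493545251) (nat_lit 532) (nat_lit 9474514525) (nat_lit 198) (nat_lit 5) (nat_lit 204) (nat_lit 5) (nat_lit 205) (nat_lit 5) (nat_lit 636) (nat_lit 559) (nat_lit 365)) (XT.lf (nat_lit 0) (nat_lit 638625479) (nat_lit 380) (nat_lit 15494681695) (nat_lit 456) (nat_lit 4961857993)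 (nat_lit 193) (nat_lit 5) (nat_lit 198) (nat_lit 5) (nat_lit 199) (nat_lit 5) (nat_lit 637) (nat_lit 559) (nat_lit 364))))) (XT.nd (nat_lit 234) (nat_lit 1216) (nat_lit 0) (XT.nd (nat_lit 78) (nat_lit 532) (nat_lit 0) (XT.lf (nat_lit 0) (nat_lit 13632754611) (nat_lit 380) (nat_lit 7449121903) (nat_lit 456) (nat_lit 267328701) (nat_lit 193) (nat_lit 5) (nat_lit 198) (nat_lit 5) (nat_lit 199) (nat_lit 5) (nat_lit 638) (nat_lit 559) (nat_lit 363)) (XT.nd (nat_lit 78) (nat_lit 0) (nat_lit 0) (XT.lf (nat_lit 0) (nat_lit 4494778715) (nat_lit 532) (nat_lit 16303872491) (nat_lit 76) (nat_lit 808428370) (nat_lit 186) (nat_lit 5) (nat_lit 193) (nat_lit 5) (nat_lit 187) (nat_lit 5) (nat_lit 639) (nat_lit 559) (nat_lit 362)) (XT.lf (nat_lit 0) (nat_lit 9443252212) (nat_lit 532) (nat_lit 3242789890) (nat_lit 76) (nat_lit 9182140151) (nat_lit 186) (nat_lit 5) (nat_lit 193) (nat_lit 5) (nat_lit 187) (nat_lit 5) (nat_lit 640) (nat_lit 559) (nat_lit 361)))) (XT.nd (nat_lit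 156) (nat_lit 456) (nat_lit 0) (XT.nd (nat_lit 78) (nat_lit 380) (nat_lit 0) (XT.lf (nat_lit 0) (nat_lit 10203407122) (nat_lit 380) (nat_lit 4346911633) (nat_lit 456) (nat_lit 7582995989) (nat_lit 181) (nat_lit 5) (nat_lit 186) (nat_lit 5) (nat_lit 187) (nat_lit 5) (nat_lit 641) (nat_lit 559) (nat_lit 360)) (XT.lf (nat_lit 0) (nat_lit 1542279047) (nat_lit 380) (nat_lit 18269589706) (nat_lit 456) (nat_lit 2590834517) (nat_lit 176) (nat_lit 5) (nat_lit 181) (nat_lit 5) (nat_lit 182) (nat_lit 5) (nat_lit 642) (nat_lit 559) (nat_lit 359))) (XT.nd (nat_lit 78) (nat_lit 380) (nat_lit 0) (XT.lf (nat_lit 0) (nat_lit 2571182530) (nat_lit 456) (nat_lit 7285806041) (nat_lit 76) (nat_lit 12818110117) (nat_lit 175) (nat_lit 5) (nat_lit 181) (nat_lit 5) (nat_lit 176) (nat_lit 5) (nat_lit 643) (nat_lit 559) (nat_lit 358)) (XT.lf (nat_lit 0) (nat_lit 6620174221) (nat_lit 380) (nat_lit 1218160019) (nat_lit 456) (nat_lit 15113533768) (nat_lit 170) (nat_lit 5) (nat_lit 175)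 (nat_lit 5) (nat_lit 176) (nat_lit 5) (nat_lit 644) (nat_lit 559) (nat_lit 357)))))) (XT.nd (nat_lit 546) (nat_lit 1824) (nat_lit 0) (XT.nd (nat_lit 234) (nat_lit 684) (nat_lit 0) (XT.nd (nat_lit 78) (nat_lit 836) (nat_lit 0) (XT.lf (nat_lit 0) (nat_lit 13302957671) (nat_lit 456) (nat_lit 2389623687) (nat_lit 76) (nat_lit 7539748993) (nat_lit 170) (nat_lit 5) (nat_lit 176) (nat_lit 5) (nat_lit 171) (nat_lit 5) (nat_lit 645) (nat_lit 559) (nat_lit 356)) (XT.nd (nat_lit 78) (nat_lit 456) (nat_lit 0) (XT.lf (nat_lit 0) (nat_lit 11970571189) (nat_lit 380) (nat_lit 6985827440) (nat_lit 456) (nat_lit 4560413017) (nat_lit 165) (nat_lit 5) (nat_lit 170) (nat_lit 5) (nat_lit 171) (nat_lit 5) (nat_lit 646) (nat_lit 559) (nat_lit 355)) (XT.lf (nat_lit 0) (nat_lit 944967761) (nat_lit 456) (nat_lit 20953280815) (nat_lit 76) (nat_lit 1907794166) (nat_lit 159) (nat_lit 5) (nat_lit 165) (nat_lit 5) (nat_lit 160) (nat_lit 5) (nat_lit 647) (nat_lit 559) (nat_lit 354)))) (XT.nd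 (nat_lit 156) (nat_lit 304) (nat_lit 0) (XT.nd (nat_lit 78) (nat_lit 380) (nat_lit 0) (XT.lf (nat_lit 0) (nat_lit 6617501636) (nat_lit 456) (nat_lit 6489933774) (nat_lit 76) (nat_lit 10990658168) (nat_lit 159) (nat_lit 5) (nat_lit 165) (nat_lit 5) (nat_lit 160) (nat_lit 5) (nat_lit 648) (nat_lit 559) (nat_lit 353)) (XT.lf (nat_lit 0) (nat_lit 8362847375) (nat_lit 380) (nat_lit 4088851749) (nat_lit 456) (nat_lit 11943322240) (nat_lit 154) (nat_lit 5) (nat_lit 159) (nat_lit 5) (nat_lit 160) (nat_lit 5) (nat_lit 649) (nat_lit 559) (nat_lit 352))) (XT.nd (nat_lit 78) (nat_lit 304) (nat_lit 0) (XT.lf (nat_lit 0) (nat_lit 18473549522) (nat_lit 456) (nat_lit 1139375351) (nat_lit 76) (nat_lit 5083543638) (nat_lit 154) (nat_lit 5) (nat_lit 160) (nat_lit 5) (nat_lit 155) (nat_lit 5) (nat_lit 650) (nat_lit 559) (nat_lit 351)) (XT.lf (nat_lit 0) (nat_lit 14201088866) (nat_lit 304) (nat_lit 10528099528) (nat_lit 380) (nat_lit 272489363) (nat_lit 150) (nat_lit 5) (nat_lit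 154) (nat_lit 5) (nat_lit 155) (nat_lit 5) (nat_lit 651) (nat_lit 559) (nat_lit 350))))) (XT.nd (nat_lit 312) (nat_lit 684) (nat_lit 0) (XT.nd (nat_lit 156) (nat_lit 684) (nat_lit 0) (XT.nd (nat_lit 78) (nat_lit 0) (nat_lit 0) (XT.lf (nat_lit 0) (nat_lit 4563755931) (nat_lit 380) (nat_lit 1188579173) (nat_lit 456) (nat_lit 19559275222) (nat_lit 144) (nat_lit 5) (nat_lit 149) (nat_lit 5) (nat_lit 150) (nat_lit 5) (nat_lit 652) (nat_lit 559) (nat_lit 349)) (XT.lf (nat_lit 0) (nat_lit 12015222432) (nat_lit 456) (nat_lit 5310330219) (nat_lit 76) (nat_lit 8299728744) (nat_lit 144) (nat_lit 5) (nat_lit 150) (nat_lit 5) (nat_lit 145) (nat_lit 5) (nat_lit 653) (nat_lit 559) (nat_lit 348))) (XT.nd (nat_lit 78) (nat_lit 380) (nat_lit 0) (XT.lf (nat_lit 0) (nat_lit 10557306513) (nat_lit 304) (nat_lit 7916712601) (nat_lit 380) (nat_lit 7469793909) (nat_lit 140) (nat_lit 5) (nat_lit 144) (nat_lit 5) (nat_lit 145) (nat_lit 5) (nat_lit 654) (nat_lit 559) (nat_lit 347)) (XT.lf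 (nat_lit 0) (nat_lit 532860473) (nat_lit 380) (nat_lit 24573637963) (nat_lit 456) (nat_lit 1161326878) (nat_lit 135) (nat_lit 5) (nat_lit 140) (nat_lit 5) (nat_lit 141) (nat_lit 5) (nat_lit 655) (nat_lit 559) (nat_lit 346)))) (XT.nd (nat_lit 156) (nat_lit 304) (nat_lit 0) (XT.nd (nat_lit 78) (nat_lit 304) (nat_lit 0) (XT.lf (nat_lit 0) (nat_lit 5354794184) (nat_lit 456) (nat_lit 9713694061) (nat_lit 76) (nat_lit 11526132108) (nat_lit 134) (nat_lit 5) (nat_lit 140) (nat_lit 5) (nat_lit 135) (nat_lit 5) (nat_lit 656) (nat_lit 559) (nat_lit 345)) (XT.lf (nat_lit 0) (nat_lit 6699078681) (nat_lit 304) (nat_lit 5324511545) (nat_lit 380) (nat_lit 14903449642) (nat_lit 130) (nat_lit 5) (nat_lit 134) (nat_lit 5) (nat_lit 135) (nat_lit 5) (nat_lit 657) (nat_lit 559) (nat_lit 344))) (XT.nd (nat_lit 78) (nat_lit 304) (nat_lit 0) (XT.lf (nat_lit 0) (nat_lit 18915759300) (nat_lit 380) (nat_lit 3732537641) (nat_lit 76) (nat_lit 4616011042) (nat_lit 130) (nat_lit 5) (nat_lit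 135) (nat_lit 5) (nat_lit 131) (nat_lit 5) (nat_lit 658) (nat_lit 559) (nat_lit 343)) (XT.lf (nat_lit 0) (nat_lit 13221999415) (nat_lit 304) (nat_lit 12839411410) (nat_lit 380) (nat_lit 1544598006) (nat_lit 126) (nat_lit 5) (nat_lit 130) (nat_lit 5) (nat_lit 131) (nat_lit 5) (nat_lit 659) (nat_lit 559) (nat_lit 342))))))) (XT.nd (nat_lit 73710) (nat_lit 0) (nat_lit 32300) (XT.nd (nat_lit 546) (nat_lit 836) (nat_lit 0) (XT.nd (nat_lit 234) (nat_lit 608) (nat_lit 0) (XT.nd (nat_lit 78) (nat_lit 304) (nat_lit 0) (XT.lf (nat_lit 0) (nat_lit 2602155124) (nat_lit 304) (nat_lit 2759167520) (nat_lit 380) (nat_lit 22591787521) (nat_lit 121) (nat_lit 5) (nat_lit 125) (nat_lit 5) (nat_lit 126) (nat_lit 5) (nat_lit 660) (nat_lit 559) (nat_lit 341)) (XT.nd (nat_lit 78) (nat_lit 304) (nat_lit 0) (XT.lf (nat_lit 0) (nat_lit 12525276079) (nat_lit 380) (nat_lit 8250894321) (nat_lit 76) (nat_lit 7527967140) (nat_lit 121) (nat_lit 5) (nat_lit 126) (nat_lit 5) (nat_lit 122) (nat_lit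 5) (nat_lit 661) (nat_lit 559) (nat_lit 340)) (XT.lf (nat_lit 0) (nat_lit 9285874349) (nat_lit 304) (nat_lit 10619874823) (nat_lit 380) (nat_lit 8754971618) (nat_lit 117) (nat_lit 5) (nat_lit 121) (nat_lit 5) (nat_lit 122) (nat_lit 5) (nat_lit 662) (nat_lit 559) (nat_lit 339)))) (XT.nd (nat_lit 156) (nat_lit 304) (nat_lit 0) (XT.nd (nat_lit 78) (nat_lit 304) (nat_lit 0) (XT.lf (nat_lit 0) (nat_lit 27276472831) (nat_lit 304) (nat_lit 207452195) (nat_lit 380) (nat_lit 1539508949) (nat_lit 117) (nat_lit 5) (nat_lit 121) (nat_lit 5) (nat_lit 122) (nat_lit 5) (nat_lit 663) (nat_lit 559) (nat_lit 338)) (XT.lf (nat_lit 0) (nat_lit 5913760103) (nat_lit 304) (nat_lit 13056998905) (nat_lit 76) (nat_lit 10418490149) (nat_lit 113) (nat_lit 5) (nat_lit 117) (nat_lit 5) (nat_lit 114) (nat_lit 5) (nat_lit 664) (nat_lit 559) (nat_lit 337))) (XT.nd (nat_lit 78) (nat_lit 0) (nat_lit 0) (XT.lf (nat_lit 0) (nat_lit 5080899682) (nat_lit 304) (nat_lit 8455581718) (nat_lit 380)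 (nat_lit 16224875829) (nat_lit 109) (nat_lit 5) (nat_lit 113) (nat_lit 5) (nat_lit 114) (nat_lit 5) (nat_lit 665) (nat_lit 559) (nat_lit 336)) (XT.lf (nat_lit 0) (nat_lit 21409436033) (nat_lit 380) (nat_lit 6404619480) (nat_lit 76) (nat_lit 2324896498) (nat_lit 109) (nat_lit 5) (nat_lit 114) (nat_lit 5) (nat_lit 110) (nat_lit 5) (nat_lit 666) (nat_lit 559) (nat_lit 335))))) (XT.nd (nat_lit 72852) (nat_lit 0) (nat_lit 33744) (XT.nd (nat_lit 156) (nat_lit 228) (nat_lit 0) (XT.nd (nat_lit 78) (nat_lit 380) (nat_lit 0) (XT.lf (nat_lit 0) (nat_lit 12333977163) (nat_lit 228) (nat_lit 17236892951) (nat_lit 304) (nat_lit 950608289) (nat_lit 106) (nat_lit 5) (nat_lit 109) (nat_lit 5) (nat_lit 110) (nat_lit 5) (nat_lit 667) (nat_lit 559) (nat_lit 334)) (XT.lf (nat_lit 0) (nat_lit 576767715) (nat_lit 304) (nat_lit 6357476414) (nat_lit 380) (nat_lit 23975665207) (nat_lit 101) (nat_lit 5) (nat_lit 105) (nat_lit 5) (nat_lit 106) (nat_lit 5) (nat_lit 668) (nat_lit 559) (nat_lit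 333))) (XT.nd (nat_lit 78) (nat_lit 228) (nat_lit 0) (XT.lf (nat_lit 0) (nat_lit 15112679951) (nat_lit 380) (nat_lit 11387241204) (nat_lit 76) (nat_lit 4803089877) (nat_lit 101) (nat_lit 5) (nat_lit 106) (nat_lit 5) (nat_lit 102) (nat_lit 5) (nat_lit 669) (nat_lit 559) (nat_lit 332)) (XT.lf (nat_lit 0) (nat_lit 7991901876) (nat_lit 228) (nat_lit 15551847333) (nat_lit 304) (nat_lit 8158444373) (nat_lit 98) (nat_lit 5) (nat_lit 101) (nat_lit 5) (nat_lit 102) (nat_lit 5) (nat_lit 670) (nat_lit 559) (nat_lit 331)))) (XT.nd (nat_lit 156) (nat_lit 0) (nat_lit 0) (XT.nd (nat_lit 78) (nat_lit 0) (nat_lit 0) (XT.lf (nat_lit 0) (nat_lit 540521041) (nat_lit 0) (nat_lit 540521041) (nat_lit 1596) (nat_lit 3675224804) (nat_lit 542) (nat_lit 5) (nat_lit 542) (nat_lit 3) (nat_lit 563) (nat_lit 3) (nat_lit 560) (nat_lit 560) (nat_lit 440)) (XT.lf (nat_lit 0) (nat_lit 2999296215) (nat_lit 1596) (nat_lit 3725038887) (nat_lit 1672) (nat_lit 2866959527) (nat_lit 542) (nat_lit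 5) (nat_lit 563) (nat_lit 3) (nat_lit 564) (nat_lit 5) (nat_lit 561) (nat_lit 560) (nat_lit 439))) (XT.nd (nat_lit 78) (nat_lit 0) (nat_lit 76) (XT.lf (nat_lit 76) (nat_lit 1071500225) (nat_lit 0) (nat_lit 2775037728) (nat_lit 1672) (nat_lit 5825228420) (nat_lit 543) (nat_lit 5) (nat_lit 542) (nat_lit 5) (nat_lit 564) (nat_lit 5) (nat_lit 562) (nat_lit 560) (nat_lit 438)) (XT.lf (nat_lit 0) (nat_lit 4723593699) (nat_lit 1596) (nat_lit 3758524274) (nat_lit 1672) (nat_lit 1271473549) (nat_lit 543) (nat_lit 5) (nat_lit 564) (nat_lit 5) (nat_lit 565) (nat_lit 5) (nat_lit 563) (nat_lit 560) (nat_lit 437)))))) (XT.nd (nat_lit 546) (nat_lit 0) (nat_lit 76) (XT.nd (nat_lit 234) (nat_lit 1520) (nat_lit 0) (XT.nd (nat_lit 78) (nat_lit 0) (nat_lit 0) (XT.lf (nat_lit 76) (nat_lit 1165849123) (nat_lit 0) (nat_lit 4458258985) (nat_lit 1672) (nat_lit 4212828044) (nat_lit 544) (nat_lit 5) (nat_lit 543) (nat_lit 5) (nat_lit 565) (nat_lit 5) (nat_lit 564) (nat_lit 560) (nat_lit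 436)) (XT.nd (nat_lit 78) (nat_lit 0) (nat_lit 76) (XT.lf (nat_lit 76) (nat_lit 6228615004) (nat_lit 0) (nat_lit 319530868) (nat_lit 1672) (nat_lit 3373692842) (nat_lit 544) (nat_lit 5) (nat_lit 543) (nat_lit 5) (nat_lit 565) (nat_lit 5) (nat_lit 565) (nat_lit 560) (nat_lit 435)) (XT.lf (nat_lit 76) (nat_lit 1365502368) (nat_lit 0) (nat_lit 6140094956) (nat_lit 1672) (nat_lit 2502544622) (nat_lit 545) (nat_lit 5) (nat_lit 544) (nat_lit 5) (nat_lit 566) (nat_lit 5) (nat_lit 566) (nat_lit 560) (nat_lit 434)))) (XT.nd (nat_lit 156) (nat_lit 1596) (nat_lit 0) (XT.nd (nat_lit 78) (nat_lit 0) (nat_lit 76) (XT.lf (nat_lit 76) (nat_lit 6562126381) (nat_lit 0) (nat_lit 1927995170) (nat_lit 1672) (nat_lit 1605892467) (nat_lit 545) (nat_lit 5) (nat_lit 544) (nat_lit 5) (nat_lit 566) (nat_lit 5) (nat_lit 567) (nat_lit 560) (nat_lit 433)) (XT.lf (nat_lit 76) (nat_lit 1672195667) (nat_lit 0) (nat_lit 7829833811) (nat_lit 1672) (nat_lit 683461415) (nat_lit 546) (nat_lit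 5) (nat_lit 545) (nat_lit 5) (nat_lit 567) (nat_lit 5) (nat_lit 568) (nat_lit 560) (nat_lit 432))) (XT.nd (nat_lit 78) (nat_lit 0) (nat_lit 76) (XT.lf (nat_lit 0) (nat_lit 272308954) (nat_lit 1672) (nat_lit 3272144466) (nat_lit 1748) (nat_lit 6731906303) (nat_lit 523) (nat_lit 5) (nat_lit 545) (nat_lit 5) (nat_lit 546) (nat_lit 5) (nat_lit 569) (nat_lit 560) (nat_lit 431)) (XT.lf (nat_lit 0) (nat_lit 1239108528) (nat_lit 1672) (nat_lit 8289265206) (nat_lit 1748) (nat_lit 840561689) (nat_lit 524) (nat_lit 5) (nat_lit 546) (nat_lit 5) (nat_lit 547) (nat_lit 5) (nat_lit 570) (nat_lit 560) (nat_lit 430))))) (XT.nd (nat_lit 312) (nat_lit 0) (nat_lit 152) (XT.nd (nat_lit 156) (nat_lit 0) (nat_lit 76) (XT.nd (nat_lit 78) (nat_lit 0) (nat_lit 0) (XT.lf (nat_lit 0) (nat_lit 2253130094) (nat_lit 1672) (nat_lit 2915330741) (nat_lit 1748) (nat_lit 5294345217) (nat_lit 524) (nat_lit 5) (nat_lit 546) (nat_lit 5) (nat_lit 547) (nat_lit 5) (nat_lit 571) (nat_lit 560) (nat_lit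 429)) (XT.lf (nat_lit 76) (nat_lit 2588596421) (nat_lit 0) (nat_lit 698298996) (nat_lit 1748) (nat_lit 7271670520) (nat_lit 525) (nat_lit 5) (nat_lit 524) (nat_lit 5) (nat_lit 547) (nat_lit 5) (nat_lit 572) (nat_lit 560) (nat_lit 428))) (XT.nd (nat_lit 78) (nat_lit 0) (nat_lit 0) (XT.lf (nat_lit 0) (nat_lit 4369058779) (nat_lit 1672) (nat_lit 2450669421) (nat_lit 1748) (nat_lit 3835959455) (nat_lit 525) (nat_lit 5) (nat_lit 547) (nat_lit 5) (nat_lit 548) (nat_lit 5) (nat_lit 573) (nat_lit 560) (nat_lit 427)) (XT.lf (nat_lit 76) (nat_lit 3204915006) (nat_lit 0) (nat_lit 2276677317) (nat_lit 1748) (nat_lit 5272986013) (nat_lit 526) (nat_lit 5) (nat_lit 525) (nat_lit 5) (nat_lit 548) (nat_lit 5) (nat_lit 574) (nat_lit 560) (nat_lit 426)))) (XT.nd (nat_lit 156) (nat_lit 0) (nat_lit 76) (XT.nd (nat_lit 78) (nat_lit 0) (nat_lit 0) (XT.lf (nat_lit 0) (nat_lit 6631815358) (nat_lit 1672) (nat_lit 1875498139) (nat_lit 1748) (nat_lit 2347825605) (nat_lit 526) (nat_lit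 5) (nat_lit 548) (nat_lit 5) (nat_lit 549) (nat_lit 5) (nat_lit 575) (nat_lit 560) (nat_lit 425)) (XT.lf (nat_lit 76) (nat_lit 3937143520) (nat_lit 0) (nat_lit 3892441072) (nat_lit 1748) (nat_lit 3127636682) (nat_lit 527) (nat_lit 5) (nat_lit 526) (nat_lit 5) (nat_lit 549) (nat_lit 5) (nat_lit 576) (nat_lit 560) (nat_lit 424))) (XT.nd (nat_lit 78) (nat_lit 0) (nat_lit 0) (XT.lf (nat_lit 0) (nat_lit 9053439167) (nat_lit 1672) (nat_lit 1186841863) (nat_lit 1748) (nat_lit 821022467) (nat_lit 527) (nat_lit 5) (nat_lit 549) (nat_lit 5) (nat_lit 550) (nat_lit 5) (nat_lit 577) (nat_lit 560) (nat_lit 423)) (XT.lf (nat_lit 76) (nat_lit 4788478569) (nat_lit 0) (nat_lit 5554641630) (nat_lit 1748) (nat_lit 823521164) (nat_lit 528) (nat_lit 5) (nat_lit 527) (nat_lit 5) (nat_lit 550) (nat_lit 5) (nat_lit 578) (nat_lit 560) (nat_lit 422))))))))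
noncomputable def xc154 : XT := (XT.nd (nat_lit 2262) (nat_lit 10032) (nat_lit 0) (XT.nd (nat_lit 1092) (nat_lit 6460) (nat_lit 0) (XT.nd (nat_lit 546) (nat_lit 4788) (nat_lit 0) (XT.nd (nat_lit 234) (nat_lit 1520) (nat_lit 0) (XT.nd (nat_lit 78) (nat_lit 0) (nat_lit 76) (XT.lf (nat_lit 0) (nat_lit 372091902) (nat_lit 1748) (nat_lit 388815888) (nat_lit 1824) (nat_lit 10513276697) (nat_lit 504) (nat_lit 5) (nat_lit 527) (nat_lit 5) (nat_lit 528) (nat_lit 5) (nat_lit 579) (nat_lit 560) (nat_lit 421)) (XT.nd (nat_lit 78) (nat_lit 0) (nat_lit 0) (XT.lf (nat_lit 0) (nat_lit 1630147507) (nat_lit 1748) (nat_lit 5631280246) (nat_lit 1824) (nat_lit 4121351635) (nat_lit 505) (nat_lit 5) (nat_lit 528) (nat_lit 5) (nat_lit 529) (nat_lit 5) (nat_lit 580) (nat_lit 560) (nat_lit 420)) (XT.lf (nat_lit 76) (nat_lit 516364604) (nat_lit 0) (nat_lit 2393172424) (nat_lit 1824) (nat_lit 8584086614) (nat_lit 506) (nat_lit 5) (nat_lit 505) (nat_lit 5) (nat_lit 529) (nat_lit 5) (nat_lit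 581) (nat_lit 560) (nat_lit 419)))) (XT.nd (nat_lit 156) (nat_lit 1672) (nat_lit 0) (XT.nd (nat_lit 78) (nat_lit 0) (nat_lit 0) (XT.lf (nat_lit 0) (nat_lit 4254644674) (nat_lit 1748) (nat_lit 4771569058) (nat_lit 1824) (nat_lit 2579669337) (nat_lit 506) (nat_lit 5) (nat_lit 529) (nat_lit 5) (nat_lit 530) (nat_lit 5) (nat_lit 582) (nat_lit 560) (nat_lit 418)) (XT.lf (nat_lit 76) (nat_lit 1550978639) (nat_lit 0) (nat_lit 4087270306) (nat_lit 1824) (nat_lit 6081907725) (nat_lit 507) (nat_lit 5) (nat_lit 506) (nat_lit 5) (nat_lit 530) (nat_lit 5) (nat_lit 583) (nat_lit 560) (nat_lit 417))) (XT.nd (nat_lit 78) (nat_lit 1748) (nat_lit 0) (XT.lf (nat_lit 0) (nat_lit 7073824714) (nat_lit 1748) (nat_lit 3789771665) (nat_lit 76) (nat_lit 972634236) (nat_lit 507) (nat_lit 5) (nat_lit 530) (nat_lit 5) (nat_lit 508) (nat_lit 5) (nat_lit 584) (nat_lit 560) (nat_lit 416)) (XT.lf (nat_lit 0) (nat_lit 2714013843) (nat_lit 1748) (nat_lit 5854960536) (nat_lit 1824) (nat_lit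 3385035252) (nat_lit 484) (nat_lit 5) (nat_lit 507) (nat_lit 5) (nat_lit 508) (nat_lit 5) (nat_lit 585) (nat_lit 560) (nat_lit 415))))) (XT.nd (nat_lit 234) (nat_lit 2888) (nat_lit 0) (XT.nd (nat_lit 78) (nat_lit 1900) (nat_lit 0) (XT.lf (nat_lit 0) (nat_lit 9387587874) (nat_lit 1748) (nat_lit 718239137) (nat_lit 1824) (nat_lit 1968082045) (nat_lit 484) (nat_lit 5) (nat_lit 507) (nat_lit 5) (nat_lit 508) (nat_lit 5) (nat_lit 586) (nat_lit 560) (nat_lit 414)) (XT.nd (nat_lit 78) (nat_lit 76) (nat_lit 0) (XT.lf (nat_lit 0) (nat_lit 4009952839) (nat_lit 1824) (nat_lit 7705502316) (nat_lit 1900) (nat_lit 479911353) (nat_lit 460) (nat_lit 5) (nat_lit 484) (nat_lit 5) (nat_lit 485) (nat_lit 5) (nat_lit 587) (nat_lit 560) (nat_lit 413)) (XT.lf (nat_lit 0) (nat_lit 1034058199) (nat_lit 1900) (nat_lit 1465752363) (nat_lit 76) (nat_lit 9819115547) (nat_lit 459) (nat_lit 5) (nat_lit 484) (nat_lit 5) (nat_lit 460) (nat_lit 5) (nat_lit 588) (nat_lit 560) (nat_lit 412))))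 (XT.nd (nat_lit 156) (nat_lit 1824) (nat_lit 0) (XT.nd (nat_lit 78) (nat_lit 0) (nat_lit 0) (XT.lf (nat_lit 0) (nat_lit 2612754720) (nat_lit 1140) (nat_lit 7017998974) (nat_lit 76) (nat_lit 2813323056) (nat_lit 445) (nat_lit 5) (nat_lit 460) (nat_lit 5) (nat_lit 446) (nat_lit 5) (nat_lit 589) (nat_lit 560) (nat_lit 411)) (XT.lf (nat_lit 0) (nat_lit 4236676525) (nat_lit 1140) (nat_lit 124308905) (nat_lit 76) (nat_lit 8210472695) (nat_lit 445) (nat_lit 5) (nat_lit 460) (nat_lit 5) (nat_lit 446) (nat_lit 5) (nat_lit 590) (nat_lit 560) (nat_lit 410))) (XT.nd (nat_lit 78) (nat_lit 912) (nat_lit 0) (XT.lf (nat_lit 0) (nat_lit 5932781366) (nat_lit 988) (nat_lit 5720265411) (nat_lit 76) (nat_lit 1047546989) (nat_lit 433) (nat_lit 5) (nat_lit 446) (nat_lit 5) (nat_lit 434) (nat_lit 5) (nat_lit 591) (nat_lit 560) (nat_lit 409)) (XT.lf (nat_lit 0) (nat_lit 1373864314) (nat_lit 912) (nat_lit 6315208422) (nat_lit 988) (nat_lit 5142714816) (nat_lit 421) (nat_lit 5) (nat_lit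 433) (nat_lit 5) (nat_lit 434) (nat_lit 5) (nat_lit 592) (nat_lit 560) (nat_lit 408)))))) (XT.nd (nat_lit 546) (nat_lit 3040) (nat_lit 0) (XT.nd (nat_lit 234) (nat_lit 2508) (nat_lit 0) (XT.nd (nat_lit 78) (nat_lit 912) (nat_lit 0) (XT.lf (nat_lit 0) (nat_lit 8675777512) (nat_lit 912) (nat_lit 830889506) (nat_lit 988) (nat_lit 3458415358) (nat_lit 421) (nat_lit 5) (nat_lit 433) (nat_lit 5) (nat_lit 434) (nat_lit 5) (nat_lit 593) (nat_lit 560) (nat_lit 407)) (XT.nd (nat_lit 78) (nat_lit 76) (nat_lit 0) (XT.lf (nat_lit 0) (nat_lit 3019710291) (nat_lit 836) (nat_lit 8379468276) (nat_lit 912) (nat_lit 1701093912) (nat_lit 410) (nat_lit 5) (nat_lit 421) (nat_lit 5) (nat_lit 422) (nat_lit 5) (nat_lit 594) (nat_lit 560) (nat_lit 406)) (XT.lf (nat_lit 0) (nat_lit 112766978) (nat_lit 912) (nat_lit 2722565031) (nat_lit 76) (nat_lit 10402371346) (nat_lit 409) (nat_lit 5) (nat_lit 421) (nat_lit 5) (nat_lit 410) (nat_lit 5) (nat_lit 595) (nat_lit 560) (nat_lit 405))))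 (XT.nd (nat_lit 156) (nat_lit 1672) (nat_lit 0) (XT.nd (nat_lit 78) (nat_lit 0) (nat_lit 0) (XT.lf (nat_lit 0) (nat_lit 1978401309) (nat_lit 912) (nat_lit 8572779241) (nat_lit 76) (nat_lit 2825712586) (nat_lit 398) (nat_lit 5) (nat_lit 410) (nat_lit 5) (nat_lit 399) (nat_lit 5) (nat_lit 596) (nat_lit 560) (nat_lit 404)) (XT.lf (nat_lit 0) (nat_lit 3907018652) (nat_lit 912) (nat_lit 1030829334) (nat_lit 76) (nat_lit 8580505959) (nat_lit 398) (nat_lit 5) (nat_lit 410) (nat_lit 5) (nat_lit 399) (nat_lit 5) (nat_lit 597) (nat_lit 560) (nat_lit 403))) (XT.nd (nat_lit 78) (nat_lit 836) (nat_lit 0) (XT.lf (nat_lit 0) (nat_lit 5912093024) (nat_lit 912) (nat_lit 6928489540) (nat_lit 76) (nat_lit 821304340) (nat_lit 387) (nat_lit 5) (nat_lit 399) (nat_lit 5) (nat_lit 388) (nat_lit 5) (nat_lit 598) (nat_lit 560) (nat_lit 402)) (XT.lf (nat_lit 0) (nat_lit 825226588) (nat_lit 836) (nat_lit 7165938077) (nat_lit 912) (nat_lit 5816448553) (nat_lit 376) (nat_lit 5) (nat_lit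 387) (nat_lit 5) (nat_lit 388) (nat_lit 5) (nat_lit 599) (nat_lit 560) (nat_lit 401))))) (XT.nd (nat_lit 312) (nat_lit 1444) (nat_lit 0) (XT.nd (nat_lit 156) (nat_lit 836) (nat_lit 0) (XT.nd (nat_lit 78) (nat_lit 760) (nat_lit 0) (XT.lf (nat_lit 0) (nat_lit 8816431513) (nat_lit 836) (nat_lit 1330897183) (nat_lit 912) (nat_lit 3808215745) (nat_lit 376) (nat_lit 5) (nat_lit 387) (nat_lit 5) (nat_lit 388) (nat_lit 5) (nat_lit 600) (nat_lit 560) (nat_lit 400)) (XT.lf (nat_lit 0) (nat_lit 2857004686) (nat_lit 760) (nat_lit 9527391663) (nat_lit 836) (nat_lit 1721282922) (nat_lit 366) (nat_lit 5) (nat_lit 376) (nat_lit 5) (nat_lit 377) (nat_lit 5) (nat_lit 601) (nat_lit 560) (nat_lit 399))) (XT.nd (nat_lit 78) (nat_lit 760) (nat_lit 0) (XT.lf (nat_lit 0) (nat_lit 434869282) (nat_lit 836) (nat_lit 3198665042) (nat_lit 76) (nat_lit 10624573665) (nat_lit 365) (nat_lit 5) (nat_lit 376) (nat_lit 5) (nat_lit 366) (nat_lit 5) (nat_lit 602) (nat_lit 560) (nat_lit 398)) (XT.lf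 (nat_lit 0) (nat_lit 2649177990) (nat_lit 836) (nat_lit 9372715434) (nat_lit 76) (nat_lit 2390703230) (nat_lit 355) (nat_lit 5) (nat_lit 366) (nat_lit 5) (nat_lit 356) (nat_lit 5) (nat_lit 603) (nat_lit 560) (nat_lit 397)))) (XT.nd (nat_lit 156) (nat_lit 760) (nat_lit 0) (XT.nd (nat_lit 78) (nat_lit 684) (nat_lit 0) (XT.lf (nat_lit 0) (nat_lit 4943074955) (nat_lit 836) (nat_lit 1118852097) (nat_lit 76) (nat_lit 8507542545) (nat_lit 355) (nat_lit 5) (nat_lit 366) (nat_lit 5) (nat_lit 356) (nat_lit 5) (nat_lit 604) (nat_lit 560) (nat_lit 396)) (XT.lf (nat_lit 0) (nat_lit 7321060762) (nat_lit 760) (nat_lit 7343427259) (nat_lit 76) (nat_lit 64228292) (nat_lit 346) (nat_lit 5) (nat_lit 356) (nat_lit 5) (nat_lit 347) (nat_lit 5) (nat_lit 605) (nat_lit 560) (nat_lit 395))) (XT.nd (nat_lit 78) (nat_lit 0) (nat_lit 0) (XT.lf (nat_lit 0) (nat_lit 1147178496) (nat_lit 760) (nat_lit 8644533980) (nat_lit 836) (nat_lit 5098533889) (nat_lit 336) (nat_lit 5) (nat_lit 346)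 (nat_lit 5) (nat_lit 347) (nat_lit 5) (nat_lit 606) (nat_lit 560) (nat_lit 394)) (XT.lf (nat_lit 0) (nat_lit 9895859567) (nat_lit 760) (nat_lit 2455274574) (nat_lit 836) (nat_lit 2703086250) (nat_lit 336) (nat_lit 5) (nat_lit 346) (nat_lit 5) (nat_lit 347) (nat_lit 5) (nat_lit 607) (nat_lit 560) (nat_lit 393))))))) (XT.nd (nat_lit 1092) (nat_lit 4712) (nat_lit 0) (XT.nd (nat_lit 546) (nat_lit 2508) (nat_lit 0) (XT.nd (nat_lit 234) (nat_lit 1368) (nat_lit 0) (XT.nd (nat_lit 78) (nat_lit 760) (nat_lit 0) (XT.lf (nat_lit 0) (nat_lit 3609082797) (nat_lit 684) (nat_lit 11391405756) (nat_lit 760) (nat_lit 220210961) (nat_lit 327) (nat_lit 5) (nat_lit 336) (nat_lit 5) (nat_lit 337) (nat_lit 5) (nat_lit 608) (nat_lit 560) (nat_lit 392)) (XT.nd (nat_lit 78) (nat_lit 684) (nat_lit 0) (XT.lf (nat_lit 0) (nat_lit 2323418710) (nat_lit 760) (nat_lit 2810819449) (nat_lit 76) (nat_lit 10255141815) (nat_lit 326) (nat_lit 5) (nat_lit 336) (nat_lit 5) (nat_lit 327) (nat_lit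 5) (nat_lit 609) (nat_lit 560) (nat_lit 391)) (XT.lf (nat_lit 0) (nat_lit 4954337729) (nat_lit 760) (nat_lit 9333922407) (nat_lit 76) (nat_lit 1272357961) (nat_lit 317) (nat_lit 5) (nat_lit 327) (nat_lit 5) (nat_lit 318) (nat_lit 5) (nat_lit 610) (nat_lit 560) (nat_lit 390)))) (XT.nd (nat_lit 156) (nat_lit 760) (nat_lit 0) (XT.nd (nat_lit 78) (nat_lit 608) (nat_lit 0) (XT.lf (nat_lit 0) (nat_lit 7681476354) (nat_lit 760) (nat_lit 297149996) (nat_lit 76) (nat_lit 7755783073) (nat_lit 317) (nat_lit 5) (nat_lit 327) (nat_lit 5) (nat_lit 318) (nat_lit 5) (nat_lit 611) (nat_lit 560) (nat_lit 389)) (XT.lf (nat_lit 0) (nat_lit 9027795996) (nat_lit 608) (nat_lit 1484772916) (nat_lit 684) (nat_lit 5398119896) (nat_lit 309) (nat_lit 5) (nat_lit 317) (nat_lit 5) (nat_lit 318) (nat_lit 5) (nat_lit 612) (nat_lit 560) (nat_lit 388))) (XT.nd (nat_lit 78) (nat_lit 76) (nat_lit 0) (XT.lf (nat_lit 0) (nat_lit 2440380702) (nat_lit 684) (nat_lit 11002014747) (nat_lit 760) (nat_lit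 2647256537) (nat_lit 300) (nat_lit 5) (nat_lit 309) (nat_lit 5) (nat_lit 310) (nat_lit 5) (nat_lit 613) (nat_lit 560) (nat_lit 387)) (XT.lf (nat_lit 0) (nat_lit 203812315) (nat_lit 760) (nat_lit 4250129853) (nat_lit 76) (nat_lit 11817286718) (nat_lit 299) (nat_lit 5) (nat_lit 309) (nat_lit 5) (nat_lit 300) (nat_lit 5) (nat_lit 614) (nat_lit 560) (nat_lit 386))))) (XT.nd (nat_lit 234) (nat_lit 1292) (nat_lit 0) (XT.nd (nat_lit 78) (nat_lit 608) (nat_lit 0) (XT.lf (nat_lit 0) (nat_lit 3117314401) (nat_lit 684) (nat_lit 11091228065) (nat_lit 76) (nat_lit 2246728139) (nat_lit 291) (nat_lit 5) (nat_lit 300) (nat_lit 5) (nat_lit 292) (nat_lit 5) (nat_lit 615) (nat_lit 560) (nat_lit 385)) (XT.nd (nat_lit 78) (nat_lit 608) (nat_lit 0) (XT.lf (nat_lit 0) (nat_lit 6138502499) (nat_lit 684) (nat_lit 1454980693) (nat_lit 76) (nat_lit 9048522060) (nat_lit 291) (nat_lit 5) (nat_lit 300) (nat_lit 5) (nat_lit 292) (nat_lit 5) (nat_lit 616) (nat_lit 560) (nat_lit 384)) (XT.lf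 (nat_lit 0) (nat_lit 8474367049) (nat_lit 608) (nat_lit 792151049) (nat_lit 684) (nat_lit 7565028824) (nat_lit 283) (nat_lit 5) (nat_lit 291) (nat_lit 5) (nat_lit 292) (nat_lit 5) (nat_lit 617) (nat_lit 560) (nat_lit 383)))) (XT.nd (nat_lit 156) (nat_lit 684) (nat_lit 0) (XT.nd (nat_lit 78) (nat_lit 0) (nat_lit 0) (XT.lf (nat_lit 0) (nat_lit 1567076103) (nat_lit 608) (nat_lit 10941387416) (nat_lit 684) (nat_lit 4515388911) (nat_lit 275) (nat_lit 5) (nat_lit 283) (nat_lit 5) (nat_lit 284) (nat_lit 5) (nat_lit 618) (nat_lit 560) (nat_lit 382)) (XT.lf (nat_lit 0) (nat_lit 11787003428) (nat_lit 608) (nat_lit 4081102214) (nat_lit 684) (nat_lit 1350841642) (nat_lit 275) (nat_lit 5) (nat_lit 283) (nat_lit 5) (nat_lit 284) (nat_lit 5) (nat_lit 619) (nat_lit 560) (nat_lit 381))) (XT.nd (nat_lit 78) (nat_lit 0) (nat_lit 0) (XT.lf (nat_lit 0) (nat_lit 1894648232) (nat_lit 684) (nat_lit 12602533017) (nat_lit 76) (nat_lit 2919674048) (nat_lit 266) (nat_lit 5) (nat_lit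 275) (nat_lit 5) (nat_lit 267) (nat_lit 5) (nat_lit 620) (nat_lit 560) (nat_lit 380)) (XT.lf (nat_lit 0) (nat_lit 5242451128) (nat_lit 684) (nat_lit 2325822444) (nat_lit 76) (nat_lit 10049159863) (nat_lit 266) (nat_lit 5) (nat_lit 275) (nat_lit 5) (nat_lit 267) (nat_lit 5) (nat_lit 621) (nat_lit 560) (nat_lit 379)))))) (XT.nd (nat_lit 546) (nat_lit 2052) (nat_lit 0) (XT.nd (nat_lit 234) (nat_lit 1596) (nat_lit 0) (XT.nd (nat_lit 78) (nat_lit 532) (nat_lit 0) (XT.lf (nat_lit 0) (nat_lit 8254127062) (nat_lit 532) (nat_lit 448590285) (nat_lit 608) (nat_lit 9118396004) (nat_lit 259) (nat_lit 5) (nat_lit 266) (nat_lit 5) (nat_lit 267) (nat_lit 5) (nat_lit 622) (nat_lit 560) (nat_lit 378)) (XT.nd (nat_lit 78) (nat_lit 0) (nat_lit 0) (XT.lf (nat_lit 0) (nat_lit 1006888152) (nat_lit 532) (nat_lit 11283776971) (nat_lit 608) (nat_lit 5737032570) (nat_lit 252) (nat_lit 5) (nat_lit 259) (nat_lit 5) (nat_lit 260) (nat_lit 5) (nat_lit 623) (nat_lit 560) (nat_lit 377)) (XT.lf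 (nat_lit 0) (nat_lit 11908358412) (nat_lit 532) (nat_lit 4101243052) (nat_lit 608) (nat_lit 2227628011) (nat_lit 252) (nat_lit 5) (nat_lit 259) (nat_lit 5) (nat_lit 260) (nat_lit 5) (nat_lit 624) (nat_lit 560) (nat_lit 376)))) (XT.nd (nat_lit 156) (nat_lit 988) (nat_lit 0) (XT.nd (nat_lit 78) (nat_lit 0) (nat_lit 0) (XT.lf (nat_lit 0) (nat_lit 1377578554) (nat_lit 608) (nat_lit 13853265621) (nat_lit 76) (nat_lit 3219065589) (nat_lit 244) (nat_lit 5) (nat_lit 252) (nat_lit 5) (nat_lit 245) (nat_lit 5) (nat_lit 625) (nat_lit 560) (nat_lit 375)) (XT.lf (nat_lit 0) (nat_lit 5087252116) (nat_lit 608) (nat_lit 2892250074) (nat_lit 76) (nat_lit 10685803486) (nat_lit 244) (nat_lit 5) (nat_lit 252) (nat_lit 5) (nat_lit 245) (nat_lit 5) (nat_lit 626) (nat_lit 560) (nat_lit 374))) (XT.nd (nat_lit 78) (nat_lit 456) (nat_lit 0) (XT.lf (nat_lit 0) (nat_lit 8387677295) (nat_lit 532) (nat_lit 530303216) (nat_lit 608) (nat_lit 9966092086) (nat_lit 237) (nat_lit 5) (nat_lit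 244) (nat_lit 5) (nat_lit 245) (nat_lit 5) (nat_lit 627) (nat_lit 560) (nat_lit 373)) (XT.lf (nat_lit 0) (nat_lit 779406501) (nat_lit 456) (nat_lit 12108871509) (nat_lit 532) (nat_lit 6217678070) (nat_lit 231) (nat_lit 5) (nat_lit 237) (nat_lit 5) (nat_lit 238) (nat_lit 5) (nat_lit 628) (nat_lit 560) (nat_lit 372))))) (XT.nd (nat_lit 312) (nat_lit 988) (nat_lit 0) (XT.nd (nat_lit 156) (nat_lit 456) (nat_lit 0) (XT.nd (nat_lit 78) (nat_lit 608) (nat_lit 0) (XT.lf (nat_lit 0) (nat_lit 12409136020) (nat_lit 456) (nat_lit 4595319050) (nat_lit 532) (nat_lit 2326492995) (nat_lit 231) (nat_lit 5) (nat_lit 237) (nat_lit 5) (nat_lit 238) (nat_lit 5) (nat_lit 629) (nat_lit 560) (nat_lit 371)) (XT.lf (nat_lit 0) (nat_lit 1664655219) (nat_lit 608) (nat_lit 14827457482) (nat_lit 76) (nat_lit 3067240572) (nat_lit 223) (nat_lit 5) (nat_lit 231) (nat_lit 5) (nat_lit 224) (nat_lit 5) (nat_lit 630) (nat_lit 560) (nat_lit 370))) (XT.nd (nat_lit 78) (nat_lit 456) (nat_lit 0)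 (XT.lf (nat_lit 0) (nat_lit 5774398605) (nat_lit 608) (nat_lit 3135307275) (nat_lit 76) (nat_lit 10880914954) (nat_lit 223) (nat_lit 5) (nat_lit 231) (nat_lit 5) (nat_lit 224) (nat_lit 5) (nat_lit 631) (nat_lit 560) (nat_lit 369)) (XT.lf (nat_lit 0) (nat_lit 8897310057) (nat_lit 456) (nat_lit 1119642706) (nat_lit 532) (nat_lit 10008548947) (nat_lit 217) (nat_lit 5) (nat_lit 223) (nat_lit 5) (nat_lit 224) (nat_lit 5) (nat_lit 632) (nat_lit 560) (nat_lit 368)))) (XT.nd (nat_lit 156) (nat_lit 532) (nat_lit 0) (XT.nd (nat_lit 78) (nat_lit 0) (nat_lit 0) (XT.lf (nat_lit 0) (nat_lit 905716887) (nat_lit 456) (nat_lit 13502925873) (nat_lit 532) (nat_lit 5855152026) (nat_lit 211) (nat_lit 5) (nat_lit 217) (nat_lit 5) (nat_lit 218) (nat_lit 5) (nat_lit 633) (nat_lit 560) (nat_lit 367)) (XT.lf (nat_lit 0) (nat_lit 13313580071) (nat_lit 456) (nat_lit 5649607394) (nat_lit 532) (nat_lit 1542166113) (nat_lit 211) (nat_lit 5) (nat_lit 217) (nat_lit 5) (nat_lit 218) (nat_lit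 5) (nat_lit 634) (nat_lit 560) (nat_lit 366))) (XT.nd (nat_lit 78) (nat_lit 0) (nat_lit 0) (XT.lf (nat_lit 0) (nat_lit 2862476600) (nat_lit 532) (nat_lit 15508165798) (nat_lit 76) (nat_lit 2379873044) (nat_lit 204) (nat_lit 5) (nat_lit 211) (nat_lit 5) (nat_lit 205) (nat_lit 5) (nat_lit 635) (nat_lit 560) (nat_lit 365)) (XT.lf (nat_lit 0) (nat_lit 7413699342) (nat_lit 532) (nat_lit 3034924103) (nat_lit 76) (nat_lit 10550170747) (nat_lit 204) (nat_lit 5) (nat_lit 211) (nat_lit 5) (nat_lit 205) (nat_lit 5) (nat_lit 636) (nat_lit 560) (nat_lit 364))))))))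
noncomputable def xc155 : XT := (XT.nd (nat_lit 2262) (nat_lit 912) (nat_lit 0) (XT.nd (nat_lit 1092) (nat_lit 3116) (nat_lit 0) (XT.nd (nat_lit 546) (nat_lit 1672) (nat_lit 0) (XT.nd (nat_lit 234) (nat_lit 1216) (nat_lit 0) (XT.nd (nat_lit 78) (nat_lit 456) (nat_lit 0) (XT.lf (nat_lit 0) (nat_lit 9806590599) (nat_lit 456) (nat_lit 2306284344) (nat_lit 532) (nat_lit 9138025256) (nat_lit 198) (nat_lit 5) (nat_lit 204) (nat_lit 5) (nat_lit 205) (nat_lit 5) (nat_lit 637) (nat_lit 560) (nat_lit 363)) (XT.nd (nat_lit 78) (nat_lit 76) (nat_lit 0) (XT.lf (nat_lit 0) (nat_lit 1407959404) (nat_lit 380) (nat_lit 15559972257) (nat_lit 456) (nat_lit 4538878959) (nat_lit 193) (nat_lit 5) (nat_lit 198) (nat_lit 5) (nat_lit 199) (nat_lit 5) (nat_lit 638) (nat_lit 560) (nat_lit 362)) (XT.lf (nat_lit 0) (nat_lit 236162904) (nat_lit 456) (nat_lit 7120549726) (nat_lit 76) (nat_lit 14409388899) (nat_lit 192) (nat_lit 5) (nat_lit 198) (nat_lit 5) (nat_lit 193) (nat_lit 5) (nat_lit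 639) (nat_lit 560) (nat_lit 361)))) (XT.nd (nat_lit 156) (nat_lit 760) (nat_lit 0) (XT.nd (nat_lit 78) (nat_lit 0) (nat_lit 0) (XT.lf (nat_lit 0) (nat_lit 5086436720) (nat_lit 532) (nat_lit 15877973270) (nat_lit 76) (nat_lit 1064758324) (nat_lit 186) (nat_lit 5) (nat_lit 193) (nat_lit 5) (nat_lit 187) (nat_lit 5) (nat_lit 640) (nat_lit 560) (nat_lit 360)) (XT.lf (nat_lit 0) (nat_lit 10124041207) (nat_lit 532) (nat_lit 2570413657) (nat_lit 76) (nat_lit 9601235294) (nat_lit 186) (nat_lit 5) (nat_lit 193) (nat_lit 5) (nat_lit 187) (nat_lit 5) (nat_lit 641) (nat_lit 560) (nat_lit 359))) (XT.nd (nat_lit 78) (nat_lit 380) (nat_lit 0) (XT.lf (nat_lit 0) (nat_lit 11139857084) (nat_lit 380) (nat_lit 4188501538) (nat_lit 456) (nat_lit 7237864824) (nat_lit 181) (nat_lit 5) (nat_lit 186) (nat_lit 5) (nat_lit 187) (nat_lit 5) (nat_lit 642) (nat_lit 560) (nat_lit 358)) (XT.lf (nat_lit 0) (nat_lit 2308799059) (nat_lit 380) (nat_lit 18383129100) (nat_lit 456) (nat_lit 2149136145)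 (nat_lit 176) (nat_lit 5) (nat_lit 181) (nat_lit 5) (nat_lit 182) (nat_lit 5) (nat_lit 643) (nat_lit 560) (nat_lit 357))))) (XT.nd (nat_lit 234) (nat_lit 1216) (nat_lit 0) (XT.nd (nat_lit 78) (nat_lit 380) (nat_lit 0) (XT.lf (nat_lit 0) (nat_lit 3100098851) (nat_lit 456) (nat_lit 6703911147) (nat_lit 76) (nat_lit 13315024864) (nat_lit 175) (nat_lit 5) (nat_lit 181) (nat_lit 5) (nat_lit 176) (nat_lit 5) (nat_lit 644) (nat_lit 560) (nat_lit 356)) (XT.nd (nat_lit 78) (nat_lit 0) (nat_lit 0) (XT.lf (nat_lit 0) (nat_lit 7475401806) (nat_lit 380) (nat_lit 992522241) (nat_lit 456) (nat_lit 14933509225) (nat_lit 170) (nat_lit 5) (nat_lit 175) (nat_lit 5) (nat_lit 176) (nat_lit 5) (nat_lit 645) (nat_lit 560) (nat_lit 355)) (XT.lf (nat_lit 0) (nat_lit 14034160251) (nat_lit 456) (nat_lit 1721070059) (nat_lit 76) (nat_lit 7932428453) (nat_lit 170) (nat_lit 5) (nat_lit 176) (nat_lit 5) (nat_lit 171) (nat_lit 5) (nat_lit 646) (nat_lit 560) (nat_lit 354)))) (XT.nd (nat_lit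 156) (nat_lit 380) (nat_lit 0) (XT.nd (nat_lit 78) (nat_lit 456) (nat_lit 0) (XT.lf (nat_lit 0) (nat_lit 12921615912) (nat_lit 380) (nat_lit 6874554053) (nat_lit 456) (nat_lit 4181750022) (nat_lit 165) (nat_lit 5) (nat_lit 170) (nat_lit 5) (nat_lit 171) (nat_lit 5) (nat_lit 647) (nat_lit 560) (nat_lit 353)) (XT.lf (nat_lit 0) (nat_lit 1424761546) (nat_lit 456) (nat_lit 20651707132) (nat_lit 76) (nat_lit 2196462587) (nat_lit 159) (nat_lit 5) (nat_lit 165) (nat_lit 5) (nat_lit 160) (nat_lit 5) (nat_lit 648) (nat_lit 560) (nat_lit 352))) (XT.nd (nat_lit 78) (nat_lit 380) (nat_lit 0) (XT.lf (nat_lit 0) (nat_lit 7201708952) (nat_lit 456) (nat_lit 5913223332) (nat_lit 76) (nat_lit 11456071860) (nat_lit 159) (nat_lit 5) (nat_lit 165) (nat_lit 5) (nat_lit 160) (nat_lit 5) (nat_lit 649) (nat_lit 560) (nat_lit 351)) (XT.lf (nat_lit 0) (nat_lit 9231965353) (nat_lit 380) (nat_lit 3916322037) (nat_lit 456) (nat_lit 11725669433) (nat_lit 154) (nat_lit 5) (nat_lit 159) (nat_lit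 5) (nat_lit 160) (nat_lit 5) (nat_lit 650) (nat_lit 560) (nat_lit 350)))))) (XT.nd (nat_lit 546) (nat_lit 1596) (nat_lit 0) (XT.nd (nat_lit 234) (nat_lit 760) (nat_lit 0) (XT.nd (nat_lit 78) (nat_lit 760) (nat_lit 0) (XT.lf (nat_lit 0) (nat_lit 19283417976) (nat_lit 456) (nat_lit 466893377) (nat_lit 76) (nat_lit 5431264970) (nat_lit 154) (nat_lit 5) (nat_lit 160) (nat_lit 5) (nat_lit 155) (nat_lit 5) (nat_lit 651) (nat_lit 560) (nat_lit 349)) (XT.nd (nat_lit 78) (nat_lit 380) (nat_lit 0) (XT.lf (nat_lit 0) (nat_lit 164854961) (nat_lit 380) (nat_lit 10318251625) (nat_lit 76) (nat_lit 15009844758) (nat_lit 149) (nat_lit 5) (nat_lit 154) (nat_lit 5) (nat_lit 150) (nat_lit 5) (nat_lit 652) (nat_lit 560) (nat_lit 348)) (XT.lf (nat_lit 0) (nat_lit 5346992998) (nat_lit 380) (nat_lit 955419611) (nat_lit 456) (nat_lit 19506716482) (nat_lit 144) (nat_lit 5) (nat_lit 149) (nat_lit 5) (nat_lit 150) (nat_lit 5) (nat_lit 653) (nat_lit 560) (nat_lit 347)))) (XT.nd (nat_lit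 156) (nat_lit 456) (nat_lit 0) (XT.nd (nat_lit 78) (nat_lit 304) (nat_lit 0) (XT.lf (nat_lit 0) (nat_lit 12683663127) (nat_lit 456) (nat_lit 4731235624) (nat_lit 76) (nat_lit 8714312973) (nat_lit 144) (nat_lit 5) (nat_lit 150) (nat_lit 5) (nat_lit 145) (nat_lit 5) (nat_lit 654) (nat_lit 560) (nat_lit 346)) (XT.lf (nat_lit 0) (nat_lit 11449245281) (nat_lit 304) (nat_lit 7818415790) (nat_lit 380) (nat_lit 7186532653) (nat_lit 140) (nat_lit 5) (nat_lit 144) (nat_lit 5) (nat_lit 145) (nat_lit 5) (nat_lit 655) (nat_lit 560) (nat_lit 345))) (XT.nd (nat_lit 78) (nat_lit 76) (nat_lit 0) (XT.lf (nat_lit 0) (nat_lit 1226615831) (nat_lit 380) (nat_lit 24803925930) (nat_lit 456) (nat_lit 754189708) (nat_lit 135) (nat_lit 5) (nat_lit 140) (nat_lit 5) (nat_lit 141) (nat_lit 5) (nat_lit 656) (nat_lit 560) (nat_lit 344)) (XT.lf (nat_lit 0) (nat_lit 5878281647) (nat_lit 456) (nat_lit 9232718634) (nat_lit 76) (nat_lit 12007173032) (nat_lit 134) (nat_lit 5) (nat_lit 140) (nat_lit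 5) (nat_lit 135) (nat_lit 5) (nat_lit 657) (nat_lit 560) (nat_lit 343))))) (XT.nd (nat_lit 312) (nat_lit 608) (nat_lit 0) (XT.nd (nat_lit 156) (nat_lit 684) (nat_lit 0) (XT.nd (nat_lit 78) (nat_lit 0) (nat_lit 0) (XT.lf (nat_lit 0) (nat_lit 7503867133) (nat_lit 304) (nat_lit 5172777259) (nat_lit 380) (nat_lit 14780673238) (nat_lit 130) (nat_lit 5) (nat_lit 134) (nat_lit 5) (nat_lit 135) (nat_lit 5) (nat_lit 658) (nat_lit 560) (nat_lit 342)) (XT.lf (nat_lit 0) (nat_lit 19700210689) (nat_lit 380) (nat_lit 3143077268) (nat_lit 76) (nat_lit 4958172298) (nat_lit 130) (nat_lit 5) (nat_lit 135) (nat_lit 5) (nat_lit 131) (nat_lit 5) (nat_lit 659) (nat_lit 560) (nat_lit 341))) (XT.nd (nat_lit 78) (nat_lit 380) (nat_lit 0) (XT.lf (nat_lit 0) (nat_lit 14146181378) (nat_lit 304) (nat_lit 12838913894) (nat_lit 380) (nat_lit 1164973666) (nat_lit 126) (nat_lit 5) (nat_lit 130) (nat_lit 5) (nat_lit 131) (nat_lit 5) (nat_lit 660) (nat_lit 560) (nat_lit 340)) (XT.lf (nat_lit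 0) (nat_lit 3314959028) (nat_lit 304) (nat_lit 2555068701) (nat_lit 380) (nat_lit 22634104545) (nat_lit 121) (nat_lit 5) (nat_lit 125) (nat_lit 5) (nat_lit 126) (nat_lit 5) (nat_lit 661) (nat_lit 560) (nat_lit 339)))) (XT.nd (nat_lit 156) (nat_lit 304) (nat_lit 0) (XT.nd (nat_lit 78) (nat_lit 304) (nat_lit 0) (XT.lf (nat_lit 0) (nat_lit 13171038526) (nat_lit 380) (nat_lit 7761875479) (nat_lit 76) (nat_lit 7929390833) (nat_lit 121) (nat_lit 5) (nat_lit 126) (nat_lit 5) (nat_lit 122) (nat_lit 5) (nat_lit 662) (nat_lit 560) (nat_lit 338)) (XT.lf (nat_lit 0) (nat_lit 10121325691) (nat_lit 304) (nat_lit 10574263757) (nat_lit 380) (nat_lit 8530501140) (nat_lit 117) (nat_lit 5) (nat_lit 121) (nat_lit 5) (nat_lit 122) (nat_lit 5) (nat_lit 663) (nat_lit 560) (nat_lit 337))) (XT.nd (nat_lit 78) (nat_lit 304) (nat_lit 0) (XT.lf (nat_lit 0) (nat_lit 28417916393) (nat_lit 380) (nat_lit 1137484050) (nat_lit 76) (nat_lit 40806041) (nat_lit 117) (nat_lit 5) (nat_lit 122)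 (nat_lit 5) (nat_lit 118) (nat_lit 5) (nat_lit 664) (nat_lit 560) (nat_lit 336)) (XT.lf (nat_lit 0) (nat_lit 6416848325) (nat_lit 304) (nat_lit 12674203472) (nat_lit 76) (nat_lit 10878276553) (nat_lit 113) (nat_lit 5) (nat_lit 117) (nat_lit 5) (nat_lit 114) (nat_lit 5) (nat_lit 665) (nat_lit 560) (nat_lit 335))))))) (XT.nd (nat_lit 73788) (nat_lit 0) (nat_lit 30628) (XT.nd (nat_lit 73164) (nat_lit 0) (nat_lit 32072) (XT.nd (nat_lit 234) (nat_lit 380) (nat_lit 0) (XT.nd (nat_lit 78) (nat_lit 228) (nat_lit 0) (XT.lf (nat_lit 0) (nat_lit 5822216669) (nat_lit 304) (nat_lit 8366415377) (nat_lit 380) (nat_lit 16160314565) (nat_lit 109) (nat_lit 5) (nat_lit 113) (nat_lit 5) (nat_lit 114) (nat_lit 5) (nat_lit 666) (nat_lit 560) (nat_lit 334)) (XT.nd (nat_lit 78) (nat_lit 228) (nat_lit 0) (XT.lf (nat_lit 0) (nat_lit 22213210958) (nat_lit 380) (nat_lit 5899712022) (nat_lit 76) (nat_lit 2621287187) (nat_lit 109) (nat_lit 5) (nat_lit 114) (nat_lit 5) (nat_lit 110) (nat_lit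 5) (nat_lit 667) (nat_lit 560) (nat_lit 333)) (XT.lf (nat_lit 0) (nat_lit 13209492081) (nat_lit 228) (nat_lit 17325100021) (nat_lit 304) (nat_lit 589860797) (nat_lit 106) (nat_lit 5) (nat_lit 109) (nat_lit 5) (nat_lit 110) (nat_lit 5) (nat_lit 668) (nat_lit 560) (nat_lit 332)))) (XT.nd (nat_lit 72774) (nat_lit 0) (nat_lit 33516) (XT.nd (nat_lit 78) (nat_lit 0) (nat_lit 0) (XT.lf (nat_lit 0) (nat_lit 1217957964) (nat_lit 304) (nat_lit 6226489617) (nat_lit 380) (nat_lit 24076220939) (nat_lit 101) (nat_lit 5) (nat_lit 105) (nat_lit 5) (nat_lit 106) (nat_lit 5) (nat_lit 669) (nat_lit 560) (nat_lit 331)) (XT.lf (nat_lit 0) (nat_lit 15780810572) (nat_lit 380) (nat_lit 10992027299) (nat_lit 76) (nat_lit 5148907381) (nat_lit 101) (nat_lit 5) (nat_lit 106) (nat_lit 5) (nat_lit 102) (nat_lit 5) (nat_lit 670) (nat_lit 560) (nat_lit 330))) (XT.nd (nat_lit 78) (nat_lit 0) (nat_lit 0) (XT.lf (nat_lit 0) (nat_lit 947109829) (nat_lit 0) (nat_lit 947109829) (nat_lit 1596)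 (nat_lit 2941289114) (nat_lit 542) (nat_lit 5) (nat_lit 542) (nat_lit 3) (nat_lit 563) (nat_lit 3) (nat_lit 561) (nat_lit 561) (nat_lit 438)) (XT.lf (nat_lit 0) (nat_lit 4606315628) (nat_lit 1596) (nat_lit 2987321087) (nat_lit 1672) (nat_lit 2158440555) (nat_lit 542) (nat_lit 5) (nat_lit 563) (nat_lit 3) (nat_lit 564) (nat_lit 5) (nat_lit 562) (nat_lit 561) (nat_lit 437))))) (XT.nd (nat_lit 312) (nat_lit 1444) (nat_lit 0) (XT.nd (nat_lit 156) (nat_lit 0) (nat_lit 76) (XT.nd (nat_lit 78) (nat_lit 0) (nat_lit 76) (XT.lf (nat_lit 76) (nat_lit 1899805264) (nat_lit 0) (nat_lit 3545601714) (nat_lit 1672) (nat_lit 4389255386) (nat_lit 543) (nat_lit 5) (nat_lit 542) (nat_lit 5) (nat_lit 564) (nat_lit 5) (nat_lit 563) (nat_lit 561) (nat_lit 436)) (XT.lf (nat_lit 0) (nat_lit 6305610281) (nat_lit 1596) (nat_lit 3008148646) (nat_lit 1672) (nat_lit 605054933) (nat_lit 543) (nat_lit 5) (nat_lit 564) (nat_lit 5) (nat_lit 565) (nat_lit 5) (nat_lit 564) (nat_lit 561) (nat_lit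 435))) (XT.nd (nat_lit 78) (nat_lit 0) (nat_lit 0) (XT.lf (nat_lit 76) (nat_lit 2009280994) (nat_lit 0) (nat_lit 5191011171) (nat_lit 1672) (nat_lit 2804012007) (nat_lit 544) (nat_lit 5) (nat_lit 543) (nat_lit 5) (nat_lit 565) (nat_lit 5) (nat_lit 565) (nat_lit 561) (nat_lit 434)) (XT.lf (nat_lit 76) (nat_lit 7157221509) (nat_lit 0) (nat_lit 956889138) (nat_lit 1672) (nat_lit 1977370034) (nat_lit 544) (nat_lit 5) (nat_lit 543) (nat_lit 5) (nat_lit 565) (nat_lit 5) (nat_lit 566) (nat_lit 561) (nat_lit 433)))) (XT.nd (nat_lit 156) (nat_lit 1596) (nat_lit 0) (XT.nd (nat_lit 78) (nat_lit 0) (nat_lit 0) (XT.lf (nat_lit 76) (nat_lit 2224231997) (nat_lit 0) (nat_lit 6839723633) (nat_lit 1672) (nat_lit 1116091315) (nat_lit 545) (nat_lit 5) (nat_lit 544) (nat_lit 5) (nat_lit 566) (nat_lit 5) (nat_lit 567) (nat_lit 561) (nat_lit 432)) (XT.lf (nat_lit 76) (nat_lit 7508486146) (nat_lit 0) (nat_lit 2532071521) (nat_lit 1672) (nat_lit 229672867) (nat_lit 545) (nat_lit 5)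 (nat_lit 544) (nat_lit 5) (nat_lit 566) (nat_lit 5) (nat_lit 568) (nat_lit 561) (nat_lit 431))) (XT.nd (nat_lit 78) (nat_lit 0) (nat_lit 0) (XT.lf (nat_lit 0) (nat_lit 676499348) (nat_lit 1672) (nat_lit 7819890351) (nat_lit 1748) (nat_lit 1865524243) (nat_lit 523) (nat_lit 5) (nat_lit 545) (nat_lit 5) (nat_lit 546) (nat_lit 5) (nat_lit 569) (nat_lit 561) (nat_lit 430)) (XT.lf (nat_lit 0) (nat_lit 1615487484) (nat_lit 1672) (nat_lit 2495288781) (nat_lit 1748) (nat_lit 6344270168) (nat_lit 523) (nat_lit 5) (nat_lit 545) (nat_lit 5) (nat_lit 546) (nat_lit 5) (nat_lit 570) (nat_lit 561) (nat_lit 429)))))) (XT.nd (nat_lit 546) (nat_lit 1520) (nat_lit 0) (XT.nd (nat_lit 234) (nat_lit 0) (nat_lit 76) (XT.nd (nat_lit 78) (nat_lit 0) (nat_lit 0) (XT.lf (nat_lit 0) (nat_lit 2577708153) (nat_lit 1672) (nat_lit 7588752886) (nat_lit 1748) (nat_lit 383492591) (nat_lit 524) (nat_lit 5) (nat_lit 546) (nat_lit 5) (nat_lit 547) (nat_lit 5) (nat_lit 571) (nat_lit 561) (nat_lit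 428)) (XT.nd (nat_lit 78) (nat_lit 0) (nat_lit 0) (XT.lf (nat_lit 0) (nat_lit 3586249024) (nat_lit 1672) (nat_lit 2124325959) (nat_lit 1748) (nat_lit 4935643561) (nat_lit 524) (nat_lit 5) (nat_lit 546) (nat_lit 5) (nat_lit 547) (nat_lit 5) (nat_lit 572) (nat_lit 561) (nat_lit 427)) (XT.lf (nat_lit 76) (nat_lit 3484092171) (nat_lit 0) (nat_lit 1136819491) (nat_lit 1748) (nat_lit 6123379142) (nat_lit 525) (nat_lit 5) (nat_lit 524) (nat_lit 5) (nat_lit 547) (nat_lit 5) (nat_lit 573) (nat_lit 561) (nat_lit 426)))) (XT.nd (nat_lit 156) (nat_lit 0) (nat_lit 76) (XT.nd (nat_lit 78) (nat_lit 0) (nat_lit 0) (XT.lf (nat_lit 0) (nat_lit 5697147647) (nat_lit 1672) (nat_lit 1644852650) (nat_lit 1748) (nat_lit 3501907658) (nat_lit 525) (nat_lit 5) (nat_lit 547) (nat_lit 5) (nat_lit 548) (nat_lit 5) (nat_lit 574) (nat_lit 561) (nat_lit 425)) (XT.lf (nat_lit 76) (nat_lit 4118219584) (nat_lit 0) (nat_lit 2694898287) (nat_lit 1748) (nat_lit 4132036414) (nat_lit 526) (nat_lit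 5) (nat_lit 525) (nat_lit 5) (nat_lit 548) (nat_lit 5) (nat_lit 575) (nat_lit 561) (nat_lit 424))) (XT.nd (nat_lit 78) (nat_lit 0) (nat_lit 0) (XT.lf (nat_lit 0) (nat_lit 7960014378) (nat_lit 1672) (nat_lit 1054045720) (nat_lit 1748) (nat_lit 2034194312) (nat_lit 526) (nat_lit 5) (nat_lit 548) (nat_lit 5) (nat_lit 549) (nat_lit 5) (nat_lit 576) (nat_lit 561) (nat_lit 423)) (XT.lf (nat_lit 76) (nat_lit 4869197704) (nat_lit 0) (nat_lit 4294639150) (nat_lit 1748) (nat_lit 1988900909) (nat_lit 527) (nat_lit 5) (nat_lit 526) (nat_lit 5) (nat_lit 549) (nat_lit 5) (nat_lit 577) (nat_lit 561) (nat_lit 422))))) (XT.nd (nat_lit 312) (nat_lit 0) (nat_lit 76) (XT.nd (nat_lit 156) (nat_lit 0) (nat_lit 0) (XT.nd (nat_lit 78) (nat_lit 1748) (nat_lit 0) (XT.lf (nat_lit 0) (nat_lit 10387012538) (nat_lit 1672) (nat_lit 348769739) (nat_lit 1748) (nat_lit 523623938) (nat_lit 527) (nat_lit 5) (nat_lit 549) (nat_lit 5) (nat_lit 550) (nat_lit 5) (nat_lit 578) (nat_lit 561) (nat_lit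 421)) (XT.lf (nat_lit 0) (nat_lit 314080652) (nat_lit 1748) (nat_lit 5628872079) (nat_lit 1824) (nat_lit 5424199008) (nat_lit 504) (nat_lit 5) (nat_lit 527) (nat_lit 5) (nat_lit 528) (nat_lit 5) (nat_lit 579) (nat_lit 561) (nat_lit 420))) (XT.nd (nat_lit 78) (nat_lit 0) (nat_lit 76) (XT.lf (nat_lit 76) (nat_lit 463804585) (nat_lit 0) (nat_lit 1039383227) (nat_lit 1824) (nat_lit 9973938249) (nat_lit 505) (nat_lit 5) (nat_lit 504) (nat_lit 5) (nat_lit 528) (nat_lit 5) (nat_lit 580) (nat_lit 561) (nat_lit 419)) (XT.lf (nat_lit 0) (nat_lit 2765271310) (nat_lit 1748) (nat_lit 4871402367) (nat_lit 1824) (nat_lit 3951643201) (nat_lit 505) (nat_lit 5) (nat_lit 528) (nat_lit 5) (nat_lit 529) (nat_lit 5) (nat_lit 581) (nat_lit 561) (nat_lit 418)))) (XT.nd (nat_lit 156) (nat_lit 0) (nat_lit 76) (XT.nd (nat_lit 78) (nat_lit 0) (nat_lit 76) (XT.lf (nat_lit 76) (nat_lit 1393455226) (nat_lit 0) (nat_lit 2660802942) (nat_lit 1824) (nat_lit 7647440986) (nat_lit 506) (nat_lit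 5) (nat_lit 505) (nat_lit 5) (nat_lit 529) (nat_lit 5) (nat_lit 582) (nat_lit 561) (nat_lit 417)) (XT.lf (nat_lit 0) (nat_lit 5403564553) (nat_lit 1748) (nat_lit 3994464003) (nat_lit 1824) (nat_lit 2418630582) (nat_lit 506) (nat_lit 5) (nat_lit 529) (nat_lit 5) (nat_lit 530) (nat_lit 5) (nat_lit 583) (nat_lit 561) (nat_lit 416))) (XT.nd (nat_lit 78) (nat_lit 0) (nat_lit 76) (XT.lf (nat_lit 76) (nat_lit 2448794278) (nat_lit 0) (nat_lit 4350815095) (nat_lit 1824) (nat_lit 5133914745) (nat_lit 507) (nat_lit 5) (nat_lit 506) (nat_lit 5) (nat_lit 530) (nat_lit 5) (nat_lit 584) (nat_lit 561) (nat_lit 415)) (XT.lf (nat_lit 0) (nat_lit 8242178743) (nat_lit 1748) (nat_lit 2993986594) (nat_lit 76) (nat_lit 816189812) (nat_lit 507) (nat_lit 5) (nat_lit 530) (nat_lit 5) (nat_lit 508) (nat_lit 5) (nat_lit 585) (nat_lit 561) (nat_lit 414))))))))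
noncomputable def xc156 : XT := (XT.nd (nat_lit 2262) (nat_lit 9044) (nat_lit 0) (XT.nd (nat_lit 1092) (nat_lit 6612) (nat_lit 0) (XT.nd (nat_lit 546) (nat_lit 3496) (nat_lit 0) (XT.nd (nat_lit 234) (nat_lit 1976) (nat_lit 0) (XT.nd (nat_lit 78) (nat_lit 1900) (nat_lit 0) (XT.lf (nat_lit 0) (nat_lit 3634140542) (nat_lit 1748) (nat_lit 6118577656) (nat_lit 1824) (nat_lit 2420063039) (nat_lit 484) (nat_lit 5) (nat_lit 507) (nat_lit 5) (nat_lit 508) (nat_lit 5) (nat_lit 586) (nat_lit 561) (nat_lit 413)) (XT.nd (nat_lit 78) (nat_lit 1900) (nat_lit 0) (XT.lf (nat_lit 0) (nat_lit 10424208672) (nat_lit 1748) (nat_lit 876248929) (nat_lit 1824) (nat_lit 995019256) (nat_lit 484) (nat_lit 5) (nat_lit 507) (nat_lit 5) (nat_lit 508) (nat_lit 5) (nat_lit 587) (nat_lit 561) (nat_lit 412)) (XT.lf (nat_lit 0) (nat_lit 501191963) (nat_lit 1900) (nat_lit 7468815103) (nat_lit 76) (nat_lit 4449586940) (nat_lit 459) (nat_lit 5) (nat_lit 484) (nat_lit 5) (nat_lit 460) (nat_lit 5)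 (nat_lit 588) (nat_lit 561) (nat_lit 411)))) (XT.nd (nat_lit 156) (nat_lit 912) (nat_lit 0) (XT.nd (nat_lit 78) (nat_lit 1064) (nat_lit 0) (XT.lf (nat_lit 0) (nat_lit 2019721263) (nat_lit 1900) (nat_lit 635137392) (nat_lit 76) (nat_lit 9891089706) (nat_lit 459) (nat_lit 5) (nat_lit 484) (nat_lit 5) (nat_lit 460) (nat_lit 5) (nat_lit 589) (nat_lit 561) (nat_lit 410)) (XT.lf (nat_lit 0) (nat_lit 3615985044) (nat_lit 1140) (nat_lit 6284366743) (nat_lit 76) (nat_lit 2773531471) (nat_lit 445) (nat_lit 5) (nat_lit 460) (nat_lit 5) (nat_lit 446) (nat_lit 5) (nat_lit 590) (nat_lit 561) (nat_lit 409))) (XT.nd (nat_lit 78) (nat_lit 0) (nat_lit 0) (XT.lf (nat_lit 0) (nat_lit 739762138) (nat_lit 912) (nat_lit 4518779600) (nat_lit 988) (nat_lit 7545548482) (nat_lit 433) (nat_lit 5) (nat_lit 445) (nat_lit 5) (nat_lit 446) (nat_lit 5) (nat_lit 591) (nat_lit 561) (nat_lit 408)) (XT.lf (nat_lit 0) (nat_lit 6970567552) (nat_lit 988) (nat_lit 4964564147) (nat_lit 76) (nat_lit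 1001037966) (nat_lit 433) (nat_lit 5) (nat_lit 446) (nat_lit 5) (nat_lit 434) (nat_lit 5) (nat_lit 592) (nat_lit 561) (nat_lit 407))))) (XT.nd (nat_lit 234) (nat_lit 1748) (nat_lit 0) (XT.nd (nat_lit 78) (nat_lit 836) (nat_lit 0) (XT.lf (nat_lit 0) (nat_lit 2265723787) (nat_lit 912) (nat_lit 6483850936) (nat_lit 988) (nat_lit 4320661849) (nat_lit 421) (nat_lit 5) (nat_lit 433) (nat_lit 5) (nat_lit 434) (nat_lit 5) (nat_lit 593) (nat_lit 561) (nat_lit 406)) (XT.nd (nat_lit 78) (nat_lit 836) (nat_lit 0) (XT.lf (nat_lit 0) (nat_lit 9696726579) (nat_lit 912) (nat_lit 889015478) (nat_lit 988) (nat_lit 2620811838) (nat_lit 421) (nat_lit 5) (nat_lit 433) (nat_lit 5) (nat_lit 434) (nat_lit 5) (nat_lit 594) (nat_lit 561) (nat_lit 405)) (XT.lf (nat_lit 0) (nat_lit 3939943343) (nat_lit 836) (nat_lit 8564048694) (nat_lit 912) (nat_lit 840699005) (nat_lit 410) (nat_lit 5) (nat_lit 421) (nat_lit 5) (nat_lit 422) (nat_lit 5) (nat_lit 595) (nat_lit 561) (nat_lit 404)))) (XT.nd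 (nat_lit 156) (nat_lit 836) (nat_lit 0) (XT.nd (nat_lit 78) (nat_lit 836) (nat_lit 0) (XT.lf (nat_lit 0) (nat_lit 980401090) (nat_lit 912) (nat_lit 1922488306) (nat_lit 76) (nat_lit 10582212114) (nat_lit 409) (nat_lit 5) (nat_lit 421) (nat_lit 5) (nat_lit 410) (nat_lit 5) (nat_lit 596) (nat_lit 561) (nat_lit 403)) (XT.lf (nat_lit 0) (nat_lit 2871858991) (nat_lit 912) (nat_lit 7878170296) (nat_lit 76) (nat_lit 2877276532) (nat_lit 398) (nat_lit 5) (nat_lit 410) (nat_lit 5) (nat_lit 399) (nat_lit 5) (nat_lit 597) (nat_lit 561) (nat_lit 402))) (XT.nd (nat_lit 78) (nat_lit 836) (nat_lit 0) (XT.lf (nat_lit 0) (nat_lit 4822305747) (nat_lit 912) (nat_lit 202363048) (nat_lit 76) (nat_lit 8747262837) (nat_lit 398) (nat_lit 5) (nat_lit 410) (nat_lit 5) (nat_lit 399) (nat_lit 5) (nat_lit 598) (nat_lit 561) (nat_lit 401)) (XT.lf (nat_lit 0) (nat_lit 6856655751) (nat_lit 912) (nat_lit 6207105056) (nat_lit 76) (nat_lit 854791870) (nat_lit 387) (nat_lit 5) (nat_lit 399)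 (nat_lit 5) (nat_lit 388) (nat_lit 5) (nat_lit 599) (nat_lit 561) (nat_lit 400)))))) (XT.nd (nat_lit 546) (nat_lit 3496) (nat_lit 0) (XT.nd (nat_lit 234) (nat_lit 1520) (nat_lit 0) (XT.nd (nat_lit 78) (nat_lit 760) (nat_lit 0) (XT.lf (nat_lit 0) (nat_lit 1696027800) (nat_lit 836) (nat_lit 7270625315) (nat_lit 912) (nat_lit 5100754409) (nat_lit 376) (nat_lit 5) (nat_lit 387) (nat_lit 5) (nat_lit 388) (nat_lit 5) (nat_lit 600) (nat_lit 561) (nat_lit 399)) (XT.nd (nat_lit 78) (nat_lit 760) (nat_lit 0) (XT.lf (nat_lit 0) (nat_lit 9830305909) (nat_lit 836) (nat_lit 1319641084) (nat_lit 912) (nat_lit 3068671123) (nat_lit 376) (nat_lit 5) (nat_lit 387) (nat_lit 5) (nat_lit 388) (nat_lit 5) (nat_lit 601) (nat_lit 561) (nat_lit 398)) (XT.lf (nat_lit 0) (nat_lit 3761867795) (nat_lit 760) (nat_lit 9659953428) (nat_lit 836) (nat_lit 950133974) (nat_lit 366) (nat_lit 5) (nat_lit 376) (nat_lit 5) (nat_lit 377) (nat_lit 5) (nat_lit 602) (nat_lit 561) (nat_lit 397)))) (XT.nd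 (nat_lit 156) (nat_lit 684) (nat_lit 0) (XT.nd (nat_lit 78) (nat_lit 760) (nat_lit 0) (XT.lf (nat_lit 0) (nat_lit 1222987600) (nat_lit 836) (nat_lit 2421137999) (nat_lit 76) (nat_lit 10883514878) (nat_lit 365) (nat_lit 5) (nat_lit 376) (nat_lit 5) (nat_lit 366) (nat_lit 5) (nat_lit 603) (nat_lit 561) (nat_lit 396)) (XT.lf (nat_lit 0) (nat_lit 3472158455) (nat_lit 836) (nat_lit 8709204927) (nat_lit 76) (nat_lit 2504044823) (nat_lit 355) (nat_lit 5) (nat_lit 366) (nat_lit 5) (nat_lit 356) (nat_lit 5) (nat_lit 604) (nat_lit 561) (nat_lit 395))) (XT.nd (nat_lit 78) (nat_lit 684) (nat_lit 0) (XT.lf (nat_lit 0) (nat_lit 5796835380) (nat_lit 836) (nat_lit 306949908) (nat_lit 76) (nat_lit 8741936071) (nat_lit 355) (nat_lit 5) (nat_lit 366) (nat_lit 5) (nat_lit 356) (nat_lit 5) (nat_lit 605) (nat_lit 561) (nat_lit 394)) (XT.lf (nat_lit 0) (nat_lit 8213500942) (nat_lit 760) (nat_lit 6647097737) (nat_lit 76) (nat_lit 147732707) (nat_lit 346) (nat_lit 5) (nat_lit 356)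 (nat_lit 5) (nat_lit 347) (nat_lit 5) (nat_lit 606) (nat_lit 561) (nat_lit 393))))) (XT.nd (nat_lit 312) (nat_lit 1976) (nat_lit 0) (XT.nd (nat_lit 156) (nat_lit 760) (nat_lit 0) (XT.nd (nat_lit 78) (nat_lit 0) (nat_lit 0) (XT.lf (nat_lit 0) (nat_lit 2007772777) (nat_lit 760) (nat_lit 8716603673) (nat_lit 836) (nat_lit 4448900135) (nat_lit 336) (nat_lit 5) (nat_lit 346) (nat_lit 5) (nat_lit 347) (nat_lit 5) (nat_lit 607) (nat_lit 561) (nat_lit 392)) (XT.lf (nat_lit 0) (nat_lit 10915002946) (nat_lit 760) (nat_lit 2405535962) (nat_lit 836) (nat_lit 2020280884) (nat_lit 336) (nat_lit 5) (nat_lit 346) (nat_lit 5) (nat_lit 347) (nat_lit 5) (nat_lit 608) (nat_lit 561) (nat_lit 391))) (XT.nd (nat_lit 78) (nat_lit 0) (nat_lit 0) (XT.lf (nat_lit 0) (nat_lit 497329921) (nat_lit 760) (nat_lit 11003224111) (nat_lit 76) (nat_lit 4010172741) (nat_lit 326) (nat_lit 5) (nat_lit 336) (nat_lit 5) (nat_lit 327) (nat_lit 5) (nat_lit 609) (nat_lit 561) (nat_lit 390)) (XT.lf (nat_lit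 0) (nat_lit 3074788294) (nat_lit 760) (nat_lit 2044323495) (nat_lit 76) (nat_lit 10563922551) (nat_lit 326) (nat_lit 5) (nat_lit 336) (nat_lit 5) (nat_lit 327) (nat_lit 5) (nat_lit 610) (nat_lit 561) (nat_lit 389)))) (XT.nd (nat_lit 156) (nat_lit 684) (nat_lit 0) (XT.nd (nat_lit 78) (nat_lit 608) (nat_lit 0) (XT.lf (nat_lit 0) (nat_lit 5750595605) (nat_lit 760) (nat_lit 8690123904) (nat_lit 76) (nat_lit 1417133008) (nat_lit 317) (nat_lit 5) (nat_lit 327) (nat_lit 5) (nat_lit 318) (nat_lit 5) (nat_lit 611) (nat_lit 561) (nat_lit 388)) (XT.lf (nat_lit 0) (nat_lit 517892343) (nat_lit 608) (nat_lit 8004077137) (nat_lit 684) (nat_lit 7513357017) (nat_lit 309) (nat_lit 5) (nat_lit 317) (nat_lit 5) (nat_lit 318) (nat_lit 5) (nat_lit 612) (nat_lit 561) (nat_lit 387))) (XT.nd (nat_lit 78) (nat_lit 684) (nat_lit 0) (XT.lf (nat_lit 0) (nat_lit 10017188472) (nat_lit 608) (nat_lit 1380982439) (nat_lit 684) (nat_lit 4817191483) (nat_lit 309) (nat_lit 5) (nat_lit 317) (nat_lit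 5) (nat_lit 318) (nat_lit 5) (nat_lit 613) (nat_lit 561) (nat_lit 386)) (XT.lf (nat_lit 0) (nat_lit 3305293712) (nat_lit 684) (nat_lit 11074206480) (nat_lit 760) (nat_lit 2018547168) (nat_lit 300) (nat_lit 5) (nat_lit 309) (nat_lit 5) (nat_lit 310) (nat_lit 5) (nat_lit 614) (nat_lit 561) (nat_lit 385))))))) (XT.nd (nat_lit 1092) (nat_lit 4256) (nat_lit 0) (XT.nd (nat_lit 546) (nat_lit 2204) (nat_lit 0) (XT.nd (nat_lit 234) (nat_lit 1900) (nat_lit 0) (XT.nd (nat_lit 78) (nat_lit 608) (nat_lit 0) (XT.lf (nat_lit 0) (nat_lit 867412559) (nat_lit 760) (nat_lit 3526233128) (nat_lit 76) (nat_lit 12189786031) (nat_lit 299) (nat_lit 5) (nat_lit 309) (nat_lit 5) (nat_lit 300) (nat_lit 5) (nat_lit 615) (nat_lit 561) (nat_lit 384)) (XT.nd (nat_lit 78) (nat_lit 0) (nat_lit 0) (XT.lf (nat_lit 0) (nat_lit 3832455582) (nat_lit 684) (nat_lit 10497393547) (nat_lit 76) (nat_lit 2441440337) (nat_lit 291) (nat_lit 5) (nat_lit 300) (nat_lit 5) (nat_lit 292) (nat_lit 5) (nat_lit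 616) (nat_lit 561) (nat_lit 383)) (XT.lf (nat_lit 0) (nat_lit 6901267542) (nat_lit 684) (nat_lit 684414543) (nat_lit 76) (nat_lit 9376333320) (nat_lit 291) (nat_lit 5) (nat_lit 300) (nat_lit 5) (nat_lit 292) (nat_lit 5) (nat_lit 617) (nat_lit 561) (nat_lit 382)))) (XT.nd (nat_lit 156) (nat_lit 684) (nat_lit 0) (XT.nd (nat_lit 78) (nat_lit 608) (nat_lit 0) (XT.lf (nat_lit 0) (nat_lit 9438259194) (nat_lit 608) (nat_lit 646193140) (nat_lit 684) (nat_lit 7071043986) (nat_lit 283) (nat_lit 5) (nat_lit 291) (nat_lit 5) (nat_lit 292) (nat_lit 5) (nat_lit 618) (nat_lit 561) (nat_lit 381)) (XT.lf (nat_lit 0) (nat_lit 2399150583) (nat_lit 608) (nat_lit 10985910894) (nat_lit 684) (nat_lit 3966710544) (nat_lit 275) (nat_lit 5) (nat_lit 283) (nat_lit 5) (nat_lit 284) (nat_lit 5) (nat_lit 619) (nat_lit 561) (nat_lit 380))) (XT.nd (nat_lit 78) (nat_lit 684) (nat_lit 0) (XT.lf (nat_lit 0) (nat_lit 12807775808) (nat_lit 608) (nat_lit 3991837719) (nat_lit 684) (nat_lit 751401469)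 (nat_lit 275) (nat_lit 5) (nat_lit 283) (nat_lit 5) (nat_lit 284) (nat_lit 5) (nat_lit 620) (nat_lit 561) (nat_lit 379)) (XT.lf (nat_lit 0) (nat_lit 2544924372) (nat_lit 684) (nat_lit 12055422555) (nat_lit 76) (nat_lit 3152570595) (nat_lit 266) (nat_lit 5) (nat_lit 275) (nat_lit 5) (nat_lit 267) (nat_lit 5) (nat_lit 621) (nat_lit 561) (nat_lit 378))))) (XT.nd (nat_lit 234) (nat_lit 1140) (nat_lit 0) (XT.nd (nat_lit 78) (nat_lit 1064) (nat_lit 0) (XT.lf (nat_lit 0) (nat_lit 5947675813) (nat_lit 684) (nat_lit 1588847597) (nat_lit 76) (nat_lit 10421224498) (nat_lit 266) (nat_lit 5) (nat_lit 275) (nat_lit 5) (nat_lit 267) (nat_lit 5) (nat_lit 622) (nat_lit 561) (nat_lit 377)) (XT.nd (nat_lit 78) (nat_lit 532) (nat_lit 0) (XT.lf (nat_lit 0) (nat_lit 9197546352) (nat_lit 532) (nat_lit 272882410) (nat_lit 608) (nat_lit 8695207553) (nat_lit 259) (nat_lit 5) (nat_lit 266) (nat_lit 5) (nat_lit 267) (nat_lit 5) (nat_lit 623) (nat_lit 561) (nat_lit 376)) (XT.lf (nat_lit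 0) (nat_lit 1810871871) (nat_lit 532) (nat_lit 11313888088) (nat_lit 608) (nat_lit 5251700409) (nat_lit 252) (nat_lit 5) (nat_lit 259) (nat_lit 5) (nat_lit 260) (nat_lit 5) (nat_lit 624) (nat_lit 561) (nat_lit 375)))) (XT.nd (nat_lit 156) (nat_lit 532) (nat_lit 0) (XT.nd (nat_lit 78) (nat_lit 608) (nat_lit 0) (XT.lf (nat_lit 0) (nat_lit 12915002007) (nat_lit 532) (nat_lit 3991538088) (nat_lit 608) (nat_lit 1683873893) (nat_lit 252) (nat_lit 5) (nat_lit 259) (nat_lit 5) (nat_lit 260) (nat_lit 5) (nat_lit 625) (nat_lit 561) (nat_lit 374)) (XT.lf (nat_lit 0) (nat_lit 1980621863) (nat_lit 608) (nat_lit 13348990744) (nat_lit 76) (nat_lit 3477761349) (nat_lit 244) (nat_lit 5) (nat_lit 252) (nat_lit 5) (nat_lit 245) (nat_lit 5) (nat_lit 626) (nat_lit 561) (nat_lit 373))) (XT.nd (nat_lit 78) (nat_lit 532) (nat_lit 0) (XT.lf (nat_lit 0) (nat_lit 5753204745) (nat_lit 608) (nat_lit 2184075282) (nat_lit 76) (nat_lit 11090023916) (nat_lit 244) (nat_lit 5) (nat_lit 252)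 (nat_lit 5) (nat_lit 245) (nat_lit 5) (nat_lit 627) (nat_lit 561) (nat_lit 372)) (XT.lf (nat_lit 0) (nat_lit 9316411031) (nat_lit 532) (nat_lit 338014572) (nat_lit 608) (nat_lit 9596143506) (nat_lit 237) (nat_lit 5) (nat_lit 244) (nat_lit 5) (nat_lit 245) (nat_lit 5) (nat_lit 628) (nat_lit 561) (nat_lit 371)))))) (XT.nd (nat_lit 546) (nat_lit 2280) (nat_lit 0) (XT.nd (nat_lit 234) (nat_lit 912) (nat_lit 0) (XT.nd (nat_lit 78) (nat_lit 608) (nat_lit 0) (XT.lf (nat_lit 0) (nat_lit 1560771067) (nat_lit 456) (nat_lit 12138678557) (nat_lit 532) (nat_lit 5777534681) (nat_lit 231) (nat_lit 5) (nat_lit 237) (nat_lit 5) (nat_lit 238) (nat_lit 5) (nat_lit 629) (nat_lit 561) (nat_lit 370)) (XT.nd (nat_lit 78) (nat_lit 608) (nat_lit 0) (XT.lf (nat_lit 0) (nat_lit 13408079952) (nat_lit 456) (nat_lit 4479019174) (nat_lit 532) (nat_lit 1819594473) (nat_lit 231) (nat_lit 5) (nat_lit 237) (nat_lit 5) (nat_lit 238) (nat_lit 5) (nat_lit 630) (nat_lit 561) (nat_lit 369)) (XT.lf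 (nat_lit 0) (nat_lit 2239679520) (nat_lit 608) (nat_lit 14361504883) (nat_lit 76) (nat_lit 3338499850) (nat_lit 223) (nat_lit 5) (nat_lit 231) (nat_lit 5) (nat_lit 224) (nat_lit 5) (nat_lit 631) (nat_lit 561) (nat_lit 368)))) (XT.nd (nat_lit 156) (nat_lit 456) (nat_lit 0) (XT.nd (nat_lit 78) (nat_lit 456) (nat_lit 0) (XT.lf (nat_lit 0) (nat_lit 6420995593) (nat_lit 608) (nat_lit 2450462686) (nat_lit 76) (nat_lit 11304331750) (nat_lit 223) (nat_lit 5) (nat_lit 231) (nat_lit 5) (nat_lit 224) (nat_lit 5) (nat_lit 632) (nat_lit 561) (nat_lit 367)) (XT.lf (nat_lit 0) (nat_lit 9817888895) (nat_lit 456) (nat_lit 924919700) (nat_lit 532) (nat_lit 9672672184) (nat_lit 217) (nat_lit 5) (nat_lit 223) (nat_lit 5) (nat_lit 224) (nat_lit 5) (nat_lit 633) (nat_lit 561) (nat_lit 366))) (XT.nd (nat_lit 78) (nat_lit 0) (nat_lit 0) (XT.lf (nat_lit 0) (nat_lit 1670639416) (nat_lit 456) (nat_lit 13547619520) (nat_lit 532) (nat_lit 5440362655) (nat_lit 211) (nat_lit 5) (nat_lit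 217) (nat_lit 5) (nat_lit 218) (nat_lit 5) (nat_lit 634) (nat_lit 561) (nat_lit 365)) (XT.lf (nat_lit 0) (nat_lit 14312016566) (nat_lit 456) (nat_lit 5541653591) (nat_lit 532) (nat_lit 1051546287) (nat_lit 211) (nat_lit 5) (nat_lit 217) (nat_lit 5) (nat_lit 218) (nat_lit 5) (nat_lit 635) (nat_lit 561) (nat_lit 364))))) (XT.nd (nat_lit 312) (nat_lit 912) (nat_lit 0) (XT.nd (nat_lit 156) (nat_lit 836) (nat_lit 0) (XT.nd (nat_lit 78) (nat_lit 0) (nat_lit 0) (XT.lf (nat_lit 0) (nat_lit 3430486142) (nat_lit 532) (nat_lit 15075422587) (nat_lit 76) (nat_lit 2649382766) (nat_lit 204) (nat_lit 5) (nat_lit 211) (nat_lit 5) (nat_lit 205) (nat_lit 5) (nat_lit 636) (nat_lit 561) (nat_lit 363)) (XT.lf (nat_lit 0) (nat_lit 8062718436) (nat_lit 532) (nat_lit 2367282852) (nat_lit 76) (nat_lit 10978735202) (nat_lit 204) (nat_lit 5) (nat_lit 211) (nat_lit 5) (nat_lit 205) (nat_lit 5) (nat_lit 637) (nat_lit 561) (nat_lit 362))) (XT.nd (nat_lit 78) (nat_lit 380) (nat_lit 0) (XT.lf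 (nat_lit 0) (nat_lit 10726270435) (nat_lit 456) (nat_lit 2124486336) (nat_lit 532) (nat_lit 8815230628) (nat_lit 198) (nat_lit 5) (nat_lit 204) (nat_lit 5) (nat_lit 205) (nat_lit 5) (nat_lit 638) (nat_lit 561) (nat_lit 361)) (XT.lf (nat_lit 0) (nat_lit 2163301805) (nat_lit 380) (nat_lit 15636066865) (nat_lit 456) (nat_lit 4127718637) (nat_lit 193) (nat_lit 5) (nat_lit 198) (nat_lit 5) (nat_lit 199) (nat_lit 5) (nat_lit 639) (nat_lit 561) (nat_lit 360)))) (XT.nd (nat_lit 156) (nat_lit 380) (nat_lit 0) (XT.nd (nat_lit 78) (nat_lit 456) (nat_lit 0) (XT.lf (nat_lit 0) (nat_lit 726528216) (nat_lit 456) (nat_lit 6543564814) (nat_lit 76) (nat_lit 14921600427) (nat_lit 192) (nat_lit 5) (nat_lit 198) (nat_lit 5) (nat_lit 193) (nat_lit 5) (nat_lit 640) (nat_lit 561) (nat_lit 359)) (XT.lf (nat_lit 0) (nat_lit 5670443837) (nat_lit 532) (nat_lit 15472756235) (nat_lit 76) (nat_lit 1316889117) (nat_lit 186) (nat_lit 5) (nat_lit 193) (nat_lit 5) (nat_lit 187) (nat_lit 5)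 (nat_lit 641) (nat_lit 561) (nat_lit 358))) (XT.nd (nat_lit 78) (nat_lit 380) (nat_lit 0) (XT.lf (nat_lit 0) (nat_lit 10799343976) (nat_lit 532) (nat_lit 1913217518) (nat_lit 76) (nat_lit 10019569438) (nat_lit 186) (nat_lit 5) (nat_lit 193) (nat_lit 5) (nat_lit 187) (nat_lit 5) (nat_lit 642) (nat_lit 561) (nat_lit 357)) (XT.lf (nat_lit 0) (nat_lit 12066596766) (nat_lit 380) (nat_lit 4036450416) (nat_lit 456) (nat_lit 6905122040) (nat_lit 181) (nat_lit 5) (nat_lit 186) (nat_lit 5) (nat_lit 187) (nat_lit 5) (nat_lit 643) (nat_lit 561) (nat_lit 356))))))))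
noncomputable def xc157 : XT := (XT.nd (nat_lit 74958) (nat_lit 0) (nat_lit 25232) (XT.nd (nat_lit 1092) (nat_lit 2584) (nat_lit 0) (XT.nd (nat_lit 546) (nat_lit 1824) (nat_lit 0) (XT.nd (nat_lit 234) (nat_lit 836) (nat_lit 0) (XT.nd (nat_lit 78) (nat_lit 456) (nat_lit 0) (XT.lf (nat_lit 0) (nat_lit 3062082337) (nat_lit 380) (nat_lit 18508719019) (nat_lit 456) (nat_lit 1717767596) (nat_lit 176) (nat_lit 5) (nat_lit 181) (nat_lit 5) (nat_lit 182) (nat_lit 5) (nat_lit 644) (nat_lit 561) (nat_lit 355)) (XT.nd (nat_lit 78) (nat_lit 380) (nat_lit 0) (XT.lf (nat_lit 0) (nat_lit 3621051876) (nat_lit 456) (nat_lit 6138632377) (nat_lit 76) (nat_lit 13812536958) (nat_lit 175) (nat_lit 5) (nat_lit 181) (nat_lit 5) (nat_lit 176) (nat_lit 5) (nat_lit 645) (nat_lit 561) (nat_lit 354)) (XT.lf (nat_lit 0) (nat_lit 8319665802) (nat_lit 380) (nat_lit 772079551) (nat_lit 456) (nat_lit 14768612302) (nat_lit 170) (nat_lit 5) (nat_lit 175) (nat_lit 5) (nat_lit 176) (nat_lit 5)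 (nat_lit 646) (nat_lit 561) (nat_lit 353)))) (XT.nd (nat_lit 156) (nat_lit 456) (nat_lit 0) (XT.nd (nat_lit 78) (nat_lit 380) (nat_lit 0) (XT.lf (nat_lit 0) (nat_lit 14761924796) (nat_lit 456) (nat_lit 1066961950) (nat_lit 76) (nat_lit 8323568834) (nat_lit 170) (nat_lit 5) (nat_lit 176) (nat_lit 5) (nat_lit 171) (nat_lit 5) (nat_lit 647) (nat_lit 561) (nat_lit 352)) (XT.lf (nat_lit 0) (nat_lit 13864047940) (nat_lit 380) (nat_lit 6770801443) (nat_lit 456) (nat_lit 3813759440) (nat_lit 165) (nat_lit 5) (nat_lit 170) (nat_lit 5) (nat_lit 171) (nat_lit 5) (nat_lit 648) (nat_lit 561) (nat_lit 351))) (XT.nd (nat_lit 78) (nat_lit 0) (nat_lit 0) (XT.lf (nat_lit 0) (nat_lit 1896254114) (nat_lit 456) (nat_lit 20372085277) (nat_lit 76) (nat_lit 2481176670) (nat_lit 159) (nat_lit 5) (nat_lit 165) (nat_lit 5) (nat_lit 160) (nat_lit 5) (nat_lit 649) (nat_lit 561) (nat_lit 350)) (XT.lf (nat_lit 0) (nat_lit 7780054246) (nat_lit 456) (nat_lit 5352413292) (nat_lit 76) (nat_lit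 11921256857) (nat_lit 159) (nat_lit 5) (nat_lit 165) (nat_lit 5) (nat_lit 160) (nat_lit 5) (nat_lit 650) (nat_lit 561) (nat_lit 349))))) (XT.nd (nat_lit 234) (nat_lit 1064) (nat_lit 0) (XT.nd (nat_lit 78) (nat_lit 380) (nat_lit 0) (XT.lf (nat_lit 0) (nat_lit 10091211572) (nat_lit 380) (nat_lit 3750216772) (nat_lit 456) (nat_lit 11521390768) (nat_lit 154) (nat_lit 5) (nat_lit 159) (nat_lit 5) (nat_lit 160) (nat_lit 5) (nat_lit 651) (nat_lit 561) (nat_lit 348)) (XT.nd (nat_lit 78) (nat_lit 76) (nat_lit 0) (XT.lf (nat_lit 0) (nat_lit 194592186) (nat_lit 304) (nat_lit 19899053864) (nat_lit 380) (nat_lit 5583057524) (nat_lit 150) (nat_lit 5) (nat_lit 154) (nat_lit 5) (nat_lit 155) (nat_lit 5) (nat_lit 652) (nat_lit 561) (nat_lit 347)) (XT.lf (nat_lit 0) (nat_lit 590248264) (nat_lit 380) (nat_lit 9855119850) (nat_lit 76) (nat_lit 15548987760) (nat_lit 149) (nat_lit 5) (nat_lit 154) (nat_lit 5) (nat_lit 150) (nat_lit 5) (nat_lit 653) (nat_lit 561) (nat_lit 346))))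 (XT.nd (nat_lit 156) (nat_lit 684) (nat_lit 0) (XT.nd (nat_lit 78) (nat_lit 0) (nat_lit 0) (XT.lf (nat_lit 0) (nat_lit 6119025082) (nat_lit 380) (nat_lit 727573807) (nat_lit 456) (nat_lit 19470337697) (nat_lit 144) (nat_lit 5) (nat_lit 149) (nat_lit 5) (nat_lit 150) (nat_lit 5) (nat_lit 654) (nat_lit 561) (nat_lit 345)) (XT.lf (nat_lit 0) (nat_lit 13348847583) (nat_lit 456) (nat_lit 4167170219) (nat_lit 76) (nat_lit 9127535848) (nat_lit 144) (nat_lit 5) (nat_lit 150) (nat_lit 5) (nat_lit 145) (nat_lit 5) (nat_lit 655) (nat_lit 561) (nat_lit 344))) (XT.nd (nat_lit 78) (nat_lit 380) (nat_lit 0) (XT.lf (nat_lit 0) (nat_lit 12332586817) (nat_lit 304) (nat_lit 7728118339) (nat_lit 380) (nat_lit 6914406777) (nat_lit 140) (nat_lit 5) (nat_lit 144) (nat_lit 5) (nat_lit 145) (nat_lit 5) (nat_lit 656) (nat_lit 561) (nat_lit 343)) (XT.lf (nat_lit 0) (nat_lit 1907720763) (nat_lit 380) (nat_lit 25048961779) (nat_lit 456) (nat_lit 355621341) (nat_lit 135) (nat_lit 5) (nat_lit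 140) (nat_lit 5) (nat_lit 141) (nat_lit 5) (nat_lit 657) (nat_lit 561) (nat_lit 342)))))) (XT.nd (nat_lit 546) (nat_lit 1216) (nat_lit 0) (XT.nd (nat_lit 234) (nat_lit 988) (nat_lit 0) (XT.nd (nat_lit 78) (nat_lit 304) (nat_lit 0) (XT.lf (nat_lit 0) (nat_lit 6396069867) (nat_lit 456) (nat_lit 8768344452) (nat_lit 76) (nat_lit 12488106844) (nat_lit 134) (nat_lit 5) (nat_lit 140) (nat_lit 5) (nat_lit 135) (nat_lit 5) (nat_lit 658) (nat_lit 561) (nat_lit 341)) (XT.nd (nat_lit 78) (nat_lit 0) (nat_lit 0) (XT.lf (nat_lit 0) (nat_lit 8298703106) (nat_lit 304) (nat_lit 5028035460) (nat_lit 380) (nat_lit 14671783245) (nat_lit 130) (nat_lit 5) (nat_lit 134) (nat_lit 5) (nat_lit 135) (nat_lit 5) (nat_lit 659) (nat_lit 561) (nat_lit 340)) (XT.lf (nat_lit 0) (nat_lit 20484580341) (nat_lit 380) (nat_lit 2567615931) (nat_lit 76) (nat_lit 5297475148) (nat_lit 130) (nat_lit 5) (nat_lit 135) (nat_lit 5) (nat_lit 131) (nat_lit 5) (nat_lit 660) (nat_lit 561) (nat_lit 339))))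 (XT.nd (nat_lit 156) (nat_lit 304) (nat_lit 0) (XT.nd (nat_lit 78) (nat_lit 380) (nat_lit 0) (XT.lf (nat_lit 0) (nat_lit 15063228395) (nat_lit 304) (nat_lit 12848397146) (nat_lit 380) (nat_lit 793697687) (nat_lit 126) (nat_lit 5) (nat_lit 130) (nat_lit 5) (nat_lit 131) (nat_lit 5) (nat_lit 661) (nat_lit 561) (nat_lit 338)) (XT.lf (nat_lit 0) (nat_lit 4016360863) (nat_lit 304) (nat_lit 2356956148) (nat_lit 380) (nat_lit 22693170022) (nat_lit 121) (nat_lit 5) (nat_lit 125) (nat_lit 5) (nat_lit 126) (nat_lit 5) (nat_lit 662) (nat_lit 561) (nat_lit 337))) (XT.nd (nat_lit 78) (nat_lit 304) (nat_lit 0) (XT.lf (nat_lit 0) (nat_lit 13814367913) (nat_lit 380) (nat_lit 7288473303) (nat_lit 76) (nat_lit 8329101632) (nat_lit 121) (nat_lit 5) (nat_lit 126) (nat_lit 5) (nat_lit 122) (nat_lit 5) (nat_lit 663) (nat_lit 561) (nat_lit 336)) (XT.lf (nat_lit 0) (nat_lit 10948256103) (nat_lit 304) (nat_lit 10537759256) (nat_lit 380) (nat_lit 8317057038) (nat_lit 117) (nat_lit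 5) (nat_lit 121) (nat_lit 5) (nat_lit 122) (nat_lit 5) (nat_lit 664) (nat_lit 561) (nat_lit 335))))) (XT.nd (nat_lit 312) (nat_lit 608) (nat_lit 0) (XT.nd (nat_lit 156) (nat_lit 304) (nat_lit 0) (XT.nd (nat_lit 78) (nat_lit 304) (nat_lit 0) (XT.lf (nat_lit 0) (nat_lit 29356984756) (nat_lit 380) (nat_lit 542161392) (nat_lit 76) (nat_lit 281560735) (nat_lit 117) (nat_lit 5) (nat_lit 122) (nat_lit 5) (nat_lit 118) (nat_lit 5) (nat_lit 665) (nat_lit 561) (nat_lit 334)) (XT.lf (nat_lit 0) (nat_lit 6915055554) (nat_lit 304) (nat_lit 12308756928) (nat_lit 76) (nat_lit 11337495871) (nat_lit 113) (nat_lit 5) (nat_lit 117) (nat_lit 5) (nat_lit 114) (nat_lit 5) (nat_lit 666) (nat_lit 561) (nat_lit 333))) (XT.nd (nat_lit 78) (nat_lit 0) (nat_lit 0) (XT.lf (nat_lit 0) (nat_lit 6553519704) (nat_lit 304) (nat_lit 8285494957) (nat_lit 380) (nat_lit 16109569703) (nat_lit 109) (nat_lit 5) (nat_lit 113) (nat_lit 5) (nat_lit 114) (nat_lit 5) (nat_lit 667) (nat_lit 561) (nat_lit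 332)) (XT.lf (nat_lit 0) (nat_lit 23018476913) (nat_lit 380) (nat_lit 5409286571) (nat_lit 76) (nat_lit 2913902049) (nat_lit 109) (nat_lit 5) (nat_lit 114) (nat_lit 5) (nat_lit 110) (nat_lit 5) (nat_lit 668) (nat_lit 561) (nat_lit 331)))) (XT.nd (nat_lit 72852) (nat_lit 0) (nat_lit 33516) (XT.nd (nat_lit 78) (nat_lit 380) (nat_lit 0) (XT.lf (nat_lit 0) (nat_lit 14078098853) (nat_lit 228) (nat_lit 17425032637) (nat_lit 304) (nat_lit 236644886) (nat_lit 106) (nat_lit 5) (nat_lit 109) (nat_lit 5) (nat_lit 110) (nat_lit 5) (nat_lit 669) (nat_lit 561) (nat_lit 330)) (XT.lf (nat_lit 0) (nat_lit 1847521750) (nat_lit 304) (nat_lit 6102906833) (nat_lit 380) (nat_lit 24193503170) (nat_lit 101) (nat_lit 5) (nat_lit 105) (nat_lit 5) (nat_lit 106) (nat_lit 5) (nat_lit 670) (nat_lit 561) (nat_lit 329))) (XT.nd (nat_lit 78) (nat_lit 0) (nat_lit 0) (XT.lf (nat_lit 0) (nat_lit 1346461837) (nat_lit 0) (nat_lit 1346461837) (nat_lit 1596) (nat_lit 2224028596) (nat_lit 542) (nat_lit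 5) (nat_lit 542) (nat_lit 3) (nat_lit 563) (nat_lit 3) (nat_lit 562) (nat_lit 562) (nat_lit 436)) (XT.lf (nat_lit 0) (nat_lit 6185402233) (nat_lit 1596) (nat_lit 2266388368) (nat_lit 1672) (nat_lit 1465490409) (nat_lit 542) (nat_lit 5) (nat_lit 563) (nat_lit 3) (nat_lit 564) (nat_lit 5) (nat_lit 563) (nat_lit 562) (nat_lit 435))))))) (XT.nd (nat_lit 1170) (nat_lit 6764) (nat_lit 0) (XT.nd (nat_lit 546) (nat_lit 0) (nat_lit 76) (XT.nd (nat_lit 234) (nat_lit 1520) (nat_lit 0) (XT.nd (nat_lit 78) (nat_lit 0) (nat_lit 0) (XT.lf (nat_lit 76) (nat_lit 2713344463) (nat_lit 0) (nat_lit 4303810204) (nat_lit 1672) (nat_lit 2984847488) (nat_lit 543) (nat_lit 5) (nat_lit 542) (nat_lit 5) (nat_lit 564) (nat_lit 5) (nat_lit 564) (nat_lit 562) (nat_lit 434)) (XT.nd (nat_lit 78) (nat_lit 0) (nat_lit 76) (XT.lf (nat_lit 76) (nat_lit 7813356327) (nat_lit 0) (nat_lit 48462343) (nat_lit 1672) (nat_lit 2226674774) (nat_lit 543) (nat_lit 5) (nat_lit 542) (nat_lit 5) (nat_lit 564)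 (nat_lit 5) (nat_lit 565) (nat_lit 562) (nat_lit 433)) (XT.lf (nat_lit 76) (nat_lit 2837735442) (nat_lit 0) (nat_lit 5913427132) (nat_lit 1672) (nat_lit 1424997478) (nat_lit 544) (nat_lit 5) (nat_lit 543) (nat_lit 5) (nat_lit 565) (nat_lit 5) (nat_lit 566) (nat_lit 562) (nat_lit 432)))) (XT.nd (nat_lit 156) (nat_lit 0) (nat_lit 0) (XT.nd (nat_lit 78) (nat_lit 1596) (nat_lit 0) (XT.lf (nat_lit 76) (nat_lit 8073178516) (nat_lit 0) (nat_lit 1582493331) (nat_lit 1672) (nat_lit 609961779) (nat_lit 544) (nat_lit 5) (nat_lit 543) (nat_lit 5) (nat_lit 565) (nat_lit 5) (nat_lit 567) (nat_lit 562) (nat_lit 431)) (XT.lf (nat_lit 0) (nat_lit 239131910) (nat_lit 1672) (nat_lit 7290209384) (nat_lit 1748) (nat_lit 2827114573) (nat_lit 522) (nat_lit 5) (nat_lit 544) (nat_lit 5) (nat_lit 545) (nat_lit 5) (nat_lit 568) (nat_lit 562) (nat_lit 430))) (XT.nd (nat_lit 78) (nat_lit 0) (nat_lit 76) (XT.lf (nat_lit 0) (nat_lit 1104702747) (nat_lit 1672) (nat_lit 2014153823) (nat_lit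 1748) (nat_lit 7330005227) (nat_lit 522) (nat_lit 5) (nat_lit 544) (nat_lit 5) (nat_lit 545) (nat_lit 5) (nat_lit 569) (nat_lit 562) (nat_lit 429)) (XT.lf (nat_lit 0) (nat_lit 2001531640) (nat_lit 1672) (nat_lit 7150505243) (nat_lit 1748) (nat_lit 1390801139) (nat_lit 523) (nat_lit 5) (nat_lit 545) (nat_lit 5) (nat_lit 546) (nat_lit 5) (nat_lit 570) (nat_lit 562) (nat_lit 428))))) (XT.nd (nat_lit 312) (nat_lit 0) (nat_lit 152) (XT.nd (nat_lit 156) (nat_lit 0) (nat_lit 76) (XT.nd (nat_lit 78) (nat_lit 0) (nat_lit 0) (XT.lf (nat_lit 0) (nat_lit 2933583808) (nat_lit 1672) (nat_lit 1735603464) (nat_lit 1748) (nat_lit 5969161856) (nat_lit 523) (nat_lit 5) (nat_lit 545) (nat_lit 5) (nat_lit 546) (nat_lit 5) (nat_lit 571) (nat_lit 562) (nat_lit 427)) (XT.lf (nat_lit 76) (nat_lit 3827314502) (nat_lit 0) (nat_lit 65171270) (nat_lit 1748) (nat_lit 6843121576) (nat_lit 524) (nat_lit 5) (nat_lit 523) (nat_lit 5) (nat_lit 546) (nat_lit 5) (nat_lit 572) (nat_lit 562) (nat_lit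 426))) (XT.nd (nat_lit 78) (nat_lit 0) (nat_lit 0) (XT.lf (nat_lit 0) (nat_lit 4896013535) (nat_lit 1672) (nat_lit 1350480879) (nat_lit 1748) (nat_lit 4587808411) (nat_lit 524) (nat_lit 5) (nat_lit 546) (nat_lit 5) (nat_lit 547) (nat_lit 5) (nat_lit 573) (nat_lit 562) (nat_lit 425)) (XT.lf (nat_lit 76) (nat_lit 4364735012) (nat_lit 0) (nat_lit 1567624426) (nat_lit 1748) (nat_lit 5002358847) (nat_lit 525) (nat_lit 5) (nat_lit 524) (nat_lit 5) (nat_lit 547) (nat_lit 5) (nat_lit 574) (nat_lit 562) (nat_lit 424)))) (XT.nd (nat_lit 156) (nat_lit 0) (nat_lit 76) (XT.nd (nat_lit 78) (nat_lit 0) (nat_lit 0) (XT.lf (nat_lit 0) (nat_lit 7003620100) (nat_lit 1672) (nat_lit 856113640) (nat_lit 1748) (nat_lit 3177125563) (nat_lit 525) (nat_lit 5) (nat_lit 547) (nat_lit 5) (nat_lit 548) (nat_lit 5) (nat_lit 575) (nat_lit 562) (nat_lit 423)) (XT.lf (nat_lit 76) (nat_lit 5016814538) (nat_lit 0) (nat_lit 3107011770) (nat_lit 1748) (nat_lit 3016667416) (nat_lit 526) (nat_lit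 5) (nat_lit 525) (nat_lit 5) (nat_lit 548) (nat_lit 5) (nat_lit 576) (nat_lit 562) (nat_lit 422))) (XT.nd (nat_lit 78) (nat_lit 0) (nat_lit 0) (XT.lf (nat_lit 0) (nat_lit 9268352221) (nat_lit 1672) (nat_lit 249518808) (nat_lit 1748) (nat_lit 1728292457) (nat_lit 526) (nat_lit 5) (nat_lit 548) (nat_lit 5) (nat_lit 549) (nat_lit 5) (nat_lit 577) (nat_lit 562) (nat_lit 421)) (XT.lf (nat_lit 76) (nat_lit 5786757854) (nat_lit 0) (nat_lit 4692286312) (nat_lit 1748) (nat_lit 874037917) (nat_lit 527) (nat_lit 5) (nat_lit 526) (nat_lit 5) (nat_lit 549) (nat_lit 5) (nat_lit 578) (nat_lit 562) (nat_lit 420)))))) (XT.nd (nat_lit 546) (nat_lit 5396) (nat_lit 0) (XT.nd (nat_lit 234) (nat_lit 0) (nat_lit 76) (XT.nd (nat_lit 78) (nat_lit 0) (nat_lit 0) (XT.lf (nat_lit 0) (nat_lit 240115696) (nat_lit 1748) (nat_lit 10985007097) (nat_lit 1824) (nat_lit 237152323) (nat_lit 504) (nat_lit 5) (nat_lit 527) (nat_lit 5) (nat_lit 528) (nat_lit 5) (nat_lit 579) (nat_lit 562) (nat_lit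 419)) (XT.nd (nat_lit 78) (nat_lit 0) (nat_lit 0) (XT.lf (nat_lit 0) (nat_lit 1419031623) (nat_lit 1748) (nat_lit 4903886863) (nat_lit 1824) (nat_lit 5249535219) (nat_lit 504) (nat_lit 5) (nat_lit 527) (nat_lit 5) (nat_lit 528) (nat_lit 5) (nat_lit 580) (nat_lit 562) (nat_lit 418)) (XT.lf (nat_lit 76) (nat_lit 1305133053) (nat_lit 0) (nat_lit 1310647572) (nat_lit 1824) (nat_lit 9069171021) (nat_lit 505) (nat_lit 5) (nat_lit 504) (nat_lit 5) (nat_lit 528) (nat_lit 5) (nat_lit 581) (nat_lit 562) (nat_lit 417)))) (XT.nd (nat_lit 156) (nat_lit 0) (nat_lit 76) (XT.nd (nat_lit 78) (nat_lit 0) (nat_lit 0) (XT.lf (nat_lit 0) (nat_lit 3880285360) (nat_lit 1748) (nat_lit 4130207303) (nat_lit 1824) (nat_lit 3788331326) (nat_lit 505) (nat_lit 5) (nat_lit 528) (nat_lit 5) (nat_lit 529) (nat_lit 5) (nat_lit 582) (nat_lit 562) (nat_lit 416)) (XT.lf (nat_lit 76) (nat_lit 2254430184) (nat_lit 0) (nat_lit 2925252247) (nat_lit 1824) (nat_lit 6735100146) (nat_lit 506) (nat_lit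 5) (nat_lit 505) (nat_lit 5) (nat_lit 529) (nat_lit 5) (nat_lit 583) (nat_lit 562) (nat_lit 415))) (XT.nd (nat_lit 78) (nat_lit 0) (nat_lit 0) (XT.lf (nat_lit 0) (nat_lit 6534153131) (nat_lit 1748) (nat_lit 3235698500) (nat_lit 1824) (nat_lit 2262627817) (nat_lit 506) (nat_lit 5) (nat_lit 529) (nat_lit 5) (nat_lit 530) (nat_lit 5) (nat_lit 584) (nat_lit 562) (nat_lit 414)) (XT.lf (nat_lit 76) (nat_lit 3330907481) (nat_lit 0) (nat_lit 4612571288) (nat_lit 1824) (nat_lit 4208496986) (nat_lit 507) (nat_lit 5) (nat_lit 506) (nat_lit 5) (nat_lit 530) (nat_lit 5) (nat_lit 585) (nat_lit 562) (nat_lit 413))))) (XT.nd (nat_lit 312) (nat_lit 1976) (nat_lit 0) (XT.nd (nat_lit 156) (nat_lit 1900) (nat_lit 0) (XT.nd (nat_lit 78) (nat_lit 1748) (nat_lit 0) (XT.lf (nat_lit 0) (nat_lit 9394024947) (nat_lit 1748) (nat_lit 2216130355) (nat_lit 76) (nat_lit 663446798) (nat_lit 507) (nat_lit 5) (nat_lit 530) (nat_lit 5) (nat_lit 508) (nat_lit 5) (nat_lit 586) (nat_lit 562) (nat_lit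 412)) (XT.lf (nat_lit 0) (nat_lit 4539047903) (nat_lit 1748) (nat_lit 6381777650) (nat_lit 1824) (nat_lit 1475891329) (nat_lit 484) (nat_lit 5) (nat_lit 507) (nat_lit 5) (nat_lit 508) (nat_lit 5) (nat_lit 587) (nat_lit 562) (nat_lit 411))) (XT.nd (nat_lit 78) (nat_lit 1900) (nat_lit 0) (XT.lf (nat_lit 0) (nat_lit 11448599267) (nat_lit 1748) (nat_lit 1031841006) (nat_lit 1824) (nat_lit 41808886) (nat_lit 484) (nat_lit 5) (nat_lit 507) (nat_lit 5) (nat_lit 508) (nat_lit 5) (nat_lit 588) (nat_lit 562) (nat_lit 410)) (XT.lf (nat_lit 0) (nat_lit 1457276489) (nat_lit 1900) (nat_lit 6775122760) (nat_lit 76) (nat_lit 4416609902) (nat_lit 459) (nat_lit 5) (nat_lit 484) (nat_lit 5) (nat_lit 460) (nat_lit 5) (nat_lit 589) (nat_lit 562) (nat_lit 409)))) (XT.nd (nat_lit 156) (nat_lit 912) (nat_lit 0) (XT.nd (nat_lit 78) (nat_lit 0) (nat_lit 0) (XT.lf (nat_lit 0) (nat_lit 181072545) (nat_lit 1064) (nat_lit 2807729262) (nat_lit 1140) (nat_lit 9789437365) (nat_lit 445) (nat_lit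 5) (nat_lit 459) (nat_lit 5) (nat_lit 460) (nat_lit 5) (nat_lit 590) (nat_lit 562) (nat_lit 408)) (XT.lf (nat_lit 0) (nat_lit 4602352448) (nat_lit 1140) (nat_lit 5570000050) (nat_lit 76) (nat_lit 2736674106) (nat_lit 445) (nat_lit 5) (nat_lit 460) (nat_lit 5) (nat_lit 446) (nat_lit 5) (nat_lit 591) (nat_lit 562) (nat_lit 407))) (XT.nd (nat_lit 78) (nat_lit 0) (nat_lit 0) (XT.lf (nat_lit 0) (nat_lit 1589084737) (nat_lit 912) (nat_lit 4676171339) (nat_lit 988) (nat_lit 6776832758) (nat_lit 433) (nat_lit 5) (nat_lit 445) (nat_lit 5) (nat_lit 446) (nat_lit 5) (nat_lit 592) (nat_lit 562) (nat_lit 406)) (XT.lf (nat_lit 0) (nat_lit 7993418501) (nat_lit 988) (nat_lit 4227536156) (nat_lit 76) (nat_lit 956218316) (nat_lit 433) (nat_lit 5) (nat_lit 446) (nat_lit 5) (nat_lit 434) (nat_lit 5) (nat_lit 593) (nat_lit 562) (nat_lit 405))))))))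
noncomputable def xc158 : XT := (XT.nd (nat_lit 2262) (nat_lit 8512) (nat_lit 0) (XT.nd (nat_lit 1092) (nat_lit 6080) (nat_lit 0) (XT.nd (nat_lit 546) (nat_lit 3116) (nat_lit 0) (XT.nd (nat_lit 234) (nat_lit 1672) (nat_lit 0) (XT.nd (nat_lit 78) (nat_lit 912) (nat_lit 0) (XT.lf (nat_lit 0) (nat_lit 3141855437) (nat_lit 912) (nat_lit 6654222250) (nat_lit 988) (nat_lit 3518083099) (nat_lit 421) (nat_lit 5) (nat_lit 433) (nat_lit 5) (nat_lit 434) (nat_lit 5) (nat_lit 594) (nat_lit 562) (nat_lit 404)) (XT.nd (nat_lit 78) (nat_lit 912) (nat_lit 0) (XT.lf (nat_lit 0) (nat_lit 10705187752) (nat_lit 912) (nat_lit 946692156) (nat_lit 988) (nat_lit 1801667303) (nat_lit 421) (nat_lit 5) (nat_lit 433) (nat_lit 5) (nat_lit 434) (nat_lit 5) (nat_lit 595) (nat_lit 562) (nat_lit 403)) (XT.lf (nat_lit 0) (nat_lit 2144012) (nat_lit 912) (nat_lit 8749502537) (nat_lit 76) (nat_lit 4843034066) (nat_lit 409) (nat_lit 5) (nat_lit 421) (nat_lit 5) (nat_lit 410) (nat_lit 5) (nat_lit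 596) (nat_lit 562) (nat_lit 402)))) (XT.nd (nat_lit 156) (nat_lit 836) (nat_lit 0) (XT.nd (nat_lit 78) (nat_lit 836) (nat_lit 0) (XT.lf (nat_lit 0) (nat_lit 1831784173) (nat_lit 912) (nat_lit 1139592412) (nat_lit 76) (nat_lit 10766744997) (nat_lit 409) (nat_lit 5) (nat_lit 421) (nat_lit 5) (nat_lit 410) (nat_lit 5) (nat_lit 597) (nat_lit 562) (nat_lit 401)) (XT.lf (nat_lit 0) (nat_lit 3750028250) (nat_lit 912) (nat_lit 7203299513) (nat_lit 76) (nat_lit 2930063983) (nat_lit 398) (nat_lit 5) (nat_lit 410) (nat_lit 5) (nat_lit 399) (nat_lit 5) (nat_lit 598) (nat_lit 562) (nat_lit 400))) (XT.nd (nat_lit 78) (nat_lit 0) (nat_lit 0) (XT.lf (nat_lit 0) (nat_lit 617804254) (nat_lit 836) (nat_lit 5109598096) (nat_lit 912) (nat_lit 8303750251) (nat_lit 387) (nat_lit 5) (nat_lit 398) (nat_lit 5) (nat_lit 399) (nat_lit 5) (nat_lit 599) (nat_lit 562) (nat_lit 399)) (XT.lf (nat_lit 0) (nat_lit 7788022686) (nat_lit 912) (nat_lit 5504685955) (nat_lit 76) (nat_lit 888286635)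 (nat_lit 387) (nat_lit 5) (nat_lit 399) (nat_lit 5) (nat_lit 388) (nat_lit 5) (nat_lit 600) (nat_lit 562) (nat_lit 398))))) (XT.nd (nat_lit 234) (nat_lit 1520) (nat_lit 0) (XT.nd (nat_lit 78) (nat_lit 760) (nat_lit 0) (XT.lf (nat_lit 0) (nat_lit 2551071656) (nat_lit 836) (nat_lit 7378906407) (nat_lit 912) (nat_lit 4403054854) (nat_lit 376) (nat_lit 5) (nat_lit 387) (nat_lit 5) (nat_lit 388) (nat_lit 5) (nat_lit 601) (nat_lit 562) (nat_lit 397)) (XT.nd (nat_lit 78) (nat_lit 760) (nat_lit 0) (XT.lf (nat_lit 0) (nat_lit 10831934870) (nat_lit 836) (nat_lit 1309630558) (nat_lit 912) (nat_lit 2346010582) (nat_lit 376) (nat_lit 5) (nat_lit 387) (nat_lit 5) (nat_lit 388) (nat_lit 5) (nat_lit 602) (nat_lit 562) (nat_lit 396)) (XT.lf (nat_lit 0) (nat_lit 4651910049) (nat_lit 760) (nat_lit 9797418097) (nat_lit 836) (nat_lit 194843491) (nat_lit 366) (nat_lit 5) (nat_lit 376) (nat_lit 5) (nat_lit 377) (nat_lit 5) (nat_lit 603) (nat_lit 562) (nat_lit 395)))) (XT.nd (nat_lit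 156) (nat_lit 684) (nat_lit 0) (XT.nd (nat_lit 78) (nat_lit 760) (nat_lit 0) (XT.lf (nat_lit 0) (nat_lit 1996602419) (nat_lit 836) (nat_lit 1660736899) (nat_lit 76) (nat_lit 11145831215) (nat_lit 365) (nat_lit 5) (nat_lit 376) (nat_lit 5) (nat_lit 366) (nat_lit 5) (nat_lit 604) (nat_lit 562) (nat_lit 394)) (XT.lf (nat_lit 0) (nat_lit 4281698610) (nat_lit 836) (nat_lit 8065468211) (nat_lit 76) (nat_lit 2617108734) (nat_lit 355) (nat_lit 5) (nat_lit 366) (nat_lit 5) (nat_lit 356) (nat_lit 5) (nat_lit 605) (nat_lit 562) (nat_lit 393))) (XT.nd (nat_lit 78) (nat_lit 0) (nat_lit 0) (XT.lf (nat_lit 0) (nat_lit 495290063) (nat_lit 684) (nat_lit 6146283056) (nat_lit 760) (nat_lit 8486448534) (nat_lit 346) (nat_lit 5) (nat_lit 355) (nat_lit 5) (nat_lit 356) (nat_lit 5) (nat_lit 606) (nat_lit 562) (nat_lit 392)) (XT.lf (nat_lit 0) (nat_lit 9094821100) (nat_lit 760) (nat_lit 5969584033) (nat_lit 76) (nat_lit 229714513) (nat_lit 346) (nat_lit 5) (nat_lit 356) (nat_lit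 5) (nat_lit 347) (nat_lit 5) (nat_lit 607) (nat_lit 562) (nat_lit 391)))))) (XT.nd (nat_lit 546) (nat_lit 3268) (nat_lit 0) (XT.nd (nat_lit 234) (nat_lit 1292) (nat_lit 0) (XT.nd (nat_lit 78) (nat_lit 760) (nat_lit 0) (XT.lf (nat_lit 0) (nat_lit 2853051946) (nat_lit 760) (nat_lit 8794029762) (nat_lit 836) (nat_lit 3815459421) (nat_lit 336) (nat_lit 5) (nat_lit 346) (nat_lit 5) (nat_lit 347) (nat_lit 5) (nat_lit 608) (nat_lit 562) (nat_lit 390)) (XT.nd (nat_lit 78) (nat_lit 760) (nat_lit 0) (XT.lf (nat_lit 0) (nat_lit 11922639979) (nat_lit 760) (nat_lit 2358640814) (nat_lit 836) (nat_lit 1352432859) (nat_lit 336) (nat_lit 5) (nat_lit 346) (nat_lit 5) (nat_lit 347) (nat_lit 5) (nat_lit 609) (nat_lit 562) (nat_lit 389)) (XT.lf (nat_lit 0) (nat_lit 1198356137) (nat_lit 760) (nat_lit 10416707865) (nat_lit 76) (nat_lit 4192021196) (nat_lit 326) (nat_lit 5) (nat_lit 336) (nat_lit 5) (nat_lit 327) (nat_lit 5) (nat_lit 610) (nat_lit 562) (nat_lit 388)))) (XT.nd (nat_lit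 156) (nat_lit 608) (nat_lit 0) (XT.nd (nat_lit 78) (nat_lit 684) (nat_lit 0) (XT.lf (nat_lit 0) (nat_lit 3813813097) (nat_lit 760) (nat_lit 1294444544) (nat_lit 76) (nat_lit 10874852962) (nat_lit 326) (nat_lit 5) (nat_lit 336) (nat_lit 5) (nat_lit 327) (nat_lit 5) (nat_lit 611) (nat_lit 562) (nat_lit 387)) (XT.lf (nat_lit 0) (nat_lit 6535706635) (nat_lit 760) (nat_lit 8065697863) (nat_lit 76) (nat_lit 1560169909) (nat_lit 317) (nat_lit 5) (nat_lit 327) (nat_lit 5) (nat_lit 318) (nat_lit 5) (nat_lit 612) (nat_lit 562) (nat_lit 386))) (XT.nd (nat_lit 78) (nat_lit 0) (nat_lit 0) (XT.lf (nat_lit 0) (nat_lit 1321227206) (nat_lit 608) (nat_lit 8033290116) (nat_lit 684) (nat_lit 6988241008) (nat_lit 309) (nat_lit 5) (nat_lit 317) (nat_lit 5) (nat_lit 318) (nat_lit 5) (nat_lit 613) (nat_lit 562) (nat_lit 385)) (XT.lf (nat_lit 0) (nat_lit 10994960688) (nat_lit 608) (nat_lit 1280299574) (nat_lit 684) (nat_lit 4251394970) (nat_lit 309) (nat_lit 5) (nat_lit 317) (nat_lit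 5) (nat_lit 318) (nat_lit 5) (nat_lit 614) (nat_lit 562) (nat_lit 384))))) (XT.nd (nat_lit 312) (nat_lit 1292) (nat_lit 0) (XT.nd (nat_lit 156) (nat_lit 1216) (nat_lit 0) (XT.nd (nat_lit 78) (nat_lit 76) (nat_lit 0) (XT.lf (nat_lit 0) (nat_lit 4155814616) (nat_lit 684) (nat_lit 11153583188) (nat_lit 760) (nat_lit 1403733087) (nat_lit 300) (nat_lit 5) (nat_lit 309) (nat_lit 5) (nat_lit 310) (nat_lit 5) (nat_lit 615) (nat_lit 562) (nat_lit 383)) (XT.lf (nat_lit 0) (nat_lit 1518674688) (nat_lit 760) (nat_lit 2819269016) (nat_lit 76) (nat_lit 12564448320) (nat_lit 299) (nat_lit 5) (nat_lit 309) (nat_lit 5) (nat_lit 300) (nat_lit 5) (nat_lit 616) (nat_lit 562) (nat_lit 382))) (XT.nd (nat_lit 78) (nat_lit 608) (nat_lit 0) (XT.lf (nat_lit 0) (nat_lit 4536550766) (nat_lit 684) (nat_lit 9923355376) (nat_lit 76) (nat_lit 2634230732) (nat_lit 291) (nat_lit 5) (nat_lit 300) (nat_lit 5) (nat_lit 292) (nat_lit 5) (nat_lit 617) (nat_lit 562) (nat_lit 381)) (XT.lf (nat_lit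 0) (nat_lit 71447986) (nat_lit 608) (nat_lit 7583452002) (nat_lit 684) (nat_lit 9634014700) (nat_lit 283) (nat_lit 5) (nat_lit 291) (nat_lit 5) (nat_lit 292) (nat_lit 5) (nat_lit 618) (nat_lit 562) (nat_lit 380)))) (XT.nd (nat_lit 156) (nat_lit 684) (nat_lit 0) (XT.nd (nat_lit 78) (nat_lit 608) (nat_lit 0) (XT.lf (nat_lit 0) (nat_lit 10390581476) (nat_lit 608) (nat_lit 503599000) (nat_lit 684) (nat_lit 6592236671) (nat_lit 283) (nat_lit 5) (nat_lit 291) (nat_lit 5) (nat_lit 292) (nat_lit 5) (nat_lit 619) (nat_lit 562) (nat_lit 379)) (XT.lf (nat_lit 0) (nat_lit 3216773116) (nat_lit 608) (nat_lit 11038093288) (nat_lit 684) (nat_lit 3431871221) (nat_lit 275) (nat_lit 5) (nat_lit 283) (nat_lit 5) (nat_lit 284) (nat_lit 5) (nat_lit 620) (nat_lit 562) (nat_lit 378))) (XT.nd (nat_lit 78) (nat_lit 684) (nat_lit 0) (XT.lf (nat_lit 0) (nat_lit 13818479875) (nat_lit 608) (nat_lit 3907423666) (nat_lit 684) (nat_lit 164298582) (nat_lit 275) (nat_lit 5) (nat_lit 283) (nat_lit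 5) (nat_lit 284) (nat_lit 5) (nat_lit 621) (nat_lit 562) (nat_lit 377)) (XT.lf (nat_lit 0) (nat_lit 3184426449) (nat_lit 684) (nat_lit 11528402283) (nat_lit 76) (nat_lit 3383348906) (nat_lit 266) (nat_lit 5) (nat_lit 275) (nat_lit 5) (nat_lit 267) (nat_lit 5) (nat_lit 622) (nat_lit 562) (nat_lit 376))))))) (XT.nd (nat_lit 1170) (nat_lit 3800) (nat_lit 0) (XT.nd (nat_lit 546) (nat_lit 2508) (nat_lit 0) (XT.nd (nat_lit 234) (nat_lit 1140) (nat_lit 0) (XT.nd (nat_lit 78) (nat_lit 1064) (nat_lit 0) (XT.lf (nat_lit 0) (nat_lit 6643691672) (nat_lit 684) (nat_lit 867557174) (nat_lit 76) (nat_lit 10794087124) (nat_lit 266) (nat_lit 5) (nat_lit 275) (nat_lit 5) (nat_lit 267) (nat_lit 5) (nat_lit 623) (nat_lit 562) (nat_lit 375)) (XT.nd (nat_lit 78) (nat_lit 532) (nat_lit 0) (XT.lf (nat_lit 0) (nat_lit 10129610264) (nat_lit 532) (nat_lit 100831715) (nat_lit 608) (nat_lit 8287069825) (nat_lit 259) (nat_lit 5) (nat_lit 266) (nat_lit 5) (nat_lit 267) (nat_lit 5) (nat_lit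 624) (nat_lit 562) (nat_lit 374)) (XT.lf (nat_lit 0) (nat_lit 2600497570) (nat_lit 532) (nat_lit 11352195433) (nat_lit 608) (nat_lit 4779963163) (nat_lit 252) (nat_lit 5) (nat_lit 259) (nat_lit 5) (nat_lit 260) (nat_lit 5) (nat_lit 625) (nat_lit 562) (nat_lit 373)))) (XT.nd (nat_lit 156) (nat_lit 532) (nat_lit 0) (XT.nd (nat_lit 78) (nat_lit 608) (nat_lit 0) (XT.lf (nat_lit 0) (nat_lit 13911937598) (nat_lit 532) (nat_lit 3887084126) (nat_lit 608) (nat_lit 1152089357) (nat_lit 252) (nat_lit 5) (nat_lit 259) (nat_lit 5) (nat_lit 260) (nat_lit 5) (nat_lit 626) (nat_lit 562) (nat_lit 372)) (XT.lf (nat_lit 0) (nat_lit 2573378993) (nat_lit 608) (nat_lit 12864970761) (nat_lit 76) (nat_lit 3734085556) (nat_lit 244) (nat_lit 5) (nat_lit 252) (nat_lit 5) (nat_lit 245) (nat_lit 5) (nat_lit 627) (nat_lit 562) (nat_lit 371))) (XT.nd (nat_lit 78) (nat_lit 532) (nat_lit 0) (XT.lf (nat_lit 0) (nat_lit 6410567558) (nat_lit 608) (nat_lit 1491482476) (nat_lit 76) (nat_lit 11494931238)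 (nat_lit 244) (nat_lit 5) (nat_lit 252) (nat_lit 5) (nat_lit 245) (nat_lit 5) (nat_lit 628) (nat_lit 562) (nat_lit 370)) (XT.lf (nat_lit 0) (nat_lit 10234169653) (nat_lit 532) (nat_lit 149758803) (nat_lit 608) (nat_lit 9240901420) (nat_lit 237) (nat_lit 5) (nat_lit 244) (nat_lit 5) (nat_lit 245) (nat_lit 5) (nat_lit 629) (nat_lit 562) (nat_lit 369))))) (XT.nd (nat_lit 312) (nat_lit 1444) (nat_lit 0) (XT.nd (nat_lit 156) (nat_lit 608) (nat_lit 0) (XT.nd (nat_lit 78) (nat_lit 0) (nat_lit 0) (XT.lf (nat_lit 0) (nat_lit 2328026891) (nat_lit 456) (nat_lit 12177328347) (nat_lit 532) (nat_lit 5350508530) (nat_lit 231) (nat_lit 5) (nat_lit 237) (nat_lit 5) (nat_lit 238) (nat_lit 5) (nat_lit 630) (nat_lit 562) (nat_lit 368)) (XT.lf (nat_lit 0) (nat_lit 14397849790) (nat_lit 456) (nat_lit 4368478204) (nat_lit 532) (nat_lit 1324048278) (nat_lit 231) (nat_lit 5) (nat_lit 237) (nat_lit 5) (nat_lit 238) (nat_lit 5) (nat_lit 631) (nat_lit 562) (nat_lit 367))) (XT.nd (nat_lit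 78) (nat_lit 0) (nat_lit 0) (XT.lf (nat_lit 0) (nat_lit 2805168225) (nat_lit 608) (nat_lit 13915842104) (nat_lit 76) (nat_lit 3607033080) (nat_lit 223) (nat_lit 5) (nat_lit 231) (nat_lit 5) (nat_lit 224) (nat_lit 5) (nat_lit 632) (nat_lit 562) (nat_lit 366)) (XT.lf (nat_lit 0) (nat_lit 7059900911) (nat_lit 608) (nat_lit 1780949511) (nat_lit 76) (nat_lit 11728225475) (nat_lit 223) (nat_lit 5) (nat_lit 231) (nat_lit 5) (nat_lit 224) (nat_lit 5) (nat_lit 633) (nat_lit 562) (nat_lit 365)))) (XT.nd (nat_lit 156) (nat_lit 532) (nat_lit 0) (XT.nd (nat_lit 78) (nat_lit 456) (nat_lit 0) (XT.lf (nat_lit 0) (nat_lit 10728041980) (nat_lit 456) (nat_lit 734733108) (nat_lit 532) (nat_lit 9350893274) (nat_lit 217) (nat_lit 5) (nat_lit 223) (nat_lit 5) (nat_lit 224) (nat_lit 5) (nat_lit 634) (nat_lit 562) (nat_lit 364)) (XT.lf (nat_lit 0) (nat_lit 2421860923) (nat_lit 456) (nat_lit 13601958233) (nat_lit 532) (nat_lit 5037931528) (nat_lit 211) (nat_lit 5) (nat_lit 217) (nat_lit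 5) (nat_lit 218) (nat_lit 5) (nat_lit 635) (nat_lit 562) (nat_lit 363))) (XT.nd (nat_lit 78) (nat_lit 532) (nat_lit 0) (XT.lf (nat_lit 0) (nat_lit 15301990935) (nat_lit 456) (nat_lit 5440120312) (nat_lit 532) (nat_lit 571363114) (nat_lit 211) (nat_lit 5) (nat_lit 217) (nat_lit 5) (nat_lit 218) (nat_lit 5) (nat_lit 636) (nat_lit 562) (nat_lit 362)) (XT.lf (nat_lit 0) (nat_lit 3990022440) (nat_lit 532) (nat_lit 14662872477) (nat_lit 76) (nat_lit 2915665559) (nat_lit 204) (nat_lit 5) (nat_lit 211) (nat_lit 5) (nat_lit 205) (nat_lit 5) (nat_lit 637) (nat_lit 562) (nat_lit 361)))))) (XT.nd (nat_lit 546) (nat_lit 2052) (nat_lit 0) (XT.nd (nat_lit 234) (nat_lit 912) (nat_lit 0) (XT.nd (nat_lit 78) (nat_lit 836) (nat_lit 0) (XT.lf (nat_lit 0) (nat_lit 8705273369) (nat_lit 532) (nat_lit 1714571095) (nat_lit 76) (nat_lit 11407422786) (nat_lit 204) (nat_lit 5) (nat_lit 211) (nat_lit 5) (nat_lit 205) (nat_lit 5) (nat_lit 638) (nat_lit 562) (nat_lit 360)) (XT.nd (nat_lit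 78) (nat_lit 380) (nat_lit 0) (XT.lf (nat_lit 0) (nat_lit 11636247616) (nat_lit 456) (nat_lit 1947902922) (nat_lit 532) (nat_lit 8505611429) (nat_lit 198) (nat_lit 5) (nat_lit 204) (nat_lit 5) (nat_lit 205) (nat_lit 5) (nat_lit 639) (nat_lit 562) (nat_lit 359)) (XT.lf (nat_lit 0) (nat_lit 2905513644) (nat_lit 380) (nat_lit 15722812773) (nat_lit 456) (nat_lit 3727825968) (nat_lit 193) (nat_lit 5) (nat_lit 198) (nat_lit 5) (nat_lit 199) (nat_lit 5) (nat_lit 640) (nat_lit 562) (nat_lit 358)))) (XT.nd (nat_lit 156) (nat_lit 380) (nat_lit 0) (XT.nd (nat_lit 78) (nat_lit 456) (nat_lit 0) (XT.lf (nat_lit 0) (nat_lit 1207842763) (nat_lit 456) (nat_lit 5982975223) (nat_lit 76) (nat_lit 15435357070) (nat_lit 192) (nat_lit 5) (nat_lit 198) (nat_lit 5) (nat_lit 193) (nat_lit 5) (nat_lit 641) (nat_lit 562) (nat_lit 357)) (XT.lf (nat_lit 0) (nat_lit 6247403640) (nat_lit 532) (nat_lit 15087501152) (nat_lit 76) (nat_lit 1565098897) (nat_lit 186) (nat_lit 5) (nat_lit 193)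 (nat_lit 5) (nat_lit 187) (nat_lit 5) (nat_lit 642) (nat_lit 562) (nat_lit 356))) (XT.nd (nat_lit 78) (nat_lit 380) (nat_lit 0) (XT.lf (nat_lit 0) (nat_lit 11469792548) (nat_lit 532) (nat_lit 1270393430) (nat_lit 76) (nat_lit 10437482393) (nat_lit 186) (nat_lit 5) (nat_lit 193) (nat_lit 5) (nat_lit 187) (nat_lit 5) (nat_lit 643) (nat_lit 562) (nat_lit 355)) (XT.lf (nat_lit 0) (nat_lit 12984536296) (nat_lit 380) (nat_lit 3890515495) (nat_lit 456) (nat_lit 6584266310) (nat_lit 181) (nat_lit 5) (nat_lit 186) (nat_lit 5) (nat_lit 187) (nat_lit 5) (nat_lit 644) (nat_lit 562) (nat_lit 354))))) (XT.nd (nat_lit 312) (nat_lit 1216) (nat_lit 0) (XT.nd (nat_lit 156) (nat_lit 380) (nat_lit 0) (XT.nd (nat_lit 78) (nat_lit 76) (nat_lit 0) (XT.lf (nat_lit 0) (nat_lit 3802973442) (nat_lit 380) (nat_lit 18646220711) (nat_lit 456) (nat_lit 1296191315) (nat_lit 176) (nat_lit 5) (nat_lit 181) (nat_lit 5) (nat_lit 182) (nat_lit 5) (nat_lit 645) (nat_lit 562) (nat_lit 353)) (XT.lf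 (nat_lit 0) (nat_lit 4134602333) (nat_lit 456) (nat_lit 5589204917) (nat_lit 76) (nat_lit 14311021065) (nat_lit 175) (nat_lit 5) (nat_lit 181) (nat_lit 5) (nat_lit 176) (nat_lit 5) (nat_lit 646) (nat_lit 562) (nat_lit 352))) (XT.nd (nat_lit 78) (nat_lit 0) (nat_lit 0) (XT.lf (nat_lit 0) (nat_lit 9153836856) (nat_lit 380) (nat_lit 556558882) (nat_lit 456) (nat_lit 14618418316) (nat_lit 170) (nat_lit 5) (nat_lit 175) (nat_lit 5) (nat_lit 176) (nat_lit 5) (nat_lit 647) (nat_lit 562) (nat_lit 351)) (XT.lf (nat_lit 0) (nat_lit 15486883918) (nat_lit 456) (nat_lit 426508120) (nat_lit 76) (nat_lit 8713504081) (nat_lit 170) (nat_lit 5) (nat_lit 176) (nat_lit 5) (nat_lit 171) (nat_lit 5) (nat_lit 648) (nat_lit 562) (nat_lit 350)))) (XT.nd (nat_lit 156) (nat_lit 380) (nat_lit 0) (XT.nd (nat_lit 78) (nat_lit 456) (nat_lit 0) (XT.lf (nat_lit 0) (nat_lit 14798768067) (nat_lit 380) (nat_lit 6674341567) (nat_lit 456) (nat_lit 3455946218) (nat_lit 165) (nat_lit 5) (nat_lit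 170) (nat_lit 5) (nat_lit 171) (nat_lit 5) (nat_lit 649) (nat_lit 562) (nat_lit 349)) (XT.lf (nat_lit 0) (nat_lit 2359974407) (nat_lit 456) (nat_lit 20113767662) (nat_lit 76) (nat_lit 2762235067) (nat_lit 159) (nat_lit 5) (nat_lit 165) (nat_lit 5) (nat_lit 160) (nat_lit 5) (nat_lit 650) (nat_lit 562) (nat_lit 348))) (XT.nd (nat_lit 78) (nat_lit 380) (nat_lit 0) (XT.lf (nat_lit 0) (nat_lit 8353101616) (nat_lit 456) (nat_lit 4806756341) (nat_lit 76) (nat_lit 12386578919) (nat_lit 159) (nat_lit 5) (nat_lit 165) (nat_lit 5) (nat_lit 160) (nat_lit 5) (nat_lit 651) (nat_lit 562) (nat_lit 347)) (XT.lf (nat_lit 0) (nat_lit 10941446907) (nat_lit 380) (nat_lit 3590280983) (nat_lit 456) (nat_lit 11330065360) (nat_lit 154) (nat_lit 5) (nat_lit 159) (nat_lit 5) (nat_lit 160) (nat_lit 5) (nat_lit 652) (nat_lit 562) (nat_lit 346))))))))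
noncomputable def xc159 : XT := (XT.nd (nat_lit 75036) (nat_lit 0) (nat_lit 20596) (XT.nd (nat_lit 1092) (nat_lit 684) (nat_lit 0) (XT.nd (nat_lit 546) (nat_lit 1520) (nat_lit 0) (XT.nd (nat_lit 234) (nat_lit 760) (nat_lit 0) (XT.nd (nat_lit 78) (nat_lit 456) (nat_lit 0) (XT.lf (nat_lit 0) (nat_lit 849341674) (nat_lit 304) (nat_lit 20057262278) (nat_lit 380) (nat_lit 5275399420) (nat_lit 150) (nat_lit 5) (nat_lit 154) (nat_lit 5) (nat_lit 155) (nat_lit 5) (nat_lit 653) (nat_lit 562) (nat_lit 345)) (XT.nd (nat_lit 78) (nat_lit 380) (nat_lit 0) (XT.lf (nat_lit 0) (nat_lit 1007758922) (nat_lit 380) (nat_lit 9408722817) (nat_lit 76) (nat_lit 16089635054) (nat_lit 149) (nat_lit 5) (nat_lit 154) (nat_lit 5) (nat_lit 150) (nat_lit 5) (nat_lit 654) (nat_lit 562) (nat_lit 344)) (XT.lf (nat_lit 0) (nat_lit 6880671465) (nat_lit 380) (nat_lit 504760619) (nat_lit 456) (nat_lit 19449793361) (nat_lit 144) (nat_lit 5) (nat_lit 149) (nat_lit 5) (nat_lit 150) (nat_lit 5) (nat_lit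 655) (nat_lit 562) (nat_lit 343)))) (XT.nd (nat_lit 156) (nat_lit 456) (nat_lit 0) (XT.nd (nat_lit 78) (nat_lit 304) (nat_lit 0) (XT.lf (nat_lit 0) (nat_lit 14011356247) (nat_lit 456) (nat_lit 3617401245) (nat_lit 76) (nat_lit 9539744980) (nat_lit 144) (nat_lit 5) (nat_lit 150) (nat_lit 5) (nat_lit 145) (nat_lit 5) (nat_lit 656) (nat_lit 562) (nat_lit 342)) (XT.lf (nat_lit 0) (nat_lit 13208185719) (nat_lit 304) (nat_lit 7645593272) (nat_lit 380) (nat_lit 6652986599) (nat_lit 140) (nat_lit 5) (nat_lit 144) (nat_lit 5) (nat_lit 145) (nat_lit 5) (nat_lit 657) (nat_lit 562) (nat_lit 341))) (XT.nd (nat_lit 78) (nat_lit 0) (nat_lit 0) (XT.lf (nat_lit 0) (nat_lit 34398634) (nat_lit 456) (nat_lit 25274017170) (nat_lit 76) (nat_lit 2542322811) (nat_lit 134) (nat_lit 5) (nat_lit 140) (nat_lit 5) (nat_lit 135) (nat_lit 5) (nat_lit 658) (nat_lit 562) (nat_lit 340)) (XT.lf (nat_lit 0) (nat_lit 6908672720) (nat_lit 456) (nat_lit 8319885356) (nat_lit 76) (nat_lit 12969309150)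 (nat_lit 134) (nat_lit 5) (nat_lit 140) (nat_lit 5) (nat_lit 135) (nat_lit 5) (nat_lit 659) (nat_lit 562) (nat_lit 339))))) (XT.nd (nat_lit 234) (nat_lit 912) (nat_lit 0) (XT.nd (nat_lit 78) (nat_lit 304) (nat_lit 0) (XT.lf (nat_lit 0) (nat_lit 9084399035) (nat_lit 304) (nat_lit 4890036630) (nat_lit 380) (nat_lit 14576422815) (nat_lit 130) (nat_lit 5) (nat_lit 134) (nat_lit 5) (nat_lit 135) (nat_lit 5) (nat_lit 660) (nat_lit 562) (nat_lit 338)) (XT.nd (nat_lit 78) (nat_lit 304) (nat_lit 0) (XT.lf (nat_lit 0) (nat_lit 21269479021) (nat_lit 380) (nat_lit 2005432223) (nat_lit 76) (nat_lit 5634239149) (nat_lit 130) (nat_lit 5) (nat_lit 135) (nat_lit 5) (nat_lit 131) (nat_lit 5) (nat_lit 661) (nat_lit 562) (nat_lit 337)) (XT.lf (nat_lit 0) (nat_lit 15973992568) (nat_lit 304) (nat_lit 12867672831) (nat_lit 380) (nat_lit 430318034) (nat_lit 126) (nat_lit 5) (nat_lit 130) (nat_lit 5) (nat_lit 131) (nat_lit 5) (nat_lit 662) (nat_lit 562) (nat_lit 336)))) (XT.nd (nat_lit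 156) (nat_lit 532) (nat_lit 0) (XT.nd (nat_lit 78) (nat_lit 0) (nat_lit 0) (XT.lf (nat_lit 0) (nat_lit 4707128924) (nat_lit 304) (nat_lit 2164558625) (nat_lit 380) (nat_lit 22768701421) (nat_lit 121) (nat_lit 5) (nat_lit 125) (nat_lit 5) (nat_lit 126) (nat_lit 5) (nat_lit 663) (nat_lit 562) (nat_lit 335)) (XT.lf (nat_lit 0) (nat_lit 14455811574) (nat_lit 380) (nat_lit 6830013929) (nat_lit 76) (nat_lit 8727443547) (nat_lit 121) (nat_lit 5) (nat_lit 126) (nat_lit 5) (nat_lit 122) (nat_lit 5) (nat_lit 664) (nat_lit 562) (nat_lit 334))) (XT.nd (nat_lit 78) (nat_lit 228) (nat_lit 0) (XT.lf (nat_lit 0) (nat_lit 11767474876) (nat_lit 304) (nat_lit 10510154410) (nat_lit 380) (nat_lit 8114257345) (nat_lit 117) (nat_lit 5) (nat_lit 121) (nat_lit 5) (nat_lit 122) (nat_lit 5) (nat_lit 665) (nat_lit 562) (nat_lit 333)) (XT.lf (nat_lit 0) (nat_lit 41612978) (nat_lit 228) (nat_lit 30259096565) (nat_lit 304) (nat_lit 476470617) (nat_lit 114) (nat_lit 5) (nat_lit 117) (nat_lit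 5) (nat_lit 118) (nat_lit 5) (nat_lit 666) (nat_lit 562) (nat_lit 332)))))) (XT.nd (nat_lit 73320) (nat_lit 0) (nat_lit 31616) (XT.nd (nat_lit 234) (nat_lit 304) (nat_lit 0) (XT.nd (nat_lit 78) (nat_lit 304) (nat_lit 0) (XT.lf (nat_lit 0) (nat_lit 7408864414) (nat_lit 304) (nat_lit 11960035282) (nat_lit 76) (nat_lit 11796515865) (nat_lit 113) (nat_lit 5) (nat_lit 117) (nat_lit 5) (nat_lit 114) (nat_lit 5) (nat_lit 667) (nat_lit 562) (nat_lit 331)) (XT.nd (nat_lit 78) (nat_lit 0) (nat_lit 0) (XT.lf (nat_lit 0) (nat_lit 7275573088) (nat_lit 304) (nat_lit 8212595929) (nat_lit 380) (nat_lit 16072330923) (nat_lit 109) (nat_lit 5) (nat_lit 113) (nat_lit 5) (nat_lit 114) (nat_lit 5) (nat_lit 668) (nat_lit 562) (nat_lit 330)) (XT.lf (nat_lit 0) (nat_lit 23825830049) (nat_lit 380) (nat_lit 4932678289) (nat_lit 76) (nat_lit 3203042372) (nat_lit 109) (nat_lit 5) (nat_lit 114) (nat_lit 5) (nat_lit 110) (nat_lit 5) (nat_lit 669) (nat_lit 562) (nat_lit 329)))) (XT.nd (nat_lit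 72930) (nat_lit 0) (nat_lit 33212) (XT.nd (nat_lit 72852) (nat_lit 0) (nat_lit 33212) (XT.lf (nat_lit 0) (nat_lit 108025831) (nat_lit 304) (nat_lit 17427787752) (nat_lit 76) (nat_lit 14831856773) (nat_lit 105) (nat_lit 5) (nat_lit 109) (nat_lit 5) (nat_lit 106) (nat_lit 5) (nat_lit 670) (nat_lit 562) (nat_lit 328)) (XT.lf (nat_lit 0) (nat_lit 1739029108) (nat_lit 0) (nat_lit 1739029108) (nat_lit 1596) (nat_lit 1522559245) (nat_lit 542) (nat_lit 5) (nat_lit 542) (nat_lit 3) (nat_lit 563) (nat_lit 3) (nat_lit 563) (nat_lit 563) (nat_lit 434))) (XT.nd (nat_lit 78) (nat_lit 0) (nat_lit 0) (XT.lf (nat_lit 0) (nat_lit 7738330091) (nat_lit 1596) (nat_lit 1561351717) (nat_lit 1672) (nat_lit 787265656) (nat_lit 542) (nat_lit 5) (nat_lit 563) (nat_lit 3) (nat_lit 564) (nat_lit 5) (nat_lit 564) (nat_lit 563) (nat_lit 433)) (XT.lf (nat_lit 76) (nat_lit 3513039163) (nat_lit 0) (nat_lit 5050494305) (nat_lit 1672) (nat_lit 1610295105) (nat_lit 543) (nat_lit 5) (nat_lit 542)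 (nat_lit 5) (nat_lit 564) (nat_lit 5) (nat_lit 565) (nat_lit 563) (nat_lit 432))))) (XT.nd (nat_lit 312) (nat_lit 0) (nat_lit 76) (XT.nd (nat_lit 156) (nat_lit 1596) (nat_lit 0) (XT.nd (nat_lit 78) (nat_lit 0) (nat_lit 76) (XT.lf (nat_lit 76) (nat_lit 8700435032) (nat_lit 0) (nat_lit 697086390) (nat_lit 1672) (nat_lit 865081473) (nat_lit 543) (nat_lit 5) (nat_lit 542) (nat_lit 5) (nat_lit 564) (nat_lit 5) (nat_lit 566) (nat_lit 563) (nat_lit 431)) (XT.lf (nat_lit 76) (nat_lit 3652149540) (nat_lit 0) (nat_lit 6626270586) (nat_lit 1672) (nat_lit 74129138) (nat_lit 544) (nat_lit 5) (nat_lit 543) (nat_lit 5) (nat_lit 565) (nat_lit 5) (nat_lit 567) (nat_lit 563) (nat_lit 430))) (XT.nd (nat_lit 78) (nat_lit 0) (nat_lit 76) (XT.lf (nat_lit 0) (nat_lit 720584647) (nat_lit 1672) (nat_lit 1471639628) (nat_lit 1748) (nat_lit 8252025259) (nat_lit 521) (nat_lit 5) (nat_lit 543) (nat_lit 5) (nat_lit 544) (nat_lit 5) (nat_lit 568) (nat_lit 563) (nat_lit 429)) (XT.lf (nat_lit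 0) (nat_lit 1553617123) (nat_lit 1672) (nat_lit 6650420983) (nat_lit 1748) (nat_lit 2333268674) (nat_lit 522) (nat_lit 5) (nat_lit 544) (nat_lit 5) (nat_lit 545) (nat_lit 5) (nat_lit 569) (nat_lit 563) (nat_lit 428)))) (XT.nd (nat_lit 156) (nat_lit 0) (nat_lit 76) (XT.nd (nat_lit 78) (nat_lit 0) (nat_lit 76) (XT.lf (nat_lit 0) (nat_lit 2410818934) (nat_lit 1672) (nat_lit 1284248086) (nat_lit 1748) (nat_lit 6937009066) (nat_lit 522) (nat_lit 5) (nat_lit 544) (nat_lit 5) (nat_lit 545) (nat_lit 5) (nat_lit 570) (nat_lit 563) (nat_lit 427)) (XT.lf (nat_lit 0) (nat_lit 3302137346) (nat_lit 1672) (nat_lit 6499798589) (nat_lit 1748) (nat_lit 926466460) (nat_lit 523) (nat_lit 5) (nat_lit 545) (nat_lit 5) (nat_lit 546) (nat_lit 5) (nat_lit 571) (nat_lit 563) (nat_lit 426))) (XT.nd (nat_lit 78) (nat_lit 0) (nat_lit 0) (XT.lf (nat_lit 0) (nat_lit 4228113399) (nat_lit 1672) (nat_lit 992161848) (nat_lit 1748) (nat_lit 5606044406) (nat_lit 523) (nat_lit 5) (nat_lit 545)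 (nat_lit 5) (nat_lit 546) (nat_lit 5) (nat_lit 572) (nat_lit 563) (nat_lit 425)) (XT.lf (nat_lit 76) (nat_lit 4676895044) (nat_lit 0) (nat_lit 510084900) (nat_lit 1748) (nat_lit 5738928917) (nat_lit 524) (nat_lit 5) (nat_lit 523) (nat_lit 5) (nat_lit 546) (nat_lit 5) (nat_lit 573) (nat_lit 563) (nat_lit 424))))))) (XT.nd (nat_lit 1170) (nat_lit 8208) (nat_lit 0) (XT.nd (nat_lit 546) (nat_lit 1444) (nat_lit 0) (XT.nd (nat_lit 234) (nat_lit 1596) (nat_lit 0) (XT.nd (nat_lit 78) (nat_lit 0) (nat_lit 0) (XT.lf (nat_lit 0) (nat_lit 6183898752) (nat_lit 1672) (nat_lit 592858047) (nat_lit 1748) (nat_lit 4250356562) (nat_lit 524) (nat_lit 5) (nat_lit 546) (nat_lit 5) (nat_lit 547) (nat_lit 5) (nat_lit 574) (nat_lit 563) (nat_lit 423)) (XT.nd (nat_lit 78) (nat_lit 0) (nat_lit 76) (XT.lf (nat_lit 76) (nat_lit 5231500105) (nat_lit 0) (nat_lit 1991199661) (nat_lit 1748) (nat_lit 3907204297) (nat_lit 525) (nat_lit 5) (nat_lit 524) (nat_lit 5) (nat_lit 547) (nat_lit 5)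 (nat_lit 575) (nat_lit 563) (nat_lit 422)) (XT.lf (nat_lit 0) (nat_lit 8289914629) (nat_lit 1672) (nat_lit 83504980) (nat_lit 1748) (nat_lit 2861179178) (nat_lit 525) (nat_lit 5) (nat_lit 547) (nat_lit 5) (nat_lit 548) (nat_lit 5) (nat_lit 576) (nat_lit 563) (nat_lit 421)))) (XT.nd (nat_lit 156) (nat_lit 1672) (nat_lit 0) (XT.nd (nat_lit 78) (nat_lit 0) (nat_lit 76) (XT.lf (nat_lit 76) (nat_lit 5901686163) (nat_lit 0) (nat_lit 3513457578) (nat_lit 1748) (nat_lit 1925511215) (nat_lit 526) (nat_lit 5) (nat_lit 525) (nat_lit 5) (nat_lit 548) (nat_lit 5) (nat_lit 577) (nat_lit 563) (nat_lit 420)) (XT.lf (nat_lit 76) (nat_lit 546202831) (nat_lit 0) (nat_lit 10015577890) (nat_lit 1748) (nat_lit 887074392) (nat_lit 527) (nat_lit 5) (nat_lit 526) (nat_lit 5) (nat_lit 549) (nat_lit 5) (nat_lit 578) (nat_lit 563) (nat_lit 419))) (XT.nd (nat_lit 78) (nat_lit 0) (nat_lit 0) (XT.lf (nat_lit 0) (nat_lit 215423353) (nat_lit 1748) (nat_lit 4868911658) (nat_lit 1824) (nat_lit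 6473951807) (nat_lit 503) (nat_lit 5) (nat_lit 526) (nat_lit 5) (nat_lit 527) (nat_lit 5) (nat_lit 579) (nat_lit 563) (nat_lit 418)) (XT.lf (nat_lit 76) (nat_lit 1286104781) (nat_lit 0) (nat_lit 36174921) (nat_lit 1824) (nat_lit 10347627329) (nat_lit 504) (nat_lit 5) (nat_lit 503) (nat_lit 5) (nat_lit 527) (nat_lit 5) (nat_lit 580) (nat_lit 563) (nat_lit 417))))) (XT.nd (nat_lit 312) (nat_lit 1520) (nat_lit 0) (XT.nd (nat_lit 156) (nat_lit 0) (nat_lit 76) (XT.nd (nat_lit 78) (nat_lit 0) (nat_lit 0) (XT.lf (nat_lit 0) (nat_lit 2503418943) (nat_lit 1748) (nat_lit 4196925522) (nat_lit 1824) (nat_lit 5082373128) (nat_lit 504) (nat_lit 5) (nat_lit 527) (nat_lit 5) (nat_lit 528) (nat_lit 5) (nat_lit 581) (nat_lit 563) (nat_lit 416)) (XT.lf (nat_lit 76) (nat_lit 2130978483) (nat_lit 0) (nat_lit 1577610890) (nat_lit 1824) (nat_lit 8189187667) (nat_lit 505) (nat_lit 5) (nat_lit 504) (nat_lit 5) (nat_lit 528) (nat_lit 5) (nat_lit 582) (nat_lit 563) (nat_lit 415))) (XT.nd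 (nat_lit 78) (nat_lit 0) (nat_lit 0) (XT.lf (nat_lit 0) (nat_lit 4976449914) (nat_lit 1748) (nat_lit 3406753096) (nat_lit 1824) (nat_lit 3631163755) (nat_lit 505) (nat_lit 5) (nat_lit 528) (nat_lit 5) (nat_lit 529) (nat_lit 5) (nat_lit 583) (nat_lit 563) (nat_lit 414)) (XT.lf (nat_lit 76) (nat_lit 3100274125) (nat_lit 0) (nat_lit 3186788094) (nat_lit 1824) (nat_lit 5845878986) (nat_lit 506) (nat_lit 5) (nat_lit 505) (nat_lit 5) (nat_lit 529) (nat_lit 5) (nat_lit 584) (nat_lit 563) (nat_lit 413)))) (XT.nd (nat_lit 156) (nat_lit 1672) (nat_lit 0) (XT.nd (nat_lit 78) (nat_lit 0) (nat_lit 0) (XT.lf (nat_lit 0) (nat_lit 7647647889) (nat_lit 1748) (nat_lit 2494323673) (nat_lit 1824) (nat_lit 2111441142) (nat_lit 506) (nat_lit 5) (nat_lit 529) (nat_lit 5) (nat_lit 530) (nat_lit 5) (nat_lit 585) (nat_lit 563) (nat_lit 412)) (XT.lf (nat_lit 76) (nat_lit 4198311211) (nat_lit 0) (nat_lit 4872777242) (nat_lit 1824) (nat_lit 3304493094) (nat_lit 507) (nat_lit 5) (nat_lit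 506) (nat_lit 5) (nat_lit 530) (nat_lit 5) (nat_lit 586) (nat_lit 563) (nat_lit 411))) (XT.nd (nat_lit 78) (nat_lit 1748) (nat_lit 0) (XT.lf (nat_lit 0) (nat_lit 10530581560) (nat_lit 1748) (nat_lit 1455247300) (nat_lit 76) (nat_lit 514213995) (nat_lit 507) (nat_lit 5) (nat_lit 530) (nat_lit 5) (nat_lit 508) (nat_lit 5) (nat_lit 587) (nat_lit 563) (nat_lit 410)) (XT.lf (nat_lit 0) (nat_lit 5429737117) (nat_lit 1748) (nat_lit 6644773103) (nat_lit 1824) (nat_lit 551379004) (nat_lit 484) (nat_lit 5) (nat_lit 507) (nat_lit 5) (nat_lit 508) (nat_lit 5) (nat_lit 588) (nat_lit 563) (nat_lit 409)))))) (XT.nd (nat_lit 546) (nat_lit 3420) (nat_lit 0) (XT.nd (nat_lit 234) (nat_lit 1824) (nat_lit 0) (XT.nd (nat_lit 78) (nat_lit 2888) (nat_lit 0) (XT.lf (nat_lit 0) (nat_lit 880970974) (nat_lit 1824) (nat_lit 298300857) (nat_lit 76) (nat_lit 11574912280) (nat_lit 483) (nat_lit 5) (nat_lit 507) (nat_lit 5) (nat_lit 484) (nat_lit 5) (nat_lit 589) (nat_lit 563) (nat_lit 408))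 (XT.nd (nat_lit 78) (nat_lit 1064) (nat_lit 0) (XT.lf (nat_lit 0) (nat_lit 2395746015) (nat_lit 1900) (nat_lit 6100293953) (nat_lit 76) (nat_lit 4387709519) (nat_lit 459) (nat_lit 5) (nat_lit 484) (nat_lit 5) (nat_lit 460) (nat_lit 5) (nat_lit 590) (nat_lit 563) (nat_lit 407)) (XT.lf (nat_lit 0) (nat_lit 989694131) (nat_lit 1064) (nat_lit 2955604422) (nat_lit 1140) (nat_lit 9070518669) (nat_lit 445) (nat_lit 5) (nat_lit 459) (nat_lit 5) (nat_lit 460) (nat_lit 5) (nat_lit 591) (nat_lit 563) (nat_lit 406)))) (XT.nd (nat_lit 156) (nat_lit 912) (nat_lit 0) (XT.nd (nat_lit 78) (nat_lit 912) (nat_lit 0) (XT.lf (nat_lit 0) (nat_lit 5572953613) (nat_lit 1140) (nat_lit 4873966345) (nat_lit 76) (nat_lit 2702664801) (nat_lit 445) (nat_lit 5) (nat_lit 460) (nat_lit 5) (nat_lit 446) (nat_lit 5) (nat_lit 592) (nat_lit 563) (nat_lit 405)) (XT.lf (nat_lit 0) (nat_lit 2422988074) (nat_lit 912) (nat_lit 4834108594) (nat_lit 988) (nat_lit 6028452945) (nat_lit 433) (nat_lit 5)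 (nat_lit 445) (nat_lit 5) (nat_lit 446) (nat_lit 5) (nat_lit 593) (nat_lit 563) (nat_lit 404))) (XT.nd (nat_lit 78) (nat_lit 912) (nat_lit 0) (XT.lf (nat_lit 0) (nat_lit 9002421433) (nat_lit 988) (nat_lit 3508242901) (nat_lit 76) (nat_lit 913020104) (nat_lit 433) (nat_lit 5) (nat_lit 446) (nat_lit 5) (nat_lit 434) (nat_lit 5) (nat_lit 594) (nat_lit 563) (nat_lit 403)) (XT.lf (nat_lit 0) (nat_lit 4003248076) (nat_lit 912) (nat_lit 6826420782) (nat_lit 988) (nat_lit 2733973416) (nat_lit 421) (nat_lit 5) (nat_lit 433) (nat_lit 5) (nat_lit 434) (nat_lit 5) (nat_lit 595) (nat_lit 563) (nat_lit 402))))) (XT.nd (nat_lit 312) (nat_lit 1672) (nat_lit 0) (XT.nd (nat_lit 156) (nat_lit 836) (nat_lit 0) (XT.nd (nat_lit 78) (nat_lit 912) (nat_lit 0) (XT.lf (nat_lit 0) (nat_lit 11702189086) (nat_lit 912) (nat_lit 1003973143) (nat_lit 988) (nat_lit 999983645) (nat_lit 421) (nat_lit 5) (nat_lit 433) (nat_lit 5) (nat_lit 434) (nat_lit 5) (nat_lit 596) (nat_lit 563) (nat_lit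 401)) (XT.lf (nat_lit 0) (nat_lit 817652638) (nat_lit 912) (nat_lit 8119251744) (nat_lit 76) (nat_lit 4913314983) (nat_lit 409) (nat_lit 5) (nat_lit 421) (nat_lit 5) (nat_lit 410) (nat_lit 5) (nat_lit 597) (nat_lit 563) (nat_lit 400))) (XT.nd (nat_lit 78) (nat_lit 836) (nat_lit 0) (XT.lf (nat_lit 0) (nat_lit 2667896077) (nat_lit 912) (nat_lit 372932452) (nat_lit 76) (nat_lit 10956021305) (nat_lit 409) (nat_lit 5) (nat_lit 421) (nat_lit 5) (nat_lit 410) (nat_lit 5) (nat_lit 598) (nat_lit 563) (nat_lit 399)) (XT.lf (nat_lit 0) (nat_lit 4613890868) (nat_lit 912) (nat_lit 6547255748) (nat_lit 76) (nat_lit 2984091945) (nat_lit 398) (nat_lit 5) (nat_lit 410) (nat_lit 5) (nat_lit 399) (nat_lit 5) (nat_lit 599) (nat_lit 563) (nat_lit 398)))) (XT.nd (nat_lit 156) (nat_lit 836) (nat_lit 0) (XT.nd (nat_lit 78) (nat_lit 0) (nat_lit 0) (XT.lf (nat_lit 0) (nat_lit 1425006214) (nat_lit 836) (nat_lit 5195499019) (nat_lit 912) (nat_lit 7675656403) (nat_lit 387) (nat_lit 5)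 (nat_lit 398) (nat_lit 5) (nat_lit 399) (nat_lit 5) (nat_lit 600) (nat_lit 563) (nat_lit 397)) (XT.lf (nat_lit 0) (nat_lit 8707175893) (nat_lit 912) (nat_lit 4820314850) (nat_lit 76) (nat_lit 921814504) (nat_lit 387) (nat_lit 5) (nat_lit 399) (nat_lit 5) (nat_lit 388) (nat_lit 5) (nat_lit 601) (nat_lit 563) (nat_lit 396))) (XT.nd (nat_lit 78) (nat_lit 0) (nat_lit 0) (XT.lf (nat_lit 0) (nat_lit 3391331170) (nat_lit 836) (nat_lit 7490794979) (nat_lit 912) (nat_lit 3722455202) (nat_lit 376) (nat_lit 5) (nat_lit 387) (nat_lit 5) (nat_lit 388) (nat_lit 5) (nat_lit 602) (nat_lit 563) (nat_lit 395)) (XT.lf (nat_lit 0) (nat_lit 11822336392) (nat_lit 836) (nat_lit 1300833408) (nat_lit 912) (nat_lit 1639341824) (nat_lit 376) (nat_lit 5) (nat_lit 387) (nat_lit 5) (nat_lit 388) (nat_lit 5) (nat_lit 603) (nat_lit 563) (nat_lit 394))))))))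
noncomputable def xc160 : XT := (XT.nd (nat_lit 2262) (nat_lit 7676) (nat_lit 0) (XT.nd (nat_lit 1092) (nat_lit 5168) (nat_lit 0) (XT.nd (nat_lit 546) (nat_lit 2812) (nat_lit 0) (XT.nd (nat_lit 234) (nat_lit 1444) (nat_lit 0) (XT.nd (nat_lit 78) (nat_lit 760) (nat_lit 0) (XT.lf (nat_lit 0) (nat_lit 538331906) (nat_lit 836) (nat_lit 9397851897) (nat_lit 76) (nat_lit 4986168884) (nat_lit 365) (nat_lit 5) (nat_lit 376) (nat_lit 5) (nat_lit 366) (nat_lit 5) (nat_lit 604) (nat_lit 563) (nat_lit 393)) (XT.nd (nat_lit 78) (nat_lit 760) (nat_lit 0) (XT.lf (nat_lit 0) (nat_lit 2756598930) (nat_lit 836) (nat_lit 916535394) (nat_lit 76) (nat_lit 11411660218) (nat_lit 365) (nat_lit 5) (nat_lit 376) (nat_lit 5) (nat_lit 366) (nat_lit 5) (nat_lit 605) (nat_lit 563) (nat_lit 392)) (XT.lf (nat_lit 0) (nat_lit 5078690701) (nat_lit 836) (nat_lit 7440617622) (nat_lit 76) (nat_lit 2729988216) (nat_lit 355) (nat_lit 5) (nat_lit 366) (nat_lit 5) (nat_lit 356) (nat_lit 5) (nat_lit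 606) (nat_lit 563) (nat_lit 391)))) (XT.nd (nat_lit 156) (nat_lit 760) (nat_lit 0) (XT.nd (nat_lit 78) (nat_lit 0) (nat_lit 0) (XT.lf (nat_lit 0) (nat_lit 1286183712) (nat_lit 684) (nat_lit 6190701480) (nat_lit 760) (nat_lit 7939610649) (nat_lit 346) (nat_lit 5) (nat_lit 355) (nat_lit 5) (nat_lit 356) (nat_lit 5) (nat_lit 607) (nat_lit 563) (nat_lit 390)) (XT.lf (nat_lit 0) (nat_lit 9965923729) (nat_lit 760) (nat_lit 5309991036) (nat_lit 76) (nat_lit 310267235) (nat_lit 346) (nat_lit 5) (nat_lit 356) (nat_lit 5) (nat_lit 347) (nat_lit 5) (nat_lit 608) (nat_lit 563) (nat_lit 389))) (XT.nd (nat_lit 78) (nat_lit 0) (nat_lit 0) (XT.lf (nat_lit 0) (nat_lit 3683972764) (nat_lit 760) (nat_lit 8876767351) (nat_lit 836) (nat_lit 3197402293) (nat_lit 336) (nat_lit 5) (nat_lit 346) (nat_lit 5) (nat_lit 347) (nat_lit 5) (nat_lit 609) (nat_lit 563) (nat_lit 388)) (XT.lf (nat_lit 0) (nat_lit 12919778836) (nat_lit 760) (nat_lit 2314496957) (nat_lit 836) (nat_lit 698730225)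 (nat_lit 336) (nat_lit 5) (nat_lit 346) (nat_lit 5) (nat_lit 347) (nat_lit 5) (nat_lit 610) (nat_lit 563) (nat_lit 387))))) (XT.nd (nat_lit 234) (nat_lit 1368) (nat_lit 0) (XT.nd (nat_lit 78) (nat_lit 684) (nat_lit 0) (XT.lf (nat_lit 0) (nat_lit 1886567413) (nat_lit 760) (nat_lit 9849781806) (nat_lit 76) (nat_lit 4373559620) (nat_lit 326) (nat_lit 5) (nat_lit 336) (nat_lit 5) (nat_lit 327) (nat_lit 5) (nat_lit 611) (nat_lit 563) (nat_lit 386)) (XT.nd (nat_lit 78) (nat_lit 684) (nat_lit 0) (XT.lf (nat_lit 0) (nat_lit 4541309117) (nat_lit 760) (nat_lit 560274400) (nat_lit 76) (nat_lit 11188132375) (nat_lit 326) (nat_lit 5) (nat_lit 336) (nat_lit 5) (nat_lit 327) (nat_lit 5) (nat_lit 612) (nat_lit 563) (nat_lit 385)) (XT.lf (nat_lit 0) (nat_lit 7310499119) (nat_lit 760) (nat_lit 7459779488) (nat_lit 76) (nat_lit 1701613831) (nat_lit 317) (nat_lit 5) (nat_lit 327) (nat_lit 5) (nat_lit 318) (nat_lit 5) (nat_lit 613) (nat_lit 563) (nat_lit 384)))) (XT.nd (nat_lit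 156) (nat_lit 760) (nat_lit 0) (XT.nd (nat_lit 78) (nat_lit 0) (nat_lit 0) (XT.lf (nat_lit 0) (nat_lit 2109836501) (nat_lit 608) (nat_lit 8068169140) (nat_lit 684) (nat_lit 6478848630) (nat_lit 309) (nat_lit 5) (nat_lit 317) (nat_lit 5) (nat_lit 318) (nat_lit 5) (nat_lit 614) (nat_lit 563) (nat_lit 383)) (XT.lf (nat_lit 0) (nat_lit 11962099854) (nat_lit 608) (nat_lit 1182585195) (nat_lit 684) (nat_lit 3699994244) (nat_lit 309) (nat_lit 5) (nat_lit 317) (nat_lit 5) (nat_lit 318) (nat_lit 5) (nat_lit 615) (nat_lit 563) (nat_lit 382))) (XT.nd (nat_lit 78) (nat_lit 76) (nat_lit 0) (XT.lf (nat_lit 0) (nat_lit 4992886146) (nat_lit 684) (nat_lit 11240065634) (nat_lit 760) (nat_lit 802064357) (nat_lit 300) (nat_lit 5) (nat_lit 309) (nat_lit 5) (nat_lit 310) (nat_lit 5) (nat_lit 616) (nat_lit 563) (nat_lit 381)) (XT.lf (nat_lit 0) (nat_lit 2158346411) (nat_lit 760) (nat_lit 2128356457) (nat_lit 76) (nat_lit 12941522147) (nat_lit 299) (nat_lit 5) (nat_lit 309) (nat_lit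 5) (nat_lit 300) (nat_lit 5) (nat_lit 617) (nat_lit 563) (nat_lit 380)))))) (XT.nd (nat_lit 546) (nat_lit 2660) (nat_lit 0) (XT.nd (nat_lit 234) (nat_lit 1292) (nat_lit 0) (XT.nd (nat_lit 78) (nat_lit 608) (nat_lit 0) (XT.lf (nat_lit 0) (nat_lit 5230363357) (nat_lit 684) (nat_lit 9368279574) (nat_lit 76) (nat_lit 2825286730) (nat_lit 291) (nat_lit 5) (nat_lit 300) (nat_lit 5) (nat_lit 292) (nat_lit 5) (nat_lit 618) (nat_lit 563) (nat_lit 379)) (XT.nd (nat_lit 78) (nat_lit 0) (nat_lit 0) (XT.lf (nat_lit 0) (nat_lit 821462336) (nat_lit 608) (nat_lit 7582652412) (nat_lit 684) (nat_lit 9218628136) (nat_lit 283) (nat_lit 5) (nat_lit 291) (nat_lit 5) (nat_lit 292) (nat_lit 5) (nat_lit 619) (nat_lit 563) (nat_lit 378)) (XT.lf (nat_lit 0) (nat_lit 11332300351) (nat_lit 608) (nat_lit 364191931) (nat_lit 684) (nat_lit 6127937426) (nat_lit 283) (nat_lit 5) (nat_lit 291) (nat_lit 5) (nat_lit 292) (nat_lit 5) (nat_lit 620) (nat_lit 563) (nat_lit 377)))) (XT.nd (nat_lit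 156) (nat_lit 608) (nat_lit 0) (XT.nd (nat_lit 78) (nat_lit 76) (nat_lit 0) (XT.lf (nat_lit 0) (nat_lit 4020862059) (nat_lit 608) (nat_lit 11097824951) (nat_lit 684) (nat_lit 2910184217) (nat_lit 275) (nat_lit 5) (nat_lit 283) (nat_lit 5) (nat_lit 284) (nat_lit 5) (nat_lit 621) (nat_lit 563) (nat_lit 376)) (XT.lf (nat_lit 0) (nat_lit 405772382) (nat_lit 684) (nat_lit 3419204062) (nat_lit 76) (nat_lit 14411602653) (nat_lit 274) (nat_lit 5) (nat_lit 283) (nat_lit 5) (nat_lit 275) (nat_lit 5) (nat_lit 622) (nat_lit 563) (nat_lit 375))) (XT.nd (nat_lit 78) (nat_lit 0) (nat_lit 0) (XT.lf (nat_lit 0) (nat_lit 3813862373) (nat_lit 684) (nat_lit 11020668981) (nat_lit 76) (nat_lit 3612229743) (nat_lit 266) (nat_lit 5) (nat_lit 275) (nat_lit 5) (nat_lit 267) (nat_lit 5) (nat_lit 623) (nat_lit 563) (nat_lit 374)) (XT.lf (nat_lit 0) (nat_lit 7331219814) (nat_lit 684) (nat_lit 161083466) (nat_lit 76) (nat_lit 11168021670) (nat_lit 266) (nat_lit 5) (nat_lit 275) (nat_lit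 5) (nat_lit 267) (nat_lit 5) (nat_lit 624) (nat_lit 563) (nat_lit 373))))) (XT.nd (nat_lit 312) (nat_lit 988) (nat_lit 0) (XT.nd (nat_lit 156) (nat_lit 608) (nat_lit 0) (XT.nd (nat_lit 78) (nat_lit 532) (nat_lit 0) (XT.lf (nat_lit 0) (nat_lit 10983938175) (nat_lit 608) (nat_lit 7826043599) (nat_lit 76) (nat_lit 66878349) (nat_lit 259) (nat_lit 5) (nat_lit 267) (nat_lit 5) (nat_lit 260) (nat_lit 5) (nat_lit 625) (nat_lit 563) (nat_lit 372)) (XT.lf (nat_lit 0) (nat_lit 3376660023) (nat_lit 532) (nat_lit 11398568044) (nat_lit 608) (nat_lit 4321187904) (nat_lit 252) (nat_lit 5) (nat_lit 259) (nat_lit 5) (nat_lit 260) (nat_lit 5) (nat_lit 626) (nat_lit 563) (nat_lit 371))) (XT.nd (nat_lit 78) (nat_lit 608) (nat_lit 0) (XT.lf (nat_lit 0) (nat_lit 14900129783) (nat_lit 532) (nat_lit 3787697087) (nat_lit 608) (nat_lit 631626709) (nat_lit 252) (nat_lit 5) (nat_lit 259) (nat_lit 5) (nat_lit 260) (nat_lit 5) (nat_lit 627) (nat_lit 563) (nat_lit 370)) (XT.lf (nat_lit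 0) (nat_lit 3156511983) (nat_lit 608) (nat_lit 12400432617) (nat_lit 76) (nat_lit 3988283781) (nat_lit 244) (nat_lit 5) (nat_lit 252) (nat_lit 5) (nat_lit 245) (nat_lit 5) (nat_lit 628) (nat_lit 563) (nat_lit 369)))) (XT.nd (nat_lit 156) (nat_lit 456) (nat_lit 0) (XT.nd (nat_lit 78) (nat_lit 532) (nat_lit 0) (XT.lf (nat_lit 0) (nat_lit 7060019507) (nat_lit 608) (nat_lit 813628243) (nat_lit 76) (nat_lit 11900826444) (nat_lit 244) (nat_lit 5) (nat_lit 252) (nat_lit 5) (nat_lit 245) (nat_lit 5) (nat_lit 629) (nat_lit 563) (nat_lit 368)) (XT.lf (nat_lit 0) (nat_lit 11107416971) (nat_lit 608) (nat_lit 8865337432) (nat_lit 76) (nat_lit 34234411) (nat_lit 237) (nat_lit 5) (nat_lit 245) (nat_lit 5) (nat_lit 238) (nat_lit 5) (nat_lit 630) (nat_lit 563) (nat_lit 367))) (XT.nd (nat_lit 78) (nat_lit 0) (nat_lit 0) (XT.lf (nat_lit 0) (nat_lit 3082046486) (nat_lit 456) (nat_lit 12224677508) (nat_lit 532) (nat_lit 4936010775) (nat_lit 231) (nat_lit 5) (nat_lit 237) (nat_lit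 5) (nat_lit 238) (nat_lit 5) (nat_lit 631) (nat_lit 563) (nat_lit 366)) (XT.lf (nat_lit 0) (nat_lit 15379394097) (nat_lit 456) (nat_lit 4263497370) (nat_lit 532) (nat_lit 839246964) (nat_lit 231) (nat_lit 5) (nat_lit 237) (nat_lit 5) (nat_lit 238) (nat_lit 5) (nat_lit 632) (nat_lit 563) (nat_lit 365))))))) (XT.nd (nat_lit 1092) (nat_lit 3496) (nat_lit 0) (XT.nd (nat_lit 546) (nat_lit 2128) (nat_lit 0) (XT.nd (nat_lit 234) (nat_lit 988) (nat_lit 0) (XT.nd (nat_lit 78) (nat_lit 456) (nat_lit 0) (XT.lf (nat_lit 0) (nat_lit 3361747478) (nat_lit 608) (nat_lit 13489725193) (nat_lit 76) (nat_lit 3873102261) (nat_lit 223) (nat_lit 5) (nat_lit 231) (nat_lit 5) (nat_lit 224) (nat_lit 5) (nat_lit 633) (nat_lit 563) (nat_lit 364)) (XT.nd (nat_lit 78) (nat_lit 456) (nat_lit 0) (XT.lf (nat_lit 0) (nat_lit 7691761565) (nat_lit 608) (nat_lit 1125947175) (nat_lit 76) (nat_lit 12152915985) (nat_lit 223) (nat_lit 5) (nat_lit 231) (nat_lit 5) (nat_lit 224) (nat_lit 5) (nat_lit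 634) (nat_lit 563) (nat_lit 363)) (XT.lf (nat_lit 0) (nat_lit 11628680585) (nat_lit 456) (nat_lit 548846277) (nat_lit 532) (nat_lit 9042685885) (nat_lit 217) (nat_lit 5) (nat_lit 223) (nat_lit 5) (nat_lit 224) (nat_lit 5) (nat_lit 635) (nat_lit 563) (nat_lit 362)))) (XT.nd (nat_lit 156) (nat_lit 532) (nat_lit 0) (XT.nd (nat_lit 78) (nat_lit 0) (nat_lit 0) (XT.lf (nat_lit 0) (nat_lit 3160233473) (nat_lit 456) (nat_lit 13665795094) (nat_lit 532) (nat_lit 4647303787) (nat_lit 211) (nat_lit 5) (nat_lit 217) (nat_lit 5) (nat_lit 218) (nat_lit 5) (nat_lit 636) (nat_lit 563) (nat_lit 361)) (XT.lf (nat_lit 0) (nat_lit 16284437942) (nat_lit 456) (nat_lit 5344802812) (nat_lit 532) (nat_lit 101039032) (nat_lit 211) (nat_lit 5) (nat_lit 217) (nat_lit 5) (nat_lit 218) (nat_lit 5) (nat_lit 637) (nat_lit 563) (nat_lit 360))) (XT.nd (nat_lit 78) (nat_lit 0) (nat_lit 0) (XT.lf (nat_lit 0) (nat_lit 4541686187) (nat_lit 532) (nat_lit 14269799129) (nat_lit 76) (nat_lit 3178991497)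 (nat_lit 204) (nat_lit 5) (nat_lit 211) (nat_lit 5) (nat_lit 205) (nat_lit 5) (nat_lit 638) (nat_lit 563) (nat_lit 359)) (XT.lf (nat_lit 0) (nat_lit 9341989913) (nat_lit 532) (nat_lit 1075989186) (nat_lit 76) (nat_lit 11836564013) (nat_lit 204) (nat_lit 5) (nat_lit 211) (nat_lit 5) (nat_lit 205) (nat_lit 5) (nat_lit 639) (nat_lit 563) (nat_lit 358))))) (XT.nd (nat_lit 234) (nat_lit 1216) (nat_lit 0) (XT.nd (nat_lit 78) (nat_lit 456) (nat_lit 0) (XT.lf (nat_lit 0) (nat_lit 12537419101) (nat_lit 456) (nat_lit 1776294718) (nat_lit 532) (nat_lit 8208668861) (nat_lit 198) (nat_lit 5) (nat_lit 204) (nat_lit 5) (nat_lit 205) (nat_lit 5) (nat_lit 640) (nat_lit 563) (nat_lit 357)) (XT.nd (nat_lit 78) (nat_lit 76) (nat_lit 0) (XT.lf (nat_lit 0) (nat_lit 3635428802) (nat_lit 380) (nat_lit 15820068501) (nat_lit 456) (nat_lit 3338669453) (nat_lit 193) (nat_lit 5) (nat_lit 198) (nat_lit 5) (nat_lit 199) (nat_lit 5) (nat_lit 641) (nat_lit 563) (nat_lit 356)) (XT.lf (nat_lit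 0) (nat_lit 1680657809) (nat_lit 456) (nat_lit 5438024110) (nat_lit 76) (nat_lit 15951027529) (nat_lit 192) (nat_lit 5) (nat_lit 198) (nat_lit 5) (nat_lit 193) (nat_lit 5) (nat_lit 642) (nat_lit 563) (nat_lit 355)))) (XT.nd (nat_lit 156) (nat_lit 760) (nat_lit 0) (XT.nd (nat_lit 78) (nat_lit 0) (nat_lit 0) (XT.lf (nat_lit 0) (nat_lit 6817902392) (nat_lit 532) (nat_lit 14721517412) (nat_lit 76) (nat_lit 1809657313) (nat_lit 186) (nat_lit 5) (nat_lit 193) (nat_lit 5) (nat_lit 187) (nat_lit 5) (nat_lit 643) (nat_lit 563) (nat_lit 354)) (XT.lf (nat_lit 0) (nat_lit 12136002790) (nat_lit 532) (nat_lit 641160354) (nat_lit 76) (nat_lit 10855306980) (nat_lit 186) (nat_lit 5) (nat_lit 193) (nat_lit 5) (nat_lit 187) (nat_lit 5) (nat_lit 644) (nat_lit 563) (nat_lit 353))) (XT.nd (nat_lit 78) (nat_lit 380) (nat_lit 0) (XT.lf (nat_lit 0) (nat_lit 13894561118) (nat_lit 380) (nat_lit 3750463511) (nat_lit 456) (nat_lit 6274815371) (nat_lit 181) (nat_lit 5) (nat_lit 186) (nat_lit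 5) (nat_lit 187) (nat_lit 5) (nat_lit 645) (nat_lit 563) (nat_lit 352)) (XT.lf (nat_lit 0) (nat_lit 4532290752) (nat_lit 380) (nat_lit 18795507402) (nat_lit 456) (nat_lit 883887889) (nat_lit 176) (nat_lit 5) (nat_lit 181) (nat_lit 5) (nat_lit 182) (nat_lit 5) (nat_lit 646) (nat_lit 563) (nat_lit 351)))))) (XT.nd (nat_lit 546) (nat_lit 1824) (nat_lit 0) (XT.nd (nat_lit 234) (nat_lit 836) (nat_lit 0) (XT.nd (nat_lit 78) (nat_lit 760) (nat_lit 0) (XT.lf (nat_lit 0) (nat_lit 4641294206) (nat_lit 456) (nat_lit 5054891257) (nat_lit 76) (nat_lit 14810845262) (nat_lit 175) (nat_lit 5) (nat_lit 181) (nat_lit 5) (nat_lit 176) (nat_lit 5) (nat_lit 647) (nat_lit 563) (nat_lit 350)) (XT.nd (nat_lit 78) (nat_lit 380) (nat_lit 0) (XT.lf (nat_lit 0) (nat_lit 9978760709) (nat_lit 380) (nat_lit 345696346) (nat_lit 456) (nat_lit 14482522331) (nat_lit 170) (nat_lit 5) (nat_lit 175) (nat_lit 5) (nat_lit 176) (nat_lit 5) (nat_lit 648) (nat_lit 563) (nat_lit 349)) (XT.lf (nat_lit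 0) (nat_lit 203728491) (nat_lit 380) (nat_lit 16007249897) (nat_lit 456) (nat_lit 8900154908) (nat_lit 165) (nat_lit 5) (nat_lit 170) (nat_lit 5) (nat_lit 171) (nat_lit 5) (nat_lit 649) (nat_lit 563) (nat_lit 348)))) (XT.nd (nat_lit 156) (nat_lit 380) (nat_lit 0) (XT.nd (nat_lit 78) (nat_lit 456) (nat_lit 0) (XT.lf (nat_lit 0) (nat_lit 15726653432) (nat_lit 380) (nat_lit 6584956517) (nat_lit 456) (nat_lit 3107832914) (nat_lit 165) (nat_lit 5) (nat_lit 170) (nat_lit 5) (nat_lit 171) (nat_lit 5) (nat_lit 650) (nat_lit 563) (nat_lit 347)) (XT.lf (nat_lit 0) (nat_lit 2816434959) (nat_lit 456) (nat_lit 19876135940) (nat_lit 76) (nat_lit 3039927733) (nat_lit 159) (nat_lit 5) (nat_lit 165) (nat_lit 5) (nat_lit 160) (nat_lit 5) (nat_lit 651) (nat_lit 563) (nat_lit 346))) (XT.nd (nat_lit 78) (nat_lit 380) (nat_lit 0) (XT.lf (nat_lit 0) (nat_lit 8921399986) (nat_lit 456) (nat_lit 4275531591) (nat_lit 76) (nat_lit 12852396737) (nat_lit 159) (nat_lit 5) (nat_lit 165)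 (nat_lit 5) (nat_lit 160) (nat_lit 5) (nat_lit 652) (nat_lit 563) (nat_lit 345)) (XT.lf (nat_lit 0) (nat_lit 11783508355) (nat_lit 380) (nat_lit 3436269490) (nat_lit 456) (nat_lit 11151290636) (nat_lit 154) (nat_lit 5) (nat_lit 159) (nat_lit 5) (nat_lit 160) (nat_lit 5) (nat_lit 653) (nat_lit 563) (nat_lit 344))))) (XT.nd (nat_lit 312) (nat_lit 1064) (nat_lit 0) (XT.nd (nat_lit 156) (nat_lit 380) (nat_lit 0) (XT.nd (nat_lit 78) (nat_lit 76) (nat_lit 0) (XT.lf (nat_lit 0) (nat_lit 1491912557) (nat_lit 304) (nat_lit 20227945525) (nat_lit 380) (nat_lit 4977870831) (nat_lit 150) (nat_lit 5) (nat_lit 154) (nat_lit 5) (nat_lit 155) (nat_lit 5) (nat_lit 654) (nat_lit 563) (nat_lit 343)) (XT.lf (nat_lit 0) (nat_lit 1417865748) (nat_lit 380) (nat_lit 8978385709) (nat_lit 76) (nat_lit 16632177022) (nat_lit 149) (nat_lit 5) (nat_lit 154) (nat_lit 5) (nat_lit 150) (nat_lit 5) (nat_lit 655) (nat_lit 563) (nat_lit 342))) (XT.nd (nat_lit 78) (nat_lit 0) (nat_lit 0) (XT.lf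 (nat_lit 0) (nat_lit 7632727303) (nat_lit 380) (nat_lit 286708327) (nat_lit 456) (nat_lit 19444757038) (nat_lit 144) (nat_lit 5) (nat_lit 149) (nat_lit 5) (nat_lit 150) (nat_lit 5) (nat_lit 656) (nat_lit 563) (nat_lit 341)) (XT.lf (nat_lit 0) (nat_lit 14671756107) (nat_lit 456) (nat_lit 3081221417) (nat_lit 76) (nat_lit 9951280379) (nat_lit 144) (nat_lit 5) (nat_lit 150) (nat_lit 5) (nat_lit 145) (nat_lit 5) (nat_lit 657) (nat_lit 563) (nat_lit 340)))) (XT.nd (nat_lit 156) (nat_lit 304) (nat_lit 0) (XT.nd (nat_lit 78) (nat_lit 456) (nat_lit 0) (XT.lf (nat_lit 0) (nat_lit 14076873813) (nat_lit 304) (nat_lit 7570624097) (nat_lit 380) (nat_lit 6401859178) (nat_lit 140) (nat_lit 5) (nat_lit 144) (nat_lit 5) (nat_lit 145) (nat_lit 5) (nat_lit 658) (nat_lit 563) (nat_lit 339)) (XT.lf (nat_lit 0) (nat_lit 412225289) (nat_lit 456) (nat_lit 25167903411) (nat_lit 76) (nat_lit 2820071393) (nat_lit 134) (nat_lit 5) (nat_lit 140) (nat_lit 5) (nat_lit 135) (nat_lit 5) (nat_lit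 659) (nat_lit 563) (nat_lit 338))) (XT.nd (nat_lit 78) (nat_lit 304) (nat_lit 0) (XT.lf (nat_lit 0) (nat_lit 7416589980) (nat_lit 456) (nat_lit 7886681002) (nat_lit 76) (nat_lit 13451148398) (nat_lit 134) (nat_lit 5) (nat_lit 140) (nat_lit 5) (nat_lit 135) (nat_lit 5) (nat_lit 660) (nat_lit 563) (nat_lit 337)) (XT.lf (nat_lit 0) (nat_lit 9861744327) (nat_lit 304) (nat_lit 4758541381) (nat_lit 380) (nat_lit 14494252603) (nat_lit 130) (nat_lit 5) (nat_lit 134) (nat_lit 5) (nat_lit 135) (nat_lit 5) (nat_lit 661) (nat_lit 563) (nat_lit 336))))))))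
noncomputable def xc161 : XT := (XT.nd (nat_lit 75036) (nat_lit 0) (nat_lit 16796) (XT.nd (nat_lit 73866) (nat_lit 0) (nat_lit 30248) (XT.nd (nat_lit 546) (nat_lit 608) (nat_lit 0) (XT.nd (nat_lit 234) (nat_lit 608) (nat_lit 0) (XT.nd (nat_lit 78) (nat_lit 684) (nat_lit 0) (XT.lf (nat_lit 0) (nat_lit 22055505926) (nat_lit 380) (nat_lit 1455829192) (nat_lit 76) (nat_lit 5968775621) (nat_lit 130) (nat_lit 5) (nat_lit 135) (nat_lit 5) (nat_lit 131) (nat_lit 5) (nat_lit 662) (nat_lit 563) (nat_lit 335)) (XT.nd (nat_lit 78) (nat_lit 380) (nat_lit 0) (XT.lf (nat_lit 0) (nat_lit 16879304412) (nat_lit 304) (nat_lit 12896563909) (nat_lit 380) (nat_lit 74397668) (nat_lit 126) (nat_lit 5) (nat_lit 130) (nat_lit 5) (nat_lit 131) (nat_lit 5) (nat_lit 663) (nat_lit 563) (nat_lit 334)) (XT.lf (nat_lit 0) (nat_lit 5388008185) (nat_lit 304) (nat_lit 1977614651) (nat_lit 380) (nat_lit 22860434541) (nat_lit 121) (nat_lit 5) (nat_lit 125) (nat_lit 5) (nat_lit 126) (nat_lit 5)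 (nat_lit 664) (nat_lit 563) (nat_lit 333)))) (XT.nd (nat_lit 156) (nat_lit 304) (nat_lit 0) (XT.nd (nat_lit 78) (nat_lit 304) (nat_lit 0) (XT.lf (nat_lit 0) (nat_lit 15095904644) (nat_lit 380) (nat_lit 6385848309) (nat_lit 76) (nat_lit 9124752782) (nat_lit 121) (nat_lit 5) (nat_lit 126) (nat_lit 5) (nat_lit 122) (nat_lit 5) (nat_lit 665) (nat_lit 563) (nat_lit 332)) (XT.lf (nat_lit 0) (nat_lit 12579769443) (nat_lit 304) (nat_lit 10491253279) (nat_lit 380) (nat_lit 7921735845) (nat_lit 117) (nat_lit 5) (nat_lit 121) (nat_lit 5) (nat_lit 122) (nat_lit 5) (nat_lit 666) (nat_lit 563) (nat_lit 331))) (XT.nd (nat_lit 78) (nat_lit 76) (nat_lit 0) (XT.lf (nat_lit 0) (nat_lit 621036874) (nat_lit 228) (nat_lit 30631922231) (nat_lit 304) (nat_lit 132831147) (nat_lit 114) (nat_lit 5) (nat_lit 117) (nat_lit 5) (nat_lit 118) (nat_lit 5) (nat_lit 667) (nat_lit 563) (nat_lit 330)) (XT.lf (nat_lit 0) (nat_lit 7898744652) (nat_lit 304) (nat_lit 11627439771) (nat_lit 76) (nat_lit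 12255696929) (nat_lit 113) (nat_lit 5) (nat_lit 117) (nat_lit 5) (nat_lit 114) (nat_lit 5) (nat_lit 668) (nat_lit 563) (nat_lit 329))))) (XT.nd (nat_lit 73008) (nat_lit 0) (nat_lit 31540) (XT.nd (nat_lit 78) (nat_lit 304) (nat_lit 0) (XT.lf (nat_lit 0) (nat_lit 7989118949) (nat_lit 304) (nat_lit 8147504396) (nat_lit 380) (nat_lit 16048304479) (nat_lit 109) (nat_lit 5) (nat_lit 113) (nat_lit 5) (nat_lit 114) (nat_lit 5) (nat_lit 669) (nat_lit 563) (nat_lit 328)) (XT.nd (nat_lit 78) (nat_lit 304) (nat_lit 0) (XT.lf (nat_lit 0) (nat_lit 24635856452) (nat_lit 380) (nat_lit 4469246105) (nat_lit 76) (nat_lit 3489000838) (nat_lit 109) (nat_lit 5) (nat_lit 114) (nat_lit 5) (nat_lit 110) (nat_lit 5) (nat_lit 670) (nat_lit 563) (nat_lit 327)) (XT.lf (nat_lit 0) (nat_lit 442979411) (nat_lit 304) (nat_lit 17213525229) (nat_lit 76) (nat_lit 15351855446) (nat_lit 105) (nat_lit 5) (nat_lit 109) (nat_lit 5) (nat_lit 106) (nat_lit 5) (nat_lit 671) (nat_lit 563) (nat_lit 326))))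 (XT.nd (nat_lit 156) (nat_lit 1672) (nat_lit 0) (XT.nd (nat_lit 78) (nat_lit 0) (nat_lit 0) (XT.lf (nat_lit 0) (nat_lit 2125249554) (nat_lit 0) (nat_lit 2125249554) (nat_lit 1596) (nat_lit 836026651) (nat_lit 542) (nat_lit 5) (nat_lit 542) (nat_lit 3) (nat_lit 563) (nat_lit 3) (nat_lit 564) (nat_lit 564) (nat_lit 432)) (XT.lf (nat_lit 0) (nat_lit 9266818158) (nat_lit 1596) (nat_lit 871351898) (nat_lit 1672) (nat_lit 122950838) (nat_lit 542) (nat_lit 5) (nat_lit 563) (nat_lit 3) (nat_lit 564) (nat_lit 5) (nat_lit 565) (nat_lit 564) (nat_lit 431))) (XT.nd (nat_lit 78) (nat_lit 1672) (nat_lit 0) (XT.lf (nat_lit 76) (nat_lit 4299781886) (nat_lit 0) (nat_lit 5786459877) (nat_lit 1672) (nat_lit 263945325) (nat_lit 543) (nat_lit 5) (nat_lit 542) (nat_lit 5) (nat_lit 564) (nat_lit 5) (nat_lit 566) (nat_lit 564) (nat_lit 430)) (XT.lf (nat_lit 0) (nat_lit 462989193) (nat_lit 1672) (nat_lit 867437598) (nat_lit 1748) (nat_lit 9110780912) (nat_lit 520) (nat_lit 5) (nat_lit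 542) (nat_lit 5) (nat_lit 543) (nat_lit 5) (nat_lit 567) (nat_lit 564) (nat_lit 429)))))) (XT.nd (nat_lit 546) (nat_lit 1368) (nat_lit 0) (XT.nd (nat_lit 234) (nat_lit 0) (nat_lit 76) (XT.nd (nat_lit 78) (nat_lit 0) (nat_lit 0) (XT.lf (nat_lit 0) (nat_lit 1233797497) (nat_lit 1672) (nat_lit 6088205912) (nat_lit 1748) (nat_lit 3211354154) (nat_lit 521) (nat_lit 5) (nat_lit 543) (nat_lit 5) (nat_lit 544) (nat_lit 5) (nat_lit 568) (nat_lit 564) (nat_lit 428)) (XT.nd (nat_lit 78) (nat_lit 0) (nat_lit 76) (XT.lf (nat_lit 0) (nat_lit 2017758651) (nat_lit 1672) (nat_lit 769983317) (nat_lit 1748) (nat_lit 7839654807) (nat_lit 521) (nat_lit 5) (nat_lit 543) (nat_lit 5) (nat_lit 544) (nat_lit 5) (nat_lit 569) (nat_lit 564) (nat_lit 427)) (XT.lf (nat_lit 0) (nat_lit 2843534694) (nat_lit 1672) (nat_lit 6028342331) (nat_lit 1748) (nat_lit 1850918101) (nat_lit 522) (nat_lit 5) (nat_lit 544) (nat_lit 5) (nat_lit 545) (nat_lit 5) (nat_lit 570) (nat_lit 564) (nat_lit 426))))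 (XT.nd (nat_lit 156) (nat_lit 0) (nat_lit 76) (XT.nd (nat_lit 78) (nat_lit 0) (nat_lit 76) (XT.lf (nat_lit 0) (nat_lit 3693197301) (nat_lit 1672) (nat_lit 569651605) (nat_lit 1748) (nat_lit 6557106163) (nat_lit 522) (nat_lit 5) (nat_lit 544) (nat_lit 5) (nat_lit 545) (nat_lit 5) (nat_lit 571) (nat_lit 564) (nat_lit 425)) (XT.lf (nat_lit 0) (nat_lit 4579805499) (nat_lit 1672) (nat_lit 5866898792) (nat_lit 1748) (nat_lit 471955900) (nat_lit 523) (nat_lit 5) (nat_lit 545) (nat_lit 5) (nat_lit 546) (nat_lit 5) (nat_lit 572) (nat_lit 564) (nat_lit 424))) (XT.nd (nat_lit 78) (nat_lit 0) (nat_lit 0) (XT.lf (nat_lit 0) (nat_lit 5500543712) (nat_lit 1672) (nat_lit 264068056) (nat_lit 1748) (nat_lit 5254400696) (nat_lit 523) (nat_lit 5) (nat_lit 545) (nat_lit 5) (nat_lit 546) (nat_lit 5) (nat_lit 573) (nat_lit 564) (nat_lit 423)) (XT.lf (nat_lit 76) (nat_lit 5513449336) (nat_lit 0) (nat_lit 946670878) (nat_lit 1748) (nat_lit 4660844086) (nat_lit 524) (nat_lit 5) (nat_lit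 523) (nat_lit 5) (nat_lit 546) (nat_lit 5) (nat_lit 574) (nat_lit 564) (nat_lit 422))))) (XT.nd (nat_lit 312) (nat_lit 1596) (nat_lit 0) (XT.nd (nat_lit 156) (nat_lit 0) (nat_lit 76) (XT.nd (nat_lit 78) (nat_lit 0) (nat_lit 0) (XT.lf (nat_lit 76) (nat_lit 151435104) (nat_lit 0) (nat_lit 7300881998) (nat_lit 1748) (nat_lit 3772370460) (nat_lit 525) (nat_lit 5) (nat_lit 524) (nat_lit 5) (nat_lit 547) (nat_lit 5) (nat_lit 575) (nat_lit 564) (nat_lit 421)) (XT.lf (nat_lit 76) (nat_lit 6085332715) (nat_lit 0) (nat_lit 2408015913) (nat_lit 1748) (nat_lit 2836557794) (nat_lit 525) (nat_lit 5) (nat_lit 524) (nat_lit 5) (nat_lit 547) (nat_lit 5) (nat_lit 576) (nat_lit 564) (nat_lit 420))) (XT.nd (nat_lit 78) (nat_lit 0) (nat_lit 0) (XT.lf (nat_lit 76) (nat_lit 682845276) (nat_lit 0) (nat_lit 8879014054) (nat_lit 1748) (nat_lit 1875238089) (nat_lit 526) (nat_lit 5) (nat_lit 525) (nat_lit 5) (nat_lit 548) (nat_lit 5) (nat_lit 577) (nat_lit 564) (nat_lit 419)) (XT.lf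 (nat_lit 76) (nat_lit 6773790758) (nat_lit 0) (nat_lit 3914662496) (nat_lit 1748) (nat_lit 857245633) (nat_lit 526) (nat_lit 5) (nat_lit 525) (nat_lit 5) (nat_lit 548) (nat_lit 5) (nat_lit 578) (nat_lit 564) (nat_lit 418)))) (XT.nd (nat_lit 156) (nat_lit 0) (nat_lit 0) (XT.nd (nat_lit 78) (nat_lit 0) (nat_lit 0) (XT.lf (nat_lit 0) (nat_lit 180825062) (nat_lit 1748) (nat_lit 10327624068) (nat_lit 1824) (nat_lit 1147958741) (nat_lit 503) (nat_lit 5) (nat_lit 526) (nat_lit 5) (nat_lit 527) (nat_lit 5) (nat_lit 579) (nat_lit 564) (nat_lit 417)) (XT.lf (nat_lit 0) (nat_lit 1272451545) (nat_lit 1748) (nat_lit 4194518720) (nat_lit 1824) (nat_lit 6301362842) (nat_lit 503) (nat_lit 5) (nat_lit 526) (nat_lit 5) (nat_lit 527) (nat_lit 5) (nat_lit 580) (nat_lit 564) (nat_lit 416))) (XT.nd (nat_lit 78) (nat_lit 0) (nat_lit 76) (XT.lf (nat_lit 76) (nat_lit 2078520606) (nat_lit 0) (nat_lit 307260737) (nat_lit 1824) (nat_lit 9496718931) (nat_lit 504) (nat_lit 5) (nat_lit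 503) (nat_lit 5) (nat_lit 527) (nat_lit 5) (nat_lit 581) (nat_lit 564) (nat_lit 415)) (XT.lf (nat_lit 0) (nat_lit 3568487983) (nat_lit 1748) (nat_lit 3507085602) (nat_lit 1824) (nat_lit 4922435819) (nat_lit 504) (nat_lit 5) (nat_lit 527) (nat_lit 5) (nat_lit 528) (nat_lit 5) (nat_lit 582) (nat_lit 564) (nat_lit 414))))))) (XT.nd (nat_lit 1170) (nat_lit 7220) (nat_lit 0) (XT.nd (nat_lit 546) (nat_lit 4712) (nat_lit 0) (XT.nd (nat_lit 234) (nat_lit 1596) (nat_lit 0) (XT.nd (nat_lit 78) (nat_lit 0) (nat_lit 76) (XT.lf (nat_lit 76) (nat_lit 2942285835) (nat_lit 0) (nat_lit 1840564843) (nat_lit 1824) (nat_lit 7332818810) (nat_lit 505) (nat_lit 5) (nat_lit 504) (nat_lit 5) (nat_lit 528) (nat_lit 5) (nat_lit 583) (nat_lit 564) (nat_lit 413)) (XT.nd (nat_lit 78) (nat_lit 0) (nat_lit 0) (XT.lf (nat_lit 0) (nat_lit 6054985878) (nat_lit 1748) (nat_lit 2700130033) (nat_lit 1824) (nat_lit 3479897952) (nat_lit 505) (nat_lit 5) (nat_lit 528) (nat_lit 5) (nat_lit 529) (nat_lit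 5) (nat_lit 584) (nat_lit 564) (nat_lit 412)) (XT.lf (nat_lit 76) (nat_lit 3931940639) (nat_lit 0) (nat_lit 3445670724) (nat_lit 1824) (nat_lit 4978633587) (nat_lit 506) (nat_lit 5) (nat_lit 505) (nat_lit 5) (nat_lit 529) (nat_lit 5) (nat_lit 585) (nat_lit 564) (nat_lit 411)))) (XT.nd (nat_lit 156) (nat_lit 1748) (nat_lit 0) (XT.nd (nat_lit 78) (nat_lit 0) (nat_lit 0) (XT.lf (nat_lit 0) (nat_lit 8745248765) (nat_lit 1748) (nat_lit 1769422761) (nat_lit 1824) (nat_lit 1964858708) (nat_lit 506) (nat_lit 5) (nat_lit 529) (nat_lit 5) (nat_lit 530) (nat_lit 5) (nat_lit 586) (nat_lit 564) (nat_lit 410)) (XT.lf (nat_lit 76) (nat_lit 5051967535) (nat_lit 0) (nat_lit 5131665436) (nat_lit 1824) (nat_lit 2420781119) (nat_lit 507) (nat_lit 5) (nat_lit 506) (nat_lit 5) (nat_lit 530) (nat_lit 5) (nat_lit 587) (nat_lit 564) (nat_lit 409))) (XT.nd (nat_lit 78) (nat_lit 1824) (nat_lit 0) (XT.lf (nat_lit 0) (nat_lit 11653031056) (nat_lit 1748) (nat_lit 710413702) (nat_lit 76)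 (nat_lit 368306676) (nat_lit 507) (nat_lit 5) (nat_lit 530) (nat_lit 5) (nat_lit 508) (nat_lit 5) (nat_lit 588) (nat_lit 564) (nat_lit 408)) (XT.lf (nat_lit 0) (nat_lit 349927067) (nat_lit 1824) (nat_lit 6555497012) (nat_lit 76) (nat_lit 5954903440) (nat_lit 483) (nat_lit 5) (nat_lit 507) (nat_lit 5) (nat_lit 484) (nat_lit 5) (nat_lit 589) (nat_lit 564) (nat_lit 407))))) (XT.nd (nat_lit 312) (nat_lit 1824) (nat_lit 0) (XT.nd (nat_lit 156) (nat_lit 1064) (nat_lit 0) (XT.nd (nat_lit 78) (nat_lit 0) (nat_lit 0) (XT.lf (nat_lit 0) (nat_lit 467478523) (nat_lit 1824) (nat_lit 1321360373) (nat_lit 1900) (nat_lit 11202571607) (nat_lit 459) (nat_lit 5) (nat_lit 483) (nat_lit 5) (nat_lit 484) (nat_lit 5) (nat_lit 590) (nat_lit 564) (nat_lit 406)) (XT.lf (nat_lit 0) (nat_lit 3317674773) (nat_lit 1900) (nat_lit 5443434720) (nat_lit 76) (nat_lit 4362783413) (nat_lit 459) (nat_lit 5) (nat_lit 484) (nat_lit 5) (nat_lit 460) (nat_lit 5) (nat_lit 591) (nat_lit 564) (nat_lit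 405))) (XT.nd (nat_lit 78) (nat_lit 0) (nat_lit 0) (XT.lf (nat_lit 0) (nat_lit 1783229013) (nat_lit 1064) (nat_lit 3102875462) (nat_lit 1140) (nat_lit 8372740804) (nat_lit 445) (nat_lit 5) (nat_lit 459) (nat_lit 5) (nat_lit 460) (nat_lit 5) (nat_lit 592) (nat_lit 564) (nat_lit 404)) (XT.lf (nat_lit 0) (nat_lit 6528851474) (nat_lit 1140) (nat_lit 4195365601) (nat_lit 76) (nat_lit 2671421302) (nat_lit 445) (nat_lit 5) (nat_lit 460) (nat_lit 5) (nat_lit 446) (nat_lit 5) (nat_lit 593) (nat_lit 564) (nat_lit 403)))) (XT.nd (nat_lit 156) (nat_lit 912) (nat_lit 0) (XT.nd (nat_lit 78) (nat_lit 0) (nat_lit 0) (XT.lf (nat_lit 0) (nat_lit 3242422117) (nat_lit 912) (nat_lit 4992703327) (nat_lit 988) (nat_lit 5299429089) (nat_lit 433) (nat_lit 5) (nat_lit 445) (nat_lit 5) (nat_lit 446) (nat_lit 5) (nat_lit 594) (nat_lit 564) (nat_lit 402)) (XT.lf (nat_lit 0) (nat_lit 9998631494) (nat_lit 988) (nat_lit 2805778023) (nat_lit 76) (nat_lit 871377990) (nat_lit 433) (nat_lit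 5) (nat_lit 446) (nat_lit 5) (nat_lit 434) (nat_lit 5) (nat_lit 595) (nat_lit 564) (nat_lit 401))) (XT.nd (nat_lit 78) (nat_lit 0) (nat_lit 0) (XT.lf (nat_lit 0) (nat_lit 4850859683) (nat_lit 912) (nat_lit 7000544437) (nat_lit 988) (nat_lit 1967361704) (nat_lit 421) (nat_lit 5) (nat_lit 433) (nat_lit 5) (nat_lit 434) (nat_lit 5) (nat_lit 596) (nat_lit 564) (nat_lit 400)) (XT.lf (nat_lit 0) (nat_lit 12688729579) (nat_lit 912) (nat_lit 1060910683) (nat_lit 988) (nat_lit 214795885) (nat_lit 421) (nat_lit 5) (nat_lit 433) (nat_lit 5) (nat_lit 434) (nat_lit 5) (nat_lit 597) (nat_lit 564) (nat_lit 399)))))) (XT.nd (nat_lit 546) (nat_lit 3800) (nat_lit 0) (XT.nd (nat_lit 234) (nat_lit 1672) (nat_lit 0) (XT.nd (nat_lit 78) (nat_lit 836) (nat_lit 0) (XT.lf (nat_lit 0) (nat_lit 1617805908) (nat_lit 912) (nat_lit 7507664418) (nat_lit 76) (nat_lit 4986033643) (nat_lit 409) (nat_lit 5) (nat_lit 421) (nat_lit 5) (nat_lit 410) (nat_lit 5) (nat_lit 598) (nat_lit 564) (nat_lit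 398)) (XT.nd (nat_lit 78) (nat_lit 0) (nat_lit 0) (XT.lf (nat_lit 0) (nat_lit 383434137) (nat_lit 836) (nat_lit 3108740955) (nat_lit 912) (nat_lit 10769150397) (nat_lit 398) (nat_lit 5) (nat_lit 409) (nat_lit 5) (nat_lit 410) (nat_lit 5) (nat_lit 599) (nat_lit 564) (nat_lit 397)) (XT.lf (nat_lit 0) (nat_lit 5464398263) (nat_lit 912) (nat_lit 5909160345) (nat_lit 76) (nat_lit 3039378054) (nat_lit 398) (nat_lit 5) (nat_lit 410) (nat_lit 5) (nat_lit 399) (nat_lit 5) (nat_lit 600) (nat_lit 564) (nat_lit 396)))) (XT.nd (nat_lit 156) (nat_lit 836) (nat_lit 0) (XT.nd (nat_lit 78) (nat_lit 0) (nat_lit 0) (XT.lf (nat_lit 0) (nat_lit 2217487379) (nat_lit 836) (nat_lit 5283750561) (nat_lit 912) (nat_lit 7065839223) (nat_lit 387) (nat_lit 5) (nat_lit 398) (nat_lit 5) (nat_lit 399) (nat_lit 5) (nat_lit 601) (nat_lit 564) (nat_lit 395)) (XT.lf (nat_lit 0) (nat_lit 9615068693) (nat_lit 912) (nat_lit 4153106361) (nat_lit 76) (nat_lit 955400868) (nat_lit 387) (nat_lit 5) (nat_lit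 399) (nat_lit 5) (nat_lit 388) (nat_lit 5) (nat_lit 602) (nat_lit 564) (nat_lit 394))) (XT.nd (nat_lit 78) (nat_lit 0) (nat_lit 0) (XT.lf (nat_lit 0) (nat_lit 4217748798) (nat_lit 836) (nat_lit 7606307191) (nat_lit 912) (nat_lit 3058091591) (nat_lit 376) (nat_lit 5) (nat_lit 387) (nat_lit 5) (nat_lit 388) (nat_lit 5) (nat_lit 603) (nat_lit 564) (nat_lit 393)) (XT.lf (nat_lit 0) (nat_lit 12802499791) (nat_lit 836) (nat_lit 1293219010) (nat_lit 912) (nat_lit 947802469) (nat_lit 376) (nat_lit 5) (nat_lit 387) (nat_lit 5) (nat_lit 388) (nat_lit 5) (nat_lit 604) (nat_lit 564) (nat_lit 392))))) (XT.nd (nat_lit 312) (nat_lit 1520) (nat_lit 0) (XT.nd (nat_lit 156) (nat_lit 1444) (nat_lit 0) (XT.nd (nat_lit 78) (nat_lit 0) (nat_lit 0) (XT.lf (nat_lit 0) (nat_lit 1255044096) (nat_lit 836) (nat_lit 8823636148) (nat_lit 76) (nat_lit 5127963221) (nat_lit 365) (nat_lit 5) (nat_lit 376) (nat_lit 5) (nat_lit 366) (nat_lit 5) (nat_lit 605) (nat_lit 564) (nat_lit 391)) (XT.lf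 (nat_lit 0) (nat_lit 3503834391) (nat_lit 836) (nat_lit 187637878) (nat_lit 76) (nat_lit 11681139462) (nat_lit 365) (nat_lit 5) (nat_lit 376) (nat_lit 5) (nat_lit 366) (nat_lit 5) (nat_lit 606) (nat_lit 564) (nat_lit 390))) (XT.nd (nat_lit 78) (nat_lit 684) (nat_lit 0) (XT.lf (nat_lit 0) (nat_lit 5863999730) (nat_lit 836) (nat_lit 6833797571) (nat_lit 76) (nat_lit 2842774550) (nat_lit 355) (nat_lit 5) (nat_lit 366) (nat_lit 5) (nat_lit 356) (nat_lit 5) (nat_lit 607) (nat_lit 564) (nat_lit 389)) (XT.lf (nat_lit 0) (nat_lit 2062568524) (nat_lit 684) (nat_lit 6239056805) (nat_lit 760) (nat_lit 7409661171) (nat_lit 346) (nat_lit 5) (nat_lit 355) (nat_lit 5) (nat_lit 356) (nat_lit 5) (nat_lit 608) (nat_lit 564) (nat_lit 388)))) (XT.nd (nat_lit 156) (nat_lit 760) (nat_lit 0) (XT.nd (nat_lit 78) (nat_lit 760) (nat_lit 0) (XT.lf (nat_lit 0) (nat_lit 10827685695) (nat_lit 760) (nat_lit 4667455104) (nat_lit 76) (nat_lit 389481453) (nat_lit 346) (nat_lit 5) (nat_lit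 356) (nat_lit 5) (nat_lit 347) (nat_lit 5) (nat_lit 609) (nat_lit 564) (nat_lit 387)) (XT.lf (nat_lit 0) (nat_lit 4501462079) (nat_lit 760) (nat_lit 8964776547) (nat_lit 836) (nat_lit 2593947112) (nat_lit 336) (nat_lit 5) (nat_lit 346) (nat_lit 5) (nat_lit 347) (nat_lit 5) (nat_lit 610) (nat_lit 564) (nat_lit 386))) (XT.nd (nat_lit 78) (nat_lit 760) (nat_lit 0) (XT.lf (nat_lit 0) (nat_lit 13907399766) (nat_lit 760) (nat_lit 2273016160) (nat_lit 836) (nat_lit 58387941) (nat_lit 336) (nat_lit 5) (nat_lit 346) (nat_lit 5) (nat_lit 347) (nat_lit 5) (nat_lit 611) (nat_lit 564) (nat_lit 385)) (XT.lf (nat_lit 0) (nat_lit 2562749505) (nat_lit 760) (nat_lit 9301621525) (nat_lit 76) (nat_lit 4554935081) (nat_lit 326) (nat_lit 5) (nat_lit 336) (nat_lit 5) (nat_lit 327) (nat_lit 5) (nat_lit 612) (nat_lit 564) (nat_lit 384))))))))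
noncomputable def xc162 : XT := (XT.nd (nat_lit 2262) (nat_lit 6764) (nat_lit 0) (XT.nd (nat_lit 1092) (nat_lit 4636) (nat_lit 0) (XT.nd (nat_lit 546) (nat_lit 2432) (nat_lit 0) (XT.nd (nat_lit 234) (nat_lit 1368) (nat_lit 0) (XT.nd (nat_lit 78) (nat_lit 608) (nat_lit 0) (XT.lf (nat_lit 0) (nat_lit 161179020) (nat_lit 684) (nat_lit 5097934862) (nat_lit 760) (nat_lit 11343825491) (nat_lit 317) (nat_lit 5) (nat_lit 326) (nat_lit 5) (nat_lit 327) (nat_lit 5) (nat_lit 613) (nat_lit 564) (nat_lit 383)) (XT.nd (nat_lit 78) (nat_lit 608) (nat_lit 0) (XT.lf (nat_lit 0) (nat_lit 8075777106) (nat_lit 760) (nat_lit 6871535312) (nat_lit 76) (nat_lit 1841605857) (nat_lit 317) (nat_lit 5) (nat_lit 327) (nat_lit 5) (nat_lit 318) (nat_lit 5) (nat_lit 614) (nat_lit 564) (nat_lit 382)) (XT.lf (nat_lit 0) (nat_lit 2884621420) (nat_lit 608) (nat_lit 8108630199) (nat_lit 684) (nat_lit 5984475970) (nat_lit 309) (nat_lit 5) (nat_lit 317) (nat_lit 5) (nat_lit 318) (nat_lit 5) (nat_lit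 615) (nat_lit 564) (nat_lit 381)))) (XT.nd (nat_lit 156) (nat_lit 684) (nat_lit 0) (XT.nd (nat_lit 78) (nat_lit 684) (nat_lit 0) (XT.lf (nat_lit 0) (nat_lit 12919565565) (nat_lit 608) (nat_lit 1087705209) (nat_lit 684) (nat_lit 3162278803) (nat_lit 309) (nat_lit 5) (nat_lit 317) (nat_lit 5) (nat_lit 318) (nat_lit 5) (nat_lit 616) (nat_lit 564) (nat_lit 380)) (XT.lf (nat_lit 0) (nat_lit 5817422105) (nat_lit 684) (nat_lit 11333581655) (nat_lit 760) (nat_lit 212815956) (nat_lit 300) (nat_lit 5) (nat_lit 309) (nat_lit 5) (nat_lit 310) (nat_lit 5) (nat_lit 617) (nat_lit 564) (nat_lit 379))) (XT.nd (nat_lit 78) (nat_lit 608) (nat_lit 0) (XT.lf (nat_lit 0) (nat_lit 2787151776) (nat_lit 760) (nat_lit 1452644138) (nat_lit 76) (nat_lit 13321253071) (nat_lit 299) (nat_lit 5) (nat_lit 309) (nat_lit 5) (nat_lit 300) (nat_lit 5) (nat_lit 618) (nat_lit 564) (nat_lit 378)) (XT.lf (nat_lit 0) (nat_lit 5914633808) (nat_lit 684) (nat_lit 8831363245) (nat_lit 76) (nat_lit 3014790719)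 (nat_lit 291) (nat_lit 5) (nat_lit 300) (nat_lit 5) (nat_lit 292) (nat_lit 5) (nat_lit 619) (nat_lit 564) (nat_lit 377))))) (XT.nd (nat_lit 234) (nat_lit 1216) (nat_lit 0) (XT.nd (nat_lit 78) (nat_lit 608) (nat_lit 0) (XT.lf (nat_lit 0) (nat_lit 1557408489) (nat_lit 608) (nat_lit 7587757373) (nat_lit 684) (nat_lit 8818545818) (nat_lit 283) (nat_lit 5) (nat_lit 291) (nat_lit 5) (nat_lit 292) (nat_lit 5) (nat_lit 620) (nat_lit 564) (nat_lit 376)) (XT.nd (nat_lit 78) (nat_lit 608) (nat_lit 0) (XT.lf (nat_lit 0) (nat_lit 12264355091) (nat_lit 608) (nat_lit 227801174) (nat_lit 684) (nat_lit 5677501193) (nat_lit 283) (nat_lit 5) (nat_lit 291) (nat_lit 5) (nat_lit 292) (nat_lit 5) (nat_lit 621) (nat_lit 564) (nat_lit 375)) (XT.lf (nat_lit 0) (nat_lit 4812307252) (nat_lit 608) (nat_lit 11165004246) (nat_lit 684) (nat_lit 2400986491) (nat_lit 275) (nat_lit 5) (nat_lit 283) (nat_lit 5) (nat_lit 284) (nat_lit 5) (nat_lit 622) (nat_lit 564) (nat_lit 374)))) (XT.nd (nat_lit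 156) (nat_lit 532) (nat_lit 0) (XT.nd (nat_lit 78) (nat_lit 608) (nat_lit 0) (XT.lf (nat_lit 0) (nat_lit 962868064) (nat_lit 684) (nat_lit 2783181606) (nat_lit 76) (nat_lit 14844256753) (nat_lit 274) (nat_lit 5) (nat_lit 283) (nat_lit 5) (nat_lit 275) (nat_lit 5) (nat_lit 623) (nat_lit 564) (nat_lit 373)) (XT.lf (nat_lit 0) (nat_lit 4433918355) (nat_lit 684) (nat_lit 10531450154) (nat_lit 76) (nat_lit 3839428067) (nat_lit 266) (nat_lit 5) (nat_lit 275) (nat_lit 5) (nat_lit 267) (nat_lit 5) (nat_lit 624) (nat_lit 564) (nat_lit 372))) (XT.nd (nat_lit 78) (nat_lit 0) (nat_lit 0) (XT.lf (nat_lit 0) (nat_lit 538474908) (nat_lit 532) (nat_lit 7475981844) (nat_lit 608) (nat_lit 11008318751) (nat_lit 259) (nat_lit 5) (nat_lit 266) (nat_lit 5) (nat_lit 267) (nat_lit 5) (nat_lit 625) (nat_lit 564) (nat_lit 371)) (XT.lf (nat_lit 0) (nat_lit 11731832160) (nat_lit 608) (nat_lit 7281922206) (nat_lit 76) (nat_lit 230055426) (nat_lit 259) (nat_lit 5) (nat_lit 267) (nat_lit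 5) (nat_lit 260) (nat_lit 5) (nat_lit 626) (nat_lit 564) (nat_lit 370)))))) (XT.nd (nat_lit 546) (nat_lit 2508) (nat_lit 0) (XT.nd (nat_lit 234) (nat_lit 988) (nat_lit 0) (XT.nd (nat_lit 78) (nat_lit 608) (nat_lit 0) (XT.lf (nat_lit 0) (nat_lit 4140226000) (nat_lit 532) (nat_lit 11452883795) (nat_lit 608) (nat_lit 3874764177) (nat_lit 252) (nat_lit 5) (nat_lit 259) (nat_lit 5) (nat_lit 260) (nat_lit 5) (nat_lit 627) (nat_lit 564) (nat_lit 369)) (XT.nd (nat_lit 78) (nat_lit 608) (nat_lit 0) (XT.lf (nat_lit 0) (nat_lit 15880517453) (nat_lit 532) (nat_lit 3693200430) (nat_lit 608) (nat_lit 121859749) (nat_lit 252) (nat_lit 5) (nat_lit 259) (nat_lit 5) (nat_lit 260) (nat_lit 5) (nat_lit 628) (nat_lit 564) (nat_lit 368)) (XT.lf (nat_lit 0) (nat_lit 3730662417) (nat_lit 608) (nat_lit 11954633541) (nat_lit 76) (nat_lit 4240595125) (nat_lit 244) (nat_lit 5) (nat_lit 252) (nat_lit 5) (nat_lit 245) (nat_lit 5) (nat_lit 629) (nat_lit 564) (nat_lit 367)))) (XT.nd (nat_lit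 156) (nat_lit 456) (nat_lit 0) (XT.nd (nat_lit 78) (nat_lit 532) (nat_lit 0) (XT.lf (nat_lit 0) (nat_lit 7702220088) (nat_lit 608) (nat_lit 149697153) (nat_lit 76) (nat_lit 12308005393) (nat_lit 244) (nat_lit 5) (nat_lit 252) (nat_lit 5) (nat_lit 245) (nat_lit 5) (nat_lit 630) (nat_lit 564) (nat_lit 366)) (XT.lf (nat_lit 0) (nat_lit 11826298995) (nat_lit 608) (nat_lit 8358153391) (nat_lit 76) (nat_lit 212720902) (nat_lit 237) (nat_lit 5) (nat_lit 245) (nat_lit 5) (nat_lit 238) (nat_lit 5) (nat_lit 631) (nat_lit 564) (nat_lit 365))) (XT.nd (nat_lit 78) (nat_lit 0) (nat_lit 0) (XT.lf (nat_lit 0) (nat_lit 3823674976) (nat_lit 456) (nat_lit 12280592237) (nat_lit 532) (nat_lit 4533473854) (nat_lit 231) (nat_lit 5) (nat_lit 237) (nat_lit 5) (nat_lit 238) (nat_lit 5) (nat_lit 632) (nat_lit 564) (nat_lit 364)) (XT.lf (nat_lit 0) (nat_lit 16353636449) (nat_lit 456) (nat_lit 4163886120) (nat_lit 532) (nat_lit 364603338) (nat_lit 231) (nat_lit 5) (nat_lit 237) (nat_lit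 5) (nat_lit 238) (nat_lit 5) (nat_lit 633) (nat_lit 564) (nat_lit 363))))) (XT.nd (nat_lit 312) (nat_lit 988) (nat_lit 0) (XT.nd (nat_lit 156) (nat_lit 912) (nat_lit 0) (XT.nd (nat_lit 78) (nat_lit 0) (nat_lit 0) (XT.lf (nat_lit 0) (nat_lit 3910024227) (nat_lit 608) (nat_lit 13082439965) (nat_lit 76) (nat_lit 4136962346) (nat_lit 223) (nat_lit 5) (nat_lit 231) (nat_lit 5) (nat_lit 224) (nat_lit 5) (nat_lit 634) (nat_lit 564) (nat_lit 362)) (XT.lf (nat_lit 0) (nat_lit 8317206404) (nat_lit 608) (nat_lit 484662460) (nat_lit 76) (nat_lit 12578717480) (nat_lit 223) (nat_lit 5) (nat_lit 231) (nat_lit 5) (nat_lit 224) (nat_lit 5) (nat_lit 635) (nat_lit 564) (nat_lit 361))) (XT.nd (nat_lit 78) (nat_lit 456) (nat_lit 0) (XT.lf (nat_lit 0) (nat_lit 12520690726) (nat_lit 456) (nat_lit 367030532) (nat_lit 532) (nat_lit 8747544549) (nat_lit 217) (nat_lit 5) (nat_lit 223) (nat_lit 5) (nat_lit 224) (nat_lit 5) (nat_lit 636) (nat_lit 564) (nat_lit 360)) (XT.lf (nat_lit 0)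 (nat_lit 3886582444) (nat_lit 456) (nat_lit 13738993440) (nat_lit 532) (nat_lit 4267944624) (nat_lit 211) (nat_lit 5) (nat_lit 217) (nat_lit 5) (nat_lit 218) (nat_lit 5) (nat_lit 637) (nat_lit 564) (nat_lit 359)))) (XT.nd (nat_lit 156) (nat_lit 456) (nat_lit 0) (XT.nd (nat_lit 78) (nat_lit 456) (nat_lit 0) (XT.lf (nat_lit 0) (nat_lit 355263277) (nat_lit 532) (nat_lit 4897857906) (nat_lit 76) (nat_lit 16902620892) (nat_lit 210) (nat_lit 5) (nat_lit 217) (nat_lit 5) (nat_lit 211) (nat_lit 5) (nat_lit 638) (nat_lit 564) (nat_lit 358)) (XT.lf (nat_lit 0) (nat_lit 5086060182) (nat_lit 532) (nat_lit 13895515375) (nat_lit 76) (nat_lit 3439623064) (nat_lit 204) (nat_lit 5) (nat_lit 211) (nat_lit 5) (nat_lit 205) (nat_lit 5) (nat_lit 639) (nat_lit 564) (nat_lit 357))) (XT.nd (nat_lit 78) (nat_lit 456) (nat_lit 0) (XT.lf (nat_lit 0) (nat_lit 9973477036) (nat_lit 532) (nat_lit 450764131) (nat_lit 76) (nat_lit 12266483271) (nat_lit 204) (nat_lit 5) (nat_lit 211) (nat_lit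 5) (nat_lit 205) (nat_lit 5) (nat_lit 640) (nat_lit 564) (nat_lit 356)) (XT.lf (nat_lit 0) (nat_lit 13430657422) (nat_lit 456) (nat_lit 1609430894) (nat_lit 532) (nat_lit 7923923748) (nat_lit 198) (nat_lit 5) (nat_lit 204) (nat_lit 5) (nat_lit 205) (nat_lit 5) (nat_lit 641) (nat_lit 564) (nat_lit 355))))))) (XT.nd (nat_lit 1092) (nat_lit 3116) (nat_lit 0) (XT.nd (nat_lit 546) (nat_lit 1900) (nat_lit 0) (XT.nd (nat_lit 234) (nat_lit 836) (nat_lit 0) (XT.nd (nat_lit 78) (nat_lit 532) (nat_lit 0) (XT.lf (nat_lit 0) (nat_lit 4353855261) (nat_lit 380) (nat_lit 15927703504) (nat_lit 456) (nat_lit 2959736349) (nat_lit 193) (nat_lit 5) (nat_lit 198) (nat_lit 5) (nat_lit 199) (nat_lit 5) (nat_lit 642) (nat_lit 564) (nat_lit 354)) (XT.nd (nat_lit 78) (nat_lit 456) (nat_lit 0) (XT.lf (nat_lit 0) (nat_lit 2145507212) (nat_lit 456) (nat_lit 4907981614) (nat_lit 76) (nat_lit 16468974758) (nat_lit 192) (nat_lit 5) (nat_lit 198) (nat_lit 5) (nat_lit 193) (nat_lit 5) (nat_lit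 643) (nat_lit 564) (nat_lit 353)) (XT.lf (nat_lit 0) (nat_lit 7382509843) (nat_lit 532) (nat_lit 14374142912) (nat_lit 76) (nat_lit 2050825890) (nat_lit 186) (nat_lit 5) (nat_lit 193) (nat_lit 5) (nat_lit 187) (nat_lit 5) (nat_lit 644) (nat_lit 564) (nat_lit 352)))) (XT.nd (nat_lit 156) (nat_lit 456) (nat_lit 0) (XT.nd (nat_lit 78) (nat_lit 380) (nat_lit 0) (XT.lf (nat_lit 0) (nat_lit 12798575201) (nat_lit 532) (nat_lit 24763122) (nat_lit 76) (nat_lit 11273369424) (nat_lit 186) (nat_lit 5) (nat_lit 193) (nat_lit 5) (nat_lit 187) (nat_lit 5) (nat_lit 645) (nat_lit 564) (nat_lit 351)) (XT.lf (nat_lit 0) (nat_lit 14797533171) (nat_lit 380) (nat_lit 3616070347) (nat_lit 456) (nat_lit 5976305271) (nat_lit 181) (nat_lit 5) (nat_lit 186) (nat_lit 5) (nat_lit 187) (nat_lit 5) (nat_lit 646) (nat_lit 564) (nat_lit 350))) (XT.nd (nat_lit 78) (nat_lit 76) (nat_lit 0) (XT.lf (nat_lit 0) (nat_lit 5250827611) (nat_lit 380) (nat_lit 18956463952) (nat_lit 456) (nat_lit 480355293)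 (nat_lit 176) (nat_lit 5) (nat_lit 181) (nat_lit 5) (nat_lit 182) (nat_lit 5) (nat_lit 647) (nat_lit 564) (nat_lit 349)) (XT.lf (nat_lit 0) (nat_lit 5141655487) (nat_lit 456) (nat_lit 4534980087) (nat_lit 76) (nat_lit 15312371448) (nat_lit 175) (nat_lit 5) (nat_lit 181) (nat_lit 5) (nat_lit 176) (nat_lit 5) (nat_lit 648) (nat_lit 564) (nat_lit 348))))) (XT.nd (nat_lit 234) (nat_lit 1140) (nat_lit 0) (XT.nd (nat_lit 78) (nat_lit 380) (nat_lit 0) (XT.lf (nat_lit 0) (nat_lit 10795259333) (nat_lit 380) (nat_lit 139236846) (nat_lit 456) (nat_lit 14360538453) (nat_lit 170) (nat_lit 5) (nat_lit 175) (nat_lit 5) (nat_lit 176) (nat_lit 5) (nat_lit 649) (nat_lit 564) (nat_lit 347)) (XT.nd (nat_lit 78) (nat_lit 0) (nat_lit 0) (XT.lf (nat_lit 0) (nat_lit 827322672) (nat_lit 380) (nat_lit 16108893051) (nat_lit 456) (nat_lit 8669106802) (nat_lit 165) (nat_lit 5) (nat_lit 170) (nat_lit 5) (nat_lit 171) (nat_lit 5) (nat_lit 650) (nat_lit 564) (nat_lit 346)) (XT.lf (nat_lit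 0) (nat_lit 16648558669) (nat_lit 380) (nat_lit 6502438154) (nat_lit 456) (nat_lit 2768958979) (nat_lit 165) (nat_lit 5) (nat_lit 170) (nat_lit 5) (nat_lit 171) (nat_lit 5) (nat_lit 651) (nat_lit 564) (nat_lit 345)))) (XT.nd (nat_lit 156) (nat_lit 684) (nat_lit 0) (XT.nd (nat_lit 78) (nat_lit 0) (nat_lit 0) (XT.lf (nat_lit 0) (nat_lit 3266132616) (nat_lit 456) (nat_lit 19658599956) (nat_lit 76) (nat_lit 3314536327) (nat_lit 159) (nat_lit 5) (nat_lit 165) (nat_lit 5) (nat_lit 160) (nat_lit 5) (nat_lit 652) (nat_lit 564) (nat_lit 344)) (XT.lf (nat_lit 0) (nat_lit 9485483826) (nat_lit 456) (nat_lit 3758043494) (nat_lit 76) (nat_lit 13319062358) (nat_lit 159) (nat_lit 5) (nat_lit 165) (nat_lit 5) (nat_lit 160) (nat_lit 5) (nat_lit 653) (nat_lit 564) (nat_lit 343))) (XT.nd (nat_lit 78) (nat_lit 304) (nat_lit 0) (XT.lf (nat_lit 0) (nat_lit 12618210154) (nat_lit 380) (nat_lit 3287946520) (nat_lit 456) (nat_lit 10984681663) (nat_lit 154) (nat_lit 5) (nat_lit 159)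 (nat_lit 5) (nat_lit 160) (nat_lit 5) (nat_lit 654) (nat_lit 564) (nat_lit 342)) (XT.lf (nat_lit 0) (nat_lit 2123042667) (nat_lit 304) (nat_lit 20410991558) (nat_lit 380) (nat_lit 4690042072) (nat_lit 150) (nat_lit 5) (nat_lit 154) (nat_lit 5) (nat_lit 155) (nat_lit 5) (nat_lit 655) (nat_lit 564) (nat_lit 341)))))) (XT.nd (nat_lit 546) (nat_lit 1596) (nat_lit 0) (XT.nd (nat_lit 234) (nat_lit 1064) (nat_lit 0) (XT.nd (nat_lit 78) (nat_lit 380) (nat_lit 0) (XT.lf (nat_lit 0) (nat_lit 1821032412) (nat_lit 380) (nat_lit 8563459418) (nat_lit 76) (nat_lit 17176997868) (nat_lit 149) (nat_lit 5) (nat_lit 154) (nat_lit 5) (nat_lit 150) (nat_lit 5) (nat_lit 656) (nat_lit 564) (nat_lit 340)) (XT.nd (nat_lit 78) (nat_lit 0) (nat_lit 0) (XT.lf (nat_lit 0) (nat_lit 8375964710) (nat_lit 380) (nat_lit 73154234) (nat_lit 456) (nat_lit 19454920739) (nat_lit 144) (nat_lit 5) (nat_lit 149) (nat_lit 5) (nat_lit 150) (nat_lit 5) (nat_lit 657) (nat_lit 564) (nat_lit 339)) (XT.lf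 (nat_lit 0) (nat_lit 15330601392) (nat_lit 456) (nat_lit 2557947871) (nat_lit 76) (nat_lit 10362474863) (nat_lit 144) (nat_lit 5) (nat_lit 150) (nat_lit 5) (nat_lit 145) (nat_lit 5) (nat_lit 658) (nat_lit 564) (nat_lit 338)))) (XT.nd (nat_lit 156) (nat_lit 304) (nat_lit 0) (XT.nd (nat_lit 78) (nat_lit 456) (nat_lit 0) (XT.lf (nat_lit 0) (nat_lit 14939461251) (nat_lit 304) (nat_lit 7503004438) (nat_lit 380) (nat_lit 6160627664) (nat_lit 140) (nat_lit 5) (nat_lit 144) (nat_lit 5) (nat_lit 145) (nat_lit 5) (nat_lit 659) (nat_lit 564) (nat_lit 337)) (XT.lf (nat_lit 0) (nat_lit 782963722) (nat_lit 456) (nat_lit 25083416321) (nat_lit 76) (nat_lit 3094564061) (nat_lit 134) (nat_lit 5) (nat_lit 140) (nat_lit 5) (nat_lit 135) (nat_lit 5) (nat_lit 660) (nat_lit 564) (nat_lit 336))) (XT.nd (nat_lit 78) (nat_lit 304) (nat_lit 0) (XT.lf (nat_lit 0) (nat_lit 7920307983) (nat_lit 456) (nat_lit 7468095839) (nat_lit 76) (nat_lit 13933986307) (nat_lit 134) (nat_lit 5) (nat_lit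 140) (nat_lit 5) (nat_lit 135) (nat_lit 5) (nat_lit 661) (nat_lit 564) (nat_lit 335)) (XT.lf (nat_lit 0) (nat_lit 10631506425) (nat_lit 304) (nat_lit 4633320070) (nat_lit 380) (nat_lit 14424950161) (nat_lit 130) (nat_lit 5) (nat_lit 134) (nat_lit 5) (nat_lit 135) (nat_lit 5) (nat_lit 662) (nat_lit 564) (nat_lit 334))))) (XT.nd (nat_lit 312) (nat_lit 912) (nat_lit 0) (XT.nd (nat_lit 156) (nat_lit 304) (nat_lit 0) (XT.nd (nat_lit 78) (nat_lit 380) (nat_lit 0) (XT.lf (nat_lit 0) (nat_lit 22843249383) (nat_lit 380) (nat_lit 918133324) (nat_lit 76) (nat_lit 6301388052) (nat_lit 130) (nat_lit 5) (nat_lit 135) (nat_lit 5) (nat_lit 131) (nat_lit 5) (nat_lit 663) (nat_lit 564) (nat_lit 333)) (XT.lf (nat_lit 0) (nat_lit 270886153) (nat_lit 380) (nat_lit 12662200340) (nat_lit 76) (nat_lit 17507269982) (nat_lit 125) (nat_lit 5) (nat_lit 130) (nat_lit 5) (nat_lit 126) (nat_lit 5) (nat_lit 664) (nat_lit 564) (nat_lit 332))) (XT.nd (nat_lit 78) (nat_lit 0) (nat_lit 0) (XT.lf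 (nat_lit 0) (nat_lit 6059721331) (nat_lit 304) (nat_lit 1795872108) (nat_lit 380) (nat_lit 22968122943) (nat_lit 121) (nat_lit 5) (nat_lit 125) (nat_lit 5) (nat_lit 126) (nat_lit 5) (nat_lit 665) (nat_lit 564) (nat_lit 331)) (XT.lf (nat_lit 0) (nat_lit 15735170717) (nat_lit 380) (nat_lit 5955351225) (nat_lit 76) (nat_lit 9521358145) (nat_lit 121) (nat_lit 5) (nat_lit 126) (nat_lit 5) (nat_lit 122) (nat_lit 5) (nat_lit 666) (nat_lit 564) (nat_lit 330)))) (XT.nd (nat_lit 156) (nat_lit 304) (nat_lit 0) (XT.nd (nat_lit 78) (nat_lit 304) (nat_lit 0) (XT.lf (nat_lit 0) (nat_lit 13385906421) (nat_lit 304) (nat_lit 10480870520) (nat_lit 380) (nat_lit 7739141491) (nat_lit 117) (nat_lit 5) (nat_lit 121) (nat_lit 5) (nat_lit 122) (nat_lit 5) (nat_lit 667) (nat_lit 564) (nat_lit 329)) (XT.lf (nat_lit 0) (nat_lit 201292067) (nat_lit 304) (nat_lit 30818584244) (nat_lit 76) (nat_lit 986938987) (nat_lit 113) (nat_lit 5) (nat_lit 117) (nat_lit 5) (nat_lit 114) (nat_lit 5)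 (nat_lit 668) (nat_lit 564) (nat_lit 328))) (XT.nd (nat_lit 78) (nat_lit 304) (nat_lit 0) (XT.lf (nat_lit 0) (nat_lit 8385153753) (nat_lit 304) (nat_lit 11310395894) (nat_lit 76) (nat_lit 12715392515) (nat_lit 113) (nat_lit 5) (nat_lit 117) (nat_lit 5) (nat_lit 114) (nat_lit 5) (nat_lit 669) (nat_lit 564) (nat_lit 327)) (XT.lf (nat_lit 0) (nat_lit 8694878259) (nat_lit 304) (nat_lit 8090016718) (nat_lit 380) (nat_lit 16037212646) (nat_lit 109) (nat_lit 5) (nat_lit 113) (nat_lit 5) (nat_lit 114) (nat_lit 5) (nat_lit 670) (nat_lit 564) (nat_lit 326))))))))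
noncomputable def xc163 : XT := (XT.nd (nat_lit 75114) (nat_lit 0) (nat_lit 13224) (XT.nd (nat_lit 73944) (nat_lit 0) (nat_lit 26600) (XT.nd (nat_lit 73398) (nat_lit 0) (nat_lit 31388) (XT.nd (nat_lit 73086) (nat_lit 0) (nat_lit 31236) (XT.nd (nat_lit 72930) (nat_lit 0) (nat_lit 31160) (XT.lf (nat_lit 0) (nat_lit 25449132790) (nat_lit 380) (nat_lit 4018371753) (nat_lit 76) (nat_lit 3772061918) (nat_lit 109) (nat_lit 5) (nat_lit 114) (nat_lit 5) (nat_lit 110) (nat_lit 5) (nat_lit 671) (nat_lit 564) (nat_lit 325)) (XT.nd (nat_lit 78) (nat_lit 1748) (nat_lit 0) (XT.lf (nat_lit 0) (nat_lit 2505547571) (nat_lit 0) (nat_lit 2505547571) (nat_lit 1596) (nat_lit 163604760) (nat_lit 542) (nat_lit 5) (nat_lit 542) (nat_lit 3) (nat_lit 563) (nat_lit 3) (nat_lit 565) (nat_lit 565) (nat_lit 430)) (XT.lf (nat_lit 0) (nat_lit 331819590) (nat_lit 1748) (nat_lit 201216505) (nat_lit 1748) (nat_lit 9906698935) (nat_lit 519) (nat_lit 3) (nat_lit 542) (nat_lit 3) (nat_lit 542)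 (nat_lit 5) (nat_lit 566) (nat_lit 565) (nat_lit 429)))) (XT.nd (nat_lit 156) (nat_lit 0) (nat_lit 76) (XT.nd (nat_lit 78) (nat_lit 0) (nat_lit 0) (XT.lf (nat_lit 0) (nat_lit 1041953441) (nat_lit 1672) (nat_lit 5463543161) (nat_lit 1748) (nat_lit 4025492099) (nat_lit 520) (nat_lit 5) (nat_lit 542) (nat_lit 5) (nat_lit 543) (nat_lit 5) (nat_lit 567) (nat_lit 565) (nat_lit 428)) (XT.lf (nat_lit 0) (nat_lit 1754255593) (nat_lit 1672) (nat_lit 192509720) (nat_lit 1748) (nat_lit 8677543910) (nat_lit 520) (nat_lit 5) (nat_lit 542) (nat_lit 5) (nat_lit 543) (nat_lit 5) (nat_lit 568) (nat_lit 565) (nat_lit 427))) (XT.nd (nat_lit 78) (nat_lit 0) (nat_lit 0) (XT.lf (nat_lit 0) (nat_lit 2516083557) (nat_lit 1672) (nat_lit 5493216008) (nat_lit 1748) (nat_lit 2709492063) (nat_lit 521) (nat_lit 5) (nat_lit 543) (nat_lit 5) (nat_lit 544) (nat_lit 5) (nat_lit 569) (nat_lit 565) (nat_lit 426)) (XT.lf (nat_lit 0) (nat_lit 3291064912) (nat_lit 1672) (nat_lit 82682961) (nat_lit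 1748) (nat_lit 7441458517) (nat_lit 521) (nat_lit 5) (nat_lit 543) (nat_lit 5) (nat_lit 544) (nat_lit 5) (nat_lit 570) (nat_lit 565) (nat_lit 425))))) (XT.nd (nat_lit 234) (nat_lit 0) (nat_lit 76) (XT.nd (nat_lit 78) (nat_lit 0) (nat_lit 0) (XT.lf (nat_lit 0) (nat_lit 4110368121) (nat_lit 1672) (nat_lit 5423143057) (nat_lit 1748) (nat_lit 1379462851) (nat_lit 522) (nat_lit 5) (nat_lit 544) (nat_lit 5) (nat_lit 545) (nat_lit 5) (nat_lit 571) (nat_lit 565) (nat_lit 424)) (XT.nd (nat_lit 78) (nat_lit 0) (nat_lit 76) (XT.lf (nat_lit 76) (nat_lit 132224928) (nat_lit 0) (nat_lit 4821932785) (nat_lit 1748) (nat_lit 6058378308) (nat_lit 523) (nat_lit 5) (nat_lit 522) (nat_lit 5) (nat_lit 545) (nat_lit 5) (nat_lit 572) (nat_lit 565) (nat_lit 423)) (XT.lf (nat_lit 0) (nat_lit 5835978124) (nat_lit 1672) (nat_lit 5250965171) (nat_lit 1748) (nat_lit 26723844) (nat_lit 523) (nat_lit 5) (nat_lit 545) (nat_lit 5) (nat_lit 546) (nat_lit 5) (nat_lit 573) (nat_lit 565) (nat_lit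 422)))) (XT.nd (nat_lit 156) (nat_lit 0) (nat_lit 76) (XT.nd (nat_lit 78) (nat_lit 0) (nat_lit 0) (XT.lf (nat_lit 76) (nat_lit 455518511) (nat_lit 0) (nat_lit 6299735285) (nat_lit 1748) (nat_lit 4461171674) (nat_lit 524) (nat_lit 5) (nat_lit 523) (nat_lit 5) (nat_lit 546) (nat_lit 5) (nat_lit 574) (nat_lit 565) (nat_lit 421)) (XT.lf (nat_lit 76) (nat_lit 6337882481) (nat_lit 0) (nat_lit 1375431554) (nat_lit 1748) (nat_lit 3607517898) (nat_lit 524) (nat_lit 5) (nat_lit 523) (nat_lit 5) (nat_lit 546) (nat_lit 5) (nat_lit 575) (nat_lit 565) (nat_lit 420))) (XT.nd (nat_lit 78) (nat_lit 0) (nat_lit 0) (XT.lf (nat_lit 76) (nat_lit 888976166) (nat_lit 0) (nat_lit 7816499892) (nat_lit 1748) (nat_lit 2721552587) (nat_lit 525) (nat_lit 5) (nat_lit 524) (nat_lit 5) (nat_lit 547) (nat_lit 5) (nat_lit 576) (nat_lit 565) (nat_lit 419)) (XT.lf (nat_lit 76) (nat_lit 6927149527) (nat_lit 0) (nat_lit 2818529421) (nat_lit 1748) (nat_lit 1789107301) (nat_lit 525) (nat_lit 5)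 (nat_lit 524) (nat_lit 5) (nat_lit 547) (nat_lit 5) (nat_lit 577) (nat_lit 565) (nat_lit 418)))))) (XT.nd (nat_lit 546) (nat_lit 3268) (nat_lit 0) (XT.nd (nat_lit 234) (nat_lit 0) (nat_lit 76) (XT.nd (nat_lit 78) (nat_lit 1748) (nat_lit 0) (XT.lf (nat_lit 76) (nat_lit 1435787350) (nat_lit 0) (nat_lit 9381041165) (nat_lit 1748) (nat_lit 827668531) (nat_lit 526) (nat_lit 5) (nat_lit 525) (nat_lit 5) (nat_lit 548) (nat_lit 5) (nat_lit 578) (nat_lit 565) (nat_lit 417)) (XT.nd (nat_lit 78) (nat_lit 0) (nat_lit 76) (XT.lf (nat_lit 0) (nat_lit 186923688) (nat_lit 1748) (nat_lit 4122862829) (nat_lit 1824) (nat_lit 7445877909) (nat_lit 502) (nat_lit 5) (nat_lit 525) (nat_lit 5) (nat_lit 526) (nat_lit 5) (nat_lit 579) (nat_lit 565) (nat_lit 416)) (XT.lf (nat_lit 0) (nat_lit 1216519724) (nat_lit 1748) (nat_lit 9777538147) (nat_lit 1824) (nat_lit 874772816) (nat_lit 503) (nat_lit 5) (nat_lit 526) (nat_lit 5) (nat_lit 527) (nat_lit 5) (nat_lit 580) (nat_lit 565) (nat_lit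 415)))) (XT.nd (nat_lit 156) (nat_lit 0) (nat_lit 76) (XT.nd (nat_lit 78) (nat_lit 0) (nat_lit 0) (XT.lf (nat_lit 0) (nat_lit 2309741910) (nat_lit 1748) (nat_lit 3536606739) (nat_lit 1824) (nat_lit 6137051766) (nat_lit 503) (nat_lit 5) (nat_lit 526) (nat_lit 5) (nat_lit 527) (nat_lit 5) (nat_lit 581) (nat_lit 565) (nat_lit 414)) (XT.lf (nat_lit 76) (nat_lit 2857013095) (nat_lit 0) (nat_lit 573269770) (nat_lit 1824) (nat_lit 8669870396) (nat_lit 504) (nat_lit 5) (nat_lit 503) (nat_lit 5) (nat_lit 527) (nat_lit 5) (nat_lit 582) (nat_lit 565) (nat_lit 413))) (XT.nd (nat_lit 78) (nat_lit 0) (nat_lit 0) (XT.lf (nat_lit 0) (nat_lit 4615444691) (nat_lit 1748) (nat_lit 2833495644) (nat_lit 1824) (nat_lit 4769457420) (nat_lit 504) (nat_lit 5) (nat_lit 527) (nat_lit 5) (nat_lit 528) (nat_lit 5) (nat_lit 583) (nat_lit 565) (nat_lit 412)) (XT.lf (nat_lit 76) (nat_lit 3739970251) (nat_lit 0) (nat_lit 2099792264) (nat_lit 1824) (nat_lit 6498936346) (nat_lit 505) (nat_lit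 5) (nat_lit 504) (nat_lit 5) (nat_lit 528) (nat_lit 5) (nat_lit 584) (nat_lit 565) (nat_lit 411))))) (XT.nd (nat_lit 312) (nat_lit 3496) (nat_lit 0) (XT.nd (nat_lit 156) (nat_lit 0) (nat_lit 76) (XT.nd (nat_lit 78) (nat_lit 0) (nat_lit 0) (XT.lf (nat_lit 0) (nat_lit 7117076527) (nat_lit 1748) (nat_lit 2009459311) (nat_lit 1824) (nat_lit 3334300718) (nat_lit 505) (nat_lit 5) (nat_lit 528) (nat_lit 5) (nat_lit 529) (nat_lit 5) (nat_lit 585) (nat_lit 565) (nat_lit 410)) (XT.lf (nat_lit 76) (nat_lit 4750353608) (nat_lit 0) (nat_lit 3702153216) (nat_lit 1824) (nat_lit 4132259528) (nat_lit 506) (nat_lit 5) (nat_lit 505) (nat_lit 5) (nat_lit 529) (nat_lit 5) (nat_lit 586) (nat_lit 565) (nat_lit 409))) (XT.nd (nat_lit 78) (nat_lit 0) (nat_lit 0) (XT.lf (nat_lit 0) (nat_lit 9828119830) (nat_lit 1748) (nat_lit 1060109769) (nat_lit 1824) (nat_lit 1822676397) (nat_lit 506) (nat_lit 5) (nat_lit 529) (nat_lit 5) (nat_lit 530) (nat_lit 5) (nat_lit 587) (nat_lit 565) (nat_lit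 408)) (XT.lf (nat_lit 76) (nat_lit 5892808981) (nat_lit 0) (nat_lit 5389462767) (nat_lit 1824) (nat_lit 1556276868) (nat_lit 507) (nat_lit 5) (nat_lit 506) (nat_lit 5) (nat_lit 530) (nat_lit 5) (nat_lit 588) (nat_lit 565) (nat_lit 407)))) (XT.nd (nat_lit 156) (nat_lit 1824) (nat_lit 0) (XT.nd (nat_lit 78) (nat_lit 76) (nat_lit 0) (XT.lf (nat_lit 0) (nat_lit 19519594) (nat_lit 1748) (nat_lit 12743128905) (nat_lit 1824) (nat_lit 206153460) (nat_lit 484) (nat_lit 5) (nat_lit 507) (nat_lit 5) (nat_lit 508) (nat_lit 5) (nat_lit 589) (nat_lit 565) (nat_lit 406)) (XT.lf (nat_lit 0) (nat_lit 1226742591) (nat_lit 1824) (nat_lit 5936004665) (nat_lit 76) (nat_lit 5937339181) (nat_lit 483) (nat_lit 5) (nat_lit 507) (nat_lit 5) (nat_lit 484) (nat_lit 5) (nat_lit 590) (nat_lit 565) (nat_lit 405))) (XT.nd (nat_lit 78) (nat_lit 0) (nat_lit 0) (XT.lf (nat_lit 0) (nat_lit 1222492208) (nat_lit 1824) (nat_lit 1459726559) (nat_lit 1900) (nat_lit 10551817596) (nat_lit 459) (nat_lit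 5) (nat_lit 483) (nat_lit 5) (nat_lit 484) (nat_lit 5) (nat_lit 591) (nat_lit 565) (nat_lit 404)) (XT.lf (nat_lit 0) (nat_lit 4224103084) (nat_lit 1900) (nat_lit 4803682584) (nat_lit 76) (nat_lit 4341734298) (nat_lit 459) (nat_lit 5) (nat_lit 484) (nat_lit 5) (nat_lit 460) (nat_lit 5) (nat_lit 592) (nat_lit 565) (nat_lit 403))))))) (XT.nd (nat_lit 1170) (nat_lit 5472) (nat_lit 0) (XT.nd (nat_lit 546) (nat_lit 4104) (nat_lit 0) (XT.nd (nat_lit 234) (nat_lit 1824) (nat_lit 0) (XT.nd (nat_lit 78) (nat_lit 912) (nat_lit 0) (XT.lf (nat_lit 0) (nat_lit 2562589287) (nat_lit 1064) (nat_lit 3249668604) (nat_lit 1140) (nat_lit 7695147332) (nat_lit 445) (nat_lit 5) (nat_lit 459) (nat_lit 5) (nat_lit 460) (nat_lit 5) (nat_lit 593) (nat_lit 565) (nat_lit 402)) (XT.nd (nat_lit 78) (nat_lit 912) (nat_lit 0) (XT.lf (nat_lit 0) (nat_lit 7471076705) (nat_lit 1140) (nat_lit 3533328977) (nat_lit 76) (nat_lit 2642865111) (nat_lit 445) (nat_lit 5) (nat_lit 460) (nat_lit 5) (nat_lit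 446) (nat_lit 5) (nat_lit 594) (nat_lit 565) (nat_lit 401)) (XT.lf (nat_lit 0) (nat_lit 4048306970) (nat_lit 912) (nat_lit 5152065814) (nat_lit 988) (nat_lit 4588815485) (nat_lit 433) (nat_lit 5) (nat_lit 445) (nat_lit 5) (nat_lit 446) (nat_lit 5) (nat_lit 595) (nat_lit 565) (nat_lit 400)))) (XT.nd (nat_lit 156) (nat_lit 912) (nat_lit 0) (XT.nd (nat_lit 78) (nat_lit 912) (nat_lit 0) (XT.lf (nat_lit 0) (nat_lit 10983073205) (nat_lit 988) (nat_lit 2119266002) (nat_lit 76) (nat_lit 831229121) (nat_lit 433) (nat_lit 5) (nat_lit 446) (nat_lit 5) (nat_lit 434) (nat_lit 5) (nat_lit 596) (nat_lit 565) (nat_lit 399)) (XT.lf (nat_lit 0) (nat_lit 5685618751) (nat_lit 912) (nat_lit 7176690696) (nat_lit 988) (nat_lit 1217309494) (nat_lit 421) (nat_lit 5) (nat_lit 433) (nat_lit 5) (nat_lit 434) (nat_lit 5) (nat_lit 597) (nat_lit 565) (nat_lit 398))) (XT.nd (nat_lit 78) (nat_lit 836) (nat_lit 0) (XT.lf (nat_lit 0) (nat_lit 547552534) (nat_lit 988) (nat_lit 566328830) (nat_lit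 76) (nat_lit 13114553618) (nat_lit 420) (nat_lit 5) (nat_lit 433) (nat_lit 5) (nat_lit 421) (nat_lit 5) (nat_lit 598) (nat_lit 565) (nat_lit 397)) (XT.lf (nat_lit 0) (nat_lit 2403526325) (nat_lit 912) (nat_lit 6913899636) (nat_lit 76) (nat_lit 5061198722) (nat_lit 409) (nat_lit 5) (nat_lit 421) (nat_lit 5) (nat_lit 410) (nat_lit 5) (nat_lit 599) (nat_lit 565) (nat_lit 396))))) (XT.nd (nat_lit 312) (nat_lit 2432) (nat_lit 0) (XT.nd (nat_lit 156) (nat_lit 836) (nat_lit 0) (XT.nd (nat_lit 78) (nat_lit 0) (nat_lit 0) (XT.lf (nat_lit 0) (nat_lit 1130126692) (nat_lit 836) (nat_lit 3175282585) (nat_lit 912) (nat_lit 10226233654) (nat_lit 398) (nat_lit 5) (nat_lit 409) (nat_lit 5) (nat_lit 410) (nat_lit 5) (nat_lit 600) (nat_lit 565) (nat_lit 395)) (XT.lf (nat_lit 0) (nat_lit 6302472827) (nat_lit 912) (nat_lit 5288165815) (nat_lit 76) (nat_lit 3095940577) (nat_lit 398) (nat_lit 5) (nat_lit 410) (nat_lit 5) (nat_lit 399) (nat_lit 5) (nat_lit 601) (nat_lit 565) (nat_lit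 394))) (XT.nd (nat_lit 78) (nat_lit 0) (nat_lit 0) (XT.lf (nat_lit 0) (nat_lit 2996151853) (nat_lit 836) (nat_lit 5374375170) (nat_lit 912) (nat_lit 6473466745) (nat_lit 387) (nat_lit 5) (nat_lit 398) (nat_lit 5) (nat_lit 399) (nat_lit 5) (nat_lit 602) (nat_lit 565) (nat_lit 393)) (XT.lf (nat_lit 0) (nat_lit 10512626970) (nat_lit 912) (nat_lit 3502205795) (nat_lit 76) (nat_lit 989070663) (nat_lit 387) (nat_lit 5) (nat_lit 399) (nat_lit 5) (nat_lit 388) (nat_lit 5) (nat_lit 603) (nat_lit 565) (nat_lit 392)))) (XT.nd (nat_lit 156) (nat_lit 1596) (nat_lit 0) (XT.nd (nat_lit 78) (nat_lit 0) (nat_lit 0) (XT.lf (nat_lit 0) (nat_lit 5031237766) (nat_lit 836) (nat_lit 7725461701) (nat_lit 912) (nat_lit 2409129705) (nat_lit 376) (nat_lit 5) (nat_lit 387) (nat_lit 5) (nat_lit 388) (nat_lit 5) (nat_lit 604) (nat_lit 565) (nat_lit 391)) (XT.lf (nat_lit 0) (nat_lit 13773387033) (nat_lit 836) (nat_lit 1286758260) (nat_lit 912) (nat_lit 270558795) (nat_lit 376) (nat_lit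 5) (nat_lit 387) (nat_lit 5) (nat_lit 388) (nat_lit 5) (nat_lit 605) (nat_lit 565) (nat_lit 390))) (XT.nd (nat_lit 78) (nat_lit 760) (nat_lit 0) (XT.lf (nat_lit 0) (nat_lit 1958677804) (nat_lit 836) (nat_lit 8267532181) (nat_lit 76) (nat_lit 5270959779) (nat_lit 365) (nat_lit 5) (nat_lit 376) (nat_lit 5) (nat_lit 366) (nat_lit 5) (nat_lit 606) (nat_lit 565) (nat_lit 389)) (XT.lf (nat_lit 0) (nat_lit 533822988) (nat_lit 760) (nat_lit 3708782283) (nat_lit 836) (nat_lit 11424049600) (nat_lit 355) (nat_lit 5) (nat_lit 365) (nat_lit 5) (nat_lit 366) (nat_lit 5) (nat_lit 607) (nat_lit 565) (nat_lit 388)))))) (XT.nd (nat_lit 546) (nat_lit 2584) (nat_lit 0) (XT.nd (nat_lit 234) (nat_lit 2204) (nat_lit 0) (XT.nd (nat_lit 78) (nat_lit 684) (nat_lit 0) (XT.lf (nat_lit 0) (nat_lit 6638464669) (nat_lit 836) (nat_lit 6244183246) (nat_lit 76) (nat_lit 2955557156) (nat_lit 355) (nat_lit 5) (nat_lit 366) (nat_lit 5) (nat_lit 356) (nat_lit 5) (nat_lit 608) (nat_lit 565) (nat_lit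 387)) (XT.nd (nat_lit 78) (nat_lit 0) (nat_lit 0) (XT.lf (nat_lit 0) (nat_lit 2825331946) (nat_lit 684) (nat_lit 6291309389) (nat_lit 760) (nat_lit 6895857382) (nat_lit 346) (nat_lit 5) (nat_lit 355) (nat_lit 5) (nat_lit 356) (nat_lit 5) (nat_lit 609) (nat_lit 565) (nat_lit 386)) (XT.lf (nat_lit 0) (nat_lit 11680959412) (nat_lit 760) (nat_lit 4041142774) (nat_lit 76) (nat_lit 467444932) (nat_lit 346) (nat_lit 5) (nat_lit 356) (nat_lit 5) (nat_lit 347) (nat_lit 5) (nat_lit 610) (nat_lit 565) (nat_lit 385)))) (XT.nd (nat_lit 156) (nat_lit 1368) (nat_lit 0) (XT.nd (nat_lit 78) (nat_lit 76) (nat_lit 0) (XT.lf (nat_lit 0) (nat_lit 5306418138) (nat_lit 760) (nat_lit 9058022337) (nat_lit 836) (nat_lit 2004338909) (nat_lit 336) (nat_lit 5) (nat_lit 346) (nat_lit 5) (nat_lit 347) (nat_lit 5) (nat_lit 611) (nat_lit 565) (nat_lit 384)) (XT.lf (nat_lit 0) (nat_lit 561886095) (nat_lit 836) (nat_lit 1668457345) (nat_lit 76) (nat_lit 14320799758) (nat_lit 335) (nat_lit 5)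 (nat_lit 346) (nat_lit 5) (nat_lit 336) (nat_lit 5) (nat_lit 612) (nat_lit 565) (nat_lit 383))) (XT.nd (nat_lit 78) (nat_lit 684) (nat_lit 0) (XT.lf (nat_lit 0) (nat_lit 3227663418) (nat_lit 760) (nat_lit 8771433351) (nat_lit 76) (nat_lit 4736291633) (nat_lit 326) (nat_lit 5) (nat_lit 336) (nat_lit 5) (nat_lit 327) (nat_lit 5) (nat_lit 613) (nat_lit 565) (nat_lit 382)) (XT.lf (nat_lit 0) (nat_lit 875911227) (nat_lit 684) (nat_lit 5094630913) (nat_lit 760) (nat_lit 10952301049) (nat_lit 317) (nat_lit 5) (nat_lit 326) (nat_lit 5) (nat_lit 327) (nat_lit 5) (nat_lit 614) (nat_lit 565) (nat_lit 381))))) (XT.nd (nat_lit 312) (nat_lit 1216) (nat_lit 0) (XT.nd (nat_lit 156) (nat_lit 760) (nat_lit 0) (XT.nd (nat_lit 78) (nat_lit 608) (nat_lit 0) (XT.lf (nat_lit 0) (nat_lit 8832321487) (nat_lit 760) (nat_lit 6300161937) (nat_lit 76) (nat_lit 1980283177) (nat_lit 317) (nat_lit 5) (nat_lit 327) (nat_lit 5) (nat_lit 318) (nat_lit 5) (nat_lit 615) (nat_lit 565) (nat_lit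 380)) (XT.lf (nat_lit 0) (nat_lit 3646454745) (nat_lit 608) (nat_lit 8154595263) (nat_lit 684) (nat_lit 5504444581) (nat_lit 309) (nat_lit 5) (nat_lit 317) (nat_lit 5) (nat_lit 318) (nat_lit 5) (nat_lit 616) (nat_lit 565) (nat_lit 379))) (XT.nd (nat_lit 78) (nat_lit 760) (nat_lit 0) (XT.lf (nat_lit 0) (nat_lit 13868291089) (nat_lit 608) (nat_lit 995530353) (nat_lit 684) (nat_lit 2637562704) (nat_lit 309) (nat_lit 5) (nat_lit 317) (nat_lit 5) (nat_lit 318) (nat_lit 5) (nat_lit 617) (nat_lit 565) (nat_lit 378)) (XT.lf (nat_lit 0) (nat_lit 359929996) (nat_lit 760) (nat_lit 11071720648) (nat_lit 76) (nat_lit 6267963329) (nat_lit 299) (nat_lit 5) (nat_lit 309) (nat_lit 5) (nat_lit 300) (nat_lit 5) (nat_lit 618) (nat_lit 565) (nat_lit 377)))) (XT.nd (nat_lit 156) (nat_lit 608) (nat_lit 0) (XT.nd (nat_lit 78) (nat_lit 608) (nat_lit 0) (XT.lf (nat_lit 0) (nat_lit 3405792193) (nat_lit 760) (nat_lit 791309238) (nat_lit 76) (nat_lit 13703883901) (nat_lit 299) (nat_lit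 5) (nat_lit 309) (nat_lit 5) (nat_lit 300) (nat_lit 5) (nat_lit 619) (nat_lit 565) (nat_lit 376)) (XT.lf (nat_lit 0) (nat_lit 6590080640) (nat_lit 684) (nat_lit 8311833340) (nat_lit 76) (nat_lit 3202920303) (nat_lit 291) (nat_lit 5) (nat_lit 300) (nat_lit 5) (nat_lit 292) (nat_lit 5) (nat_lit 620) (nat_lit 565) (nat_lit 375))) (XT.nd (nat_lit 78) (nat_lit 0) (nat_lit 0) (XT.lf (nat_lit 0) (nat_lit 2280133848) (nat_lit 608) (nat_lit 7598655074) (nat_lit 684) (nat_lit 8433156948) (nat_lit 283) (nat_lit 5) (nat_lit 291) (nat_lit 5) (nat_lit 292) (nat_lit 5) (nat_lit 621) (nat_lit 565) (nat_lit 374)) (XT.lf (nat_lit 0) (nat_lit 13187659044) (nat_lit 608) (nat_lit 94261662) (nat_lit 684) (nat_lit 5240306329) (nat_lit 283) (nat_lit 5) (nat_lit 291) (nat_lit 5) (nat_lit 292) (nat_lit 5) (nat_lit 622) (nat_lit 565) (nat_lit 373))))))))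
noncomputable def xc164 : XT := (XT.nd (nat_lit 2262) (nat_lit 4256) (nat_lit 0) (XT.nd (nat_lit 1092) (nat_lit 3952) (nat_lit 0) (XT.nd (nat_lit 546) (nat_lit 2584) (nat_lit 0) (XT.nd (nat_lit 234) (nat_lit 1140) (nat_lit 0) (XT.nd (nat_lit 78) (nat_lit 684) (nat_lit 0) (XT.lf (nat_lit 0) (nat_lit 5591971266) (nat_lit 608) (nat_lit 11239537314) (nat_lit 684) (nat_lit 1903637699) (nat_lit 275) (nat_lit 5) (nat_lit 283) (nat_lit 5) (nat_lit 284) (nat_lit 5) (nat_lit 623) (nat_lit 565) (nat_lit 372)) (XT.nd (nat_lit 78) (nat_lit 608) (nat_lit 0) (XT.lf (nat_lit 0) (nat_lit 1509788089) (nat_lit 684) (nat_lit 2161791664) (nat_lit 76) (nat_lit 15279955850) (nat_lit 274) (nat_lit 5) (nat_lit 283) (nat_lit 5) (nat_lit 275) (nat_lit 5) (nat_lit 624) (nat_lit 565) (nat_lit 371)) (XT.lf (nat_lit 0) (nat_lit 5045259866) (nat_lit 684) (nat_lit 10060002834) (nat_lit 76) (nat_lit 4065153315) (nat_lit 266) (nat_lit 5) (nat_lit 275) (nat_lit 5) (nat_lit 267) (nat_lit 5) (nat_lit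 625) (nat_lit 565) (nat_lit 370)))) (XT.nd (nat_lit 156) (nat_lit 608) (nat_lit 0) (XT.nd (nat_lit 78) (nat_lit 0) (nat_lit 0) (XT.lf (nat_lit 0) (nat_lit 1226833386) (nat_lit 532) (nat_lit 7464726706) (nat_lit 608) (nat_lit 10701311864) (nat_lit 259) (nat_lit 5) (nat_lit 266) (nat_lit 5) (nat_lit 267) (nat_lit 5) (nat_lit 626) (nat_lit 565) (nat_lit 369)) (XT.lf (nat_lit 0) (nat_lit 12474172784) (nat_lit 608) (nat_lit 6754125178) (nat_lit 76) (nat_lit 390211618) (nat_lit 259) (nat_lit 5) (nat_lit 267) (nat_lit 5) (nat_lit 260) (nat_lit 5) (nat_lit 627) (nat_lit 565) (nat_lit 368))) (XT.nd (nat_lit 78) (nat_lit 76) (nat_lit 0) (XT.lf (nat_lit 0) (nat_lit 4892035496) (nat_lit 532) (nat_lit 11515029120) (nat_lit 608) (nat_lit 3440103093) (nat_lit 252) (nat_lit 5) (nat_lit 259) (nat_lit 5) (nat_lit 260) (nat_lit 5) (nat_lit 628) (nat_lit 565) (nat_lit 367)) (XT.lf (nat_lit 0) (nat_lit 372862001) (nat_lit 608) (nat_lit 3228060776) (nat_lit 76) (nat_lit 16478650931)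 (nat_lit 251) (nat_lit 5) (nat_lit 259) (nat_lit 5) (nat_lit 252) (nat_lit 5) (nat_lit 629) (nat_lit 565) (nat_lit 366))))) (XT.nd (nat_lit 234) (nat_lit 1520) (nat_lit 0) (XT.nd (nat_lit 78) (nat_lit 532) (nat_lit 0) (XT.lf (nat_lit 0) (nat_lit 4296452322) (nat_lit 608) (nat_lit 11526859884) (nat_lit 76) (nat_lit 4491252537) (nat_lit 244) (nat_lit 5) (nat_lit 252) (nat_lit 5) (nat_lit 245) (nat_lit 5) (nat_lit 630) (nat_lit 565) (nat_lit 365)) (XT.nd (nat_lit 78) (nat_lit 0) (nat_lit 0) (XT.lf (nat_lit 0) (nat_lit 507758768) (nat_lit 532) (nat_lit 7833348170) (nat_lit 608) (nat_lit 12212297076) (nat_lit 237) (nat_lit 5) (nat_lit 244) (nat_lit 5) (nat_lit 245) (nat_lit 5) (nat_lit 631) (nat_lit 565) (nat_lit 364)) (XT.lf (nat_lit 0) (nat_lit 12540269885) (nat_lit 608) (nat_lit 7867405282) (nat_lit 76) (nat_lit 387872862) (nat_lit 237) (nat_lit 5) (nat_lit 245) (nat_lit 5) (nat_lit 238) (nat_lit 5) (nat_lit 632) (nat_lit 565) (nat_lit 363)))) (XT.nd (nat_lit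 156) (nat_lit 988) (nat_lit 0) (XT.nd (nat_lit 78) (nat_lit 76) (nat_lit 0) (XT.lf (nat_lit 0) (nat_lit 4553731290) (nat_lit 456) (nat_lit 12344948006) (nat_lit 532) (nat_lit 4142350619) (nat_lit 231) (nat_lit 5) (nat_lit 237) (nat_lit 5) (nat_lit 238) (nat_lit 5) (nat_lit 633) (nat_lit 565) (nat_lit 362)) (XT.lf (nat_lit 0) (nat_lit 99132965) (nat_lit 532) (nat_lit 3969663608) (nat_lit 76) (nat_lit 17221678444) (nat_lit 230) (nat_lit 5) (nat_lit 237) (nat_lit 5) (nat_lit 231) (nat_lit 5) (nat_lit 634) (nat_lit 565) (nat_lit 361))) (XT.nd (nat_lit 78) (nat_lit 456) (nat_lit 0) (XT.lf (nat_lit 0) (nat_lit 4450587071) (nat_lit 608) (nat_lit 12693300863) (nat_lit 76) (nat_lit 4398861569) (nat_lit 223) (nat_lit 5) (nat_lit 231) (nat_lit 5) (nat_lit 224) (nat_lit 5) (nat_lit 635) (nat_lit 565) (nat_lit 360)) (XT.lf (nat_lit 0) (nat_lit 145580964) (nat_lit 456) (nat_lit 8792211207) (nat_lit 532) (nat_lit 12861303109) (nat_lit 217) (nat_lit 5) (nat_lit 223) (nat_lit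 5) (nat_lit 224) (nat_lit 5) (nat_lit 636) (nat_lit 565) (nat_lit 359)))))) (XT.nd (nat_lit 546) (nat_lit 2128) (nat_lit 0) (XT.nd (nat_lit 234) (nat_lit 1292) (nat_lit 0) (XT.nd (nat_lit 78) (nat_lit 532) (nat_lit 0) (XT.lf (nat_lit 0) (nat_lit 13404934346) (nat_lit 456) (nat_lit 189064847) (nat_lit 532) (nat_lit 8464983854) (nat_lit 217) (nat_lit 5) (nat_lit 223) (nat_lit 5) (nat_lit 224) (nat_lit 5) (nat_lit 637) (nat_lit 565) (nat_lit 358)) (XT.nd (nat_lit 78) (nat_lit 76) (nat_lit 0) (XT.lf (nat_lit 0) (nat_lit 4601707693) (nat_lit 456) (nat_lit 13821426563) (nat_lit 532) (nat_lit 3899338465) (nat_lit 211) (nat_lit 5) (nat_lit 217) (nat_lit 5) (nat_lit 218) (nat_lit 5) (nat_lit 638) (nat_lit 565) (nat_lit 357)) (XT.lf (nat_lit 0) (nat_lit 801595226) (nat_lit 532) (nat_lit 4365065696) (nat_lit 76) (nat_lit 17423394870) (nat_lit 210) (nat_lit 5) (nat_lit 217) (nat_lit 5) (nat_lit 211) (nat_lit 5) (nat_lit 639) (nat_lit 565) (nat_lit 356)))) (XT.nd (nat_lit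 156) (nat_lit 380) (nat_lit 0) (XT.nd (nat_lit 78) (nat_lit 456) (nat_lit 0) (XT.lf (nat_lit 0) (nat_lit 5623710136) (nat_lit 532) (nat_lit 13539362115) (nat_lit 76) (nat_lit 3697815504) (nat_lit 204) (nat_lit 5) (nat_lit 211) (nat_lit 5) (nat_lit 205) (nat_lit 5) (nat_lit 640) (nat_lit 565) (nat_lit 355)) (XT.lf (nat_lit 0) (nat_lit 164002456) (nat_lit 456) (nat_lit 10437390060) (nat_lit 532) (nat_lit 12534561546) (nat_lit 198) (nat_lit 5) (nat_lit 204) (nat_lit 5) (nat_lit 205) (nat_lit 5) (nat_lit 641) (nat_lit 565) (nat_lit 354))) (XT.nd (nat_lit 78) (nat_lit 380) (nat_lit 0) (XT.lf (nat_lit 0) (nat_lit 14316811842) (nat_lit 456) (nat_lit 1447088833) (nat_lit 532) (nat_lit 7650915785) (nat_lit 198) (nat_lit 5) (nat_lit 204) (nat_lit 5) (nat_lit 205) (nat_lit 5) (nat_lit 642) (nat_lit 565) (nat_lit 353)) (XT.lf (nat_lit 0) (nat_lit 5061576236) (nat_lit 380) (nat_lit 16045597860) (nat_lit 456) (nat_lit 2590531910) (nat_lit 193) (nat_lit 5) (nat_lit 198)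 (nat_lit 5) (nat_lit 199) (nat_lit 5) (nat_lit 643) (nat_lit 565) (nat_lit 352))))) (XT.nd (nat_lit 312) (nat_lit 1216) (nat_lit 0) (XT.nd (nat_lit 156) (nat_lit 380) (nat_lit 0) (XT.nd (nat_lit 78) (nat_lit 456) (nat_lit 0) (XT.lf (nat_lit 0) (nat_lit 2602908174) (nat_lit 456) (nat_lit 4392143767) (nat_lit 76) (nat_lit 16989556367) (nat_lit 192) (nat_lit 5) (nat_lit 198) (nat_lit 5) (nat_lit 193) (nat_lit 5) (nat_lit 644) (nat_lit 565) (nat_lit 351)) (XT.lf (nat_lit 0) (nat_lit 7941779996) (nat_lit 532) (nat_lit 14044742987) (nat_lit 76) (nat_lit 2288858393) (nat_lit 186) (nat_lit 5) (nat_lit 193) (nat_lit 5) (nat_lit 187) (nat_lit 5) (nat_lit 645) (nat_lit 565) (nat_lit 350))) (XT.nd (nat_lit 78) (nat_lit 0) (nat_lit 0) (XT.lf (nat_lit 0) (nat_lit 587230288) (nat_lit 380) (nat_lit 12874678082) (nat_lit 456) (nat_lit 11108572139) (nat_lit 181) (nat_lit 5) (nat_lit 186) (nat_lit 5) (nat_lit 187) (nat_lit 5) (nat_lit 646) (nat_lit 565) (nat_lit 349)) (XT.lf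 (nat_lit 0) (nat_lit 15694292015) (nat_lit 380) (nat_lit 3487120670) (nat_lit 456) (nat_lit 5688289655) (nat_lit 181) (nat_lit 5) (nat_lit 186) (nat_lit 5) (nat_lit 187) (nat_lit 5) (nat_lit 647) (nat_lit 565) (nat_lit 348)))) (XT.nd (nat_lit 156) (nat_lit 760) (nat_lit 0) (XT.nd (nat_lit 78) (nat_lit 76) (nat_lit 0) (XT.lf (nat_lit 0) (nat_lit 5959353432) (nat_lit 380) (nat_lit 19128986544) (nat_lit 456) (nat_lit 85108156) (nat_lit 176) (nat_lit 5) (nat_lit 181) (nat_lit 5) (nat_lit 182) (nat_lit 5) (nat_lit 648) (nat_lit 565) (nat_lit 347)) (XT.lf (nat_lit 0) (nat_lit 5636198897) (nat_lit 456) (nat_lit 4028785230) (nat_lit 76) (nat_lit 15815955748) (nat_lit 175) (nat_lit 5) (nat_lit 181) (nat_lit 5) (nat_lit 176) (nat_lit 5) (nat_lit 649) (nat_lit 565) (nat_lit 346))) (XT.nd (nat_lit 78) (nat_lit 380) (nat_lit 0) (XT.lf (nat_lit 0) (nat_lit 11541475216) (nat_lit 456) (nat_lit 14189442334) (nat_lit 76) (nat_lit 62239167) (nat_lit 170) (nat_lit 5) (nat_lit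 176) (nat_lit 5) (nat_lit 171) (nat_lit 5) (nat_lit 650) (nat_lit 565) (nat_lit 345)) (XT.lf (nat_lit 0) (nat_lit 1439332036) (nat_lit 380) (nat_lit 16221053761) (nat_lit 456) (nat_lit 8449321690) (nat_lit 165) (nat_lit 5) (nat_lit 170) (nat_lit 5) (nat_lit 171) (nat_lit 5) (nat_lit 651) (nat_lit 565) (nat_lit 344))))))) (XT.nd (nat_lit 1092) (nat_lit 1216) (nat_lit 0) (XT.nd (nat_lit 546) (nat_lit 1444) (nat_lit 0) (XT.nd (nat_lit 234) (nat_lit 1140) (nat_lit 0) (XT.nd (nat_lit 78) (nat_lit 456) (nat_lit 0) (XT.lf (nat_lit 0) (nat_lit 17565317009) (nat_lit 380) (nat_lit 6426587749) (nat_lit 456) (nat_lit 2438880073) (nat_lit 165) (nat_lit 5) (nat_lit 170) (nat_lit 5) (nat_lit 171) (nat_lit 5) (nat_lit 652) (nat_lit 565) (nat_lit 343)) (XT.nd (nat_lit 78) (nat_lit 0) (nat_lit 0) (XT.lf (nat_lit 0) (nat_lit 3709549230) (nat_lit 456) (nat_lit 19460596731) (nat_lit 76) (nat_lit 3586334589) (nat_lit 159) (nat_lit 5) (nat_lit 165) (nat_lit 5) (nat_lit 160) (nat_lit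 5) (nat_lit 653) (nat_lit 565) (nat_lit 342)) (XT.lf (nat_lit 0) (nat_lit 10045873857) (nat_lit 456) (nat_lit 3253620810) (nat_lit 76) (nat_lit 13786921581) (nat_lit 159) (nat_lit 5) (nat_lit 165) (nat_lit 5) (nat_lit 160) (nat_lit 5) (nat_lit 654) (nat_lit 565) (nat_lit 341)))) (XT.nd (nat_lit 156) (nat_lit 456) (nat_lit 0) (XT.nd (nat_lit 78) (nat_lit 304) (nat_lit 0) (XT.lf (nat_lit 0) (nat_lit 13446344860) (nat_lit 380) (nat_lit 3145085344) (nat_lit 456) (nat_lit 10829870503) (nat_lit 154) (nat_lit 5) (nat_lit 159) (nat_lit 5) (nat_lit 160) (nat_lit 5) (nat_lit 655) (nat_lit 565) (nat_lit 340)) (XT.lf (nat_lit 0) (nat_lit 2743446483) (nat_lit 304) (nat_lit 20606300126) (nat_lit 380) (nat_lit 4411499415) (nat_lit 150) (nat_lit 5) (nat_lit 154) (nat_lit 5) (nat_lit 155) (nat_lit 5) (nat_lit 656) (nat_lit 565) (nat_lit 339))) (XT.nd (nat_lit 78) (nat_lit 380) (nat_lit 0) (XT.lf (nat_lit 0) (nat_lit 2217708106) (nat_lit 380) (nat_lit 8163319527) (nat_lit 76)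 (nat_lit 17724476026) (nat_lit 149) (nat_lit 5) (nat_lit 154) (nat_lit 5) (nat_lit 150) (nat_lit 5) (nat_lit 657) (nat_lit 565) (nat_lit 338)) (XT.lf (nat_lit 0) (nat_lit 8975862117) (nat_lit 456) (nat_lit 19344722621) (nat_lit 76) (nat_lit 134370002) (nat_lit 144) (nat_lit 5) (nat_lit 150) (nat_lit 5) (nat_lit 145) (nat_lit 5) (nat_lit 658) (nat_lit 565) (nat_lit 337))))) (XT.nd (nat_lit 234) (nat_lit 684) (nat_lit 0) (XT.nd (nat_lit 78) (nat_lit 760) (nat_lit 0) (XT.lf (nat_lit 0) (nat_lit 15988434262) (nat_lit 456) (nat_lit 2046921155) (nat_lit 76) (nat_lit 10773654461) (nat_lit 144) (nat_lit 5) (nat_lit 150) (nat_lit 5) (nat_lit 145) (nat_lit 5) (nat_lit 659) (nat_lit 565) (nat_lit 336)) (XT.nd (nat_lit 78) (nat_lit 456) (nat_lit 0) (XT.lf (nat_lit 0) (nat_lit 15796737560) (nat_lit 304) (nat_lit 7442537670) (nat_lit 380) (nat_lit 5928910674) (nat_lit 140) (nat_lit 5) (nat_lit 144) (nat_lit 5) (nat_lit 145) (nat_lit 5) (nat_lit 660) (nat_lit 565) (nat_lit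 335)) (XT.lf (nat_lit 0) (nat_lit 1147040843) (nat_lit 456) (nat_lit 25020066233) (nat_lit 76) (nat_lit 3366077834) (nat_lit 134) (nat_lit 5) (nat_lit 140) (nat_lit 5) (nat_lit 135) (nat_lit 5) (nat_lit 661) (nat_lit 565) (nat_lit 334)))) (XT.nd (nat_lit 156) (nat_lit 380) (nat_lit 0) (XT.nd (nat_lit 78) (nat_lit 304) (nat_lit 0) (XT.lf (nat_lit 0) (nat_lit 8420300267) (nat_lit 456) (nat_lit 7063518134) (nat_lit 76) (nat_lit 14418178280) (nat_lit 134) (nat_lit 5) (nat_lit 140) (nat_lit 5) (nat_lit 135) (nat_lit 5) (nat_lit 662) (nat_lit 565) (nat_lit 333)) (XT.lf (nat_lit 0) (nat_lit 11394431836) (nat_lit 304) (nat_lit 4514152427) (nat_lit 380) (nat_lit 14368209358) (nat_lit 130) (nat_lit 5) (nat_lit 134) (nat_lit 5) (nat_lit 135) (nat_lit 5) (nat_lit 663) (nat_lit 565) (nat_lit 332))) (XT.nd (nat_lit 78) (nat_lit 380) (nat_lit 0) (XT.lf (nat_lit 0) (nat_lit 23633287513) (nat_lit 380) (nat_lit 391693557) (nat_lit 76) (nat_lit 6632372482) (nat_lit 130) (nat_lit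 5) (nat_lit 135) (nat_lit 5) (nat_lit 131) (nat_lit 5) (nat_lit 664) (nat_lit 565) (nat_lit 331)) (XT.lf (nat_lit 0) (nat_lit 608653473) (nat_lit 380) (nat_lit 12369800585) (nat_lit 76) (nat_lit 18064053750) (nat_lit 125) (nat_lit 5) (nat_lit 130) (nat_lit 5) (nat_lit 126) (nat_lit 5) (nat_lit 665) (nat_lit 565) (nat_lit 330)))))) (XT.nd (nat_lit 73476) (nat_lit 0) (nat_lit 31160) (XT.nd (nat_lit 234) (nat_lit 608) (nat_lit 0) (XT.nd (nat_lit 78) (nat_lit 304) (nat_lit 0) (XT.lf (nat_lit 0) (nat_lit 6722969757) (nat_lit 304) (nat_lit 1619087864) (nat_lit 380) (nat_lit 23091537412) (nat_lit 121) (nat_lit 5) (nat_lit 125) (nat_lit 5) (nat_lit 126) (nat_lit 5) (nat_lit 666) (nat_lit 565) (nat_lit 329)) (XT.nd (nat_lit 78) (nat_lit 304) (nat_lit 0) (XT.lf (nat_lit 0) (nat_lit 16374122478) (nat_lit 380) (nat_lit 5537920331) (nat_lit 76) (nat_lit 9917581451) (nat_lit 121) (nat_lit 5) (nat_lit 126) (nat_lit 5) (nat_lit 122) (nat_lit 5) (nat_lit 667) (nat_lit 565)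 (nat_lit 328)) (XT.lf (nat_lit 0) (nat_lit 14186632613) (nat_lit 304) (nat_lit 10478831045) (nat_lit 380) (nat_lit 7566137824) (nat_lit 117) (nat_lit 5) (nat_lit 121) (nat_lit 5) (nat_lit 122) (nat_lit 5) (nat_lit 668) (nat_lit 565) (nat_lit 327)))) (XT.nd (nat_lit 156) (nat_lit 304) (nat_lit 0) (XT.nd (nat_lit 78) (nat_lit 0) (nat_lit 0) (XT.lf (nat_lit 0) (nat_lit 527312230) (nat_lit 304) (nat_lit 30896139583) (nat_lit 76) (nat_lit 1217051931) (nat_lit 113) (nat_lit 5) (nat_lit 117) (nat_lit 5) (nat_lit 114) (nat_lit 5) (nat_lit 669) (nat_lit 565) (nat_lit 326)) (XT.lf (nat_lit 0) (nat_lit 8868537535) (nat_lit 304) (nat_lit 11008352492) (nat_lit 76) (nat_lit 13175949547) (nat_lit 113) (nat_lit 5) (nat_lit 117) (nat_lit 5) (nat_lit 114) (nat_lit 5) (nat_lit 670) (nat_lit 565) (nat_lit 325))) (XT.nd (nat_lit 73008) (nat_lit 0) (nat_lit 31160) (XT.lf (nat_lit 0) (nat_lit 9393551806) (nat_lit 304) (nat_lit 8039939154) (nat_lit 380) (nat_lit 16038793190) (nat_lit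 109) (nat_lit 5) (nat_lit 113) (nat_lit 5) (nat_lit 114) (nat_lit 5) (nat_lit 671) (nat_lit 565) (nat_lit 324)) (XT.lf (nat_lit 0) (nat_lit 489006687) (nat_lit 1748) (nat_lit 2388046454) (nat_lit 1748) (nat_lit 2388046454) (nat_lit 519) (nat_lit 3) (nat_lit 542) (nat_lit 3) (nat_lit 542) (nat_lit 5) (nat_lit 566) (nat_lit 566) (nat_lit 428))))) (XT.nd (nat_lit 312) (nat_lit 0) (nat_lit 152) (XT.nd (nat_lit 156) (nat_lit 0) (nat_lit 76) (XT.nd (nat_lit 78) (nat_lit 0) (nat_lit 76) (XT.lf (nat_lit 76) (nat_lit 454455605) (nat_lit 0) (nat_lit 1168705754) (nat_lit 1748) (nat_lit 8999591761) (nat_lit 520) (nat_lit 5) (nat_lit 519) (nat_lit 3) (nat_lit 542) (nat_lit 5) (nat_lit 567) (nat_lit 566) (nat_lit 427)) (XT.lf (nat_lit 0) (nat_lit 2319661741) (nat_lit 1672) (nat_lit 4894111446) (nat_lit 1748) (nat_lit 3502617019) (nat_lit 520) (nat_lit 5) (nat_lit 542) (nat_lit 5) (nat_lit 543) (nat_lit 5) (nat_lit 568) (nat_lit 566) (nat_lit 426))) (XT.nd (nat_lit 78) (nat_lit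 0) (nat_lit 76) (XT.lf (nat_lit 76) (nat_lit 475267995) (nat_lit 0) (nat_lit 2549383201) (nat_lit 1748) (nat_lit 7787358702) (nat_lit 521) (nat_lit 5) (nat_lit 520) (nat_lit 5) (nat_lit 543) (nat_lit 5) (nat_lit 569) (nat_lit 566) (nat_lit 425)) (XT.lf (nat_lit 0) (nat_lit 3775180804) (nat_lit 1672) (nat_lit 4914158737) (nat_lit 1748) (nat_lit 2219574662) (nat_lit 521) (nat_lit 5) (nat_lit 543) (nat_lit 5) (nat_lit 544) (nat_lit 5) (nat_lit 570) (nat_lit 566) (nat_lit 424)))) (XT.nd (nat_lit 156) (nat_lit 0) (nat_lit 76) (XT.nd (nat_lit 78) (nat_lit 0) (nat_lit 76) (XT.lf (nat_lit 76) (nat_lit 598931801) (nat_lit 0) (nat_lit 3946917165) (nat_lit 1748) (nat_lit 6461806076) (nat_lit 522) (nat_lit 5) (nat_lit 521) (nat_lit 5) (nat_lit 544) (nat_lit 5) (nat_lit 571) (nat_lit 566) (nat_lit 423)) (XT.lf (nat_lit 0) (nat_lit 5355553890) (nat_lit 1672) (nat_lit 4834022181) (nat_lit 1748) (nat_lit 918323145) (nat_lit 522) (nat_lit 5) (nat_lit 544) (nat_lit 5) (nat_lit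 545) (nat_lit 5) (nat_lit 572) (nat_lit 566) (nat_lit 422))) (XT.nd (nat_lit 78) (nat_lit 0) (nat_lit 0) (XT.lf (nat_lit 76) (nat_lit 827863797) (nat_lit 0) (nat_lit 5370051357) (nat_lit 1748) (nat_lit 5011904842) (nat_lit 523) (nat_lit 5) (nat_lit 522) (nat_lit 5) (nat_lit 545) (nat_lit 5) (nat_lit 573) (nat_lit 566) (nat_lit 421)) (XT.lf (nat_lit 76) (nat_lit 6659545172) (nat_lit 0) (nat_lit 415202877) (nat_lit 1748) (nat_lit 4238679603) (nat_lit 523) (nat_lit 5) (nat_lit 522) (nat_lit 5) (nat_lit 545) (nat_lit 5) (nat_lit 574) (nat_lit 566) (nat_lit 420))))))))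
noncomputable def xc165 : XT := (XT.nd (nat_lit 2262) (nat_lit 11400) (nat_lit 0) (XT.nd (nat_lit 1092) (nat_lit 8740) (nat_lit 0) (XT.nd (nat_lit 546) (nat_lit 0) (nat_lit 76) (XT.nd (nat_lit 234) (nat_lit 1596) (nat_lit 0) (XT.nd (nat_lit 78) (nat_lit 0) (nat_lit 0) (XT.lf (nat_lit 76) (nat_lit 1164789821) (nat_lit 0) (nat_lit 6827521420) (nat_lit 1748) (nat_lit 3426333275) (nat_lit 524) (nat_lit 5) (nat_lit 523) (nat_lit 5) (nat_lit 546) (nat_lit 5) (nat_lit 575) (nat_lit 566) (nat_lit 419)) (XT.nd (nat_lit 78) (nat_lit 0) (nat_lit 76) (XT.lf (nat_lit 76) (nat_lit 7151072424) (nat_lit 0) (nat_lit 1796853352) (nat_lit 1748) (nat_lit 2577646852) (nat_lit 524) (nat_lit 5) (nat_lit 523) (nat_lit 5) (nat_lit 546) (nat_lit 5) (nat_lit 576) (nat_lit 566) (nat_lit 418)) (XT.lf (nat_lit 76) (nat_lit 1612746040) (nat_lit 0) (nat_lit 8328078115) (nat_lit 1748) (nat_lit 1693452610) (nat_lit 525) (nat_lit 5) (nat_lit 524) (nat_lit 5) (nat_lit 547) (nat_lit 5) (nat_lit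 577) (nat_lit 566) (nat_lit 417)))) (XT.nd (nat_lit 156) (nat_lit 0) (nat_lit 0) (XT.nd (nat_lit 78) (nat_lit 1672) (nat_lit 0) (XT.lf (nat_lit 76) (nat_lit 7757839920) (nat_lit 0) (nat_lit 3223182584) (nat_lit 1748) (nat_lit 763584517) (nat_lit 525) (nat_lit 5) (nat_lit 524) (nat_lit 5) (nat_lit 547) (nat_lit 5) (nat_lit 578) (nat_lit 566) (nat_lit 416)) (XT.lf (nat_lit 0) (nat_lit 196111441) (nat_lit 1748) (nat_lit 9683082701) (nat_lit 1824) (nat_lit 1977653469) (nat_lit 502) (nat_lit 5) (nat_lit 525) (nat_lit 5) (nat_lit 526) (nat_lit 5) (nat_lit 579) (nat_lit 566) (nat_lit 415))) (XT.nd (nat_lit 78) (nat_lit 0) (nat_lit 76) (XT.lf (nat_lit 0) (nat_lit 1199741791) (nat_lit 1748) (nat_lit 3495202496) (nat_lit 1824) (nat_lit 7275589308) (nat_lit 502) (nat_lit 5) (nat_lit 525) (nat_lit 5) (nat_lit 526) (nat_lit 5) (nat_lit 580) (nat_lit 566) (nat_lit 414)) (XT.lf (nat_lit 0) (nat_lit 2232851427) (nat_lit 1748) (nat_lit 9245831699) (nat_lit 1824) (nat_lit 607622848)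 (nat_lit 503) (nat_lit 5) (nat_lit 526) (nat_lit 5) (nat_lit 527) (nat_lit 5) (nat_lit 581) (nat_lit 566) (nat_lit 413))))) (XT.nd (nat_lit 234) (nat_lit 0) (nat_lit 76) (XT.nd (nat_lit 78) (nat_lit 0) (nat_lit 0) (XT.lf (nat_lit 0) (nat_lit 3328487051) (nat_lit 1748) (nat_lit 2894341608) (nat_lit 1824) (nat_lit 5980728659) (nat_lit 503) (nat_lit 5) (nat_lit 526) (nat_lit 5) (nat_lit 527) (nat_lit 5) (nat_lit 582) (nat_lit 566) (nat_lit 412)) (XT.nd (nat_lit 78) (nat_lit 0) (nat_lit 76) (XT.lf (nat_lit 76) (nat_lit 3622459851) (nat_lit 0) (nat_lit 834508155) (nat_lit 1824) (nat_lit 7865967809) (nat_lit 504) (nat_lit 5) (nat_lit 503) (nat_lit 5) (nat_lit 527) (nat_lit 5) (nat_lit 583) (nat_lit 566) (nat_lit 411)) (XT.lf (nat_lit 0) (nat_lit 5645457302) (nat_lit 1748) (nat_lit 2175313893) (nat_lit 1824) (nat_lit 4623182674) (nat_lit 504) (nat_lit 5) (nat_lit 527) (nat_lit 5) (nat_lit 528) (nat_lit 5) (nat_lit 584) (nat_lit 566) (nat_lit 410)))) (XT.nd (nat_lit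 156) (nat_lit 0) (nat_lit 76) (XT.nd (nat_lit 78) (nat_lit 0) (nat_lit 76) (XT.lf (nat_lit 76) (nat_lit 4524918348) (nat_lit 0) (nat_lit 2355567544) (nat_lit 1824) (nat_lit 5686451751) (nat_lit 505) (nat_lit 5) (nat_lit 504) (nat_lit 5) (nat_lit 528) (nat_lit 5) (nat_lit 585) (nat_lit 566) (nat_lit 409)) (XT.lf (nat_lit 0) (nat_lit 8163869164) (nat_lit 1748) (nat_lit 1333891748) (nat_lit 1824) (nat_lit 3194147831) (nat_lit 505) (nat_lit 5) (nat_lit 528) (nat_lit 5) (nat_lit 529) (nat_lit 5) (nat_lit 586) (nat_lit 566) (nat_lit 408))) (XT.nd (nat_lit 78) (nat_lit 0) (nat_lit 76) (XT.lf (nat_lit 76) (nat_lit 5556408504) (nat_lit 0) (nat_lit 3956481822) (nat_lit 1824) (nat_lit 3305690252) (nat_lit 506) (nat_lit 5) (nat_lit 505) (nat_lit 5) (nat_lit 529) (nat_lit 5) (nat_lit 587) (nat_lit 566) (nat_lit 407)) (XT.lf (nat_lit 0) (nat_lit 10897390885) (nat_lit 1748) (nat_lit 365528182) (nat_lit 1824) (nat_lit 1684697508) (nat_lit 506) (nat_lit 5) (nat_lit 529) (nat_lit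 5) (nat_lit 530) (nat_lit 5) (nat_lit 588) (nat_lit 566) (nat_lit 406)))))) (XT.nd (nat_lit 546) (nat_lit 4408) (nat_lit 0) (XT.nd (nat_lit 234) (nat_lit 2888) (nat_lit 0) (XT.nd (nat_lit 78) (nat_lit 1748) (nat_lit 0) (XT.lf (nat_lit 76) (nat_lit 6721739840) (nat_lit 0) (nat_lit 5646390837) (nat_lit 1824) (nat_lit 709932322) (nat_lit 507) (nat_lit 5) (nat_lit 506) (nat_lit 5) (nat_lit 530) (nat_lit 5) (nat_lit 589) (nat_lit 566) (nat_lit 405)) (XT.nd (nat_lit 78) (nat_lit 0) (nat_lit 0) (XT.lf (nat_lit 0) (nat_lit 645243032) (nat_lit 1824) (nat_lit 12471018162) (nat_lit 76) (nat_lit 94838586) (nat_lit 483) (nat_lit 5) (nat_lit 507) (nat_lit 5) (nat_lit 484) (nat_lit 5) (nat_lit 590) (nat_lit 566) (nat_lit 404)) (XT.lf (nat_lit 0) (nat_lit 2087318372) (nat_lit 1824) (nat_lit 5333269272) (nat_lit 76) (nat_lit 5924730401) (nat_lit 483) (nat_lit 5) (nat_lit 507) (nat_lit 5) (nat_lit 484) (nat_lit 5) (nat_lit 591) (nat_lit 566) (nat_lit 403)))) (XT.nd (nat_lit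 156) (nat_lit 1064) (nat_lit 0) (XT.nd (nat_lit 78) (nat_lit 0) (nat_lit 0) (XT.lf (nat_lit 0) (nat_lit 1963651121) (nat_lit 1824) (nat_lit 1596513342) (nat_lit 1900) (nat_lit 9922018266) (nat_lit 459) (nat_lit 5) (nat_lit 483) (nat_lit 5) (nat_lit 484) (nat_lit 5) (nat_lit 592) (nat_lit 566) (nat_lit 402)) (XT.lf (nat_lit 0) (nat_lit 5116038832) (nat_lit 1900) (nat_lit 4180205265) (nat_lit 76) (nat_lit 4324469807) (nat_lit 459) (nat_lit 5) (nat_lit 484) (nat_lit 5) (nat_lit 460) (nat_lit 5) (nat_lit 593) (nat_lit 566) (nat_lit 401))) (XT.nd (nat_lit 78) (nat_lit 0) (nat_lit 0) (XT.lf (nat_lit 0) (nat_lit 3328658155) (nat_lit 1064) (nat_lit 3396107221) (nat_lit 1140) (nat_lit 7036816246) (nat_lit 445) (nat_lit 5) (nat_lit 459) (nat_lit 5) (nat_lit 460) (nat_lit 5) (nat_lit 594) (nat_lit 566) (nat_lit 400)) (XT.lf (nat_lit 0) (nat_lit 8400629152) (nat_lit 1140) (nat_lit 2887017532) (nat_lit 76) (nat_lit 2616921358) (nat_lit 445) (nat_lit 5) (nat_lit 460) (nat_lit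 5) (nat_lit 446) (nat_lit 5) (nat_lit 595) (nat_lit 566) (nat_lit 399))))) (XT.nd (nat_lit 312) (nat_lit 1672) (nat_lit 0) (XT.nd (nat_lit 156) (nat_lit 1824) (nat_lit 0) (XT.nd (nat_lit 78) (nat_lit 0) (nat_lit 0) (XT.lf (nat_lit 0) (nat_lit 4841534173) (nat_lit 912) (nat_lit 5312304766) (nat_lit 988) (nat_lit 3895699267) (nat_lit 433) (nat_lit 5) (nat_lit 445) (nat_lit 5) (nat_lit 446) (nat_lit 5) (nat_lit 596) (nat_lit 566) (nat_lit 398)) (XT.lf (nat_lit 0) (nat_lit 11956741860) (nat_lit 988) (nat_lit 1447860874) (nat_lit 76) (nat_lit 792513038) (nat_lit 433) (nat_lit 5) (nat_lit 446) (nat_lit 5) (nat_lit 434) (nat_lit 5) (nat_lit 597) (nat_lit 566) (nat_lit 397))) (XT.nd (nat_lit 78) (nat_lit 912) (nat_lit 0) (XT.lf (nat_lit 0) (nat_lit 6508425584) (nat_lit 912) (nat_lit 7354956699) (nat_lit 988) (nat_lit 482909583) (nat_lit 421) (nat_lit 5) (nat_lit 433) (nat_lit 5) (nat_lit 434) (nat_lit 5) (nat_lit 598) (nat_lit 566) (nat_lit 396)) (XT.lf (nat_lit 0)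 (nat_lit 129024645) (nat_lit 836) (nat_lit 1164429407) (nat_lit 912) (nat_lit 13204809366) (nat_lit 409) (nat_lit 5) (nat_lit 420) (nat_lit 5) (nat_lit 421) (nat_lit 5) (nat_lit 599) (nat_lit 566) (nat_lit 395)))) (XT.nd (nat_lit 156) (nat_lit 836) (nat_lit 0) (XT.nd (nat_lit 78) (nat_lit 836) (nat_lit 0) (XT.lf (nat_lit 0) (nat_lit 3175707097) (nat_lit 912) (nat_lit 6337146804) (nat_lit 76) (nat_lit 5138820627) (nat_lit 409) (nat_lit 5) (nat_lit 421) (nat_lit 5) (nat_lit 410) (nat_lit 5) (nat_lit 600) (nat_lit 566) (nat_lit 394)) (XT.lf (nat_lit 0) (nat_lit 1863055901) (nat_lit 836) (nat_lit 3242985479) (nat_lit 912) (nat_lit 9701904280) (nat_lit 398) (nat_lit 5) (nat_lit 409) (nat_lit 5) (nat_lit 410) (nat_lit 5) (nat_lit 601) (nat_lit 566) (nat_lit 393))) (XT.nd (nat_lit 78) (nat_lit 836) (nat_lit 0) (XT.lf (nat_lit 0) (nat_lit 7129009211) (nat_lit 912) (nat_lit 4683454566) (nat_lit 76) (nat_lit 3153798413) (nat_lit 398) (nat_lit 5) (nat_lit 410) (nat_lit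 5) (nat_lit 399) (nat_lit 5) (nat_lit 602) (nat_lit 566) (nat_lit 392)) (XT.lf (nat_lit 0) (nat_lit 3761875280) (nat_lit 836) (nat_lit 5467396697) (nat_lit 912) (nat_lit 5897736866) (nat_lit 387) (nat_lit 5) (nat_lit 398) (nat_lit 5) (nat_lit 399) (nat_lit 5) (nat_lit 603) (nat_lit 566) (nat_lit 391))))))) (XT.nd (nat_lit 1170) (nat_lit 5472) (nat_lit 0) (XT.nd (nat_lit 546) (nat_lit 2812) (nat_lit 0) (XT.nd (nat_lit 234) (nat_lit 2204) (nat_lit 0) (XT.nd (nat_lit 78) (nat_lit 912) (nat_lit 0) (XT.lf (nat_lit 0) (nat_lit 11400750427) (nat_lit 912) (nat_lit 2866787884) (nat_lit 76) (nat_lit 1022848402) (nat_lit 387) (nat_lit 5) (nat_lit 399) (nat_lit 5) (nat_lit 388) (nat_lit 5) (nat_lit 604) (nat_lit 566) (nat_lit 390)) (XT.nd (nat_lit 78) (nat_lit 76) (nat_lit 0) (XT.lf (nat_lit 0) (nat_lit 5832683351) (nat_lit 836) (nat_lit 7848279631) (nat_lit 912) (nat_lit 1774763552) (nat_lit 376) (nat_lit 5) (nat_lit 387) (nat_lit 5) (nat_lit 388) (nat_lit 5) (nat_lit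 605) (nat_lit 566) (nat_lit 389)) (XT.lf (nat_lit 0) (nat_lit 388038637) (nat_lit 912) (nat_lit 890780937) (nat_lit 76) (nat_lit 14345291437) (nat_lit 375) (nat_lit 5) (nat_lit 387) (nat_lit 5) (nat_lit 376) (nat_lit 5) (nat_lit 606) (nat_lit 566) (nat_lit 388)))) (XT.nd (nat_lit 156) (nat_lit 684) (nat_lit 0) (XT.nd (nat_lit 78) (nat_lit 760) (nat_lit 0) (XT.lf (nat_lit 0) (nat_lit 2650035929) (nat_lit 836) (nat_lit 7728752981) (nat_lit 76) (nat_lit 5415246039) (nat_lit 365) (nat_lit 5) (nat_lit 376) (nat_lit 5) (nat_lit 366) (nat_lit 5) (nat_lit 607) (nat_lit 566) (nat_lit 387)) (XT.lf (nat_lit 0) (nat_lit 1243996859) (nat_lit 760) (nat_lit 3727398756) (nat_lit 836) (nat_lit 10995679748) (nat_lit 355) (nat_lit 5) (nat_lit 365) (nat_lit 5) (nat_lit 366) (nat_lit 5) (nat_lit 608) (nat_lit 566) (nat_lit 386))) (XT.nd (nat_lit 78) (nat_lit 684) (nat_lit 0) (XT.lf (nat_lit 0) (nat_lit 7402899614) (nat_lit 836) (nat_lit 5670979370) (nat_lit 76) (nat_lit 3068423696)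 (nat_lit 355) (nat_lit 5) (nat_lit 366) (nat_lit 5) (nat_lit 356) (nat_lit 5) (nat_lit 609) (nat_lit 566) (nat_lit 385)) (XT.lf (nat_lit 0) (nat_lit 3575333444) (nat_lit 684) (nat_lit 6347423397) (nat_lit 760) (nat_lit 6397483669) (nat_lit 346) (nat_lit 5) (nat_lit 355) (nat_lit 5) (nat_lit 356) (nat_lit 5) (nat_lit 610) (nat_lit 566) (nat_lit 384))))) (XT.nd (nat_lit 312) (nat_lit 1292) (nat_lit 0) (XT.nd (nat_lit 156) (nat_lit 760) (nat_lit 0) (XT.nd (nat_lit 78) (nat_lit 760) (nat_lit 0) (XT.lf (nat_lit 0) (nat_lit 12526573989) (nat_lit 760) (nat_lit 3430249529) (nat_lit 76) (nat_lit 544242745) (nat_lit 346) (nat_lit 5) (nat_lit 356) (nat_lit 5) (nat_lit 347) (nat_lit 5) (nat_lit 611) (nat_lit 566) (nat_lit 383)) (XT.lf (nat_lit 0) (nat_lit 6099711837) (nat_lit 760) (nat_lit 9156474460) (nat_lit 836) (nat_lit 1427848269) (nat_lit 336) (nat_lit 5) (nat_lit 346) (nat_lit 5) (nat_lit 347) (nat_lit 5) (nat_lit 612) (nat_lit 566) (nat_lit 382))) (XT.nd (nat_lit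 78) (nat_lit 684) (nat_lit 0) (XT.lf (nat_lit 0) (nat_lit 1169683518) (nat_lit 836) (nat_lit 1020176969) (nat_lit 76) (nat_lit 14680344330) (nat_lit 335) (nat_lit 5) (nat_lit 346) (nat_lit 5) (nat_lit 336) (nat_lit 5) (nat_lit 613) (nat_lit 566) (nat_lit 381)) (XT.lf (nat_lit 0) (nat_lit 3882046486) (nat_lit 760) (nat_lit 8258453132) (nat_lit 76) (nat_lit 4917770495) (nat_lit 326) (nat_lit 5) (nat_lit 336) (nat_lit 5) (nat_lit 327) (nat_lit 5) (nat_lit 614) (nat_lit 566) (nat_lit 380)))) (XT.nd (nat_lit 156) (nat_lit 608) (nat_lit 0) (XT.nd (nat_lit 78) (nat_lit 0) (nat_lit 0) (XT.lf (nat_lit 0) (nat_lit 1577309332) (nat_lit 684) (nat_lit 5095348362) (nat_lit 760) (nat_lit 10576959381) (nat_lit 317) (nat_lit 5) (nat_lit 326) (nat_lit 5) (nat_lit 327) (nat_lit 5) (nat_lit 615) (nat_lit 566) (nat_lit 379)) (XT.lf (nat_lit 0) (nat_lit 9580891061) (nat_lit 760) (nat_lit 5744884820) (nat_lit 76) (nat_lit 2117779271) (nat_lit 317) (nat_lit 5) (nat_lit 327) (nat_lit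 5) (nat_lit 318) (nat_lit 5) (nat_lit 616) (nat_lit 566) (nat_lit 378))) (XT.nd (nat_lit 78) (nat_lit 0) (nat_lit 0) (XT.lf (nat_lit 0) (nat_lit 4396182087) (nat_lit 608) (nat_lit 8205992109) (nat_lit 684) (nat_lit 5038100459) (nat_lit 309) (nat_lit 5) (nat_lit 317) (nat_lit 5) (nat_lit 318) (nat_lit 5) (nat_lit 617) (nat_lit 566) (nat_lit 377)) (XT.lf (nat_lit 0) (nat_lit 14809184604) (nat_lit 608) (nat_lit 905936000) (nat_lit 684) (nat_lit 2125183552) (nat_lit 309) (nat_lit 5) (nat_lit 317) (nat_lit 5) (nat_lit 318) (nat_lit 5) (nat_lit 618) (nat_lit 566) (nat_lit 376)))))) (XT.nd (nat_lit 546) (nat_lit 2812) (nat_lit 0) (XT.nd (nat_lit 234) (nat_lit 1292) (nat_lit 0) (XT.nd (nat_lit 78) (nat_lit 608) (nat_lit 0) (XT.lf (nat_lit 0) (nat_lit 918988774) (nat_lit 760) (nat_lit 10616304294) (nat_lit 76) (nat_lit 6507249819) (nat_lit 299) (nat_lit 5) (nat_lit 309) (nat_lit 5) (nat_lit 300) (nat_lit 5) (nat_lit 619) (nat_lit 566) (nat_lit 375)) (XT.nd (nat_lit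 78) (nat_lit 608) (nat_lit 0) (XT.lf (nat_lit 0) (nat_lit 4014947428) (nat_lit 760) (nat_lit 143556240) (nat_lit 76) (nat_lit 14089654935) (nat_lit 299) (nat_lit 5) (nat_lit 309) (nat_lit 5) (nat_lit 300) (nat_lit 5) (nat_lit 620) (nat_lit 566) (nat_lit 374)) (XT.lf (nat_lit 0) (nat_lit 7257401434) (nat_lit 684) (nat_lit 7808945468) (nat_lit 76) (nat_lit 3389848538) (nat_lit 291) (nat_lit 5) (nat_lit 300) (nat_lit 5) (nat_lit 292) (nat_lit 5) (nat_lit 621) (nat_lit 566) (nat_lit 373)))) (XT.nd (nat_lit 156) (nat_lit 684) (nat_lit 0) (XT.nd (nat_lit 78) (nat_lit 0) (nat_lit 0) (XT.lf (nat_lit 0) (nat_lit 2990458928) (nat_lit 608) (nat_lit 7615240396) (nat_lit 684) (nat_lit 8061874119) (nat_lit 283) (nat_lit 5) (nat_lit 291) (nat_lit 5) (nat_lit 292) (nat_lit 5) (nat_lit 622) (nat_lit 566) (nat_lit 372)) (XT.lf (nat_lit 0) (nat_lit 14066752176) (nat_lit 684) (nat_lit 4779404983) (nat_lit 76) (nat_lit 36106387) (nat_lit 283) (nat_lit 5) (nat_lit 292) (nat_lit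 5) (nat_lit 284) (nat_lit 5) (nat_lit 623) (nat_lit 566) (nat_lit 371))) (XT.nd (nat_lit 78) (nat_lit 76) (nat_lit 0) (XT.lf (nat_lit 0) (nat_lit 6360690612) (nat_lit 608) (nat_lit 11321337849) (nat_lit 684) (nat_lit 1417519255) (nat_lit 275) (nat_lit 5) (nat_lit 283) (nat_lit 5) (nat_lit 284) (nat_lit 5) (nat_lit 624) (nat_lit 566) (nat_lit 370)) (XT.lf (nat_lit 0) (nat_lit 2047156729) (nat_lit 684) (nat_lit 1554264740) (nat_lit 76) (nat_lit 15718978613) (nat_lit 274) (nat_lit 5) (nat_lit 283) (nat_lit 5) (nat_lit 275) (nat_lit 5) (nat_lit 625) (nat_lit 566) (nat_lit 369))))) (XT.nd (nat_lit 312) (nat_lit 1140) (nat_lit 0) (XT.nd (nat_lit 156) (nat_lit 532) (nat_lit 0) (XT.nd (nat_lit 78) (nat_lit 532) (nat_lit 0) (XT.lf (nat_lit 0) (nat_lit 5648532559) (nat_lit 684) (nat_lit 9605612422) (nat_lit 76) (nat_lit 4289609675) (nat_lit 266) (nat_lit 5) (nat_lit 275) (nat_lit 5) (nat_lit 267) (nat_lit 5) (nat_lit 626) (nat_lit 566) (nat_lit 368)) (XT.lf (nat_lit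 0) (nat_lit 1902647427) (nat_lit 532) (nat_lit 7459489545) (nat_lit 608) (nat_lit 10408635619) (nat_lit 259) (nat_lit 5) (nat_lit 266) (nat_lit 5) (nat_lit 267) (nat_lit 5) (nat_lit 627) (nat_lit 566) (nat_lit 367))) (XT.nd (nat_lit 78) (nat_lit 532) (nat_lit 0) (XT.lf (nat_lit 0) (nat_lit 13211645455) (nat_lit 608) (nat_lit 6241922530) (nat_lit 76) (nat_lit 547530541) (nat_lit 259) (nat_lit 5) (nat_lit 267) (nat_lit 5) (nat_lit 260) (nat_lit 5) (nat_lit 628) (nat_lit 566) (nat_lit 366)) (XT.lf (nat_lit 0) (nat_lit 5632902903) (nat_lit 532) (nat_lit 11584898761) (nat_lit 608) (nat_lit 3016636443) (nat_lit 252) (nat_lit 5) (nat_lit 259) (nat_lit 5) (nat_lit 260) (nat_lit 5) (nat_lit 629) (nat_lit 566) (nat_lit 365)))) (XT.nd (nat_lit 156) (nat_lit 532) (nat_lit 0) (XT.nd (nat_lit 78) (nat_lit 532) (nat_lit 0) (XT.lf (nat_lit 0) (nat_lit 856606025) (nat_lit 608) (nat_lit 2655853837) (nat_lit 76) (nat_lit 16959159362) (nat_lit 251) (nat_lit 5) (nat_lit 259) (nat_lit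 5) (nat_lit 252) (nat_lit 5) (nat_lit 630) (nat_lit 566) (nat_lit 364)) (XT.lf (nat_lit 0) (nat_lit 4854485038) (nat_lit 608) (nat_lit 11116425985) (nat_lit 76) (nat_lit 4740483114) (nat_lit 244) (nat_lit 5) (nat_lit 252) (nat_lit 5) (nat_lit 245) (nat_lit 5) (nat_lit 631) (nat_lit 566) (nat_lit 363))) (XT.nd (nat_lit 78) (nat_lit 0) (nat_lit 0) (XT.lf (nat_lit 0) (nat_lit 1154668125) (nat_lit 532) (nat_lit 7820241917) (nat_lit 608) (nat_lit 11980202995) (nat_lit 237) (nat_lit 5) (nat_lit 244) (nat_lit 5) (nat_lit 245) (nat_lit 5) (nat_lit 632) (nat_lit 566) (nat_lit 362)) (XT.lf (nat_lit 0) (nat_lit 13249980425) (nat_lit 608) (nat_lit 7392389703) (nat_lit 76) (nat_lit 559891701) (nat_lit 237) (nat_lit 5) (nat_lit 245) (nat_lit 5) (nat_lit 238) (nat_lit 5) (nat_lit 633) (nat_lit 566) (nat_lit 361))))))))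
noncomputable def xc166 : XT := (XT.nd (nat_lit 2262) (nat_lit 1596) (nat_lit 0) (XT.nd (nat_lit 1092) (nat_lit 3572) (nat_lit 0) (XT.nd (nat_lit 546) (nat_lit 2204) (nat_lit 0) (XT.nd (nat_lit 234) (nat_lit 988) (nat_lit 0) (XT.nd (nat_lit 78) (nat_lit 608) (nat_lit 0) (XT.lf (nat_lit 0) (nat_lit 5273009313) (nat_lit 456) (nat_lit 12417629284) (nat_lit 532) (nat_lit 3762113519) (nat_lit 231) (nat_lit 5) (nat_lit 237) (nat_lit 5) (nat_lit 238) (nat_lit 5) (nat_lit 634) (nat_lit 566) (nat_lit 360)) (XT.nd (nat_lit 78) (nat_lit 532) (nat_lit 0) (XT.lf (nat_lit 0) (nat_lit 549165312) (nat_lit 532) (nat_lit 3427198894) (nat_lit 76) (nat_lit 17730941359) (nat_lit 230) (nat_lit 5) (nat_lit 237) (nat_lit 5) (nat_lit 231) (nat_lit 5) (nat_lit 635) (nat_lit 566) (nat_lit 359)) (XT.lf (nat_lit 0) (nat_lit 4984007079) (nat_lit 608) (nat_lit 12321649867) (nat_lit 76) (nat_lit 4659041777) (nat_lit 223) (nat_lit 5) (nat_lit 231) (nat_lit 5) (nat_lit 224) (nat_lit 5) (nat_lit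 636) (nat_lit 566) (nat_lit 358)))) (XT.nd (nat_lit 156) (nat_lit 532) (nat_lit 0) (XT.nd (nat_lit 78) (nat_lit 0) (nat_lit 0) (XT.lf (nat_lit 0) (nat_lit 769894353) (nat_lit 456) (nat_lit 8786382592) (nat_lit 532) (nat_lit 12669988401) (nat_lit 217) (nat_lit 5) (nat_lit 223) (nat_lit 5) (nat_lit 224) (nat_lit 5) (nat_lit 637) (nat_lit 566) (nat_lit 357)) (XT.lf (nat_lit 0) (nat_lit 14282250454) (nat_lit 456) (nat_lit 14735518) (nat_lit 532) (nat_lit 8194537678) (nat_lit 217) (nat_lit 5) (nat_lit 223) (nat_lit 5) (nat_lit 224) (nat_lit 5) (nat_lit 638) (nat_lit 566) (nat_lit 356))) (XT.nd (nat_lit 78) (nat_lit 76) (nat_lit 0) (XT.lf (nat_lit 0) (nat_lit 5306384677) (nat_lit 456) (nat_lit 13912977406) (nat_lit 532) (nat_lit 3540988199) (nat_lit 211) (nat_lit 5) (nat_lit 217) (nat_lit 5) (nat_lit 218) (nat_lit 5) (nat_lit 639) (nat_lit 566) (nat_lit 355)) (XT.lf (nat_lit 0) (nat_lit 1239798108) (nat_lit 532) (nat_lit 3846110409) (nat_lit 76) (nat_lit 17947489026)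 (nat_lit 210) (nat_lit 5) (nat_lit 217) (nat_lit 5) (nat_lit 211) (nat_lit 5) (nat_lit 640) (nat_lit 566) (nat_lit 354))))) (XT.nd (nat_lit 234) (nat_lit 1292) (nat_lit 0) (XT.nd (nat_lit 78) (nat_lit 456) (nat_lit 0) (XT.lf (nat_lit 0) (nat_lit 6155185444) (nat_lit 532) (nat_lit 13200707250) (nat_lit 76) (nat_lit 3953817160) (nat_lit 204) (nat_lit 5) (nat_lit 211) (nat_lit 5) (nat_lit 205) (nat_lit 5) (nat_lit 641) (nat_lit 566) (nat_lit 353)) (XT.nd (nat_lit 78) (nat_lit 0) (nat_lit 0) (XT.lf (nat_lit 0) (nat_lit 772715125) (nat_lit 456) (nat_lit 10455421509) (nat_lit 532) (nat_lit 12362226857) (nat_lit 198) (nat_lit 5) (nat_lit 204) (nat_lit 5) (nat_lit 205) (nat_lit 5) (nat_lit 642) (nat_lit 566) (nat_lit 352)) (XT.lf (nat_lit 0) (nat_lit 15196709471) (nat_lit 456) (nat_lit 1289053794) (nat_lit 532) (nat_lit 7389202807) (nat_lit 198) (nat_lit 5) (nat_lit 204) (nat_lit 5) (nat_lit 205) (nat_lit 5) (nat_lit 643) (nat_lit 566) (nat_lit 351)))) (XT.nd (nat_lit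 156) (nat_lit 836) (nat_lit 0) (XT.nd (nat_lit 78) (nat_lit 76) (nat_lit 0) (XT.lf (nat_lit 0) (nat_lit 5759351274) (nat_lit 380) (nat_lit 16173641964) (nat_lit 456) (nat_lit 2230578644) (nat_lit 193) (nat_lit 5) (nat_lit 198) (nat_lit 5) (nat_lit 199) (nat_lit 5) (nat_lit 644) (nat_lit 566) (nat_lit 350)) (XT.lf (nat_lit 0) (nat_lit 3053361972) (nat_lit 456) (nat_lit 3889831434) (nat_lit 76) (nat_lit 17513124997) (nat_lit 192) (nat_lit 5) (nat_lit 198) (nat_lit 5) (nat_lit 193) (nat_lit 5) (nat_lit 645) (nat_lit 566) (nat_lit 349))) (XT.nd (nat_lit 78) (nat_lit 380) (nat_lit 0) (XT.lf (nat_lit 0) (nat_lit 8496251848) (nat_lit 532) (nat_lit 13732709374) (nat_lit 76) (nat_lit 2524001175) (nat_lit 186) (nat_lit 5) (nat_lit 193) (nat_lit 5) (nat_lit 187) (nat_lit 5) (nat_lit 646) (nat_lit 566) (nat_lit 348)) (XT.lf (nat_lit 0) (nat_lit 1188002522) (nat_lit 380) (nat_lit 12934847052) (nat_lit 456) (nat_lit 10931192874) (nat_lit 181) (nat_lit 5) (nat_lit 186) (nat_lit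 5) (nat_lit 187) (nat_lit 5) (nat_lit 647) (nat_lit 566) (nat_lit 347)))))) (XT.nd (nat_lit 546) (nat_lit 1900) (nat_lit 0) (XT.nd (nat_lit 234) (nat_lit 1216) (nat_lit 0) (XT.nd (nat_lit 78) (nat_lit 456) (nat_lit 0) (XT.lf (nat_lit 0) (nat_lit 16585655922) (nat_lit 380) (nat_lit 3363407602) (nat_lit 456) (nat_lit 5410339069) (nat_lit 181) (nat_lit 5) (nat_lit 186) (nat_lit 5) (nat_lit 187) (nat_lit 5) (nat_lit 648) (nat_lit 566) (nat_lit 346)) (XT.nd (nat_lit 78) (nat_lit 0) (nat_lit 0) (XT.lf (nat_lit 0) (nat_lit 298357919) (nat_lit 456) (nat_lit 19012622318) (nat_lit 76) (nat_lit 6358254711) (nat_lit 175) (nat_lit 5) (nat_lit 181) (nat_lit 5) (nat_lit 176) (nat_lit 5) (nat_lit 649) (nat_lit 566) (nat_lit 345)) (XT.lf (nat_lit 0) (nat_lit 6125422587) (nat_lit 456) (nat_lit 3535644614) (nat_lit 76) (nat_lit 16321948903) (nat_lit 175) (nat_lit 5) (nat_lit 181) (nat_lit 5) (nat_lit 176) (nat_lit 5) (nat_lit 650) (nat_lit 566) (nat_lit 344)))) (XT.nd (nat_lit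 156) (nat_lit 456) (nat_lit 0) (XT.nd (nat_lit 78) (nat_lit 380) (nat_lit 0) (XT.lf (nat_lit 0) (nat_lit 12146402386) (nat_lit 456) (nat_lit 13897100487) (nat_lit 76) (nat_lit 258022698) (nat_lit 170) (nat_lit 5) (nat_lit 176) (nat_lit 5) (nat_lit 171) (nat_lit 5) (nat_lit 651) (nat_lit 566) (nat_lit 343)) (XT.lf (nat_lit 0) (nat_lit 2040459036) (nat_lit 380) (nat_lit 16343612907) (nat_lit 456) (nat_lit 8240408040) (nat_lit 165) (nat_lit 5) (nat_lit 170) (nat_lit 5) (nat_lit 171) (nat_lit 5) (nat_lit 652) (nat_lit 566) (nat_lit 342))) (XT.nd (nat_lit 78) (nat_lit 456) (nat_lit 0) (XT.lf (nat_lit 0) (nat_lit 18477741349) (nat_lit 380) (nat_lit 6357215652) (nat_lit 456) (nat_lit 2117167396) (nat_lit 165) (nat_lit 5) (nat_lit 170) (nat_lit 5) (nat_lit 171) (nat_lit 5) (nat_lit 653) (nat_lit 566) (nat_lit 341)) (XT.lf (nat_lit 0) (nat_lit 4147152327) (nat_lit 456) (nat_lit 19281589496) (nat_lit 76) (nat_lit 3855588708) (nat_lit 159) (nat_lit 5) (nat_lit 165) (nat_lit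 5) (nat_lit 160) (nat_lit 5) (nat_lit 654) (nat_lit 566) (nat_lit 340))))) (XT.nd (nat_lit 312) (nat_lit 1140) (nat_lit 0) (XT.nd (nat_lit 156) (nat_lit 380) (nat_lit 0) (XT.nd (nat_lit 78) (nat_lit 380) (nat_lit 0) (XT.lf (nat_lit 0) (nat_lit 10603077719) (nat_lit 456) (nat_lit 2761615609) (nat_lit 76) (nat_lit 14256314352) (nat_lit 159) (nat_lit 5) (nat_lit 165) (nat_lit 5) (nat_lit 160) (nat_lit 5) (nat_lit 655) (nat_lit 566) (nat_lit 339)) (XT.lf (nat_lit 0) (nat_lit 14268684391) (nat_lit 380) (nat_lit 3007467916) (nat_lit 456) (nat_lit 10686505598) (nat_lit 154) (nat_lit 5) (nat_lit 159) (nat_lit 5) (nat_lit 160) (nat_lit 5) (nat_lit 656) (nat_lit 566) (nat_lit 338))) (XT.nd (nat_lit 78) (nat_lit 76) (nat_lit 0) (XT.lf (nat_lit 0) (nat_lit 3353816145) (nat_lit 304) (nat_lit 20813782469) (nat_lit 380) (nat_lit 4141844457) (nat_lit 150) (nat_lit 5) (nat_lit 154) (nat_lit 5) (nat_lit 155) (nat_lit 5) (nat_lit 657) (nat_lit 566) (nat_lit 337)) (XT.lf (nat_lit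 0) (nat_lit 2608328171) (nat_lit 380) (nat_lit 7777365350) (nat_lit 76) (nat_lit 18274984579) (nat_lit 149) (nat_lit 5) (nat_lit 154) (nat_lit 5) (nat_lit 150) (nat_lit 5) (nat_lit 658) (nat_lit 566) (nat_lit 336)))) (XT.nd (nat_lit 156) (nat_lit 760) (nat_lit 0) (XT.nd (nat_lit 78) (nat_lit 0) (nat_lit 0) (XT.lf (nat_lit 0) (nat_lit 9499713518) (nat_lit 456) (nat_lit 19180454648) (nat_lit 76) (nat_lit 336988873) (nat_lit 144) (nat_lit 5) (nat_lit 150) (nat_lit 5) (nat_lit 145) (nat_lit 5) (nat_lit 659) (nat_lit 566) (nat_lit 335)) (XT.lf (nat_lit 0) (nat_lit 16645785455) (nat_lit 456) (nat_lit 1547504260) (nat_lit 76) (nat_lit 11185138796) (nat_lit 144) (nat_lit 5) (nat_lit 150) (nat_lit 5) (nat_lit 145) (nat_lit 5) (nat_lit 660) (nat_lit 566) (nat_lit 334))) (XT.nd (nat_lit 78) (nat_lit 456) (nat_lit 0) (XT.lf (nat_lit 0) (nat_lit 16649472660) (nat_lit 304) (nat_lit 7389036582) (nat_lit 380) (nat_lit 5706341690) (nat_lit 140) (nat_lit 5) (nat_lit 144) (nat_lit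 5) (nat_lit 145) (nat_lit 5) (nat_lit 661) (nat_lit 566) (nat_lit 333)) (XT.lf (nat_lit 0) (nat_lit 1504870017) (nat_lit 456) (nat_lit 24977389497) (nat_lit 76) (nat_lit 3634881985) (nat_lit 134) (nat_lit 5) (nat_lit 140) (nat_lit 5) (nat_lit 135) (nat_lit 5) (nat_lit 662) (nat_lit 566) (nat_lit 332))))))) (XT.nd (nat_lit 74100) (nat_lit 0) (nat_lit 29488) (XT.nd (nat_lit 546) (nat_lit 304) (nat_lit 0) (XT.nd (nat_lit 234) (nat_lit 684) (nat_lit 0) (XT.nd (nat_lit 78) (nat_lit 608) (nat_lit 0) (XT.lf (nat_lit 0) (nat_lit 8917028190) (nat_lit 456) (nat_lit 6672359025) (nat_lit 76) (nat_lit 14904073801) (nat_lit 134) (nat_lit 5) (nat_lit 140) (nat_lit 5) (nat_lit 135) (nat_lit 5) (nat_lit 663) (nat_lit 566) (nat_lit 331)) (XT.nd (nat_lit 78) (nat_lit 304) (nat_lit 0) (XT.lf (nat_lit 0) (nat_lit 12151247119) (nat_lit 304) (nat_lit 4400827206) (nat_lit 380) (nat_lit 14323739822) (nat_lit 130) (nat_lit 5) (nat_lit 134) (nat_lit 5) (nat_lit 135) (nat_lit 5) (nat_lit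 664) (nat_lit 566) (nat_lit 330)) (XT.lf (nat_lit 0) (nat_lit 125769147) (nat_lit 304) (nat_lit 24301236316) (nat_lit 380) (nat_lit 6837065312) (nat_lit 126) (nat_lit 5) (nat_lit 130) (nat_lit 5) (nat_lit 131) (nat_lit 5) (nat_lit 665) (nat_lit 566) (nat_lit 329)))) (XT.nd (nat_lit 156) (nat_lit 304) (nat_lit 0) (XT.nd (nat_lit 78) (nat_lit 304) (nat_lit 0) (XT.lf (nat_lit 0) (nat_lit 940270601) (nat_lit 380) (nat_lit 12092740847) (nat_lit 76) (nat_lit 18623949174) (nat_lit 125) (nat_lit 5) (nat_lit 130) (nat_lit 5) (nat_lit 126) (nat_lit 5) (nat_lit 666) (nat_lit 566) (nat_lit 328)) (XT.lf (nat_lit 0) (nat_lit 7378434535) (nat_lit 304) (nat_lit 1447027400) (nat_lit 380) (nat_lit 23230465439) (nat_lit 121) (nat_lit 5) (nat_lit 125) (nat_lit 5) (nat_lit 126) (nat_lit 5) (nat_lit 667) (nat_lit 566) (nat_lit 327))) (XT.nd (nat_lit 78) (nat_lit 304) (nat_lit 0) (XT.lf (nat_lit 0) (nat_lit 17013262315) (nat_lit 380) (nat_lit 5132975241) (nat_lit 76) (nat_lit 10313737908)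 (nat_lit 121) (nat_lit 5) (nat_lit 126) (nat_lit 5) (nat_lit 122) (nat_lit 5) (nat_lit 668) (nat_lit 566) (nat_lit 326)) (XT.lf (nat_lit 0) (nat_lit 14982675977) (nat_lit 304) (nat_lit 10484969675) (nat_lit 380) (nat_lit 7402402432) (nat_lit 117) (nat_lit 5) (nat_lit 121) (nat_lit 5) (nat_lit 122) (nat_lit 5) (nat_lit 669) (nat_lit 566) (nat_lit 325))))) (XT.nd (nat_lit 73242) (nat_lit 0) (nat_lit 30856) (XT.nd (nat_lit 78) (nat_lit 0) (nat_lit 0) (XT.lf (nat_lit 0) (nat_lit 847349364) (nat_lit 304) (nat_lit 30996168924) (nat_lit 76) (nat_lit 1443598049) (nat_lit 113) (nat_lit 5) (nat_lit 117) (nat_lit 5) (nat_lit 114) (nat_lit 5) (nat_lit 670) (nat_lit 566) (nat_lit 324)) (XT.nd (nat_lit 73086) (nat_lit 0) (nat_lit 30856) (XT.lf (nat_lit 0) (nat_lit 9349330726) (nat_lit 304) (nat_lit 10720780865) (nat_lit 76) (nat_lit 13637708811) (nat_lit 113) (nat_lit 5) (nat_lit 117) (nat_lit 5) (nat_lit 114) (nat_lit 5) (nat_lit 671) (nat_lit 566) (nat_lit 323)) (XT.lf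 (nat_lit 0) (nat_lit 1127097973) (nat_lit 1748) (nat_lit 2115348474) (nat_lit 1748) (nat_lit 2115348474) (nat_lit 519) (nat_lit 3) (nat_lit 542) (nat_lit 3) (nat_lit 542) (nat_lit 5) (nat_lit 567) (nat_lit 567) (nat_lit 426)))) (XT.nd (nat_lit 156) (nat_lit 0) (nat_lit 76) (XT.nd (nat_lit 78) (nat_lit 0) (nat_lit 76) (XT.lf (nat_lit 76) (nat_lit 1100245971) (nat_lit 0) (nat_lit 1791495154) (nat_lit 1748) (nat_lit 7918665427) (nat_lit 520) (nat_lit 5) (nat_lit 519) (nat_lit 3) (nat_lit 542) (nat_lit 5) (nat_lit 568) (nat_lit 567) (nat_lit 425)) (XT.lf (nat_lit 0) (nat_lit 3574118443) (nat_lit 1672) (nat_lit 4339645944) (nat_lit 1748) (nat_lit 2992714608) (nat_lit 520) (nat_lit 5) (nat_lit 542) (nat_lit 5) (nat_lit 543) (nat_lit 5) (nat_lit 569) (nat_lit 567) (nat_lit 424))) (XT.nd (nat_lit 78) (nat_lit 0) (nat_lit 76) (XT.lf (nat_lit 76) (nat_lit 1132829324) (nat_lit 0) (nat_lit 3140898454) (nat_lit 1748) (nat_lit 6730674427) (nat_lit 521) (nat_lit 5) (nat_lit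 520) (nat_lit 5) (nat_lit 543) (nat_lit 5) (nat_lit 570) (nat_lit 567) (nat_lit 423)) (XT.lf (nat_lit 0) (nat_lit 5012521767) (nat_lit 1672) (nat_lit 4350271987) (nat_lit 1748) (nat_lit 1740987262) (nat_lit 521) (nat_lit 5) (nat_lit 543) (nat_lit 5) (nat_lit 544) (nat_lit 5) (nat_lit 571) (nat_lit 567) (nat_lit 422)))))) (XT.nd (nat_lit 546) (nat_lit 1520) (nat_lit 0) (XT.nd (nat_lit 234) (nat_lit 0) (nat_lit 76) (XT.nd (nat_lit 78) (nat_lit 0) (nat_lit 76) (XT.lf (nat_lit 76) (nat_lit 1268723981) (nat_lit 0) (nat_lit 4511369149) (nat_lit 1748) (nat_lit 5424775209) (nat_lit 522) (nat_lit 5) (nat_lit 521) (nat_lit 5) (nat_lit 544) (nat_lit 5) (nat_lit 572) (nat_lit 567) (nat_lit 421)) (XT.nd (nat_lit 78) (nat_lit 0) (nat_lit 0) (XT.lf (nat_lit 0) (nat_lit 6580483505) (nat_lit 1672) (nat_lit 4260206914) (nat_lit 1748) (nat_lit 466938587) (nat_lit 522) (nat_lit 5) (nat_lit 544) (nat_lit 5) (nat_lit 545) (nat_lit 5) (nat_lit 573) (nat_lit 567) (nat_lit 420)) (XT.lf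 (nat_lit 76) (nat_lit 1510505627) (nat_lit 0) (nat_lit 5911593019) (nat_lit 1748) (nat_lit 3989842830) (nat_lit 523) (nat_lit 5) (nat_lit 522) (nat_lit 5) (nat_lit 545) (nat_lit 5) (nat_lit 574) (nat_lit 567) (nat_lit 419)))) (XT.nd (nat_lit 156) (nat_lit 0) (nat_lit 76) (XT.nd (nat_lit 78) (nat_lit 0) (nat_lit 76) (XT.lf (nat_lit 76) (nat_lit 7445760148) (nat_lit 0) (nat_lit 849135007) (nat_lit 1748) (nat_lit 3223158971) (nat_lit 523) (nat_lit 5) (nat_lit 522) (nat_lit 5) (nat_lit 545) (nat_lit 5) (nat_lit 575) (nat_lit 567) (nat_lit 418)) (XT.lf (nat_lit 76) (nat_lit 1861058454) (nat_lit 0) (nat_lit 7350261228) (nat_lit 1748) (nat_lit 2414446799) (nat_lit 524) (nat_lit 5) (nat_lit 523) (nat_lit 5) (nat_lit 546) (nat_lit 5) (nat_lit 576) (nat_lit 567) (nat_lit 417))) (XT.nd (nat_lit 78) (nat_lit 0) (nat_lit 76) (XT.lf (nat_lit 76) (nat_lit 7953871164) (nat_lit 0) (nat_lit 2211407458) (nat_lit 1748) (nat_lit 1569971219) (nat_lit 524) (nat_lit 5) (nat_lit 523)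 (nat_lit 5) (nat_lit 546) (nat_lit 5) (nat_lit 577) (nat_lit 567) (nat_lit 416)) (XT.lf (nat_lit 76) (nat_lit 2323576846) (nat_lit 0) (nat_lit 8836093182) (nat_lit 1748) (nat_lit 686826632) (nat_lit 525) (nat_lit 5) (nat_lit 524) (nat_lit 5) (nat_lit 547) (nat_lit 5) (nat_lit 578) (nat_lit 567) (nat_lit 415))))) (XT.nd (nat_lit 312) (nat_lit 0) (nat_lit 152) (XT.nd (nat_lit 156) (nat_lit 0) (nat_lit 76) (XT.nd (nat_lit 78) (nat_lit 0) (nat_lit 76) (XT.lf (nat_lit 0) (nat_lit 238073092) (nat_lit 1748) (nat_lit 3382733884) (nat_lit 1824) (nat_lit 8338596505) (nat_lit 501) (nat_lit 5) (nat_lit 524) (nat_lit 5) (nat_lit 525) (nat_lit 5) (nat_lit 579) (nat_lit 567) (nat_lit 414)) (XT.lf (nat_lit 0) (nat_lit 1189327424) (nat_lit 1748) (nat_lit 9180550639) (nat_lit 1824) (nat_lit 1704259324) (nat_lit 502) (nat_lit 5) (nat_lit 525) (nat_lit 5) (nat_lit 526) (nat_lit 5) (nat_lit 580) (nat_lit 567) (nat_lit 413))) (XT.nd (nat_lit 78) (nat_lit 0) (nat_lit 76) (XT.lf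 (nat_lit 0) (nat_lit 2193632464) (nat_lit 1748) (nat_lit 2882563687) (nat_lit 1824) (nat_lit 7114290100) (nat_lit 502) (nat_lit 5) (nat_lit 525) (nat_lit 5) (nat_lit 526) (nat_lit 5) (nat_lit 581) (nat_lit 567) (nat_lit 412)) (XT.lf (nat_lit 0) (nat_lit 3230989145) (nat_lit 1748) (nat_lit 8731731406) (nat_lit 1824) (nat_lit 346183009) (nat_lit 503) (nat_lit 5) (nat_lit 526) (nat_lit 5) (nat_lit 527) (nat_lit 5) (nat_lit 582) (nat_lit 567) (nat_lit 411)))) (XT.nd (nat_lit 156) (nat_lit 0) (nat_lit 76) (XT.nd (nat_lit 78) (nat_lit 0) (nat_lit 0) (XT.lf (nat_lit 0) (nat_lit 4329841781) (nat_lit 1748) (nat_lit 2266917727) (nat_lit 1824) (nat_lit 5832115492) (nat_lit 503) (nat_lit 5) (nat_lit 526) (nat_lit 5) (nat_lit 527) (nat_lit 5) (nat_lit 583) (nat_lit 567) (nat_lit 410)) (XT.lf (nat_lit 76) (nat_lit 4375711138) (nat_lit 0) (nat_lit 1091272319) (nat_lit 1824) (nat_lit 7083936921) (nat_lit 504) (nat_lit 5) (nat_lit 503) (nat_lit 5) (nat_lit 527) (nat_lit 5)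 (nat_lit 584) (nat_lit 567) (nat_lit 409))) (XT.nd (nat_lit 78) (nat_lit 0) (nat_lit 0) (XT.lf (nat_lit 0) (nat_lit 6659657988) (nat_lit 1748) (nat_lit 1531727069) (nat_lit 1824) (nat_lit 4483366537) (nat_lit 504) (nat_lit 5) (nat_lit 527) (nat_lit 5) (nat_lit 528) (nat_lit 5) (nat_lit 585) (nat_lit 567) (nat_lit 408)) (XT.lf (nat_lit 76) (nat_lit 5297989467) (nat_lit 0) (nat_lit 2608157014) (nat_lit 1824) (nat_lit 4894314464) (nat_lit 505) (nat_lit 5) (nat_lit 504) (nat_lit 5) (nat_lit 528) (nat_lit 5) (nat_lit 586) (nat_lit 567) (nat_lit 407))))))))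
noncomputable def xc167 : XT := (XT.nd (nat_lit 2262) (nat_lit 10108) (nat_lit 0) (XT.nd (nat_lit 1092) (nat_lit 6308) (nat_lit 0) (XT.nd (nat_lit 546) (nat_lit 3800) (nat_lit 0) (XT.nd (nat_lit 234) (nat_lit 3496) (nat_lit 0) (XT.nd (nat_lit 78) (nat_lit 0) (nat_lit 0) (XT.lf (nat_lit 0) (nat_lit 9196476716) (nat_lit 1748) (nat_lit 672606540) (nat_lit 1824) (nat_lit 3059223693) (nat_lit 505) (nat_lit 5) (nat_lit 528) (nat_lit 5) (nat_lit 529) (nat_lit 5) (nat_lit 587) (nat_lit 567) (nat_lit 406)) (XT.nd (nat_lit 78) (nat_lit 0) (nat_lit 76) (XT.lf (nat_lit 76) (nat_lit 6350973645) (nat_lit 0) (nat_lit 4208896293) (nat_lit 1824) (nat_lit 2497895497) (nat_lit 506) (nat_lit 5) (nat_lit 505) (nat_lit 5) (nat_lit 529) (nat_lit 5) (nat_lit 588) (nat_lit 567) (nat_lit 405)) (XT.lf (nat_lit 76) (nat_lit 319338460) (nat_lit 0) (nat_lit 11636893918) (nat_lit 1824) (nat_lit 1233467362) (nat_lit 507) (nat_lit 5) (nat_lit 506) (nat_lit 5) (nat_lit 530) (nat_lit 5) (nat_lit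 589) (nat_lit 567) (nat_lit 404)))) (XT.nd (nat_lit 156) (nat_lit 1748) (nat_lit 0) (XT.nd (nat_lit 78) (nat_lit 0) (nat_lit 0) (XT.lf (nat_lit 0) (nat_lit 117701687) (nat_lit 1824) (nat_lit 5784174699) (nat_lit 1900) (nat_lit 7421145891) (nat_lit 482) (nat_lit 5) (nat_lit 506) (nat_lit 5) (nat_lit 507) (nat_lit 5) (nat_lit 590) (nat_lit 567) (nat_lit 403)) (XT.lf (nat_lit 76) (nat_lit 1445536220) (nat_lit 0) (nat_lit 32470461) (nat_lit 1900) (nat_lit 11980869584) (nat_lit 483) (nat_lit 5) (nat_lit 482) (nat_lit 5) (nat_lit 507) (nat_lit 5) (nat_lit 591) (nat_lit 567) (nat_lit 402))) (XT.nd (nat_lit 78) (nat_lit 1824) (nat_lit 0) (XT.lf (nat_lit 0) (nat_lit 2932641180) (nat_lit 1824) (nat_lit 4746494168) (nat_lit 76) (nat_lit 5916970142) (nat_lit 483) (nat_lit 5) (nat_lit 507) (nat_lit 5) (nat_lit 484) (nat_lit 5) (nat_lit 592) (nat_lit 567) (nat_lit 401)) (XT.lf (nat_lit 0) (nat_lit 2691802525) (nat_lit 1824) (nat_lit 1731857923) (nat_lit 1900) (nat_lit 9312273624)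 (nat_lit 459) (nat_lit 5) (nat_lit 483) (nat_lit 5) (nat_lit 484) (nat_lit 5) (nat_lit 593) (nat_lit 567) (nat_lit 400))))) (XT.nd (nat_lit 234) (nat_lit 2736) (nat_lit 0) (XT.nd (nat_lit 78) (nat_lit 1064) (nat_lit 0) (XT.lf (nat_lit 0) (nat_lit 5994458884) (nat_lit 1900) (nat_lit 3572199441) (nat_lit 76) (nat_lit 4310902324) (nat_lit 459) (nat_lit 5) (nat_lit 484) (nat_lit 5) (nat_lit 460) (nat_lit 5) (nat_lit 594) (nat_lit 567) (nat_lit 399)) (XT.nd (nat_lit 78) (nat_lit 0) (nat_lit 0) (XT.lf (nat_lit 0) (nat_lit 4082291183) (nat_lit 1064) (nat_lit 3542311992) (nat_lit 1140) (nat_lit 6396858576) (nat_lit 445) (nat_lit 5) (nat_lit 459) (nat_lit 5) (nat_lit 460) (nat_lit 5) (nat_lit 595) (nat_lit 567) (nat_lit 398)) (XT.lf (nat_lit 0) (nat_lit 9318479214) (nat_lit 1140) (nat_lit 2255620989) (nat_lit 76) (nat_lit 2593518672) (nat_lit 445) (nat_lit 5) (nat_lit 460) (nat_lit 5) (nat_lit 446) (nat_lit 5) (nat_lit 596) (nat_lit 567) (nat_lit 397)))) (XT.nd (nat_lit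 156) (nat_lit 1824) (nat_lit 0) (XT.nd (nat_lit 78) (nat_lit 0) (nat_lit 0) (XT.lf (nat_lit 0) (nat_lit 5622967954) (nat_lit 912) (nat_lit 5473527444) (nat_lit 988) (nat_lit 3219199058) (nat_lit 433) (nat_lit 5) (nat_lit 445) (nat_lit 5) (nat_lit 446) (nat_lit 5) (nat_lit 597) (nat_lit 567) (nat_lit 396)) (XT.lf (nat_lit 0) (nat_lit 12920604870) (nat_lit 988) (nat_lit 790744997) (nat_lit 76) (nat_lit 755171579) (nat_lit 433) (nat_lit 5) (nat_lit 446) (nat_lit 5) (nat_lit 434) (nat_lit 5) (nat_lit 598) (nat_lit 567) (nat_lit 395))) (XT.nd (nat_lit 78) (nat_lit 836) (nat_lit 0) (XT.lf (nat_lit 0) (nat_lit 233610726) (nat_lit 988) (nat_lit 7300260952) (nat_lit 76) (nat_lit 7084975175) (nat_lit 420) (nat_lit 5) (nat_lit 433) (nat_lit 5) (nat_lit 421) (nat_lit 5) (nat_lit 599) (nat_lit 567) (nat_lit 394)) (XT.lf (nat_lit 0) (nat_lit 818222582) (nat_lit 836) (nat_lit 1211164788) (nat_lit 912) (nat_lit 12744600379) (nat_lit 409) (nat_lit 5) (nat_lit 420) (nat_lit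 5) (nat_lit 421) (nat_lit 5) (nat_lit 600) (nat_lit 567) (nat_lit 393)))))) (XT.nd (nat_lit 546) (nat_lit 3724) (nat_lit 0) (XT.nd (nat_lit 234) (nat_lit 1748) (nat_lit 0) (XT.nd (nat_lit 78) (nat_lit 836) (nat_lit 0) (XT.lf (nat_lit 0) (nat_lit 3935213401) (nat_lit 912) (nat_lit 5776624433) (nat_lit 76) (nat_lit 5218911467) (nat_lit 409) (nat_lit 5) (nat_lit 421) (nat_lit 5) (nat_lit 410) (nat_lit 5) (nat_lit 601) (nat_lit 567) (nat_lit 392)) (XT.nd (nat_lit 78) (nat_lit 0) (nat_lit 0) (XT.lf (nat_lit 0) (nat_lit 2583060843) (nat_lit 836) (nat_lit 3311879447) (nat_lit 912) (nat_lit 9195390609) (nat_lit 398) (nat_lit 5) (nat_lit 409) (nat_lit 5) (nat_lit 410) (nat_lit 5) (nat_lit 602) (nat_lit 567) (nat_lit 391)) (XT.lf (nat_lit 0) (nat_lit 7944875561) (nat_lit 912) (nat_lit 4094237686) (nat_lit 76) (nat_lit 3212971099) (nat_lit 398) (nat_lit 5) (nat_lit 410) (nat_lit 5) (nat_lit 399) (nat_lit 5) (nat_lit 603) (nat_lit 567) (nat_lit 390)))) (XT.nd (nat_lit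 156) (nat_lit 912) (nat_lit 0) (XT.nd (nat_lit 78) (nat_lit 0) (nat_lit 0) (XT.lf (nat_lit 0) (nat_lit 4515506086) (nat_lit 836) (nat_lit 5562840386) (nat_lit 912) (nat_lit 5337876134) (nat_lit 387) (nat_lit 5) (nat_lit 398) (nat_lit 5) (nat_lit 399) (nat_lit 5) (nat_lit 604) (nat_lit 567) (nat_lit 389)) (XT.lf (nat_lit 0) (nat_lit 12280313800) (nat_lit 912) (nat_lit 2246055564) (nat_lit 76) (nat_lit 1056758202) (nat_lit 387) (nat_lit 5) (nat_lit 399) (nat_lit 5) (nat_lit 388) (nat_lit 5) (nat_lit 605) (nat_lit 567) (nat_lit 388))) (XT.nd (nat_lit 78) (nat_lit 76) (nat_lit 0) (XT.lf (nat_lit 0) (nat_lit 6622944121) (nat_lit 836) (nat_lit 7974784531) (nat_lit 912) (nat_lit 1154214275) (nat_lit 376) (nat_lit 5) (nat_lit 387) (nat_lit 5) (nat_lit 388) (nat_lit 5) (nat_lit 606) (nat_lit 567) (nat_lit 387)) (XT.lf (nat_lit 0) (nat_lit 1030544906) (nat_lit 912) (nat_lit 239728159) (nat_lit 76) (nat_lit 14653591414) (nat_lit 375) (nat_lit 5) (nat_lit 387) (nat_lit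 5) (nat_lit 376) (nat_lit 5) (nat_lit 607) (nat_lit 567) (nat_lit 386))))) (XT.nd (nat_lit 312) (nat_lit 1520) (nat_lit 0) (XT.nd (nat_lit 156) (nat_lit 684) (nat_lit 0) (XT.nd (nat_lit 78) (nat_lit 760) (nat_lit 0) (XT.lf (nat_lit 0) (nat_lit 3329896095) (nat_lit 836) (nat_lit 7206540417) (nat_lit 76) (nat_lit 5560908768) (nat_lit 365) (nat_lit 5) (nat_lit 376) (nat_lit 5) (nat_lit 366) (nat_lit 5) (nat_lit 608) (nat_lit 567) (nat_lit 385)) (XT.lf (nat_lit 0) (nat_lit 1941211869) (nat_lit 760) (nat_lit 3748544989) (nat_lit 836) (nat_lit 10584248817) (nat_lit 355) (nat_lit 5) (nat_lit 365) (nat_lit 5) (nat_lit 366) (nat_lit 5) (nat_lit 609) (nat_lit 567) (nat_lit 384))) (XT.nd (nat_lit 78) (nat_lit 684) (nat_lit 0) (XT.lf (nat_lit 0) (nat_lit 8158094910) (nat_lit 836) (nat_lit 5113419008) (nat_lit 76) (nat_lit 3181460178) (nat_lit 355) (nat_lit 5) (nat_lit 366) (nat_lit 5) (nat_lit 356) (nat_lit 5) (nat_lit 610) (nat_lit 567) (nat_lit 383)) (XT.lf (nat_lit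 0) (nat_lit 4313405721) (nat_lit 684) (nat_lit 6407366694) (nat_lit 760) (nat_lit 5913850431) (nat_lit 346) (nat_lit 5) (nat_lit 355) (nat_lit 5) (nat_lit 356) (nat_lit 5) (nat_lit 611) (nat_lit 567) (nat_lit 382)))) (XT.nd (nat_lit 156) (nat_lit 760) (nat_lit 0) (XT.nd (nat_lit 78) (nat_lit 760) (nat_lit 0) (XT.lf (nat_lit 0) (nat_lit 13365336331) (nat_lit 760) (nat_lit 2833998597) (nat_lit 76) (nat_lit 619957390) (nat_lit 346) (nat_lit 5) (nat_lit 356) (nat_lit 5) (nat_lit 347) (nat_lit 5) (nat_lit 612) (nat_lit 567) (nat_lit 381)) (XT.lf (nat_lit 0) (nat_lit 6882187944) (nat_lit 760) (nat_lit 9260107289) (nat_lit 836) (nat_lit 863770269) (nat_lit 336) (nat_lit 5) (nat_lit 346) (nat_lit 5) (nat_lit 347) (nat_lit 5) (nat_lit 613) (nat_lit 567) (nat_lit 380))) (XT.nd (nat_lit 78) (nat_lit 684) (nat_lit 0) (XT.lf (nat_lit 0) (nat_lit 1766471748) (nat_lit 836) (nat_lit 385400268) (nat_lit 76) (nat_lit 15044240122) (nat_lit 335) (nat_lit 5) (nat_lit 346) (nat_lit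 5) (nat_lit 336) (nat_lit 5) (nat_lit 614) (nat_lit 567) (nat_lit 379)) (XT.lf (nat_lit 0) (nat_lit 4526613404) (nat_lit 760) (nat_lit 7761945065) (nat_lit 76) (nat_lit 5099510207) (nat_lit 326) (nat_lit 5) (nat_lit 336) (nat_lit 5) (nat_lit 327) (nat_lit 5) (nat_lit 615) (nat_lit 567) (nat_lit 378))))))) (XT.nd (nat_lit 1170) (nat_lit 4484) (nat_lit 0) (XT.nd (nat_lit 546) (nat_lit 2964) (nat_lit 0) (XT.nd (nat_lit 234) (nat_lit 1368) (nat_lit 0) (XT.nd (nat_lit 78) (nat_lit 608) (nat_lit 0) (XT.lf (nat_lit 0) (nat_lit 2266179509) (nat_lit 684) (nat_lit 5100008916) (nat_lit 760) (nat_lit 10217191678) (nat_lit 317) (nat_lit 5) (nat_lit 326) (nat_lit 5) (nat_lit 327) (nat_lit 5) (nat_lit 616) (nat_lit 567) (nat_lit 377)) (XT.nd (nat_lit 78) (nat_lit 608) (nat_lit 0) (XT.lf (nat_lit 0) (nat_lit 10322223554) (nat_lit 760) (nat_lit 5204957108) (nat_lit 76) (nat_lit 2254224081) (nat_lit 317) (nat_lit 5) (nat_lit 327) (nat_lit 5) (nat_lit 318) (nat_lit 5) (nat_lit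 617) (nat_lit 567) (nat_lit 376)) (XT.lf (nat_lit 0) (nat_lit 5134623075) (nat_lit 608) (nat_lit 8262754148) (nat_lit 684) (nat_lit 4584813050) (nat_lit 309) (nat_lit 5) (nat_lit 317) (nat_lit 5) (nat_lit 318) (nat_lit 5) (nat_lit 618) (nat_lit 567) (nat_lit 375)))) (XT.nd (nat_lit 156) (nat_lit 608) (nat_lit 0) (XT.nd (nat_lit 78) (nat_lit 760) (nat_lit 0) (XT.lf (nat_lit 0) (nat_lit 15743130401) (nat_lit 608) (nat_lit 818801971) (nat_lit 684) (nat_lit 1624501519) (nat_lit 309) (nat_lit 5) (nat_lit 317) (nat_lit 5) (nat_lit 318) (nat_lit 5) (nat_lit 619) (nat_lit 567) (nat_lit 374)) (XT.lf (nat_lit 0) (nat_lit 1467799325) (nat_lit 760) (nat_lit 10178062553) (nat_lit 76) (nat_lit 6746898106) (nat_lit 299) (nat_lit 5) (nat_lit 309) (nat_lit 5) (nat_lit 300) (nat_lit 5) (nat_lit 620) (nat_lit 567) (nat_lit 373))) (XT.nd (nat_lit 78) (nat_lit 0) (nat_lit 0) (XT.lf (nat_lit 0) (nat_lit 497914467) (nat_lit 608) (nat_lit 4120594871) (nat_lit 684) (nat_lit 13984122524)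 (nat_lit 291) (nat_lit 5) (nat_lit 299) (nat_lit 5) (nat_lit 300) (nat_lit 5) (nat_lit 621) (nat_lit 567) (nat_lit 372)) (XT.lf (nat_lit 0) (nat_lit 7917273781) (nat_lit 684) (nat_lit 7321982760) (nat_lit 76) (nat_lit 3575744152) (nat_lit 291) (nat_lit 5) (nat_lit 300) (nat_lit 5) (nat_lit 292) (nat_lit 5) (nat_lit 622) (nat_lit 567) (nat_lit 371))))) (XT.nd (nat_lit 312) (nat_lit 1672) (nat_lit 0) (XT.nd (nat_lit 156) (nat_lit 684) (nat_lit 0) (XT.nd (nat_lit 78) (nat_lit 0) (nat_lit 0) (XT.lf (nat_lit 0) (nat_lit 3689178530) (nat_lit 608) (nat_lit 7637414696) (nat_lit 684) (nat_lit 7704132393) (nat_lit 283) (nat_lit 5) (nat_lit 291) (nat_lit 5) (nat_lit 292) (nat_lit 5) (nat_lit 623) (nat_lit 567) (nat_lit 370)) (XT.lf (nat_lit 0) (nat_lit 14847719385) (nat_lit 684) (nat_lit 4239439336) (nat_lit 76) (nat_lit 162734223) (nat_lit 283) (nat_lit 5) (nat_lit 292) (nat_lit 5) (nat_lit 284) (nat_lit 5) (nat_lit 624) (nat_lit 567) (nat_lit 369))) (XT.nd (nat_lit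 78) (nat_lit 76) (nat_lit 0) (XT.lf (nat_lit 0) (nat_lit 7119276897) (nat_lit 608) (nat_lit 11410326878) (nat_lit 684) (nat_lit 942033425) (nat_lit 275) (nat_lit 5) (nat_lit 283) (nat_lit 5) (nat_lit 284) (nat_lit 5) (nat_lit 625) (nat_lit 567) (nat_lit 368)) (XT.lf (nat_lit 0) (nat_lit 2575578601) (nat_lit 684) (nat_lit 959857188) (nat_lit 76) (nat_lit 16161600830) (nat_lit 274) (nat_lit 5) (nat_lit 283) (nat_lit 5) (nat_lit 275) (nat_lit 5) (nat_lit 626) (nat_lit 567) (nat_lit 367)))) (XT.nd (nat_lit 156) (nat_lit 532) (nat_lit 0) (XT.nd (nat_lit 78) (nat_lit 532) (nat_lit 0) (XT.lf (nat_lit 0) (nat_lit 6244363165) (nat_lit 684) (nat_lit 9167591579) (nat_lit 76) (nat_lit 4512996345) (nat_lit 266) (nat_lit 5) (nat_lit 275) (nat_lit 5) (nat_lit 267) (nat_lit 5) (nat_lit 627) (nat_lit 567) (nat_lit 366)) (XT.lf (nat_lit 0) (nat_lit 2566687854) (nat_lit 532) (nat_lit 7460148295) (nat_lit 608) (nat_lit 10129781724) (nat_lit 259) (nat_lit 5) (nat_lit 266) (nat_lit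 5) (nat_lit 267) (nat_lit 5) (nat_lit 628) (nat_lit 567) (nat_lit 365))) (XT.nd (nat_lit 78) (nat_lit 532) (nat_lit 0) (XT.lf (nat_lit 0) (nat_lit 13944918365) (nat_lit 608) (nat_lit 5744610699) (nat_lit 76) (nat_lit 702190004) (nat_lit 259) (nat_lit 5) (nat_lit 267) (nat_lit 5) (nat_lit 260) (nat_lit 5) (nat_lit 629) (nat_lit 567) (nat_lit 364)) (XT.lf (nat_lit 0) (nat_lit 6363618147) (nat_lit 532) (nat_lit 11662395524) (nat_lit 608) (nat_lit 2603815854) (nat_lit 252) (nat_lit 5) (nat_lit 259) (nat_lit 5) (nat_lit 260) (nat_lit 5) (nat_lit 630) (nat_lit 567) (nat_lit 363)))))) (XT.nd (nat_lit 546) (nat_lit 2280) (nat_lit 0) (XT.nd (nat_lit 234) (nat_lit 1064) (nat_lit 0) (XT.nd (nat_lit 78) (nat_lit 1064) (nat_lit 0) (XT.lf (nat_lit 0) (nat_lit 1331530132) (nat_lit 608) (nat_lit 2096929243) (nat_lit 76) (nat_lit 17443416956) (nat_lit 251) (nat_lit 5) (nat_lit 259) (nat_lit 5) (nat_lit 252) (nat_lit 5) (nat_lit 631) (nat_lit 567) (nat_lit 362)) (XT.nd (nat_lit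 78) (nat_lit 532) (nat_lit 0) (XT.lf (nat_lit 0) (nat_lit 5405346047) (nat_lit 608) (nat_lit 10722673098) (nat_lit 76) (nat_lit 4988508392) (nat_lit 244) (nat_lit 5) (nat_lit 252) (nat_lit 5) (nat_lit 245) (nat_lit 5) (nat_lit 632) (nat_lit 567) (nat_lit 361)) (XT.lf (nat_lit 0) (nat_lit 1789789727) (nat_lit 532) (nat_lit 7813466041) (nat_lit 608) (nat_lit 11761963896) (nat_lit 237) (nat_lit 5) (nat_lit 244) (nat_lit 5) (nat_lit 245) (nat_lit 5) (nat_lit 633) (nat_lit 567) (nat_lit 360)))) (XT.nd (nat_lit 156) (nat_lit 608) (nat_lit 0) (XT.nd (nat_lit 78) (nat_lit 456) (nat_lit 0) (XT.lf (nat_lit 0) (nat_lit 13956065329) (nat_lit 608) (nat_lit 6932429265) (nat_lit 76) (nat_lit 728972448) (nat_lit 237) (nat_lit 5) (nat_lit 245) (nat_lit 5) (nat_lit 238) (nat_lit 5) (nat_lit 634) (nat_lit 567) (nat_lit 359)) (XT.lf (nat_lit 0) (nat_lit 5982278992) (nat_lit 456) (nat_lit 12498529273) (nat_lit 532) (nat_lit 3392253796) (nat_lit 231) (nat_lit 5) (nat_lit 237) (nat_lit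 5) (nat_lit 238) (nat_lit 5) (nat_lit 635) (nat_lit 567) (nat_lit 358))) (XT.nd (nat_lit 78) (nat_lit 532) (nat_lit 0) (XT.lf (nat_lit 0) (nat_lit 990799991) (nat_lit 532) (nat_lit 2898032390) (nat_lit 76) (nat_lit 18243989008) (nat_lit 230) (nat_lit 5) (nat_lit 237) (nat_lit 5) (nat_lit 231) (nat_lit 5) (nat_lit 636) (nat_lit 567) (nat_lit 357)) (XT.lf (nat_lit 0) (nat_lit 5510838572) (nat_lit 608) (nat_lit 11966855439) (nat_lit 76) (nat_lit 4917738737) (nat_lit 223) (nat_lit 5) (nat_lit 231) (nat_lit 5) (nat_lit 224) (nat_lit 5) (nat_lit 637) (nat_lit 567) (nat_lit 356))))) (XT.nd (nat_lit 312) (nat_lit 1292) (nat_lit 0) (XT.nd (nat_lit 156) (nat_lit 532) (nat_lit 0) (XT.nd (nat_lit 78) (nat_lit 0) (nat_lit 0) (XT.lf (nat_lit 0) (nat_lit 1382564222) (nat_lit 456) (nat_lit 8787491983) (nat_lit 532) (nat_lit 12492264784) (nat_lit 217) (nat_lit 5) (nat_lit 223) (nat_lit 5) (nat_lit 224) (nat_lit 5) (nat_lit 638) (nat_lit 567) (nat_lit 355)) (XT.lf (nat_lit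 0) (nat_lit 14998306007) (nat_lit 532) (nat_lit 7780608223) (nat_lit 76) (nat_lit 154116023) (nat_lit 217) (nat_lit 5) (nat_lit 224) (nat_lit 5) (nat_lit 218) (nat_lit 5) (nat_lit 639) (nat_lit 567) (nat_lit 354))) (XT.nd (nat_lit 78) (nat_lit 76) (nat_lit 0) (XT.lf (nat_lit 0) (nat_lit 6001365533) (nat_lit 456) (nat_lit 14013538292) (nat_lit 532) (nat_lit 3192414426) (nat_lit 211) (nat_lit 5) (nat_lit 217) (nat_lit 5) (nat_lit 218) (nat_lit 5) (nat_lit 640) (nat_lit 567) (nat_lit 353)) (XT.lf (nat_lit 0) (nat_lit 1670371633) (nat_lit 532) (nat_lit 3340317698) (nat_lit 76) (nat_lit 18475245284) (nat_lit 210) (nat_lit 5) (nat_lit 217) (nat_lit 5) (nat_lit 211) (nat_lit 5) (nat_lit 641) (nat_lit 567) (nat_lit 352)))) (XT.nd (nat_lit 156) (nat_lit 380) (nat_lit 0) (XT.nd (nat_lit 78) (nat_lit 456) (nat_lit 0) (XT.lf (nat_lit 0) (nat_lit 6681019934) (nat_lit 532) (nat_lit 12878944668) (nat_lit 76) (nat_lit 4207869806) (nat_lit 204) (nat_lit 5) (nat_lit 211) (nat_lit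 5) (nat_lit 205) (nat_lit 5) (nat_lit 642) (nat_lit 567) (nat_lit 351)) (XT.lf (nat_lit 0) (nat_lit 1370092360) (nat_lit 456) (nat_lit 10481219336) (nat_lit 532) (nat_lit 12202872087) (nat_lit 198) (nat_lit 5) (nat_lit 204) (nat_lit 5) (nat_lit 205) (nat_lit 5) (nat_lit 643) (nat_lit 567) (nat_lit 350))) (XT.nd (nat_lit 78) (nat_lit 380) (nat_lit 0) (XT.lf (nat_lit 0) (nat_lit 16071156339) (nat_lit 456) (nat_lit 1135118592) (nat_lit 532) (nat_lit 7138360091) (nat_lit 198) (nat_lit 5) (nat_lit 204) (nat_lit 5) (nat_lit 205) (nat_lit 5) (nat_lit 644) (nat_lit 567) (nat_lit 349)) (XT.lf (nat_lit 0) (nat_lit 6447917300) (nat_lit 380) (nat_lit 16311736244) (nat_lit 456) (nat_lit 1879415607) (nat_lit 193) (nat_lit 5) (nat_lit 198) (nat_lit 5) (nat_lit 199) (nat_lit 5) (nat_lit 645) (nat_lit 567) (nat_lit 348))))))))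
noncomputable def xc168 : XT := (XT.nd (nat_lit 75348) (nat_lit 0) (nat_lit 24320) (XT.nd (nat_lit 1092) (nat_lit 2736) (nat_lit 0) (XT.nd (nat_lit 546) (nat_lit 1596) (nat_lit 0) (XT.nd (nat_lit 234) (nat_lit 836) (nat_lit 0) (XT.nd (nat_lit 78) (nat_lit 836) (nat_lit 0) (XT.lf (nat_lit 0) (nat_lit 3497354657) (nat_lit 456) (nat_lit 3400389299) (nat_lit 76) (nat_lit 18040028695) (nat_lit 192) (nat_lit 5) (nat_lit 198) (nat_lit 5) (nat_lit 193) (nat_lit 5) (nat_lit 646) (nat_lit 567) (nat_lit 347)) (XT.nd (nat_lit 78) (nat_lit 380) (nat_lit 0) (XT.lf (nat_lit 0) (nat_lit 9046450099) (nat_lit 532) (nat_lit 13437459223) (nat_lit 76) (nat_lit 2756493514) (nat_lit 186) (nat_lit 5) (nat_lit 193) (nat_lit 5) (nat_lit 187) (nat_lit 5) (nat_lit 647) (nat_lit 567) (nat_lit 346)) (XT.lf (nat_lit 0) (nat_lit 1777917540) (nat_lit 380) (nat_lit 13003881757) (nat_lit 456) (nat_lit 10765781066) (nat_lit 181) (nat_lit 5) (nat_lit 186) (nat_lit 5) (nat_lit 187) (nat_lit 5)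 (nat_lit 648) (nat_lit 567) (nat_lit 345)))) (XT.nd (nat_lit 156) (nat_lit 380) (nat_lit 0) (XT.nd (nat_lit 78) (nat_lit 456) (nat_lit 0) (XT.lf (nat_lit 0) (nat_lit 17472422930) (nat_lit 380) (nat_lit 3244732384) (nat_lit 456) (nat_lit 5142040295) (nat_lit 181) (nat_lit 5) (nat_lit 186) (nat_lit 5) (nat_lit 187) (nat_lit 5) (nat_lit 649) (nat_lit 567) (nat_lit 344)) (XT.lf (nat_lit 0) (nat_lit 673442442) (nat_lit 456) (nat_lit 18830407784) (nat_lit 76) (nat_lit 6671374746) (nat_lit 175) (nat_lit 5) (nat_lit 181) (nat_lit 5) (nat_lit 176) (nat_lit 5) (nat_lit 650) (nat_lit 567) (nat_lit 343))) (XT.nd (nat_lit 78) (nat_lit 380) (nat_lit 0) (XT.lf (nat_lit 0) (nat_lit 6609810808) (nat_lit 456) (nat_lit 3054919291) (nat_lit 76) (nat_lit 16830696647) (nat_lit 175) (nat_lit 5) (nat_lit 181) (nat_lit 5) (nat_lit 176) (nat_lit 5) (nat_lit 651) (nat_lit 567) (nat_lit 342)) (XT.lf (nat_lit 0) (nat_lit 12748901431) (nat_lit 456) (nat_lit 13621283661) (nat_lit 76) (nat_lit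 450167722) (nat_lit 170) (nat_lit 5) (nat_lit 176) (nat_lit 5) (nat_lit 171) (nat_lit 5) (nat_lit 652) (nat_lit 567) (nat_lit 341))))) (XT.nd (nat_lit 234) (nat_lit 760) (nat_lit 0) (XT.nd (nat_lit 78) (nat_lit 456) (nat_lit 0) (XT.lf (nat_lit 0) (nat_lit 2631383903) (nat_lit 380) (nat_lit 16476461781) (nat_lit 456) (nat_lit 8041990437) (nat_lit 165) (nat_lit 5) (nat_lit 170) (nat_lit 5) (nat_lit 171) (nat_lit 5) (nat_lit 653) (nat_lit 567) (nat_lit 340)) (XT.nd (nat_lit 78) (nat_lit 456) (nat_lit 0) (XT.lf (nat_lit 0) (nat_lit 19386625280) (nat_lit 380) (nat_lit 6294140961) (nat_lit 456) (nat_lit 1803407054) (nat_lit 165) (nat_lit 5) (nat_lit 170) (nat_lit 5) (nat_lit 171) (nat_lit 5) (nat_lit 654) (nat_lit 567) (nat_lit 339)) (XT.lf (nat_lit 0) (nat_lit 4579395751) (nat_lit 456) (nat_lit 19121066759) (nat_lit 76) (nat_lit 4122557678) (nat_lit 159) (nat_lit 5) (nat_lit 165) (nat_lit 5) (nat_lit 160) (nat_lit 5) (nat_lit 655) (nat_lit 567) (nat_lit 338))))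 (XT.nd (nat_lit 156) (nat_lit 380) (nat_lit 0) (XT.nd (nat_lit 78) (nat_lit 380) (nat_lit 0) (XT.lf (nat_lit 0) (nat_lit 11157590624) (nat_lit 456) (nat_lit 2281402307) (nat_lit 76) (nat_lit 14727575146) (nat_lit 159) (nat_lit 5) (nat_lit 165) (nat_lit 5) (nat_lit 160) (nat_lit 5) (nat_lit 656) (nat_lit 567) (nat_lit 337)) (XT.lf (nat_lit 0) (nat_lit 15085981024) (nat_lit 380) (nat_lit 2874884543) (nat_lit 456) (nat_lit 10554251171) (nat_lit 154) (nat_lit 5) (nat_lit 159) (nat_lit 5) (nat_lit 160) (nat_lit 5) (nat_lit 657) (nat_lit 567) (nat_lit 336))) (XT.nd (nat_lit 78) (nat_lit 76) (nat_lit 0) (XT.lf (nat_lit 0) (nat_lit 3954822431) (nat_lit 304) (nat_lit 21033361021) (nat_lit 380) (nat_lit 3880693509) (nat_lit 150) (nat_lit 5) (nat_lit 154) (nat_lit 5) (nat_lit 155) (nat_lit 5) (nat_lit 658) (nat_lit 567) (nat_lit 335)) (XT.lf (nat_lit 0) (nat_lit 2993314710) (nat_lit 380) (nat_lit 7405018993) (nat_lit 76) (nat_lit 18828891645) (nat_lit 149) (nat_lit 5)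 (nat_lit 154) (nat_lit 5) (nat_lit 150) (nat_lit 5) (nat_lit 659) (nat_lit 567) (nat_lit 334)))))) (XT.nd (nat_lit 546) (nat_lit 988) (nat_lit 0) (XT.nd (nat_lit 234) (nat_lit 1064) (nat_lit 0) (XT.nd (nat_lit 78) (nat_lit 304) (nat_lit 0) (XT.lf (nat_lit 0) (nat_lit 10020671031) (nat_lit 456) (nat_lit 19034303625) (nat_lit 76) (nat_lit 535896539) (nat_lit 144) (nat_lit 5) (nat_lit 150) (nat_lit 5) (nat_lit 145) (nat_lit 5) (nat_lit 660) (nat_lit 567) (nat_lit 333)) (XT.nd (nat_lit 78) (nat_lit 304) (nat_lit 0) (XT.lf (nat_lit 0) (nat_lit 17303174932) (nat_lit 456) (nat_lit 1059081682) (nat_lit 76) (nat_lit 11597241463) (nat_lit 144) (nat_lit 5) (nat_lit 150) (nat_lit 5) (nat_lit 145) (nat_lit 5) (nat_lit 661) (nat_lit 567) (nat_lit 332)) (XT.lf (nat_lit 0) (nat_lit 17498417851) (nat_lit 304) (nat_lit 7342323040) (nat_lit 380) (nat_lit 5492568488) (nat_lit 140) (nat_lit 5) (nat_lit 144) (nat_lit 5) (nat_lit 145) (nat_lit 5) (nat_lit 662) (nat_lit 567) (nat_lit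 331)))) (XT.nd (nat_lit 156) (nat_lit 608) (nat_lit 0) (XT.nd (nat_lit 78) (nat_lit 0) (nat_lit 0) (XT.lf (nat_lit 0) (nat_lit 1856851651) (nat_lit 456) (nat_lit 24954947609) (nat_lit 76) (nat_lit 3901238405) (nat_lit 134) (nat_lit 5) (nat_lit 140) (nat_lit 5) (nat_lit 135) (nat_lit 5) (nat_lit 663) (nat_lit 567) (nat_lit 330)) (XT.lf (nat_lit 0) (nat_lit 9410941533) (nat_lit 456) (nat_lit 6294051619) (nat_lit 76) (nat_lit 15392016826) (nat_lit 134) (nat_lit 5) (nat_lit 140) (nat_lit 5) (nat_lit 135) (nat_lit 5) (nat_lit 664) (nat_lit 567) (nat_lit 329))) (XT.nd (nat_lit 78) (nat_lit 304) (nat_lit 0) (XT.lf (nat_lit 0) (nat_lit 12902659841) (nat_lit 304) (nat_lit 4293141838) (nat_lit 380) (nat_lit 14291266403) (nat_lit 130) (nat_lit 5) (nat_lit 134) (nat_lit 5) (nat_lit 135) (nat_lit 5) (nat_lit 665) (nat_lit 567) (nat_lit 328)) (XT.lf (nat_lit 0) (nat_lit 638286535) (nat_lit 304) (nat_lit 24588370794) (nat_lit 380) (nat_lit 6656464166) (nat_lit 126) (nat_lit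 5) (nat_lit 130) (nat_lit 5) (nat_lit 131) (nat_lit 5) (nat_lit 666) (nat_lit 567) (nat_lit 327))))) (XT.nd (nat_lit 312) (nat_lit 304) (nat_lit 0) (XT.nd (nat_lit 156) (nat_lit 304) (nat_lit 0) (XT.nd (nat_lit 78) (nat_lit 304) (nat_lit 0) (XT.lf (nat_lit 0) (nat_lit 1266115669) (nat_lit 380) (nat_lit 11830505171) (nat_lit 76) (nat_lit 19187330069) (nat_lit 125) (nat_lit 5) (nat_lit 130) (nat_lit 5) (nat_lit 126) (nat_lit 5) (nat_lit 667) (nat_lit 567) (nat_lit 326)) (XT.lf (nat_lit 0) (nat_lit 8026777335) (nat_lit 304) (nat_lit 1279464467) (nat_lit 380) (nat_lit 23384710734) (nat_lit 121) (nat_lit 5) (nat_lit 125) (nat_lit 5) (nat_lit 126) (nat_lit 5) (nat_lit 668) (nat_lit 567) (nat_lit 325))) (XT.nd (nat_lit 78) (nat_lit 304) (nat_lit 0) (XT.lf (nat_lit 0) (nat_lit 17653082914) (nat_lit 380) (nat_lit 4739956644) (nat_lit 76) (nat_lit 10710136492) (nat_lit 121) (nat_lit 5) (nat_lit 126) (nat_lit 5) (nat_lit 122) (nat_lit 5) (nat_lit 669) (nat_lit 567) (nat_lit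 324)) (XT.lf (nat_lit 0) (nat_lit 15774746558) (nat_lit 304) (nat_lit 10499130822) (nat_lit 380) (nat_lit 7247626425) (nat_lit 117) (nat_lit 5) (nat_lit 121) (nat_lit 5) (nat_lit 122) (nat_lit 5) (nat_lit 670) (nat_lit 567) (nat_lit 323)))) (XT.nd (nat_lit 73242) (nat_lit 0) (nat_lit 30856) (XT.nd (nat_lit 73164) (nat_lit 0) (nat_lit 30856) (XT.lf (nat_lit 0) (nat_lit 1161769332) (nat_lit 304) (nat_lit 31118309286) (nat_lit 76) (nat_lit 1666823220) (nat_lit 113) (nat_lit 5) (nat_lit 117) (nat_lit 5) (nat_lit 114) (nat_lit 5) (nat_lit 671) (nat_lit 567) (nat_lit 322)) (XT.lf (nat_lit 0) (nat_lit 1753552997) (nat_lit 1748) (nat_lit 1849640345) (nat_lit 1748) (nat_lit 1849640345) (nat_lit 519) (nat_lit 3) (nat_lit 542) (nat_lit 3) (nat_lit 542) (nat_lit 5) (nat_lit 568) (nat_lit 568) (nat_lit 424))) (XT.nd (nat_lit 78) (nat_lit 0) (nat_lit 76) (XT.lf (nat_lit 76) (nat_lit 1734228258) (nat_lit 0) (nat_lit 2403464316) (nat_lit 1748) (nat_lit 6865083557) (nat_lit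 520) (nat_lit 5) (nat_lit 519) (nat_lit 3) (nat_lit 542) (nat_lit 5) (nat_lit 569) (nat_lit 568) (nat_lit 423)) (XT.lf (nat_lit 0) (nat_lit 4806753703) (nat_lit 1672) (nat_lit 3799422590) (nat_lit 1748) (nat_lit 2495134499) (nat_lit 520) (nat_lit 5) (nat_lit 542) (nat_lit 5) (nat_lit 543) (nat_lit 5) (nat_lit 570) (nat_lit 568) (nat_lit 422))))))) (XT.nd (nat_lit 1092) (nat_lit 5168) (nat_lit 0) (XT.nd (nat_lit 546) (nat_lit 1444) (nat_lit 0) (XT.nd (nat_lit 234) (nat_lit 0) (nat_lit 152) (XT.nd (nat_lit 78) (nat_lit 0) (nat_lit 76) (XT.lf (nat_lit 76) (nat_lit 1778377076) (nat_lit 0) (nat_lit 3723254667) (nat_lit 1748) (nat_lit 5699936657) (nat_lit 521) (nat_lit 5) (nat_lit 520) (nat_lit 5) (nat_lit 543) (nat_lit 5) (nat_lit 571) (nat_lit 568) (nat_lit 421)) (XT.nd (nat_lit 78) (nat_lit 0) (nat_lit 0) (XT.lf (nat_lit 0) (nat_lit 6229493989) (nat_lit 1672) (nat_lit 3800820366) (nat_lit 1748) (nat_lit 1273136021) (nat_lit 521) (nat_lit 5) (nat_lit 543) (nat_lit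 5) (nat_lit 544) (nat_lit 5) (nat_lit 572) (nat_lit 568) (nat_lit 420)) (XT.lf (nat_lit 76) (nat_lit 1926368303) (nat_lit 0) (nat_lit 5068257086) (nat_lit 1748) (nat_lit 4412291294) (nat_lit 522) (nat_lit 5) (nat_lit 521) (nat_lit 5) (nat_lit 544) (nat_lit 5) (nat_lit 573) (nat_lit 568) (nat_lit 419)))) (XT.nd (nat_lit 156) (nat_lit 0) (nat_lit 0) (XT.nd (nat_lit 78) (nat_lit 0) (nat_lit 0) (XT.lf (nat_lit 0) (nat_lit 7786505456) (nat_lit 1672) (nat_lit 3700951507) (nat_lit 1748) (nat_lit 24767343) (nat_lit 522) (nat_lit 5) (nat_lit 544) (nat_lit 5) (nat_lit 545) (nat_lit 5) (nat_lit 574) (nat_lit 568) (nat_lit 418)) (XT.lf (nat_lit 76) (nat_lit 2180935420) (nat_lit 0) (nat_lit 6447107304) (nat_lit 1748) (nat_lit 2990919859) (nat_lit 523) (nat_lit 5) (nat_lit 522) (nat_lit 5) (nat_lit 545) (nat_lit 5) (nat_lit 575) (nat_lit 568) (nat_lit 417))) (XT.nd (nat_lit 78) (nat_lit 0) (nat_lit 76) (XT.lf (nat_lit 76) (nat_lit 8222341704) (nat_lit 0) (nat_lit 1275218124)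 (nat_lit 1748) (nat_lit 2230053692) (nat_lit 523) (nat_lit 5) (nat_lit 522) (nat_lit 5) (nat_lit 545) (nat_lit 5) (nat_lit 576) (nat_lit 568) (nat_lit 416)) (XT.lf (nat_lit 76) (nat_lit 2545120105) (nat_lit 0) (nat_lit 7868459627) (nat_lit 1748) (nat_lit 1424276352) (nat_lit 524) (nat_lit 5) (nat_lit 523) (nat_lit 5) (nat_lit 546) (nat_lit 5) (nat_lit 577) (nat_lit 568) (nat_lit 415))))) (XT.nd (nat_lit 234) (nat_lit 0) (nat_lit 76) (XT.nd (nat_lit 78) (nat_lit 1672) (nat_lit 0) (XT.lf (nat_lit 76) (nat_lit 8747105922) (nat_lit 0) (nat_lit 2619550484) (nat_lit 1748) (nat_lit 583273209) (nat_lit 524) (nat_lit 5) (nat_lit 523) (nat_lit 5) (nat_lit 546) (nat_lit 5) (nat_lit 578) (nat_lit 568) (nat_lit 414)) (XT.nd (nat_lit 78) (nat_lit 0) (nat_lit 0) (XT.lf (nat_lit 0) (nat_lit 295599808) (nat_lit 1748) (nat_lit 9043426055) (nat_lit 1824) (nat_lit 2724690900) (nat_lit 501) (nat_lit 5) (nat_lit 524) (nat_lit 5) (nat_lit 525) (nat_lit 5) (nat_lit 579) (nat_lit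 568) (nat_lit 413)) (XT.lf (nat_lit 0) (nat_lit 1210457066) (nat_lit 1748) (nat_lit 2798032057) (nat_lit 1824) (nat_lit 8170689880) (nat_lit 501) (nat_lit 5) (nat_lit 524) (nat_lit 5) (nat_lit 525) (nat_lit 5) (nat_lit 580) (nat_lit 568) (nat_lit 412)))) (XT.nd (nat_lit 156) (nat_lit 0) (nat_lit 76) (XT.nd (nat_lit 78) (nat_lit 0) (nat_lit 0) (XT.lf (nat_lit 0) (nat_lit 2163992244) (nat_lit 1748) (nat_lit 8695001987) (nat_lit 1824) (nat_lit 1437549417) (nat_lit 502) (nat_lit 5) (nat_lit 525) (nat_lit 5) (nat_lit 526) (nat_lit 5) (nat_lit 581) (nat_lit 568) (nat_lit 411)) (XT.lf (nat_lit 0) (nat_lit 3169738713) (nat_lit 1748) (nat_lit 2284176074) (nat_lit 1824) (nat_lit 6961678752) (nat_lit 502) (nat_lit 5) (nat_lit 525) (nat_lit 5) (nat_lit 526) (nat_lit 5) (nat_lit 582) (nat_lit 568) (nat_lit 410))) (XT.nd (nat_lit 78) (nat_lit 0) (nat_lit 0) (XT.lf (nat_lit 0) (nat_lit 4212064799) (nat_lit 1748) (nat_lit 8234492785) (nat_lit 1824) (nat_lit 90138296) (nat_lit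 503) (nat_lit 5) (nat_lit 526) (nat_lit 5) (nat_lit 527) (nat_lit 5) (nat_lit 583) (nat_lit 568) (nat_lit 409)) (XT.lf (nat_lit 0) (nat_lit 5314924765) (nat_lit 1748) (nat_lit 1653556819) (nat_lit 1824) (nat_lit 5690945671) (nat_lit 503) (nat_lit 5) (nat_lit 526) (nat_lit 5) (nat_lit 527) (nat_lit 5) (nat_lit 584) (nat_lit 568) (nat_lit 408)))))) (XT.nd (nat_lit 546) (nat_lit 3724) (nat_lit 0) (XT.nd (nat_lit 234) (nat_lit 1596) (nat_lit 0) (XT.nd (nat_lit 78) (nat_lit 0) (nat_lit 76) (XT.lf (nat_lit 76) (nat_lit 5117591076) (nat_lit 0) (nat_lit 1343849399) (nat_lit 1824) (nat_lit 6322741529) (nat_lit 504) (nat_lit 5) (nat_lit 503) (nat_lit 5) (nat_lit 527) (nat_lit 5) (nat_lit 585) (nat_lit 568) (nat_lit 407)) (XT.nd (nat_lit 78) (nat_lit 0) (nat_lit 0) (XT.lf (nat_lit 0) (nat_lit 7659144439) (nat_lit 1748) (nat_lit 901949171) (nat_lit 1824) (nat_lit 4349773785) (nat_lit 504) (nat_lit 5) (nat_lit 527) (nat_lit 5) (nat_lit 528) (nat_lit 5) (nat_lit 586) (nat_lit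 568) (nat_lit 406)) (XT.lf (nat_lit 76) (nat_lit 6060016878) (nat_lit 0) (nat_lit 2857819308) (nat_lit 1824) (nat_lit 4121510324) (nat_lit 505) (nat_lit 5) (nat_lit 504) (nat_lit 5) (nat_lit 528) (nat_lit 5) (nat_lit 587) (nat_lit 568) (nat_lit 405)))) (XT.nd (nat_lit 156) (nat_lit 1748) (nat_lit 0) (XT.nd (nat_lit 78) (nat_lit 0) (nat_lit 0) (XT.lf (nat_lit 0) (nat_lit 10215979268) (nat_lit 1748) (nat_lit 24810071) (nat_lit 1824) (nat_lit 2929320994) (nat_lit 505) (nat_lit 5) (nat_lit 528) (nat_lit 5) (nat_lit 529) (nat_lit 5) (nat_lit 588) (nat_lit 568) (nat_lit 404)) (XT.lf (nat_lit 76) (nat_lit 7134891397) (nat_lit 0) (nat_lit 4459630192) (nat_lit 1824) (nat_lit 1707879781) (nat_lit 506) (nat_lit 5) (nat_lit 505) (nat_lit 5) (nat_lit 529) (nat_lit 5) (nat_lit 589) (nat_lit 568) (nat_lit 403))) (XT.nd (nat_lit 78) (nat_lit 1824) (nat_lit 0) (XT.lf (nat_lit 76) (nat_lit 995786780) (nat_lit 0) (nat_lit 12010168632) (nat_lit 1824) (nat_lit 431277053) (nat_lit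 507) (nat_lit 5) (nat_lit 506) (nat_lit 5) (nat_lit 530) (nat_lit 5) (nat_lit 590) (nat_lit 568) (nat_lit 402)) (XT.lf (nat_lit 0) (nat_lit 920070665) (nat_lit 1824) (nat_lit 5232255939) (nat_lit 1900) (nat_lit 7421108432) (nat_lit 482) (nat_lit 5) (nat_lit 506) (nat_lit 5) (nat_lit 507) (nat_lit 5) (nat_lit 591) (nat_lit 568) (nat_lit 401))))) (XT.nd (nat_lit 312) (nat_lit 1976) (nat_lit 0) (XT.nd (nat_lit 156) (nat_lit 1748) (nat_lit 0) (XT.nd (nat_lit 78) (nat_lit 0) (nat_lit 76) (XT.lf (nat_lit 76) (nat_lit 2137657079) (nat_lit 0) (nat_lit 158544113) (nat_lit 1900) (nat_lit 11416033452) (nat_lit 483) (nat_lit 5) (nat_lit 482) (nat_lit 5) (nat_lit 507) (nat_lit 5) (nat_lit 592) (nat_lit 568) (nat_lit 400)) (XT.lf (nat_lit 0) (nat_lit 3763666592) (nat_lit 1824) (nat_lit 4174910700) (nat_lit 76) (nat_lit 5913957308) (nat_lit 483) (nat_lit 5) (nat_lit 507) (nat_lit 5) (nat_lit 484) (nat_lit 5) (nat_lit 593) (nat_lit 568) (nat_lit 399))) (XT.nd (nat_lit 78)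 (nat_lit 0) (nat_lit 0) (XT.lf (nat_lit 0) (nat_lit 3407766970) (nat_lit 1824) (nat_lit 1865893691) (nat_lit 1900) (nat_lit 8721716897) (nat_lit 459) (nat_lit 5) (nat_lit 483) (nat_lit 5) (nat_lit 484) (nat_lit 5) (nat_lit 594) (nat_lit 568) (nat_lit 398)) (XT.lf (nat_lit 0) (nat_lit 6860310457) (nat_lit 1900) (nat_lit 2978889556) (nat_lit 76) (nat_lit 4300948823) (nat_lit 459) (nat_lit 5) (nat_lit 484) (nat_lit 5) (nat_lit 460) (nat_lit 5) (nat_lit 595) (nat_lit 568) (nat_lit 397)))) (XT.nd (nat_lit 156) (nat_lit 912) (nat_lit 0) (XT.nd (nat_lit 78) (nat_lit 0) (nat_lit 0) (XT.lf (nat_lit 0) (nat_lit 4824317499) (nat_lit 1064) (nat_lit 3688401049) (nat_lit 1140) (nat_lit 5774417052) (nat_lit 445) (nat_lit 5) (nat_lit 459) (nat_lit 5) (nat_lit 460) (nat_lit 5) (nat_lit 596) (nat_lit 568) (nat_lit 396)) (XT.lf (nat_lit 0) (nat_lit 10225569174) (nat_lit 1140) (nat_lit 1638356541) (nat_lit 76) (nat_lit 2572589051) (nat_lit 445) (nat_lit 5) (nat_lit 460) (nat_lit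 5) (nat_lit 446) (nat_lit 5) (nat_lit 597) (nat_lit 568) (nat_lit 395))) (XT.nd (nat_lit 78) (nat_lit 0) (nat_lit 0) (XT.lf (nat_lit 0) (nat_lit 6393446439) (nat_lit 912) (nat_lit 5635839768) (nat_lit 988) (nat_lit 2558463667) (nat_lit 433) (nat_lit 5) (nat_lit 445) (nat_lit 5) (nat_lit 446) (nat_lit 5) (nat_lit 598) (nat_lit 568) (nat_lit 394)) (XT.lf (nat_lit 0) (nat_lit 13875603061) (nat_lit 988) (nat_lit 147127856) (nat_lit 76) (nat_lit 719148789) (nat_lit 433) (nat_lit 5) (nat_lit 446) (nat_lit 5) (nat_lit 434) (nat_lit 5) (nat_lit 599) (nat_lit 568) (nat_lit 393))))))))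
noncomputable def xc169 : XT := (XT.nd (nat_lit 2262) (nat_lit 8512) (nat_lit 0) (XT.nd (nat_lit 1092) (nat_lit 6080) (nat_lit 0) (XT.nd (nat_lit 546) (nat_lit 3116) (nat_lit 0) (XT.nd (nat_lit 234) (nat_lit 1672) (nat_lit 0) (XT.nd (nat_lit 78) (nat_lit 836) (nat_lit 0) (XT.lf (nat_lit 0) (nat_lit 930053785) (nat_lit 988) (nat_lit 6781940355) (nat_lit 76) (nat_lit 7185355359) (nat_lit 420) (nat_lit 5) (nat_lit 433) (nat_lit 5) (nat_lit 421) (nat_lit 5) (nat_lit 600) (nat_lit 568) (nat_lit 392)) (XT.nd (nat_lit 78) (nat_lit 0) (nat_lit 0) (XT.lf (nat_lit 0) (nat_lit 1494542285) (nat_lit 836) (nat_lit 1257924410) (nat_lit 912) (nat_lit 12303312866) (nat_lit 409) (nat_lit 5) (nat_lit 420) (nat_lit 5) (nat_lit 421) (nat_lit 5) (nat_lit 601) (nat_lit 568) (nat_lit 391)) (XT.lf (nat_lit 0) (nat_lit 4682883607) (nat_lit 912) (nat_lit 5231578965) (nat_lit 76) (nat_lit 5301485032) (nat_lit 409) (nat_lit 5) (nat_lit 421) (nat_lit 5) (nat_lit 410) (nat_lit 5) (nat_lit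 602) (nat_lit 568) (nat_lit 390)))) (XT.nd (nat_lit 156) (nat_lit 836) (nat_lit 0) (XT.nd (nat_lit 78) (nat_lit 0) (nat_lit 0) (XT.lf (nat_lit 0) (nat_lit 3290954110) (nat_lit 836) (nat_lit 3381994639) (nat_lit 912) (nat_lit 8705949943) (nat_lit 398) (nat_lit 5) (nat_lit 409) (nat_lit 5) (nat_lit 410) (nat_lit 5) (nat_lit 603) (nat_lit 568) (nat_lit 389)) (XT.lf (nat_lit 0) (nat_lit 8750914716) (nat_lit 912) (nat_lit 3519753762) (nat_lit 76) (nat_lit 3273478808) (nat_lit 398) (nat_lit 5) (nat_lit 410) (nat_lit 5) (nat_lit 399) (nat_lit 5) (nat_lit 604) (nat_lit 568) (nat_lit 388))) (XT.nd (nat_lit 78) (nat_lit 0) (nat_lit 0) (XT.lf (nat_lit 0) (nat_lit 5257866670) (nat_lit 836) (nat_lit 5660732867) (nat_lit 912) (nat_lit 4793138588) (nat_lit 387) (nat_lit 5) (nat_lit 398) (nat_lit 5) (nat_lit 399) (nat_lit 5) (nat_lit 605) (nat_lit 568) (nat_lit 387)) (XT.lf (nat_lit 0) (nat_lit 13152168023) (nat_lit 912) (nat_lit 1639238808) (nat_lit 76) (nat_lit 1090823808)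 (nat_lit 387) (nat_lit 5) (nat_lit 399) (nat_lit 5) (nat_lit 388) (nat_lit 5) (nat_lit 606) (nat_lit 568) (nat_lit 386))))) (XT.nd (nat_lit 234) (nat_lit 1444) (nat_lit 0) (XT.nd (nat_lit 78) (nat_lit 836) (nat_lit 0) (XT.lf (nat_lit 0) (nat_lit 7402853121) (nat_lit 836) (nat_lit 8105002354) (nat_lit 912) (nat_lit 546729022) (nat_lit 376) (nat_lit 5) (nat_lit 387) (nat_lit 5) (nat_lit 388) (nat_lit 5) (nat_lit 607) (nat_lit 568) (nat_lit 385)) (XT.nd (nat_lit 78) (nat_lit 0) (nat_lit 0) (XT.lf (nat_lit 0) (nat_lit 403666861) (nat_lit 760) (nat_lit 1260207370) (nat_lit 836) (nat_lit 14566180641) (nat_lit 365) (nat_lit 5) (nat_lit 375) (nat_lit 5) (nat_lit 376) (nat_lit 5) (nat_lit 608) (nat_lit 568) (nat_lit 384)) (XT.lf (nat_lit 0) (nat_lit 3999011748) (nat_lit 836) (nat_lit 6700164090) (nat_lit 76) (nat_lit 5708034102) (nat_lit 365) (nat_lit 5) (nat_lit 376) (nat_lit 5) (nat_lit 366) (nat_lit 5) (nat_lit 609) (nat_lit 568) (nat_lit 383)))) (XT.nd (nat_lit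 156) (nat_lit 684) (nat_lit 0) (XT.nd (nat_lit 78) (nat_lit 0) (nat_lit 0) (XT.lf (nat_lit 0) (nat_lit 2626263590) (nat_lit 760) (nat_lit 3772187800) (nat_lit 836) (nat_lit 10189105144) (nat_lit 355) (nat_lit 5) (nat_lit 365) (nat_lit 5) (nat_lit 366) (nat_lit 5) (nat_lit 610) (nat_lit 568) (nat_lit 382)) (XT.lf (nat_lit 0) (nat_lit 8904818232) (nat_lit 836) (nat_lit 4570762407) (nat_lit 76) (nat_lit 3294751059) (nat_lit 355) (nat_lit 5) (nat_lit 366) (nat_lit 5) (nat_lit 356) (nat_lit 5) (nat_lit 611) (nat_lit 568) (nat_lit 381))) (XT.nd (nat_lit 78) (nat_lit 0) (nat_lit 0) (XT.lf (nat_lit 0) (nat_lit 5040355889) (nat_lit 684) (nat_lit 6471110750) (nat_lit 760) (nat_lit 5444293038) (nat_lit 346) (nat_lit 5) (nat_lit 355) (nat_lit 5) (nat_lit 356) (nat_lit 5) (nat_lit 612) (nat_lit 568) (nat_lit 380)) (XT.lf (nat_lit 0) (nat_lit 14198032199) (nat_lit 760) (nat_lit 2251639813) (nat_lit 76) (nat_lit 694668908) (nat_lit 346) (nat_lit 5) (nat_lit 356) (nat_lit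 5) (nat_lit 347) (nat_lit 5) (nat_lit 613) (nat_lit 568) (nat_lit 379)))))) (XT.nd (nat_lit 546) (nat_lit 3268) (nat_lit 0) (XT.nd (nat_lit 234) (nat_lit 1292) (nat_lit 0) (XT.nd (nat_lit 78) (nat_lit 760) (nat_lit 0) (XT.lf (nat_lit 0) (nat_lit 7654666256) (nat_lit 760) (nat_lit 9368899728) (nat_lit 836) (nat_lit 311423447) (nat_lit 336) (nat_lit 5) (nat_lit 346) (nat_lit 5) (nat_lit 347) (nat_lit 5) (nat_lit 614) (nat_lit 568) (nat_lit 378)) (XT.nd (nat_lit 78) (nat_lit 0) (nat_lit 0) (XT.lf (nat_lit 0) (nat_lit 239775214) (nat_lit 684) (nat_lit 2114711699) (nat_lit 760) (nat_lit 15174465991) (nat_lit 326) (nat_lit 5) (nat_lit 335) (nat_lit 5) (nat_lit 336) (nat_lit 5) (nat_lit 615) (nat_lit 568) (nat_lit 377)) (XT.lf (nat_lit 0) (nat_lit 5162057235) (nat_lit 760) (nat_lit 7281200566) (nat_lit 76) (nat_lit 5281646800) (nat_lit 326) (nat_lit 5) (nat_lit 336) (nat_lit 5) (nat_lit 327) (nat_lit 5) (nat_lit 616) (nat_lit 568) (nat_lit 376)))) (XT.nd (nat_lit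 156) (nat_lit 608) (nat_lit 0) (XT.nd (nat_lit 78) (nat_lit 0) (nat_lit 0) (XT.lf (nat_lit 0) (nat_lit 2943302398) (nat_lit 684) (nat_lit 5108538877) (nat_lit 760) (nat_lit 9872413163) (nat_lit 317) (nat_lit 5) (nat_lit 326) (nat_lit 5) (nat_lit 327) (nat_lit 5) (nat_lit 617) (nat_lit 568) (nat_lit 375)) (XT.lf (nat_lit 0) (nat_lit 11057036606) (nat_lit 760) (nat_lit 4679658511) (nat_lit 76) (nat_lit 2389744189) (nat_lit 317) (nat_lit 5) (nat_lit 327) (nat_lit 5) (nat_lit 318) (nat_lit 5) (nat_lit 618) (nat_lit 568) (nat_lit 374))) (XT.nd (nat_lit 78) (nat_lit 0) (nat_lit 0) (XT.lf (nat_lit 0) (nat_lit 5862572502) (nat_lit 608) (nat_lit 8324820261) (nat_lit 684) (nat_lit 4143974307) (nat_lit 309) (nat_lit 5) (nat_lit 317) (nat_lit 5) (nat_lit 318) (nat_lit 5) (nat_lit 619) (nat_lit 568) (nat_lit 373)) (XT.lf (nat_lit 0) (nat_lit 16670990033) (nat_lit 608) (nat_lit 734012354) (nat_lit 684) (nat_lit 1134898408) (nat_lit 309) (nat_lit 5) (nat_lit 317) (nat_lit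 5) (nat_lit 318) (nat_lit 5) (nat_lit 620) (nat_lit 568) (nat_lit 372))))) (XT.nd (nat_lit 312) (nat_lit 1292) (nat_lit 0) (XT.nd (nat_lit 156) (nat_lit 608) (nat_lit 0) (XT.nd (nat_lit 78) (nat_lit 608) (nat_lit 0) (XT.lf (nat_lit 0) (nat_lit 2006988813) (nat_lit 760) (nat_lit 9756318319) (nat_lit 76) (nat_lit 6987087213) (nat_lit 299) (nat_lit 5) (nat_lit 309) (nat_lit 5) (nat_lit 300) (nat_lit 5) (nat_lit 621) (nat_lit 568) (nat_lit 371)) (XT.lf (nat_lit 0) (nat_lit 1129064390) (nat_lit 608) (nat_lit 4085685090) (nat_lit 684) (nat_lit 13749833926) (nat_lit 291) (nat_lit 5) (nat_lit 299) (nat_lit 5) (nat_lit 300) (nat_lit 5) (nat_lit 622) (nat_lit 568) (nat_lit 370))) (XT.nd (nat_lit 78) (nat_lit 608) (nat_lit 0) (XT.lf (nat_lit 0) (nat_lit 8570356202) (nat_lit 684) (nat_lit 6850254771) (nat_lit 76) (nat_lit 3760771765) (nat_lit 291) (nat_lit 5) (nat_lit 300) (nat_lit 5) (nat_lit 292) (nat_lit 5) (nat_lit 623) (nat_lit 568) (nat_lit 369)) (XT.lf (nat_lit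 0) (nat_lit 4377062852) (nat_lit 608) (nat_lit 7665085609) (nat_lit 684) (nat_lit 7359388428) (nat_lit 283) (nat_lit 5) (nat_lit 291) (nat_lit 5) (nat_lit 292) (nat_lit 5) (nat_lit 624) (nat_lit 568) (nat_lit 368)))) (XT.nd (nat_lit 156) (nat_lit 684) (nat_lit 0) (XT.nd (nat_lit 78) (nat_lit 608) (nat_lit 0) (XT.lf (nat_lit 0) (nat_lit 15624904612) (nat_lit 684) (nat_lit 3713353701) (nat_lit 76) (nat_lit 287005544) (nat_lit 283) (nat_lit 5) (nat_lit 292) (nat_lit 5) (nat_lit 284) (nat_lit 5) (nat_lit 625) (nat_lit 568) (nat_lit 367)) (XT.lf (nat_lit 0) (nat_lit 7868517946) (nat_lit 608) (nat_lit 11506432562) (nat_lit 684) (nat_lit 476602453) (nat_lit 275) (nat_lit 5) (nat_lit 283) (nat_lit 5) (nat_lit 284) (nat_lit 5) (nat_lit 626) (nat_lit 568) (nat_lit 366))) (XT.nd (nat_lit 78) (nat_lit 608) (nat_lit 0) (XT.lf (nat_lit 0) (nat_lit 3095639517) (nat_lit 684) (nat_lit 377850134) (nat_lit 76) (nat_lit 16608095672) (nat_lit 274) (nat_lit 5) (nat_lit 283) (nat_lit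 5) (nat_lit 275) (nat_lit 5) (nat_lit 627) (nat_lit 568) (nat_lit 365)) (XT.lf (nat_lit 0) (nat_lit 6833360342) (nat_lit 684) (nat_lit 8745279155) (nat_lit 76) (nat_lit 4735507787) (nat_lit 266) (nat_lit 5) (nat_lit 275) (nat_lit 5) (nat_lit 267) (nat_lit 5) (nat_lit 628) (nat_lit 568) (nat_lit 364))))))) (XT.nd (nat_lit 1170) (nat_lit 3800) (nat_lit 0) (XT.nd (nat_lit 546) (nat_lit 2508) (nat_lit 0) (XT.nd (nat_lit 234) (nat_lit 1140) (nat_lit 0) (XT.nd (nat_lit 78) (nat_lit 532) (nat_lit 0) (XT.lf (nat_lit 0) (nat_lit 3219701233) (nat_lit 532) (nat_lit 7466587861) (nat_lit 608) (nat_lit 9864262588) (nat_lit 259) (nat_lit 5) (nat_lit 266) (nat_lit 5) (nat_lit 267) (nat_lit 5) (nat_lit 629) (nat_lit 568) (nat_lit 363)) (XT.nd (nat_lit 78) (nat_lit 532) (nat_lit 0) (XT.lf (nat_lit 0) (nat_lit 14674643337) (nat_lit 608) (nat_lit 5261511486) (nat_lit 76) (nat_lit 854362267) (nat_lit 259) (nat_lit 5) (nat_lit 267) (nat_lit 5) (nat_lit 260) (nat_lit 5) (nat_lit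 630) (nat_lit 568) (nat_lit 362)) (XT.lf (nat_lit 0) (nat_lit 7084947783) (nat_lit 532) (nat_lit 11747430043) (nat_lit 608) (nat_lit 2201111974) (nat_lit 252) (nat_lit 5) (nat_lit 259) (nat_lit 5) (nat_lit 260) (nat_lit 5) (nat_lit 631) (nat_lit 568) (nat_lit 361)))) (XT.nd (nat_lit 156) (nat_lit 532) (nat_lit 0) (XT.nd (nat_lit 78) (nat_lit 532) (nat_lit 0) (XT.lf (nat_lit 0) (nat_lit 1798176101) (nat_lit 608) (nat_lit 1550592481) (nat_lit 76) (nat_lit 17931726285) (nat_lit 251) (nat_lit 5) (nat_lit 259) (nat_lit 5) (nat_lit 252) (nat_lit 5) (nat_lit 632) (nat_lit 568) (nat_lit 360)) (XT.lf (nat_lit 0) (nat_lit 5949603783) (nat_lit 608) (nat_lit 10344968345) (nat_lit 76) (nat_lit 5235544627) (nat_lit 244) (nat_lit 5) (nat_lit 252) (nat_lit 5) (nat_lit 245) (nat_lit 5) (nat_lit 633) (nat_lit 568) (nat_lit 359))) (XT.nd (nat_lit 78) (nat_lit 0) (nat_lit 0) (XT.lf (nat_lit 0) (nat_lit 2413847959) (nat_lit 532) (nat_lit 7812891152) (nat_lit 608) (nat_lit 11557138623)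 (nat_lit 237) (nat_lit 5) (nat_lit 244) (nat_lit 5) (nat_lit 245) (nat_lit 5) (nat_lit 634) (nat_lit 568) (nat_lit 358)) (XT.lf (nat_lit 0) (nat_lit 14659144053) (nat_lit 608) (nat_lit 6486871553) (nat_lit 76) (nat_lit 895304023) (nat_lit 237) (nat_lit 5) (nat_lit 245) (nat_lit 5) (nat_lit 238) (nat_lit 5) (nat_lit 635) (nat_lit 568) (nat_lit 357))))) (XT.nd (nat_lit 312) (nat_lit 988) (nat_lit 0) (XT.nd (nat_lit 156) (nat_lit 988) (nat_lit 0) (XT.nd (nat_lit 78) (nat_lit 76) (nat_lit 0) (XT.lf (nat_lit 0) (nat_lit 6682287407) (nat_lit 456) (nat_lit 12587549651) (nat_lit 532) (nat_lit 3032280733) (nat_lit 231) (nat_lit 5) (nat_lit 237) (nat_lit 5) (nat_lit 238) (nat_lit 5) (nat_lit 636) (nat_lit 568) (nat_lit 356)) (XT.lf (nat_lit 0) (nat_lit 1424544645) (nat_lit 532) (nat_lit 2381492382) (nat_lit 76) (nat_lit 18761145625) (nat_lit 230) (nat_lit 5) (nat_lit 237) (nat_lit 5) (nat_lit 231) (nat_lit 5) (nat_lit 637) (nat_lit 568) (nat_lit 355))) (XT.nd (nat_lit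 78) (nat_lit 456) (nat_lit 0) (XT.lf (nat_lit 0) (nat_lit 6031619888) (nat_lit 608) (nat_lit 11628311516) (nat_lit 76) (nat_lit 5175182443) (nat_lit 223) (nat_lit 5) (nat_lit 231) (nat_lit 5) (nat_lit 224) (nat_lit 5) (nat_lit 638) (nat_lit 568) (nat_lit 354)) (XT.lf (nat_lit 0) (nat_lit 1984294689) (nat_lit 456) (nat_lit 8795404201) (nat_lit 532) (nat_lit 12327727740) (nat_lit 217) (nat_lit 5) (nat_lit 223) (nat_lit 5) (nat_lit 224) (nat_lit 5) (nat_lit 639) (nat_lit 568) (nat_lit 353)))) (XT.nd (nat_lit 156) (nat_lit 532) (nat_lit 0) (XT.nd (nat_lit 78) (nat_lit 456) (nat_lit 0) (XT.lf (nat_lit 0) (nat_lit 15697616514) (nat_lit 532) (nat_lit 7366484851) (nat_lit 76) (nat_lit 319586972) (nat_lit 217) (nat_lit 5) (nat_lit 224) (nat_lit 5) (nat_lit 218) (nat_lit 5) (nat_lit 640) (nat_lit 568) (nat_lit 352)) (XT.lf (nat_lit 0) (nat_lit 6687380120) (nat_lit 456) (nat_lit 14123010652) (nat_lit 532) (nat_lit 2853154741) (nat_lit 211) (nat_lit 5) (nat_lit 217) (nat_lit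 5) (nat_lit 218) (nat_lit 5) (nat_lit 641) (nat_lit 568) (nat_lit 351))) (XT.nd (nat_lit 78) (nat_lit 456) (nat_lit 0) (XT.lf (nat_lit 0) (nat_lit 2093799792) (nat_lit 532) (nat_lit 2847036663) (nat_lit 76) (nat_lit 19007001706) (nat_lit 210) (nat_lit 5) (nat_lit 217) (nat_lit 5) (nat_lit 211) (nat_lit 5) (nat_lit 642) (nat_lit 568) (nat_lit 350)) (XT.lf (nat_lit 0) (nat_lit 7201732587) (nat_lit 532) (nat_lit 12573493259) (nat_lit 76) (nat_lit 4460208963) (nat_lit 204) (nat_lit 5) (nat_lit 211) (nat_lit 5) (nat_lit 205) (nat_lit 5) (nat_lit 643) (nat_lit 568) (nat_lit 349)))))) (XT.nd (nat_lit 546) (nat_lit 2052) (nat_lit 0) (XT.nd (nat_lit 234) (nat_lit 912) (nat_lit 0) (XT.nd (nat_lit 78) (nat_lit 380) (nat_lit 0) (XT.lf (nat_lit 0) (nat_lit 1956820363) (nat_lit 456) (nat_lit 10514651293) (nat_lit 532) (nat_lit 12056118967) (nat_lit 198) (nat_lit 5) (nat_lit 204) (nat_lit 5) (nat_lit 205) (nat_lit 5) (nat_lit 644) (nat_lit 568) (nat_lit 348)) (XT.nd (nat_lit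 78) (nat_lit 380) (nat_lit 0) (XT.lf (nat_lit 0) (nat_lit 16940938443) (nat_lit 456) (nat_lit 985083287) (nat_lit 532) (nat_lit 6897979684) (nat_lit 198) (nat_lit 5) (nat_lit 204) (nat_lit 5) (nat_lit 205) (nat_lit 5) (nat_lit 645) (nat_lit 568) (nat_lit 347)) (XT.lf (nat_lit 0) (nat_lit 7127989642) (nat_lit 380) (nat_lit 16459790885) (nat_lit 456) (nat_lit 1536597719) (nat_lit 193) (nat_lit 5) (nat_lit 198) (nat_lit 5) (nat_lit 199) (nat_lit 5) (nat_lit 646) (nat_lit 568) (nat_lit 346)))) (XT.nd (nat_lit 156) (nat_lit 380) (nat_lit 0) (XT.nd (nat_lit 78) (nat_lit 456) (nat_lit 0) (XT.lf (nat_lit 0) (nat_lit 3935357735) (nat_lit 456) (nat_lit 2923184895) (nat_lit 76) (nat_lit 18570611274) (nat_lit 192) (nat_lit 5) (nat_lit 198) (nat_lit 5) (nat_lit 193) (nat_lit 5) (nat_lit 647) (nat_lit 568) (nat_lit 345)) (XT.lf (nat_lit 0) (nat_lit 9592885843) (nat_lit 532) (nat_lit 13158434150) (nat_lit 76) (nat_lit 2986567941) (nat_lit 186) (nat_lit 5) (nat_lit 193) (nat_lit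 5) (nat_lit 187) (nat_lit 5) (nat_lit 648) (nat_lit 568) (nat_lit 344))) (XT.nd (nat_lit 78) (nat_lit 0) (nat_lit 0) (XT.lf (nat_lit 0) (nat_lit 2357646370) (nat_lit 380) (nat_lit 13081661971) (nat_lit 456) (nat_lit 10611973594) (nat_lit 181) (nat_lit 5) (nat_lit 186) (nat_lit 5) (nat_lit 187) (nat_lit 5) (nat_lit 649) (nat_lit 568) (nat_lit 343)) (XT.lf (nat_lit 0) (nat_lit 18355371859) (nat_lit 380) (nat_lit 3130904070) (nat_lit 456) (nat_lit 4882995716) (nat_lit 181) (nat_lit 5) (nat_lit 186) (nat_lit 5) (nat_lit 187) (nat_lit 5) (nat_lit 650) (nat_lit 568) (nat_lit 342))))) (XT.nd (nat_lit 312) (nat_lit 836) (nat_lit 0) (XT.nd (nat_lit 156) (nat_lit 760) (nat_lit 0) (XT.nd (nat_lit 78) (nat_lit 0) (nat_lit 0) (XT.lf (nat_lit 0) (nat_lit 1041695379) (nat_lit 456) (nat_lit 18666390238) (nat_lit 76) (nat_lit 6983536325) (nat_lit 175) (nat_lit 5) (nat_lit 181) (nat_lit 5) (nat_lit 176) (nat_lit 5) (nat_lit 651) (nat_lit 568) (nat_lit 341)) (XT.lf (nat_lit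 0) (nat_lit 7089834561) (nat_lit 456) (nat_lit 2585992479) (nat_lit 76) (nat_lit 17342540074) (nat_lit 175) (nat_lit 5) (nat_lit 181) (nat_lit 5) (nat_lit 176) (nat_lit 5) (nat_lit 652) (nat_lit 568) (nat_lit 340))) (XT.nd (nat_lit 78) (nat_lit 380) (nat_lit 0) (XT.lf (nat_lit 0) (nat_lit 13349487877) (nat_lit 456) (nat_lit 13361453629) (nat_lit 76) (nat_lit 638894809) (nat_lit 170) (nat_lit 5) (nat_lit 176) (nat_lit 5) (nat_lit 171) (nat_lit 5) (nat_lit 653) (nat_lit 568) (nat_lit 339)) (XT.lf (nat_lit 0) (nat_lit 3212765604) (nat_lit 380) (nat_lit 16619501797) (nat_lit 456) (nat_lit 7853708981) (nat_lit 165) (nat_lit 5) (nat_lit 170) (nat_lit 5) (nat_lit 171) (nat_lit 5) (nat_lit 654) (nat_lit 568) (nat_lit 338)))) (XT.nd (nat_lit 156) (nat_lit 380) (nat_lit 0) (XT.nd (nat_lit 78) (nat_lit 456) (nat_lit 0) (XT.lf (nat_lit 0) (nat_lit 20292744083) (nat_lit 380) (nat_lit 6237191212) (nat_lit 456) (nat_lit 1497199446) (nat_lit 165) (nat_lit 5) (nat_lit 170)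 (nat_lit 5) (nat_lit 171) (nat_lit 5) (nat_lit 655) (nat_lit 568) (nat_lit 337)) (XT.lf (nat_lit 0) (nat_lit 5006720284) (nat_lit 456) (nat_lit 18978541413) (nat_lit 76) (nat_lit 4387493642) (nat_lit 159) (nat_lit 5) (nat_lit 165) (nat_lit 5) (nat_lit 160) (nat_lit 5) (nat_lit 656) (nat_lit 568) (nat_lit 336))) (XT.nd (nat_lit 78) (nat_lit 380) (nat_lit 0) (XT.lf (nat_lit 0) (nat_lit 11709895983) (nat_lit 456) (nat_lit 1812376744) (nat_lit 76) (nat_lit 15201033325) (nat_lit 159) (nat_lit 5) (nat_lit 165) (nat_lit 5) (nat_lit 160) (nat_lit 5) (nat_lit 657) (nat_lit 568) (nat_lit 335)) (XT.lf (nat_lit 0) (nat_lit 15898968375) (nat_lit 380) (nat_lit 2747133549) (nat_lit 456) (nat_lit 10432786656) (nat_lit 154) (nat_lit 5) (nat_lit 159) (nat_lit 5) (nat_lit 160) (nat_lit 5) (nat_lit 658) (nat_lit 568) (nat_lit 334))))))))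
noncomputable def xc170 : XT := (XT.nd (nat_lit 75426) (nat_lit 0) (nat_lit 17404) (XT.nd (nat_lit 74256) (nat_lit 0) (nat_lit 29108) (XT.nd (nat_lit 546) (nat_lit 1292) (nat_lit 0) (XT.nd (nat_lit 234) (nat_lit 760) (nat_lit 0) (XT.nd (nat_lit 78) (nat_lit 456) (nat_lit 0) (XT.lf (nat_lit 0) (nat_lit 4547115691) (nat_lit 304) (nat_lit 21264969133) (nat_lit 380) (nat_lit 3627677008) (nat_lit 150) (nat_lit 5) (nat_lit 154) (nat_lit 5) (nat_lit 155) (nat_lit 5) (nat_lit 659) (nat_lit 568) (nat_lit 333)) (XT.nd (nat_lit 78) (nat_lit 380) (nat_lit 0) (XT.lf (nat_lit 0) (nat_lit 3373077175) (nat_lit 380) (nat_lit 7045724463) (nat_lit 76) (nat_lit 19386560765) (nat_lit 149) (nat_lit 5) (nat_lit 154) (nat_lit 5) (nat_lit 150) (nat_lit 5) (nat_lit 660) (nat_lit 568) (nat_lit 332)) (XT.lf (nat_lit 0) (nat_lit 10539195989) (nat_lit 456) (nat_lit 18905800813) (nat_lit 76) (nat_lit 731320245) (nat_lit 144) (nat_lit 5) (nat_lit 150) (nat_lit 5) (nat_lit 145) (nat_lit 5)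 (nat_lit 661) (nat_lit 568) (nat_lit 331)))) (XT.nd (nat_lit 156) (nat_lit 456) (nat_lit 0) (XT.nd (nat_lit 78) (nat_lit 304) (nat_lit 0) (XT.lf (nat_lit 0) (nat_lit 17961112487) (nat_lit 456) (nat_lit 581058526) (nat_lit 76) (nat_lit 12010270385) (nat_lit 144) (nat_lit 5) (nat_lit 150) (nat_lit 5) (nat_lit 145) (nat_lit 5) (nat_lit 662) (nat_lit 568) (nat_lit 330)) (XT.lf (nat_lit 0) (nat_lit 18344306755) (nat_lit 304) (nat_lit 7302227677) (nat_lit 380) (nat_lit 5287252581) (nat_lit 140) (nat_lit 5) (nat_lit 144) (nat_lit 5) (nat_lit 145) (nat_lit 5) (nat_lit 663) (nat_lit 568) (nat_lit 329))) (XT.nd (nat_lit 78) (nat_lit 0) (nat_lit 0) (XT.lf (nat_lit 0) (nat_lit 2203373761) (nat_lit 456) (nat_lit 24952326378) (nat_lit 76) (nat_lit 4165401946) (nat_lit 134) (nat_lit 5) (nat_lit 140) (nat_lit 5) (nat_lit 135) (nat_lit 5) (nat_lit 664) (nat_lit 568) (nat_lit 328)) (XT.lf (nat_lit 0) (nat_lit 9902479066) (nat_lit 456) (nat_lit 5928050120) (nat_lit 76) (nat_lit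 15882346156) (nat_lit 134) (nat_lit 5) (nat_lit 140) (nat_lit 5) (nat_lit 135) (nat_lit 5) (nat_lit 665) (nat_lit 568) (nat_lit 327))))) (XT.nd (nat_lit 234) (nat_lit 608) (nat_lit 0) (XT.nd (nat_lit 78) (nat_lit 380) (nat_lit 0) (XT.lf (nat_lit 0) (nat_lit 13649359500) (nat_lit 304) (nat_lit 4190902106) (nat_lit 380) (nat_lit 14270528664) (nat_lit 130) (nat_lit 5) (nat_lit 134) (nat_lit 5) (nat_lit 135) (nat_lit 5) (nat_lit 666) (nat_lit 568) (nat_lit 326)) (XT.nd (nat_lit 78) (nat_lit 76) (nat_lit 0) (XT.lf (nat_lit 0) (nat_lit 1141250270) (nat_lit 304) (nat_lit 24888971112) (nat_lit 380) (nat_lit 6484573791) (nat_lit 126) (nat_lit 5) (nat_lit 130) (nat_lit 5) (nat_lit 131) (nat_lit 5) (nat_lit 667) (nat_lit 568) (nat_lit 325)) (XT.lf (nat_lit 0) (nat_lit 1586554914) (nat_lit 380) (nat_lit 11582599229) (nat_lit 76) (nat_lit 19754565628) (nat_lit 125) (nat_lit 5) (nat_lit 130) (nat_lit 5) (nat_lit 126) (nat_lit 5) (nat_lit 668) (nat_lit 568) (nat_lit 324))))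 (XT.nd (nat_lit 156) (nat_lit 304) (nat_lit 0) (XT.nd (nat_lit 78) (nat_lit 0) (nat_lit 0) (XT.lf (nat_lit 0) (nat_lit 8668641321) (nat_lit 304) (nat_lit 1116180745) (nat_lit 380) (nat_lit 23554092748) (nat_lit 121) (nat_lit 5) (nat_lit 125) (nat_lit 5) (nat_lit 126) (nat_lit 5) (nat_lit 669) (nat_lit 568) (nat_lit 323)) (XT.lf (nat_lit 0) (nat_lit 18294067825) (nat_lit 380) (nat_lit 4358325460) (nat_lit 76) (nat_lit 11107080308) (nat_lit 121) (nat_lit 5) (nat_lit 126) (nat_lit 5) (nat_lit 122) (nat_lit 5) (nat_lit 670) (nat_lit 568) (nat_lit 322))) (XT.nd (nat_lit 73242) (nat_lit 0) (nat_lit 30552) (XT.lf (nat_lit 0) (nat_lit 16563537396) (nat_lit 304) (nat_lit 10521168181) (nat_lit 380) (nat_lit 7101513925) (nat_lit 117) (nat_lit 5) (nat_lit 121) (nat_lit 5) (nat_lit 122) (nat_lit 5) (nat_lit 671) (nat_lit 568) (nat_lit 321)) (XT.lf (nat_lit 0) (nat_lit 2369086441) (nat_lit 1748) (nat_lit 1590578654) (nat_lit 1748) (nat_lit 1590578654) (nat_lit 519) (nat_lit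 3) (nat_lit 542) (nat_lit 3) (nat_lit 542) (nat_lit 5) (nat_lit 569) (nat_lit 569) (nat_lit 422)))))) (XT.nd (nat_lit 546) (nat_lit 1444) (nat_lit 0) (XT.nd (nat_lit 234) (nat_lit 0) (nat_lit 152) (XT.nd (nat_lit 78) (nat_lit 0) (nat_lit 76) (XT.lf (nat_lit 76) (nat_lit 2357126364) (nat_lit 0) (nat_lit 3005300672) (nat_lit 1748) (nat_lit 5837491745) (nat_lit 520) (nat_lit 5) (nat_lit 519) (nat_lit 3) (nat_lit 542) (nat_lit 5) (nat_lit 570) (nat_lit 569) (nat_lit 421)) (XT.nd (nat_lit 78) (nat_lit 0) (nat_lit 0) (XT.lf (nat_lit 0) (nat_lit 6018952686) (nat_lit 1672) (nat_lit 3272742575) (nat_lit 1748) (nat_lit 2009248646) (nat_lit 520) (nat_lit 5) (nat_lit 542) (nat_lit 5) (nat_lit 543) (nat_lit 5) (nat_lit 571) (nat_lit 569) (nat_lit 420)) (XT.lf (nat_lit 76) (nat_lit 2412648161) (nat_lit 0) (nat_lit 4297083700) (nat_lit 1748) (nat_lit 4693836142) (nat_lit 521) (nat_lit 5) (nat_lit 520) (nat_lit 5) (nat_lit 543) (nat_lit 5) (nat_lit 572) (nat_lit 569) (nat_lit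 419)))) (XT.nd (nat_lit 156) (nat_lit 0) (nat_lit 0) (XT.nd (nat_lit 78) (nat_lit 0) (nat_lit 0) (XT.lf (nat_lit 0) (nat_lit 7427441988) (nat_lit 1672) (nat_lit 3265094117) (nat_lit 1748) (nat_lit 815447082) (nat_lit 521) (nat_lit 5) (nat_lit 543) (nat_lit 5) (nat_lit 544) (nat_lit 5) (nat_lit 573) (nat_lit 569) (nat_lit 418)) (XT.lf (nat_lit 76) (nat_lit 2572613703) (nat_lit 0) (nat_lit 5618161783) (nat_lit 1748) (nat_lit 3423086697) (nat_lit 522) (nat_lit 5) (nat_lit 521) (nat_lit 5) (nat_lit 544) (nat_lit 5) (nat_lit 574) (nat_lit 569) (nat_lit 417))) (XT.nd (nat_lit 78) (nat_lit 0) (nat_lit 76) (XT.lf (nat_lit 76) (nat_lit 8563469775) (nat_lit 0) (nat_lit 414146244) (nat_lit 1748) (nat_lit 2744078809) (nat_lit 522) (nat_lit 5) (nat_lit 521) (nat_lit 5) (nat_lit 544) (nat_lit 5) (nat_lit 575) (nat_lit 569) (nat_lit 416)) (XT.lf (nat_lit 76) (nat_lit 2839913297) (nat_lit 0) (nat_lit 6977128290) (nat_lit 1748) (nat_lit 2013906434) (nat_lit 523) (nat_lit 5)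 (nat_lit 522) (nat_lit 5) (nat_lit 545) (nat_lit 5) (nat_lit 576) (nat_lit 569) (nat_lit 415))))) (XT.nd (nat_lit 312) (nat_lit 0) (nat_lit 76) (XT.nd (nat_lit 156) (nat_lit 1672) (nat_lit 0) (XT.nd (nat_lit 78) (nat_lit 0) (nat_lit 76) (XT.lf (nat_lit 76) (nat_lit 8990081841) (nat_lit 0) (nat_lit 1693937035) (nat_lit 1748) (nat_lit 1258152979) (nat_lit 523) (nat_lit 5) (nat_lit 522) (nat_lit 5) (nat_lit 545) (nat_lit 5) (nat_lit 577) (nat_lit 569) (nat_lit 414)) (XT.lf (nat_lit 76) (nat_lit 3217745384) (nat_lit 0) (nat_lit 8382608111) (nat_lit 1748) (nat_lit 454627140) (nat_lit 524) (nat_lit 5) (nat_lit 523) (nat_lit 5) (nat_lit 546) (nat_lit 5) (nat_lit 578) (nat_lit 569) (nat_lit 413))) (XT.nd (nat_lit 78) (nat_lit 0) (nat_lit 76) (XT.lf (nat_lit 0) (nat_lit 378593487) (nat_lit 1748) (nat_lit 2640591064) (nat_lit 1824) (nat_lit 9150446224) (nat_lit 500) (nat_lit 5) (nat_lit 523) (nat_lit 5) (nat_lit 524) (nat_lit 5) (nat_lit 579) (nat_lit 569) (nat_lit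 412)) (XT.lf (nat_lit 0) (nat_lit 1250161325) (nat_lit 1748) (nat_lit 8584729375) (nat_lit 1824) (nat_lit 2451068487) (nat_lit 501) (nat_lit 5) (nat_lit 524) (nat_lit 5) (nat_lit 525) (nat_lit 5) (nat_lit 580) (nat_lit 569) (nat_lit 411)))) (XT.nd (nat_lit 156) (nat_lit 0) (nat_lit 76) (XT.nd (nat_lit 78) (nat_lit 0) (nat_lit 76) (XT.lf (nat_lit 0) (nat_lit 2164714757) (nat_lit 1748) (nat_lit 2226967992) (nat_lit 1824) (nat_lit 8012421097) (nat_lit 501) (nat_lit 5) (nat_lit 524) (nat_lit 5) (nat_lit 525) (nat_lit 5) (nat_lit 581) (nat_lit 569) (nat_lit 410)) (XT.lf (nat_lit 0) (nat_lit 3121226599) (nat_lit 1748) (nat_lit 8225726647) (nat_lit 1824) (nat_lit 1177185553) (nat_lit 502) (nat_lit 5) (nat_lit 525) (nat_lit 5) (nat_lit 526) (nat_lit 5) (nat_lit 582) (nat_lit 569) (nat_lit 409))) (XT.nd (nat_lit 78) (nat_lit 0) (nat_lit 0) (XT.lf (nat_lit 0) (nat_lit 4129167321) (nat_lit 1748) (nat_lit 1699295497) (nat_lit 1824) (nat_lit 6817466393) (nat_lit 502) (nat_lit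 5) (nat_lit 525) (nat_lit 5) (nat_lit 526) (nat_lit 5) (nat_lit 583) (nat_lit 569) (nat_lit 408)) (XT.lf (nat_lit 76) (nat_lit 5015279780) (nat_lit 0) (nat_lit 162953087) (nat_lit 1824) (nat_lit 7591503962) (nat_lit 503) (nat_lit 5) (nat_lit 502) (nat_lit 5) (nat_lit 526) (nat_lit 5) (nat_lit 584) (nat_lit 569) (nat_lit 407))))))) (XT.nd (nat_lit 1092) (nat_lit 7524) (nat_lit 0) (XT.nd (nat_lit 546) (nat_lit 2812) (nat_lit 0) (XT.nd (nat_lit 234) (nat_lit 1596) (nat_lit 0) (XT.nd (nat_lit 78) (nat_lit 0) (nat_lit 0) (XT.lf (nat_lit 0) (nat_lit 6284820097) (nat_lit 1748) (nat_lit 1053506788) (nat_lit 1824) (nat_lit 5556963613) (nat_lit 503) (nat_lit 5) (nat_lit 526) (nat_lit 5) (nat_lit 527) (nat_lit 5) (nat_lit 585) (nat_lit 569) (nat_lit 406)) (XT.nd (nat_lit 78) (nat_lit 0) (nat_lit 76) (XT.lf (nat_lit 76) (nat_lit 5848898794) (nat_lit 0) (nat_lit 1592517654) (nat_lit 1824) (nat_lit 5581381933) (nat_lit 504) (nat_lit 5) (nat_lit 503) (nat_lit 5) (nat_lit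 527) (nat_lit 5) (nat_lit 586) (nat_lit 569) (nat_lit 405)) (XT.lf (nat_lit 0) (nat_lit 8644981394) (nat_lit 1748) (nat_lit 285220335) (nat_lit 1824) (nat_lit 4222178638) (nat_lit 504) (nat_lit 5) (nat_lit 527) (nat_lit 5) (nat_lit 528) (nat_lit 5) (nat_lit 587) (nat_lit 569) (nat_lit 404)))) (XT.nd (nat_lit 156) (nat_lit 1672) (nat_lit 0) (XT.nd (nat_lit 78) (nat_lit 0) (nat_lit 76) (XT.lf (nat_lit 76) (nat_lit 6811808931) (nat_lit 0) (nat_lit 3104805715) (nat_lit 1824) (nat_lit 3367060071) (nat_lit 505) (nat_lit 5) (nat_lit 504) (nat_lit 5) (nat_lit 528) (nat_lit 5) (nat_lit 588) (nat_lit 569) (nat_lit 403)) (XT.lf (nat_lit 76) (nat_lit 618375341) (nat_lit 0) (nat_lit 10609065115) (nat_lit 1824) (nat_lit 2189879950) (nat_lit 506) (nat_lit 5) (nat_lit 505) (nat_lit 5) (nat_lit 529) (nat_lit 5) (nat_lit 589) (nat_lit 569) (nat_lit 402))) (XT.nd (nat_lit 78) (nat_lit 1748) (nat_lit 0) (XT.lf (nat_lit 76) (nat_lit 7908979344) (nat_lit 0) (nat_lit 4708911197)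 (nat_lit 1824) (nat_lit 934680950) (nat_lit 506) (nat_lit 5) (nat_lit 505) (nat_lit 5) (nat_lit 529) (nat_lit 5) (nat_lit 590) (nat_lit 569) (nat_lit 401)) (XT.lf (nat_lit 0) (nat_lit 350195184) (nat_lit 1824) (nat_lit 12032906445) (nat_lit 1900) (nat_lit 1307199582) (nat_lit 482) (nat_lit 5) (nat_lit 506) (nat_lit 5) (nat_lit 507) (nat_lit 5) (nat_lit 591) (nat_lit 569) (nat_lit 400))))) (XT.nd (nat_lit 234) (nat_lit 2812) (nat_lit 0) (XT.nd (nat_lit 78) (nat_lit 0) (nat_lit 0) (XT.lf (nat_lit 0) (nat_lit 1707421468) (nat_lit 1824) (nat_lit 4695222612) (nat_lit 1900) (nat_lit 7426835122) (nat_lit 482) (nat_lit 5) (nat_lit 506) (nat_lit 5) (nat_lit 507) (nat_lit 5) (nat_lit 592) (nat_lit 569) (nat_lit 399)) (XT.nd (nat_lit 78) (nat_lit 0) (nat_lit 76) (XT.lf (nat_lit 76) (nat_lit 2817867097) (nat_lit 0) (nat_lit 282268862) (nat_lit 1900) (nat_lit 10871138508) (nat_lit 483) (nat_lit 5) (nat_lit 482) (nat_lit 5) (nat_lit 507) (nat_lit 5) (nat_lit 593) (nat_lit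 569) (nat_lit 398)) (XT.lf (nat_lit 0) (nat_lit 4581320343) (nat_lit 1824) (nat_lit 3617777089) (nat_lit 76) (nat_lit 5915596473) (nat_lit 483) (nat_lit 5) (nat_lit 507) (nat_lit 5) (nat_lit 484) (nat_lit 5) (nat_lit 594) (nat_lit 569) (nat_lit 397)))) (XT.nd (nat_lit 156) (nat_lit 1064) (nat_lit 0) (XT.nd (nat_lit 78) (nat_lit 0) (nat_lit 0) (XT.lf (nat_lit 0) (nat_lit 4112339451) (nat_lit 1824) (nat_lit 1998750405) (nat_lit 1900) (nat_lit 8149513212) (nat_lit 459) (nat_lit 5) (nat_lit 483) (nat_lit 5) (nat_lit 484) (nat_lit 5) (nat_lit 595) (nat_lit 569) (nat_lit 396)) (XT.lf (nat_lit 0) (nat_lit 7714512432) (nat_lit 1900) (nat_lit 2399526677) (nat_lit 76) (nat_lit 4294530709) (nat_lit 459) (nat_lit 5) (nat_lit 484) (nat_lit 5) (nat_lit 460) (nat_lit 5) (nat_lit 596) (nat_lit 569) (nat_lit 395))) (XT.nd (nat_lit 78) (nat_lit 0) (nat_lit 0) (XT.lf (nat_lit 0) (nat_lit 5555540962) (nat_lit 1064) (nat_lit 3834490116) (nat_lit 1140) (nat_lit 5168664816) (nat_lit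 445) (nat_lit 5) (nat_lit 459) (nat_lit 5) (nat_lit 460) (nat_lit 5) (nat_lit 597) (nat_lit 569) (nat_lit 394)) (XT.lf (nat_lit 0) (nat_lit 11122814482) (nat_lit 1140) (nat_lit 1034467705) (nat_lit 76) (nat_lit 2554067751) (nat_lit 445) (nat_lit 5) (nat_lit 460) (nat_lit 5) (nat_lit 446) (nat_lit 5) (nat_lit 598) (nat_lit 569) (nat_lit 393)))))) (XT.nd (nat_lit 546) (nat_lit 3952) (nat_lit 0) (XT.nd (nat_lit 234) (nat_lit 1672) (nat_lit 0) (XT.nd (nat_lit 78) (nat_lit 988) (nat_lit 0) (XT.lf (nat_lit 0) (nat_lit 7153782809) (nat_lit 912) (nat_lit 5799346427) (nat_lit 988) (nat_lit 1912670837) (nat_lit 433) (nat_lit 5) (nat_lit 445) (nat_lit 5) (nat_lit 446) (nat_lit 5) (nat_lit 599) (nat_lit 569) (nat_lit 392)) (XT.nd (nat_lit 78) (nat_lit 76) (nat_lit 0) (XT.lf (nat_lit 0) (nat_lit 490183927) (nat_lit 912) (nat_lit 14335650602) (nat_lit 988) (nat_lit 197389510) (nat_lit 421) (nat_lit 5) (nat_lit 433) (nat_lit 5) (nat_lit 434) (nat_lit 5) (nat_lit 600) (nat_lit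 569) (nat_lit 391)) (XT.lf (nat_lit 0) (nat_lit 1613563400) (nat_lit 988) (nat_lit 6279049927) (nat_lit 76) (nat_lit 7289347626) (nat_lit 420) (nat_lit 5) (nat_lit 433) (nat_lit 5) (nat_lit 421) (nat_lit 5) (nat_lit 601) (nat_lit 569) (nat_lit 390)))) (XT.nd (nat_lit 156) (nat_lit 836) (nat_lit 0) (XT.nd (nat_lit 78) (nat_lit 0) (nat_lit 0) (XT.lf (nat_lit 0) (nat_lit 2158761516) (nat_lit 836) (nat_lit 1304744111) (nat_lit 912) (nat_lit 11880233101) (nat_lit 409) (nat_lit 5) (nat_lit 420) (nat_lit 5) (nat_lit 421) (nat_lit 5) (nat_lit 602) (nat_lit 569) (nat_lit 389)) (XT.lf (nat_lit 0) (nat_lit 5419530454) (nat_lit 912) (nat_lit 4701283634) (nat_lit 76) (nat_lit 5386556769) (nat_lit 409) (nat_lit 5) (nat_lit 421) (nat_lit 5) (nat_lit 410) (nat_lit 5) (nat_lit 603) (nat_lit 569) (nat_lit 388))) (XT.nd (nat_lit 78) (nat_lit 0) (nat_lit 0) (XT.lf (nat_lit 0) (nat_lit 3987522951) (nat_lit 836) (nat_lit 3453361562) (nat_lit 912) (nat_lit 8232867407) (nat_lit 398)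 (nat_lit 5) (nat_lit 409) (nat_lit 5) (nat_lit 410) (nat_lit 5) (nat_lit 604) (nat_lit 569) (nat_lit 387)) (XT.lf (nat_lit 0) (nat_lit 9547945355) (nat_lit 912) (nat_lit 2959267756) (nat_lit 76) (nat_lit 3335342354) (nat_lit 398) (nat_lit 5) (nat_lit 410) (nat_lit 5) (nat_lit 399) (nat_lit 5) (nat_lit 605) (nat_lit 569) (nat_lit 386))))) (XT.nd (nat_lit 312) (nat_lit 1444) (nat_lit 0) (XT.nd (nat_lit 156) (nat_lit 1672) (nat_lit 0) (XT.nd (nat_lit 78) (nat_lit 0) (nat_lit 0) (XT.lf (nat_lit 0) (nat_lit 5989754552) (nat_lit 836) (nat_lit 5761102151) (nat_lit 912) (nat_lit 4262804639) (nat_lit 387) (nat_lit 5) (nat_lit 398) (nat_lit 5) (nat_lit 399) (nat_lit 5) (nat_lit 606) (nat_lit 569) (nat_lit 385)) (XT.lf (nat_lit 0) (nat_lit 14017141359) (nat_lit 912) (nat_lit 1045593493) (nat_lit 76) (nat_lit 1125068621) (nat_lit 387) (nat_lit 5) (nat_lit 399) (nat_lit 5) (nat_lit 388) (nat_lit 5) (nat_lit 607) (nat_lit 569) (nat_lit 384))) (XT.nd (nat_lit 78) (nat_lit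 760) (nat_lit 0) (XT.lf (nat_lit 0) (nat_lit 47785113) (nat_lit 912) (nat_lit 8190855653) (nat_lit 76) (nat_lit 8125113248) (nat_lit 375) (nat_lit 5) (nat_lit 387) (nat_lit 5) (nat_lit 376) (nat_lit 5) (nat_lit 608) (nat_lit 569) (nat_lit 383)) (XT.lf (nat_lit 0) (nat_lit 1037883185) (nat_lit 760) (nat_lit 1249740589) (nat_lit 836) (nat_lit 14255191489) (nat_lit 365) (nat_lit 5) (nat_lit 375) (nat_lit 5) (nat_lit 376) (nat_lit 5) (nat_lit 609) (nat_lit 569) (nat_lit 382)))) (XT.nd (nat_lit 156) (nat_lit 684) (nat_lit 0) (XT.nd (nat_lit 78) (nat_lit 760) (nat_lit 0) (XT.lf (nat_lit 0) (nat_lit 4658113217) (nat_lit 836) (nat_lit 6208920221) (nat_lit 76) (nat_lit 5856707625) (nat_lit 365) (nat_lit 5) (nat_lit 376) (nat_lit 5) (nat_lit 366) (nat_lit 5) (nat_lit 610) (nat_lit 569) (nat_lit 381)) (XT.lf (nat_lit 0) (nat_lit 3299922544) (nat_lit 760) (nat_lit 3798296601) (nat_lit 836) (nat_lit 9809622495) (nat_lit 355) (nat_lit 5) (nat_lit 365) (nat_lit 5) (nat_lit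 366) (nat_lit 5) (nat_lit 611) (nat_lit 569) (nat_lit 380))) (XT.nd (nat_lit 78) (nat_lit 684) (nat_lit 0) (XT.lf (nat_lit 0) (nat_lit 9643815618) (nat_lit 836) (nat_lit 4042295898) (nat_lit 76) (nat_lit 3408379334) (nat_lit 355) (nat_lit 5) (nat_lit 366) (nat_lit 5) (nat_lit 356) (nat_lit 5) (nat_lit 612) (nat_lit 569) (nat_lit 379)) (XT.lf (nat_lit 0) (nat_lit 5756966595) (nat_lit 684) (nat_lit 6538630544) (nat_lit 760) (nat_lit 4988170824) (nat_lit 346) (nat_lit 5) (nat_lit 355) (nat_lit 5) (nat_lit 356) (nat_lit 5) (nat_lit 613) (nat_lit 569) (nat_lit 378))))))))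
noncomputable def xc171 : XT := (XT.nd (nat_lit 2262) (nat_lit 6840) (nat_lit 0) (XT.nd (nat_lit 1092) (nat_lit 4864) (nat_lit 0) (XT.nd (nat_lit 546) (nat_lit 2584) (nat_lit 0) (XT.nd (nat_lit 234) (nat_lit 1292) (nat_lit 0) (XT.nd (nat_lit 78) (nat_lit 1520) (nat_lit 0) (XT.lf (nat_lit 0) (nat_lit 15025427234) (nat_lit 760) (nat_lit 1682448507) (nat_lit 76) (nat_lit 768454991) (nat_lit 346) (nat_lit 5) (nat_lit 356) (nat_lit 5) (nat_lit 347) (nat_lit 5) (nat_lit 614) (nat_lit 569) (nat_lit 377)) (XT.nd (nat_lit 78) (nat_lit 684) (nat_lit 0) (XT.lf (nat_lit 0) (nat_lit 226836646) (nat_lit 836) (nat_lit 9254476257) (nat_lit 76) (nat_lit 8189583896) (nat_lit 335) (nat_lit 5) (nat_lit 346) (nat_lit 5) (nat_lit 336) (nat_lit 5) (nat_lit 615) (nat_lit 569) (nat_lit 376)) (XT.lf (nat_lit 0) (nat_lit 857899910) (nat_lit 684) (nat_lit 2077386823) (nat_lit 760) (nat_lit 14933544343) (nat_lit 326) (nat_lit 5) (nat_lit 335) (nat_lit 5) (nat_lit 336) (nat_lit 5) (nat_lit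 616) (nat_lit 569) (nat_lit 375)))) (XT.nd (nat_lit 156) (nat_lit 608) (nat_lit 0) (XT.nd (nat_lit 78) (nat_lit 684) (nat_lit 0) (XT.lf (nat_lit 0) (nat_lit 5789050361) (nat_lit 760) (nat_lit 6815537188) (nat_lit 76) (nat_lit 5464313943) (nat_lit 326) (nat_lit 5) (nat_lit 336) (nat_lit 5) (nat_lit 327) (nat_lit 5) (nat_lit 617) (nat_lit 569) (nat_lit 374)) (XT.lf (nat_lit 0) (nat_lit 3609434208) (nat_lit 684) (nat_lit 5120869000) (nat_lit 760) (nat_lit 9542062169) (nat_lit 317) (nat_lit 5) (nat_lit 326) (nat_lit 5) (nat_lit 327) (nat_lit 5) (nat_lit 618) (nat_lit 569) (nat_lit 373))) (XT.nd (nat_lit 78) (nat_lit 608) (nat_lit 0) (XT.lf (nat_lit 0) (nat_lit 11786028723) (nat_lit 760) (nat_lit 4168294223) (nat_lit 76) (nat_lit 2524462973) (nat_lit 317) (nat_lit 5) (nat_lit 327) (nat_lit 5) (nat_lit 318) (nat_lit 5) (nat_lit 619) (nat_lit 569) (nat_lit 372)) (XT.lf (nat_lit 0) (nat_lit 6580801427) (nat_lit 608) (nat_lit 8392134650) (nat_lit 684) (nat_lit 3714997773)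 (nat_lit 309) (nat_lit 5) (nat_lit 317) (nat_lit 5) (nat_lit 318) (nat_lit 5) (nat_lit 620) (nat_lit 569) (nat_lit 371))))) (XT.nd (nat_lit 234) (nat_lit 1216) (nat_lit 0) (XT.nd (nat_lit 78) (nat_lit 1368) (nat_lit 0) (XT.lf (nat_lit 0) (nat_lit 17593603437) (nat_lit 608) (nat_lit 651455330) (nat_lit 684) (nat_lit 655776748) (nat_lit 309) (nat_lit 5) (nat_lit 317) (nat_lit 5) (nat_lit 318) (nat_lit 5) (nat_lit 621) (nat_lit 569) (nat_lit 370)) (XT.nd (nat_lit 78) (nat_lit 608) (nat_lit 0) (XT.lf (nat_lit 0) (nat_lit 2537164635) (nat_lit 760) (nat_lit 9350420574) (nat_lit 76) (nat_lit 7227993071) (nat_lit 299) (nat_lit 5) (nat_lit 309) (nat_lit 5) (nat_lit 300) (nat_lit 5) (nat_lit 622) (nat_lit 569) (nat_lit 369)) (XT.lf (nat_lit 0) (nat_lit 1748715683) (nat_lit 608) (nat_lit 4054632856) (nat_lit 684) (nat_lit 13530817678) (nat_lit 291) (nat_lit 5) (nat_lit 299) (nat_lit 5) (nat_lit 300) (nat_lit 5) (nat_lit 623) (nat_lit 569) (nat_lit 368)))) (XT.nd (nat_lit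 156) (nat_lit 608) (nat_lit 0) (XT.nd (nat_lit 78) (nat_lit 608) (nat_lit 0) (XT.lf (nat_lit 0) (nat_lit 9217289033) (nat_lit 684) (nat_lit 6393096425) (nat_lit 76) (nat_lit 3945092092) (nat_lit 291) (nat_lit 5) (nat_lit 300) (nat_lit 5) (nat_lit 292) (nat_lit 5) (nat_lit 624) (nat_lit 569) (nat_lit 367)) (XT.lf (nat_lit 0) (nat_lit 5054858581) (nat_lit 608) (nat_lit 7698166847) (nat_lit 684) (nat_lit 7027119629) (nat_lit 283) (nat_lit 5) (nat_lit 291) (nat_lit 5) (nat_lit 292) (nat_lit 5) (nat_lit 625) (nat_lit 569) (nat_lit 366))) (XT.nd (nat_lit 78) (nat_lit 608) (nat_lit 0) (XT.lf (nat_lit 0) (nat_lit 16398985594) (nat_lit 684) (nat_lit 3200467353) (nat_lit 76) (nat_lit 409063067) (nat_lit 283) (nat_lit 5) (nat_lit 292) (nat_lit 5) (nat_lit 284) (nat_lit 5) (nat_lit 626) (nat_lit 569) (nat_lit 365)) (XT.lf (nat_lit 0) (nat_lit 8609178876) (nat_lit 608) (nat_lit 11609589997) (nat_lit 684) (nat_lit 20667719) (nat_lit 275) (nat_lit 5) (nat_lit 283) (nat_lit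 5) (nat_lit 284) (nat_lit 5) (nat_lit 627) (nat_lit 569) (nat_lit 364)))))) (XT.nd (nat_lit 546) (nat_lit 2508) (nat_lit 0) (XT.nd (nat_lit 234) (nat_lit 1140) (nat_lit 0) (XT.nd (nat_lit 78) (nat_lit 532) (nat_lit 0) (XT.lf (nat_lit 0) (nat_lit 195009148) (nat_lit 608) (nat_lit 3414164290) (nat_lit 684) (nat_lit 16864990946) (nat_lit 266) (nat_lit 5) (nat_lit 274) (nat_lit 5) (nat_lit 275) (nat_lit 5) (nat_lit 628) (nat_lit 569) (nat_lit 363)) (XT.nd (nat_lit 78) (nat_lit 532) (nat_lit 0) (XT.lf (nat_lit 0) (nat_lit 7416115509) (nat_lit 684) (nat_lit 8338039164) (nat_lit 76) (nat_lit 4957333971) (nat_lit 266) (nat_lit 5) (nat_lit 275) (nat_lit 5) (nat_lit 267) (nat_lit 5) (nat_lit 629) (nat_lit 569) (nat_lit 362)) (XT.lf (nat_lit 0) (nat_lit 3862410927) (nat_lit 532) (nat_lit 7478699895) (nat_lit 608) (nat_lit 9611610536) (nat_lit 259) (nat_lit 5) (nat_lit 266) (nat_lit 5) (nat_lit 267) (nat_lit 5) (nat_lit 630) (nat_lit 569) (nat_lit 361)))) (XT.nd (nat_lit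 156) (nat_lit 608) (nat_lit 0) (XT.nd (nat_lit 78) (nat_lit 532) (nat_lit 0) (XT.lf (nat_lit 0) (nat_lit 15401456663) (nat_lit 608) (nat_lit 4791971025) (nat_lit 76) (nat_lit 1004214278) (nat_lit 259) (nat_lit 5) (nat_lit 267) (nat_lit 5) (nat_lit 260) (nat_lit 5) (nat_lit 631) (nat_lit 569) (nat_lit 360)) (XT.lf (nat_lit 0) (nat_lit 7797636044) (nat_lit 532) (nat_lit 11839920559) (nat_lit 608) (nat_lit 1808013685) (nat_lit 252) (nat_lit 5) (nat_lit 259) (nat_lit 5) (nat_lit 260) (nat_lit 5) (nat_lit 632) (nat_lit 569) (nat_lit 359))) (XT.nd (nat_lit 78) (nat_lit 532) (nat_lit 0) (XT.lf (nat_lit 0) (nat_lit 2257068656) (nat_lit 608) (nat_lit 1016172432) (nat_lit 76) (nat_lit 18424387138) (nat_lit 251) (nat_lit 5) (nat_lit 259) (nat_lit 5) (nat_lit 252) (nat_lit 5) (nat_lit 633) (nat_lit 569) (nat_lit 358)) (XT.lf (nat_lit 0) (nat_lit 6487810406) (nat_lit 608) (nat_lit 9982703721) (nat_lit 76) (nat_lit 5481803065) (nat_lit 244) (nat_lit 5) (nat_lit 252) (nat_lit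 5) (nat_lit 245) (nat_lit 5) (nat_lit 634) (nat_lit 569) (nat_lit 357))))) (XT.nd (nat_lit 312) (nat_lit 1444) (nat_lit 0) (XT.nd (nat_lit 156) (nat_lit 532) (nat_lit 0) (XT.nd (nat_lit 78) (nat_lit 0) (nat_lit 0) (XT.lf (nat_lit 0) (nat_lit 3027544408) (nat_lit 532) (nat_lit 7818395218) (nat_lit 608) (nat_lit 11365305088) (nat_lit 237) (nat_lit 5) (nat_lit 244) (nat_lit 5) (nat_lit 245) (nat_lit 5) (nat_lit 635) (nat_lit 569) (nat_lit 356)) (XT.lf (nat_lit 0) (nat_lit 15359821567) (nat_lit 608) (nat_lit 6055088130) (nat_lit 76) (nat_lit 1059069510) (nat_lit 237) (nat_lit 5) (nat_lit 245) (nat_lit 5) (nat_lit 238) (nat_lit 5) (nat_lit 636) (nat_lit 569) (nat_lit 355))) (XT.nd (nat_lit 78) (nat_lit 76) (nat_lit 0) (XT.lf (nat_lit 0) (nat_lit 7373759794) (nat_lit 456) (nat_lit 12684600328) (nat_lit 532) (nat_lit 2681720907) (nat_lit 231) (nat_lit 5) (nat_lit 237) (nat_lit 5) (nat_lit 238) (nat_lit 5) (nat_lit 637) (nat_lit 569) (nat_lit 354)) (XT.lf (nat_lit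 0) (nat_lit 1850890839) (nat_lit 532) (nat_lit 1876930134) (nat_lit 76) (nat_lit 19282732280) (nat_lit 230) (nat_lit 5) (nat_lit 237) (nat_lit 5) (nat_lit 231) (nat_lit 5) (nat_lit 638) (nat_lit 569) (nat_lit 353)))) (XT.nd (nat_lit 156) (nat_lit 456) (nat_lit 0) (XT.nd (nat_lit 78) (nat_lit 456) (nat_lit 0) (XT.lf (nat_lit 0) (nat_lit 6546874108) (nat_lit 608) (nat_lit 11305436540) (nat_lit 76) (nat_lit 5431597407) (nat_lit 223) (nat_lit 5) (nat_lit 231) (nat_lit 5) (nat_lit 224) (nat_lit 5) (nat_lit 639) (nat_lit 569) (nat_lit 352)) (XT.lf (nat_lit 0) (nat_lit 2575767572) (nat_lit 456) (nat_lit 8809992004) (nat_lit 532) (nat_lit 12175990927) (nat_lit 217) (nat_lit 5) (nat_lit 223) (nat_lit 5) (nat_lit 224) (nat_lit 5) (nat_lit 640) (nat_lit 569) (nat_lit 351))) (XT.nd (nat_lit 78) (nat_lit 456) (nat_lit 0) (XT.lf (nat_lit 0) (nat_lit 16395406202) (nat_lit 532) (nat_lit 6966202537) (nat_lit 76) (nat_lit 482061591) (nat_lit 217) (nat_lit 5) (nat_lit 224) (nat_lit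 5) (nat_lit 218) (nat_lit 5) (nat_lit 641) (nat_lit 569) (nat_lit 350)) (XT.lf (nat_lit 0) (nat_lit 7365137023) (nat_lit 456) (nat_lit 14241304768) (nat_lit 532) (nat_lit 2522763036) (nat_lit 211) (nat_lit 5) (nat_lit 217) (nat_lit 5) (nat_lit 218) (nat_lit 5) (nat_lit 642) (nat_lit 569) (nat_lit 349))))))) (XT.nd (nat_lit 1170) (nat_lit 2888) (nat_lit 0) (XT.nd (nat_lit 546) (nat_lit 2052) (nat_lit 0) (XT.nd (nat_lit 234) (nat_lit 912) (nat_lit 0) (XT.nd (nat_lit 78) (nat_lit 912) (nat_lit 0) (XT.lf (nat_lit 0) (nat_lit 2510551534) (nat_lit 532) (nat_lit 2365638884) (nat_lit 76) (nat_lit 19543092832) (nat_lit 210) (nat_lit 5) (nat_lit 217) (nat_lit 5) (nat_lit 211) (nat_lit 5) (nat_lit 643) (nat_lit 569) (nat_lit 348)) (XT.nd (nat_lit 78) (nat_lit 456) (nat_lit 0) (XT.lf (nat_lit 0) (nat_lit 7717828230) (nat_lit 532) (nat_lit 12283795974) (nat_lit 76) (nat_lit 4711064200) (nat_lit 204) (nat_lit 5) (nat_lit 211) (nat_lit 5) (nat_lit 205) (nat_lit 5) (nat_lit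 644) (nat_lit 569) (nat_lit 347)) (XT.lf (nat_lit 0) (nat_lit 2533563610) (nat_lit 456) (nat_lit 10555593657) (nat_lit 532) (nat_lit 11921606436) (nat_lit 198) (nat_lit 5) (nat_lit 204) (nat_lit 5) (nat_lit 205) (nat_lit 5) (nat_lit 645) (nat_lit 569) (nat_lit 346)))) (XT.nd (nat_lit 156) (nat_lit 532) (nat_lit 0) (XT.nd (nat_lit 78) (nat_lit 380) (nat_lit 0) (XT.lf (nat_lit 0) (nat_lit 17806822741) (nat_lit 456) (nat_lit 838754892) (nat_lit 532) (nat_lit 6667669757) (nat_lit 198) (nat_lit 5) (nat_lit 204) (nat_lit 5) (nat_lit 205) (nat_lit 5) (nat_lit 646) (nat_lit 569) (nat_lit 345)) (XT.lf (nat_lit 0) (nat_lit 7800263002) (nat_lit 380) (nat_lit 16617725568) (nat_lit 456) (nat_lit 1201695110) (nat_lit 193) (nat_lit 5) (nat_lit 198) (nat_lit 5) (nat_lit 199) (nat_lit 5) (nat_lit 647) (nat_lit 569) (nat_lit 344))) (XT.nd (nat_lit 78) (nat_lit 456) (nat_lit 0) (XT.lf (nat_lit 0) (nat_lit 4367828811) (nat_lit 456) (nat_lit 2457607656) (nat_lit 76) (nat_lit 19105212662)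 (nat_lit 192) (nat_lit 5) (nat_lit 198) (nat_lit 5) (nat_lit 193) (nat_lit 5) (nat_lit 648) (nat_lit 569) (nat_lit 343)) (XT.lf (nat_lit 0) (nat_lit 10136057229) (nat_lit 532) (nat_lit 12895099317) (nat_lit 76) (nat_lit 3214450546) (nat_lit 186) (nat_lit 5) (nat_lit 193) (nat_lit 5) (nat_lit 187) (nat_lit 5) (nat_lit 649) (nat_lit 569) (nat_lit 342))))) (XT.nd (nat_lit 312) (nat_lit 1216) (nat_lit 0) (XT.nd (nat_lit 156) (nat_lit 456) (nat_lit 0) (XT.nd (nat_lit 78) (nat_lit 0) (nat_lit 0) (XT.lf (nat_lit 0) (nat_lit 2927838975) (nat_lit 380) (nat_lit 13168076620) (nat_lit 456) (nat_lit 10469423472) (nat_lit 181) (nat_lit 5) (nat_lit 186) (nat_lit 5) (nat_lit 187) (nat_lit 5) (nat_lit 650) (nat_lit 569) (nat_lit 341)) (XT.lf (nat_lit 0) (nat_lit 19235263293) (nat_lit 380) (nat_lit 3021739220) (nat_lit 456) (nat_lit 4632822695) (nat_lit 181) (nat_lit 5) (nat_lit 186) (nat_lit 5) (nat_lit 187) (nat_lit 5) (nat_lit 651) (nat_lit 569) (nat_lit 340))) (XT.nd (nat_lit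 78) (nat_lit 0) (nat_lit 0) (XT.lf (nat_lit 0) (nat_lit 1403536676) (nat_lit 456) (nat_lit 18520085496) (nat_lit 76) (nat_lit 7295000673) (nat_lit 175) (nat_lit 5) (nat_lit 181) (nat_lit 5) (nat_lit 176) (nat_lit 5) (nat_lit 652) (nat_lit 569) (nat_lit 339)) (XT.lf (nat_lit 0) (nat_lit 7565952222) (nat_lit 456) (nat_lit 2128268655) (nat_lit 76) (nat_lit 17857815995) (nat_lit 175) (nat_lit 5) (nat_lit 181) (nat_lit 5) (nat_lit 176) (nat_lit 5) (nat_lit 653) (nat_lit 569) (nat_lit 338)))) (XT.nd (nat_lit 156) (nat_lit 456) (nat_lit 0) (XT.nd (nat_lit 78) (nat_lit 380) (nat_lit 0) (XT.lf (nat_lit 0) (nat_lit 13948665655) (nat_lit 456) (nat_lit 13117095134) (nat_lit 76) (nat_lit 824417545) (nat_lit 170) (nat_lit 5) (nat_lit 176) (nat_lit 5) (nat_lit 171) (nat_lit 5) (nat_lit 654) (nat_lit 569) (nat_lit 337)) (XT.lf (nat_lit 0) (nat_lit 3785242776) (nat_lit 380) (nat_lit 16772644217) (nat_lit 456) (nat_lit 7675218701) (nat_lit 165) (nat_lit 5) (nat_lit 170) (nat_lit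 5) (nat_lit 171) (nat_lit 5) (nat_lit 655) (nat_lit 569) (nat_lit 336))) (XT.nd (nat_lit 78) (nat_lit 456) (nat_lit 0) (XT.lf (nat_lit 0) (nat_lit 21196855690) (nat_lit 380) (nat_lit 6186202079) (nat_lit 456) (nat_lit 1198158670) (nat_lit 165) (nat_lit 5) (nat_lit 170) (nat_lit 5) (nat_lit 171) (nat_lit 5) (nat_lit 656) (nat_lit 569) (nat_lit 335)) (XT.lf (nat_lit 0) (nat_lit 5429554245) (nat_lit 456) (nat_lit 18853549879) (nat_lit 76) (nat_lit 4650642217) (nat_lit 159) (nat_lit 5) (nat_lit 165) (nat_lit 5) (nat_lit 160) (nat_lit 5) (nat_lit 657) (nat_lit 569) (nat_lit 334)))))) (XT.nd (nat_lit 546) (nat_lit 1444) (nat_lit 0) (XT.nd (nat_lit 234) (nat_lit 760) (nat_lit 0) (XT.nd (nat_lit 78) (nat_lit 684) (nat_lit 0) (XT.lf (nat_lit 0) (nat_lit 12260466016) (nat_lit 456) (nat_lit 1353955297) (nat_lit 76) (nat_lit 15677013504) (nat_lit 159) (nat_lit 5) (nat_lit 165) (nat_lit 5) (nat_lit 160) (nat_lit 5) (nat_lit 658) (nat_lit 569) (nat_lit 333)) (XT.nd (nat_lit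 78) (nat_lit 304) (nat_lit 0) (XT.lf (nat_lit 0) (nat_lit 16708362323) (nat_lit 380) (nat_lit 2624020967) (nat_lit 456) (nat_lit 10321806155) (nat_lit 154) (nat_lit 5) (nat_lit 159) (nat_lit 5) (nat_lit 160) (nat_lit 5) (nat_lit 659) (nat_lit 569) (nat_lit 332)) (XT.lf (nat_lit 0) (nat_lit 5131326758) (nat_lit 304) (nat_lit 21508550803) (nat_lit 380) (nat_lit 3382438958) (nat_lit 150) (nat_lit 5) (nat_lit 154) (nat_lit 5) (nat_lit 155) (nat_lit 5) (nat_lit 660) (nat_lit 569) (nat_lit 331)))) (XT.nd (nat_lit 156) (nat_lit 304) (nat_lit 0) (XT.nd (nat_lit 78) (nat_lit 380) (nat_lit 0) (XT.lf (nat_lit 0) (nat_lit 3748012931) (nat_lit 380) (nat_lit 6698946806) (nat_lit 76) (nat_lit 19948351271) (nat_lit 149) (nat_lit 5) (nat_lit 154) (nat_lit 5) (nat_lit 150) (nat_lit 5) (nat_lit 661) (nat_lit 569) (nat_lit 330)) (XT.lf (nat_lit 0) (nat_lit 11055738787) (nat_lit 456) (nat_lit 18794500369) (nat_lit 76) (nat_lit 923480075) (nat_lit 144) (nat_lit 5) (nat_lit 150)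 (nat_lit 5) (nat_lit 145) (nat_lit 5) (nat_lit 662) (nat_lit 569) (nat_lit 329))) (XT.nd (nat_lit 78) (nat_lit 304) (nat_lit 0) (XT.lf (nat_lit 0) (nat_lit 18620098343) (nat_lit 456) (nat_lit 112859638) (nat_lit 76) (nat_lit 12424528170) (nat_lit 144) (nat_lit 5) (nat_lit 150) (nat_lit 5) (nat_lit 145) (nat_lit 5) (nat_lit 663) (nat_lit 569) (nat_lit 328)) (XT.lf (nat_lit 0) (nat_lit 19187856238) (nat_lit 304) (nat_lit 7268589585) (nat_lit 380) (nat_lit 5090068684) (nat_lit 140) (nat_lit 5) (nat_lit 144) (nat_lit 5) (nat_lit 145) (nat_lit 5) (nat_lit 664) (nat_lit 569) (nat_lit 327))))) (XT.nd (nat_lit 312) (nat_lit 380) (nat_lit 0) (XT.nd (nat_lit 156) (nat_lit 608) (nat_lit 0) (XT.nd (nat_lit 78) (nat_lit 0) (nat_lit 0) (XT.lf (nat_lit 0) (nat_lit 2544812513) (nat_lit 456) (nat_lit 24969135130) (nat_lit 76) (nat_lit 4427620763) (nat_lit 134) (nat_lit 5) (nat_lit 140) (nat_lit 5) (nat_lit 135) (nat_lit 5) (nat_lit 665) (nat_lit 569) (nat_lit 326)) (XT.lf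 (nat_lit 0) (nat_lit 10392069115) (nat_lit 456) (nat_lit 5573828989) (nat_lit 76) (nat_lit 16375395803) (nat_lit 134) (nat_lit 5) (nat_lit 140) (nat_lit 5) (nat_lit 135) (nat_lit 5) (nat_lit 666) (nat_lit 569) (nat_lit 325))) (XT.nd (nat_lit 78) (nat_lit 304) (nat_lit 0) (XT.lf (nat_lit 0) (nat_lit 14392018415) (nat_lit 304) (nat_lit 4093921832) (nat_lit 380) (nat_lit 14261280387) (nat_lit 130) (nat_lit 5) (nat_lit 134) (nat_lit 5) (nat_lit 135) (nat_lit 5) (nat_lit 667) (nat_lit 569) (nat_lit 324)) (XT.lf (nat_lit 0) (nat_lit 1635238295) (nat_lit 304) (nat_lit 25203006687) (nat_lit 380) (nat_lit 6321089894) (nat_lit 126) (nat_lit 5) (nat_lit 130) (nat_lit 5) (nat_lit 131) (nat_lit 5) (nat_lit 668) (nat_lit 569) (nat_lit 323)))) (XT.nd (nat_lit 156) (nat_lit 0) (nat_lit 0) (XT.nd (nat_lit 78) (nat_lit 304) (nat_lit 0) (XT.lf (nat_lit 0) (nat_lit 1901943194) (nat_lit 380) (nat_lit 11348549517) (nat_lit 76) (nat_lit 20326020798) (nat_lit 125) (nat_lit 5) (nat_lit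 130) (nat_lit 5) (nat_lit 126) (nat_lit 5) (nat_lit 669) (nat_lit 569) (nat_lit 322)) (XT.lf (nat_lit 0) (nat_lit 9304652017) (nat_lit 304) (nat_lit 956965518) (nat_lit 380) (nat_lit 23738446228) (nat_lit 121) (nat_lit 5) (nat_lit 125) (nat_lit 5) (nat_lit 126) (nat_lit 5) (nat_lit 670) (nat_lit 569) (nat_lit 321))) (XT.nd (nat_lit 73320) (nat_lit 0) (nat_lit 30248) (XT.lf (nat_lit 0) (nat_lit 18936692023) (nat_lit 380) (nat_lit 3987562022) (nat_lit 76) (nat_lit 11504866941) (nat_lit 121) (nat_lit 5) (nat_lit 126) (nat_lit 5) (nat_lit 122) (nat_lit 5) (nat_lit 671) (nat_lit 569) (nat_lit 320)) (XT.lf (nat_lit 0) (nat_lit 2974390492) (nat_lit 1748) (nat_lit 1337831887) (nat_lit 1748) (nat_lit 1337831887) (nat_lit 519) (nat_lit 3) (nat_lit 542) (nat_lit 3) (nat_lit 542) (nat_lit 5) (nat_lit 570) (nat_lit 570) (nat_lit 420))))))))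
noncomputable def xc172 : XT := (XT.nd (nat_lit 2262) (nat_lit 12996) (nat_lit 0) (XT.nd (nat_lit 1092) (nat_lit 4180) (nat_lit 0) (XT.nd (nat_lit 546) (nat_lit 1444) (nat_lit 0) (XT.nd (nat_lit 234) (nat_lit 0) (nat_lit 152) (XT.nd (nat_lit 78) (nat_lit 0) (nat_lit 76) (XT.lf (nat_lit 76) (nat_lit 2969641383) (nat_lit 0) (nat_lit 3597670304) (nat_lit 1748) (nat_lit 4834582331) (nat_lit 520) (nat_lit 5) (nat_lit 519) (nat_lit 3) (nat_lit 542) (nat_lit 5) (nat_lit 571) (nat_lit 570) (nat_lit 419)) (XT.nd (nat_lit 78) (nat_lit 0) (nat_lit 0) (XT.lf (nat_lit 0) (nat_lit 7212057526) (nat_lit 1672) (nat_lit 2758931310) (nat_lit 1748) (nat_lit 1534450397) (nat_lit 520) (nat_lit 5) (nat_lit 542) (nat_lit 5) (nat_lit 543) (nat_lit 5) (nat_lit 572) (nat_lit 570) (nat_lit 418)) (XT.lf (nat_lit 76) (nat_lit 3036356279) (nat_lit 0) (nat_lit 4862998404) (nat_lit 1748) (nat_lit 3711108436) (nat_lit 521) (nat_lit 5) (nat_lit 520) (nat_lit 5) (nat_lit 543) (nat_lit 5) (nat_lit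 573) (nat_lit 570) (nat_lit 417)))) (XT.nd (nat_lit 156) (nat_lit 0) (nat_lit 0) (XT.nd (nat_lit 78) (nat_lit 0) (nat_lit 0) (XT.lf (nat_lit 0) (nat_lit 8607669142) (nat_lit 1672) (nat_lit 2742408055) (nat_lit 1748) (nat_lit 367365732) (nat_lit 521) (nat_lit 5) (nat_lit 543) (nat_lit 5) (nat_lit 544) (nat_lit 5) (nat_lit 574) (nat_lit 570) (nat_lit 416)) (XT.lf (nat_lit 76) (nat_lit 3208185580) (nat_lit 0) (nat_lit 6161647237) (nat_lit 1748) (nat_lit 2455936721) (nat_lit 522) (nat_lit 5) (nat_lit 521) (nat_lit 5) (nat_lit 544) (nat_lit 5) (nat_lit 575) (nat_lit 570) (nat_lit 415))) (XT.nd (nat_lit 78) (nat_lit 0) (nat_lit 76) (XT.lf (nat_lit 76) (nat_lit 9307405447) (nat_lit 0) (nat_lit 845098010) (nat_lit 1748) (nat_lit 1783654788) (nat_lit 522) (nat_lit 5) (nat_lit 521) (nat_lit 5) (nat_lit 544) (nat_lit 5) (nat_lit 576) (nat_lit 570) (nat_lit 414)) (XT.lf (nat_lit 76) (nat_lit 3488175586) (nat_lit 0) (nat_lit 7502175315) (nat_lit 1748) (nat_lit 1057614184)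 (nat_lit 523) (nat_lit 5) (nat_lit 522) (nat_lit 5) (nat_lit 545) (nat_lit 5) (nat_lit 577) (nat_lit 570) (nat_lit 413))))) (XT.nd (nat_lit 234) (nat_lit 0) (nat_lit 76) (XT.nd (nat_lit 78) (nat_lit 1672) (nat_lit 0) (XT.lf (nat_lit 76) (nat_lit 9749750167) (nat_lit 0) (nat_lit 2105761324) (nat_lit 1748) (nat_lit 306286256) (nat_lit 523) (nat_lit 5) (nat_lit 522) (nat_lit 5) (nat_lit 545) (nat_lit 5) (nat_lit 578) (nat_lit 570) (nat_lit 412)) (XT.nd (nat_lit 78) (nat_lit 0) (nat_lit 0) (XT.lf (nat_lit 0) (nat_lit 489155645) (nat_lit 1748) (nat_lit 8400747253) (nat_lit 1824) (nat_lit 3387242774) (nat_lit 500) (nat_lit 5) (nat_lit 523) (nat_lit 5) (nat_lit 524) (nat_lit 5) (nat_lit 579) (nat_lit 570) (nat_lit 411)) (XT.lf (nat_lit 0) (nat_lit 1314394340) (nat_lit 1748) (nat_lit 2095146092) (nat_lit 1824) (nat_lit 8984860614) (nat_lit 500) (nat_lit 5) (nat_lit 523) (nat_lit 5) (nat_lit 524) (nat_lit 5) (nat_lit 580) (nat_lit 570) (nat_lit 410)))) (XT.nd (nat_lit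 156) (nat_lit 0) (nat_lit 76) (XT.nd (nat_lit 78) (nat_lit 0) (nat_lit 0) (XT.lf (nat_lit 0) (nat_lit 2186976855) (nat_lit 1748) (nat_lit 8141693858) (nat_lit 1824) (nat_lit 2184714779) (nat_lit 501) (nat_lit 5) (nat_lit 524) (nat_lit 5) (nat_lit 525) (nat_lit 5) (nat_lit 581) (nat_lit 570) (nat_lit 409)) (XT.lf (nat_lit 0) (nat_lit 3101942684) (nat_lit 1748) (nat_lit 1668830779) (nat_lit 1824) (nat_lit 7863478266) (nat_lit 501) (nat_lit 5) (nat_lit 524) (nat_lit 5) (nat_lit 525) (nat_lit 5) (nat_lit 582) (nat_lit 570) (nat_lit 408))) (XT.nd (nat_lit 78) (nat_lit 0) (nat_lit 0) (XT.lf (nat_lit 0) (nat_lit 4062115673) (nat_lit 1748) (nat_lit 7772041085) (nat_lit 1824) (nat_lit 922841094) (nat_lit 502) (nat_lit 5) (nat_lit 525) (nat_lit 5) (nat_lit 526) (nat_lit 5) (nat_lit 583) (nat_lit 570) (nat_lit 407)) (XT.lf (nat_lit 0) (nat_lit 5072990414) (nat_lit 1748) (nat_lit 1127202882) (nat_lit 1824) (nat_lit 6681376338) (nat_lit 502) (nat_lit 5) (nat_lit 525) (nat_lit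 5) (nat_lit 526) (nat_lit 5) (nat_lit 584) (nat_lit 570) (nat_lit 406)))))) (XT.nd (nat_lit 546) (nat_lit 4332) (nat_lit 0) (XT.nd (nat_lit 234) (nat_lit 0) (nat_lit 152) (XT.nd (nat_lit 78) (nat_lit 0) (nat_lit 76) (XT.lf (nat_lit 76) (nat_lit 5717676542) (nat_lit 0) (nat_lit 412382851) (nat_lit 1824) (nat_lit 6878054616) (nat_lit 503) (nat_lit 5) (nat_lit 502) (nat_lit 5) (nat_lit 526) (nat_lit 5) (nat_lit 585) (nat_lit 570) (nat_lit 405)) (XT.nd (nat_lit 78) (nat_lit 0) (nat_lit 0) (XT.lf (nat_lit 0) (nat_lit 7240578817) (nat_lit 1748) (nat_lit 466040622) (nat_lit 1824) (nat_lit 5429924327) (nat_lit 503) (nat_lit 5) (nat_lit 526) (nat_lit 5) (nat_lit 527) (nat_lit 5) (nat_lit 586) (nat_lit 570) (nat_lit 404)) (XT.lf (nat_lit 76) (nat_lit 6570409543) (nat_lit 0) (nat_lit 1837546849) (nat_lit 1824) (nat_lit 4858893436) (nat_lit 504) (nat_lit 5) (nat_lit 503) (nat_lit 5) (nat_lit 527) (nat_lit 5) (nat_lit 587) (nat_lit 570) (nat_lit 403)))) (XT.nd (nat_lit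 156) (nat_lit 0) (nat_lit 76) (XT.nd (nat_lit 78) (nat_lit 0) (nat_lit 0) (XT.lf (nat_lit 76) (nat_lit 323436193) (nat_lit 0) (nat_lit 9296865886) (nat_lit 1824) (nat_lit 3779028173) (nat_lit 505) (nat_lit 5) (nat_lit 504) (nat_lit 5) (nat_lit 528) (nat_lit 5) (nat_lit 588) (nat_lit 570) (nat_lit 402)) (XT.lf (nat_lit 76) (nat_lit 7554150180) (nat_lit 0) (nat_lit 3349360518) (nat_lit 1824) (nat_lit 2630017902) (nat_lit 505) (nat_lit 5) (nat_lit 504) (nat_lit 5) (nat_lit 528) (nat_lit 5) (nat_lit 589) (nat_lit 570) (nat_lit 401))) (XT.nd (nat_lit 78) (nat_lit 0) (nat_lit 0) (XT.lf (nat_lit 76) (nat_lit 1249752768) (nat_lit 0) (nat_lit 10978195830) (nat_lit 1824) (nat_lit 1442151641) (nat_lit 506) (nat_lit 5) (nat_lit 505) (nat_lit 5) (nat_lit 529) (nat_lit 5) (nat_lit 590) (nat_lit 570) (nat_lit 400)) (XT.lf (nat_lit 76) (nat_lit 8674031402) (nat_lit 0) (nat_lit 4956961395) (nat_lit 1824) (nat_lit 177368777) (nat_lit 506) (nat_lit 5) (nat_lit 505) (nat_lit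 5) (nat_lit 529) (nat_lit 5) (nat_lit 591) (nat_lit 570) (nat_lit 399))))) (XT.nd (nat_lit 312) (nat_lit 2812) (nat_lit 0) (XT.nd (nat_lit 156) (nat_lit 0) (nat_lit 0) (XT.nd (nat_lit 78) (nat_lit 0) (nat_lit 0) (XT.lf (nat_lit 0) (nat_lit 1111071038) (nat_lit 1824) (nat_lit 11644468059) (nat_lit 1900) (nat_lit 1193446045) (nat_lit 482) (nat_lit 5) (nat_lit 506) (nat_lit 5) (nat_lit 507) (nat_lit 5) (nat_lit 592) (nat_lit 570) (nat_lit 398)) (XT.lf (nat_lit 0) (nat_lit 2480660045) (nat_lit 1824) (nat_lit 4172365775) (nat_lit 1900) (nat_lit 7438217384) (nat_lit 482) (nat_lit 5) (nat_lit 506) (nat_lit 5) (nat_lit 507) (nat_lit 5) (nat_lit 593) (nat_lit 570) (nat_lit 397))) (XT.nd (nat_lit 78) (nat_lit 0) (nat_lit 76) (XT.lf (nat_lit 76) (nat_lit 3486928088) (nat_lit 0) (nat_lit 403786853) (nat_lit 1900) (nat_lit 10345370571) (nat_lit 483) (nat_lit 5) (nat_lit 482) (nat_lit 5) (nat_lit 507) (nat_lit 5) (nat_lit 594) (nat_lit 570) (nat_lit 396)) (XT.lf (nat_lit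 0) (nat_lit 5386499633) (nat_lit 1824) (nat_lit 3074377320) (nat_lit 76) (nat_lit 5921797693) (nat_lit 483) (nat_lit 5) (nat_lit 507) (nat_lit 5) (nat_lit 484) (nat_lit 5) (nat_lit 595) (nat_lit 570) (nat_lit 395)))) (XT.nd (nat_lit 156) (nat_lit 1064) (nat_lit 0) (XT.nd (nat_lit 78) (nat_lit 0) (nat_lit 0) (XT.lf (nat_lit 0) (nat_lit 4806290529) (nat_lit 1824) (nat_lit 2130554365) (nat_lit 1900) (nat_lit 7594858318) (nat_lit 459) (nat_lit 5) (nat_lit 483) (nat_lit 5) (nat_lit 484) (nat_lit 5) (nat_lit 596) (nat_lit 570) (nat_lit 394)) (XT.lf (nat_lit 0) (nat_lit 8557956627) (nat_lit 1900) (nat_lit 1833387385) (nat_lit 76) (nat_lit 4291573678) (nat_lit 459) (nat_lit 5) (nat_lit 484) (nat_lit 5) (nat_lit 460) (nat_lit 5) (nat_lit 597) (nat_lit 570) (nat_lit 393))) (XT.nd (nat_lit 78) (nat_lit 0) (nat_lit 0) (XT.lf (nat_lit 0) (nat_lit 6276741279) (nat_lit 1064) (nat_lit 3980692650) (nat_lit 1140) (nat_lit 4578804186) (nat_lit 445) (nat_lit 5) (nat_lit 459)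 (nat_lit 5) (nat_lit 460) (nat_lit 5) (nat_lit 598) (nat_lit 570) (nat_lit 392)) (XT.lf (nat_lit 0) (nat_lit 12011104995) (nat_lit 1140) (nat_lit 443223219) (nat_lit 76) (nat_lit 2537893165) (nat_lit 445) (nat_lit 5) (nat_lit 460) (nat_lit 5) (nat_lit 446) (nat_lit 5) (nat_lit 599) (nat_lit 570) (nat_lit 391))))))) (XT.nd (nat_lit 1092) (nat_lit 6156) (nat_lit 0) (XT.nd (nat_lit 546) (nat_lit 3268) (nat_lit 0) (XT.nd (nat_lit 234) (nat_lit 1672) (nat_lit 0) (XT.nd (nat_lit 78) (nat_lit 988) (nat_lit 0) (XT.lf (nat_lit 0) (nat_lit 7904766424) (nat_lit 912) (nat_lit 5964150987) (nat_lit 988) (nat_lit 1281026039) (nat_lit 433) (nat_lit 5) (nat_lit 445) (nat_lit 5) (nat_lit 446) (nat_lit 5) (nat_lit 600) (nat_lit 570) (nat_lit 390)) (XT.nd (nat_lit 78) (nat_lit 0) (nat_lit 0) (XT.lf (nat_lit 0) (nat_lit 453174391) (nat_lit 988) (nat_lit 14196384645) (nat_lit 76) (nat_lit 661081573) (nat_lit 420) (nat_lit 5) (nat_lit 433) (nat_lit 5) (nat_lit 421) (nat_lit 5) (nat_lit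 601) (nat_lit 570) (nat_lit 389)) (XT.lf (nat_lit 0) (nat_lit 2284923998) (nat_lit 988) (nat_lit 5790896558) (nat_lit 76) (nat_lit 7396961915) (nat_lit 420) (nat_lit 5) (nat_lit 433) (nat_lit 5) (nat_lit 421) (nat_lit 5) (nat_lit 602) (nat_lit 570) (nat_lit 388)))) (XT.nd (nat_lit 156) (nat_lit 836) (nat_lit 0) (XT.nd (nat_lit 78) (nat_lit 0) (nat_lit 0) (XT.lf (nat_lit 0) (nat_lit 2811633387) (nat_lit 836) (nat_lit 1351659074) (nat_lit 912) (nat_lit 11474675497) (nat_lit 409) (nat_lit 5) (nat_lit 420) (nat_lit 5) (nat_lit 421) (nat_lit 5) (nat_lit 603) (nat_lit 570) (nat_lit 387)) (XT.lf (nat_lit 0) (nat_lit 6145942185) (nat_lit 912) (nat_lit 4185037383) (nat_lit 76) (nat_lit 5474143765) (nat_lit 409) (nat_lit 5) (nat_lit 421) (nat_lit 5) (nat_lit 410) (nat_lit 5) (nat_lit 604) (nat_lit 570) (nat_lit 386))) (XT.nd (nat_lit 78) (nat_lit 0) (nat_lit 0) (XT.lf (nat_lit 0) (nat_lit 4673530387) (nat_lit 836) (nat_lit 3526011099) (nat_lit 912) (nat_lit 7775454844)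 (nat_lit 398) (nat_lit 5) (nat_lit 409) (nat_lit 5) (nat_lit 410) (nat_lit 5) (nat_lit 605) (nat_lit 570) (nat_lit 385)) (XT.lf (nat_lit 0) (nat_lit 10336763110) (nat_lit 912) (nat_lit 2412069911) (nat_lit 76) (nat_lit 3398583198) (nat_lit 398) (nat_lit 5) (nat_lit 410) (nat_lit 5) (nat_lit 399) (nat_lit 5) (nat_lit 606) (nat_lit 570) (nat_lit 384))))) (XT.nd (nat_lit 234) (nat_lit 1520) (nat_lit 0) (XT.nd (nat_lit 78) (nat_lit 912) (nat_lit 0) (XT.lf (nat_lit 0) (nat_lit 6711943480) (nat_lit 836) (nat_lit 5863977623) (nat_lit 912) (nat_lit 3746179993) (nat_lit 387) (nat_lit 5) (nat_lit 398) (nat_lit 5) (nat_lit 399) (nat_lit 5) (nat_lit 607) (nat_lit 570) (nat_lit 383)) (XT.nd (nat_lit 78) (nat_lit 912) (nat_lit 0) (XT.lf (nat_lit 0) (nat_lit 14876040488) (nat_lit 912) (nat_lit 464400315) (nat_lit 76) (nat_lit 1159515723) (nat_lit 387) (nat_lit 5) (nat_lit 399) (nat_lit 5) (nat_lit 388) (nat_lit 5) (nat_lit 608) (nat_lit 570) (nat_lit 382)) (XT.lf (nat_lit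 0) (nat_lit 623649367) (nat_lit 912) (nat_lit 7748858052) (nat_lit 76) (nat_lit 8306992852) (nat_lit 375) (nat_lit 5) (nat_lit 387) (nat_lit 5) (nat_lit 376) (nat_lit 5) (nat_lit 609) (nat_lit 570) (nat_lit 381)))) (XT.nd (nat_lit 156) (nat_lit 760) (nat_lit 0) (XT.nd (nat_lit 78) (nat_lit 0) (nat_lit 0) (XT.lf (nat_lit 0) (nat_lit 1660469940) (nat_lit 760) (nat_lit 1240449619) (nat_lit 836) (nat_lit 13961371092) (nat_lit 365) (nat_lit 5) (nat_lit 375) (nat_lit 5) (nat_lit 376) (nat_lit 5) (nat_lit 610) (nat_lit 570) (nat_lit 380)) (XT.lf (nat_lit 0) (nat_lit 5307908731) (nat_lit 836) (nat_lit 5732130584) (nat_lit 76) (nat_lit 6007014442) (nat_lit 365) (nat_lit 5) (nat_lit 376) (nat_lit 5) (nat_lit 366) (nat_lit 5) (nat_lit 611) (nat_lit 570) (nat_lit 379))) (XT.nd (nat_lit 78) (nat_lit 0) (nat_lit 0) (XT.lf (nat_lit 0) (nat_lit 3962935300) (nat_lit 760) (nat_lit 3826843314) (nat_lit 836) (nat_lit 9445199073) (nat_lit 355) (nat_lit 5) (nat_lit 365) (nat_lit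 5) (nat_lit 366) (nat_lit 5) (nat_lit 612) (nat_lit 570) (nat_lit 378)) (XT.lf (nat_lit 0) (nat_lit 10375812482) (nat_lit 836) (nat_lit 3527330822) (nat_lit 76) (nat_lit 3522426634) (nat_lit 355) (nat_lit 5) (nat_lit 366) (nat_lit 5) (nat_lit 356) (nat_lit 5) (nat_lit 613) (nat_lit 570) (nat_lit 377)))))) (XT.nd (nat_lit 546) (nat_lit 3268) (nat_lit 0) (XT.nd (nat_lit 234) (nat_lit 1368) (nat_lit 0) (XT.nd (nat_lit 78) (nat_lit 836) (nat_lit 0) (XT.lf (nat_lit 0) (nat_lit 6463997111) (nat_lit 684) (nat_lit 6609904481) (nat_lit 760) (nat_lit 4544866117) (nat_lit 346) (nat_lit 5) (nat_lit 355) (nat_lit 5) (nat_lit 356) (nat_lit 5) (nat_lit 614) (nat_lit 570) (nat_lit 376)) (XT.nd (nat_lit 78) (nat_lit 836) (nat_lit 0) (XT.lf (nat_lit 0) (nat_lit 15848267950) (nat_lit 760) (nat_lit 1125724446) (nat_lit 76) (nat_lit 841391089) (nat_lit 346) (nat_lit 5) (nat_lit 356) (nat_lit 5) (nat_lit 347) (nat_lit 5) (nat_lit 615) (nat_lit 570) (nat_lit 375)) (XT.lf (nat_lit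 0) (nat_lit 750714498) (nat_lit 836) (nat_lit 8846148852) (nat_lit 76) (nat_lit 8417038401) (nat_lit 335) (nat_lit 5) (nat_lit 346) (nat_lit 5) (nat_lit 336) (nat_lit 5) (nat_lit 616) (nat_lit 570) (nat_lit 374)))) (XT.nd (nat_lit 156) (nat_lit 684) (nat_lit 0) (XT.nd (nat_lit 78) (nat_lit 0) (nat_lit 0) (XT.lf (nat_lit 0) (nat_lit 1464570780) (nat_lit 684) (nat_lit 2042407156) (nat_lit 760) (nat_lit 14708944403) (nat_lit 326) (nat_lit 5) (nat_lit 335) (nat_lit 5) (nat_lit 336) (nat_lit 5) (nat_lit 617) (nat_lit 570) (nat_lit 373)) (XT.lf (nat_lit 0) (nat_lit 6408245423) (nat_lit 760) (nat_lit 6364297576) (nat_lit 76) (nat_lit 5647643096) (nat_lit 326) (nat_lit 5) (nat_lit 336) (nat_lit 5) (nat_lit 327) (nat_lit 5) (nat_lit 618) (nat_lit 570) (nat_lit 372))) (XT.nd (nat_lit 78) (nat_lit 0) (nat_lit 0) (XT.lf (nat_lit 0) (nat_lit 4265307785) (nat_lit 684) (nat_lit 5136934347) (nat_lit 760) (nat_lit 9225599242) (nat_lit 317) (nat_lit 5) (nat_lit 326) (nat_lit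 5) (nat_lit 327) (nat_lit 5) (nat_lit 619) (nat_lit 570) (nat_lit 371)) (XT.lf (nat_lit 0) (nat_lit 12509880194) (nat_lit 760) (nat_lit 3670193884) (nat_lit 76) (nat_lit 2658500772) (nat_lit 317) (nat_lit 5) (nat_lit 327) (nat_lit 5) (nat_lit 318) (nat_lit 5) (nat_lit 620) (nat_lit 570) (nat_lit 370))))) (XT.nd (nat_lit 312) (nat_lit 1292) (nat_lit 0) (XT.nd (nat_lit 156) (nat_lit 1368) (nat_lit 0) (XT.nd (nat_lit 78) (nat_lit 0) (nat_lit 0) (XT.lf (nat_lit 0) (nat_lit 7290058243) (nat_lit 608) (nat_lit 8464646686) (nat_lit 684) (nat_lit 3297317701) (nat_lit 309) (nat_lit 5) (nat_lit 317) (nat_lit 5) (nat_lit 318) (nat_lit 5) (nat_lit 621) (nat_lit 570) (nat_lit 369)) (XT.lf (nat_lit 0) (nat_lit 18511790003) (nat_lit 608) (nat_lit 571023008) (nat_lit 684) (nat_lit 186558923) (nat_lit 309) (nat_lit 5) (nat_lit 317) (nat_lit 5) (nat_lit 318) (nat_lit 5) (nat_lit 622) (nat_lit 570) (nat_lit 368))) (XT.nd (nat_lit 78) (nat_lit 608) (nat_lit 0) (XT.lf (nat_lit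 0) (nat_lit 3058915276) (nat_lit 760) (nat_lit 8959743373) (nat_lit 76) (nat_lit 7469788721) (nat_lit 299) (nat_lit 5) (nat_lit 309) (nat_lit 5) (nat_lit 300) (nat_lit 5) (nat_lit 623) (nat_lit 570) (nat_lit 367)) (XT.lf (nat_lit 0) (nat_lit 2357575046) (nat_lit 608) (nat_lit 4027338417) (nat_lit 684) (nat_lit 13326604229) (nat_lit 291) (nat_lit 5) (nat_lit 299) (nat_lit 5) (nat_lit 300) (nat_lit 5) (nat_lit 624) (nat_lit 570) (nat_lit 366)))) (XT.nd (nat_lit 156) (nat_lit 684) (nat_lit 0) (XT.nd (nat_lit 78) (nat_lit 608) (nat_lit 0) (XT.lf (nat_lit 0) (nat_lit 9858695279) (nat_lit 684) (nat_lit 5949867003) (nat_lit 76) (nat_lit 4128862149) (nat_lit 291) (nat_lit 5) (nat_lit 300) (nat_lit 5) (nat_lit 292) (nat_lit 5) (nat_lit 625) (nat_lit 570) (nat_lit 365)) (XT.lf (nat_lit 0) (nat_lit 5723289924) (nat_lit 608) (nat_lit 7736578017) (nat_lit 684) (nat_lit 6706823336) (nat_lit 283) (nat_lit 5) (nat_lit 291) (nat_lit 5) (nat_lit 292) (nat_lit 5) (nat_lit 626)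 (nat_lit 570) (nat_lit 364))) (XT.nd (nat_lit 78) (nat_lit 684) (nat_lit 0) (XT.lf (nat_lit 0) (nat_lit 17170624371) (nat_lit 684) (nat_lit 2700123160) (nat_lit 76) (nat_lit 529044995) (nat_lit 283) (nat_lit 5) (nat_lit 292) (nat_lit 5) (nat_lit 284) (nat_lit 5) (nat_lit 627) (nat_lit 570) (nat_lit 363)) (XT.lf (nat_lit 0) (nat_lit 420719919) (nat_lit 684) (nat_lit 11296197856) (nat_lit 76) (nat_lit 8918459969) (nat_lit 274) (nat_lit 5) (nat_lit 283) (nat_lit 5) (nat_lit 275) (nat_lit 5) (nat_lit 628) (nat_lit 570) (nat_lit 362))))))))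
noncomputable def xc173 : XT := (XT.nd (nat_lit 2262) (nat_lit 3344) (nat_lit 0) (XT.nd (nat_lit 1092) (nat_lit 3952) (nat_lit 0) (XT.nd (nat_lit 546) (nat_lit 2052) (nat_lit 0) (XT.nd (nat_lit 234) (nat_lit 1140) (nat_lit 0) (XT.nd (nat_lit 78) (nat_lit 532) (nat_lit 0) (XT.lf (nat_lit 0) (nat_lit 761710314) (nat_lit 608) (nat_lit 3356167838) (nat_lit 684) (nat_lit 16757019656) (nat_lit 266) (nat_lit 5) (nat_lit 274) (nat_lit 5) (nat_lit 275) (nat_lit 5) (nat_lit 629) (nat_lit 570) (nat_lit 361)) (XT.nd (nat_lit 78) (nat_lit 532) (nat_lit 0) (XT.lf (nat_lit 0) (nat_lit 7993203640) (nat_lit 684) (nat_lit 7945259795) (nat_lit 76) (nat_lit 5178660608) (nat_lit 266) (nat_lit 5) (nat_lit 275) (nat_lit 5) (nat_lit 267) (nat_lit 5) (nat_lit 630) (nat_lit 570) (nat_lit 360)) (XT.lf (nat_lit 0) (nat_lit 4495518113) (nat_lit 532) (nat_lit 7496382579) (nat_lit 608) (nat_lit 9371377057) (nat_lit 259) (nat_lit 5) (nat_lit 266) (nat_lit 5) (nat_lit 267) (nat_lit 5) (nat_lit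 631) (nat_lit 570) (nat_lit 359)))) (XT.nd (nat_lit 156) (nat_lit 608) (nat_lit 0) (XT.nd (nat_lit 78) (nat_lit 532) (nat_lit 0) (XT.lf (nat_lit 0) (nat_lit 16125979893) (nat_lit 608) (nat_lit 4335358801) (nat_lit 76) (nat_lit 1151907912) (nat_lit 259) (nat_lit 5) (nat_lit 267) (nat_lit 5) (nat_lit 260) (nat_lit 5) (nat_lit 632) (nat_lit 570) (nat_lit 358)) (XT.lf (nat_lit 0) (nat_lit 8502405859) (nat_lit 532) (nat_lit 11939792707) (nat_lit 608) (nat_lit 1424027354) (nat_lit 252) (nat_lit 5) (nat_lit 259) (nat_lit 5) (nat_lit 260) (nat_lit 5) (nat_lit 633) (nat_lit 570) (nat_lit 357))) (XT.nd (nat_lit 78) (nat_lit 532) (nat_lit 0) (XT.lf (nat_lit 0) (nat_lit 2708716213) (nat_lit 608) (nat_lit 493020392) (nat_lit 76) (nat_lit 18921696801) (nat_lit 251) (nat_lit 5) (nat_lit 259) (nat_lit 5) (nat_lit 252) (nat_lit 5) (nat_lit 634) (nat_lit 570) (nat_lit 356)) (XT.lf (nat_lit 0) (nat_lit 7020502550) (nat_lit 608) (nat_lit 9635295137) (nat_lit 76) (nat_lit 5727490209)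 (nat_lit 244) (nat_lit 5) (nat_lit 252) (nat_lit 5) (nat_lit 245) (nat_lit 5) (nat_lit 635) (nat_lit 570) (nat_lit 355))))) (XT.nd (nat_lit 234) (nat_lit 1064) (nat_lit 0) (XT.nd (nat_lit 78) (nat_lit 456) (nat_lit 0) (XT.lf (nat_lit 0) (nat_lit 3631558859) (nat_lit 532) (nat_lit 7829863317) (nat_lit 608) (nat_lit 11186059567) (nat_lit 237) (nat_lit 5) (nat_lit 244) (nat_lit 5) (nat_lit 245) (nat_lit 5) (nat_lit 636) (nat_lit 570) (nat_lit 354)) (XT.nd (nat_lit 78) (nat_lit 456) (nat_lit 0) (XT.lf (nat_lit 0) (nat_lit 16058689119) (nat_lit 608) (nat_lit 5636473576) (nat_lit 76) (nat_lit 1220446409) (nat_lit 237) (nat_lit 5) (nat_lit 245) (nat_lit 5) (nat_lit 238) (nat_lit 5) (nat_lit 637) (nat_lit 570) (nat_lit 353)) (XT.lf (nat_lit 0) (nat_lit 8057400540) (nat_lit 456) (nat_lit 12789599221) (nat_lit 532) (nat_lit 2340117494) (nat_lit 231) (nat_lit 5) (nat_lit 237) (nat_lit 5) (nat_lit 238) (nat_lit 5) (nat_lit 638) (nat_lit 570) (nat_lit 352)))) (XT.nd (nat_lit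 156) (nat_lit 456) (nat_lit 0) (XT.nd (nat_lit 78) (nat_lit 532) (nat_lit 0) (XT.lf (nat_lit 0) (nat_lit 2270314750) (nat_lit 532) (nat_lit 1383718934) (nat_lit 76) (nat_lit 19809067186) (nat_lit 230) (nat_lit 5) (nat_lit 237) (nat_lit 5) (nat_lit 231) (nat_lit 5) (nat_lit 639) (nat_lit 570) (nat_lit 351)) (XT.lf (nat_lit 0) (nat_lit 7057109766) (nat_lit 608) (nat_lit 10997672523) (nat_lit 76) (nat_lit 5687202937) (nat_lit 223) (nat_lit 5) (nat_lit 231) (nat_lit 5) (nat_lit 224) (nat_lit 5) (nat_lit 640) (nat_lit 570) (nat_lit 350))) (XT.nd (nat_lit 78) (nat_lit 0) (nat_lit 0) (XT.lf (nat_lit 0) (nat_lit 3157643350) (nat_lit 456) (nat_lit 8831135825) (nat_lit 532) (nat_lit 12036685517) (nat_lit 217) (nat_lit 5) (nat_lit 223) (nat_lit 5) (nat_lit 224) (nat_lit 5) (nat_lit 641) (nat_lit 570) (nat_lit 349)) (XT.lf (nat_lit 0) (nat_lit 17092246811) (nat_lit 532) (nat_lit 6579179018) (nat_lit 76) (nat_lit 641724814) (nat_lit 217) (nat_lit 5) (nat_lit 224) (nat_lit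 5) (nat_lit 218) (nat_lit 5) (nat_lit 642) (nat_lit 570) (nat_lit 348)))))) (XT.nd (nat_lit 546) (nat_lit 2052) (nat_lit 0) (XT.nd (nat_lit 234) (nat_lit 912) (nat_lit 0) (XT.nd (nat_lit 78) (nat_lit 532) (nat_lit 0) (XT.lf (nat_lit 0) (nat_lit 8035324520) (nat_lit 456) (nat_lit 14368339537) (nat_lit 532) (nat_lit 2200808838) (nat_lit 211) (nat_lit 5) (nat_lit 217) (nat_lit 5) (nat_lit 218) (nat_lit 5) (nat_lit 643) (nat_lit 570) (nat_lit 347)) (XT.nd (nat_lit 78) (nat_lit 456) (nat_lit 0) (XT.lf (nat_lit 0) (nat_lit 2921081428) (nat_lit 532) (nat_lit 1895517490) (nat_lit 76) (nat_lit 20083850010) (nat_lit 210) (nat_lit 5) (nat_lit 217) (nat_lit 5) (nat_lit 211) (nat_lit 5) (nat_lit 644) (nat_lit 570) (nat_lit 346)) (XT.lf (nat_lit 0) (nat_lit 8229798203) (nat_lit 532) (nat_lit 12009318924) (nat_lit 76) (nat_lit 4960659434) (nat_lit 204) (nat_lit 5) (nat_lit 211) (nat_lit 5) (nat_lit 205) (nat_lit 5) (nat_lit 645) (nat_lit 570) (nat_lit 345)))) (XT.nd (nat_lit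 156) (nat_lit 456) (nat_lit 0) (XT.nd (nat_lit 78) (nat_lit 0) (nat_lit 0) (XT.lf (nat_lit 0) (nat_lit 3100965793) (nat_lit 456) (nat_lit 10603930960) (nat_lit 532) (nat_lit 11798990016) (nat_lit 198) (nat_lit 5) (nat_lit 204) (nat_lit 5) (nat_lit 205) (nat_lit 5) (nat_lit 646) (nat_lit 570) (nat_lit 344)) (XT.lf (nat_lit 0) (nat_lit 18669558128) (nat_lit 456) (nat_lit 695947078) (nat_lit 532) (nat_lit 6447053987) (nat_lit 198) (nat_lit 5) (nat_lit 204) (nat_lit 5) (nat_lit 205) (nat_lit 5) (nat_lit 647) (nat_lit 570) (nat_lit 343))) (XT.nd (nat_lit 78) (nat_lit 76) (nat_lit 0) (XT.lf (nat_lit 0) (nat_lit 8465412406) (nat_lit 380) (nat_lit 16785469224) (nat_lit 456) (nat_lit 874292485) (nat_lit 193) (nat_lit 5) (nat_lit 198) (nat_lit 5) (nat_lit 199) (nat_lit 5) (nat_lit 648) (nat_lit 570) (nat_lit 342)) (XT.lf (nat_lit 0) (nat_lit 4795212225) (nat_lit 456) (nat_lit 2003068021) (nat_lit 76) (nat_lit 19644169244) (nat_lit 192) (nat_lit 5) (nat_lit 198) (nat_lit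 5) (nat_lit 193) (nat_lit 5) (nat_lit 649) (nat_lit 570) (nat_lit 341))))) (XT.nd (nat_lit 312) (nat_lit 760) (nat_lit 0) (XT.nd (nat_lit 156) (nat_lit 456) (nat_lit 0) (XT.nd (nat_lit 78) (nat_lit 380) (nat_lit 0) (XT.lf (nat_lit 0) (nat_lit 10676450106) (nat_lit 532) (nat_lit 12646942561) (nat_lit 76) (nat_lit 3440361285) (nat_lit 186) (nat_lit 5) (nat_lit 193) (nat_lit 5) (nat_lit 187) (nat_lit 5) (nat_lit 650) (nat_lit 570) (nat_lit 340)) (XT.lf (nat_lit 0) (nat_lit 3489125163) (nat_lit 380) (nat_lit 13263023514) (nat_lit 456) (nat_lit 10337799260) (nat_lit 181) (nat_lit 5) (nat_lit 186) (nat_lit 5) (nat_lit 187) (nat_lit 5) (nat_lit 651) (nat_lit 570) (nat_lit 339))) (XT.nd (nat_lit 78) (nat_lit 456) (nat_lit 0) (XT.lf (nat_lit 0) (nat_lit 20112840528) (nat_lit 380) (nat_lit 2917061614) (nat_lit 456) (nat_lit 4391152991) (nat_lit 181) (nat_lit 5) (nat_lit 186) (nat_lit 5) (nat_lit 187) (nat_lit 5) (nat_lit 652) (nat_lit 570) (nat_lit 338)) (XT.lf (nat_lit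 0) (nat_lit 1759373066) (nat_lit 456) (nat_lit 18391032624) (nat_lit 76) (nat_lit 7606023353) (nat_lit 175) (nat_lit 5) (nat_lit 181) (nat_lit 5) (nat_lit 176) (nat_lit 5) (nat_lit 653) (nat_lit 570) (nat_lit 337)))) (XT.nd (nat_lit 156) (nat_lit 380) (nat_lit 0) (XT.nd (nat_lit 78) (nat_lit 380) (nat_lit 0) (XT.lf (nat_lit 0) (nat_lit 8038610145) (nat_lit 456) (nat_lit 1681172674) (nat_lit 76) (nat_lit 18376857282) (nat_lit 175) (nat_lit 5) (nat_lit 181) (nat_lit 5) (nat_lit 176) (nat_lit 5) (nat_lit 654) (nat_lit 570) (nat_lit 336)) (XT.lf (nat_lit 0) (nat_lit 14546927724) (nat_lit 456) (nat_lit 12887715037) (nat_lit 76) (nat_lit 1006942844) (nat_lit 170) (nat_lit 5) (nat_lit 176) (nat_lit 5) (nat_lit 171) (nat_lit 5) (nat_lit 655) (nat_lit 570) (nat_lit 335))) (XT.nd (nat_lit 78) (nat_lit 0) (nat_lit 0) (XT.lf (nat_lit 0) (nat_lit 4349434618) (nat_lit 380) (nat_lit 16935809888) (nat_lit 456) (nat_lit 7506188992) (nat_lit 165) (nat_lit 5) (nat_lit 170) (nat_lit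 5) (nat_lit 171) (nat_lit 5) (nat_lit 656) (nat_lit 570) (nat_lit 334)) (XT.lf (nat_lit 0) (nat_lit 22099701614) (nat_lit 380) (nat_lit 6141017089) (nat_lit 456) (nat_lit 905911958) (nat_lit 165) (nat_lit 5) (nat_lit 170) (nat_lit 5) (nat_lit 171) (nat_lit 5) (nat_lit 657) (nat_lit 570) (nat_lit 333))))))) (XT.nd (nat_lit 74412) (nat_lit 0) (nat_lit 28728) (XT.nd (nat_lit 546) (nat_lit 1444) (nat_lit 0) (XT.nd (nat_lit 234) (nat_lit 1064) (nat_lit 0) (XT.nd (nat_lit 78) (nat_lit 380) (nat_lit 0) (XT.lf (nat_lit 0) (nat_lit 5848314069) (nat_lit 456) (nat_lit 18745651287) (nat_lit 76) (nat_lit 4912242818) (nat_lit 159) (nat_lit 5) (nat_lit 165) (nat_lit 5) (nat_lit 160) (nat_lit 5) (nat_lit 658) (nat_lit 570) (nat_lit 332)) (XT.nd (nat_lit 78) (nat_lit 380) (nat_lit 0) (XT.lf (nat_lit 0) (nat_lit 12809762336) (nat_lit 456) (nat_lit 905574020) (nat_lit 76) (nat_lit 16155835888) (nat_lit 159) (nat_lit 5) (nat_lit 165) (nat_lit 5) (nat_lit 160) (nat_lit 5) (nat_lit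 659) (nat_lit 570) (nat_lit 331)) (XT.lf (nat_lit 0) (nat_lit 17514861923) (nat_lit 380) (nat_lit 2505360237) (nat_lit 456) (nat_lit 10221017908) (nat_lit 154) (nat_lit 5) (nat_lit 159) (nat_lit 5) (nat_lit 160) (nat_lit 5) (nat_lit 660) (nat_lit 570) (nat_lit 330)))) (XT.nd (nat_lit 156) (nat_lit 684) (nat_lit 0) (XT.nd (nat_lit 78) (nat_lit 76) (nat_lit 0) (XT.lf (nat_lit 0) (nat_lit 5708067820) (nat_lit 304) (nat_lit 21764060426) (nat_lit 380) (nat_lit 3144636381) (nat_lit 150) (nat_lit 5) (nat_lit 154) (nat_lit 5) (nat_lit 155) (nat_lit 5) (nat_lit 661) (nat_lit 570) (nat_lit 329)) (XT.lf (nat_lit 0) (nat_lit 4118507803) (nat_lit 380) (nat_lit 6364171275) (nat_lit 76) (nat_lit 20514618653) (nat_lit 149) (nat_lit 5) (nat_lit 154) (nat_lit 5) (nat_lit 150) (nat_lit 5) (nat_lit 662) (nat_lit 570) (nat_lit 328))) (XT.nd (nat_lit 78) (nat_lit 304) (nat_lit 0) (XT.lf (nat_lit 0) (nat_lit 11570739452) (nat_lit 456) (nat_lit 18699978553) (nat_lit 76) (nat_lit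 1112589261) (nat_lit 144) (nat_lit 5) (nat_lit 150) (nat_lit 5) (nat_lit 145) (nat_lit 5) (nat_lit 663) (nat_lit 570) (nat_lit 327)) (XT.lf (nat_lit 0) (nat_lit 350670334) (nat_lit 304) (nat_lit 18932230179) (nat_lit 380) (nat_lit 12491918894) (nat_lit 140) (nat_lit 5) (nat_lit 144) (nat_lit 5) (nat_lit 145) (nat_lit 5) (nat_lit 664) (nat_lit 570) (nat_lit 326))))) (XT.nd (nat_lit 312) (nat_lit 684) (nat_lit 0) (XT.nd (nat_lit 156) (nat_lit 304) (nat_lit 0) (XT.nd (nat_lit 78) (nat_lit 456) (nat_lit 0) (XT.lf (nat_lit 0) (nat_lit 20029767293) (nat_lit 304) (nat_lit 7241256028) (nat_lit 380) (nat_lit 4900704210) (nat_lit 140) (nat_lit 5) (nat_lit 144) (nat_lit 5) (nat_lit 145) (nat_lit 5) (nat_lit 665) (nat_lit 570) (nat_lit 325)) (XT.lf (nat_lit 0) (nat_lit 2881532751) (nat_lit 456) (nat_lit 25005005937) (nat_lit 76) (nat_lit 4688136633) (nat_lit 134) (nat_lit 5) (nat_lit 140) (nat_lit 5) (nat_lit 135) (nat_lit 5) (nat_lit 666) (nat_lit 570) (nat_lit 324)))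 (XT.nd (nat_lit 78) (nat_lit 304) (nat_lit 0) (XT.lf (nat_lit 0) (nat_lit 10880130093) (nat_lit 456) (nat_lit 5230882141) (nat_lit 76) (nat_lit 16871495341) (nat_lit 134) (nat_lit 5) (nat_lit 140) (nat_lit 5) (nat_lit 135) (nat_lit 5) (nat_lit 667) (nat_lit 570) (nat_lit 323)) (XT.lf (nat_lit 0) (nat_lit 15131292583) (nat_lit 304) (nat_lit 4002022571) (nat_lit 380) (nat_lit 14263289107) (nat_lit 130) (nat_lit 5) (nat_lit 134) (nat_lit 5) (nat_lit 135) (nat_lit 5) (nat_lit 668) (nat_lit 570) (nat_lit 322)))) (XT.nd (nat_lit 156) (nat_lit 304) (nat_lit 0) (XT.nd (nat_lit 78) (nat_lit 76) (nat_lit 0) (XT.lf (nat_lit 0) (nat_lit 2120810245) (nat_lit 304) (nat_lit 25530457972) (nat_lit 380) (nat_lit 6165720676) (nat_lit 126) (nat_lit 5) (nat_lit 130) (nat_lit 5) (nat_lit 131) (nat_lit 5) (nat_lit 669) (nat_lit 570) (nat_lit 321)) (XT.lf (nat_lit 0) (nat_lit 2212624485) (nat_lit 380) (nat_lit 11127902575) (nat_lit 76) (nat_lit 20902056649) (nat_lit 125) (nat_lit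 5) (nat_lit 130) (nat_lit 5) (nat_lit 126) (nat_lit 5) (nat_lit 670) (nat_lit 570) (nat_lit 320))) (XT.nd (nat_lit 78) (nat_lit 0) (nat_lit 0) (XT.lf (nat_lit 0) (nat_lit 9935418135) (nat_lit 304) (nat_lit 801615362) (nat_lit 380) (nat_lit 23937620790) (nat_lit 121) (nat_lit 5) (nat_lit 125) (nat_lit 5) (nat_lit 126) (nat_lit 5) (nat_lit 671) (nat_lit 570) (nat_lit 319)) (XT.lf (nat_lit 0) (nat_lit 19581422443) (nat_lit 380) (nat_lit 3627165293) (nat_lit 76) (nat_lit 11903788796) (nat_lit 121) (nat_lit 5) (nat_lit 126) (nat_lit 5) (nat_lit 122) (nat_lit 5) (nat_lit 672) (nat_lit 570) (nat_lit 318)))))) (XT.nd (nat_lit 546) (nat_lit 1520) (nat_lit 0) (XT.nd (nat_lit 234) (nat_lit 0) (nat_lit 76) (XT.nd (nat_lit 78) (nat_lit 0) (nat_lit 0) (XT.lf (nat_lit 0) (nat_lit 3570135820) (nat_lit 1748) (nat_lit 1091079932) (nat_lit 1748) (nat_lit 1091079932) (nat_lit 519) (nat_lit 3) (nat_lit 542) (nat_lit 3) (nat_lit 542) (nat_lit 5) (nat_lit 571) (nat_lit 571) (nat_lit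 418)) (XT.nd (nat_lit 78) (nat_lit 0) (nat_lit 76) (XT.lf (nat_lit 76) (nat_lit 3572452600) (nat_lit 0) (nat_lit 4181218884) (nat_lit 1748) (nat_lit 3855092462) (nat_lit 520) (nat_lit 5) (nat_lit 519) (nat_lit 3) (nat_lit 542) (nat_lit 5) (nat_lit 572) (nat_lit 571) (nat_lit 417)) (XT.lf (nat_lit 0) (nat_lit 8387369214) (nat_lit 1672) (nat_lit 2257337430) (nat_lit 1748) (nat_lit 1070153609) (nat_lit 520) (nat_lit 5) (nat_lit 542) (nat_lit 5) (nat_lit 543) (nat_lit 5) (nat_lit 573) (nat_lit 571) (nat_lit 416)))) (XT.nd (nat_lit 156) (nat_lit 0) (nat_lit 76) (XT.nd (nat_lit 78) (nat_lit 0) (nat_lit 0) (XT.lf (nat_lit 76) (nat_lit 3650192934) (nat_lit 0) (nat_lit 5421593465) (nat_lit 1748) (nat_lit 2750532037) (nat_lit 521) (nat_lit 5) (nat_lit 520) (nat_lit 5) (nat_lit 543) (nat_lit 5) (nat_lit 574) (nat_lit 571) (nat_lit 415)) (XT.lf (nat_lit 76) (nat_lit 9699314339) (nat_lit 0) (nat_lit 72596519) (nat_lit 1748) (nat_lit 2159975386) (nat_lit 521) (nat_lit 5)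 (nat_lit 520) (nat_lit 5) (nat_lit 543) (nat_lit 5) (nat_lit 575) (nat_lit 571) (nat_lit 414))) (XT.nd (nat_lit 78) (nat_lit 0) (nat_lit 0) (XT.lf (nat_lit 76) (nat_lit 3833786817) (nat_lit 0) (nat_lit 6699261399) (nat_lit 1748) (nat_lit 1509657810) (nat_lit 522) (nat_lit 5) (nat_lit 521) (nat_lit 5) (nat_lit 544) (nat_lit 5) (nat_lit 576) (nat_lit 571) (nat_lit 413)) (XT.lf (nat_lit 76) (nat_lit 10043982503) (nat_lit 0) (nat_lit 1268256066) (nat_lit 1748) (nat_lit 843447839) (nat_lit 522) (nat_lit 5) (nat_lit 521) (nat_lit 5) (nat_lit 544) (nat_lit 5) (nat_lit 577) (nat_lit 571) (nat_lit 412))))) (XT.nd (nat_lit 312) (nat_lit 0) (nat_lit 152) (XT.nd (nat_lit 156) (nat_lit 0) (nat_lit 76) (XT.nd (nat_lit 78) (nat_lit 1748) (nat_lit 0) (XT.lf (nat_lit 76) (nat_lit 4126435851) (nat_lit 0) (nat_lit 8022753673) (nat_lit 1748) (nat_lit 120894131) (nat_lit 523) (nat_lit 5) (nat_lit 522) (nat_lit 5) (nat_lit 545) (nat_lit 5) (nat_lit 578) (nat_lit 571) (nat_lit 411))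 (XT.lf (nat_lit 0) (nat_lit 618459542) (nat_lit 1748) (nat_lit 1888536281) (nat_lit 1824) (nat_lit 9879485197) (nat_lit 499) (nat_lit 5) (nat_lit 522) (nat_lit 5) (nat_lit 523) (nat_lit 5) (nat_lit 579) (nat_lit 571) (nat_lit 410))) (XT.nd (nat_lit 78) (nat_lit 0) (nat_lit 0) (XT.lf (nat_lit 0) (nat_lit 1408967173) (nat_lit 1748) (nat_lit 7982235930) (nat_lit 1824) (nat_lit 3113228282) (nat_lit 500) (nat_lit 5) (nat_lit 523) (nat_lit 5) (nat_lit 524) (nat_lit 5) (nat_lit 580) (nat_lit 571) (nat_lit 409)) (XT.lf (nat_lit 0) (nat_lit 2232866947) (nat_lit 1748) (nat_lit 1562023261) (nat_lit 1824) (nat_lit 8829499642) (nat_lit 500) (nat_lit 5) (nat_lit 523) (nat_lit 5) (nat_lit 524) (nat_lit 5) (nat_lit 581) (nat_lit 571) (nat_lit 408)))) (XT.nd (nat_lit 156) (nat_lit 0) (nat_lit 76) (XT.nd (nat_lit 78) (nat_lit 0) (nat_lit 0) (XT.lf (nat_lit 0) (nat_lit 3107121914) (nat_lit 1748) (nat_lit 7713668350) (nat_lit 1824) (nat_lit 1925280395) (nat_lit 501) (nat_lit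 5) (nat_lit 524) (nat_lit 5) (nat_lit 525) (nat_lit 5) (nat_lit 582) (nat_lit 571) (nat_lit 407)) (XT.lf (nat_lit 0) (nat_lit 4023202636) (nat_lit 1748) (nat_lit 1122933487) (nat_lit 1824) (nat_lit 7723562852) (nat_lit 501) (nat_lit 5) (nat_lit 524) (nat_lit 5) (nat_lit 525) (nat_lit 5) (nat_lit 583) (nat_lit 571) (nat_lit 406))) (XT.nd (nat_lit 78) (nat_lit 0) (nat_lit 0) (XT.lf (nat_lit 0) (nat_lit 4987710679) (nat_lit 1748) (nat_lit 7333287274) (nat_lit 1824) (nat_lit 674200481) (nat_lit 502) (nat_lit 5) (nat_lit 525) (nat_lit 5) (nat_lit 526) (nat_lit 5) (nat_lit 584) (nat_lit 571) (nat_lit 405)) (XT.lf (nat_lit 0) (nat_lit 6002246981) (nat_lit 1748) (nat_lit 567203182) (nat_lit 1824) (nat_lit 6553143635) (nat_lit 502) (nat_lit 5) (nat_lit 525) (nat_lit 5) (nat_lit 526) (nat_lit 5) (nat_lit 585) (nat_lit 571) (nat_lit 404))))))))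
noncomputable def xc174 : XT := (XT.nd (nat_lit 2262) (nat_lit 10944) (nat_lit 0) (XT.nd (nat_lit 1092) (nat_lit 6840) (nat_lit 0) (XT.nd (nat_lit 546) (nat_lit 2736) (nat_lit 0) (XT.nd (nat_lit 234) (nat_lit 1596) (nat_lit 0) (XT.nd (nat_lit 78) (nat_lit 0) (nat_lit 76) (XT.lf (nat_lit 76) (nat_lit 6410741306) (nat_lit 0) (nat_lit 657242101) (nat_lit 1824) (nat_lit 6183936137) (nat_lit 503) (nat_lit 5) (nat_lit 502) (nat_lit 5) (nat_lit 526) (nat_lit 5) (nat_lit 586) (nat_lit 571) (nat_lit 403)) (XT.nd (nat_lit 78) (nat_lit 0) (nat_lit 0) (XT.lf (nat_lit 76) (nat_lit 111000450) (nat_lit 0) (nat_lit 8072940619) (nat_lit 1824) (nat_lit 5199313258) (nat_lit 504) (nat_lit 5) (nat_lit 503) (nat_lit 5) (nat_lit 527) (nat_lit 5) (nat_lit 587) (nat_lit 571) (nat_lit 402)) (XT.lf (nat_lit 76) (nat_lit 7282875763) (nat_lit 0) (nat_lit 2079198634) (nat_lit 1824) (nat_lit 4154344916) (nat_lit 504) (nat_lit 5) (nat_lit 503) (nat_lit 5) (nat_lit 527) (nat_lit 5) (nat_lit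 588) (nat_lit 571) (nat_lit 401)))) (XT.nd (nat_lit 156) (nat_lit 1748) (nat_lit 0) (XT.nd (nat_lit 78) (nat_lit 0) (nat_lit 0) (XT.lf (nat_lit 76) (nat_lit 924125574) (nat_lit 0) (nat_lit 9661684271) (nat_lit 1824) (nat_lit 3065997589) (nat_lit 505) (nat_lit 5) (nat_lit 504) (nat_lit 5) (nat_lit 528) (nat_lit 5) (nat_lit 589) (nat_lit 571) (nat_lit 400)) (XT.lf (nat_lit 76) (nat_lit 8287802456) (nat_lit 0) (nat_lit 3591721325) (nat_lit 1824) (nat_lit 1909470076) (nat_lit 505) (nat_lit 5) (nat_lit 504) (nat_lit 5) (nat_lit 528) (nat_lit 5) (nat_lit 590) (nat_lit 571) (nat_lit 399))) (XT.nd (nat_lit 78) (nat_lit 1824) (nat_lit 0) (XT.lf (nat_lit 76) (nat_lit 1869720835) (nat_lit 0) (nat_lit 11348614623) (nat_lit 1824) (nat_lit 710204681) (nat_lit 506) (nat_lit 5) (nat_lit 505) (nat_lit 5) (nat_lit 529) (nat_lit 5) (nat_lit 591) (nat_lit 571) (nat_lit 398)) (XT.lf (nat_lit 0) (nat_lit 557546884) (nat_lit 1824) (nat_lit 4642709243) (nat_lit 1900) (nat_lit 8869530587)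 (nat_lit 481) (nat_lit 5) (nat_lit 505) (nat_lit 5) (nat_lit 506) (nat_lit 5) (nat_lit 592) (nat_lit 571) (nat_lit 397))))) (XT.nd (nat_lit 234) (nat_lit 2812) (nat_lit 0) (XT.nd (nat_lit 78) (nat_lit 0) (nat_lit 0) (XT.lf (nat_lit 0) (nat_lit 1857890643) (nat_lit 1824) (nat_lit 11272689490) (nat_lit 1900) (nat_lit 1082849828) (nat_lit 482) (nat_lit 5) (nat_lit 506) (nat_lit 5) (nat_lit 507) (nat_lit 5) (nat_lit 593) (nat_lit 571) (nat_lit 396)) (XT.nd (nat_lit 78) (nat_lit 0) (nat_lit 0) (XT.lf (nat_lit 0) (nat_lit 3240663622) (nat_lit 1824) (nat_lit 3663001394) (nat_lit 1900) (nat_lit 7455153166) (nat_lit 482) (nat_lit 5) (nat_lit 506) (nat_lit 5) (nat_lit 507) (nat_lit 5) (nat_lit 594) (nat_lit 571) (nat_lit 395)) (XT.lf (nat_lit 76) (nat_lit 4145578270) (nat_lit 0) (nat_lit 523235728) (nat_lit 1900) (nat_lit 9837946275) (nat_lit 483) (nat_lit 5) (nat_lit 482) (nat_lit 5) (nat_lit 507) (nat_lit 5) (nat_lit 595) (nat_lit 571) (nat_lit 394)))) (XT.nd (nat_lit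 156) (nat_lit 1064) (nat_lit 0) (XT.nd (nat_lit 78) (nat_lit 1824) (nat_lit 0) (XT.lf (nat_lit 0) (nat_lit 6180074380) (nat_lit 1824) (nat_lit 2544020086) (nat_lit 76) (nat_lit 5932476334) (nat_lit 483) (nat_lit 5) (nat_lit 507) (nat_lit 5) (nat_lit 484) (nat_lit 5) (nat_lit 596) (nat_lit 571) (nat_lit 393)) (XT.lf (nat_lit 0) (nat_lit 5490367405) (nat_lit 1824) (nat_lit 2261428573) (nat_lit 1900) (nat_lit 7056977362) (nat_lit 459) (nat_lit 5) (nat_lit 483) (nat_lit 5) (nat_lit 484) (nat_lit 5) (nat_lit 597) (nat_lit 571) (nat_lit 392))) (XT.nd (nat_lit 78) (nat_lit 1064) (nat_lit 0) (XT.lf (nat_lit 0) (nat_lit 9391509018) (nat_lit 1900) (nat_lit 1279772718) (nat_lit 76) (nat_lit 4292007569) (nat_lit 459) (nat_lit 5) (nat_lit 484) (nat_lit 5) (nat_lit 460) (nat_lit 5) (nat_lit 598) (nat_lit 571) (nat_lit 391)) (XT.lf (nat_lit 0) (nat_lit 6988675083) (nat_lit 1064) (nat_lit 4127119972) (nat_lit 1140) (nat_lit 4004065462) (nat_lit 445) (nat_lit 5) (nat_lit 459)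 (nat_lit 5) (nat_lit 460) (nat_lit 5) (nat_lit 599) (nat_lit 571) (nat_lit 390)))))) (XT.nd (nat_lit 546) (nat_lit 3268) (nat_lit 0) (XT.nd (nat_lit 234) (nat_lit 1672) (nat_lit 0) (XT.nd (nat_lit 78) (nat_lit 988) (nat_lit 0) (XT.lf (nat_lit 0) (nat_lit 137892504) (nat_lit 912) (nat_lit 12754308948) (nat_lit 988) (nat_lit 2387009502) (nat_lit 433) (nat_lit 5) (nat_lit 445) (nat_lit 5) (nat_lit 446) (nat_lit 5) (nat_lit 600) (nat_lit 571) (nat_lit 389)) (XT.nd (nat_lit 78) (nat_lit 988) (nat_lit 0) (XT.lf (nat_lit 0) (nat_lit 8647163905) (nat_lit 912) (nat_lit 6130355991) (nat_lit 988) (nat_lit 662761309) (nat_lit 433) (nat_lit 5) (nat_lit 445) (nat_lit 5) (nat_lit 446) (nat_lit 5) (nat_lit 601) (nat_lit 571) (nat_lit 388)) (XT.lf (nat_lit 0) (nat_lit 1088796046) (nat_lit 988) (nat_lit 13878611979) (nat_lit 76) (nat_lit 636879024) (nat_lit 420) (nat_lit 5) (nat_lit 433) (nat_lit 5) (nat_lit 421) (nat_lit 5) (nat_lit 602) (nat_lit 571) (nat_lit 387)))) (XT.nd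 (nat_lit 156) (nat_lit 836) (nat_lit 0) (XT.nd (nat_lit 78) (nat_lit 836) (nat_lit 0) (XT.lf (nat_lit 0) (nat_lit 2944895191) (nat_lit 988) (nat_lit 5316812176) (nat_lit 76) (nat_lit 7508210780) (nat_lit 420) (nat_lit 5) (nat_lit 433) (nat_lit 5) (nat_lit 421) (nat_lit 5) (nat_lit 603) (nat_lit 571) (nat_lit 386)) (XT.lf (nat_lit 0) (nat_lit 3453887432) (nat_lit 836) (nat_lit 1398703868) (nat_lit 912) (nat_lit 11085981515) (nat_lit 409) (nat_lit 5) (nat_lit 420) (nat_lit 5) (nat_lit 421) (nat_lit 5) (nat_lit 604) (nat_lit 571) (nat_lit 385))) (XT.nd (nat_lit 78) (nat_lit 836) (nat_lit 0) (XT.lf (nat_lit 0) (nat_lit 6862883637) (nat_lit 912) (nat_lit 3682163809) (nat_lit 76) (nat_lit 5564264723) (nat_lit 409) (nat_lit 5) (nat_lit 421) (nat_lit 5) (nat_lit 410) (nat_lit 5) (nat_lit 605) (nat_lit 571) (nat_lit 384)) (XT.lf (nat_lit 0) (nat_lit 5349716275) (nat_lit 836) (nat_lit 3599974522) (nat_lit 912) (nat_lit 7333049762) (nat_lit 398) (nat_lit 5) (nat_lit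 409) (nat_lit 5) (nat_lit 410) (nat_lit 5) (nat_lit 606) (nat_lit 571) (nat_lit 383))))) (XT.nd (nat_lit 312) (nat_lit 1520) (nat_lit 0) (XT.nd (nat_lit 156) (nat_lit 912) (nat_lit 0) (XT.nd (nat_lit 78) (nat_lit 836) (nat_lit 0) (XT.lf (nat_lit 0) (nat_lit 11118141632) (nat_lit 912) (nat_lit 1877474708) (nat_lit 76) (nat_lit 3463223448) (nat_lit 398) (nat_lit 5) (nat_lit 410) (nat_lit 5) (nat_lit 399) (nat_lit 5) (nat_lit 607) (nat_lit 571) (nat_lit 382)) (XT.lf (nat_lit 0) (nat_lit 7425184500) (nat_lit 836) (nat_lit 5969390036) (nat_lit 912) (nat_lit 3242594616) (nat_lit 387) (nat_lit 5) (nat_lit 398) (nat_lit 5) (nat_lit 399) (nat_lit 5) (nat_lit 608) (nat_lit 571) (nat_lit 381))) (XT.nd (nat_lit 78) (nat_lit 76) (nat_lit 0) (XT.lf (nat_lit 0) (nat_lit 106432129) (nat_lit 836) (nat_lit 15623910452) (nat_lit 912) (nat_lit 1088446799) (nat_lit 376) (nat_lit 5) (nat_lit 387) (nat_lit 5) (nat_lit 388) (nat_lit 5) (nat_lit 609) (nat_lit 571) (nat_lit 380)) (XT.lf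 (nat_lit 0) (nat_lit 1188706507) (nat_lit 912) (nat_lit 7321545022) (nat_lit 76) (nat_lit 8491757602) (nat_lit 375) (nat_lit 5) (nat_lit 387) (nat_lit 5) (nat_lit 376) (nat_lit 5) (nat_lit 610) (nat_lit 571) (nat_lit 379)))) (XT.nd (nat_lit 156) (nat_lit 760) (nat_lit 0) (XT.nd (nat_lit 78) (nat_lit 0) (nat_lit 0) (XT.lf (nat_lit 0) (nat_lit 2272138673) (nat_lit 760) (nat_lit 1232304188) (nat_lit 836) (nat_lit 13684154621) (nat_lit 365) (nat_lit 5) (nat_lit 375) (nat_lit 5) (nat_lit 376) (nat_lit 5) (nat_lit 611) (nat_lit 571) (nat_lit 378)) (XT.lf (nat_lit 0) (nat_lit 5949085408) (nat_lit 836) (nat_lit 5269141475) (nat_lit 76) (nat_lit 6159039261) (nat_lit 365) (nat_lit 5) (nat_lit 376) (nat_lit 5) (nat_lit 366) (nat_lit 5) (nat_lit 612) (nat_lit 571) (nat_lit 377))) (XT.nd (nat_lit 78) (nat_lit 0) (nat_lit 0) (XT.lf (nat_lit 0) (nat_lit 4616025518) (nat_lit 760) (nat_lit 3857802307) (nat_lit 836) (nat_lit 9095256581) (nat_lit 355) (nat_lit 5) (nat_lit 365)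 (nat_lit 5) (nat_lit 366) (nat_lit 5) (nat_lit 613) (nat_lit 571) (nat_lit 376)) (XT.lf (nat_lit 0) (nat_lit 11101514575) (nat_lit 836) (nat_lit 3025202512) (nat_lit 76) (nat_lit 3636973315) (nat_lit 355) (nat_lit 5) (nat_lit 366) (nat_lit 5) (nat_lit 356) (nat_lit 5) (nat_lit 614) (nat_lit 571) (nat_lit 375))))))) (XT.nd (nat_lit 1170) (nat_lit 4788) (nat_lit 0) (XT.nd (nat_lit 546) (nat_lit 3268) (nat_lit 0) (XT.nd (nat_lit 234) (nat_lit 1368) (nat_lit 0) (XT.nd (nat_lit 78) (nat_lit 836) (nat_lit 0) (XT.lf (nat_lit 0) (nat_lit 7162184382) (nat_lit 684) (nat_lit 6684914303) (nat_lit 760) (nat_lit 4113783313) (nat_lit 346) (nat_lit 5) (nat_lit 355) (nat_lit 5) (nat_lit 356) (nat_lit 5) (nat_lit 615) (nat_lit 571) (nat_lit 374)) (XT.nd (nat_lit 78) (nat_lit 836) (nat_lit 0) (XT.lf (nat_lit 0) (nat_lit 16667282686) (nat_lit 760) (nat_lit 580790807) (nat_lit 76) (nat_lit 913550513) (nat_lit 346) (nat_lit 5) (nat_lit 356) (nat_lit 5) (nat_lit 347) (nat_lit 5)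 (nat_lit 616) (nat_lit 571) (nat_lit 373)) (XT.lf (nat_lit 0) (nat_lit 1264903259) (nat_lit 836) (nat_lit 8452698002) (nat_lit 76) (nat_lit 8646569891) (nat_lit 335) (nat_lit 5) (nat_lit 346) (nat_lit 5) (nat_lit 336) (nat_lit 5) (nat_lit 617) (nat_lit 571) (nat_lit 372)))) (XT.nd (nat_lit 156) (nat_lit 684) (nat_lit 0) (XT.nd (nat_lit 78) (nat_lit 0) (nat_lit 0) (XT.lf (nat_lit 0) (nat_lit 2060483563) (nat_lit 684) (nat_lit 2009699549) (nat_lit 760) (nat_lit 14500171709) (nat_lit 326) (nat_lit 5) (nat_lit 335) (nat_lit 5) (nat_lit 336) (nat_lit 5) (nat_lit 618) (nat_lit 571) (nat_lit 371)) (XT.lf (nat_lit 0) (nat_lit 7020276204) (nat_lit 760) (nat_lit 5926848469) (nat_lit 76) (nat_lit 5831763658) (nat_lit 326) (nat_lit 5) (nat_lit 336) (nat_lit 5) (nat_lit 327) (nat_lit 5) (nat_lit 619) (nat_lit 571) (nat_lit 370))) (XT.nd (nat_lit 78) (nat_lit 0) (nat_lit 0) (XT.lf (nat_lit 0) (nat_lit 4911633638) (nat_lit 684) (nat_lit 5156674156) (nat_lit 760) (nat_lit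 8922506297) (nat_lit 317) (nat_lit 5) (nat_lit 326) (nat_lit 5) (nat_lit 327) (nat_lit 5) (nat_lit 620) (nat_lit 571) (nat_lit 369)) (XT.lf (nat_lit 0) (nat_lit 13229253977) (nat_lit 760) (nat_lit 3184710581) (nat_lit 76) (nat_lit 2791975035) (nat_lit 317) (nat_lit 5) (nat_lit 327) (nat_lit 5) (nat_lit 318) (nat_lit 5) (nat_lit 621) (nat_lit 571) (nat_lit 368))))) (XT.nd (nat_lit 312) (nat_lit 1292) (nat_lit 0) (XT.nd (nat_lit 156) (nat_lit 1292) (nat_lit 0) (XT.nd (nat_lit 78) (nat_lit 76) (nat_lit 0) (XT.lf (nat_lit 0) (nat_lit 7991069699) (nat_lit 608) (nat_lit 8542310767) (nat_lit 684) (nat_lit 2890388211) (nat_lit 309) (nat_lit 5) (nat_lit 317) (nat_lit 5) (nat_lit 318) (nat_lit 5) (nat_lit 622) (nat_lit 571) (nat_lit 367)) (XT.lf (nat_lit 0) (nat_lit 269729107) (nat_lit 684) (nat_lit 221072128) (nat_lit 76) (nat_lit 19154810486) (nat_lit 308) (nat_lit 5) (nat_lit 317) (nat_lit 5) (nat_lit 309) (nat_lit 5) (nat_lit 623) (nat_lit 571) (nat_lit 366))) (XT.nd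 (nat_lit 78) (nat_lit 608) (nat_lit 0) (XT.lf (nat_lit 0) (nat_lit 3572811141) (nat_lit 760) (nat_lit 8583684865) (nat_lit 76) (nat_lit 7712644500) (nat_lit 299) (nat_lit 5) (nat_lit 309) (nat_lit 5) (nat_lit 300) (nat_lit 5) (nat_lit 624) (nat_lit 571) (nat_lit 365)) (XT.lf (nat_lit 0) (nat_lit 2956326940) (nat_lit 608) (nat_lit 4003706892) (nat_lit 684) (nat_lit 13136744731) (nat_lit 291) (nat_lit 5) (nat_lit 299) (nat_lit 5) (nat_lit 300) (nat_lit 5) (nat_lit 625) (nat_lit 571) (nat_lit 364)))) (XT.nd (nat_lit 156) (nat_lit 684) (nat_lit 0) (XT.nd (nat_lit 78) (nat_lit 608) (nat_lit 0) (XT.lf (nat_lit 0) (nat_lit 10495181434) (nat_lit 684) (nat_lit 5519949165) (nat_lit 76) (nat_lit 4312235447) (nat_lit 291) (nat_lit 5) (nat_lit 300) (nat_lit 5) (nat_lit 292) (nat_lit 5) (nat_lit 626) (nat_lit 571) (nat_lit 363)) (XT.lf (nat_lit 0) (nat_lit 6383059616) (nat_lit 608) (nat_lit 7780244442) (nat_lit 684) (nat_lit 6398016046) (nat_lit 283) (nat_lit 5) (nat_lit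 291) (nat_lit 5) (nat_lit 292) (nat_lit 5) (nat_lit 627) (nat_lit 571) (nat_lit 362))) (XT.nd (nat_lit 78) (nat_lit 684) (nat_lit 0) (XT.lf (nat_lit 0) (nat_lit 17940468100) (nat_lit 684) (nat_lit 2211686620) (nat_lit 76) (nat_lit 647085204) (nat_lit 283) (nat_lit 5) (nat_lit 292) (nat_lit 5) (nat_lit 284) (nat_lit 5) (nat_lit 628) (nat_lit 571) (nat_lit 361)) (XT.lf (nat_lit 0) (nat_lit 853513894) (nat_lit 684) (nat_lit 10977592649) (nat_lit 76) (nat_lit 9208472107) (nat_lit 274) (nat_lit 5) (nat_lit 283) (nat_lit 5) (nat_lit 275) (nat_lit 5) (nat_lit 629) (nat_lit 571) (nat_lit 360)))))) (XT.nd (nat_lit 546) (nat_lit 2508) (nat_lit 0) (XT.nd (nat_lit 234) (nat_lit 1140) (nat_lit 0) (XT.nd (nat_lit 78) (nat_lit 532) (nat_lit 0) (XT.lf (nat_lit 0) (nat_lit 1317891257) (nat_lit 608) (nat_lit 3301915052) (nat_lit 684) (nat_lit 16664179360) (nat_lit 266) (nat_lit 5) (nat_lit 274) (nat_lit 5) (nat_lit 275) (nat_lit 5) (nat_lit 630) (nat_lit 571) (nat_lit 359))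 (XT.nd (nat_lit 78) (nat_lit 532) (nat_lit 0) (XT.lf (nat_lit 0) (nat_lit 8565184035) (nat_lit 684) (nat_lit 7566352465) (nat_lit 76) (nat_lit 5399669381) (nat_lit 266) (nat_lit 5) (nat_lit 275) (nat_lit 5) (nat_lit 267) (nat_lit 5) (nat_lit 631) (nat_lit 571) (nat_lit 358)) (XT.lf (nat_lit 0) (nat_lit 5119702761) (nat_lit 532) (nat_lit 7519540418) (nat_lit 608) (nat_lit 9143132078) (nat_lit 259) (nat_lit 5) (nat_lit 266) (nat_lit 5) (nat_lit 267) (nat_lit 5) (nat_lit 632) (nat_lit 571) (nat_lit 357)))) (XT.nd (nat_lit 156) (nat_lit 608) (nat_lit 0) (XT.nd (nat_lit 78) (nat_lit 532) (nat_lit 0) (XT.lf (nat_lit 0) (nat_lit 16848820615) (nat_lit 608) (nat_lit 3891066703) (nat_lit 76) (nat_lit 1297600193) (nat_lit 259) (nat_lit 5) (nat_lit 267) (nat_lit 5) (nat_lit 260) (nat_lit 5) (nat_lit 633) (nat_lit 571) (nat_lit 356)) (XT.lf (nat_lit 0) (nat_lit 9199959834) (nat_lit 532) (nat_lit 12046979311) (nat_lit 608) (nat_lit 1048676100) (nat_lit 252) (nat_lit 5)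 (nat_lit 259) (nat_lit 5) (nat_lit 260) (nat_lit 5) (nat_lit 634) (nat_lit 571) (nat_lit 355))) (XT.nd (nat_lit 78) (nat_lit 0) (nat_lit 0) (XT.lf (nat_lit 0) (nat_lit 19749896) (nat_lit 532) (nat_lit 3133989923) (nat_lit 608) (nat_lit 19404328679) (nat_lit 244) (nat_lit 5) (nat_lit 251) (nat_lit 5) (nat_lit 252) (nat_lit 5) (nat_lit 635) (nat_lit 571) (nat_lit 354)) (XT.lf (nat_lit 0) (nat_lit 7548202043) (nat_lit 608) (nat_lit 9302181491) (nat_lit 76) (nat_lit 5972808065) (nat_lit 244) (nat_lit 5) (nat_lit 252) (nat_lit 5) (nat_lit 245) (nat_lit 5) (nat_lit 636) (nat_lit 571) (nat_lit 353))))) (XT.nd (nat_lit 312) (nat_lit 1444) (nat_lit 0) (XT.nd (nat_lit 156) (nat_lit 532) (nat_lit 0) (XT.nd (nat_lit 78) (nat_lit 0) (nat_lit 0) (XT.lf (nat_lit 0) (nat_lit 4226550246) (nat_lit 532) (nat_lit 7847187414) (nat_lit 608) (nat_lit 11019016031) (nat_lit 237) (nat_lit 5) (nat_lit 244) (nat_lit 5) (nat_lit 245) (nat_lit 5) (nat_lit 637) (nat_lit 571) (nat_lit 352))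 (XT.lf (nat_lit 0) (nat_lit 16756324955) (nat_lit 608) (nat_lit 5230444575) (nat_lit 76) (nat_lit 1379606882) (nat_lit 237) (nat_lit 5) (nat_lit 245) (nat_lit 5) (nat_lit 238) (nat_lit 5) (nat_lit 638) (nat_lit 571) (nat_lit 351))) (XT.nd (nat_lit 78) (nat_lit 76) (nat_lit 0) (XT.lf (nat_lit 0) (nat_lit 8733894140) (nat_lit 456) (nat_lit 12902472026) (nat_lit 532) (nat_lit 2007029579) (nat_lit 231) (nat_lit 5) (nat_lit 237) (nat_lit 5) (nat_lit 238) (nat_lit 5) (nat_lit 639) (nat_lit 571) (nat_lit 350)) (XT.lf (nat_lit 0) (nat_lit 2683277845) (nat_lit 532) (nat_lit 901253171) (nat_lit 76) (nat_lit 20340466003) (nat_lit 230) (nat_lit 5) (nat_lit 237) (nat_lit 5) (nat_lit 231) (nat_lit 5) (nat_lit 640) (nat_lit 571) (nat_lit 349)))) (XT.nd (nat_lit 156) (nat_lit 456) (nat_lit 0) (XT.nd (nat_lit 78) (nat_lit 456) (nat_lit 0) (XT.lf (nat_lit 0) (nat_lit 7562821527) (nat_lit 608) (nat_lit 10704484155) (nat_lit 76) (nat_lit 5942213414) (nat_lit 223) (nat_lit 5)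 (nat_lit 231) (nat_lit 5) (nat_lit 224) (nat_lit 5) (nat_lit 641) (nat_lit 571) (nat_lit 348)) (XT.lf (nat_lit 0) (nat_lit 3730562103) (nat_lit 456) (nat_lit 8858723537) (nat_lit 532) (nat_lit 11909459569) (nat_lit 217) (nat_lit 5) (nat_lit 223) (nat_lit 5) (nat_lit 224) (nat_lit 5) (nat_lit 642) (nat_lit 571) (nat_lit 347))) (XT.nd (nat_lit 78) (nat_lit 456) (nat_lit 0) (XT.lf (nat_lit 0) (nat_lit 17788698135) (nat_lit 532) (nat_lit 6204853747) (nat_lit 76) (nat_lit 798755765) (nat_lit 217) (nat_lit 5) (nat_lit 224) (nat_lit 5) (nat_lit 218) (nat_lit 5) (nat_lit 643) (nat_lit 571) (nat_lit 346)) (XT.lf (nat_lit 0) (nat_lit 8698611514) (nat_lit 456) (nat_lit 14504042231) (nat_lit 532) (nat_lit 1886876670) (nat_lit 211) (nat_lit 5) (nat_lit 217) (nat_lit 5) (nat_lit 218) (nat_lit 5) (nat_lit 644) (nat_lit 571) (nat_lit 345))))))))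
noncomputable def xc175 : XT := (XT.nd (nat_lit 75582) (nat_lit 0) (nat_lit 23712) (XT.nd (nat_lit 1092) (nat_lit 3344) (nat_lit 0) (XT.nd (nat_lit 546) (nat_lit 1596) (nat_lit 0) (XT.nd (nat_lit 234) (nat_lit 912) (nat_lit 0) (XT.nd (nat_lit 78) (nat_lit 912) (nat_lit 0) (XT.lf (nat_lit 0) (nat_lit 3325830300) (nat_lit 532) (nat_lit 1436086267) (nat_lit 76) (nat_lit 20629601713) (nat_lit 210) (nat_lit 5) (nat_lit 217) (nat_lit 5) (nat_lit 211) (nat_lit 5) (nat_lit 645) (nat_lit 571) (nat_lit 344)) (XT.nd (nat_lit 78) (nat_lit 456) (nat_lit 0) (XT.lf (nat_lit 0) (nat_lit 8738121011) (nat_lit 532) (nat_lit 11749550506) (nat_lit 76) (nat_lit 5209213213) (nat_lit 204) (nat_lit 5) (nat_lit 211) (nat_lit 5) (nat_lit 205) (nat_lit 5) (nat_lit 646) (nat_lit 571) (nat_lit 343)) (XT.lf (nat_lit 0) (nat_lit 3659650729) (nat_lit 456) (nat_lit 10659555744) (nat_lit 532) (nat_lit 11687941222) (nat_lit 198) (nat_lit 5) (nat_lit 204) (nat_lit 5) (nat_lit 205) (nat_lit 5)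 (nat_lit 647) (nat_lit 571) (nat_lit 342)))) (XT.nd (nat_lit 156) (nat_lit 532) (nat_lit 0) (XT.nd (nat_lit 78) (nat_lit 380) (nat_lit 0) (XT.lf (nat_lit 0) (nat_lit 19529876369) (nat_lit 456) (nat_lit 556479907) (nat_lit 532) (nat_lit 6235770955) (nat_lit 198) (nat_lit 5) (nat_lit 204) (nat_lit 5) (nat_lit 205) (nat_lit 5) (nat_lit 648) (nat_lit 571) (nat_lit 341)) (XT.lf (nat_lit 0) (nat_lit 9124094110) (nat_lit 380) (nat_lit 16962959793) (nat_lit 456) (nat_lit 553988516) (nat_lit 193) (nat_lit 5) (nat_lit 198) (nat_lit 5) (nat_lit 199) (nat_lit 5) (nat_lit 649) (nat_lit 571) (nat_lit 340))) (XT.nd (nat_lit 78) (nat_lit 456) (nat_lit 0) (XT.lf (nat_lit 0) (nat_lit 5217939651) (nat_lit 456) (nat_lit 1558996559) (nat_lit 76) (nat_lit 20187814191) (nat_lit 192) (nat_lit 5) (nat_lit 198) (nat_lit 5) (nat_lit 193) (nat_lit 5) (nat_lit 650) (nat_lit 571) (nat_lit 339)) (XT.lf (nat_lit 0) (nat_lit 11214538634) (nat_lit 532) (nat_lit 12413473547) (nat_lit 76) (nat_lit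 3664514270) (nat_lit 186) (nat_lit 5) (nat_lit 193) (nat_lit 5) (nat_lit 187) (nat_lit 5) (nat_lit 651) (nat_lit 571) (nat_lit 338))))) (XT.nd (nat_lit 234) (nat_lit 760) (nat_lit 0) (XT.nd (nat_lit 78) (nat_lit 456) (nat_lit 0) (XT.lf (nat_lit 0) (nat_lit 4042115479) (nat_lit 380) (nat_lit 13366409091) (nat_lit 456) (nat_lit 10216784502) (nat_lit 181) (nat_lit 5) (nat_lit 186) (nat_lit 5) (nat_lit 187) (nat_lit 5) (nat_lit 652) (nat_lit 571) (nat_lit 337)) (XT.nd (nat_lit 78) (nat_lit 456) (nat_lit 0) (XT.lf (nat_lit 0) (nat_lit 20988830489) (nat_lit 380) (nat_lit 2816701970) (nat_lit 456) (nat_lit 4157632185) (nat_lit 181) (nat_lit 5) (nat_lit 186) (nat_lit 5) (nat_lit 187) (nat_lit 5) (nat_lit 653) (nat_lit 571) (nat_lit 336)) (XT.lf (nat_lit 0) (nat_lit 2109598644) (nat_lit 456) (nat_lit 18278793125) (nat_lit 76) (nat_lit 7916854572) (nat_lit 175) (nat_lit 5) (nat_lit 181) (nat_lit 5) (nat_lit 176) (nat_lit 5) (nat_lit 654) (nat_lit 571) (nat_lit 335))))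 (XT.nd (nat_lit 156) (nat_lit 380) (nat_lit 0) (XT.nd (nat_lit 78) (nat_lit 380) (nat_lit 0) (XT.lf (nat_lit 0) (nat_lit 8508243247) (nat_lit 456) (nat_lit 1244148920) (nat_lit 76) (nat_lit 18899993204) (nat_lit 175) (nat_lit 5) (nat_lit 181) (nat_lit 5) (nat_lit 176) (nat_lit 5) (nat_lit 655) (nat_lit 571) (nat_lit 334)) (XT.lf (nat_lit 0) (nat_lit 15144756662) (nat_lit 456) (nat_lit 12672841503) (nat_lit 76) (nat_lit 1186671231) (nat_lit 170) (nat_lit 5) (nat_lit 176) (nat_lit 5) (nat_lit 171) (nat_lit 5) (nat_lit 656) (nat_lit 571) (nat_lit 333))) (XT.nd (nat_lit 78) (nat_lit 0) (nat_lit 0) (XT.lf (nat_lit 0) (nat_lit 4905941751) (nat_lit 380) (nat_lit 17108928996) (nat_lit 456) (nat_lit 7346303080) (nat_lit 165) (nat_lit 5) (nat_lit 170) (nat_lit 5) (nat_lit 171) (nat_lit 5) (nat_lit 657) (nat_lit 571) (nat_lit 332)) (XT.lf (nat_lit 0) (nat_lit 23002007843) (nat_lit 380) (nat_lit 6101487342) (nat_lit 456) (nat_lit 620099127) (nat_lit 165) (nat_lit 5) (nat_lit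 170) (nat_lit 5) (nat_lit 171) (nat_lit 5) (nat_lit 658) (nat_lit 571) (nat_lit 331)))))) (XT.nd (nat_lit 546) (nat_lit 1444) (nat_lit 0) (XT.nd (nat_lit 234) (nat_lit 1064) (nat_lit 0) (XT.nd (nat_lit 78) (nat_lit 380) (nat_lit 0) (XT.lf (nat_lit 0) (nat_lit 6263404859) (nat_lit 456) (nat_lit 18654426683) (nat_lit 76) (nat_lit 5172528964) (nat_lit 159) (nat_lit 5) (nat_lit 165) (nat_lit 5) (nat_lit 160) (nat_lit 5) (nat_lit 659) (nat_lit 571) (nat_lit 330)) (XT.nd (nat_lit 78) (nat_lit 380) (nat_lit 0) (XT.lf (nat_lit 0) (nat_lit 13358236512) (nat_lit 456) (nat_lit 466687825) (nat_lit 76) (nat_lit 16637816615) (nat_lit 159) (nat_lit 5) (nat_lit 165) (nat_lit 5) (nat_lit 160) (nat_lit 5) (nat_lit 660) (nat_lit 571) (nat_lit 329)) (XT.lf (nat_lit 0) (nat_lit 18319150274) (nat_lit 380) (nat_lit 2390971911) (nat_lit 456) (nat_lit 10130143793) (nat_lit 154) (nat_lit 5) (nat_lit 159) (nat_lit 5) (nat_lit 160) (nat_lit 5) (nat_lit 661) (nat_lit 571) (nat_lit 328))))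 (XT.nd (nat_lit 156) (nat_lit 684) (nat_lit 0) (XT.nd (nat_lit 78) (nat_lit 76) (nat_lit 0) (XT.lf (nat_lit 0) (nat_lit 6277933259) (nat_lit 304) (nat_lit 22031462556) (nat_lit 380) (nat_lit 2913938802) (nat_lit 150) (nat_lit 5) (nat_lit 154) (nat_lit 5) (nat_lit 155) (nat_lit 5) (nat_lit 662) (nat_lit 571) (nat_lit 327)) (XT.lf (nat_lit 0) (nat_lit 4484936604) (nat_lit 380) (nat_lit 6040902542) (nat_lit 76) (nat_lit 21085714907) (nat_lit 149) (nat_lit 5) (nat_lit 154) (nat_lit 5) (nat_lit 150) (nat_lit 5) (nat_lit 663) (nat_lit 571) (nat_lit 326))) (XT.nd (nat_lit 78) (nat_lit 304) (nat_lit 0) (XT.lf (nat_lit 0) (nat_lit 12084628182) (nat_lit 456) (nat_lit 18621832966) (nat_lit 76) (nat_lit 1298854489) (nat_lit 144) (nat_lit 5) (nat_lit 150) (nat_lit 5) (nat_lit 145) (nat_lit 5) (nat_lit 664) (nat_lit 571) (nat_lit 325)) (XT.lf (nat_lit 0) (nat_lit 806854260) (nat_lit 304) (nat_lit 19141555813) (nat_lit 380) (nat_lit 12456300558) (nat_lit 140) (nat_lit 5)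 (nat_lit 144) (nat_lit 5) (nat_lit 145) (nat_lit 5) (nat_lit 665) (nat_lit 571) (nat_lit 324))))) (XT.nd (nat_lit 312) (nat_lit 684) (nat_lit 0) (XT.nd (nat_lit 156) (nat_lit 304) (nat_lit 0) (XT.nd (nat_lit 78) (nat_lit 456) (nat_lit 0) (XT.lf (nat_lit 0) (nat_lit 20870725892) (nat_lit 304) (nat_lit 7220082159) (nat_lit 380) (nat_lit 4718858771) (nat_lit 140) (nat_lit 5) (nat_lit 144) (nat_lit 5) (nat_lit 145) (nat_lit 5) (nat_lit 666) (nat_lit 571) (nat_lit 323)) (XT.lf (nat_lit 0) (nat_lit 3213888501) (nat_lit 456) (nat_lit 25059592891) (nat_lit 76) (nat_lit 4947185270) (nat_lit 134) (nat_lit 5) (nat_lit 140) (nat_lit 5) (nat_lit 135) (nat_lit 5) (nat_lit 667) (nat_lit 571) (nat_lit 322))) (XT.nd (nat_lit 78) (nat_lit 304) (nat_lit 0) (XT.lf (nat_lit 0) (nat_lit 11367071023) (nat_lit 456) (nat_lit 4898722172) (nat_lit 76) (nat_lit 17370970252) (nat_lit 134) (nat_lit 5) (nat_lit 140) (nat_lit 5) (nat_lit 135) (nat_lit 5) (nat_lit 668) (nat_lit 571) (nat_lit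 321)) (XT.lf (nat_lit 0) (nat_lit 15867822509) (nat_lit 304) (nat_lit 3915033325) (nat_lit 380) (nat_lit 14276335658) (nat_lit 130) (nat_lit 5) (nat_lit 134) (nat_lit 5) (nat_lit 135) (nat_lit 5) (nat_lit 669) (nat_lit 571) (nat_lit 320)))) (XT.nd (nat_lit 156) (nat_lit 304) (nat_lit 0) (XT.nd (nat_lit 78) (nat_lit 76) (nat_lit 0) (XT.lf (nat_lit 0) (nat_lit 2598508250) (nat_lit 304) (nat_lit 25871316219) (nat_lit 380) (nat_lit 6018186362) (nat_lit 126) (nat_lit 5) (nat_lit 130) (nat_lit 5) (nat_lit 131) (nat_lit 5) (nat_lit 670) (nat_lit 571) (nat_lit 319)) (XT.lf (nat_lit 0) (nat_lit 2518932365) (nat_lit 380) (nat_lit 10920224244) (nat_lit 76) (nat_lit 21483030725) (nat_lit 125) (nat_lit 5) (nat_lit 130) (nat_lit 5) (nat_lit 126) (nat_lit 5) (nat_lit 671) (nat_lit 571) (nat_lit 318))) (XT.nd (nat_lit 73398) (nat_lit 0) (nat_lit 30248) (XT.lf (nat_lit 0) (nat_lit 10561532378) (nat_lit 304) (nat_lit 649933840) (nat_lit 380) (nat_lit 24151480508) (nat_lit 121)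 (nat_lit 5) (nat_lit 125) (nat_lit 5) (nat_lit 126) (nat_lit 5) (nat_lit 672) (nat_lit 571) (nat_lit 317)) (XT.lf (nat_lit 0) (nat_lit 4156972522) (nat_lit 1748) (nat_lit 850013609) (nat_lit 1748) (nat_lit 850013609) (nat_lit 519) (nat_lit 3) (nat_lit 542) (nat_lit 3) (nat_lit 542) (nat_lit 5) (nat_lit 572) (nat_lit 572) (nat_lit 416))))))) (XT.nd (nat_lit 1170) (nat_lit 4940) (nat_lit 0) (XT.nd (nat_lit 546) (nat_lit 0) (nat_lit 76) (XT.nd (nat_lit 234) (nat_lit 1596) (nat_lit 0) (XT.nd (nat_lit 78) (nat_lit 0) (nat_lit 76) (XT.lf (nat_lit 76) (nat_lit 4166218442) (nat_lit 0) (nat_lit 4756572572) (nat_lit 1748) (nat_lit 2897802236) (nat_lit 520) (nat_lit 5) (nat_lit 519) (nat_lit 3) (nat_lit 542) (nat_lit 5) (nat_lit 573) (nat_lit 572) (nat_lit 415)) (XT.nd (nat_lit 78) (nat_lit 0) (nat_lit 0) (XT.lf (nat_lit 0) (nat_lit 9546149410) (nat_lit 1672) (nat_lit 1767331827) (nat_lit 1748) (nat_lit 615791788) (nat_lit 520) (nat_lit 5) (nat_lit 542) (nat_lit 5) (nat_lit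 543) (nat_lit 5) (nat_lit 574) (nat_lit 572) (nat_lit 414)) (XT.lf (nat_lit 76) (nat_lit 4254828405) (nat_lit 0) (nat_lit 5973446222) (nat_lit 1748) (nat_lit 1810926600) (nat_lit 521) (nat_lit 5) (nat_lit 520) (nat_lit 5) (nat_lit 543) (nat_lit 5) (nat_lit 575) (nat_lit 572) (nat_lit 413)))) (XT.nd (nat_lit 156) (nat_lit 1672) (nat_lit 0) (XT.nd (nat_lit 78) (nat_lit 0) (nat_lit 76) (XT.lf (nat_lit 76) (nat_lit 10414508089) (nat_lit 0) (nat_lit 508774811) (nat_lit 1748) (nat_lit 1228061092) (nat_lit 521) (nat_lit 5) (nat_lit 520) (nat_lit 5) (nat_lit 543) (nat_lit 5) (nat_lit 576) (nat_lit 572) (nat_lit 412)) (XT.lf (nat_lit 76) (nat_lit 4450098776) (nat_lit 0) (nat_lit 7231536916) (nat_lit 1748) (nat_lit 583105825) (nat_lit 522) (nat_lit 5) (nat_lit 521) (nat_lit 5) (nat_lit 544) (nat_lit 5) (nat_lit 577) (nat_lit 572) (nat_lit 411))) (XT.nd (nat_lit 78) (nat_lit 0) (nat_lit 76) (XT.lf (nat_lit 0) (nat_lit 76649997) (nat_lit 1748) (nat_lit 1606937503) (nat_lit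 1824) (nat_lit 10696752914) (nat_lit 498) (nat_lit 5) (nat_lit 521) (nat_lit 5) (nat_lit 522) (nat_lit 5) (nat_lit 578) (nat_lit 572) (nat_lit 410)) (XT.lf (nat_lit 0) (nat_lit 786907386) (nat_lit 1748) (nat_lit 7747167329) (nat_lit 1824) (nat_lit 3963197951) (nat_lit 499) (nat_lit 5) (nat_lit 522) (nat_lit 5) (nat_lit 523) (nat_lit 5) (nat_lit 579) (nat_lit 572) (nat_lit 409))))) (XT.nd (nat_lit 312) (nat_lit 0) (nat_lit 152) (XT.nd (nat_lit 156) (nat_lit 0) (nat_lit 76) (XT.nd (nat_lit 78) (nat_lit 0) (nat_lit 76) (XT.lf (nat_lit 0) (nat_lit 1521615146) (nat_lit 1748) (nat_lit 1378706214) (nat_lit 1824) (nat_lit 9716018030) (nat_lit 499) (nat_lit 5) (nat_lit 522) (nat_lit 5) (nat_lit 523) (nat_lit 5) (nat_lit 580) (nat_lit 572) (nat_lit 408)) (XT.lf (nat_lit 0) (nat_lit 2311837419) (nat_lit 1748) (nat_lit 7578129911) (nat_lit 1824) (nat_lit 2847004432) (nat_lit 500) (nat_lit 5) (nat_lit 523) (nat_lit 5) (nat_lit 524) (nat_lit 5) (nat_lit 581) (nat_lit 572)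 (nat_lit 407))) (XT.nd (nat_lit 78) (nat_lit 0) (nat_lit 76) (XT.lf (nat_lit 0) (nat_lit 3135064386) (nat_lit 1748) (nat_lit 1040566925) (nat_lit 1824) (nat_lit 8684042168) (nat_lit 500) (nat_lit 5) (nat_lit 523) (nat_lit 5) (nat_lit 524) (nat_lit 5) (nat_lit 582) (nat_lit 572) (nat_lit 406)) (XT.lf (nat_lit 0) (nat_lit 4011637978) (nat_lit 1748) (nat_lit 7300026122) (nat_lit 1824) (nat_lit 1672428179) (nat_lit 501) (nat_lit 5) (nat_lit 524) (nat_lit 5) (nat_lit 525) (nat_lit 5) (nat_lit 583) (nat_lit 572) (nat_lit 405)))) (XT.nd (nat_lit 156) (nat_lit 0) (nat_lit 76) (XT.nd (nat_lit 78) (nat_lit 0) (nat_lit 76) (XT.lf (nat_lit 0) (nat_lit 4929523185) (nat_lit 1748) (nat_lit 588612161) (nat_lit 1824) (nat_lit 7592389184) (nat_lit 501) (nat_lit 5) (nat_lit 524) (nat_lit 5) (nat_lit 525) (nat_lit 5) (nat_lit 584) (nat_lit 572) (nat_lit 404)) (XT.lf (nat_lit 0) (nat_lit 5899030342) (nat_lit 1748) (nat_lit 6908831688) (nat_lit 1824) (nat_lit 430958775) (nat_lit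 502) (nat_lit 5) (nat_lit 525) (nat_lit 5) (nat_lit 526) (nat_lit 5) (nat_lit 585) (nat_lit 572) (nat_lit 403))) (XT.nd (nat_lit 78) (nat_lit 0) (nat_lit 0) (XT.lf (nat_lit 0) (nat_lit 6917944322) (nat_lit 1748) (nat_lit 18624372) (nat_lit 1824) (nat_lit 6432514630) (nat_lit 502) (nat_lit 5) (nat_lit 525) (nat_lit 5) (nat_lit 526) (nat_lit 5) (nat_lit 586) (nat_lit 572) (nat_lit 402)) (XT.lf (nat_lit 76) (nat_lit 7095195302) (nat_lit 0) (nat_lit 897810620) (nat_lit 1824) (nat_lit 5508230420) (nat_lit 503) (nat_lit 5) (nat_lit 502) (nat_lit 5) (nat_lit 526) (nat_lit 5) (nat_lit 587) (nat_lit 572) (nat_lit 401)))))) (XT.nd (nat_lit 546) (nat_lit 3648) (nat_lit 0) (XT.nd (nat_lit 234) (nat_lit 1672) (nat_lit 0) (XT.nd (nat_lit 78) (nat_lit 0) (nat_lit 0) (XT.lf (nat_lit 76) (nat_lit 682885193) (nat_lit 0) (nat_lit 8435282615) (nat_lit 1824) (nat_lit 4517293259) (nat_lit 504) (nat_lit 5) (nat_lit 503) (nat_lit 5) (nat_lit 527) (nat_lit 5) (nat_lit 588) (nat_lit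 572) (nat_lit 400)) (XT.nd (nat_lit 78) (nat_lit 0) (nat_lit 76) (XT.lf (nat_lit 76) (nat_lit 7987028115) (nat_lit 0) (nat_lit 2317726904) (nat_lit 1824) (nat_lit 3466837438) (nat_lit 504) (nat_lit 5) (nat_lit 503) (nat_lit 5) (nat_lit 527) (nat_lit 5) (nat_lit 589) (nat_lit 572) (nat_lit 399)) (XT.lf (nat_lit 76) (nat_lit 1513754431) (nat_lit 0) (nat_lit 10026852855) (nat_lit 1824) (nat_lit 2369329125) (nat_lit 505) (nat_lit 5) (nat_lit 504) (nat_lit 5) (nat_lit 528) (nat_lit 5) (nat_lit 590) (nat_lit 572) (nat_lit 398)))) (XT.nd (nat_lit 156) (nat_lit 0) (nat_lit 0) (XT.nd (nat_lit 78) (nat_lit 1748) (nat_lit 0) (XT.lf (nat_lit 76) (nat_lit 9013505902) (nat_lit 0) (nat_lit 3832119377) (nat_lit 1824) (nat_lit 1204533580) (nat_lit 505) (nat_lit 5) (nat_lit 504) (nat_lit 5) (nat_lit 528) (nat_lit 5) (nat_lit 591) (nat_lit 572) (nat_lit 397)) (XT.lf (nat_lit 0) (nat_lit 6749122) (nat_lit 1824) (nat_lit 11713789501) (nat_lit 1900) (nat_lit 2472190323) (nat_lit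 481) (nat_lit 5) (nat_lit 505) (nat_lit 5) (nat_lit 506) (nat_lit 5) (nat_lit 592) (nat_lit 572) (nat_lit 396))) (XT.nd (nat_lit 78) (nat_lit 0) (nat_lit 76) (XT.lf (nat_lit 0) (nat_lit 1276204828) (nat_lit 1824) (nat_lit 4165462597) (nat_lit 1900) (nat_lit 8895322804) (nat_lit 481) (nat_lit 5) (nat_lit 505) (nat_lit 5) (nat_lit 506) (nat_lit 5) (nat_lit 593) (nat_lit 572) (nat_lit 395)) (XT.lf (nat_lit 0) (nat_lit 2591509609) (nat_lit 1824) (nat_lit 10916955342) (nat_lit 1900) (nat_lit 975263133) (nat_lit 482) (nat_lit 5) (nat_lit 506) (nat_lit 5) (nat_lit 507) (nat_lit 5) (nat_lit 594) (nat_lit 572) (nat_lit 394))))) (XT.nd (nat_lit 312) (nat_lit 1976) (nat_lit 0) (XT.nd (nat_lit 156) (nat_lit 1748) (nat_lit 0) (XT.nd (nat_lit 78) (nat_lit 0) (nat_lit 0) (XT.lf (nat_lit 0) (nat_lit 3988281947) (nat_lit 1824) (nat_lit 3166469326) (nat_lit 1900) (nat_lit 7477546727) (nat_lit 482) (nat_lit 5) (nat_lit 506) (nat_lit 5) (nat_lit 507) (nat_lit 5) (nat_lit 595)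 (nat_lit 572) (nat_lit 393)) (XT.lf (nat_lit 76) (nat_lit 4794533299) (nat_lit 0) (nat_lit 640748826) (nat_lit 1900) (nat_lit 9348111864) (nat_lit 483) (nat_lit 5) (nat_lit 482) (nat_lit 5) (nat_lit 507) (nat_lit 5) (nat_lit 596) (nat_lit 572) (nat_lit 392))) (XT.nd (nat_lit 78) (nat_lit 1824) (nat_lit 0) (XT.lf (nat_lit 0) (nat_lit 6962888435) (nat_lit 1824) (nat_lit 2026037760) (nat_lit 76) (nat_lit 5947552895) (nat_lit 483) (nat_lit 5) (nat_lit 507) (nat_lit 5) (nat_lit 484) (nat_lit 5) (nat_lit 597) (nat_lit 572) (nat_lit 391)) (XT.lf (nat_lit 0) (nat_lit 6165294962) (nat_lit 1824) (nat_lit 2391492901) (nat_lit 1900) (nat_lit 6535123713) (nat_lit 459) (nat_lit 5) (nat_lit 483) (nat_lit 5) (nat_lit 484) (nat_lit 5) (nat_lit 598) (nat_lit 572) (nat_lit 390)))) (XT.nd (nat_lit 156) (nat_lit 912) (nat_lit 0) (XT.nd (nat_lit 78) (nat_lit 1064) (nat_lit 0) (XT.lf (nat_lit 0) (nat_lit 10216010920) (nat_lit 1900) (nat_lit 738007142) (nat_lit 76) (nat_lit 4295766230)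 (nat_lit 459) (nat_lit 5) (nat_lit 484) (nat_lit 5) (nat_lit 460) (nat_lit 5) (nat_lit 599) (nat_lit 572) (nat_lit 389)) (XT.lf (nat_lit 0) (nat_lit 7692076977) (nat_lit 1064) (nat_lit 4273881391) (nat_lit 1140) (nat_lit 3443705780) (nat_lit 445) (nat_lit 5) (nat_lit 459) (nat_lit 5) (nat_lit 460) (nat_lit 5) (nat_lit 600) (nat_lit 572) (nat_lit 388))) (XT.nd (nat_lit 78) (nat_lit 0) (nat_lit 0) (XT.lf (nat_lit 0) (nat_lit 713495601) (nat_lit 912) (nat_lit 13055397072) (nat_lit 988) (nat_lit 1803489643) (nat_lit 433) (nat_lit 5) (nat_lit 445) (nat_lit 5) (nat_lit 446) (nat_lit 5) (nat_lit 601) (nat_lit 572) (nat_lit 387)) (XT.lf (nat_lit 0) (nat_lit 9381720171) (nat_lit 912) (nat_lit 6298063056) (nat_lit 988) (nat_lit 57134133) (nat_lit 433) (nat_lit 5) (nat_lit 445) (nat_lit 5) (nat_lit 446) (nat_lit 5) (nat_lit 602) (nat_lit 572) (nat_lit 386))))))))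
noncomputable def xc176 : XT := (XT.nd (nat_lit 2262) (nat_lit 8132) (nat_lit 0) (XT.nd (nat_lit 1092) (nat_lit 6080) (nat_lit 0) (XT.nd (nat_lit 546) (nat_lit 3116) (nat_lit 0) (XT.nd (nat_lit 234) (nat_lit 1672) (nat_lit 0) (XT.nd (nat_lit 78) (nat_lit 836) (nat_lit 0) (XT.lf (nat_lit 0) (nat_lit 1712800117) (nat_lit 988) (nat_lit 13577848617) (nat_lit 76) (nat_lit 613645651) (nat_lit 420) (nat_lit 5) (nat_lit 433) (nat_lit 5) (nat_lit 421) (nat_lit 5) (nat_lit 603) (nat_lit 572) (nat_lit 385)) (XT.nd (nat_lit 78) (nat_lit 836) (nat_lit 0) (XT.lf (nat_lit 0) (nat_lit 3594212850) (nat_lit 988) (nat_lit 4856152732) (nat_lit 76) (nat_lit 7623109355) (nat_lit 420) (nat_lit 5) (nat_lit 433) (nat_lit 5) (nat_lit 421) (nat_lit 5) (nat_lit 604) (nat_lit 572) (nat_lit 384)) (XT.lf (nat_lit 0) (nat_lit 4086230634) (nat_lit 836) (nat_lit 1445912482) (nat_lit 912) (nat_lit 10713518628) (nat_lit 409) (nat_lit 5) (nat_lit 420) (nat_lit 5) (nat_lit 421) (nat_lit 5) (nat_lit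 605) (nat_lit 572) (nat_lit 383)))) (XT.nd (nat_lit 156) (nat_lit 836) (nat_lit 0) (XT.nd (nat_lit 78) (nat_lit 836) (nat_lit 0) (XT.lf (nat_lit 0) (nat_lit 7571097297) (nat_lit 912) (nat_lit 3192010159) (nat_lit 76) (nat_lit 5656939946) (nat_lit 409) (nat_lit 5) (nat_lit 421) (nat_lit 5) (nat_lit 410) (nat_lit 5) (nat_lit 606) (nat_lit 572) (nat_lit 382)) (XT.lf (nat_lit 0) (nat_lit 6016798336) (nat_lit 836) (nat_lit 3675283509) (nat_lit 912) (nat_lit 6905014315) (nat_lit 398) (nat_lit 5) (nat_lit 409) (nat_lit 5) (nat_lit 410) (nat_lit 5) (nat_lit 607) (nat_lit 572) (nat_lit 381))) (XT.nd (nat_lit 78) (nat_lit 836) (nat_lit 0) (XT.lf (nat_lit 0) (nat_lit 11892833626) (nat_lit 912) (nat_lit 1354819856) (nat_lit 76) (nat_lit 3529285866) (nat_lit 398) (nat_lit 5) (nat_lit 410) (nat_lit 5) (nat_lit 399) (nat_lit 5) (nat_lit 608) (nat_lit 572) (nat_lit 380)) (XT.lf (nat_lit 0) (nat_lit 8130206981) (nat_lit 836) (nat_lit 6077371513) (nat_lit 912) (nat_lit 2751401741)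 (nat_lit 387) (nat_lit 5) (nat_lit 398) (nat_lit 5) (nat_lit 399) (nat_lit 5) (nat_lit 609) (nat_lit 572) (nat_lit 379))))) (XT.nd (nat_lit 234) (nat_lit 1444) (nat_lit 0) (XT.nd (nat_lit 78) (nat_lit 836) (nat_lit 0) (XT.lf (nat_lit 0) (nat_lit 672205062) (nat_lit 836) (nat_lit 15910900516) (nat_lit 912) (nat_lit 561267004) (nat_lit 376) (nat_lit 5) (nat_lit 387) (nat_lit 5) (nat_lit 388) (nat_lit 5) (nat_lit 610) (nat_lit 572) (nat_lit 378)) (XT.nd (nat_lit 78) (nat_lit 760) (nat_lit 0) (XT.lf (nat_lit 0) (nat_lit 1743607273) (nat_lit 912) (nat_lit 6908296770) (nat_lit 76) (nat_lit 8679494421) (nat_lit 375) (nat_lit 5) (nat_lit 387) (nat_lit 5) (nat_lit 376) (nat_lit 5) (nat_lit 611) (nat_lit 572) (nat_lit 377)) (XT.lf (nat_lit 0) (nat_lit 2873578500) (nat_lit 760) (nat_lit 1225275508) (nat_lit 836) (nat_lit 13423001215) (nat_lit 365) (nat_lit 5) (nat_lit 375) (nat_lit 5) (nat_lit 376) (nat_lit 5) (nat_lit 612) (nat_lit 572) (nat_lit 376)))) (XT.nd (nat_lit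 156) (nat_lit 684) (nat_lit 0) (XT.nd (nat_lit 78) (nat_lit 760) (nat_lit 0) (XT.lf (nat_lit 0) (nat_lit 6582310198) (nat_lit 836) (nat_lit 4819322728) (nat_lit 76) (nat_lit 6312866461) (nat_lit 365) (nat_lit 5) (nat_lit 376) (nat_lit 5) (nat_lit 366) (nat_lit 5) (nat_lit 613) (nat_lit 572) (nat_lit 375)) (XT.lf (nat_lit 0) (nat_lit 5259894962) (nat_lit 760) (nat_lit 3891150324) (nat_lit 836) (nat_lit 8759239304) (nat_lit 355) (nat_lit 5) (nat_lit 365) (nat_lit 5) (nat_lit 366) (nat_lit 5) (nat_lit 614) (nat_lit 572) (nat_lit 374))) (XT.nd (nat_lit 78) (nat_lit 684) (nat_lit 0) (XT.lf (nat_lit 0) (nat_lit 11821608922) (nat_lit 836) (nat_lit 2535269301) (nat_lit 76) (nat_lit 3752098545) (nat_lit 355) (nat_lit 5) (nat_lit 366) (nat_lit 5) (nat_lit 356) (nat_lit 5) (nat_lit 615) (nat_lit 572) (nat_lit 373)) (XT.lf (nat_lit 0) (nat_lit 7852244033) (nat_lit 684) (nat_lit 6763645011) (nat_lit 760) (nat_lit 3694347978) (nat_lit 346) (nat_lit 5) (nat_lit 355) (nat_lit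 5) (nat_lit 356) (nat_lit 5) (nat_lit 616) (nat_lit 572) (nat_lit 372)))))) (XT.nd (nat_lit 546) (nat_lit 3268) (nat_lit 0) (XT.nd (nat_lit 234) (nat_lit 1292) (nat_lit 0) (XT.nd (nat_lit 78) (nat_lit 1520) (nat_lit 0) (XT.lf (nat_lit 0) (nat_lit 17483182528) (nat_lit 760) (nat_lit 46993198) (nat_lit 76) (nat_lit 985004531) (nat_lit 346) (nat_lit 5) (nat_lit 356) (nat_lit 5) (nat_lit 347) (nat_lit 5) (nat_lit 617) (nat_lit 572) (nat_lit 371)) (XT.nd (nat_lit 78) (nat_lit 684) (nat_lit 0) (XT.lf (nat_lit 0) (nat_lit 1769992242) (nat_lit 836) (nat_lit 8073526445) (nat_lit 76) (nat_lit 8878315901) (nat_lit 335) (nat_lit 5) (nat_lit 346) (nat_lit 5) (nat_lit 336) (nat_lit 5) (nat_lit 618) (nat_lit 572) (nat_lit 370)) (XT.lf (nat_lit 0) (nat_lit 2646312005) (nat_lit 684) (nat_lit 1979194049) (nat_lit 760) (nat_lit 14306753784) (nat_lit 326) (nat_lit 5) (nat_lit 335) (nat_lit 5) (nat_lit 336) (nat_lit 5) (nat_lit 619) (nat_lit 572) (nat_lit 369)))) (XT.nd (nat_lit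 156) (nat_lit 608) (nat_lit 0) (XT.nd (nat_lit 78) (nat_lit 684) (nat_lit 0) (XT.lf (nat_lit 0) (nat_lit 7625758500) (nat_lit 760) (nat_lit 5502579730) (nat_lit 76) (nat_lit 6016803102) (nat_lit 326) (nat_lit 5) (nat_lit 336) (nat_lit 5) (nat_lit 327) (nat_lit 5) (nat_lit 620) (nat_lit 572) (nat_lit 368)) (XT.lf (nat_lit 0) (nat_lit 5549100929) (nat_lit 684) (nat_lit 5180031709) (nat_lit 760) (nat_lit 8632285786) (nat_lit 317) (nat_lit 5) (nat_lit 326) (nat_lit 5) (nat_lit 327) (nat_lit 5) (nat_lit 621) (nat_lit 572) (nat_lit 367))) (XT.nd (nat_lit 78) (nat_lit 608) (nat_lit 0) (XT.lf (nat_lit 0) (nat_lit 13944796552) (nat_lit 760) (nat_lit 2711219882) (nat_lit 76) (nat_lit 2925000472) (nat_lit 317) (nat_lit 5) (nat_lit 327) (nat_lit 5) (nat_lit 318) (nat_lit 5) (nat_lit 622) (nat_lit 572) (nat_lit 366)) (XT.lf (nat_lit 0) (nat_lit 8684541893) (nat_lit 608) (nat_lit 8625086191) (nat_lit 684) (nat_lit 2493682477) (nat_lit 309) (nat_lit 5) (nat_lit 317) (nat_lit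 5) (nat_lit 318) (nat_lit 5) (nat_lit 623) (nat_lit 572) (nat_lit 365))))) (XT.nd (nat_lit 312) (nat_lit 1900) (nat_lit 0) (XT.nd (nat_lit 156) (nat_lit 608) (nat_lit 0) (XT.nd (nat_lit 78) (nat_lit 0) (nat_lit 0) (XT.lf (nat_lit 0) (nat_lit 307592806) (nat_lit 684) (nat_lit 409285305) (nat_lit 760) (nat_lit 19312789716) (nat_lit 299) (nat_lit 5) (nat_lit 308) (nat_lit 5) (nat_lit 309) (nat_lit 5) (nat_lit 624) (nat_lit 572) (nat_lit 364)) (XT.lf (nat_lit 0) (nat_lit 4079405349) (nat_lit 760) (nat_lit 8221666352) (nat_lit 76) (nat_lit 7956728228) (nat_lit 299) (nat_lit 5) (nat_lit 309) (nat_lit 5) (nat_lit 300) (nat_lit 5) (nat_lit 625) (nat_lit 572) (nat_lit 363))) (XT.nd (nat_lit 78) (nat_lit 0) (nat_lit 0) (XT.lf (nat_lit 0) (nat_lit 3545634557) (nat_lit 608) (nat_lit 3983648107) (nat_lit 684) (nat_lit 12960810285) (nat_lit 291) (nat_lit 5) (nat_lit 299) (nat_lit 5) (nat_lit 300) (nat_lit 5) (nat_lit 626) (nat_lit 572) (nat_lit 362)) (XT.lf (nat_lit 0)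 (nat_lit 11127338282) (nat_lit 684) (nat_lit 5102748016) (nat_lit 76) (nat_lit 4495362178) (nat_lit 291) (nat_lit 5) (nat_lit 300) (nat_lit 5) (nat_lit 292) (nat_lit 5) (nat_lit 627) (nat_lit 572) (nat_lit 361)))) (XT.nd (nat_lit 156) (nat_lit 1292) (nat_lit 0) (XT.nd (nat_lit 78) (nat_lit 0) (nat_lit 0) (XT.lf (nat_lit 0) (nat_lit 7034849887) (nat_lit 608) (nat_lit 7829096990) (nat_lit 684) (nat_lit 6100232655) (nat_lit 283) (nat_lit 5) (nat_lit 291) (nat_lit 5) (nat_lit 292) (nat_lit 5) (nat_lit 628) (nat_lit 572) (nat_lit 360)) (XT.lf (nat_lit 0) (nat_lit 18709149859) (nat_lit 684) (nat_lit 1734544916) (nat_lit 76) (nat_lit 763313442) (nat_lit 283) (nat_lit 5) (nat_lit 292) (nat_lit 5) (nat_lit 284) (nat_lit 5) (nat_lit 629) (nat_lit 572) (nat_lit 359))) (XT.nd (nat_lit 78) (nat_lit 608) (nat_lit 0) (XT.lf (nat_lit 0) (nat_lit 1278484573) (nat_lit 684) (nat_lit 10673760069) (nat_lit 76) (nat_lit 9499949257) (nat_lit 274) (nat_lit 5) (nat_lit 283) (nat_lit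 5) (nat_lit 275) (nat_lit 5) (nat_lit 630) (nat_lit 572) (nat_lit 358)) (XT.lf (nat_lit 0) (nat_lit 1864190196) (nat_lit 608) (nat_lit 3251290395) (nat_lit 684) (nat_lit 16586101270) (nat_lit 266) (nat_lit 5) (nat_lit 274) (nat_lit 5) (nat_lit 275) (nat_lit 5) (nat_lit 631) (nat_lit 572) (nat_lit 357))))))) (XT.nd (nat_lit 1092) (nat_lit 3952) (nat_lit 0) (XT.nd (nat_lit 546) (nat_lit 1976) (nat_lit 0) (XT.nd (nat_lit 234) (nat_lit 1672) (nat_lit 0) (XT.nd (nat_lit 78) (nat_lit 532) (nat_lit 0) (XT.lf (nat_lit 0) (nat_lit 9132601058) (nat_lit 684) (nat_lit 7200750904) (nat_lit 76) (nat_lit 5620538164) (nat_lit 266) (nat_lit 5) (nat_lit 275) (nat_lit 5) (nat_lit 267) (nat_lit 5) (nat_lit 632) (nat_lit 572) (nat_lit 356)) (XT.nd (nat_lit 78) (nat_lit 0) (nat_lit 0) (XT.lf (nat_lit 0) (nat_lit 5735624580) (nat_lit 532) (nat_lit 7548084039) (nat_lit 608) (nat_lit 8926463270) (nat_lit 259) (nat_lit 5) (nat_lit 266) (nat_lit 5) (nat_lit 267) (nat_lit 5) (nat_lit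 633) (nat_lit 572) (nat_lit 355)) (XT.lf (nat_lit 0) (nat_lit 17570573194) (nat_lit 608) (nat_lit 3458508112) (nat_lit 76) (nat_lit 1441443510) (nat_lit 259) (nat_lit 5) (nat_lit 267) (nat_lit 5) (nat_lit 260) (nat_lit 5) (nat_lit 634) (nat_lit 572) (nat_lit 354)))) (XT.nd (nat_lit 156) (nat_lit 532) (nat_lit 0) (XT.nd (nat_lit 78) (nat_lit 608) (nat_lit 0) (XT.lf (nat_lit 0) (nat_lit 9890981193) (nat_lit 532) (nat_lit 12161420195) (nat_lit 608) (nat_lit 681499102) (nat_lit 252) (nat_lit 5) (nat_lit 259) (nat_lit 5) (nat_lit 260) (nat_lit 5) (nat_lit 635) (nat_lit 572) (nat_lit 353)) (XT.lf (nat_lit 0) (nat_lit 528904715) (nat_lit 532) (nat_lit 3066761984) (nat_lit 608) (nat_lit 19405970180) (nat_lit 244) (nat_lit 5) (nat_lit 251) (nat_lit 5) (nat_lit 252) (nat_lit 5) (nat_lit 636) (nat_lit 572) (nat_lit 352))) (XT.nd (nat_lit 78) (nat_lit 532) (nat_lit 0) (XT.lf (nat_lit 0) (nat_lit 8071416605) (nat_lit 608) (nat_lit 8982823786) (nat_lit 76) (nat_lit 6217954397)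 (nat_lit 244) (nat_lit 5) (nat_lit 252) (nat_lit 5) (nat_lit 245) (nat_lit 5) (nat_lit 637) (nat_lit 572) (nat_lit 351)) (XT.lf (nat_lit 0) (nat_lit 4813157577) (nat_lit 532) (nat_lit 7870266140) (nat_lit 608) (nat_lit 10863805495) (nat_lit 237) (nat_lit 5) (nat_lit 244) (nat_lit 5) (nat_lit 245) (nat_lit 5) (nat_lit 638) (nat_lit 572) (nat_lit 350))))) (XT.nd (nat_lit 234) (nat_lit 1444) (nat_lit 0) (XT.nd (nat_lit 78) (nat_lit 532) (nat_lit 0) (XT.lf (nat_lit 0) (nat_lit 17453295027) (nat_lit 608) (nat_lit 4836439017) (nat_lit 76) (nat_lit 1536717999) (nat_lit 237) (nat_lit 5) (nat_lit 245) (nat_lit 5) (nat_lit 238) (nat_lit 5) (nat_lit 639) (nat_lit 572) (nat_lit 349)) (XT.nd (nat_lit 78) (nat_lit 76) (nat_lit 0) (XT.lf (nat_lit 0) (nat_lit 9403906114) (nat_lit 456) (nat_lit 13023152014) (nat_lit 532) (nat_lit 1682031507) (nat_lit 231) (nat_lit 5) (nat_lit 237) (nat_lit 5) (nat_lit 238) (nat_lit 5) (nat_lit 640) (nat_lit 572) (nat_lit 348)) (XT.lf (nat_lit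 0) (nat_lit 3090227523) (nat_lit 532) (nat_lit 428947457) (nat_lit 76) (nat_lit 20877242138) (nat_lit 230) (nat_lit 5) (nat_lit 237) (nat_lit 5) (nat_lit 231) (nat_lit 5) (nat_lit 641) (nat_lit 572) (nat_lit 347)))) (XT.nd (nat_lit 156) (nat_lit 456) (nat_lit 0) (XT.nd (nat_lit 78) (nat_lit 456) (nat_lit 0) (XT.lf (nat_lit 0) (nat_lit 8064490842) (nat_lit 608) (nat_lit 10425357941) (nat_lit 76) (nat_lit 6196838554) (nat_lit 223) (nat_lit 5) (nat_lit 231) (nat_lit 5) (nat_lit 224) (nat_lit 5) (nat_lit 642) (nat_lit 572) (nat_lit 346)) (XT.lf (nat_lit 0) (nat_lit 4295144400) (nat_lit 456) (nat_lit 8892650214) (nat_lit 532) (nat_lit 11793977424) (nat_lit 217) (nat_lit 5) (nat_lit 223) (nat_lit 5) (nat_lit 224) (nat_lit 5) (nat_lit 643) (nat_lit 572) (nat_lit 345))) (XT.nd (nat_lit 78) (nat_lit 456) (nat_lit 0) (XT.lf (nat_lit 0) (nat_lit 18485308687) (nat_lit 532) (nat_lit 5842687028) (nat_lit 76) (nat_lit 953328010) (nat_lit 217) (nat_lit 5) (nat_lit 224) (nat_lit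 5) (nat_lit 218) (nat_lit 5) (nat_lit 644) (nat_lit 572) (nat_lit 344)) (XT.lf (nat_lit 0) (nat_lit 9355648435) (nat_lit 456) (nat_lit 14648348280) (nat_lit 532) (nat_lit 1580565429) (nat_lit 211) (nat_lit 5) (nat_lit 217) (nat_lit 5) (nat_lit 218) (nat_lit 5) (nat_lit 645) (nat_lit 572) (nat_lit 343)))))) (XT.nd (nat_lit 546) (nat_lit 2052) (nat_lit 0) (XT.nd (nat_lit 234) (nat_lit 912) (nat_lit 0) (XT.nd (nat_lit 78) (nat_lit 912) (nat_lit 0) (XT.lf (nat_lit 0) (nat_lit 3725225840) (nat_lit 532) (nat_lit 986778800) (nat_lit 76) (nat_lit 21180673854) (nat_lit 210) (nat_lit 5) (nat_lit 217) (nat_lit 5) (nat_lit 211) (nat_lit 5) (nat_lit 646) (nat_lit 572) (nat_lit 342)) (XT.nd (nat_lit 78) (nat_lit 456) (nat_lit 0) (XT.lf (nat_lit 0) (nat_lit 9243262943) (nat_lit 532) (nat_lit 11504000574) (nat_lit 76) (nat_lit 5456938990) (nat_lit 204) (nat_lit 5) (nat_lit 211) (nat_lit 5) (nat_lit 205) (nat_lit 5) (nat_lit 647) (nat_lit 572) (nat_lit 341)) (XT.lf (nat_lit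 0) (nat_lit 4210223232) (nat_lit 456) (nat_lit 10722368317) (nat_lit 532) (nat_lit 11588146996) (nat_lit 198) (nat_lit 5) (nat_lit 204) (nat_lit 5) (nat_lit 205) (nat_lit 5) (nat_lit 648) (nat_lit 572) (nat_lit 340)))) (XT.nd (nat_lit 156) (nat_lit 532) (nat_lit 0) (XT.nd (nat_lit 78) (nat_lit 380) (nat_lit 0) (XT.lf (nat_lit 0) (nat_lit 20388493003) (nat_lit 456) (nat_lit 420179562) (nat_lit 532) (nat_lit 6033473579) (nat_lit 198) (nat_lit 5) (nat_lit 204) (nat_lit 5) (nat_lit 205) (nat_lit 5) (nat_lit 649) (nat_lit 572) (nat_lit 339)) (XT.lf (nat_lit 0) (nat_lit 9776946481) (nat_lit 380) (nat_lit 17150144003) (nat_lit 456) (nat_lit 240395257) (nat_lit 193) (nat_lit 5) (nat_lit 198) (nat_lit 5) (nat_lit 199) (nat_lit 5) (nat_lit 650) (nat_lit 572) (nat_lit 338))) (XT.nd (nat_lit 78) (nat_lit 456) (nat_lit 0) (XT.lf (nat_lit 0) (nat_lit 5636430682) (nat_lit 456) (nat_lit 1124843135) (nat_lit 76) (nat_lit 20736477781) (nat_lit 192) (nat_lit 5) (nat_lit 198)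 (nat_lit 5) (nat_lit 193) (nat_lit 5) (nat_lit 651) (nat_lit 572) (nat_lit 337)) (XT.lf (nat_lit 0) (nat_lit 11750785892) (nat_lit 532) (nat_lit 12194222963) (nat_lit 76) (nat_lit 3887118050) (nat_lit 186) (nat_lit 5) (nat_lit 193) (nat_lit 5) (nat_lit 187) (nat_lit 5) (nat_lit 652) (nat_lit 572) (nat_lit 336))))) (XT.nd (nat_lit 312) (nat_lit 1216) (nat_lit 0) (XT.nd (nat_lit 156) (nat_lit 456) (nat_lit 0) (XT.nd (nat_lit 78) (nat_lit 0) (nat_lit 0) (XT.lf (nat_lit 0) (nat_lit 4587402054) (nat_lit 380) (nat_lit 13478148179) (nat_lit 456) (nat_lit 10106077186) (nat_lit 181) (nat_lit 5) (nat_lit 186) (nat_lit 5) (nat_lit 187) (nat_lit 5) (nat_lit 653) (nat_lit 572) (nat_lit 335)) (XT.lf (nat_lit 0) (nat_lit 21863944613) (nat_lit 380) (nat_lit 2720497683) (nat_lit 456) (nat_lit 3931919136) (nat_lit 181) (nat_lit 5) (nat_lit 186) (nat_lit 5) (nat_lit 187) (nat_lit 5) (nat_lit 654) (nat_lit 572) (nat_lit 334))) (XT.nd (nat_lit 78) (nat_lit 0) (nat_lit 0) (XT.lf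 (nat_lit 0) (nat_lit 2454595419) (nat_lit 456) (nat_lit 18182950157) (nat_lit 76) (nat_lit 8227739483) (nat_lit 175) (nat_lit 5) (nat_lit 181) (nat_lit 5) (nat_lit 176) (nat_lit 5) (nat_lit 655) (nat_lit 572) (nat_lit 333)) (XT.lf (nat_lit 0) (nat_lit 8975275566) (nat_lit 456) (nat_lit 816660495) (nat_lit 76) (nat_lit 19427549754) (nat_lit 175) (nat_lit 5) (nat_lit 181) (nat_lit 5) (nat_lit 176) (nat_lit 5) (nat_lit 656) (nat_lit 572) (nat_lit 332)))) (XT.nd (nat_lit 156) (nat_lit 456) (nat_lit 0) (XT.nd (nat_lit 78) (nat_lit 380) (nat_lit 0) (XT.lf (nat_lit 0) (nat_lit 15742625252) (nat_lit 456) (nat_lit 12472023214) (nat_lit 76) (nat_lit 1363797130) (nat_lit 170) (nat_lit 5) (nat_lit 176) (nat_lit 5) (nat_lit 171) (nat_lit 5) (nat_lit 657) (nat_lit 572) (nat_lit 331)) (XT.lf (nat_lit 0) (nat_lit 5455347053) (nat_lit 380) (nat_lit 17291940822) (nat_lit 456) (nat_lit 7195257504) (nat_lit 165) (nat_lit 5) (nat_lit 170) (nat_lit 5) (nat_lit 171) (nat_lit 5)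 (nat_lit 658) (nat_lit 572) (nat_lit 330))) (XT.nd (nat_lit 78) (nat_lit 456) (nat_lit 0) (XT.lf (nat_lit 0) (nat_lit 23904485713) (nat_lit 380) (nat_lit 6067471252) (nat_lit 456) (nat_lit 340372053) (nat_lit 165) (nat_lit 5) (nat_lit 170) (nat_lit 5) (nat_lit 171) (nat_lit 5) (nat_lit 659) (nat_lit 572) (nat_lit 329)) (XT.lf (nat_lit 0) (nat_lit 6675220926) (nat_lit 456) (nat_lit 18579478279) (nat_lit 76) (nat_lit 5431728571) (nat_lit 159) (nat_lit 5) (nat_lit 165) (nat_lit 5) (nat_lit 160) (nat_lit 5) (nat_lit 660) (nat_lit 572) (nat_lit 328))))))))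
noncomputable def xc177 : XT := (XT.nd (nat_lit 75660) (nat_lit 0) (nat_lit 15960) (XT.nd (nat_lit 74490) (nat_lit 0) (nat_lit 28348) (XT.nd (nat_lit 546) (nat_lit 1140) (nat_lit 0) (XT.nd (nat_lit 234) (nat_lit 760) (nat_lit 0) (XT.nd (nat_lit 78) (nat_lit 684) (nat_lit 0) (XT.lf (nat_lit 0) (nat_lit 13906330625) (nat_lit 456) (nat_lit 36769681) (nat_lit 76) (nat_lit 17123268073) (nat_lit 159) (nat_lit 5) (nat_lit 165) (nat_lit 5) (nat_lit 160) (nat_lit 5) (nat_lit 661) (nat_lit 572) (nat_lit 327)) (XT.nd (nat_lit 78) (nat_lit 304) (nat_lit 0) (XT.lf (nat_lit 0) (nat_lit 19121895364) (nat_lit 380) (nat_lit 2280683380) (nat_lit 456) (nat_lit 10048918840) (nat_lit 154) (nat_lit 5) (nat_lit 159) (nat_lit 5) (nat_lit 160) (nat_lit 5) (nat_lit 662) (nat_lit 572) (nat_lit 326)) (XT.lf (nat_lit 0) (nat_lit 6841500461) (nat_lit 304) (nat_lit 22310731679) (nat_lit 380) (nat_lit 2690027740) (nat_lit 150) (nat_lit 5) (nat_lit 154) (nat_lit 5) (nat_lit 155) (nat_lit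 5) (nat_lit 663) (nat_lit 572) (nat_lit 325)))) (XT.nd (nat_lit 156) (nat_lit 304) (nat_lit 0) (XT.nd (nat_lit 78) (nat_lit 380) (nat_lit 0) (XT.lf (nat_lit 0) (nat_lit 4847663637) (nat_lit 380) (nat_lit 5728663923) (nat_lit 76) (nat_lit 21661988874) (nat_lit 149) (nat_lit 5) (nat_lit 154) (nat_lit 5) (nat_lit 150) (nat_lit 5) (nat_lit 664) (nat_lit 572) (nat_lit 324)) (XT.lf (nat_lit 0) (nat_lit 12597825880) (nat_lit 456) (nat_lit 18559681815) (nat_lit 76) (nat_lit 1482476179) (nat_lit 144) (nat_lit 5) (nat_lit 150) (nat_lit 5) (nat_lit 145) (nat_lit 5) (nat_lit 665) (nat_lit 572) (nat_lit 323))) (XT.nd (nat_lit 78) (nat_lit 0) (nat_lit 0) (XT.lf (nat_lit 0) (nat_lit 1254720026) (nat_lit 304) (nat_lit 19361642822) (nat_lit 380) (nat_lit 12431054488) (nat_lit 140) (nat_lit 5) (nat_lit 144) (nat_lit 5) (nat_lit 145) (nat_lit 5) (nat_lit 666) (nat_lit 572) (nat_lit 322)) (XT.lf (nat_lit 0) (nat_lit 21711403822) (nat_lit 304) (nat_lit 7204930756) (nat_lit 380)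 (nat_lit 4544243710) (nat_lit 140) (nat_lit 5) (nat_lit 144) (nat_lit 5) (nat_lit 145) (nat_lit 5) (nat_lit 667) (nat_lit 572) (nat_lit 321))))) (XT.nd (nat_lit 234) (nat_lit 380) (nat_lit 0) (XT.nd (nat_lit 78) (nat_lit 304) (nat_lit 0) (XT.lf (nat_lit 0) (nat_lit 3542223455) (nat_lit 456) (nat_lit 25132571404) (nat_lit 76) (nat_lit 5204996626) (nat_lit 134) (nat_lit 5) (nat_lit 140) (nat_lit 5) (nat_lit 135) (nat_lit 5) (nat_lit 668) (nat_lit 572) (nat_lit 320)) (XT.nd (nat_lit 78) (nat_lit 304) (nat_lit 0) (XT.lf (nat_lit 0) (nat_lit 11853292035) (nat_lit 456) (nat_lit 4576879611) (nat_lit 76) (nat_lit 17874142256) (nat_lit 134) (nat_lit 5) (nat_lit 140) (nat_lit 5) (nat_lit 135) (nat_lit 5) (nat_lit 669) (nat_lit 572) (nat_lit 319)) (XT.lf (nat_lit 0) (nat_lit 16602234010) (nat_lit 304) (nat_lit 3832790260) (nat_lit 380) (nat_lit 14300213745) (nat_lit 130) (nat_lit 5) (nat_lit 134) (nat_lit 5) (nat_lit 135) (nat_lit 5) (nat_lit 670) (nat_lit 572) (nat_lit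 318)))) (XT.nd (nat_lit 73554) (nat_lit 0) (nat_lit 29944) (XT.nd (nat_lit 78) (nat_lit 76) (nat_lit 0) (XT.lf (nat_lit 0) (nat_lit 3068857693) (nat_lit 304) (nat_lit 26225583266) (nat_lit 380) (nat_lit 5878218748) (nat_lit 126) (nat_lit 5) (nat_lit 130) (nat_lit 5) (nat_lit 131) (nat_lit 5) (nat_lit 671) (nat_lit 572) (nat_lit 317)) (XT.lf (nat_lit 0) (nat_lit 2821190471) (nat_lit 380) (nat_lit 10725098949) (nat_lit 76) (nat_lit 22069297398) (nat_lit 125) (nat_lit 5) (nat_lit 130) (nat_lit 5) (nat_lit 126) (nat_lit 5) (nat_lit 672) (nat_lit 572) (nat_lit 316))) (XT.nd (nat_lit 78) (nat_lit 0) (nat_lit 0) (XT.lf (nat_lit 0) (nat_lit 4735531029) (nat_lit 1748) (nat_lit 614334219) (nat_lit 1748) (nat_lit 614334219) (nat_lit 519) (nat_lit 3) (nat_lit 542) (nat_lit 3) (nat_lit 542) (nat_lit 5) (nat_lit 573) (nat_lit 573) (nat_lit 414)) (XT.lf (nat_lit 76) (nat_lit 4751577404) (nat_lit 0) (nat_lit 5324338885) (nat_lit 1748) (nat_lit 1961532910) (nat_lit 520) (nat_lit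 5) (nat_lit 519) (nat_lit 3) (nat_lit 542) (nat_lit 5) (nat_lit 574) (nat_lit 573) (nat_lit 413)))))) (XT.nd (nat_lit 546) (nat_lit 0) (nat_lit 152) (XT.nd (nat_lit 234) (nat_lit 1672) (nat_lit 0) (XT.nd (nat_lit 78) (nat_lit 0) (nat_lit 0) (XT.lf (nat_lit 0) (nat_lit 10689622198) (nat_lit 1672) (nat_lit 1288306730) (nat_lit 1748) (nat_lit 170817261) (nat_lit 520) (nat_lit 5) (nat_lit 542) (nat_lit 5) (nat_lit 543) (nat_lit 5) (nat_lit 575) (nat_lit 573) (nat_lit 412)) (XT.nd (nat_lit 78) (nat_lit 0) (nat_lit 0) (XT.lf (nat_lit 76) (nat_lit 4850912682) (nat_lit 0) (nat_lit 6519117461) (nat_lit 1748) (nat_lit 891151209) (nat_lit 521) (nat_lit 5) (nat_lit 520) (nat_lit 5) (nat_lit 543) (nat_lit 5) (nat_lit 576) (nat_lit 573) (nat_lit 411)) (XT.lf (nat_lit 76) (nat_lit 11123766593) (nat_lit 0) (nat_lit 936795714) (nat_lit 1748) (nat_lit 315373369) (nat_lit 521) (nat_lit 5) (nat_lit 520) (nat_lit 5) (nat_lit 543) (nat_lit 5) (nat_lit 577) (nat_lit 573) (nat_lit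 410)))) (XT.nd (nat_lit 156) (nat_lit 0) (nat_lit 76) (XT.nd (nat_lit 78) (nat_lit 0) (nat_lit 0) (XT.lf (nat_lit 0) (nat_lit 320565472) (nat_lit 1748) (nat_lit 7436275211) (nat_lit 1824) (nat_lit 4735065607) (nat_lit 498) (nat_lit 5) (nat_lit 521) (nat_lit 5) (nat_lit 522) (nat_lit 5) (nat_lit 578) (nat_lit 573) (nat_lit 409)) (XT.lf (nat_lit 0) (nat_lit 967921160) (nat_lit 1748) (nat_lit 1118685314) (nat_lit 1824) (nat_lit 10523490463) (nat_lit 498) (nat_lit 5) (nat_lit 521) (nat_lit 5) (nat_lit 522) (nat_lit 5) (nat_lit 579) (nat_lit 573) (nat_lit 408))) (XT.nd (nat_lit 78) (nat_lit 0) (nat_lit 0) (XT.lf (nat_lit 0) (nat_lit 1675965547) (nat_lit 1748) (nat_lit 7365247153) (nat_lit 1824) (nat_lit 3688484585) (nat_lit 499) (nat_lit 5) (nat_lit 522) (nat_lit 5) (nat_lit 523) (nat_lit 5) (nat_lit 580) (nat_lit 573) (nat_lit 407)) (XT.lf (nat_lit 0) (nat_lit 2408243541) (nat_lit 1748) (nat_lit 879943552) (nat_lit 1824) (nat_lit 9563301798) (nat_lit 499) (nat_lit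 5) (nat_lit 522) (nat_lit 5) (nat_lit 523) (nat_lit 5) (nat_lit 581) (nat_lit 573) (nat_lit 406))))) (XT.nd (nat_lit 312) (nat_lit 0) (nat_lit 152) (XT.nd (nat_lit 156) (nat_lit 0) (nat_lit 76) (XT.nd (nat_lit 78) (nat_lit 0) (nat_lit 0) (XT.lf (nat_lit 0) (nat_lit 3198799755) (nat_lit 1748) (nat_lit 7187832899) (nat_lit 1824) (nat_lit 2588211710) (nat_lit 500) (nat_lit 5) (nat_lit 523) (nat_lit 5) (nat_lit 524) (nat_lit 5) (nat_lit 582) (nat_lit 573) (nat_lit 405)) (XT.lf (nat_lit 0) (nat_lit 4022006446) (nat_lit 1748) (nat_lit 530143352) (nat_lit 1824) (nat_lit 8548181041) (nat_lit 500) (nat_lit 5) (nat_lit 523) (nat_lit 5) (nat_lit 524) (nat_lit 5) (nat_lit 583) (nat_lit 573) (nat_lit 404))) (XT.nd (nat_lit 78) (nat_lit 0) (nat_lit 0) (XT.lf (nat_lit 0) (nat_lit 4901533970) (nat_lit 1748) (nat_lit 6900163904) (nat_lit 1824) (nat_lit 1425832699) (nat_lit 501) (nat_lit 5) (nat_lit 524) (nat_lit 5) (nat_lit 525) (nat_lit 5) (nat_lit 584) (nat_lit 573) (nat_lit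 403)) (XT.lf (nat_lit 0) (nat_lit 5821901131) (nat_lit 1748) (nat_lit 65224855) (nat_lit 1824) (nat_lit 7469683983) (nat_lit 501) (nat_lit 5) (nat_lit 524) (nat_lit 5) (nat_lit 525) (nat_lit 5) (nat_lit 585) (nat_lit 573) (nat_lit 402)))) (XT.nd (nat_lit 156) (nat_lit 0) (nat_lit 0) (XT.nd (nat_lit 78) (nat_lit 0) (nat_lit 0) (XT.lf (nat_lit 0) (nat_lit 6797062323) (nat_lit 1748) (nat_lit 6498064328) (nat_lit 1824) (nat_lit 192821208) (nat_lit 502) (nat_lit 5) (nat_lit 525) (nat_lit 5) (nat_lit 526) (nat_lit 5) (nat_lit 586) (nat_lit 573) (nat_lit 401)) (XT.lf (nat_lit 76) (nat_lit 526083201) (nat_lit 0) (nat_lit 7298391937) (nat_lit 1824) (nat_lit 5796579027) (nat_lit 503) (nat_lit 5) (nat_lit 502) (nat_lit 5) (nat_lit 526) (nat_lit 5) (nat_lit 587) (nat_lit 573) (nat_lit 400))) (XT.nd (nat_lit 78) (nat_lit 0) (nat_lit 76) (XT.lf (nat_lit 76) (nat_lit 7771738934) (nat_lit 0) (nat_lit 1134359371) (nat_lit 1824) (nat_lit 4850051661) (nat_lit 503) (nat_lit 5)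 (nat_lit 502) (nat_lit 5) (nat_lit 526) (nat_lit 5) (nat_lit 588) (nat_lit 573) (nat_lit 399)) (XT.lf (nat_lit 76) (nat_lit 1244086855) (nat_lit 0) (nat_lit 8797070912) (nat_lit 1824) (nat_lit 3852154442) (nat_lit 504) (nat_lit 5) (nat_lit 503) (nat_lit 5) (nat_lit 527) (nat_lit 5) (nat_lit 589) (nat_lit 573) (nat_lit 398))))))) (XT.nd (nat_lit 1170) (nat_lit 6460) (nat_lit 0) (XT.nd (nat_lit 546) (nat_lit 4636) (nat_lit 0) (XT.nd (nat_lit 234) (nat_lit 1672) (nat_lit 0) (XT.nd (nat_lit 78) (nat_lit 0) (nat_lit 76) (XT.lf (nat_lit 76) (nat_lit 8683576479) (nat_lit 0) (nat_lit 2553378153) (nat_lit 1824) (nat_lit 2795502930) (nat_lit 504) (nat_lit 5) (nat_lit 503) (nat_lit 5) (nat_lit 527) (nat_lit 5) (nat_lit 590) (nat_lit 573) (nat_lit 397)) (XT.nd (nat_lit 78) (nat_lit 0) (nat_lit 0) (XT.lf (nat_lit 76) (nat_lit 2092997556) (nat_lit 0) (nat_lit 10392648369) (nat_lit 1824) (nat_lit 1688160906) (nat_lit 505) (nat_lit 5) (nat_lit 504) (nat_lit 5) (nat_lit 528)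 (nat_lit 5) (nat_lit 591) (nat_lit 573) (nat_lit 396)) (XT.lf (nat_lit 76) (nat_lit 9731979977) (nat_lit 0) (nat_lit 4070779859) (nat_lit 1824) (nat_lit 514354838) (nat_lit 505) (nat_lit 5) (nat_lit 504) (nat_lit 5) (nat_lit 528) (nat_lit 5) (nat_lit 592) (nat_lit 573) (nat_lit 395)))) (XT.nd (nat_lit 156) (nat_lit 0) (nat_lit 76) (XT.nd (nat_lit 78) (nat_lit 0) (nat_lit 0) (XT.lf (nat_lit 0) (nat_lit 700518424) (nat_lit 1824) (nat_lit 11389142907) (nat_lit 1900) (nat_lit 2373008253) (nat_lit 481) (nat_lit 5) (nat_lit 505) (nat_lit 5) (nat_lit 506) (nat_lit 5) (nat_lit 593) (nat_lit 573) (nat_lit 394)) (XT.lf (nat_lit 0) (nat_lit 1981762571) (nat_lit 1824) (nat_lit 3700808727) (nat_lit 1900) (nat_lit 8927517617) (nat_lit 481) (nat_lit 5) (nat_lit 505) (nat_lit 5) (nat_lit 506) (nat_lit 5) (nat_lit 594) (nat_lit 573) (nat_lit 393))) (XT.nd (nat_lit 78) (nat_lit 0) (nat_lit 0) (XT.lf (nat_lit 0) (nat_lit 3312756519) (nat_lit 1824) (nat_lit 10576674746) (nat_lit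 1900) (nat_lit 870543393) (nat_lit 482) (nat_lit 5) (nat_lit 506) (nat_lit 5) (nat_lit 507) (nat_lit 5) (nat_lit 595) (nat_lit 573) (nat_lit 392)) (XT.lf (nat_lit 0) (nat_lit 4724338485) (nat_lit 1824) (nat_lit 2682132338) (nat_lit 1900) (nat_lit 7505308444) (nat_lit 482) (nat_lit 5) (nat_lit 506) (nat_lit 5) (nat_lit 507) (nat_lit 5) (nat_lit 596) (nat_lit 573) (nat_lit 391))))) (XT.nd (nat_lit 312) (nat_lit 2964) (nat_lit 0) (XT.nd (nat_lit 156) (nat_lit 1748) (nat_lit 0) (XT.nd (nat_lit 78) (nat_lit 0) (nat_lit 76) (XT.lf (nat_lit 76) (nat_lit 5434487271) (nat_lit 0) (nat_lit 756455367) (nat_lit 1900) (nat_lit 8875142021) (nat_lit 483) (nat_lit 5) (nat_lit 482) (nat_lit 5) (nat_lit 507) (nat_lit 5) (nat_lit 597) (nat_lit 573) (nat_lit 390)) (XT.lf (nat_lit 0) (nat_lit 7735760743) (nat_lit 1824) (nat_lit 1519785421) (nat_lit 76) (nat_lit 5966952852) (nat_lit 483) (nat_lit 5) (nat_lit 507) (nat_lit 5) (nat_lit 484) (nat_lit 5) (nat_lit 598) (nat_lit 573)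 (nat_lit 389))) (XT.nd (nat_lit 78) (nat_lit 0) (nat_lit 0) (XT.lf (nat_lit 0) (nat_lit 6831776764) (nat_lit 1824) (nat_lit 2520864239) (nat_lit 1900) (nat_lit 6028577824) (nat_lit 459) (nat_lit 5) (nat_lit 483) (nat_lit 5) (nat_lit 484) (nat_lit 5) (nat_lit 599) (nat_lit 573) (nat_lit 388)) (XT.lf (nat_lit 0) (nat_lit 11032280120) (nat_lit 1900) (nat_lit 207437575) (nat_lit 76) (nat_lit 4302787389) (nat_lit 459) (nat_lit 5) (nat_lit 484) (nat_lit 5) (nat_lit 460) (nat_lit 5) (nat_lit 600) (nat_lit 573) (nat_lit 387)))) (XT.nd (nat_lit 156) (nat_lit 988) (nat_lit 0) (XT.nd (nat_lit 78) (nat_lit 912) (nat_lit 0) (XT.lf (nat_lit 0) (nat_lit 8387660530) (nat_lit 1064) (nat_lit 4421084335) (nat_lit 1140) (nat_lit 2897008008) (nat_lit 445) (nat_lit 5) (nat_lit 459) (nat_lit 5) (nat_lit 460) (nat_lit 5) (nat_lit 601) (nat_lit 573) (nat_lit 386)) (XT.lf (nat_lit 0) (nat_lit 1278366482) (nat_lit 912) (nat_lit 13360720646) (nat_lit 988) (nat_lit 1232811983) (nat_lit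 433) (nat_lit 5) (nat_lit 445) (nat_lit 5) (nat_lit 446) (nat_lit 5) (nat_lit 602) (nat_lit 573) (nat_lit 385))) (XT.nd (nat_lit 78) (nat_lit 912) (nat_lit 0) (XT.lf (nat_lit 0) (nat_lit 529536367) (nat_lit 988) (nat_lit 5934283142) (nat_lit 76) (nat_lit 9576069610) (nat_lit 432) (nat_lit 5) (nat_lit 445) (nat_lit 5) (nat_lit 433) (nat_lit 5) (nat_lit 603) (nat_lit 573) (nat_lit 384)) (XT.lf (nat_lit 0) (nat_lit 2325899016) (nat_lit 988) (nat_lit 13293527464) (nat_lit 76) (nat_lit 591344406) (nat_lit 420) (nat_lit 5) (nat_lit 433) (nat_lit 5) (nat_lit 421) (nat_lit 5) (nat_lit 604) (nat_lit 573) (nat_lit 383)))))) (XT.nd (nat_lit 546) (nat_lit 3116) (nat_lit 0) (XT.nd (nat_lit 234) (nat_lit 2508) (nat_lit 0) (XT.nd (nat_lit 78) (nat_lit 836) (nat_lit 0) (XT.lf (nat_lit 0) (nat_lit 4233590143) (nat_lit 988) (nat_lit 4408297233) (nat_lit 76) (nat_lit 7741675308) (nat_lit 420) (nat_lit 5) (nat_lit 433) (nat_lit 5) (nat_lit 421) (nat_lit 5) (nat_lit 605) (nat_lit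 573) (nat_lit 382)) (XT.nd (nat_lit 78) (nat_lit 0) (nat_lit 0) (XT.lf (nat_lit 0) (nat_lit 4709348415) (nat_lit 836) (nat_lit 1493318368) (nat_lit 912) (nat_lit 10356679314) (nat_lit 409) (nat_lit 5) (nat_lit 420) (nat_lit 5) (nat_lit 421) (nat_lit 5) (nat_lit 606) (nat_lit 573) (nat_lit 381)) (XT.lf (nat_lit 0) (nat_lit 8271304313) (nat_lit 912) (nat_lit 2713946358) (nat_lit 76) (nat_lit 5752191326) (nat_lit 409) (nat_lit 5) (nat_lit 421) (nat_lit 5) (nat_lit 410) (nat_lit 5) (nat_lit 607) (nat_lit 573) (nat_lit 380)))) (XT.nd (nat_lit 156) (nat_lit 1672) (nat_lit 0) (XT.nd (nat_lit 78) (nat_lit 0) (nat_lit 0) (XT.lf (nat_lit 0) (nat_lit 6675473149) (nat_lit 836) (nat_lit 3751970164) (nat_lit 912) (nat_lit 6490734322) (nat_lit 398) (nat_lit 5) (nat_lit 409) (nat_lit 5) (nat_lit 410) (nat_lit 5) (nat_lit 608) (nat_lit 573) (nat_lit 379)) (XT.lf (nat_lit 0) (nat_lit 12661571846) (nat_lit 912) (nat_lit 843465324) (nat_lit 76) (nat_lit 3596793871) (nat_lit 398)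 (nat_lit 5) (nat_lit 410) (nat_lit 5) (nat_lit 399) (nat_lit 5) (nat_lit 609) (nat_lit 573) (nat_lit 378))) (XT.nd (nat_lit 78) (nat_lit 836) (nat_lit 0) (XT.lf (nat_lit 0) (nat_lit 8827719609) (nat_lit 836) (nat_lit 6187955541) (nat_lit 912) (nat_lit 2271976904) (nat_lit 387) (nat_lit 5) (nat_lit 398) (nat_lit 5) (nat_lit 399) (nat_lit 5) (nat_lit 610) (nat_lit 573) (nat_lit 377)) (XT.lf (nat_lit 0) (nat_lit 1227406459) (nat_lit 836) (nat_lit 16204620117) (nat_lit 912) (nat_lit 44859963) (nat_lit 376) (nat_lit 5) (nat_lit 387) (nat_lit 5) (nat_lit 388) (nat_lit 5) (nat_lit 611) (nat_lit 573) (nat_lit 376))))) (XT.nd (nat_lit 312) (nat_lit 1520) (nat_lit 0) (XT.nd (nat_lit 156) (nat_lit 760) (nat_lit 0) (XT.nd (nat_lit 78) (nat_lit 760) (nat_lit 0) (XT.lf (nat_lit 0) (nat_lit 2288981760) (nat_lit 912) (nat_lit 6508516576) (nat_lit 76) (nat_lit 8870290832) (nat_lit 375) (nat_lit 5) (nat_lit 387) (nat_lit 5) (nat_lit 376) (nat_lit 5) (nat_lit 612) (nat_lit 573)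 (nat_lit 375)) (XT.lf (nat_lit 0) (nat_lit 3465457080) (nat_lit 760) (nat_lit 1219336225) (nat_lit 836) (nat_lit 13177393094) (nat_lit 365) (nat_lit 5) (nat_lit 375) (nat_lit 5) (nat_lit 376) (nat_lit 5) (nat_lit 613) (nat_lit 573) (nat_lit 374))) (XT.nd (nat_lit 78) (nat_lit 760) (nat_lit 0) (XT.lf (nat_lit 0) (nat_lit 7208230798) (nat_lit 836) (nat_lit 4382066760) (nat_lit 76) (nat_lit 6468580167) (nat_lit 365) (nat_lit 5) (nat_lit 376) (nat_lit 5) (nat_lit 366) (nat_lit 5) (nat_lit 614) (nat_lit 573) (nat_lit 373)) (XT.lf (nat_lit 0) (nat_lit 5895224479) (nat_lit 760) (nat_lit 3926866421) (nat_lit 836) (nat_lit 8436613240) (nat_lit 355) (nat_lit 5) (nat_lit 365) (nat_lit 5) (nat_lit 366) (nat_lit 5) (nat_lit 615) (nat_lit 573) (nat_lit 372)))) (XT.nd (nat_lit 156) (nat_lit 836) (nat_lit 0) (XT.nd (nat_lit 78) (nat_lit 684) (nat_lit 0) (XT.lf (nat_lit 0) (nat_lit 12536764721) (nat_lit 836) (nat_lit 2056911575) (nat_lit 76) (nat_lit 3867880388) (nat_lit 355)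 (nat_lit 5) (nat_lit 366) (nat_lit 5) (nat_lit 356) (nat_lit 5) (nat_lit 616) (nat_lit 573) (nat_lit 371)) (XT.lf (nat_lit 0) (nat_lit 8534871347) (nat_lit 684) (nat_lit 6846084791) (nat_lit 760) (nat_lit 3286005985) (nat_lit 346) (nat_lit 5) (nat_lit 355) (nat_lit 5) (nat_lit 356) (nat_lit 5) (nat_lit 617) (nat_lit 573) (nat_lit 370))) (XT.nd (nat_lit 78) (nat_lit 76) (nat_lit 0) (XT.lf (nat_lit 0) (nat_lit 482631087) (nat_lit 760) (nat_lit 17817164673) (nat_lit 836) (nat_lit 576324942) (nat_lit 336) (nat_lit 5) (nat_lit 346) (nat_lit 5) (nat_lit 347) (nat_lit 5) (nat_lit 618) (nat_lit 573) (nat_lit 369)) (XT.lf (nat_lit 0) (nat_lit 2266552138) (nat_lit 836) (nat_lit 7708059723) (nat_lit 76) (nat_lit 9112412987) (nat_lit 335) (nat_lit 5) (nat_lit 346) (nat_lit 5) (nat_lit 336) (nat_lit 5) (nat_lit 619) (nat_lit 573) (nat_lit 368))))))))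
noncomputable def xc178 : XT := (XT.nd (nat_lit 2262) (nat_lit 5928) (nat_lit 0) (XT.nd (nat_lit 1092) (nat_lit 4712) (nat_lit 0) (XT.nd (nat_lit 546) (nat_lit 2508) (nat_lit 0) (XT.nd (nat_lit 234) (nat_lit 1368) (nat_lit 0) (XT.nd (nat_lit 78) (nat_lit 684) (nat_lit 0) (XT.lf (nat_lit 0) (nat_lit 3222708804) (nat_lit 684) (nat_lit 1950823787) (nat_lit 760) (nat_lit 14128239340) (nat_lit 326) (nat_lit 5) (nat_lit 335) (nat_lit 5) (nat_lit 336) (nat_lit 5) (nat_lit 620) (nat_lit 573) (nat_lit 367)) (XT.nd (nat_lit 78) (nat_lit 684) (nat_lit 0) (XT.lf (nat_lit 0) (nat_lit 8225290943) (nat_lit 760) (nat_lit 5090903423) (nat_lit 76) (nat_lit 6202887118) (nat_lit 326) (nat_lit 5) (nat_lit 336) (nat_lit 5) (nat_lit 327) (nat_lit 5) (nat_lit 621) (nat_lit 573) (nat_lit 366)) (XT.lf (nat_lit 0) (nat_lit 6178378428) (nat_lit 684) (nat_lit 5206954209) (nat_lit 760) (nat_lit 8354459918) (nat_lit 317) (nat_lit 5) (nat_lit 326) (nat_lit 5) (nat_lit 327) (nat_lit 5) (nat_lit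 622) (nat_lit 573) (nat_lit 365)))) (XT.nd (nat_lit 156) (nat_lit 760) (nat_lit 0) (XT.nd (nat_lit 78) (nat_lit 608) (nat_lit 0) (XT.lf (nat_lit 0) (nat_lit 14657138750) (nat_lit 760) (nat_lit 2249118914) (nat_lit 76) (nat_lit 3057689193) (nat_lit 317) (nat_lit 5) (nat_lit 327) (nat_lit 5) (nat_lit 318) (nat_lit 5) (nat_lit 623) (nat_lit 573) (nat_lit 364)) (XT.lf (nat_lit 0) (nat_lit 9371161219) (nat_lit 608) (nat_lit 8712937019) (nat_lit 684) (nat_lit 2106691942) (nat_lit 309) (nat_lit 5) (nat_lit 317) (nat_lit 5) (nat_lit 318) (nat_lit 5) (nat_lit 624) (nat_lit 573) (nat_lit 363))) (XT.nd (nat_lit 78) (nat_lit 0) (nat_lit 0) (XT.lf (nat_lit 0) (nat_lit 829010971) (nat_lit 684) (nat_lit 328231165) (nat_lit 760) (nat_lit 19264478294) (nat_lit 299) (nat_lit 5) (nat_lit 308) (nat_lit 5) (nat_lit 309) (nat_lit 5) (nat_lit 625) (nat_lit 573) (nat_lit 362)) (XT.lf (nat_lit 0) (nat_lit 4579234502) (nat_lit 760) (nat_lit 7873131387) (nat_lit 76) (nat_lit 8202205390)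 (nat_lit 299) (nat_lit 5) (nat_lit 309) (nat_lit 5) (nat_lit 300) (nat_lit 5) (nat_lit 626) (nat_lit 573) (nat_lit 361))))) (XT.nd (nat_lit 234) (nat_lit 1292) (nat_lit 0) (XT.nd (nat_lit 78) (nat_lit 608) (nat_lit 0) (XT.lf (nat_lit 0) (nat_lit 4126140748) (nat_lit 608) (nat_lit 3967076429) (nat_lit 684) (nat_lit 12798391214) (nat_lit 291) (nat_lit 5) (nat_lit 299) (nat_lit 5) (nat_lit 300) (nat_lit 5) (nat_lit 627) (nat_lit 573) (nat_lit 360)) (XT.nd (nat_lit 78) (nat_lit 608) (nat_lit 0) (XT.lf (nat_lit 0) (nat_lit 11755741660) (nat_lit 684) (nat_lit 4697690200) (nat_lit 76) (nat_lit 4678389396) (nat_lit 291) (nat_lit 5) (nat_lit 300) (nat_lit 5) (nat_lit 292) (nat_lit 5) (nat_lit 628) (nat_lit 573) (nat_lit 359)) (XT.lf (nat_lit 0) (nat_lit 7679323393) (nat_lit 608) (nat_lit 7883071913) (nat_lit 684) (nat_lit 5813025744) (nat_lit 283) (nat_lit 5) (nat_lit 291) (nat_lit 5) (nat_lit 292) (nat_lit 5) (nat_lit 629) (nat_lit 573) (nat_lit 358)))) (XT.nd (nat_lit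 156) (nat_lit 608) (nat_lit 0) (XT.nd (nat_lit 78) (nat_lit 684) (nat_lit 0) (XT.lf (nat_lit 0) (nat_lit 19477289409) (nat_lit 684) (nat_lit 1268106022) (nat_lit 76) (nat_lit 877855503) (nat_lit 283) (nat_lit 5) (nat_lit 292) (nat_lit 5) (nat_lit 284) (nat_lit 5) (nat_lit 630) (nat_lit 573) (nat_lit 357)) (XT.lf (nat_lit 0) (nat_lit 1696115395) (nat_lit 684) (nat_lit 10384174492) (nat_lit 76) (nat_lit 9793089061) (nat_lit 274) (nat_lit 5) (nat_lit 283) (nat_lit 5) (nat_lit 275) (nat_lit 5) (nat_lit 631) (nat_lit 573) (nat_lit 356))) (XT.nd (nat_lit 78) (nat_lit 0) (nat_lit 0) (XT.lf (nat_lit 0) (nat_lit 2401225168) (nat_lit 608) (nat_lit 3204183409) (nat_lit 684) (nat_lit 16522435294) (nat_lit 266) (nat_lit 5) (nat_lit 274) (nat_lit 5) (nat_lit 275) (nat_lit 5) (nat_lit 632) (nat_lit 573) (nat_lit 355)) (XT.lf (nat_lit 0) (nat_lit 9695984858) (nat_lit 684) (nat_lit 6847910280) (nat_lit 76) (nat_lit 5841441233) (nat_lit 266) (nat_lit 5) (nat_lit 275) (nat_lit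 5) (nat_lit 267) (nat_lit 5) (nat_lit 633) (nat_lit 573) (nat_lit 354)))))) (XT.nd (nat_lit 546) (nat_lit 2508) (nat_lit 0) (XT.nd (nat_lit 234) (nat_lit 1140) (nat_lit 0) (XT.nd (nat_lit 78) (nat_lit 532) (nat_lit 0) (XT.lf (nat_lit 0) (nat_lit 6343923927) (nat_lit 532) (nat_lit 7581930008) (nat_lit 608) (nat_lit 8720975379) (nat_lit 259) (nat_lit 5) (nat_lit 266) (nat_lit 5) (nat_lit 267) (nat_lit 5) (nat_lit 634) (nat_lit 573) (nat_lit 353)) (XT.nd (nat_lit 78) (nat_lit 532) (nat_lit 0) (XT.lf (nat_lit 0) (nat_lit 18291819496) (nat_lit 608) (nat_lit 3037117024) (nat_lit 76) (nat_lit 1583585829) (nat_lit 259) (nat_lit 5) (nat_lit 267) (nat_lit 5) (nat_lit 260) (nat_lit 5) (nat_lit 635) (nat_lit 573) (nat_lit 352)) (XT.lf (nat_lit 0) (nat_lit 10576134691) (nat_lit 532) (nat_lit 12283061996) (nat_lit 608) (nat_lit 322050923) (nat_lit 252) (nat_lit 5) (nat_lit 259) (nat_lit 5) (nat_lit 260) (nat_lit 5) (nat_lit 636) (nat_lit 573) (nat_lit 351)))) (XT.nd (nat_lit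 156) (nat_lit 532) (nat_lit 0) (XT.nd (nat_lit 78) (nat_lit 0) (nat_lit 0) (XT.lf (nat_lit 0) (nat_lit 1028486866) (nat_lit 532) (nat_lit 3003233963) (nat_lit 608) (nat_lit 19422650645) (nat_lit 244) (nat_lit 5) (nat_lit 251) (nat_lit 5) (nat_lit 252) (nat_lit 5) (nat_lit 637) (nat_lit 573) (nat_lit 350)) (XT.lf (nat_lit 0) (nat_lit 8590640517) (nat_lit 608) (nat_lit 8676704277) (nat_lit 76) (nat_lit 6463122952) (nat_lit 244) (nat_lit 5) (nat_lit 252) (nat_lit 5) (nat_lit 245) (nat_lit 5) (nat_lit 638) (nat_lit 573) (nat_lit 349))) (XT.nd (nat_lit 78) (nat_lit 0) (nat_lit 0) (XT.lf (nat_lit 0) (nat_lit 5392000819) (nat_lit 532) (nat_lit 7899004583) (nat_lit 608) (nat_lit 10720075398) (nat_lit 237) (nat_lit 5) (nat_lit 244) (nat_lit 5) (nat_lit 245) (nat_lit 5) (nat_lit 639) (nat_lit 573) (nat_lit 348)) (XT.lf (nat_lit 0) (nat_lit 18150153673) (nat_lit 608) (nat_lit 4453915154) (nat_lit 76) (nat_lit 1691941958) (nat_lit 237) (nat_lit 5) (nat_lit 245) (nat_lit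 5) (nat_lit 238) (nat_lit 5) (nat_lit 640) (nat_lit 573) (nat_lit 347))))) (XT.nd (nat_lit 312) (nat_lit 988) (nat_lit 0) (XT.nd (nat_lit 156) (nat_lit 456) (nat_lit 0) (XT.nd (nat_lit 78) (nat_lit 608) (nat_lit 0) (XT.lf (nat_lit 0) (nat_lit 10068083901) (nat_lit 456) (nat_lit 13151579824) (nat_lit 532) (nat_lit 1364712254) (nat_lit 231) (nat_lit 5) (nat_lit 237) (nat_lit 5) (nat_lit 238) (nat_lit 5) (nat_lit 641) (nat_lit 573) (nat_lit 346)) (XT.lf (nat_lit 0) (nat_lit 34212938) (nat_lit 532) (nat_lit 3457606936) (nat_lit 608) (nat_lit 21385716220) (nat_lit 223) (nat_lit 5) (nat_lit 230) (nat_lit 5) (nat_lit 231) (nat_lit 5) (nat_lit 642) (nat_lit 573) (nat_lit 345))) (XT.nd (nat_lit 78) (nat_lit 456) (nat_lit 0) (XT.lf (nat_lit 0) (nat_lit 8562586585) (nat_lit 608) (nat_lit 10159801378) (nat_lit 76) (nat_lit 6451283660) (nat_lit 223) (nat_lit 5) (nat_lit 231) (nat_lit 5) (nat_lit 224) (nat_lit 5) (nat_lit 643) (nat_lit 573) (nat_lit 344)) (XT.lf (nat_lit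 0) (nat_lit 4851992169) (nat_lit 456) (nat_lit 8932817911) (nat_lit 532) (nat_lit 11689919126) (nat_lit 217) (nat_lit 5) (nat_lit 223) (nat_lit 5) (nat_lit 224) (nat_lit 5) (nat_lit 644) (nat_lit 573) (nat_lit 343)))) (XT.nd (nat_lit 156) (nat_lit 532) (nat_lit 0) (XT.nd (nat_lit 78) (nat_lit 456) (nat_lit 0) (XT.lf (nat_lit 0) (nat_lit 19182616350) (nat_lit 532) (nat_lit 5492159189) (nat_lit 76) (nat_lit 1105609806) (nat_lit 217) (nat_lit 5) (nat_lit 224) (nat_lit 5) (nat_lit 218) (nat_lit 5) (nat_lit 645) (nat_lit 573) (nat_lit 342)) (XT.lf (nat_lit 0) (nat_lit 10007068103) (nat_lit 456) (nat_lit 14801201064) (nat_lit 532) (nat_lit 1281487796) (nat_lit 211) (nat_lit 5) (nat_lit 217) (nat_lit 5) (nat_lit 218) (nat_lit 5) (nat_lit 646) (nat_lit 573) (nat_lit 341))) (XT.nd (nat_lit 78) (nat_lit 456) (nat_lit 0) (XT.lf (nat_lit 0) (nat_lit 4119683197) (nat_lit 532) (nat_lit 547047639) (nat_lit 76) (nat_lit 21737390086) (nat_lit 210) (nat_lit 5) (nat_lit 217)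 (nat_lit 5) (nat_lit 211) (nat_lit 5) (nat_lit 647) (nat_lit 573) (nat_lit 340)) (XT.lf (nat_lit 0) (nat_lit 9745678675) (nat_lit 532) (nat_lit 11272199634) (nat_lit 76) (nat_lit 5704045391) (nat_lit 204) (nat_lit 5) (nat_lit 211) (nat_lit 5) (nat_lit 205) (nat_lit 5) (nat_lit 648) (nat_lit 573) (nat_lit 339))))))) (XT.nd (nat_lit 1092) (nat_lit 2128) (nat_lit 0) (XT.nd (nat_lit 546) (nat_lit 2052) (nat_lit 0) (XT.nd (nat_lit 234) (nat_lit 836) (nat_lit 0) (XT.nd (nat_lit 78) (nat_lit 456) (nat_lit 0) (XT.lf (nat_lit 0) (nat_lit 4753269958) (nat_lit 456) (nat_lit 10792276523) (nat_lit 532) (nat_lit 11499309156) (nat_lit 198) (nat_lit 5) (nat_lit 204) (nat_lit 5) (nat_lit 205) (nat_lit 5) (nat_lit 649) (nat_lit 573) (nat_lit 338)) (XT.nd (nat_lit 78) (nat_lit 456) (nat_lit 0) (XT.lf (nat_lit 0) (nat_lit 21246108217) (nat_lit 456) (nat_lit 286878094) (nat_lit 532) (nat_lit 5839828561) (nat_lit 198) (nat_lit 5) (nat_lit 204) (nat_lit 5) (nat_lit 205) (nat_lit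 5) (nat_lit 650) (nat_lit 573) (nat_lit 337)) (XT.lf (nat_lit 0) (nat_lit 65985503) (nat_lit 456) (nat_lit 17280548853) (nat_lit 76) (nat_lit 10358162539) (nat_lit 192) (nat_lit 5) (nat_lit 198) (nat_lit 5) (nat_lit 193) (nat_lit 5) (nat_lit 651) (nat_lit 573) (nat_lit 336)))) (XT.nd (nat_lit 156) (nat_lit 380) (nat_lit 0) (XT.nd (nat_lit 78) (nat_lit 456) (nat_lit 0) (XT.lf (nat_lit 0) (nat_lit 6051093397) (nat_lit 456) (nat_lit 700076105) (nat_lit 76) (nat_lit 21290487716) (nat_lit 192) (nat_lit 5) (nat_lit 198) (nat_lit 5) (nat_lit 193) (nat_lit 5) (nat_lit 652) (nat_lit 573) (nat_lit 335)) (XT.lf (nat_lit 0) (nat_lit 12285644444) (nat_lit 532) (nat_lit 11988741742) (nat_lit 76) (nat_lit 4108375880) (nat_lit 186) (nat_lit 5) (nat_lit 193) (nat_lit 5) (nat_lit 187) (nat_lit 5) (nat_lit 653) (nat_lit 573) (nat_lit 334))) (XT.nd (nat_lit 78) (nat_lit 0) (nat_lit 0) (XT.lf (nat_lit 0) (nat_lit 5125559423) (nat_lit 380) (nat_lit 13598163763) (nat_lit 456) (nat_lit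 10005389228) (nat_lit 181) (nat_lit 5) (nat_lit 186) (nat_lit 5) (nat_lit 187) (nat_lit 5) (nat_lit 654) (nat_lit 573) (nat_lit 333)) (XT.lf (nat_lit 0) (nat_lit 22738879710) (nat_lit 380) (nat_lit 2628292558) (nat_lit 456) (nat_lit 3713685458) (nat_lit 181) (nat_lit 5) (nat_lit 186) (nat_lit 5) (nat_lit 187) (nat_lit 5) (nat_lit 655) (nat_lit 573) (nat_lit 332))))) (XT.nd (nat_lit 234) (nat_lit 1216) (nat_lit 0) (XT.nd (nat_lit 78) (nat_lit 380) (nat_lit 0) (XT.lf (nat_lit 0) (nat_lit 2794733851) (nat_lit 456) (nat_lit 18103107785) (nat_lit 76) (nat_lit 8538918475) (nat_lit 175) (nat_lit 5) (nat_lit 181) (nat_lit 5) (nat_lit 176) (nat_lit 5) (nat_lit 656) (nat_lit 573) (nat_lit 331)) (XT.nd (nat_lit 78) (nat_lit 380) (nat_lit 0) (XT.lf (nat_lit 0) (nat_lit 9440120805) (nat_lit 456) (nat_lit 398188435) (nat_lit 76) (nat_lit 19959849967) (nat_lit 175) (nat_lit 5) (nat_lit 181) (nat_lit 5) (nat_lit 176) (nat_lit 5) (nat_lit 657) (nat_lit 573) (nat_lit 330))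 (XT.lf (nat_lit 0) (nat_lit 16340997034) (nat_lit 456) (nat_lit 12284828615) (nat_lit 76) (nat_lit 1538509131) (nat_lit 170) (nat_lit 5) (nat_lit 176) (nat_lit 5) (nat_lit 171) (nat_lit 5) (nat_lit 658) (nat_lit 573) (nat_lit 329)))) (XT.nd (nat_lit 156) (nat_lit 836) (nat_lit 0) (XT.nd (nat_lit 78) (nat_lit 0) (nat_lit 0) (XT.lf (nat_lit 0) (nat_lit 5998216459) (nat_lit 380) (nat_lit 17484793524) (nat_lit 456) (nat_lit 7052761618) (nat_lit 165) (nat_lit 5) (nat_lit 170) (nat_lit 5) (nat_lit 171) (nat_lit 5) (nat_lit 659) (nat_lit 573) (nat_lit 328)) (XT.lf (nat_lit 0) (nat_lit 24807832745) (nat_lit 380) (nat_lit 6038834290) (nat_lit 456) (nat_lit 66394165) (nat_lit 165) (nat_lit 5) (nat_lit 170) (nat_lit 5) (nat_lit 171) (nat_lit 5) (nat_lit 660) (nat_lit 573) (nat_lit 327))) (XT.nd (nat_lit 78) (nat_lit 380) (nat_lit 0) (XT.lf (nat_lit 0) (nat_lit 7084146309) (nat_lit 456) (nat_lit 18520428727) (nat_lit 76) (nat_lit 5690064246) (nat_lit 159) (nat_lit 5)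 (nat_lit 165) (nat_lit 5) (nat_lit 160) (nat_lit 5) (nat_lit 661) (nat_lit 573) (nat_lit 326)) (XT.lf (nat_lit 0) (nat_lit 389802466) (nat_lit 380) (nat_lit 14067206180) (nat_lit 456) (nat_lit 17225227611) (nat_lit 154) (nat_lit 5) (nat_lit 159) (nat_lit 5) (nat_lit 160) (nat_lit 5) (nat_lit 662) (nat_lit 573) (nat_lit 325)))))) (XT.nd (nat_lit 546) (nat_lit 608) (nat_lit 0) (XT.nd (nat_lit 234) (nat_lit 1140) (nat_lit 0) (XT.nd (nat_lit 78) (nat_lit 380) (nat_lit 0) (XT.lf (nat_lit 0) (nat_lit 19923750885) (nat_lit 380) (nat_lit 2174328604) (nat_lit 456) (nat_lit 9977090769) (nat_lit 154) (nat_lit 5) (nat_lit 159) (nat_lit 5) (nat_lit 160) (nat_lit 5) (nat_lit 663) (nat_lit 573) (nat_lit 324)) (XT.nd (nat_lit 78) (nat_lit 76) (nat_lit 0) (XT.lf (nat_lit 0) (nat_lit 7399330602) (nat_lit 304) (nat_lit 22601851994) (nat_lit 380) (nat_lit 2472596232) (nat_lit 150) (nat_lit 5) (nat_lit 154) (nat_lit 5) (nat_lit 155) (nat_lit 5) (nat_lit 664) (nat_lit 573) (nat_lit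 323)) (XT.lf (nat_lit 0) (nat_lit 5207043190) (nat_lit 380) (nat_lit 5426996650) (nat_lit 76) (nat_lit 22243786581) (nat_lit 149) (nat_lit 5) (nat_lit 154) (nat_lit 5) (nat_lit 150) (nat_lit 5) (nat_lit 665) (nat_lit 573) (nat_lit 322)))) (XT.nd (nat_lit 156) (nat_lit 456) (nat_lit 0) (XT.nd (nat_lit 78) (nat_lit 304) (nat_lit 0) (XT.lf (nat_lit 0) (nat_lit 13110744656) (nat_lit 456) (nat_lit 18513163215) (nat_lit 76) (nat_lit 1663648771) (nat_lit 144) (nat_lit 5) (nat_lit 150) (nat_lit 5) (nat_lit 145) (nat_lit 5) (nat_lit 666) (nat_lit 573) (nat_lit 321)) (XT.lf (nat_lit 0) (nat_lit 1694778556) (nat_lit 304) (nat_lit 19592451123) (nat_lit 380) (nat_lit 12415957699) (nat_lit 140) (nat_lit 5) (nat_lit 144) (nat_lit 5) (nat_lit 145) (nat_lit 5) (nat_lit 667) (nat_lit 573) (nat_lit 320))) (XT.nd (nat_lit 78) (nat_lit 456) (nat_lit 0) (XT.lf (nat_lit 0) (nat_lit 22552459477) (nat_lit 304) (nat_lit 7195671964) (nat_lit 380) (nat_lit 4376581644) (nat_lit 140) (nat_lit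 5) (nat_lit 144) (nat_lit 5) (nat_lit 145) (nat_lit 5) (nat_lit 668) (nat_lit 573) (nat_lit 319)) (XT.lf (nat_lit 0) (nat_lit 3866871445) (nat_lit 456) (nat_lit 25223637534) (nat_lit 76) (nat_lit 5461795185) (nat_lit 134) (nat_lit 5) (nat_lit 140) (nat_lit 5) (nat_lit 135) (nat_lit 5) (nat_lit 669) (nat_lit 573) (nat_lit 318))))) (XT.nd (nat_lit 73788) (nat_lit 0) (nat_lit 28196) (XT.nd (nat_lit 156) (nat_lit 304) (nat_lit 0) (XT.nd (nat_lit 78) (nat_lit 304) (nat_lit 0) (XT.lf (nat_lit 0) (nat_lit 12339184858) (nat_lit 456) (nat_lit 4264902205) (nat_lit 76) (nat_lit 18381329636) (nat_lit 134) (nat_lit 5) (nat_lit 140) (nat_lit 5) (nat_lit 135) (nat_lit 5) (nat_lit 670) (nat_lit 573) (nat_lit 317)) (XT.lf (nat_lit 0) (nat_lit 17335138985) (nat_lit 304) (nat_lit 3755136443) (nat_lit 380) (nat_lit 14334729529) (nat_lit 130) (nat_lit 5) (nat_lit 134) (nat_lit 5) (nat_lit 135) (nat_lit 5) (nat_lit 671) (nat_lit 573) (nat_lit 316))) (XT.nd (nat_lit 73554) (nat_lit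 0) (nat_lit 29868) (XT.lf (nat_lit 0) (nat_lit 3532367947) (nat_lit 304) (nat_lit 26593271327) (nat_lit 380) (nat_lit 5745560765) (nat_lit 126) (nat_lit 5) (nat_lit 130) (nat_lit 5) (nat_lit 131) (nat_lit 5) (nat_lit 672) (nat_lit 573) (nat_lit 315)) (XT.lf (nat_lit 0) (nat_lit 5306422979) (nat_lit 1748) (nat_lit 383753099) (nat_lit 1748) (nat_lit 383753099) (nat_lit 519) (nat_lit 3) (nat_lit 542) (nat_lit 3) (nat_lit 542) (nat_lit 5) (nat_lit 574) (nat_lit 574) (nat_lit 412)))) (XT.nd (nat_lit 156) (nat_lit 1672) (nat_lit 0) (XT.nd (nat_lit 78) (nat_lit 0) (nat_lit 0) (XT.lf (nat_lit 76) (nat_lit 5329148931) (nat_lit 0) (nat_lit 5885107537) (nat_lit 1748) (nat_lit 1045145180) (nat_lit 520) (nat_lit 5) (nat_lit 519) (nat_lit 3) (nat_lit 542) (nat_lit 5) (nat_lit 575) (nat_lit 574) (nat_lit 411)) (XT.lf (nat_lit 76) (nat_lit 11551895857) (nat_lit 0) (nat_lit 268825306) (nat_lit 1748) (nat_lit 552594898) (nat_lit 520) (nat_lit 5) (nat_lit 519) (nat_lit 3) (nat_lit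 542) (nat_lit 5) (nat_lit 576) (nat_lit 574) (nat_lit 410))) (XT.nd (nat_lit 78) (nat_lit 0) (nat_lit 0) (XT.lf (nat_lit 0) (nat_lit 9767476) (nat_lit 1748) (nat_lit 7049319149) (nat_lit 1824) (nat_lit 5429243348) (nat_lit 497) (nat_lit 5) (nat_lit 520) (nat_lit 5) (nat_lit 521) (nat_lit 5) (nat_lit 577) (nat_lit 574) (nat_lit 409)) (XT.lf (nat_lit 0) (nat_lit 571577622) (nat_lit 1748) (nat_lit 781738379) (nat_lit 1824) (nat_lit 11252343846) (nat_lit 497) (nat_lit 5) (nat_lit 520) (nat_lit 5) (nat_lit 521) (nat_lit 5) (nat_lit 578) (nat_lit 574) (nat_lit 408))))))))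
noncomputable def xc179 : XT := (XT.nd (nat_lit 2262) (nat_lit 12008) (nat_lit 0) (XT.nd (nat_lit 1092) (nat_lit 6764) (nat_lit 0) (XT.nd (nat_lit 546) (nat_lit 0) (nat_lit 228) (XT.nd (nat_lit 234) (nat_lit 0) (nat_lit 76) (XT.nd (nat_lit 78) (nat_lit 0) (nat_lit 0) (XT.lf (nat_lit 0) (nat_lit 1199269098) (nat_lit 1748) (nat_lit 7074813520) (nat_lit 1824) (nat_lit 4450161518) (nat_lit 498) (nat_lit 5) (nat_lit 521) (nat_lit 5) (nat_lit 522) (nat_lit 5) (nat_lit 579) (nat_lit 574) (nat_lit 407)) (XT.nd (nat_lit 78) (nat_lit 0) (nat_lit 76) (XT.lf (nat_lit 0) (nat_lit 1842468129) (nat_lit 1748) (nat_lit 640875496) (nat_lit 1824) (nat_lit 10361798114) (nat_lit 498) (nat_lit 5) (nat_lit 521) (nat_lit 5) (nat_lit 522) (nat_lit 5) (nat_lit 580) (nat_lit 574) (nat_lit 406)) (XT.lf (nat_lit 0) (nat_lit 2548892791) (nat_lit 1748) (nat_lit 6996535638) (nat_lit 1824) (nat_lit 3422022323) (nat_lit 499) (nat_lit 5) (nat_lit 522) (nat_lit 5) (nat_lit 523) (nat_lit 5) (nat_lit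 581) (nat_lit 574) (nat_lit 405)))) (XT.nd (nat_lit 156) (nat_lit 0) (nat_lit 76) (XT.nd (nat_lit 78) (nat_lit 0) (nat_lit 76) (XT.lf (nat_lit 0) (nat_lit 3279357365) (nat_lit 1748) (nat_lit 391643935) (nat_lit 1824) (nat_lit 9421007095) (nat_lit 499) (nat_lit 5) (nat_lit 522) (nat_lit 5) (nat_lit 523) (nat_lit 5) (nat_lit 582) (nat_lit 574) (nat_lit 404)) (XT.lf (nat_lit 0) (nat_lit 4070854940) (nat_lit 1748) (nat_lit 6810771017) (nat_lit 1824) (nat_lit 2336503424) (nat_lit 500) (nat_lit 5) (nat_lit 523) (nat_lit 5) (nat_lit 524) (nat_lit 5) (nat_lit 583) (nat_lit 574) (nat_lit 403))) (XT.nd (nat_lit 78) (nat_lit 0) (nat_lit 76) (XT.lf (nat_lit 0) (nat_lit 4894681074) (nat_lit 1748) (nat_lit 30139807) (nat_lit 1824) (nat_lit 8421622583) (nat_lit 500) (nat_lit 5) (nat_lit 523) (nat_lit 5) (nat_lit 524) (nat_lit 5) (nat_lit 584) (nat_lit 574) (nat_lit 402)) (XT.lf (nat_lit 0) (nat_lit 5777787671) (nat_lit 1748) (nat_lit 6513500957) (nat_lit 1824) (nat_lit 1185179760)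 (nat_lit 501) (nat_lit 5) (nat_lit 524) (nat_lit 5) (nat_lit 525) (nat_lit 5) (nat_lit 585) (nat_lit 574) (nat_lit 401))))) (XT.nd (nat_lit 234) (nat_lit 0) (nat_lit 76) (XT.nd (nat_lit 78) (nat_lit 0) (nat_lit 0) (XT.lf (nat_lit 76) (nat_lit 453800980) (nat_lit 0) (nat_lit 6250448297) (nat_lit 1824) (nat_lit 6904331301) (nat_lit 502) (nat_lit 5) (nat_lit 501) (nat_lit 5) (nat_lit 525) (nat_lit 5) (nat_lit 586) (nat_lit 574) (nat_lit 400)) (XT.nd (nat_lit 78) (nat_lit 0) (nat_lit 76) (XT.lf (nat_lit 76) (nat_lit 7641995594) (nat_lit 0) (nat_lit 41035432) (nat_lit 1824) (nat_lit 6059628783) (nat_lit 502) (nat_lit 5) (nat_lit 501) (nat_lit 5) (nat_lit 525) (nat_lit 5) (nat_lit 587) (nat_lit 574) (nat_lit 399)) (XT.lf (nat_lit 76) (nat_lit 1060761458) (nat_lit 0) (nat_lit 7658666186) (nat_lit 1824) (nat_lit 5159232796) (nat_lit 503) (nat_lit 5) (nat_lit 502) (nat_lit 5) (nat_lit 526) (nat_lit 5) (nat_lit 588) (nat_lit 574) (nat_lit 398)))) (XT.nd (nat_lit 156)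 (nat_lit 0) (nat_lit 76) (XT.nd (nat_lit 78) (nat_lit 0) (nat_lit 76) (XT.lf (nat_lit 76) (nat_lit 8441052726) (nat_lit 0) (nat_lit 1367150882) (nat_lit 1824) (nat_lit 4208545036) (nat_lit 503) (nat_lit 5) (nat_lit 502) (nat_lit 5) (nat_lit 526) (nat_lit 5) (nat_lit 589) (nat_lit 574) (nat_lit 397)) (XT.lf (nat_lit 76) (nat_lit 1795250751) (nat_lit 0) (nat_lit 9158597341) (nat_lit 1824) (nat_lit 3203049239) (nat_lit 504) (nat_lit 5) (nat_lit 503) (nat_lit 5) (nat_lit 527) (nat_lit 5) (nat_lit 590) (nat_lit 574) (nat_lit 396))) (XT.nd (nat_lit 78) (nat_lit 0) (nat_lit 76) (XT.lf (nat_lit 76) (nat_lit 9373210910) (nat_lit 0) (nat_lit 2786391805) (nat_lit 1824) (nat_lit 2139502899) (nat_lit 504) (nat_lit 5) (nat_lit 503) (nat_lit 5) (nat_lit 527) (nat_lit 5) (nat_lit 591) (nat_lit 574) (nat_lit 395)) (XT.lf (nat_lit 76) (nat_lit 2662508445) (nat_lit 0) (nat_lit 10759342605) (nat_lit 1824) (nat_lit 1021659993) (nat_lit 505) (nat_lit 5) (nat_lit 504) (nat_lit 5)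 (nat_lit 528) (nat_lit 5) (nat_lit 592) (nat_lit 574) (nat_lit 394)))))) (XT.nd (nat_lit 546) (nat_lit 5396) (nat_lit 0) (XT.nd (nat_lit 234) (nat_lit 0) (nat_lit 152) (XT.nd (nat_lit 78) (nat_lit 0) (nat_lit 76) (XT.lf (nat_lit 0) (nat_lit 159768289) (nat_lit 1824) (nat_lit 4147081772) (nat_lit 1900) (nat_lit 10283084000) (nat_lit 480) (nat_lit 5) (nat_lit 504) (nat_lit 5) (nat_lit 505) (nat_lit 5) (nat_lit 593) (nat_lit 574) (nat_lit 393)) (XT.nd (nat_lit 78) (nat_lit 0) (nat_lit 0) (XT.lf (nat_lit 0) (nat_lit 1381228446) (nat_lit 1824) (nat_lit 11079707019) (nat_lit 1900) (nat_lit 2277613865) (nat_lit 481) (nat_lit 5) (nat_lit 505) (nat_lit 5) (nat_lit 506) (nat_lit 5) (nat_lit 594) (nat_lit 574) (nat_lit 392)) (XT.lf (nat_lit 0) (nat_lit 2675024934) (nat_lit 1824) (nat_lit 3248139857) (nat_lit 1900) (nat_lit 8966014487) (nat_lit 481) (nat_lit 5) (nat_lit 505) (nat_lit 5) (nat_lit 506) (nat_lit 5) (nat_lit 595) (nat_lit 574) (nat_lit 391)))) (XT.nd (nat_lit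 156) (nat_lit 0) (nat_lit 0) (XT.nd (nat_lit 78) (nat_lit 0) (nat_lit 0) (XT.lf (nat_lit 0) (nat_lit 4022434100) (nat_lit 1824) (nat_lit 10251280423) (nat_lit 1900) (nat_lit 768553068) (nat_lit 482) (nat_lit 5) (nat_lit 506) (nat_lit 5) (nat_lit 507) (nat_lit 5) (nat_lit 596) (nat_lit 574) (nat_lit 390)) (XT.lf (nat_lit 0) (nat_lit 5449631579) (nat_lit 1824) (nat_lit 2209375163) (nat_lit 1900) (nat_lit 7538354619) (nat_lit 482) (nat_lit 5) (nat_lit 506) (nat_lit 5) (nat_lit 507) (nat_lit 5) (nat_lit 597) (nat_lit 574) (nat_lit 389))) (XT.nd (nat_lit 78) (nat_lit 0) (nat_lit 76) (XT.lf (nat_lit 76) (nat_lit 6066113682) (nat_lit 0) (nat_lit 870480634) (nat_lit 1900) (nat_lit 8418338748) (nat_lit 483) (nat_lit 5) (nat_lit 482) (nat_lit 5) (nat_lit 507) (nat_lit 5) (nat_lit 598) (nat_lit 574) (nat_lit 388)) (XT.lf (nat_lit 0) (nat_lit 8499486473) (nat_lit 1824) (nat_lit 1024639901) (nat_lit 76) (nat_lit 5990606498) (nat_lit 483) (nat_lit 5) (nat_lit 507) (nat_lit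 5) (nat_lit 484) (nat_lit 5) (nat_lit 599) (nat_lit 574) (nat_lit 387))))) (XT.nd (nat_lit 312) (nat_lit 1824) (nat_lit 0) (XT.nd (nat_lit 156) (nat_lit 912) (nat_lit 0) (XT.nd (nat_lit 78) (nat_lit 1064) (nat_lit 0) (XT.lf (nat_lit 0) (nat_lit 7490496020) (nat_lit 1824) (nat_lit 2649656650) (nat_lit 1900) (nat_lit 5536646148) (nat_lit 459) (nat_lit 5) (nat_lit 483) (nat_lit 5) (nat_lit 484) (nat_lit 5) (nat_lit 600) (nat_lit 574) (nat_lit 386)) (XT.lf (nat_lit 0) (nat_lit 316721424) (nat_lit 1064) (nat_lit 11526446922) (nat_lit 1140) (nat_lit 3998347469) (nat_lit 445) (nat_lit 5) (nat_lit 459) (nat_lit 5) (nat_lit 460) (nat_lit 5) (nat_lit 601) (nat_lit 574) (nat_lit 385))) (XT.nd (nat_lit 78) (nat_lit 912) (nat_lit 0) (XT.lf (nat_lit 0) (nat_lit 9076119253) (nat_lit 1064) (nat_lit 4568834470) (nat_lit 1140) (nat_lit 2363279687) (nat_lit 445) (nat_lit 5) (nat_lit 459) (nat_lit 5) (nat_lit 460) (nat_lit 5) (nat_lit 602) (nat_lit 574) (nat_lit 384)) (XT.lf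 (nat_lit 0) (nat_lit 1833154273) (nat_lit 912) (nat_lit 13670433745) (nat_lit 988) (nat_lit 674281512) (nat_lit 433) (nat_lit 5) (nat_lit 445) (nat_lit 5) (nat_lit 446) (nat_lit 5) (nat_lit 603) (nat_lit 574) (nat_lit 383)))) (XT.nd (nat_lit 156) (nat_lit 836) (nat_lit 0) (XT.nd (nat_lit 78) (nat_lit 912) (nat_lit 0) (XT.lf (nat_lit 0) (nat_lit 1104380145) (nat_lit 988) (nat_lit 5526594698) (nat_lit 76) (nat_lit 9718395107) (nat_lit 432) (nat_lit 5) (nat_lit 445) (nat_lit 5) (nat_lit 433) (nat_lit 5) (nat_lit 604) (nat_lit 574) (nat_lit 382)) (XT.lf (nat_lit 0) (nat_lit 2928782718) (nat_lit 988) (nat_lit 13025105313) (nat_lit 76) (nat_lit 569939693) (nat_lit 420) (nat_lit 5) (nat_lit 433) (nat_lit 5) (nat_lit 421) (nat_lit 5) (nat_lit 605) (nat_lit 574) (nat_lit 381))) (XT.nd (nat_lit 78) (nat_lit 836) (nat_lit 0) (XT.lf (nat_lit 0) (nat_lit 4863718536) (nat_lit 988) (nat_lit 3972646805) (nat_lit 76) (nat_lit 7863928813) (nat_lit 420) (nat_lit 5) (nat_lit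 433) (nat_lit 5) (nat_lit 421) (nat_lit 5) (nat_lit 606) (nat_lit 574) (nat_lit 380)) (XT.lf (nat_lit 0) (nat_lit 5323905596) (nat_lit 836) (nat_lit 1540954475) (nat_lit 912) (nat_lit 10014880099) (nat_lit 409) (nat_lit 5) (nat_lit 420) (nat_lit 5) (nat_lit 421) (nat_lit 5) (nat_lit 607) (nat_lit 574) (nat_lit 379))))))) (XT.nd (nat_lit 1170) (nat_lit 5700) (nat_lit 0) (XT.nd (nat_lit 546) (nat_lit 2964) (nat_lit 0) (XT.nd (nat_lit 234) (nat_lit 2508) (nat_lit 0) (XT.nd (nat_lit 78) (nat_lit 836) (nat_lit 0) (XT.lf (nat_lit 0) (nat_lit 8964205476) (nat_lit 912) (nat_lit 2247364074) (nat_lit 76) (nat_lit 5850042323) (nat_lit 409) (nat_lit 5) (nat_lit 421) (nat_lit 5) (nat_lit 410) (nat_lit 5) (nat_lit 608) (nat_lit 574) (nat_lit 378)) (XT.nd (nat_lit 78) (nat_lit 0) (nat_lit 0) (XT.lf (nat_lit 0) (nat_lit 7326417105) (nat_lit 836) (nat_lit 3830067031) (nat_lit 912) (nat_lit 6089618329) (nat_lit 398) (nat_lit 5) (nat_lit 409) (nat_lit 5) (nat_lit 410) (nat_lit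 5) (nat_lit 609) (nat_lit 574) (nat_lit 377)) (XT.lf (nat_lit 0) (nat_lit 13425070053) (nat_lit 912) (nat_lit 342792408) (nat_lit 76) (nat_lit 3665771549) (nat_lit 398) (nat_lit 5) (nat_lit 410) (nat_lit 5) (nat_lit 399) (nat_lit 5) (nat_lit 610) (nat_lit 574) (nat_lit 376)))) (XT.nd (nat_lit 156) (nat_lit 760) (nat_lit 0) (XT.nd (nat_lit 78) (nat_lit 912) (nat_lit 0) (XT.lf (nat_lit 0) (nat_lit 9518411340) (nat_lit 836) (nat_lit 6301176972) (nat_lit 912) (nat_lit 1803717027) (nat_lit 387) (nat_lit 5) (nat_lit 398) (nat_lit 5) (nat_lit 399) (nat_lit 5) (nat_lit 611) (nat_lit 574) (nat_lit 375)) (XT.lf (nat_lit 0) (nat_lit 455335442) (nat_lit 912) (nat_lit 16046774430) (nat_lit 76) (nat_lit 1314283804) (nat_lit 375) (nat_lit 5) (nat_lit 387) (nat_lit 5) (nat_lit 376) (nat_lit 5) (nat_lit 612) (nat_lit 574) (nat_lit 374))) (XT.nd (nat_lit 78) (nat_lit 760) (nat_lit 0) (XT.lf (nat_lit 0) (nat_lit 2825440309) (nat_lit 912) (nat_lit 6121629882) (nat_lit 76) (nat_lit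 9064235021) (nat_lit 375) (nat_lit 5) (nat_lit 387) (nat_lit 5) (nat_lit 376) (nat_lit 5) (nat_lit 613) (nat_lit 574) (nat_lit 373)) (XT.lf (nat_lit 0) (nat_lit 4048421556) (nat_lit 760) (nat_lit 1214460364) (nat_lit 836) (nat_lit 12946834703) (nat_lit 365) (nat_lit 5) (nat_lit 375) (nat_lit 5) (nat_lit 376) (nat_lit 5) (nat_lit 614) (nat_lit 574) (nat_lit 372))))) (XT.nd (nat_lit 312) (nat_lit 1520) (nat_lit 0) (XT.nd (nat_lit 156) (nat_lit 684) (nat_lit 0) (XT.nd (nat_lit 78) (nat_lit 760) (nat_lit 0) (XT.lf (nat_lit 0) (nat_lit 7827476534) (nat_lit 836) (nat_lit 3956787658) (nat_lit 76) (nat_lit 6626264321) (nat_lit 365) (nat_lit 5) (nat_lit 376) (nat_lit 5) (nat_lit 366) (nat_lit 5) (nat_lit 615) (nat_lit 574) (nat_lit 371)) (XT.lf (nat_lit 0) (nat_lit 6522674929) (nat_lit 760) (nat_lit 3964931902) (nat_lit 836) (nat_lit 8126865257) (nat_lit 355) (nat_lit 5) (nat_lit 365) (nat_lit 5) (nat_lit 366) (nat_lit 5) (nat_lit 616) (nat_lit 574) (nat_lit 370)))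 (XT.nd (nat_lit 78) (nat_lit 684) (nat_lit 0) (XT.lf (nat_lit 0) (nat_lit 13247634215) (nat_lit 836) (nat_lit 1589530861) (nat_lit 76) (nat_lit 3984395890) (nat_lit 355) (nat_lit 5) (nat_lit 366) (nat_lit 5) (nat_lit 356) (nat_lit 5) (nat_lit 617) (nat_lit 574) (nat_lit 369)) (XT.lf (nat_lit 0) (nat_lit 9210742200) (nat_lit 684) (nat_lit 6932224941) (nat_lit 760) (nat_lit 2888222691) (nat_lit 346) (nat_lit 5) (nat_lit 355) (nat_lit 5) (nat_lit 356) (nat_lit 5) (nat_lit 618) (nat_lit 574) (nat_lit 368)))) (XT.nd (nat_lit 156) (nat_lit 684) (nat_lit 0) (XT.nd (nat_lit 78) (nat_lit 76) (nat_lit 0) (XT.lf (nat_lit 0) (nat_lit 1002857676) (nat_lit 760) (nat_lit 18112054463) (nat_lit 836) (nat_lit 129725337) (nat_lit 336) (nat_lit 5) (nat_lit 346) (nat_lit 5) (nat_lit 347) (nat_lit 5) (nat_lit 619) (nat_lit 574) (nat_lit 367)) (XT.lf (nat_lit 0) (nat_lit 2755135825) (nat_lit 836) (nat_lit 7355745281) (nat_lit 76) (nat_lit 9348996857) (nat_lit 335) (nat_lit 5) (nat_lit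 346) (nat_lit 5) (nat_lit 336) (nat_lit 5) (nat_lit 620) (nat_lit 574) (nat_lit 366))) (XT.nd (nat_lit 78) (nat_lit 0) (nat_lit 0) (XT.lf (nat_lit 0) (nat_lit 3790306539) (nat_lit 684) (nat_lit 1924524861) (nat_lit 760) (nat_lit 13964197515) (nat_lit 326) (nat_lit 5) (nat_lit 335) (nat_lit 5) (nat_lit 336) (nat_lit 5) (nat_lit 621) (nat_lit 574) (nat_lit 365)) (XT.lf (nat_lit 0) (nat_lit 8819455810) (nat_lit 760) (nat_lit 4691252921) (nat_lit 76) (nat_lit 6390139741) (nat_lit 326) (nat_lit 5) (nat_lit 336) (nat_lit 5) (nat_lit 327) (nat_lit 5) (nat_lit 622) (nat_lit 574) (nat_lit 364)))))) (XT.nd (nat_lit 546) (nat_lit 3040) (nat_lit 0) (XT.nd (nat_lit 234) (nat_lit 1368) (nat_lit 0) (XT.nd (nat_lit 78) (nat_lit 608) (nat_lit 0) (XT.lf (nat_lit 0) (nat_lit 6800115432) (nat_lit 684) (nat_lit 5237392665) (nat_lit 760) (nat_lit 8088569892) (nat_lit 317) (nat_lit 5) (nat_lit 326) (nat_lit 5) (nat_lit 327) (nat_lit 5) (nat_lit 623) (nat_lit 574) (nat_lit 363))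 (XT.nd (nat_lit 78) (nat_lit 608) (nat_lit 0) (XT.lf (nat_lit 0) (nat_lit 15366896546) (nat_lit 760) (nat_lit 1797825470) (nat_lit 76) (nat_lit 3190150851) (nat_lit 317) (nat_lit 5) (nat_lit 327) (nat_lit 5) (nat_lit 318) (nat_lit 5) (nat_lit 624) (nat_lit 574) (nat_lit 362)) (XT.lf (nat_lit 0) (nat_lit 10051595293) (nat_lit 608) (nat_lit 8805831961) (nat_lit 684) (nat_lit 1728925565) (nat_lit 309) (nat_lit 5) (nat_lit 317) (nat_lit 5) (nat_lit 318) (nat_lit 5) (nat_lit 625) (nat_lit 574) (nat_lit 361)))) (XT.nd (nat_lit 156) (nat_lit 608) (nat_lit 0) (XT.nd (nat_lit 78) (nat_lit 0) (nat_lit 0) (XT.lf (nat_lit 0) (nat_lit 1340849081) (nat_lit 684) (nat_lit 249021235) (nat_lit 760) (nat_lit 19232075419) (nat_lit 299) (nat_lit 5) (nat_lit 308) (nat_lit 5) (nat_lit 309) (nat_lit 5) (nat_lit 626) (nat_lit 574) (nat_lit 360)) (XT.lf (nat_lit 0) (nat_lit 5072819429) (nat_lit 760) (nat_lit 7537544907) (nat_lit 76) (nat_lit 8449239307) (nat_lit 299) (nat_lit 5) (nat_lit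 309) (nat_lit 5) (nat_lit 300) (nat_lit 5) (nat_lit 627) (nat_lit 574) (nat_lit 359))) (XT.nd (nat_lit 78) (nat_lit 0) (nat_lit 0) (XT.lf (nat_lit 0) (nat_lit 4698468927) (nat_lit 608) (nat_lit 3953910615) (nat_lit 684) (nat_lit 12649096374) (nat_lit 291) (nat_lit 5) (nat_lit 299) (nat_lit 5) (nat_lit 300) (nat_lit 5) (nat_lit 628) (nat_lit 574) (nat_lit 358)) (XT.lf (nat_lit 0) (nat_lit 12380953198) (nat_lit 684) (nat_lit 4304223035) (nat_lit 76) (nat_lit 4861461196) (nat_lit 291) (nat_lit 5) (nat_lit 300) (nat_lit 5) (nat_lit 292) (nat_lit 5) (nat_lit 629) (nat_lit 574) (nat_lit 357))))) (XT.nd (nat_lit 312) (nat_lit 1140) (nat_lit 0) (XT.nd (nat_lit 156) (nat_lit 1292) (nat_lit 0) (XT.nd (nat_lit 78) (nat_lit 0) (nat_lit 0) (XT.lf (nat_lit 0) (nat_lit 8317124113) (nat_lit 608) (nat_lit 7942110689) (nat_lit 684) (nat_lit 5535964879) (nat_lit 283) (nat_lit 5) (nat_lit 291) (nat_lit 5) (nat_lit 292) (nat_lit 5) (nat_lit 630) (nat_lit 574) (nat_lit 356)) (XT.lf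 (nat_lit 0) (nat_lit 20245493937) (nat_lit 684) (nat_lit 811797830) (nat_lit 76) (nat_lit 990833405) (nat_lit 283) (nat_lit 5) (nat_lit 292) (nat_lit 5) (nat_lit 284) (nat_lit 5) (nat_lit 631) (nat_lit 574) (nat_lit 355))) (XT.nd (nat_lit 78) (nat_lit 608) (nat_lit 0) (XT.lf (nat_lit 0) (nat_lit 2106874623) (nat_lit 684) (nat_lit 10108331667) (nat_lit 76) (nat_lit 10088086577) (nat_lit 274) (nat_lit 5) (nat_lit 283) (nat_lit 5) (nat_lit 275) (nat_lit 5) (nat_lit 632) (nat_lit 574) (nat_lit 354)) (XT.lf (nat_lit 0) (nat_lit 2929594892) (nat_lit 608) (nat_lit 3160488536) (nat_lit 684) (nat_lit 16472849396) (nat_lit 266) (nat_lit 5) (nat_lit 274) (nat_lit 5) (nat_lit 275) (nat_lit 5) (nat_lit 633) (nat_lit 574) (nat_lit 353)))) (XT.nd (nat_lit 156) (nat_lit 608) (nat_lit 0) (XT.nd (nat_lit 78) (nat_lit 532) (nat_lit 0) (XT.lf (nat_lit 0) (nat_lit 10255852055) (nat_lit 684) (nat_lit 6507306353) (nat_lit 76) (nat_lit 6062549475) (nat_lit 266) (nat_lit 5) (nat_lit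 275) (nat_lit 5) (nat_lit 267) (nat_lit 5) (nat_lit 634) (nat_lit 574) (nat_lit 352)) (XT.lf (nat_lit 0) (nat_lit 6945222682) (nat_lit 532) (nat_lit 7621000641) (nat_lit 608) (nat_lit 8526289585) (nat_lit 259) (nat_lit 5) (nat_lit 266) (nat_lit 5) (nat_lit 267) (nat_lit 5) (nat_lit 635) (nat_lit 574) (nat_lit 351))) (XT.nd (nat_lit 78) (nat_lit 608) (nat_lit 0) (XT.lf (nat_lit 0) (nat_lit 19013129588) (nat_lit 608) (nat_lit 2626347205) (nat_lit 76) (nat_lit 1724170896) (nat_lit 259) (nat_lit 5) (nat_lit 267) (nat_lit 5) (nat_lit 260) (nat_lit 5) (nat_lit 636) (nat_lit 574) (nat_lit 350)) (XT.lf (nat_lit 0) (nat_lit 29704385) (nat_lit 608) (nat_lit 12381954271) (nat_lit 76) (nat_lit 11226163773) (nat_lit 251) (nat_lit 5) (nat_lit 259) (nat_lit 5) (nat_lit 252) (nat_lit 5) (nat_lit 637) (nat_lit 574) (nat_lit 349))))))))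
noncomputable def xc180 : XT := (XT.nd (nat_lit 2262) (nat_lit 1444) (nat_lit 0) (XT.nd (nat_lit 1092) (nat_lit 3724) (nat_lit 0) (XT.nd (nat_lit 546) (nat_lit 1900) (nat_lit 0) (XT.nd (nat_lit 234) (nat_lit 1064) (nat_lit 0) (XT.nd (nat_lit 78) (nat_lit 532) (nat_lit 0) (XT.lf (nat_lit 0) (nat_lit 1519072037) (nat_lit 532) (nat_lit 2943283974) (nat_lit 608) (nat_lit 19454088145) (nat_lit 244) (nat_lit 5) (nat_lit 251) (nat_lit 5) (nat_lit 252) (nat_lit 5) (nat_lit 638) (nat_lit 574) (nat_lit 348)) (XT.nd (nat_lit 78) (nat_lit 532) (nat_lit 0) (XT.lf (nat_lit 0) (nat_lit 9106355269) (nat_lit 608) (nat_lit 8383325651) (nat_lit 76) (nat_lit 6708503699) (nat_lit 244) (nat_lit 5) (nat_lit 252) (nat_lit 5) (nat_lit 245) (nat_lit 5) (nat_lit 639) (nat_lit 574) (nat_lit 347)) (XT.lf (nat_lit 0) (nat_lit 5963681753) (nat_lit 532) (nat_lit 7933314086) (nat_lit 608) (nat_lit 10587489011) (nat_lit 237) (nat_lit 5) (nat_lit 244) (nat_lit 5) (nat_lit 245) (nat_lit 5) (nat_lit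 640) (nat_lit 574) (nat_lit 346)))) (XT.nd (nat_lit 156) (nat_lit 608) (nat_lit 0) (XT.nd (nat_lit 78) (nat_lit 456) (nat_lit 0) (XT.lf (nat_lit 0) (nat_lit 18847444276) (nat_lit 608) (nat_lit 4082350778) (nat_lit 76) (nat_lit 1845436313) (nat_lit 237) (nat_lit 5) (nat_lit 245) (nat_lit 5) (nat_lit 238) (nat_lit 5) (nat_lit 641) (nat_lit 574) (nat_lit 345)) (XT.lf (nat_lit 0) (nat_lit 10727057714) (nat_lit 456) (nat_lit 13287703280) (nat_lit 532) (nat_lit 1054674815) (nat_lit 231) (nat_lit 5) (nat_lit 237) (nat_lit 5) (nat_lit 238) (nat_lit 5) (nat_lit 642) (nat_lit 574) (nat_lit 344))) (XT.nd (nat_lit 78) (nat_lit 0) (nat_lit 0) (XT.lf (nat_lit 0) (nat_lit 493907040) (nat_lit 532) (nat_lit 3397109348) (nat_lit 608) (nat_lit 21477470144) (nat_lit 223) (nat_lit 5) (nat_lit 230) (nat_lit 5) (nat_lit 231) (nat_lit 5) (nat_lit 643) (nat_lit 574) (nat_lit 343)) (XT.lf (nat_lit 0) (nat_lit 9057565658) (nat_lit 608) (nat_lit 9907342156) (nat_lit 76) (nat_lit 6705749870)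 (nat_lit 223) (nat_lit 5) (nat_lit 231) (nat_lit 5) (nat_lit 224) (nat_lit 5) (nat_lit 644) (nat_lit 574) (nat_lit 342))))) (XT.nd (nat_lit 234) (nat_lit 988) (nat_lit 0) (XT.nd (nat_lit 78) (nat_lit 456) (nat_lit 0) (XT.lf (nat_lit 0) (nat_lit 5401689531) (nat_lit 456) (nat_lit 8979135451) (nat_lit 532) (nat_lit 11596979862) (nat_lit 217) (nat_lit 5) (nat_lit 223) (nat_lit 5) (nat_lit 224) (nat_lit 5) (nat_lit 645) (nat_lit 574) (nat_lit 341)) (XT.nd (nat_lit 78) (nat_lit 456) (nat_lit 0) (XT.lf (nat_lit 0) (nat_lit 19881149001) (nat_lit 532) (nat_lit 5152769791) (nat_lit 76) (nat_lit 1255764327) (nat_lit 217) (nat_lit 5) (nat_lit 224) (nat_lit 5) (nat_lit 218) (nat_lit 5) (nat_lit 646) (nat_lit 574) (nat_lit 340)) (XT.lf (nat_lit 0) (nat_lit 10653486570) (nat_lit 456) (nat_lit 14962551707) (nat_lit 532) (nat_lit 989269666) (nat_lit 211) (nat_lit 5) (nat_lit 217) (nat_lit 5) (nat_lit 218) (nat_lit 5) (nat_lit 647) (nat_lit 574) (nat_lit 339)))) (XT.nd (nat_lit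 156) (nat_lit 456) (nat_lit 0) (XT.nd (nat_lit 78) (nat_lit 456) (nat_lit 0) (XT.lf (nat_lit 0) (nat_lit 4509605541) (nat_lit 532) (nat_lit 116363508) (nat_lit 76) (nat_lit 22300072101) (nat_lit 210) (nat_lit 5) (nat_lit 217) (nat_lit 5) (nat_lit 211) (nat_lit 5) (nat_lit 648) (nat_lit 574) (nat_lit 338)) (XT.lf (nat_lit 0) (nat_lit 10245811850) (nat_lit 532) (nat_lit 11053698075) (nat_lit 76) (nat_lit 5950736469) (nat_lit 204) (nat_lit 5) (nat_lit 211) (nat_lit 5) (nat_lit 205) (nat_lit 5) (nat_lit 649) (nat_lit 574) (nat_lit 337))) (XT.nd (nat_lit 78) (nat_lit 0) (nat_lit 0) (XT.lf (nat_lit 0) (nat_lit 5289360215) (nat_lit 456) (nat_lit 10869195526) (nat_lit 532) (nat_lit 11421143879) (nat_lit 198) (nat_lit 5) (nat_lit 204) (nat_lit 5) (nat_lit 205) (nat_lit 5) (nat_lit 650) (nat_lit 574) (nat_lit 336)) (XT.lf (nat_lit 0) (nat_lit 22103407692) (nat_lit 456) (nat_lit 156413178) (nat_lit 532) (nat_lit 5654515858) (nat_lit 198) (nat_lit 5) (nat_lit 204) (nat_lit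 5) (nat_lit 205) (nat_lit 5) (nat_lit 651) (nat_lit 574) (nat_lit 335)))))) (XT.nd (nat_lit 546) (nat_lit 1596) (nat_lit 0) (XT.nd (nat_lit 234) (nat_lit 1216) (nat_lit 0) (XT.nd (nat_lit 78) (nat_lit 456) (nat_lit 0) (XT.lf (nat_lit 0) (nat_lit 363319038) (nat_lit 456) (nat_lit 17187665817) (nat_lit 76) (nat_lit 10701875181) (nat_lit 192) (nat_lit 5) (nat_lit 198) (nat_lit 5) (nat_lit 193) (nat_lit 5) (nat_lit 652) (nat_lit 574) (nat_lit 334)) (XT.nd (nat_lit 78) (nat_lit 456) (nat_lit 0) (XT.lf (nat_lit 0) (nat_lit 6462324897) (nat_lit 456) (nat_lit 284181535) (nat_lit 76) (nat_lit 21850169423) (nat_lit 192) (nat_lit 5) (nat_lit 198) (nat_lit 5) (nat_lit 193) (nat_lit 5) (nat_lit 653) (nat_lit 574) (nat_lit 333)) (XT.lf (nat_lit 0) (nat_lit 12819556904) (nat_lit 532) (nat_lit 11796600312) (nat_lit 76) (nat_lit 4328485986) (nat_lit 186) (nat_lit 5) (nat_lit 193) (nat_lit 5) (nat_lit 187) (nat_lit 5) (nat_lit 654) (nat_lit 574) (nat_lit 332)))) (XT.nd (nat_lit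 156) (nat_lit 836) (nat_lit 0) (XT.nd (nat_lit 78) (nat_lit 0) (nat_lit 0) (XT.lf (nat_lit 0) (nat_lit 5657145321) (nat_lit 380) (nat_lit 13726386766) (nat_lit 456) (nat_lit 9914445972) (nat_lit 181) (nat_lit 5) (nat_lit 186) (nat_lit 5) (nat_lit 187) (nat_lit 5) (nat_lit 655) (nat_lit 574) (nat_lit 331)) (XT.lf (nat_lit 0) (nat_lit 23614318784) (nat_lit 380) (nat_lit 2539936574) (nat_lit 456) (nat_lit 3502615011) (nat_lit 181) (nat_lit 5) (nat_lit 186) (nat_lit 5) (nat_lit 187) (nat_lit 5) (nat_lit 656) (nat_lit 574) (nat_lit 330))) (XT.nd (nat_lit 78) (nat_lit 380) (nat_lit 0) (XT.lf (nat_lit 0) (nat_lit 3130373359) (nat_lit 456) (nat_lit 18038890264) (nat_lit 76) (nat_lit 8850627450) (nat_lit 175) (nat_lit 5) (nat_lit 181) (nat_lit 5) (nat_lit 176) (nat_lit 5) (nat_lit 657) (nat_lit 574) (nat_lit 329)) (XT.lf (nat_lit 0) (nat_lit 11925451) (nat_lit 380) (nat_lit 9891334837) (nat_lit 456) (nat_lit 20485366204) (nat_lit 170) (nat_lit 5) (nat_lit 175) (nat_lit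 5) (nat_lit 176) (nat_lit 5) (nat_lit 658) (nat_lit 574) (nat_lit 328))))) (XT.nd (nat_lit 312) (nat_lit 760) (nat_lit 0) (XT.nd (nat_lit 156) (nat_lit 456) (nat_lit 0) (XT.nd (nat_lit 78) (nat_lit 380) (nat_lit 0) (XT.lf (nat_lit 0) (nat_lit 16940326853) (nat_lit 456) (nat_lit 12110845196) (nat_lit 76) (nat_lit 1710990250) (nat_lit 170) (nat_lit 5) (nat_lit 176) (nat_lit 5) (nat_lit 171) (nat_lit 5) (nat_lit 659) (nat_lit 574) (nat_lit 327)) (XT.lf (nat_lit 0) (nat_lit 6535099727) (nat_lit 380) (nat_lit 17687443917) (nat_lit 456) (nat_lit 6918537116) (nat_lit 165) (nat_lit 5) (nat_lit 170) (nat_lit 5) (nat_lit 171) (nat_lit 5) (nat_lit 660) (nat_lit 574) (nat_lit 326))) (XT.nd (nat_lit 78) (nat_lit 380) (nat_lit 0) (XT.lf (nat_lit 0) (nat_lit 199508678) (nat_lit 456) (nat_lit 5814601257) (nat_lit 76) (nat_lit 25511885971) (nat_lit 164) (nat_lit 5) (nat_lit 170) (nat_lit 5) (nat_lit 165) (nat_lit 5) (nat_lit 661) (nat_lit 574) (nat_lit 325)) (XT.lf (nat_lit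 0) (nat_lit 7490555267) (nat_lit 456) (nat_lit 18476920426) (nat_lit 76) (nat_lit 5947753558) (nat_lit 159) (nat_lit 5) (nat_lit 165) (nat_lit 5) (nat_lit 160) (nat_lit 5) (nat_lit 662) (nat_lit 574) (nat_lit 324)))) (XT.nd (nat_lit 156) (nat_lit 380) (nat_lit 0) (XT.nd (nat_lit 78) (nat_lit 0) (nat_lit 0) (XT.lf (nat_lit 0) (nat_lit 808792254) (nat_lit 380) (nat_lit 14199561633) (nat_lit 456) (nat_lit 17302274861) (nat_lit 154) (nat_lit 5) (nat_lit 159) (nat_lit 5) (nat_lit 160) (nat_lit 5) (nat_lit 663) (nat_lit 574) (nat_lit 323)) (XT.lf (nat_lit 0) (nat_lit 20725357018) (nat_lit 380) (nat_lit 2071747852) (nat_lit 456) (nat_lit 9914419543) (nat_lit 154) (nat_lit 5) (nat_lit 159) (nat_lit 5) (nat_lit 160) (nat_lit 5) (nat_lit 664) (nat_lit 574) (nat_lit 322))) (XT.nd (nat_lit 78) (nat_lit 76) (nat_lit 0) (XT.lf (nat_lit 0) (nat_lit 7951969397) (nat_lit 304) (nat_lit 22904817217) (nat_lit 380) (nat_lit 2261348366) (nat_lit 150) (nat_lit 5) (nat_lit 154) (nat_lit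 5) (nat_lit 155) (nat_lit 5) (nat_lit 665) (nat_lit 574) (nat_lit 321)) (XT.lf (nat_lit 0) (nat_lit 5563420001) (nat_lit 380) (nat_lit 5135459159) (nat_lit 76) (nat_lit 22831451556) (nat_lit 149) (nat_lit 5) (nat_lit 154) (nat_lit 5) (nat_lit 150) (nat_lit 5) (nat_lit 666) (nat_lit 574) (nat_lit 320))))))) (XT.nd (nat_lit 74646) (nat_lit 0) (nat_lit 26600) (XT.nd (nat_lit 74100) (nat_lit 0) (nat_lit 27816) (XT.nd (nat_lit 234) (nat_lit 760) (nat_lit 0) (XT.nd (nat_lit 78) (nat_lit 304) (nat_lit 0) (XT.lf (nat_lit 0) (nat_lit 13623788325) (nat_lit 456) (nat_lit 18481934518) (nat_lit 76) (nat_lit 1842560990) (nat_lit 144) (nat_lit 5) (nat_lit 150) (nat_lit 5) (nat_lit 145) (nat_lit 5) (nat_lit 667) (nat_lit 574) (nat_lit 319)) (XT.nd (nat_lit 78) (nat_lit 0) (nat_lit 0) (XT.lf (nat_lit 0) (nat_lit 2127524693) (nat_lit 304) (nat_lit 19833949747) (nat_lit 380) (nat_lit 12410799460) (nat_lit 140) (nat_lit 5) (nat_lit 144) (nat_lit 5) (nat_lit 145) (nat_lit 5) (nat_lit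 668) (nat_lit 574) (nat_lit 318)) (XT.lf (nat_lit 0) (nat_lit 23394538633) (nat_lit 304) (nat_lit 7192183051) (nat_lit 380) (nat_lit 4215606029) (nat_lit 140) (nat_lit 5) (nat_lit 144) (nat_lit 5) (nat_lit 145) (nat_lit 5) (nat_lit 669) (nat_lit 574) (nat_lit 317)))) (XT.nd (nat_lit 156) (nat_lit 304) (nat_lit 0) (XT.nd (nat_lit 78) (nat_lit 0) (nat_lit 0) (XT.lf (nat_lit 0) (nat_lit 4188156896) (nat_lit 456) (nat_lit 25332507345) (nat_lit 76) (nat_lit 5717800241) (nat_lit 134) (nat_lit 5) (nat_lit 140) (nat_lit 5) (nat_lit 135) (nat_lit 5) (nat_lit 670) (nat_lit 574) (nat_lit 316)) (XT.lf (nat_lit 0) (nat_lit 12825133282) (nat_lit 456) (nat_lit 3962354229) (nat_lit 76) (nat_lit 18892847555) (nat_lit 134) (nat_lit 5) (nat_lit 140) (nat_lit 5) (nat_lit 135) (nat_lit 5) (nat_lit 671) (nat_lit 574) (nat_lit 315))) (XT.nd (nat_lit 73632) (nat_lit 0) (nat_lit 29564) (XT.lf (nat_lit 0) (nat_lit 18067136166) (nat_lit 304) (nat_lit 3681921581) (nat_lit 380) (nat_lit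 14379701233) (nat_lit 130) (nat_lit 5) (nat_lit 134) (nat_lit 5) (nat_lit 135) (nat_lit 5) (nat_lit 672) (nat_lit 574) (nat_lit 314)) (XT.lf (nat_lit 0) (nat_lit 5870242067) (nat_lit 1748) (nat_lit 157991211) (nat_lit 1748) (nat_lit 157991211) (nat_lit 519) (nat_lit 3) (nat_lit 542) (nat_lit 3) (nat_lit 542) (nat_lit 5) (nat_lit 575) (nat_lit 575) (nat_lit 410))))) (XT.nd (nat_lit 234) (nat_lit 0) (nat_lit 76) (XT.nd (nat_lit 78) (nat_lit 1748) (nat_lit 0) (XT.lf (nat_lit 76) (nat_lit 5899534272) (nat_lit 0) (nat_lit 6439451242) (nat_lit 1748) (nat_lit 147537522) (nat_lit 520) (nat_lit 5) (nat_lit 519) (nat_lit 3) (nat_lit 542) (nat_lit 5) (nat_lit 576) (nat_lit 575) (nat_lit 409)) (XT.nd (nat_lit 78) (nat_lit 0) (nat_lit 76) (XT.lf (nat_lit 0) (nat_lit 332435856) (nat_lit 1748) (nat_lit 367615092) (nat_lit 1824) (nat_lit 11902975297) (nat_lit 496) (nat_lit 5) (nat_lit 519) (nat_lit 3) (nat_lit 520) (nat_lit 5) (nat_lit 577) (nat_lit 575) (nat_lit 408)) (XT.lf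 (nat_lit 0) (nat_lit 881570235) (nat_lit 1748) (nat_lit 6706594237) (nat_lit 1824) (nat_lit 5132445519) (nat_lit 497) (nat_lit 5) (nat_lit 520) (nat_lit 5) (nat_lit 521) (nat_lit 5) (nat_lit 578) (nat_lit 575) (nat_lit 407)))) (XT.nd (nat_lit 156) (nat_lit 0) (nat_lit 76) (XT.nd (nat_lit 78) (nat_lit 0) (nat_lit 76) (XT.lf (nat_lit 0) (nat_lit 1437526243) (nat_lit 1748) (nat_lit 323146387) (nat_lit 1824) (nat_lit 11079956707) (nat_lit 497) (nat_lit 5) (nat_lit 520) (nat_lit 5) (nat_lit 521) (nat_lit 5) (nat_lit 579) (nat_lit 575) (nat_lit 406)) (XT.lf (nat_lit 0) (nat_lit 2061674623) (nat_lit 1748) (nat_lit 6725933785) (nat_lit 1824) (nat_lit 4174299887) (nat_lit 498) (nat_lit 5) (nat_lit 521) (nat_lit 5) (nat_lit 522) (nat_lit 5) (nat_lit 580) (nat_lit 575) (nat_lit 405))) (XT.nd (nat_lit 78) (nat_lit 0) (nat_lit 76) (XT.lf (nat_lit 0) (nat_lit 2701298024) (nat_lit 1748) (nat_lit 172932217) (nat_lit 1824) (nat_lit 10211323429) (nat_lit 498) (nat_lit 5) (nat_lit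 521) (nat_lit 5) (nat_lit 522) (nat_lit 5) (nat_lit 581) (nat_lit 575) (nat_lit 404)) (XT.lf (nat_lit 0) (nat_lit 3406683347) (nat_lit 1748) (nat_lit 6640487441) (nat_lit 1824) (nat_lit 3163442438) (nat_lit 499) (nat_lit 5) (nat_lit 522) (nat_lit 5) (nat_lit 523) (nat_lit 5) (nat_lit 582) (nat_lit 575) (nat_lit 403)))))) (XT.nd (nat_lit 546) (nat_lit 1444) (nat_lit 0) (XT.nd (nat_lit 234) (nat_lit 0) (nat_lit 152) (XT.nd (nat_lit 78) (nat_lit 0) (nat_lit 76) (XT.lf (nat_lit 76) (nat_lit 87930239) (nat_lit 0) (nat_lit 4048578017) (nat_lit 1824) (nat_lit 9201459730) (nat_lit 500) (nat_lit 5) (nat_lit 499) (nat_lit 5) (nat_lit 523) (nat_lit 5) (nat_lit 583) (nat_lit 575) (nat_lit 402)) (XT.nd (nat_lit 78) (nat_lit 0) (nat_lit 0) (XT.lf (nat_lit 0) (nat_lit 4928972528) (nat_lit 1748) (nat_lit 6446391915) (nat_lit 1824) (nat_lit 2091545180) (nat_lit 500) (nat_lit 5) (nat_lit 523) (nat_lit 5) (nat_lit 524) (nat_lit 5) (nat_lit 584) (nat_lit 575) (nat_lit 401)) (XT.lf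 (nat_lit 76) (nat_lit 466149980) (nat_lit 0) (nat_lit 5290922338) (nat_lit 1824) (nat_lit 7840962675) (nat_lit 501) (nat_lit 5) (nat_lit 500) (nat_lit 5) (nat_lit 524) (nat_lit 5) (nat_lit 585) (nat_lit 575) (nat_lit 400)))) (XT.nd (nat_lit 156) (nat_lit 0) (nat_lit 0) (XT.nd (nat_lit 78) (nat_lit 0) (nat_lit 0) (XT.lf (nat_lit 0) (nat_lit 6641347098) (nat_lit 1748) (nat_lit 6139478180) (nat_lit 1824) (nat_lit 950165946) (nat_lit 501) (nat_lit 5) (nat_lit 524) (nat_lit 5) (nat_lit 525) (nat_lit 5) (nat_lit 586) (nat_lit 575) (nat_lit 399)) (XT.lf (nat_lit 76) (nat_lit 963852080) (nat_lit 0) (nat_lit 6611071780) (nat_lit 1824) (nat_lit 6291050991) (nat_lit 502) (nat_lit 5) (nat_lit 501) (nat_lit 5) (nat_lit 525) (nat_lit 5) (nat_lit 587) (nat_lit 575) (nat_lit 398))) (XT.nd (nat_lit 78) (nat_lit 0) (nat_lit 76) (XT.lf (nat_lit 76) (nat_lit 8285987546) (nat_lit 0) (nat_lit 272850765) (nat_lit 1824) (nat_lit 5444187107) (nat_lit 502) (nat_lit 5) (nat_lit 501)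 (nat_lit 5) (nat_lit 525) (nat_lit 5) (nat_lit 588) (nat_lit 575) (nat_lit 397)) (XT.lf (nat_lit 76) (nat_lit 1585779642) (nat_lit 0) (nat_lit 8017824140) (nat_lit 1824) (nat_lit 4538390336) (nat_lit 503) (nat_lit 5) (nat_lit 502) (nat_lit 5) (nat_lit 526) (nat_lit 5) (nat_lit 589) (nat_lit 575) (nat_lit 396))))) (XT.nd (nat_lit 312) (nat_lit 1672) (nat_lit 0) (XT.nd (nat_lit 156) (nat_lit 0) (nat_lit 76) (XT.nd (nat_lit 78) (nat_lit 0) (nat_lit 76) (XT.lf (nat_lit 76) (nat_lit 9103798245) (nat_lit 0) (nat_lit 1596439617) (nat_lit 1824) (nat_lit 3582885431) (nat_lit 503) (nat_lit 5) (nat_lit 502) (nat_lit 5) (nat_lit 526) (nat_lit 5) (nat_lit 590) (nat_lit 575) (nat_lit 395)) (XT.lf (nat_lit 76) (nat_lit 2337001747) (nat_lit 0) (nat_lit 9520147807) (nat_lit 1824) (nat_lit 2569159155) (nat_lit 504) (nat_lit 5) (nat_lit 503) (nat_lit 5) (nat_lit 527) (nat_lit 5) (nat_lit 591) (nat_lit 575) (nat_lit 394))) (XT.nd (nat_lit 78) (nat_lit 0) (nat_lit 76) (XT.lf (nat_lit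 76) (nat_lit 10056602560) (nat_lit 0) (nat_lit 3017000542) (nat_lit 1824) (nat_lit 1498027203) (nat_lit 504) (nat_lit 5) (nat_lit 503) (nat_lit 5) (nat_lit 527) (nat_lit 5) (nat_lit 592) (nat_lit 575) (nat_lit 393)) (XT.lf (nat_lit 76) (nat_lit 3222920224) (nat_lit 0) (nat_lit 11127202726) (nat_lit 1824) (nat_lit 369021172) (nat_lit 505) (nat_lit 5) (nat_lit 504) (nat_lit 5) (nat_lit 528) (nat_lit 5) (nat_lit 593) (nat_lit 575) (nat_lit 392)))) (XT.nd (nat_lit 156) (nat_lit 0) (nat_lit 76) (XT.nd (nat_lit 78) (nat_lit 0) (nat_lit 76) (XT.lf (nat_lit 0) (nat_lit 814183812) (nat_lit 1824) (nat_lit 3724112896) (nat_lit 1900) (nat_lit 10330372757) (nat_lit 480) (nat_lit 5) (nat_lit 504) (nat_lit 5) (nat_lit 505) (nat_lit 5) (nat_lit 594) (nat_lit 575) (nat_lit 391)) (XT.lf (nat_lit 0) (nat_lit 2049663909) (nat_lit 1824) (nat_lit 10784943272) (nat_lit 1900) (nat_lit 2185858807) (nat_lit 481) (nat_lit 5) (nat_lit 505) (nat_lit 5) (nat_lit 506) (nat_lit 5) (nat_lit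 595) (nat_lit 575) (nat_lit 390))) (XT.nd (nat_lit 78) (nat_lit 0) (nat_lit 76) (XT.lf (nat_lit 0) (nat_lit 3356771407) (nat_lit 1824) (nat_lit 2806869431) (nat_lit 1900) (nat_lit 9010719741) (nat_lit 481) (nat_lit 5) (nat_lit 505) (nat_lit 5) (nat_lit 506) (nat_lit 5) (nat_lit 596) (nat_lit 575) (nat_lit 389)) (XT.lf (nat_lit 0) (nat_lit 4721320355) (nat_lit 1824) (nat_lit 9940227775) (nat_lit 1900) (nat_lit 669159429) (nat_lit 482) (nat_lit 5) (nat_lit 506) (nat_lit 5) (nat_lit 507) (nat_lit 5) (nat_lit 597) (nat_lit 575) (nat_lit 388))))))))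
noncomputable def xc181 : XT := (XT.nd (nat_lit 2262) (nat_lit 9728) (nat_lit 0) (XT.nd (nat_lit 1092) (nat_lit 5928) (nat_lit 0) (XT.nd (nat_lit 546) (nat_lit 3496) (nat_lit 0) (XT.nd (nat_lit 234) (nat_lit 3724) (nat_lit 0) (XT.nd (nat_lit 78) (nat_lit 0) (nat_lit 0) (XT.lf (nat_lit 0) (nat_lit 6164935557) (nat_lit 1824) (nat_lit 1747603591) (nat_lit 1900) (nat_lit 7576607299) (nat_lit 482) (nat_lit 5) (nat_lit 506) (nat_lit 5) (nat_lit 507) (nat_lit 5) (nat_lit 598) (nat_lit 575) (nat_lit 387)) (XT.nd (nat_lit 78) (nat_lit 0) (nat_lit 76) (XT.lf (nat_lit 76) (nat_lit 6690066352) (nat_lit 0) (nat_lit 982946148) (nat_lit 1900) (nat_lit 7977030290) (nat_lit 483) (nat_lit 5) (nat_lit 482) (nat_lit 5) (nat_lit 507) (nat_lit 5) (nat_lit 599) (nat_lit 575) (nat_lit 386)) (XT.lf (nat_lit 0) (nat_lit 9254838097) (nat_lit 1824) (nat_lit 539998877) (nat_lit 76) (nat_lit 6018448799) (nat_lit 483) (nat_lit 5) (nat_lit 507) (nat_lit 5) (nat_lit 484) (nat_lit 5) (nat_lit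 600) (nat_lit 575) (nat_lit 385)))) (XT.nd (nat_lit 156) (nat_lit 912) (nat_lit 0) (XT.nd (nat_lit 78) (nat_lit 1064) (nat_lit 0) (XT.lf (nat_lit 0) (nat_lit 8142116514) (nat_lit 1824) (nat_lit 2777981507) (nat_lit 1900) (nat_lit 5058660085) (nat_lit 459) (nat_lit 5) (nat_lit 483) (nat_lit 5) (nat_lit 484) (nat_lit 5) (nat_lit 601) (nat_lit 575) (nat_lit 384)) (XT.lf (nat_lit 0) (nat_lit 833551452) (nat_lit 1064) (nat_lit 11815141005) (nat_lit 1140) (nat_lit 3498247280) (nat_lit 445) (nat_lit 5) (nat_lit 459) (nat_lit 5) (nat_lit 460) (nat_lit 5) (nat_lit 602) (nat_lit 575) (nat_lit 383))) (XT.nd (nat_lit 78) (nat_lit 912) (nat_lit 0) (XT.lf (nat_lit 0) (nat_lit 9758127520) (nat_lit 1064) (nat_lit 4717235811) (nat_lit 1140) (nat_lit 1841852008) (nat_lit 445) (nat_lit 5) (nat_lit 459) (nat_lit 5) (nat_lit 460) (nat_lit 5) (nat_lit 603) (nat_lit 575) (nat_lit 382)) (XT.lf (nat_lit 0) (nat_lit 2378487544) (nat_lit 912) (nat_lit 13984690831) (nat_lit 988) (nat_lit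 127226284) (nat_lit 433) (nat_lit 5) (nat_lit 445) (nat_lit 5) (nat_lit 446) (nat_lit 5) (nat_lit 604) (nat_lit 575) (nat_lit 381))))) (XT.nd (nat_lit 234) (nat_lit 2508) (nat_lit 0) (XT.nd (nat_lit 78) (nat_lit 912) (nat_lit 0) (XT.lf (nat_lit 0) (nat_lit 1668810164) (nat_lit 988) (nat_lit 5131192234) (nat_lit 76) (nat_lit 9865477450) (nat_lit 432) (nat_lit 5) (nat_lit 445) (nat_lit 5) (nat_lit 433) (nat_lit 5) (nat_lit 605) (nat_lit 575) (nat_lit 380)) (XT.nd (nat_lit 78) (nat_lit 0) (nat_lit 0) (XT.lf (nat_lit 0) (nat_lit 3522119735) (nat_lit 988) (nat_lit 12772061956) (nat_lit 76) (nat_lit 549397309) (nat_lit 420) (nat_lit 5) (nat_lit 433) (nat_lit 5) (nat_lit 421) (nat_lit 5) (nat_lit 606) (nat_lit 575) (nat_lit 379)) (XT.lf (nat_lit 0) (nat_lit 5485268752) (nat_lit 988) (nat_lit 3548623796) (nat_lit 76) (nat_lit 7989892510) (nat_lit 420) (nat_lit 5) (nat_lit 433) (nat_lit 5) (nat_lit 421) (nat_lit 5) (nat_lit 607) (nat_lit 575) (nat_lit 378)))) (XT.nd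 (nat_lit 156) (nat_lit 1672) (nat_lit 0) (XT.nd (nat_lit 78) (nat_lit 0) (nat_lit 0) (XT.lf (nat_lit 0) (nat_lit 5930547311) (nat_lit 836) (nat_lit 1588853282) (nat_lit 912) (nat_lit 9687560629) (nat_lit 409) (nat_lit 5) (nat_lit 420) (nat_lit 5) (nat_lit 421) (nat_lit 5) (nat_lit 608) (nat_lit 575) (nat_lit 377)) (XT.lf (nat_lit 0) (nat_lit 9650482162) (nat_lit 912) (nat_lit 1791675820) (nat_lit 76) (nat_lit 5950517959) (nat_lit 409) (nat_lit 5) (nat_lit 421) (nat_lit 5) (nat_lit 410) (nat_lit 5) (nat_lit 609) (nat_lit 575) (nat_lit 376))) (XT.nd (nat_lit 78) (nat_lit 836) (nat_lit 0) (XT.lf (nat_lit 0) (nat_lit 7970287328) (nat_lit 836) (nat_lit 3909607110) (nat_lit 912) (nat_lit 5701096702) (nat_lit 398) (nat_lit 5) (nat_lit 409) (nat_lit 5) (nat_lit 410) (nat_lit 5) (nat_lit 610) (nat_lit 575) (nat_lit 375)) (XT.lf (nat_lit 0) (nat_lit 149761316) (nat_lit 836) (nat_lit 14035234976) (nat_lit 912) (nat_lit 3587454683) (nat_lit 387) (nat_lit 5) (nat_lit 398)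 (nat_lit 5) (nat_lit 399) (nat_lit 5) (nat_lit 611) (nat_lit 575) (nat_lit 374)))))) (XT.nd (nat_lit 546) (nat_lit 3496) (nat_lit 0) (XT.nd (nat_lit 234) (nat_lit 1520) (nat_lit 0) (XT.nd (nat_lit 78) (nat_lit 912) (nat_lit 0) (XT.lf (nat_lit 0) (nat_lit 10202952327) (nat_lit 836) (nat_lit 6417072022) (nat_lit 912) (nat_lit 1346039527) (nat_lit 387) (nat_lit 5) (nat_lit 398) (nat_lit 5) (nat_lit 399) (nat_lit 5) (nat_lit 612) (nat_lit 575) (nat_lit 373)) (XT.nd (nat_lit 78) (nat_lit 0) (nat_lit 0) (XT.lf (nat_lit 0) (nat_lit 945499909) (nat_lit 912) (nat_lit 15860791266) (nat_lit 76) (nat_lit 1356783571) (nat_lit 375) (nat_lit 5) (nat_lit 387) (nat_lit 5) (nat_lit 376) (nat_lit 5) (nat_lit 613) (nat_lit 575) (nat_lit 372)) (XT.lf (nat_lit 0) (nat_lit 3353574368) (nat_lit 912) (nat_lit 5747083408) (nat_lit 76) (nat_lit 9261415889) (nat_lit 375) (nat_lit 5) (nat_lit 387) (nat_lit 5) (nat_lit 376) (nat_lit 5) (nat_lit 614) (nat_lit 575) (nat_lit 371)))) (XT.nd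 (nat_lit 156) (nat_lit 760) (nat_lit 0) (XT.nd (nat_lit 78) (nat_lit 0) (nat_lit 0) (XT.lf (nat_lit 0) (nat_lit 4623099459) (nat_lit 760) (nat_lit 1210623288) (nat_lit 836) (nat_lit 12730851892) (nat_lit 365) (nat_lit 5) (nat_lit 375) (nat_lit 5) (nat_lit 376) (nat_lit 5) (nat_lit 615) (nat_lit 575) (nat_lit 370)) (XT.lf (nat_lit 0) (nat_lit 8440659205) (nat_lit 836) (nat_lit 3542920300) (nat_lit 76) (nat_lit 6786002746) (nat_lit 365) (nat_lit 5) (nat_lit 376) (nat_lit 5) (nat_lit 366) (nat_lit 5) (nat_lit 616) (nat_lit 575) (nat_lit 369))) (XT.nd (nat_lit 78) (nat_lit 0) (nat_lit 0) (XT.lf (nat_lit 0) (nat_lit 7142888097) (nat_lit 760) (nat_lit 4005330265) (nat_lit 836) (nat_lit 7829502285) (nat_lit 355) (nat_lit 5) (nat_lit 365) (nat_lit 5) (nat_lit 366) (nat_lit 5) (nat_lit 617) (nat_lit 575) (nat_lit 368)) (XT.lf (nat_lit 0) (nat_lit 13954853527) (nat_lit 836) (nat_lit 1132548942) (nat_lit 76) (nat_lit 4101721152) (nat_lit 355) (nat_lit 5) (nat_lit 366)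 (nat_lit 5) (nat_lit 356) (nat_lit 5) (nat_lit 618) (nat_lit 575) (nat_lit 367))))) (XT.nd (nat_lit 312) (nat_lit 1292) (nat_lit 0) (XT.nd (nat_lit 156) (nat_lit 684) (nat_lit 0) (XT.nd (nat_lit 78) (nat_lit 836) (nat_lit 0) (XT.lf (nat_lit 0) (nat_lit 9880513971) (nat_lit 684) (nat_lit 7022059804) (nat_lit 760) (nat_lit 2500482133) (nat_lit 346) (nat_lit 5) (nat_lit 355) (nat_lit 5) (nat_lit 356) (nat_lit 5) (nat_lit 619) (nat_lit 575) (nat_lit 366)) (XT.lf (nat_lit 0) (nat_lit 303976970) (nat_lit 836) (nat_lit 18109211547) (nat_lit 76) (nat_lit 1207645772) (nat_lit 335) (nat_lit 5) (nat_lit 346) (nat_lit 5) (nat_lit 336) (nat_lit 5) (nat_lit 620) (nat_lit 575) (nat_lit 365))) (XT.nd (nat_lit 78) (nat_lit 684) (nat_lit 0) (XT.lf (nat_lit 0) (nat_lit 3236279146) (nat_lit 836) (nat_lit 7016051617) (nat_lit 76) (nat_lit 9588202486) (nat_lit 335) (nat_lit 5) (nat_lit 346) (nat_lit 5) (nat_lit 336) (nat_lit 5) (nat_lit 621) (nat_lit 575) (nat_lit 364)) (XT.lf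 (nat_lit 0) (nat_lit 4349718552) (nat_lit 684) (nat_lit 1900236234) (nat_lit 760) (nat_lit 13814217133) (nat_lit 326) (nat_lit 5) (nat_lit 335) (nat_lit 5) (nat_lit 336) (nat_lit 5) (nat_lit 622) (nat_lit 575) (nat_lit 363)))) (XT.nd (nat_lit 156) (nat_lit 608) (nat_lit 0) (XT.nd (nat_lit 78) (nat_lit 684) (nat_lit 0) (XT.lf (nat_lit 0) (nat_lit 9408819790) (nat_lit 760) (nat_lit 4303082044) (nat_lit 76) (nat_lit 6578683482) (nat_lit 326) (nat_lit 5) (nat_lit 336) (nat_lit 5) (nat_lit 327) (nat_lit 5) (nat_lit 623) (nat_lit 575) (nat_lit 362)) (XT.lf (nat_lit 0) (nat_lit 7414942650) (nat_lit 684) (nat_lit 5271301775) (nat_lit 760) (nat_lit 7834175177) (nat_lit 317) (nat_lit 5) (nat_lit 326) (nat_lit 5) (nat_lit 327) (nat_lit 5) (nat_lit 624) (nat_lit 575) (nat_lit 361))) (XT.nd (nat_lit 78) (nat_lit 608) (nat_lit 0) (XT.lf (nat_lit 0) (nat_lit 16074671828) (nat_lit 760) (nat_lit 1356777152) (nat_lit 76) (nat_lit 3322492770) (nat_lit 317) (nat_lit 5) (nat_lit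 327) (nat_lit 5) (nat_lit 318) (nat_lit 5) (nat_lit 625) (nat_lit 575) (nat_lit 360)) (XT.lf (nat_lit 0) (nat_lit 10726493837) (nat_lit 608) (nat_lit 8903744257) (nat_lit 684) (nat_lit 1359909097) (nat_lit 309) (nat_lit 5) (nat_lit 317) (nat_lit 5) (nat_lit 318) (nat_lit 5) (nat_lit 626) (nat_lit 575) (nat_lit 359))))))) (XT.nd (nat_lit 1170) (nat_lit 4256) (nat_lit 0) (XT.nd (nat_lit 546) (nat_lit 2812) (nat_lit 0) (XT.nd (nat_lit 234) (nat_lit 1292) (nat_lit 0) (XT.nd (nat_lit 78) (nat_lit 608) (nat_lit 0) (XT.lf (nat_lit 0) (nat_lit 1843692485) (nat_lit 684) (nat_lit 171557836) (nat_lit 760) (nat_lit 19215243993) (nat_lit 299) (nat_lit 5) (nat_lit 308) (nat_lit 5) (nat_lit 309) (nat_lit 5) (nat_lit 627) (nat_lit 575) (nat_lit 358)) (XT.nd (nat_lit 78) (nat_lit 608) (nat_lit 0) (XT.lf (nat_lit 0) (nat_lit 5560665895) (nat_lit 760) (nat_lit 7214392395) (nat_lit 76) (nat_lit 8697991307) (nat_lit 299) (nat_lit 5) (nat_lit 309) (nat_lit 5) (nat_lit 300) (nat_lit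 5) (nat_lit 628) (nat_lit 575) (nat_lit 357)) (XT.lf (nat_lit 0) (nat_lit 5263223930) (nat_lit 608) (nat_lit 3944073657) (nat_lit 684) (nat_lit 12512552481) (nat_lit 291) (nat_lit 5) (nat_lit 299) (nat_lit 5) (nat_lit 300) (nat_lit 5) (nat_lit 629) (nat_lit 575) (nat_lit 356)))) (XT.nd (nat_lit 156) (nat_lit 684) (nat_lit 0) (XT.nd (nat_lit 78) (nat_lit 608) (nat_lit 0) (XT.lf (nat_lit 0) (nat_lit 13003521037) (nat_lit 684) (nat_lit 3921813677) (nat_lit 76) (nat_lit 5044718883) (nat_lit 291) (nat_lit 5) (nat_lit 300) (nat_lit 5) (nat_lit 292) (nat_lit 5) (nat_lit 630) (nat_lit 575) (nat_lit 355)) (XT.lf (nat_lit 0) (nat_lit 8948878218) (nat_lit 608) (nat_lit 8006159880) (nat_lit 684) (nat_lit 5268635945) (nat_lit 283) (nat_lit 5) (nat_lit 291) (nat_lit 5) (nat_lit 292) (nat_lit 5) (nat_lit 631) (nat_lit 575) (nat_lit 354))) (XT.nd (nat_lit 78) (nat_lit 684) (nat_lit 0) (XT.lf (nat_lit 0) (nat_lit 21014358775) (nat_lit 684) (nat_lit 365067320) (nat_lit 76)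 (nat_lit 1102365559) (nat_lit 283) (nat_lit 5) (nat_lit 292) (nat_lit 5) (nat_lit 284) (nat_lit 5) (nat_lit 632) (nat_lit 575) (nat_lit 353)) (XT.lf (nat_lit 0) (nat_lit 2511215998) (nat_lit 684) (nat_lit 9845747902) (nat_lit 76) (nat_lit 10385134482) (nat_lit 274) (nat_lit 5) (nat_lit 283) (nat_lit 5) (nat_lit 275) (nat_lit 5) (nat_lit 633) (nat_lit 575) (nat_lit 352))))) (XT.nd (nat_lit 312) (nat_lit 1672) (nat_lit 0) (XT.nd (nat_lit 156) (nat_lit 532) (nat_lit 0) (XT.nd (nat_lit 78) (nat_lit 0) (nat_lit 0) (XT.lf (nat_lit 0) (nat_lit 3449879620) (nat_lit 608) (nat_lit 3120104939) (nat_lit 684) (nat_lit 16437028987) (nat_lit 266) (nat_lit 5) (nat_lit 274) (nat_lit 5) (nat_lit 275) (nat_lit 5) (nat_lit 634) (nat_lit 575) (nat_lit 351)) (XT.lf (nat_lit 0) (nat_lit 10812706408) (nat_lit 684) (nat_lit 6178434668) (nat_lit 76) (nat_lit 6284030585) (nat_lit 266) (nat_lit 5) (nat_lit 275) (nat_lit 5) (nat_lit 267) (nat_lit 5) (nat_lit 635) (nat_lit 575) (nat_lit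 350))) (XT.nd (nat_lit 78) (nat_lit 0) (nat_lit 0) (XT.lf (nat_lit 0) (nat_lit 7540125094) (nat_lit 532) (nat_lit 7665223839) (nat_lit 608) (nat_lit 8342042883) (nat_lit 259) (nat_lit 5) (nat_lit 266) (nat_lit 5) (nat_lit 267) (nat_lit 5) (nat_lit 636) (nat_lit 575) (nat_lit 349)) (XT.lf (nat_lit 0) (nat_lit 19735062404) (nat_lit 608) (nat_lit 2225671381) (nat_lit 76) (nat_lit 1863338426) (nat_lit 259) (nat_lit 5) (nat_lit 267) (nat_lit 5) (nat_lit 260) (nat_lit 5) (nat_lit 637) (nat_lit 575) (nat_lit 348)))) (XT.nd (nat_lit 156) (nat_lit 532) (nat_lit 0) (XT.nd (nat_lit 78) (nat_lit 532) (nat_lit 0) (XT.lf (nat_lit 0) (nat_lit 370444662) (nat_lit 608) (nat_lit 12174837379) (nat_lit 76) (nat_lit 11558479470) (nat_lit 251) (nat_lit 5) (nat_lit 259) (nat_lit 5) (nat_lit 252) (nat_lit 5) (nat_lit 638) (nat_lit 575) (nat_lit 347)) (XT.lf (nat_lit 0) (nat_lit 2001217640) (nat_lit 532) (nat_lit 2886795301) (nat_lit 608) (nat_lit 19500017743) (nat_lit 244) (nat_lit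 5) (nat_lit 251) (nat_lit 5) (nat_lit 252) (nat_lit 5) (nat_lit 639) (nat_lit 575) (nat_lit 346))) (XT.nd (nat_lit 78) (nat_lit 532) (nat_lit 0) (XT.lf (nat_lit 0) (nat_lit 9619030184) (nat_lit 608) (nat_lit 8102210242) (nat_lit 76) (nat_lit 6954283047) (nat_lit 244) (nat_lit 5) (nat_lit 252) (nat_lit 5) (nat_lit 245) (nat_lit 5) (nat_lit 640) (nat_lit 575) (nat_lit 345)) (XT.lf (nat_lit 0) (nat_lit 6528784797) (nat_lit 532) (nat_lit 7973112059) (nat_lit 608) (nat_lit 10465724859) (nat_lit 237) (nat_lit 5) (nat_lit 244) (nat_lit 5) (nat_lit 245) (nat_lit 5) (nat_lit 641) (nat_lit 575) (nat_lit 344)))))) (XT.nd (nat_lit 546) (nat_lit 2280) (nat_lit 0) (XT.nd (nat_lit 234) (nat_lit 912) (nat_lit 0) (XT.nd (nat_lit 78) (nat_lit 1064) (nat_lit 0) (XT.lf (nat_lit 0) (nat_lit 19545699900) (nat_lit 608) (nat_lit 3721242432) (nat_lit 76) (nat_lit 1997354186) (nat_lit 237) (nat_lit 5) (nat_lit 245) (nat_lit 5) (nat_lit 238) (nat_lit 5) (nat_lit 642) (nat_lit 575) (nat_lit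 343)) (XT.nd (nat_lit 78) (nat_lit 608) (nat_lit 0) (XT.lf (nat_lit 0) (nat_lit 11381441366) (nat_lit 456) (nat_lit 13431477203) (nat_lit 532) (nat_lit 751535628) (nat_lit 231) (nat_lit 5) (nat_lit 237) (nat_lit 5) (nat_lit 238) (nat_lit 5) (nat_lit 643) (nat_lit 575) (nat_lit 342)) (XT.lf (nat_lit 0) (nat_lit 944971113) (nat_lit 532) (nat_lit 3340436264) (nat_lit 608) (nat_lit 21584104899) (nat_lit 223) (nat_lit 5) (nat_lit 230) (nat_lit 5) (nat_lit 231) (nat_lit 5) (nat_lit 644) (nat_lit 575) (nat_lit 341)))) (XT.nd (nat_lit 156) (nat_lit 456) (nat_lit 0) (XT.nd (nat_lit 78) (nat_lit 456) (nat_lit 0) (XT.lf (nat_lit 0) (nat_lit 9549873585) (nat_lit 608) (nat_lit 9667527398) (nat_lit 76) (nat_lit 6960434396) (nat_lit 223) (nat_lit 5) (nat_lit 231) (nat_lit 5) (nat_lit 224) (nat_lit 5) (nat_lit 645) (nat_lit 575) (nat_lit 340)) (XT.lf (nat_lit 0) (nat_lit 5944803596) (nat_lit 456) (nat_lit 9031518219) (nat_lit 532) (nat_lit 11514869433) (nat_lit 217) (nat_lit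 5) (nat_lit 223) (nat_lit 5) (nat_lit 224) (nat_lit 5) (nat_lit 646) (nat_lit 575) (nat_lit 339))) (XT.nd (nat_lit 78) (nat_lit 456) (nat_lit 0) (XT.lf (nat_lit 0) (nat_lit 20581425118) (nat_lit 532) (nat_lit 4824036853) (nat_lit 76) (nat_lit 1403949899) (nat_lit 217) (nat_lit 5) (nat_lit 224) (nat_lit 5) (nat_lit 218) (nat_lit 5) (nat_lit 647) (nat_lit 575) (nat_lit 338)) (XT.lf (nat_lit 0) (nat_lit 11295503922) (nat_lit 456) (nat_lit 15132358895) (nat_lit 532) (nat_lit 703549593) (nat_lit 211) (nat_lit 5) (nat_lit 217) (nat_lit 5) (nat_lit 218) (nat_lit 5) (nat_lit 648) (nat_lit 575) (nat_lit 337))))) (XT.nd (nat_lit 312) (nat_lit 1292) (nat_lit 0) (XT.nd (nat_lit 156) (nat_lit 456) (nat_lit 0) (XT.nd (nat_lit 78) (nat_lit 0) (nat_lit 0) (XT.lf (nat_lit 0) (nat_lit 309849192) (nat_lit 456) (nat_lit 4587547174) (nat_lit 532) (nat_lit 22561202469) (nat_lit 204) (nat_lit 5) (nat_lit 210) (nat_lit 5) (nat_lit 211) (nat_lit 5) (nat_lit 649) (nat_lit 575) (nat_lit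 336)) (XT.lf (nat_lit 0) (nat_lit 10744095639) (nat_lit 532) (nat_lit 10848065432) (nat_lit 76) (nat_lit 6197211954) (nat_lit 204) (nat_lit 5) (nat_lit 211) (nat_lit 5) (nat_lit 205) (nat_lit 5) (nat_lit 650) (nat_lit 575) (nat_lit 335))) (XT.nd (nat_lit 78) (nat_lit 0) (nat_lit 0) (XT.lf (nat_lit 0) (nat_lit 5819046743) (nat_lit 456) (nat_lit 10953047594) (nat_lit 532) (nat_lit 11353381193) (nat_lit 198) (nat_lit 5) (nat_lit 204) (nat_lit 5) (nat_lit 205) (nat_lit 5) (nat_lit 651) (nat_lit 575) (nat_lit 334)) (XT.lf (nat_lit 0) (nat_lit 22961063419) (nat_lit 456) (nat_lit 28627871) (nat_lit 532) (nat_lit 5477228171) (nat_lit 198) (nat_lit 5) (nat_lit 204) (nat_lit 5) (nat_lit 205) (nat_lit 5) (nat_lit 652) (nat_lit 575) (nat_lit 333)))) (XT.nd (nat_lit 156) (nat_lit 380) (nat_lit 0) (XT.nd (nat_lit 78) (nat_lit 456) (nat_lit 0) (XT.lf (nat_lit 0) (nat_lit 655104665) (nat_lit 456) (nat_lit 17109952377) (nat_lit 76) (nat_lit 11047159697) (nat_lit 192) (nat_lit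 5) (nat_lit 198) (nat_lit 5) (nat_lit 193) (nat_lit 5) (nat_lit 653) (nat_lit 575) (nat_lit 332)) (XT.lf (nat_lit 0) (nat_lit 124976626) (nat_lit 456) (nat_lit 6746346637) (nat_lit 532) (nat_lit 22291681157) (nat_lit 186) (nat_lit 5) (nat_lit 192) (nat_lit 5) (nat_lit 193) (nat_lit 5) (nat_lit 654) (nat_lit 575) (nat_lit 331))) (XT.nd (nat_lit 78) (nat_lit 380) (nat_lit 0) (XT.lf (nat_lit 0) (nat_lit 13352956473) (nat_lit 532) (nat_lit 11617387890) (nat_lit 76) (nat_lit 4547641816) (nat_lit 186) (nat_lit 5) (nat_lit 193) (nat_lit 5) (nat_lit 187) (nat_lit 5) (nat_lit 655) (nat_lit 575) (nat_lit 330)) (XT.lf (nat_lit 0) (nat_lit 6182701443) (nat_lit 380) (nat_lit 13862755838) (nat_lit 456) (nat_lit 9832985719) (nat_lit 181) (nat_lit 5) (nat_lit 186) (nat_lit 5) (nat_lit 187) (nat_lit 5) (nat_lit 656) (nat_lit 575) (nat_lit 329))))))))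
noncomputable def xc182 : XT := (XT.nd (nat_lit 75894) (nat_lit 0) (nat_lit 16796) (XT.nd (nat_lit 1092) (nat_lit 456) (nat_lit 0) (XT.nd (nat_lit 546) (nat_lit 1444) (nat_lit 0) (XT.nd (nat_lit 234) (nat_lit 836) (nat_lit 0) (XT.nd (nat_lit 78) (nat_lit 836) (nat_lit 0) (XT.lf (nat_lit 0) (nat_lit 24490931842) (nat_lit 380) (nat_lit 2455285636) (nat_lit 456) (nat_lit 3298403415) (nat_lit 181) (nat_lit 5) (nat_lit 186) (nat_lit 5) (nat_lit 187) (nat_lit 5) (nat_lit 657) (nat_lit 575) (nat_lit 328)) (XT.nd (nat_lit 78) (nat_lit 380) (nat_lit 0) (XT.lf (nat_lit 0) (nat_lit 3461862826) (nat_lit 456) (nat_lit 17989941352) (nat_lit 76) (nat_lit 9163098097) (nat_lit 175) (nat_lit 5) (nat_lit 181) (nat_lit 5) (nat_lit 176) (nat_lit 5) (nat_lit 658) (nat_lit 575) (nat_lit 327)) (XT.lf (nat_lit 0) (nat_lit 419195106) (nat_lit 380) (nat_lit 9948382907) (nat_lit 456) (nat_lit 20623487155) (nat_lit 170) (nat_lit 5) (nat_lit 175) (nat_lit 5) (nat_lit 176) (nat_lit 5) (nat_lit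 659) (nat_lit 575) (nat_lit 326)))) (XT.nd (nat_lit 156) (nat_lit 456) (nat_lit 0) (XT.nd (nat_lit 78) (nat_lit 380) (nat_lit 0) (XT.lf (nat_lit 0) (nat_lit 17541061378) (nat_lit 456) (nat_lit 11949678794) (nat_lit 76) (nat_lit 1881418182) (nat_lit 170) (nat_lit 5) (nat_lit 176) (nat_lit 5) (nat_lit 171) (nat_lit 5) (nat_lit 660) (nat_lit 575) (nat_lit 325)) (XT.lf (nat_lit 0) (nat_lit 7066531190) (nat_lit 380) (nat_lit 17899857274) (nat_lit 456) (nat_lit 6792317572) (nat_lit 165) (nat_lit 5) (nat_lit 170) (nat_lit 5) (nat_lit 171) (nat_lit 5) (nat_lit 661) (nat_lit 575) (nat_lit 324))) (XT.nd (nat_lit 78) (nat_lit 380) (nat_lit 0) (XT.lf (nat_lit 0) (nat_lit 459498987) (nat_lit 456) (nat_lit 5534611014) (nat_lit 76) (nat_lit 26157277687) (nat_lit 164) (nat_lit 5) (nat_lit 170) (nat_lit 5) (nat_lit 165) (nat_lit 5) (nat_lit 662) (nat_lit 575) (nat_lit 323)) (XT.lf (nat_lit 0) (nat_lit 7894812770) (nat_lit 456) (nat_lit 18448614856) (nat_lit 76) (nat_lit 6205009309)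 (nat_lit 159) (nat_lit 5) (nat_lit 165) (nat_lit 5) (nat_lit 160) (nat_lit 5) (nat_lit 663) (nat_lit 575) (nat_lit 322))))) (XT.nd (nat_lit 234) (nat_lit 760) (nat_lit 0) (XT.nd (nat_lit 78) (nat_lit 304) (nat_lit 0) (XT.lf (nat_lit 0) (nat_lit 1220194683) (nat_lit 380) (nat_lit 14340349607) (nat_lit 456) (nat_lit 17391248749) (nat_lit 154) (nat_lit 5) (nat_lit 159) (nat_lit 5) (nat_lit 160) (nat_lit 5) (nat_lit 664) (nat_lit 575) (nat_lit 321)) (XT.nd (nat_lit 78) (nat_lit 304) (nat_lit 0) (XT.lf (nat_lit 0) (nat_lit 21527341202) (nat_lit 380) (nat_lit 1972787458) (nat_lit 456) (nat_lit 9860676944) (nat_lit 154) (nat_lit 5) (nat_lit 159) (nat_lit 5) (nat_lit 160) (nat_lit 5) (nat_lit 665) (nat_lit 575) (nat_lit 320)) (XT.lf (nat_lit 0) (nat_lit 8499947831) (nat_lit 304) (nat_lit 23219630385) (nat_lit 380) (nat_lit 2055998833) (nat_lit 150) (nat_lit 5) (nat_lit 154) (nat_lit 5) (nat_lit 155) (nat_lit 5) (nat_lit 666) (nat_lit 575) (nat_lit 319)))) (XT.nd (nat_lit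 156) (nat_lit 304) (nat_lit 0) (XT.nd (nat_lit 78) (nat_lit 380) (nat_lit 0) (XT.lf (nat_lit 0) (nat_lit 5917129719) (nat_lit 380) (nat_lit 4853626413) (nat_lit 76) (nat_lit 23425325150) (nat_lit 149) (nat_lit 5) (nat_lit 154) (nat_lit 5) (nat_lit 150) (nat_lit 5) (nat_lit 667) (nat_lit 575) (nat_lit 318)) (XT.lf (nat_lit 0) (nat_lit 14137352881) (nat_lit 456) (nat_lit 18465671670) (nat_lit 76) (nat_lit 2019396104) (nat_lit 144) (nat_lit 5) (nat_lit 150) (nat_lit 5) (nat_lit 145) (nat_lit 5) (nat_lit 668) (nat_lit 575) (nat_lit 317))) (XT.nd (nat_lit 78) (nat_lit 0) (nat_lit 0) (XT.lf (nat_lit 0) (nat_lit 2553437900) (nat_lit 304) (nat_lit 20086116631) (nat_lit 380) (nat_lit 12415380893) (nat_lit 140) (nat_lit 5) (nat_lit 144) (nat_lit 5) (nat_lit 145) (nat_lit 5) (nat_lit 669) (nat_lit 575) (nat_lit 316)) (XT.lf (nat_lit 0) (nat_lit 24238275203) (nat_lit 304) (nat_lit 7194348173) (nat_lit 380) (nat_lit 4061060741) (nat_lit 140) (nat_lit 5) (nat_lit 144) (nat_lit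 5) (nat_lit 145) (nat_lit 5) (nat_lit 670) (nat_lit 575) (nat_lit 315)))))) (XT.nd (nat_lit 74178) (nat_lit 0) (nat_lit 27664) (XT.nd (nat_lit 73866) (nat_lit 0) (nat_lit 27512) (XT.nd (nat_lit 78) (nat_lit 0) (nat_lit 0) (XT.lf (nat_lit 0) (nat_lit 4506395256) (nat_lit 456) (nat_lit 25458916296) (nat_lit 76) (nat_lit 5973226174) (nat_lit 134) (nat_lit 5) (nat_lit 140) (nat_lit 5) (nat_lit 135) (nat_lit 5) (nat_lit 671) (nat_lit 575) (nat_lit 314)) (XT.nd (nat_lit 73710) (nat_lit 0) (nat_lit 27512) (XT.lf (nat_lit 0) (nat_lit 13311513617) (nat_lit 456) (nat_lit 3668815828) (nat_lit 76) (nat_lit 19409008357) (nat_lit 134) (nat_lit 5) (nat_lit 140) (nat_lit 5) (nat_lit 135) (nat_lit 5) (nat_lit 672) (nat_lit 575) (nat_lit 313)) (XT.lf (nat_lit 0) (nat_lit 62805344) (nat_lit 0) (nat_lit 62805344) (nat_lit 1748) (nat_lit 6175478667) (nat_lit 496) (nat_lit 5) (nat_lit 496) (nat_lit 3) (nat_lit 519) (nat_lit 3) (nat_lit 576) (nat_lit 576) (nat_lit 408)))) (XT.nd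 (nat_lit 156) (nat_lit 0) (nat_lit 76) (XT.nd (nat_lit 78) (nat_lit 0) (nat_lit 0) (XT.lf (nat_lit 0) (nat_lit 722750430) (nat_lit 1748) (nat_lit 6260326032) (nat_lit 1824) (nat_lit 5735716843) (nat_lit 496) (nat_lit 5) (nat_lit 519) (nat_lit 3) (nat_lit 520) (nat_lit 5) (nat_lit 577) (nat_lit 576) (nat_lit 407)) (XT.lf (nat_lit 76) (nat_lit 74465546) (nat_lit 0) (nat_lit 1119283901) (nat_lit 1824) (nat_lit 11644190659) (nat_lit 497) (nat_lit 5) (nat_lit 496) (nat_lit 5) (nat_lit 520) (nat_lit 5) (nat_lit 578) (nat_lit 576) (nat_lit 406))) (XT.nd (nat_lit 78) (nat_lit 0) (nat_lit 0) (XT.lf (nat_lit 0) (nat_lit 1736963471) (nat_lit 1748) (nat_lit 6375797926) (nat_lit 1824) (nat_lit 4845453237) (nat_lit 497) (nat_lit 5) (nat_lit 520) (nat_lit 5) (nat_lit 521) (nat_lit 5) (nat_lit 579) (nat_lit 576) (nat_lit 405)) (XT.lf (nat_lit 76) (nat_lit 127879808) (nat_lit 0) (nat_lit 2160562369) (nat_lit 1824) (nat_lit 10792505145) (nat_lit 498) (nat_lit 5) (nat_lit 497)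 (nat_lit 5) (nat_lit 521) (nat_lit 5) (nat_lit 580) (nat_lit 576) (nat_lit 404))))) (XT.nd (nat_lit 312) (nat_lit 0) (nat_lit 152) (XT.nd (nat_lit 156) (nat_lit 0) (nat_lit 76) (XT.nd (nat_lit 78) (nat_lit 0) (nat_lit 0) (XT.lf (nat_lit 0) (nat_lit 2908771383) (nat_lit 1748) (nat_lit 6389118354) (nat_lit 1824) (nat_lit 3907089171) (nat_lit 498) (nat_lit 5) (nat_lit 521) (nat_lit 5) (nat_lit 522) (nat_lit 5) (nat_lit 581) (nat_lit 576) (nat_lit 403)) (XT.lf (nat_lit 76) (nat_lit 289498221) (nat_lit 0) (nat_lit 3257767404) (nat_lit 1824) (nat_lit 9784110983) (nat_lit 499) (nat_lit 5) (nat_lit 498) (nat_lit 5) (nat_lit 522) (nat_lit 5) (nat_lit 582) (nat_lit 576) (nat_lit 402))) (XT.nd (nat_lit 78) (nat_lit 0) (nat_lit 0) (XT.lf (nat_lit 0) (nat_lit 4250300193) (nat_lit 1748) (nat_lit 6296577746) (nat_lit 1824) (nat_lit 2912389552) (nat_lit 499) (nat_lit 5) (nat_lit 522) (nat_lit 5) (nat_lit 523) (nat_lit 5) (nat_lit 583) (nat_lit 576) (nat_lit 401)) (XT.lf (nat_lit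 76) (nat_lit 563271976) (nat_lit 0) (nat_lit 4419318888) (nat_lit 1824) (nat_lit 8606822045) (nat_lit 500) (nat_lit 5) (nat_lit 499) (nat_lit 5) (nat_lit 523) (nat_lit 5) (nat_lit 584) (nat_lit 576) (nat_lit 400)))) (XT.nd (nat_lit 156) (nat_lit 0) (nat_lit 76) (XT.nd (nat_lit 78) (nat_lit 0) (nat_lit 0) (XT.lf (nat_lit 0) (nat_lit 5774092241) (nat_lit 1748) (nat_lit 6094163927) (nat_lit 1824) (nat_lit 1853014383) (nat_lit 500) (nat_lit 5) (nat_lit 523) (nat_lit 5) (nat_lit 524) (nat_lit 5) (nat_lit 585) (nat_lit 576) (nat_lit 399)) (XT.lf (nat_lit 76) (nat_lit 953463307) (nat_lit 0) (nat_lit 5653756106) (nat_lit 1824) (nat_lit 7248030619) (nat_lit 501) (nat_lit 5) (nat_lit 500) (nat_lit 5) (nat_lit 524) (nat_lit 5) (nat_lit 586) (nat_lit 576) (nat_lit 398))) (XT.nd (nat_lit 78) (nat_lit 0) (nat_lit 0) (XT.lf (nat_lit 0) (nat_lit 7493131819) (nat_lit 1748) (nat_lit 5777557251) (nat_lit 1824) (nat_lit 720498168) (nat_lit 501) (nat_lit 5) (nat_lit 524) (nat_lit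 5) (nat_lit 525) (nat_lit 5) (nat_lit 587) (nat_lit 576) (nat_lit 397)) (XT.lf (nat_lit 76) (nat_lit 1464650729) (nat_lit 0) (nat_lit 6969758534) (nat_lit 1824) (nat_lit 5694681568) (nat_lit 502) (nat_lit 5) (nat_lit 501) (nat_lit 5) (nat_lit 525) (nat_lit 5) (nat_lit 588) (nat_lit 576) (nat_lit 396))))))) (XT.nd (nat_lit 1170) (nat_lit 6840) (nat_lit 0) (XT.nd (nat_lit 546) (nat_lit 2660) (nat_lit 0) (XT.nd (nat_lit 234) (nat_lit 1596) (nat_lit 0) (XT.nd (nat_lit 78) (nat_lit 0) (nat_lit 76) (XT.lf (nat_lit 76) (nat_lit 8923787304) (nat_lit 0) (nat_lit 500332602) (nat_lit 1824) (nat_lit 4845041003) (nat_lit 502) (nat_lit 5) (nat_lit 501) (nat_lit 5) (nat_lit 525) (nat_lit 5) (nat_lit 589) (nat_lit 576) (nat_lit 395)) (XT.nd (nat_lit 78) (nat_lit 0) (nat_lit 0) (XT.lf (nat_lit 76) (nat_lit 2101734906) (nat_lit 0) (nat_lit 8376166620) (nat_lit 1824) (nat_lit 3933245882) (nat_lit 503) (nat_lit 5) (nat_lit 502) (nat_lit 5) (nat_lit 526) (nat_lit 5) (nat_lit 590)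 (nat_lit 576) (nat_lit 394)) (XT.lf (nat_lit 76) (nat_lit 9760618986) (nat_lit 0) (nat_lit 1822472328) (nat_lit 1824) (nat_lit 2972276218) (nat_lit 503) (nat_lit 5) (nat_lit 502) (nat_lit 5) (nat_lit 526) (nat_lit 5) (nat_lit 591) (nat_lit 576) (nat_lit 393)))) (XT.nd (nat_lit 156) (nat_lit 1748) (nat_lit 0) (XT.nd (nat_lit 78) (nat_lit 0) (nat_lit 0) (XT.lf (nat_lit 76) (nat_lit 2869945147) (nat_lit 0) (nat_lit 9882002626) (nat_lit 1824) (nat_lit 1949693561) (nat_lit 504) (nat_lit 5) (nat_lit 503) (nat_lit 5) (nat_lit 527) (nat_lit 5) (nat_lit 592) (nat_lit 576) (nat_lit 392)) (XT.lf (nat_lit 76) (nat_lit 10734404577) (nat_lit 0) (nat_lit 3245430614) (nat_lit 1824) (nat_lit 870292867) (nat_lit 504) (nat_lit 5) (nat_lit 503) (nat_lit 5) (nat_lit 527) (nat_lit 5) (nat_lit 593) (nat_lit 576) (nat_lit 391))) (XT.nd (nat_lit 78) (nat_lit 0) (nat_lit 0) (XT.lf (nat_lit 0) (nat_lit 266986113) (nat_lit 1824) (nat_lit 11227713831) (nat_lit 1900) (nat_lit 3506068804)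 (nat_lit 480) (nat_lit 5) (nat_lit 504) (nat_lit 5) (nat_lit 505) (nat_lit 5) (nat_lit 594) (nat_lit 576) (nat_lit 390)) (XT.lf (nat_lit 0) (nat_lit 1456399973) (nat_lit 1824) (nat_lit 3312329764) (nat_lit 1900) (nat_lit 10384757102) (nat_lit 480) (nat_lit 5) (nat_lit 504) (nat_lit 5) (nat_lit 505) (nat_lit 5) (nat_lit 595) (nat_lit 576) (nat_lit 389))))) (XT.nd (nat_lit 312) (nat_lit 2736) (nat_lit 0) (XT.nd (nat_lit 156) (nat_lit 0) (nat_lit 76) (XT.nd (nat_lit 78) (nat_lit 0) (nat_lit 0) (XT.lf (nat_lit 0) (nat_lit 2706584613) (nat_lit 1824) (nat_lit 10504335056) (nat_lit 1900) (nat_lit 2097600458) (nat_lit 481) (nat_lit 5) (nat_lit 505) (nat_lit 5) (nat_lit 506) (nat_lit 5) (nat_lit 596) (nat_lit 576) (nat_lit 388)) (XT.lf (nat_lit 0) (nat_lit 4027757252) (nat_lit 1824) (nat_lit 2376431249) (nat_lit 1900) (nat_lit 9061546366) (nat_lit 481) (nat_lit 5) (nat_lit 505) (nat_lit 5) (nat_lit 506) (nat_lit 5) (nat_lit 597) (nat_lit 576) (nat_lit 387))) (XT.nd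 (nat_lit 78) (nat_lit 0) (nat_lit 0) (XT.lf (nat_lit 0) (nat_lit 5410169650) (nat_lit 1824) (nat_lit 9642994022) (nat_lit 1900) (nat_lit 572234371) (nat_lit 482) (nat_lit 5) (nat_lit 506) (nat_lit 5) (nat_lit 507) (nat_lit 5) (nat_lit 598) (nat_lit 576) (nat_lit 386)) (XT.lf (nat_lit 0) (nat_lit 6871001806) (nat_lit 1824) (nat_lit 1296243596) (nat_lit 1900) (nat_lit 7619994105) (nat_lit 482) (nat_lit 5) (nat_lit 506) (nat_lit 5) (nat_lit 507) (nat_lit 5) (nat_lit 599) (nat_lit 576) (nat_lit 385)))) (XT.nd (nat_lit 156) (nat_lit 2812) (nat_lit 0) (XT.nd (nat_lit 78) (nat_lit 0) (nat_lit 76) (XT.lf (nat_lit 76) (nat_lit 7306980325) (nat_lit 0) (nat_lit 1093969836) (nat_lit 1900) (nat_lit 7550570094) (nat_lit 483) (nat_lit 5) (nat_lit 482) (nat_lit 5) (nat_lit 507) (nat_lit 5) (nat_lit 600) (nat_lit 576) (nat_lit 384)) (XT.lf (nat_lit 0) (nat_lit 10002566437) (nat_lit 1824) (nat_lit 65279994) (nat_lit 76) (nat_lit 6050419246) (nat_lit 483) (nat_lit 5) (nat_lit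 507) (nat_lit 5) (nat_lit 484) (nat_lit 5) (nat_lit 601) (nat_lit 576) (nat_lit 383))) (XT.nd (nat_lit 78) (nat_lit 1064) (nat_lit 0) (XT.lf (nat_lit 0) (nat_lit 8787283501) (nat_lit 1824) (nat_lit 2905947638) (nat_lit 1900) (nat_lit 4593974977) (nat_lit 459) (nat_lit 5) (nat_lit 483) (nat_lit 5) (nat_lit 484) (nat_lit 5) (nat_lit 602) (nat_lit 576) (nat_lit 382)) (XT.lf (nat_lit 0) (nat_lit 1340894914) (nat_lit 1064) (nat_lit 12107350346) (nat_lit 1140) (nat_lit 3010669802) (nat_lit 445) (nat_lit 5) (nat_lit 459) (nat_lit 5) (nat_lit 460) (nat_lit 5) (nat_lit 603) (nat_lit 576) (nat_lit 381)))))) (XT.nd (nat_lit 546) (nat_lit 4104) (nat_lit 0) (XT.nd (nat_lit 234) (nat_lit 1748) (nat_lit 0) (XT.nd (nat_lit 78) (nat_lit 988) (nat_lit 0) (XT.lf (nat_lit 0) (nat_lit 10434341475) (nat_lit 1064) (nat_lit 4866390842) (nat_lit 1140) (nat_lit 1332078829) (nat_lit 445) (nat_lit 5) (nat_lit 459) (nat_lit 5) (nat_lit 460) (nat_lit 5) (nat_lit 604) (nat_lit 576) (nat_lit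 380)) (XT.nd (nat_lit 78) (nat_lit 0) (nat_lit 0) (XT.lf (nat_lit 0) (nat_lit 403639409) (nat_lit 988) (nat_lit 13897298822) (nat_lit 76) (nat_lit 2508627156) (nat_lit 432) (nat_lit 5) (nat_lit 445) (nat_lit 5) (nat_lit 433) (nat_lit 5) (nat_lit 605) (nat_lit 576) (nat_lit 379)) (XT.lf (nat_lit 0) (nat_lit 2223468967) (nat_lit 988) (nat_lit 4747527768) (nat_lit 76) (nat_lit 10017337596) (nat_lit 432) (nat_lit 5) (nat_lit 445) (nat_lit 5) (nat_lit 433) (nat_lit 5) (nat_lit 606) (nat_lit 576) (nat_lit 378)))) (XT.nd (nat_lit 156) (nat_lit 836) (nat_lit 0) (XT.nd (nat_lit 78) (nat_lit 0) (nat_lit 0) (XT.lf (nat_lit 0) (nat_lit 4106558057) (nat_lit 988) (nat_lit 12533899328) (nat_lit 76) (nat_lit 529684392) (nat_lit 420) (nat_lit 5) (nat_lit 433) (nat_lit 5) (nat_lit 421) (nat_lit 5) (nat_lit 607) (nat_lit 576) (nat_lit 377)) (XT.lf (nat_lit 0) (nat_lit 6098891703) (nat_lit 988) (nat_lit 3135670912) (nat_lit 76) (nat_lit 8119591475) (nat_lit 420) (nat_lit 5) (nat_lit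 433) (nat_lit 5) (nat_lit 421) (nat_lit 5) (nat_lit 608) (nat_lit 576) (nat_lit 376))) (XT.nd (nat_lit 78) (nat_lit 0) (nat_lit 0) (XT.lf (nat_lit 0) (nat_lit 6529899897) (nat_lit 836) (nat_lit 1637046840) (nat_lit 912) (nat_lit 9374182784) (nat_lit 409) (nat_lit 5) (nat_lit 420) (nat_lit 5) (nat_lit 421) (nat_lit 5) (nat_lit 609) (nat_lit 576) (nat_lit 375)) (XT.lf (nat_lit 0) (nat_lit 10330797242) (nat_lit 912) (nat_lit 1346314089) (nat_lit 76) (nat_lit 6053644802) (nat_lit 409) (nat_lit 5) (nat_lit 421) (nat_lit 5) (nat_lit 410) (nat_lit 5) (nat_lit 610) (nat_lit 576) (nat_lit 374))))) (XT.nd (nat_lit 312) (nat_lit 1520) (nat_lit 0) (XT.nd (nat_lit 156) (nat_lit 912) (nat_lit 0) (XT.nd (nat_lit 78) (nat_lit 836) (nat_lit 0) (XT.lf (nat_lit 0) (nat_lit 8607722564) (nat_lit 836) (nat_lit 3990623876) (nat_lit 912) (nat_lit 5324620756) (nat_lit 398) (nat_lit 5) (nat_lit 409) (nat_lit 5) (nat_lit 410) (nat_lit 5) (nat_lit 611) (nat_lit 576) (nat_lit 373)) (XT.lf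 (nat_lit 0) (nat_lit 637239641) (nat_lit 836) (nat_lit 14306009784) (nat_lit 912) (nat_lit 3175133344) (nat_lit 387) (nat_lit 5) (nat_lit 398) (nat_lit 5) (nat_lit 399) (nat_lit 5) (nat_lit 612) (nat_lit 576) (nat_lit 372))) (XT.nd (nat_lit 78) (nat_lit 912) (nat_lit 0) (XT.lf (nat_lit 0) (nat_lit 10881994803) (nat_lit 836) (nat_lit 6535678275) (nat_lit 912) (nat_lit 898381462) (nat_lit 387) (nat_lit 5) (nat_lit 398) (nat_lit 5) (nat_lit 399) (nat_lit 5) (nat_lit 613) (nat_lit 576) (nat_lit 371)) (XT.lf (nat_lit 0) (nat_lit 1426787607) (nat_lit 912) (nat_lit 15690772708) (nat_lit 76) (nat_lit 1399503720) (nat_lit 375) (nat_lit 5) (nat_lit 387) (nat_lit 5) (nat_lit 376) (nat_lit 5) (nat_lit 614) (nat_lit 576) (nat_lit 370)))) (XT.nd (nat_lit 156) (nat_lit 760) (nat_lit 0) (XT.nd (nat_lit 78) (nat_lit 760) (nat_lit 0) (XT.lf (nat_lit 0) (nat_lit 3873957325) (nat_lit 912) (nat_lit 5384344309) (nat_lit 76) (nat_lit 9461923106) (nat_lit 375) (nat_lit 5) (nat_lit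 387) (nat_lit 5) (nat_lit 376) (nat_lit 5) (nat_lit 615) (nat_lit 576) (nat_lit 369)) (XT.lf (nat_lit 0) (nat_lit 5190099580) (nat_lit 760) (nat_lit 1207801649) (nat_lit 836) (nat_lit 12528991129) (nat_lit 365) (nat_lit 5) (nat_lit 375) (nat_lit 5) (nat_lit 376) (nat_lit 5) (nat_lit 616) (nat_lit 576) (nat_lit 368))) (XT.nd (nat_lit 78) (nat_lit 760) (nat_lit 0) (XT.lf (nat_lit 0) (nat_lit 9048373908) (nat_lit 836) (nat_lit 3139919506) (nat_lit 76) (nat_lit 6947879221) (nat_lit 365) (nat_lit 5) (nat_lit 376) (nat_lit 5) (nat_lit 366) (nat_lit 5) (nat_lit 617) (nat_lit 576) (nat_lit 367)) (XT.lf (nat_lit 0) (nat_lit 7756487564) (nat_lit 760) (nat_lit 4048047139) (nat_lit 836) (nat_lit 7544050542) (nat_lit 355) (nat_lit 5) (nat_lit 365) (nat_lit 5) (nat_lit 366) (nat_lit 5) (nat_lit 618) (nat_lit 576) (nat_lit 366))))))))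
noncomputable def xc183 : XT := (XT.nd (nat_lit 2262) (nat_lit 6308) (nat_lit 0) (XT.nd (nat_lit 1092) (nat_lit 5016) (nat_lit 0) (XT.nd (nat_lit 546) (nat_lit 2584) (nat_lit 0) (XT.nd (nat_lit 234) (nat_lit 1368) (nat_lit 0) (XT.nd (nat_lit 78) (nat_lit 1520) (nat_lit 0) (XT.lf (nat_lit 0) (nat_lit 14659043473) (nat_lit 836) (nat_lit 685407019) (nat_lit 76) (nat_lit 4219931416) (nat_lit 355) (nat_lit 5) (nat_lit 366) (nat_lit 5) (nat_lit 356) (nat_lit 5) (nat_lit 619) (nat_lit 576) (nat_lit 365)) (XT.nd (nat_lit 78) (nat_lit 836) (nat_lit 0) (XT.lf (nat_lit 0) (nat_lit 10544826410) (nat_lit 684) (nat_lit 7115586702) (nat_lit 760) (nat_lit 2122286267) (nat_lit 346) (nat_lit 5) (nat_lit 355) (nat_lit 5) (nat_lit 356) (nat_lit 5) (nat_lit 620) (nat_lit 576) (nat_lit 364)) (XT.lf (nat_lit 0) (nat_lit 727743376) (nat_lit 836) (nat_lit 17994132474) (nat_lit 76) (nat_lit 1283000346) (nat_lit 335) (nat_lit 5) (nat_lit 346) (nat_lit 5) (nat_lit 336) (nat_lit 5) (nat_lit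 621) (nat_lit 576) (nat_lit 363)))) (XT.nd (nat_lit 156) (nat_lit 684) (nat_lit 0) (XT.nd (nat_lit 78) (nat_lit 684) (nat_lit 0) (XT.lf (nat_lit 0) (nat_lit 3710501657) (nat_lit 836) (nat_lit 6688467450) (nat_lit 76) (nat_lit 9830164241) (nat_lit 335) (nat_lit 5) (nat_lit 346) (nat_lit 5) (nat_lit 336) (nat_lit 5) (nat_lit 622) (nat_lit 576) (nat_lit 362)) (XT.lf (nat_lit 0) (nat_lit 4901539799) (nat_lit 684) (nat_lit 1877899623) (nat_lit 760) (nat_lit 13677906000) (nat_lit 326) (nat_lit 5) (nat_lit 335) (nat_lit 5) (nat_lit 336) (nat_lit 5) (nat_lit 623) (nat_lit 576) (nat_lit 361))) (XT.nd (nat_lit 78) (nat_lit 684) (nat_lit 0) (XT.lf (nat_lit 0) (nat_lit 9993934732) (nat_lit 760) (nat_lit 3925864240) (nat_lit 76) (nat_lit 6768639453) (nat_lit 326) (nat_lit 5) (nat_lit 336) (nat_lit 5) (nat_lit 327) (nat_lit 5) (nat_lit 624) (nat_lit 576) (nat_lit 360)) (XT.lf (nat_lit 0) (nat_lit 8023473057) (nat_lit 684) (nat_lit 5308639822) (nat_lit 760) (nat_lit 7590852805)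 (nat_lit 317) (nat_lit 5) (nat_lit 326) (nat_lit 5) (nat_lit 327) (nat_lit 5) (nat_lit 625) (nat_lit 576) (nat_lit 359))))) (XT.nd (nat_lit 234) (nat_lit 1216) (nat_lit 0) (XT.nd (nat_lit 78) (nat_lit 1368) (nat_lit 0) (XT.lf (nat_lit 0) (nat_lit 16781053145) (nat_lit 760) (nat_lit 925430546) (nat_lit 76) (nat_lit 3454820079) (nat_lit 317) (nat_lit 5) (nat_lit 327) (nat_lit 5) (nat_lit 318) (nat_lit 5) (nat_lit 626) (nat_lit 576) (nat_lit 358)) (XT.nd (nat_lit 78) (nat_lit 760) (nat_lit 0) (XT.lf (nat_lit 0) (nat_lit 11396489532) (nat_lit 608) (nat_lit 9006651570) (nat_lit 684) (nat_lit 999184385) (nat_lit 309) (nat_lit 5) (nat_lit 317) (nat_lit 5) (nat_lit 318) (nat_lit 5) (nat_lit 627) (nat_lit 576) (nat_lit 357)) (XT.lf (nat_lit 0) (nat_lit 2338108071) (nat_lit 684) (nat_lit 95746563) (nat_lit 760) (nat_lit 19213665621) (nat_lit 299) (nat_lit 5) (nat_lit 308) (nat_lit 5) (nat_lit 309) (nat_lit 5) (nat_lit 628) (nat_lit 576) (nat_lit 356)))) (XT.nd (nat_lit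 156) (nat_lit 608) (nat_lit 0) (XT.nd (nat_lit 78) (nat_lit 608) (nat_lit 0) (XT.lf (nat_lit 0) (nat_lit 6043265293) (nat_lit 760) (nat_lit 6903179080) (nat_lit 76) (nat_lit 8948620889) (nat_lit 299) (nat_lit 5) (nat_lit 309) (nat_lit 5) (nat_lit 300) (nat_lit 5) (nat_lit 629) (nat_lit 576) (nat_lit 355)) (XT.lf (nat_lit 0) (nat_lit 5820992853) (nat_lit 608) (nat_lit 3937492644) (nat_lit 684) (nat_lit 12388403471) (nat_lit 291) (nat_lit 5) (nat_lit 299) (nat_lit 5) (nat_lit 300) (nat_lit 5) (nat_lit 630) (nat_lit 576) (nat_lit 354))) (XT.nd (nat_lit 78) (nat_lit 608) (nat_lit 0) (XT.lf (nat_lit 0) (nat_lit 13623980515) (nat_lit 684) (nat_lit 3549948317) (nat_lit 76) (nat_lit 5228301133) (nat_lit 291) (nat_lit 5) (nat_lit 300) (nat_lit 5) (nat_lit 292) (nat_lit 5) (nat_lit 631) (nat_lit 576) (nat_lit 353)) (XT.lf (nat_lit 0) (nat_lit 9575194904) (nat_lit 608) (nat_lit 8075170983) (nat_lit 684) (nat_lit 5010640506) (nat_lit 283) (nat_lit 5) (nat_lit 291) (nat_lit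 5) (nat_lit 292) (nat_lit 5) (nat_lit 632) (nat_lit 576) (nat_lit 352)))))) (XT.nd (nat_lit 546) (nat_lit 2584) (nat_lit 0) (XT.nd (nat_lit 234) (nat_lit 1140) (nat_lit 0) (XT.nd (nat_lit 78) (nat_lit 684) (nat_lit 0) (XT.lf (nat_lit 0) (nat_lit 73585332) (nat_lit 608) (nat_lit 21711360527) (nat_lit 684) (nat_lit 1139459365) (nat_lit 275) (nat_lit 5) (nat_lit 283) (nat_lit 5) (nat_lit 284) (nat_lit 5) (nat_lit 633) (nat_lit 576) (nat_lit 351)) (XT.nd (nat_lit 78) (nat_lit 608) (nat_lit 0) (XT.lf (nat_lit 0) (nat_lit 2909579382) (nat_lit 684) (nat_lit 9595959285) (nat_lit 76) (nat_lit 10684423267) (nat_lit 274) (nat_lit 5) (nat_lit 283) (nat_lit 5) (nat_lit 275) (nat_lit 5) (nat_lit 634) (nat_lit 576) (nat_lit 350)) (XT.lf (nat_lit 0) (nat_lit 3962641947) (nat_lit 608) (nat_lit 3082936326) (nat_lit 684) (nat_lit 16414676336) (nat_lit 266) (nat_lit 5) (nat_lit 274) (nat_lit 5) (nat_lit 275) (nat_lit 5) (nat_lit 635) (nat_lit 576) (nat_lit 349)))) (XT.nd (nat_lit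 156) (nat_lit 608) (nat_lit 0) (XT.nd (nat_lit 78) (nat_lit 532) (nat_lit 0) (XT.lf (nat_lit 0) (nat_lit 11367039460) (nat_lit 684) (nat_lit 5860809770) (nat_lit 76) (nat_lit 6506049259) (nat_lit 266) (nat_lit 5) (nat_lit 275) (nat_lit 5) (nat_lit 267) (nat_lit 5) (nat_lit 636) (nat_lit 576) (nat_lit 348)) (XT.lf (nat_lit 0) (nat_lit 8129218598) (nat_lit 532) (nat_lit 7714532915) (nat_lit 608) (nat_lit 8167887496) (nat_lit 259) (nat_lit 5) (nat_lit 266) (nat_lit 5) (nat_lit 267) (nat_lit 5) (nat_lit 637) (nat_lit 576) (nat_lit 347))) (XT.nd (nat_lit 78) (nat_lit 608) (nat_lit 0) (XT.lf (nat_lit 0) (nat_lit 20458166406) (nat_lit 608) (nat_lit 1834580457) (nat_lit 76) (nat_lit 2001224295) (nat_lit 259) (nat_lit 5) (nat_lit 267) (nat_lit 5) (nat_lit 260) (nat_lit 5) (nat_lit 638) (nat_lit 576) (nat_lit 346)) (XT.lf (nat_lit 0) (nat_lit 704791454) (nat_lit 608) (nat_lit 11981236879) (nat_lit 76) (nat_lit 11893255769) (nat_lit 251) (nat_lit 5) (nat_lit 259) (nat_lit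 5) (nat_lit 252) (nat_lit 5) (nat_lit 639) (nat_lit 576) (nat_lit 345))))) (XT.nd (nat_lit 312) (nat_lit 1520) (nat_lit 0) (XT.nd (nat_lit 156) (nat_lit 532) (nat_lit 0) (XT.nd (nat_lit 78) (nat_lit 0) (nat_lit 0) (XT.lf (nat_lit 0) (nat_lit 2475463601) (nat_lit 532) (nat_lit 2833656205) (nat_lit 608) (nat_lit 19560190950) (nat_lit 244) (nat_lit 5) (nat_lit 251) (nat_lit 5) (nat_lit 252) (nat_lit 5) (nat_lit 640) (nat_lit 576) (nat_lit 344)) (XT.lf (nat_lit 0) (nat_lit 10129123023) (nat_lit 608) (nat_lit 7832899274) (nat_lit 76) (nat_lit 7200644058) (nat_lit 244) (nat_lit 5) (nat_lit 252) (nat_lit 5) (nat_lit 245) (nat_lit 5) (nat_lit 641) (nat_lit 576) (nat_lit 343))) (XT.nd (nat_lit 78) (nat_lit 0) (nat_lit 0) (XT.lf (nat_lit 0) (nat_lit 7087877803) (nat_lit 532) (nat_lit 8018321793) (nat_lit 608) (nat_lit 10354476176) (nat_lit 237) (nat_lit 5) (nat_lit 244) (nat_lit 5) (nat_lit 245) (nat_lit 5) (nat_lit 642) (nat_lit 576) (nat_lit 342)) (XT.lf (nat_lit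 0) (nat_lit 20245443903) (nat_lit 608) (nat_lit 3370104649) (nat_lit 76) (nat_lit 2147844471) (nat_lit 237) (nat_lit 5) (nat_lit 245) (nat_lit 5) (nat_lit 238) (nat_lit 5) (nat_lit 643) (nat_lit 576) (nat_lit 341)))) (XT.nd (nat_lit 156) (nat_lit 456) (nat_lit 0) (XT.nd (nat_lit 78) (nat_lit 608) (nat_lit 0) (XT.lf (nat_lit 0) (nat_lit 12031833071) (nat_lit 456) (nat_lit 13582863241) (nat_lit 532) (nat_lit 454924008) (nat_lit 231) (nat_lit 5) (nat_lit 237) (nat_lit 5) (nat_lit 238) (nat_lit 5) (nat_lit 644) (nat_lit 576) (nat_lit 340)) (XT.lf (nat_lit 0) (nat_lit 1387924679) (nat_lit 532) (nat_lit 3287468682) (nat_lit 608) (nat_lit 21705411519) (nat_lit 223) (nat_lit 5) (nat_lit 230) (nat_lit 5) (nat_lit 231) (nat_lit 5) (nat_lit 645) (nat_lit 576) (nat_lit 339))) (XT.nd (nat_lit 78) (nat_lit 456) (nat_lit 0) (XT.lf (nat_lit 0) (nat_lit 10039945080) (nat_lit 608) (nat_lit 9439922928) (nat_lit 76) (nat_lit 7215530750) (nat_lit 223) (nat_lit 5) (nat_lit 231)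 (nat_lit 5) (nat_lit 224) (nat_lit 5) (nat_lit 646) (nat_lit 576) (nat_lit 338)) (XT.lf (nat_lit 0) (nat_lit 6481885246) (nat_lit 456) (nat_lit 9089887970) (nat_lit 532) (nat_lit 11443311742) (nat_lit 217) (nat_lit 5) (nat_lit 223) (nat_lit 5) (nat_lit 224) (nat_lit 5) (nat_lit 647) (nat_lit 576) (nat_lit 337))))))) (XT.nd (nat_lit 1170) (nat_lit 2356) (nat_lit 0) (XT.nd (nat_lit 546) (nat_lit 2052) (nat_lit 0) (XT.nd (nat_lit 234) (nat_lit 912) (nat_lit 0) (XT.nd (nat_lit 78) (nat_lit 988) (nat_lit 0) (XT.lf (nat_lit 0) (nat_lit 21283954367) (nat_lit 532) (nat_lit 4505496124) (nat_lit 76) (nat_lit 1550320213) (nat_lit 217) (nat_lit 5) (nat_lit 224) (nat_lit 5) (nat_lit 218) (nat_lit 5) (nat_lit 648) (nat_lit 576) (nat_lit 336)) (XT.nd (nat_lit 78) (nat_lit 532) (nat_lit 0) (XT.lf (nat_lit 0) (nat_lit 11933705063) (nat_lit 456) (nat_lit 15310588689) (nat_lit 532) (nat_lit 423978269) (nat_lit 211) (nat_lit 5) (nat_lit 217) (nat_lit 5) (nat_lit 218) (nat_lit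 5) (nat_lit 649) (nat_lit 576) (nat_lit 335)) (XT.lf (nat_lit 0) (nat_lit 729461506) (nat_lit 456) (nat_lit 4552675919) (nat_lit 532) (nat_lit 22719886793) (nat_lit 204) (nat_lit 5) (nat_lit 210) (nat_lit 5) (nat_lit 211) (nat_lit 5) (nat_lit 650) (nat_lit 576) (nat_lit 334)))) (XT.nd (nat_lit 156) (nat_lit 456) (nat_lit 0) (XT.nd (nat_lit 78) (nat_lit 456) (nat_lit 0) (XT.lf (nat_lit 0) (nat_lit 11240953284) (nat_lit 532) (nat_lit 10654889673) (nat_lit 76) (nat_lit 6443667493) (nat_lit 204) (nat_lit 5) (nat_lit 211) (nat_lit 5) (nat_lit 205) (nat_lit 5) (nat_lit 651) (nat_lit 576) (nat_lit 333)) (XT.lf (nat_lit 0) (nat_lit 6342866475) (nat_lit 456) (nat_lit 11043761909) (nat_lit 532) (nat_lit 11295764500) (nat_lit 198) (nat_lit 5) (nat_lit 204) (nat_lit 5) (nat_lit 205) (nat_lit 5) (nat_lit 652) (nat_lit 576) (nat_lit 332))) (XT.nd (nat_lit 78) (nat_lit 456) (nat_lit 0) (XT.lf (nat_lit 0) (nat_lit 23723732264) (nat_lit 532) (nat_lit 5211668238) (nat_lit 76)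 (nat_lit 95362293) (nat_lit 198) (nat_lit 5) (nat_lit 205) (nat_lit 5) (nat_lit 199) (nat_lit 5) (nat_lit 653) (nat_lit 576) (nat_lit 331)) (XT.lf (nat_lit 0) (nat_lit 941677776) (nat_lit 456) (nat_lit 17047050736) (nat_lit 76) (nat_lit 11394253422) (nat_lit 192) (nat_lit 5) (nat_lit 198) (nat_lit 5) (nat_lit 193) (nat_lit 5) (nat_lit 654) (nat_lit 576) (nat_lit 330))))) (XT.nd (nat_lit 312) (nat_lit 1216) (nat_lit 0) (XT.nd (nat_lit 156) (nat_lit 380) (nat_lit 0) (XT.nd (nat_lit 78) (nat_lit 0) (nat_lit 0) (XT.lf (nat_lit 0) (nat_lit 529911711) (nat_lit 456) (nat_lit 6749559737) (nat_lit 532) (nat_lit 22461369097) (nat_lit 186) (nat_lit 5) (nat_lit 192) (nat_lit 5) (nat_lit 193) (nat_lit 5) (nat_lit 655) (nat_lit 576) (nat_lit 329)) (XT.lf (nat_lit 0) (nat_lit 13886267459) (nat_lit 532) (nat_lit 11450711782) (nat_lit 76) (nat_lit 4766032282) (nat_lit 186) (nat_lit 5) (nat_lit 193) (nat_lit 5) (nat_lit 187) (nat_lit 5) (nat_lit 656) (nat_lit 576) (nat_lit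 328))) (XT.nd (nat_lit 78) (nat_lit 0) (nat_lit 0) (XT.lf (nat_lit 0) (nat_lit 6702754180) (nat_lit 380) (nat_lit 14007217162) (nat_lit 456) (nat_lit 9760759261) (nat_lit 181) (nat_lit 5) (nat_lit 186) (nat_lit 5) (nat_lit 187) (nat_lit 5) (nat_lit 657) (nat_lit 576) (nat_lit 327)) (XT.lf (nat_lit 0) (nat_lit 25369376663) (nat_lit 380) (nat_lit 2374201355) (nat_lit 456) (nat_lit 3100757590) (nat_lit 181) (nat_lit 5) (nat_lit 186) (nat_lit 5) (nat_lit 187) (nat_lit 5) (nat_lit 658) (nat_lit 576) (nat_lit 326)))) (XT.nd (nat_lit 156) (nat_lit 380) (nat_lit 0) (XT.nd (nat_lit 78) (nat_lit 380) (nat_lit 0) (XT.lf (nat_lit 0) (nat_lit 3789541066) (nat_lit 456) (nat_lit 17955923650) (nat_lit 76) (nat_lit 9476558155) (nat_lit 175) (nat_lit 5) (nat_lit 181) (nat_lit 5) (nat_lit 176) (nat_lit 5) (nat_lit 659) (nat_lit 576) (nat_lit 325)) (XT.lf (nat_lit 0) (nat_lit 818804639) (nat_lit 380) (nat_lit 10012038544) (nat_lit 456) (nat_lit 20774916555) (nat_lit 170) (nat_lit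 5) (nat_lit 175) (nat_lit 5) (nat_lit 176) (nat_lit 5) (nat_lit 660) (nat_lit 576) (nat_lit 324))) (XT.nd (nat_lit 78) (nat_lit 380) (nat_lit 0) (XT.lf (nat_lit 0) (nat_lit 18143639611) (nat_lit 456) (nat_lit 11800952929) (nat_lit 76) (nat_lit 2049965546) (nat_lit 170) (nat_lit 5) (nat_lit 176) (nat_lit 5) (nat_lit 171) (nat_lit 5) (nat_lit 661) (nat_lit 576) (nat_lit 323)) (XT.lf (nat_lit 0) (nat_lit 7593030468) (nat_lit 380) (nat_lit 18122007128) (nat_lit 456) (nat_lit 6673848000) (nat_lit 165) (nat_lit 5) (nat_lit 170) (nat_lit 5) (nat_lit 171) (nat_lit 5) (nat_lit 662) (nat_lit 576) (nat_lit 322)))))) (XT.nd (nat_lit 546) (nat_lit 760) (nat_lit 0) (XT.nd (nat_lit 234) (nat_lit 760) (nat_lit 0) (XT.nd (nat_lit 78) (nat_lit 760) (nat_lit 0) (XT.lf (nat_lit 0) (nat_lit 714748304) (nat_lit 456) (nat_lit 5264409090) (nat_lit 76) (nat_lit 26810329044) (nat_lit 164) (nat_lit 5) (nat_lit 170) (nat_lit 5) (nat_lit 165) (nat_lit 5) (nat_lit 663) (nat_lit 576) (nat_lit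 321)) (XT.nd (nat_lit 78) (nat_lit 380) (nat_lit 0) (XT.lf (nat_lit 0) (nat_lit 8297274959) (nat_lit 456) (nat_lit 18435191941) (nat_lit 76) (nat_lit 6462039791) (nat_lit 159) (nat_lit 5) (nat_lit 165) (nat_lit 5) (nat_lit 160) (nat_lit 5) (nat_lit 664) (nat_lit 576) (nat_lit 320)) (XT.lf (nat_lit 0) (nat_lit 1624478031) (nat_lit 380) (nat_lit 14489514098) (nat_lit 456) (nat_lit 17491984519) (nat_lit 154) (nat_lit 5) (nat_lit 159) (nat_lit 5) (nat_lit 160) (nat_lit 5) (nat_lit 665) (nat_lit 576) (nat_lit 319)))) (XT.nd (nat_lit 156) (nat_lit 456) (nat_lit 0) (XT.nd (nat_lit 78) (nat_lit 304) (nat_lit 0) (XT.lf (nat_lit 0) (nat_lit 22330318864) (nat_lit 380) (nat_lit 1877299578) (nat_lit 456) (nat_lit 9815646164) (nat_lit 154) (nat_lit 5) (nat_lit 159) (nat_lit 5) (nat_lit 160) (nat_lit 5) (nat_lit 666) (nat_lit 576) (nat_lit 318)) (XT.lf (nat_lit 0) (nat_lit 9043782857) (nat_lit 304) (nat_lit 23546303676) (nat_lit 380) (nat_lit 1856272500) (nat_lit 150) (nat_lit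 5) (nat_lit 154) (nat_lit 5) (nat_lit 155) (nat_lit 5) (nat_lit 667) (nat_lit 576) (nat_lit 317))) (XT.nd (nat_lit 78) (nat_lit 380) (nat_lit 0) (XT.lf (nat_lit 0) (nat_lit 6268499340) (nat_lit 380) (nat_lit 4581089243) (nat_lit 76) (nat_lit 24025746843) (nat_lit 149) (nat_lit 5) (nat_lit 154) (nat_lit 5) (nat_lit 150) (nat_lit 5) (nat_lit 668) (nat_lit 576) (nat_lit 316)) (XT.lf (nat_lit 0) (nat_lit 14651826956) (nat_lit 456) (nat_lit 18464068591) (nat_lit 76) (nat_lit 2194332174) (nat_lit 144) (nat_lit 5) (nat_lit 150) (nat_lit 5) (nat_lit 145) (nat_lit 5) (nat_lit 669) (nat_lit 576) (nat_lit 315))))) (XT.nd (nat_lit 74022) (nat_lit 0) (nat_lit 27512) (XT.nd (nat_lit 156) (nat_lit 456) (nat_lit 0) (XT.nd (nat_lit 78) (nat_lit 0) (nat_lit 0) (XT.lf (nat_lit 0) (nat_lit 2972982930) (nat_lit 304) (nat_lit 20348938435) (nat_lit 380) (nat_lit 12429514581) (nat_lit 140) (nat_lit 5) (nat_lit 144) (nat_lit 5) (nat_lit 145) (nat_lit 5) (nat_lit 670) (nat_lit 576)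 (nat_lit 314)) (XT.lf (nat_lit 0) (nat_lit 25084291954) (nat_lit 304) (nat_lit 7202058147) (nat_lit 380) (nat_lit 3912699672) (nat_lit 140) (nat_lit 5) (nat_lit 144) (nat_lit 5) (nat_lit 145) (nat_lit 5) (nat_lit 671) (nat_lit 576) (nat_lit 313))) (XT.nd (nat_lit 73788) (nat_lit 0) (nat_lit 27512) (XT.lf (nat_lit 0) (nat_lit 4821893425) (nat_lit 456) (nat_lit 25602618655) (nat_lit 76) (nat_lit 6228282707) (nat_lit 134) (nat_lit 5) (nat_lit 140) (nat_lit 5) (nat_lit 135) (nat_lit 5) (nat_lit 672) (nat_lit 576) (nat_lit 312)) (XT.lf (nat_lit 0) (nat_lit 278302297) (nat_lit 0) (nat_lit 278302297) (nat_lit 1748) (nat_lit 5861910232) (nat_lit 496) (nat_lit 5) (nat_lit 496) (nat_lit 3) (nat_lit 519) (nat_lit 3) (nat_lit 577) (nat_lit 577) (nat_lit 406)))) (XT.nd (nat_lit 156) (nat_lit 0) (nat_lit 76) (XT.nd (nat_lit 78) (nat_lit 0) (nat_lit 0) (XT.lf (nat_lit 0) (nat_lit 1574638179) (nat_lit 1748) (nat_lit 5945869502) (nat_lit 1824) (nat_lit 5435860516) (nat_lit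 496) (nat_lit 5) (nat_lit 519) (nat_lit 3) (nat_lit 520) (nat_lit 5) (nat_lit 578) (nat_lit 577) (nat_lit 405)) (XT.lf (nat_lit 76) (nat_lit 512725389) (nat_lit 0) (nat_lit 1528747343) (nat_lit 1824) (nat_lit 11036697918) (nat_lit 497) (nat_lit 5) (nat_lit 496) (nat_lit 5) (nat_lit 520) (nat_lit 5) (nat_lit 579) (nat_lit 577) (nat_lit 404))) (XT.nd (nat_lit 78) (nat_lit 0) (nat_lit 0) (XT.lf (nat_lit 0) (nat_lit 2576933259) (nat_lit 1748) (nat_lit 6056439417) (nat_lit 1824) (nat_lit 4567851352) (nat_lit 497) (nat_lit 5) (nat_lit 520) (nat_lit 5) (nat_lit 521) (nat_lit 5) (nat_lit 580) (nat_lit 577) (nat_lit 403)) (XT.lf (nat_lit 76) (nat_lit 574371907) (nat_lit 0) (nat_lit 2552163115) (nat_lit 1824) (nat_lit 10200135464) (nat_lit 498) (nat_lit 5) (nat_lit 497) (nat_lit 5) (nat_lit 521) (nat_lit 5) (nat_lit 581) (nat_lit 577) (nat_lit 402))))))))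
noncomputable def xc184 : XT := (XT.nd (nat_lit 2262) (nat_lit 11400) (nat_lit 0) (XT.nd (nat_lit 1092) (nat_lit 5396) (nat_lit 0) (XT.nd (nat_lit 546) (nat_lit 1368) (nat_lit 0) (XT.nd (nat_lit 234) (nat_lit 0) (nat_lit 76) (XT.nd (nat_lit 78) (nat_lit 0) (nat_lit 0) (XT.lf (nat_lit 0) (nat_lit 3741517424) (nat_lit 1748) (nat_lit 6063869092) (nat_lit 1824) (nat_lit 3648152222) (nat_lit 498) (nat_lit 5) (nat_lit 521) (nat_lit 5) (nat_lit 522) (nat_lit 5) (nat_lit 582) (nat_lit 577) (nat_lit 401)) (XT.nd (nat_lit 78) (nat_lit 0) (nat_lit 76) (XT.lf (nat_lit 76) (nat_lit 745339343) (nat_lit 0) (nat_lit 3635176580) (nat_lit 1824) (nat_lit 9202194729) (nat_lit 499) (nat_lit 5) (nat_lit 498) (nat_lit 5) (nat_lit 522) (nat_lit 5) (nat_lit 583) (nat_lit 577) (nat_lit 400)) (XT.lf (nat_lit 0) (nat_lit 5080676419) (nat_lit 1748) (nat_lit 5964301454) (nat_lit 1824) (nat_lit 2668521105) (nat_lit 499) (nat_lit 5) (nat_lit 522) (nat_lit 5) (nat_lit 523) (nat_lit 5) (nat_lit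 584) (nat_lit 577) (nat_lit 399)))) (XT.nd (nat_lit 156) (nat_lit 0) (nat_lit 76) (XT.nd (nat_lit 78) (nat_lit 0) (nat_lit 76) (XT.lf (nat_lit 76) (nat_lit 1029730738) (nat_lit 0) (nat_lit 4786222481) (nat_lit 1824) (nat_lit 8030528191) (nat_lit 500) (nat_lit 5) (nat_lit 499) (nat_lit 5) (nat_lit 523) (nat_lit 5) (nat_lit 585) (nat_lit 577) (nat_lit 398)) (XT.lf (nat_lit 0) (nat_lit 6607125280) (nat_lit 1748) (nat_lit 5753575246) (nat_lit 1824) (nat_lit 1620599758) (nat_lit 500) (nat_lit 5) (nat_lit 523) (nat_lit 5) (nat_lit 524) (nat_lit 5) (nat_lit 586) (nat_lit 577) (nat_lit 397))) (XT.nd (nat_lit 78) (nat_lit 0) (nat_lit 76) (XT.lf (nat_lit 76) (nat_lit 1431961954) (nat_lit 0) (nat_lit 6013866331) (nat_lit 1824) (nat_lit 6672353679) (nat_lit 501) (nat_lit 5) (nat_lit 500) (nat_lit 5) (nat_lit 524) (nat_lit 5) (nat_lit 587) (nat_lit 577) (nat_lit 396)) (XT.lf (nat_lit 0) (nat_lit 8334034228) (nat_lit 1748) (nat_lit 5427219803) (nat_lit 1824) (nat_lit 495893237)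 (nat_lit 501) (nat_lit 5) (nat_lit 524) (nat_lit 5) (nat_lit 525) (nat_lit 5) (nat_lit 588) (nat_lit 577) (nat_lit 395))))) (XT.nd (nat_lit 234) (nat_lit 1596) (nat_lit 0) (XT.nd (nat_lit 78) (nat_lit 0) (nat_lit 0) (XT.lf (nat_lit 76) (nat_lit 1956767280) (nat_lit 0) (nat_lit 7326825098) (nat_lit 1824) (nat_lit 5114428292) (nat_lit 502) (nat_lit 5) (nat_lit 501) (nat_lit 5) (nat_lit 525) (nat_lit 5) (nat_lit 589) (nat_lit 577) (nat_lit 394)) (XT.nd (nat_lit 78) (nat_lit 0) (nat_lit 76) (XT.lf (nat_lit 76) (nat_lit 9556011615) (nat_lit 0) (nat_lit 723742581) (nat_lit 1824) (nat_lit 4261405639) (nat_lit 502) (nat_lit 5) (nat_lit 501) (nat_lit 5) (nat_lit 525) (nat_lit 5) (nat_lit 590) (nat_lit 577) (nat_lit 393)) (XT.lf (nat_lit 76) (nat_lit 2609205659) (nat_lit 0) (nat_lit 8733987912) (nat_lit 1824) (nat_lit 3343021660) (nat_lit 503) (nat_lit 5) (nat_lit 502) (nat_lit 5) (nat_lit 526) (nat_lit 5) (nat_lit 591) (nat_lit 577) (nat_lit 392)))) (XT.nd (nat_lit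 156) (nat_lit 1672) (nat_lit 0) (XT.nd (nat_lit 78) (nat_lit 0) (nat_lit 76) (XT.lf (nat_lit 76) (nat_lit 10412141224) (nat_lit 0) (nat_lit 2045488401) (nat_lit 1824) (nat_lit 2375948076) (nat_lit 503) (nat_lit 5) (nat_lit 502) (nat_lit 5) (nat_lit 526) (nat_lit 5) (nat_lit 592) (nat_lit 577) (nat_lit 391)) (XT.lf (nat_lit 76) (nat_lit 3394667546) (nat_lit 0) (nat_lit 10244436857) (nat_lit 1824) (nat_lit 1343888530) (nat_lit 504) (nat_lit 5) (nat_lit 503) (nat_lit 5) (nat_lit 527) (nat_lit 5) (nat_lit 593) (nat_lit 577) (nat_lit 390))) (XT.nd (nat_lit 78) (nat_lit 1748) (nat_lit 0) (XT.lf (nat_lit 76) (nat_lit 11407252959) (nat_lit 0) (nat_lit 3471902147) (nat_lit 1824) (nat_lit 255542938) (nat_lit 504) (nat_lit 5) (nat_lit 503) (nat_lit 5) (nat_lit 527) (nat_lit 5) (nat_lit 594) (nat_lit 577) (nat_lit 389)) (XT.lf (nat_lit 0) (nat_lit 885985134) (nat_lit 1824) (nat_lit 10975537333) (nat_lit 1900) (nat_lit 3426951837) (nat_lit 480) (nat_lit 5) (nat_lit 504)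 (nat_lit 5) (nat_lit 505) (nat_lit 5) (nat_lit 595) (nat_lit 577) (nat_lit 388)))))) (XT.nd (nat_lit 546) (nat_lit 3800) (nat_lit 0) (XT.nd (nat_lit 234) (nat_lit 1596) (nat_lit 0) (XT.nd (nat_lit 78) (nat_lit 0) (nat_lit 76) (XT.lf (nat_lit 0) (nat_lit 2087154736) (nat_lit 1824) (nat_lit 2911193247) (nat_lit 1900) (nat_lit 10446140144) (nat_lit 480) (nat_lit 5) (nat_lit 504) (nat_lit 5) (nat_lit 505) (nat_lit 5) (nat_lit 596) (nat_lit 577) (nat_lit 387)) (XT.nd (nat_lit 78) (nat_lit 0) (nat_lit 0) (XT.lf (nat_lit 0) (nat_lit 3352726518) (nat_lit 1824) (nat_lit 10237386885) (nat_lit 1900) (nat_lit 2012701713) (nat_lit 481) (nat_lit 5) (nat_lit 505) (nat_lit 5) (nat_lit 506) (nat_lit 5) (nat_lit 597) (nat_lit 577) (nat_lit 386)) (XT.lf (nat_lit 0) (nat_lit 4688714567) (nat_lit 1824) (nat_lit 1956278627) (nat_lit 1900) (nat_lit 9118413809) (nat_lit 481) (nat_lit 5) (nat_lit 505) (nat_lit 5) (nat_lit 506) (nat_lit 5) (nat_lit 598) (nat_lit 577) (nat_lit 385))))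 (XT.nd (nat_lit 156) (nat_lit 1748) (nat_lit 0) (XT.nd (nat_lit 78) (nat_lit 0) (nat_lit 0) (XT.lf (nat_lit 0) (nat_lit 6089713766) (nat_lit 1824) (nat_lit 9359077365) (nat_lit 1900) (nat_lit 477654215) (nat_lit 482) (nat_lit 5) (nat_lit 506) (nat_lit 5) (nat_lit 507) (nat_lit 5) (nat_lit 599) (nat_lit 577) (nat_lit 384)) (XT.lf (nat_lit 0) (nat_lit 7568559805) (nat_lit 1824) (nat_lit 854740490) (nat_lit 1900) (nat_lit 7668448063) (nat_lit 482) (nat_lit 5) (nat_lit 506) (nat_lit 5) (nat_lit 507) (nat_lit 5) (nat_lit 600) (nat_lit 577) (nat_lit 383))) (XT.nd (nat_lit 78) (nat_lit 1748) (nat_lit 0) (XT.lf (nat_lit 76) (nat_lit 7917472725) (nat_lit 0) (nat_lit 1203666192) (nat_lit 1900) (nat_lit 7138335820) (nat_lit 483) (nat_lit 5) (nat_lit 482) (nat_lit 5) (nat_lit 507) (nat_lit 5) (nat_lit 601) (nat_lit 577) (nat_lit 382)) (XT.lf (nat_lit 0) (nat_lit 405396828) (nat_lit 1824) (nat_lit 10340636951) (nat_lit 1900) (nat_lit 5683697001) (nat_lit 459) (nat_lit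 5) (nat_lit 483) (nat_lit 5) (nat_lit 484) (nat_lit 5) (nat_lit 602) (nat_lit 577) (nat_lit 381))))) (XT.nd (nat_lit 312) (nat_lit 1748) (nat_lit 0) (XT.nd (nat_lit 156) (nat_lit 988) (nat_lit 0) (XT.nd (nat_lit 78) (nat_lit 1064) (nat_lit 0) (XT.lf (nat_lit 0) (nat_lit 9426624574) (nat_lit 1824) (nat_lit 3033661459) (nat_lit 1900) (nat_lit 4141969134) (nat_lit 459) (nat_lit 5) (nat_lit 483) (nat_lit 5) (nat_lit 484) (nat_lit 5) (nat_lit 603) (nat_lit 577) (nat_lit 380)) (XT.lf (nat_lit 0) (nat_lit 1839331837) (nat_lit 1064) (nat_lit 12403232956) (nat_lit 1140) (nat_lit 2534990825) (nat_lit 445) (nat_lit 5) (nat_lit 459) (nat_lit 5) (nat_lit 460) (nat_lit 5) (nat_lit 604) (nat_lit 577) (nat_lit 379))) (XT.nd (nat_lit 78) (nat_lit 988) (nat_lit 0) (XT.lf (nat_lit 0) (nat_lit 11105399898) (nat_lit 1064) (nat_lit 5016400622) (nat_lit 1140) (nat_lit 833335727) (nat_lit 445) (nat_lit 5) (nat_lit 459) (nat_lit 5) (nat_lit 460) (nat_lit 5) (nat_lit 605) (nat_lit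 577) (nat_lit 378)) (XT.lf (nat_lit 0) (nat_lit 922773569) (nat_lit 988) (nat_lit 13698491553) (nat_lit 76) (nat_lit 2514241461) (nat_lit 432) (nat_lit 5) (nat_lit 445) (nat_lit 5) (nat_lit 433) (nat_lit 5) (nat_lit 606) (nat_lit 577) (nat_lit 377)))) (XT.nd (nat_lit 156) (nat_lit 836) (nat_lit 0) (XT.nd (nat_lit 78) (nat_lit 912) (nat_lit 0) (XT.lf (nat_lit 0) (nat_lit 2768978907) (nat_lit 988) (nat_lit 4375073181) (nat_lit 76) (nat_lit 10173999801) (nat_lit 432) (nat_lit 5) (nat_lit 445) (nat_lit 5) (nat_lit 433) (nat_lit 5) (nat_lit 607) (nat_lit 577) (nat_lit 376)) (XT.lf (nat_lit 0) (nat_lit 4682726057) (nat_lit 988) (nat_lit 12310140687) (nat_lit 76) (nat_lit 510769369) (nat_lit 420) (nat_lit 5) (nat_lit 433) (nat_lit 5) (nat_lit 421) (nat_lit 5) (nat_lit 608) (nat_lit 577) (nat_lit 375))) (XT.nd (nat_lit 78) (nat_lit 836) (nat_lit 0) (XT.lf (nat_lit 0) (nat_lit 6705219379) (nat_lit 988) (nat_lit 2733250382) (nat_lit 76) (nat_lit 8253053195) (nat_lit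 420) (nat_lit 5) (nat_lit 433) (nat_lit 5) (nat_lit 421) (nat_lit 5) (nat_lit 609) (nat_lit 577) (nat_lit 374)) (XT.lf (nat_lit 0) (nat_lit 7122571752) (nat_lit 836) (nat_lit 1685566797) (nat_lit 912) (nat_lit 9074229821) (nat_lit 409) (nat_lit 5) (nat_lit 420) (nat_lit 5) (nat_lit 421) (nat_lit 5) (nat_lit 610) (nat_lit 577) (nat_lit 373))))))) (XT.nd (nat_lit 1092) (nat_lit 5092) (nat_lit 0) (XT.nd (nat_lit 546) (nat_lit 2964) (nat_lit 0) (XT.nd (nat_lit 234) (nat_lit 1672) (nat_lit 0) (XT.nd (nat_lit 78) (nat_lit 1672) (nat_lit 0) (XT.lf (nat_lit 0) (nat_lit 11005795960) (nat_lit 912) (nat_lit 910730521) (nat_lit 76) (nat_lit 6159450958) (nat_lit 409) (nat_lit 5) (nat_lit 421) (nat_lit 5) (nat_lit 410) (nat_lit 5) (nat_lit 611) (nat_lit 577) (nat_lit 372)) (XT.nd (nat_lit 78) (nat_lit 836) (nat_lit 0) (XT.lf (nat_lit 0) (nat_lit 9239344036) (nat_lit 836) (nat_lit 4073151294) (nat_lit 912) (nat_lit 4959661922) (nat_lit 398) (nat_lit 5) (nat_lit 409) (nat_lit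 5) (nat_lit 410) (nat_lit 5) (nat_lit 612) (nat_lit 577) (nat_lit 371)) (XT.lf (nat_lit 0) (nat_lit 1115654463) (nat_lit 836) (nat_lit 14582585678) (nat_lit 912) (nat_lit 2773362624) (nat_lit 387) (nat_lit 5) (nat_lit 398) (nat_lit 5) (nat_lit 399) (nat_lit 5) (nat_lit 613) (nat_lit 577) (nat_lit 370)))) (XT.nd (nat_lit 156) (nat_lit 760) (nat_lit 0) (XT.nd (nat_lit 78) (nat_lit 912) (nat_lit 0) (XT.lf (nat_lit 0) (nat_lit 11556173943) (nat_lit 836) (nat_lit 6657034682) (nat_lit 912) (nat_lit 460198711) (nat_lit 387) (nat_lit 5) (nat_lit 398) (nat_lit 5) (nat_lit 399) (nat_lit 5) (nat_lit 614) (nat_lit 577) (nat_lit 369)) (XT.lf (nat_lit 0) (nat_lit 1899746369) (nat_lit 912) (nat_lit 15536273684) (nat_lit 76) (nat_lit 1442473108) (nat_lit 375) (nat_lit 5) (nat_lit 387) (nat_lit 5) (nat_lit 376) (nat_lit 5) (nat_lit 615) (nat_lit 577) (nat_lit 368))) (XT.nd (nat_lit 78) (nat_lit 760) (nat_lit 0) (XT.lf (nat_lit 0) (nat_lit 4387145305) (nat_lit 912) (nat_lit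 5032899353) (nat_lit 76) (nat_lit 9665847170) (nat_lit 375) (nat_lit 5) (nat_lit 387) (nat_lit 5) (nat_lit 376) (nat_lit 5) (nat_lit 616) (nat_lit 577) (nat_lit 367)) (XT.lf (nat_lit 0) (nat_lit 5750012808) (nat_lit 760) (nat_lit 1205973344) (nat_lit 836) (nat_lit 12340818739) (nat_lit 365) (nat_lit 5) (nat_lit 375) (nat_lit 5) (nat_lit 376) (nat_lit 5) (nat_lit 617) (nat_lit 577) (nat_lit 366))))) (XT.nd (nat_lit 234) (nat_lit 2204) (nat_lit 0) (XT.nd (nat_lit 78) (nat_lit 760) (nat_lit 0) (XT.lf (nat_lit 0) (nat_lit 9651199824) (nat_lit 836) (nat_lit 2747259227) (nat_lit 76) (nat_lit 7111977540) (nat_lit 365) (nat_lit 5) (nat_lit 376) (nat_lit 5) (nat_lit 366) (nat_lit 5) (nat_lit 618) (nat_lit 577) (nat_lit 365)) (XT.nd (nat_lit 78) (nat_lit 0) (nat_lit 0) (XT.lf (nat_lit 0) (nat_lit 8364079546) (nat_lit 760) (nat_lit 4093070240) (nat_lit 836) (nat_lit 7270054786) (nat_lit 355) (nat_lit 5) (nat_lit 365) (nat_lit 5) (nat_lit 366) (nat_lit 5) (nat_lit 619)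 (nat_lit 577) (nat_lit 364)) (XT.lf (nat_lit 0) (nat_lit 15360810344) (nat_lit 836) (nat_lit 247564888) (nat_lit 76) (nat_lit 4339101133) (nat_lit 355) (nat_lit 5) (nat_lit 366) (nat_lit 5) (nat_lit 356) (nat_lit 5) (nat_lit 620) (nat_lit 577) (nat_lit 363)))) (XT.nd (nat_lit 156) (nat_lit 684) (nat_lit 0) (XT.nd (nat_lit 78) (nat_lit 836) (nat_lit 0) (XT.lf (nat_lit 0) (nat_lit 11204302485) (nat_lit 684) (nat_lit 7212805877) (nat_lit 760) (nat_lit 1753154225) (nat_lit 346) (nat_lit 5) (nat_lit 355) (nat_lit 5) (nat_lit 356) (nat_lit 5) (nat_lit 621) (nat_lit 577) (nat_lit 362)) (XT.lf (nat_lit 0) (nat_lit 1143765821) (nat_lit 836) (nat_lit 17895284536) (nat_lit 76) (nat_lit 1357873789) (nat_lit 335) (nat_lit 5) (nat_lit 346) (nat_lit 5) (nat_lit 336) (nat_lit 5) (nat_lit 622) (nat_lit 577) (nat_lit 361))) (XT.nd (nat_lit 78) (nat_lit 684) (nat_lit 0) (XT.lf (nat_lit 0) (nat_lit 4178307354) (nat_lit 836) (nat_lit 6372500928) (nat_lit 76) (nat_lit 10075015992)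 (nat_lit 335) (nat_lit 5) (nat_lit 346) (nat_lit 5) (nat_lit 336) (nat_lit 5) (nat_lit 623) (nat_lit 577) (nat_lit 360)) (XT.lf (nat_lit 0) (nat_lit 5446347677) (nat_lit 684) (nat_lit 1857459409) (nat_lit 760) (nat_lit 13554890229) (nat_lit 326) (nat_lit 5) (nat_lit 335) (nat_lit 5) (nat_lit 336) (nat_lit 5) (nat_lit 624) (nat_lit 577) (nat_lit 359)))))) (XT.nd (nat_lit 546) (nat_lit 2432) (nat_lit 0) (XT.nd (nat_lit 234) (nat_lit 1976) (nat_lit 0) (XT.nd (nat_lit 78) (nat_lit 684) (nat_lit 0) (XT.lf (nat_lit 0) (nat_lit 10575338366) (nat_lit 760) (nat_lit 3559091784) (nat_lit 76) (nat_lit 6960127487) (nat_lit 326) (nat_lit 5) (nat_lit 336) (nat_lit 5) (nat_lit 327) (nat_lit 5) (nat_lit 625) (nat_lit 577) (nat_lit 358)) (XT.nd (nat_lit 78) (nat_lit 0) (nat_lit 0) (XT.lf (nat_lit 0) (nat_lit 8626302721) (nat_lit 684) (nat_lit 5349368570) (nat_lit 760) (nat_lit 7358196701) (nat_lit 317) (nat_lit 5) (nat_lit 326) (nat_lit 5) (nat_lit 327) (nat_lit 5) (nat_lit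 626) (nat_lit 577) (nat_lit 357)) (XT.lf (nat_lit 0) (nat_lit 17486616423) (nat_lit 760) (nat_lit 503260429) (nat_lit 76) (nat_lit 3587235832) (nat_lit 317) (nat_lit 5) (nat_lit 327) (nat_lit 5) (nat_lit 318) (nat_lit 5) (nat_lit 627) (nat_lit 577) (nat_lit 356)))) (XT.nd (nat_lit 156) (nat_lit 608) (nat_lit 0) (XT.nd (nat_lit 78) (nat_lit 760) (nat_lit 0) (XT.lf (nat_lit 0) (nat_lit 12062198849) (nat_lit 608) (nat_lit 9114535877) (nat_lit 684) (nat_lit 646308697) (nat_lit 309) (nat_lit 5) (nat_lit 317) (nat_lit 5) (nat_lit 318) (nat_lit 5) (nat_lit 628) (nat_lit 577) (nat_lit 355)) (XT.lf (nat_lit 0) (nat_lit 2824645066) (nat_lit 684) (nat_lit 21496145) (nat_lit 760) (nat_lit 19227039999) (nat_lit 299) (nat_lit 5) (nat_lit 308) (nat_lit 5) (nat_lit 309) (nat_lit 5) (nat_lit 629) (nat_lit 577) (nat_lit 354))) (XT.nd (nat_lit 78) (nat_lit 608) (nat_lit 0) (XT.lf (nat_lit 0) (nat_lit 6521095305) (nat_lit 760) (nat_lit 6603429164) (nat_lit 76) (nat_lit 9201285882)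 (nat_lit 299) (nat_lit 5) (nat_lit 309) (nat_lit 5) (nat_lit 300) (nat_lit 5) (nat_lit 630) (nat_lit 577) (nat_lit 353)) (XT.lf (nat_lit 0) (nat_lit 6372345856) (nat_lit 608) (nat_lit 3934098624) (nat_lit 684) (nat_lit 12276309893) (nat_lit 291) (nat_lit 5) (nat_lit 299) (nat_lit 5) (nat_lit 300) (nat_lit 5) (nat_lit 631) (nat_lit 577) (nat_lit 352))))) (XT.nd (nat_lit 312) (nat_lit 1140) (nat_lit 0) (XT.nd (nat_lit 156) (nat_lit 684) (nat_lit 0) (XT.nd (nat_lit 78) (nat_lit 608) (nat_lit 0) (XT.lf (nat_lit 0) (nat_lit 14242854836) (nat_lit 684) (nat_lit 3188131412) (nat_lit 76) (nat_lit 5412344157) (nat_lit 291) (nat_lit 5) (nat_lit 300) (nat_lit 5) (nat_lit 292) (nat_lit 5) (nat_lit 632) (nat_lit 577) (nat_lit 351)) (XT.lf (nat_lit 0) (nat_lit 10196667201) (nat_lit 608) (nat_lit 8149100301) (nat_lit 684) (nat_lit 4761595186) (nat_lit 283) (nat_lit 5) (nat_lit 291) (nat_lit 5) (nat_lit 292) (nat_lit 5) (nat_lit 633) (nat_lit 577) (nat_lit 350))) (XT.nd (nat_lit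 78) (nat_lit 76) (nat_lit 0) (XT.lf (nat_lit 0) (nat_lit 508450525) (nat_lit 608) (nat_lit 22051246254) (nat_lit 684) (nat_lit 816399877) (nat_lit 275) (nat_lit 5) (nat_lit 283) (nat_lit 5) (nat_lit 284) (nat_lit 5) (nat_lit 634) (nat_lit 577) (nat_lit 349)) (XT.lf (nat_lit 0) (nat_lit 3302391370) (nat_lit 684) (nat_lit 9358520941) (nat_lit 76) (nat_lit 10986141427) (nat_lit 274) (nat_lit 5) (nat_lit 283) (nat_lit 5) (nat_lit 275) (nat_lit 5) (nat_lit 635) (nat_lit 577) (nat_lit 348)))) (XT.nd (nat_lit 156) (nat_lit 532) (nat_lit 0) (XT.nd (nat_lit 78) (nat_lit 0) (nat_lit 0) (XT.lf (nat_lit 0) (nat_lit 4468427596) (nat_lit 608) (nat_lit 3048890792) (nat_lit 684) (nat_lit 16405510010) (nat_lit 266) (nat_lit 5) (nat_lit 274) (nat_lit 5) (nat_lit 275) (nat_lit 5) (nat_lit 636) (nat_lit 577) (nat_lit 347)) (XT.lf (nat_lit 0) (nat_lit 11919331157) (nat_lit 684) (nat_lit 5553964458) (nat_lit 76) (nat_lit 6728767383) (nat_lit 266) (nat_lit 5) (nat_lit 275) (nat_lit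 5) (nat_lit 267) (nat_lit 5) (nat_lit 637) (nat_lit 577) (nat_lit 346))) (XT.nd (nat_lit 78) (nat_lit 0) (nat_lit 0) (XT.lf (nat_lit 0) (nat_lit 8713074598) (nat_lit 532) (nat_lit 7768866441) (nat_lit 608) (nat_lit 8003490301) (nat_lit 259) (nat_lit 5) (nat_lit 266) (nat_lit 5) (nat_lit 267) (nat_lit 5) (nat_lit 638) (nat_lit 577) (nat_lit 345)) (XT.lf (nat_lit 0) (nat_lit 21182980208) (nat_lit 608) (nat_lit 1452582763) (nat_lit 76) (nat_lit 2137960719) (nat_lit 259) (nat_lit 5) (nat_lit 267) (nat_lit 5) (nat_lit 260) (nat_lit 5) (nat_lit 639) (nat_lit 577) (nat_lit 344))))))))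
noncomputable def xc185 : XT := (XT.nd (nat_lit 2262) (nat_lit 760) (nat_lit 0) (XT.nd (nat_lit 1092) (nat_lit 3648) (nat_lit 0) (XT.nd (nat_lit 546) (nat_lit 1900) (nat_lit 0) (XT.nd (nat_lit 234) (nat_lit 1596) (nat_lit 0) (XT.nd (nat_lit 78) (nat_lit 532) (nat_lit 0) (XT.lf (nat_lit 0) (nat_lit 1033129784) (nat_lit 608) (nat_lit 11800737387) (nat_lit 76) (nat_lit 12230704419) (nat_lit 251) (nat_lit 5) (nat_lit 259) (nat_lit 5) (nat_lit 252) (nat_lit 5) (nat_lit 640) (nat_lit 577) (nat_lit 343)) (XT.nd (nat_lit 78) (nat_lit 0) (nat_lit 0) (XT.lf (nat_lit 0) (nat_lit 2942333127) (nat_lit 532) (nat_lit 2783759739) (nat_lit 608) (nat_lit 19634375211) (nat_lit 244) (nat_lit 5) (nat_lit 251) (nat_lit 5) (nat_lit 252) (nat_lit 5) (nat_lit 641) (nat_lit 577) (nat_lit 342)) (XT.lf (nat_lit 0) (nat_lit 10637080566) (nat_lit 608) (nat_lit 7574952133) (nat_lit 76) (nat_lit 7447766656) (nat_lit 244) (nat_lit 5) (nat_lit 252) (nat_lit 5) (nat_lit 245) (nat_lit 5) (nat_lit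 642) (nat_lit 577) (nat_lit 341)))) (XT.nd (nat_lit 156) (nat_lit 1064) (nat_lit 0) (XT.nd (nat_lit 78) (nat_lit 0) (nat_lit 0) (XT.lf (nat_lit 0) (nat_lit 7641512819) (nat_lit 532) (nat_lit 8068872285) (nat_lit 608) (nat_lit 10253450379) (nat_lit 237) (nat_lit 5) (nat_lit 244) (nat_lit 5) (nat_lit 245) (nat_lit 5) (nat_lit 643) (nat_lit 577) (nat_lit 340)) (XT.lf (nat_lit 0) (nat_lit 20947190541) (nat_lit 608) (nat_lit 3028469226) (nat_lit 76) (nat_lit 2297052035) (nat_lit 237) (nat_lit 5) (nat_lit 245) (nat_lit 5) (nat_lit 238) (nat_lit 5) (nat_lit 644) (nat_lit 577) (nat_lit 339))) (XT.nd (nat_lit 78) (nat_lit 608) (nat_lit 0) (XT.lf (nat_lit 0) (nat_lit 12678816212) (nat_lit 456) (nat_lit 13741829709) (nat_lit 532) (nat_lit 164481607) (nat_lit 231) (nat_lit 5) (nat_lit 237) (nat_lit 5) (nat_lit 238) (nat_lit 5) (nat_lit 645) (nat_lit 577) (nat_lit 338)) (XT.lf (nat_lit 0) (nat_lit 1823270777) (nat_lit 532) (nat_lit 3238092808) (nat_lit 608) (nat_lit 21841196529)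 (nat_lit 223) (nat_lit 5) (nat_lit 230) (nat_lit 5) (nat_lit 231) (nat_lit 5) (nat_lit 646) (nat_lit 577) (nat_lit 337))))) (XT.nd (nat_lit 234) (nat_lit 1444) (nat_lit 0) (XT.nd (nat_lit 78) (nat_lit 456) (nat_lit 0) (XT.lf (nat_lit 0) (nat_lit 10528204596) (nat_lit 608) (nat_lit 9224112564) (nat_lit 76) (nat_lit 7471228972) (nat_lit 223) (nat_lit 5) (nat_lit 231) (nat_lit 5) (nat_lit 224) (nat_lit 5) (nat_lit 647) (nat_lit 577) (nat_lit 336)) (XT.nd (nat_lit 78) (nat_lit 0) (nat_lit 0) (XT.lf (nat_lit 0) (nat_lit 7013469872) (nat_lit 456) (nat_lit 9154172646) (nat_lit 532) (nat_lit 11382044297) (nat_lit 217) (nat_lit 5) (nat_lit 223) (nat_lit 5) (nat_lit 224) (nat_lit 5) (nat_lit 648) (nat_lit 577) (nat_lit 335)) (XT.lf (nat_lit 0) (nat_lit 21989238171) (nat_lit 532) (nat_lit 4196700369) (nat_lit 76) (nat_lit 1695024537) (nat_lit 217) (nat_lit 5) (nat_lit 224) (nat_lit 5) (nat_lit 218) (nat_lit 5) (nat_lit 649) (nat_lit 577) (nat_lit 334)))) (XT.nd (nat_lit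 156) (nat_lit 456) (nat_lit 0) (XT.nd (nat_lit 78) (nat_lit 532) (nat_lit 0) (XT.lf (nat_lit 0) (nat_lit 12568660461) (nat_lit 456) (nat_lit 15497214357) (nat_lit 532) (nat_lit 150218007) (nat_lit 211) (nat_lit 5) (nat_lit 217) (nat_lit 5) (nat_lit 218) (nat_lit 5) (nat_lit 650) (nat_lit 577) (nat_lit 333)) (XT.lf (nat_lit 0) (nat_lit 1141412644) (nat_lit 456) (nat_lit 4522024133) (nat_lit 532) (nat_lit 22893104477) (nat_lit 204) (nat_lit 5) (nat_lit 210) (nat_lit 5) (nat_lit 211) (nat_lit 5) (nat_lit 651) (nat_lit 577) (nat_lit 332))) (XT.nd (nat_lit 78) (nat_lit 456) (nat_lit 0) (XT.lf (nat_lit 0) (nat_lit 11736798620) (nat_lit 532) (nat_lit 10473776522) (nat_lit 76) (nat_lit 6690294879) (nat_lit 204) (nat_lit 5) (nat_lit 211) (nat_lit 5) (nat_lit 205) (nat_lit 5) (nat_lit 652) (nat_lit 577) (nat_lit 331)) (XT.lf (nat_lit 0) (nat_lit 6861341256) (nat_lit 456) (nat_lit 11141274366) (nat_lit 532) (nat_lit 11248050112) (nat_lit 198) (nat_lit 5) (nat_lit 204)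 (nat_lit 5) (nat_lit 205) (nat_lit 5) (nat_lit 653) (nat_lit 577) (nat_lit 330)))))) (XT.nd (nat_lit 546) (nat_lit 1900) (nat_lit 0) (XT.nd (nat_lit 234) (nat_lit 836) (nat_lit 0) (XT.nd (nat_lit 78) (nat_lit 912) (nat_lit 0) (XT.lf (nat_lit 0) (nat_lit 24461986932) (nat_lit 532) (nat_lit 4927478558) (nat_lit 76) (nat_lit 216627241) (nat_lit 198) (nat_lit 5) (nat_lit 205) (nat_lit 5) (nat_lit 199) (nat_lit 5) (nat_lit 654) (nat_lit 577) (nat_lit 329)) (XT.nd (nat_lit 78) (nat_lit 456) (nat_lit 0) (XT.lf (nat_lit 0) (nat_lit 1223363137) (nat_lit 456) (nat_lit 16998621616) (nat_lit 76) (nat_lit 11743390442) (nat_lit 192) (nat_lit 5) (nat_lit 198) (nat_lit 5) (nat_lit 193) (nat_lit 5) (nat_lit 655) (nat_lit 577) (nat_lit 328)) (XT.lf (nat_lit 0) (nat_lit 927318435) (nat_lit 456) (nat_lit 6757951708) (nat_lit 532) (nat_lit 22645173870) (nat_lit 186) (nat_lit 5) (nat_lit 192) (nat_lit 5) (nat_lit 193) (nat_lit 5) (nat_lit 656) (nat_lit 577) (nat_lit 327)))) (XT.nd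 (nat_lit 156) (nat_lit 456) (nat_lit 0) (XT.nd (nat_lit 78) (nat_lit 380) (nat_lit 0) (XT.lf (nat_lit 0) (nat_lit 14419905780) (nat_lit 532) (nat_lit 11296196736) (nat_lit 76) (nat_lit 4983841999) (nat_lit 186) (nat_lit 5) (nat_lit 193) (nat_lit 5) (nat_lit 187) (nat_lit 5) (nat_lit 657) (nat_lit 577) (nat_lit 326)) (XT.lf (nat_lit 0) (nat_lit 7217815326) (nat_lit 380) (nat_lit 14159724257) (nat_lit 456) (nat_lit 9697529452) (nat_lit 181) (nat_lit 5) (nat_lit 186) (nat_lit 5) (nat_lit 187) (nat_lit 5) (nat_lit 658) (nat_lit 577) (nat_lit 325))) (XT.nd (nat_lit 78) (nat_lit 456) (nat_lit 0) (XT.lf (nat_lit 0) (nat_lit 26250299552) (nat_lit 380) (nat_lit 2296550825) (nat_lit 456) (nat_lit 2909395296) (nat_lit 181) (nat_lit 5) (nat_lit 186) (nat_lit 5) (nat_lit 187) (nat_lit 5) (nat_lit 659) (nat_lit 577) (nat_lit 324)) (XT.lf (nat_lit 0) (nat_lit 4113737292) (nat_lit 456) (nat_lit 17936517970) (nat_lit 76) (nat_lit 9791231662) (nat_lit 175) (nat_lit 5) (nat_lit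 181) (nat_lit 5) (nat_lit 176) (nat_lit 5) (nat_lit 660) (nat_lit 577) (nat_lit 323))))) (XT.nd (nat_lit 312) (nat_lit 1064) (nat_lit 0) (XT.nd (nat_lit 156) (nat_lit 456) (nat_lit 0) (XT.nd (nat_lit 78) (nat_lit 0) (nat_lit 0) (XT.lf (nat_lit 0) (nat_lit 1211214595) (nat_lit 380) (nat_lit 10082221624) (nat_lit 456) (nat_lit 20939511057) (nat_lit 170) (nat_lit 5) (nat_lit 175) (nat_lit 5) (nat_lit 176) (nat_lit 5) (nat_lit 661) (nat_lit 577) (nat_lit 322)) (XT.lf (nat_lit 0) (nat_lit 18748493376) (nat_lit 456) (nat_lit 11664308166) (nat_lit 76) (nat_lit 2216800113) (nat_lit 170) (nat_lit 5) (nat_lit 176) (nat_lit 5) (nat_lit 171) (nat_lit 5) (nat_lit 662) (nat_lit 577) (nat_lit 321))) (XT.nd (nat_lit 78) (nat_lit 76) (nat_lit 0) (XT.lf (nat_lit 0) (nat_lit 8115103164) (nat_lit 380) (nat_lit 18353875095) (nat_lit 456) (nat_lit 6562884434) (nat_lit 165) (nat_lit 5) (nat_lit 170) (nat_lit 5) (nat_lit 171) (nat_lit 5) (nat_lit 663) (nat_lit 577) (nat_lit 320))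 (XT.lf (nat_lit 0) (nat_lit 965547824) (nat_lit 456) (nat_lit 5003593711) (nat_lit 76) (nat_lit 27471397027) (nat_lit 164) (nat_lit 5) (nat_lit 170) (nat_lit 5) (nat_lit 165) (nat_lit 5) (nat_lit 664) (nat_lit 577) (nat_lit 319)))) (XT.nd (nat_lit 156) (nat_lit 304) (nat_lit 0) (XT.nd (nat_lit 78) (nat_lit 380) (nat_lit 0) (XT.lf (nat_lit 0) (nat_lit 8698289598) (nat_lit 456) (nat_lit 18436349439) (nat_lit 76) (nat_lit 6719049038) (nat_lit 159) (nat_lit 5) (nat_lit 165) (nat_lit 5) (nat_lit 160) (nat_lit 5) (nat_lit 665) (nat_lit 577) (nat_lit 318)) (XT.lf (nat_lit 0) (nat_lit 2022095864) (nat_lit 380) (nat_lit 14647006704) (nat_lit 456) (nat_lit 17604329779) (nat_lit 154) (nat_lit 5) (nat_lit 159) (nat_lit 5) (nat_lit 160) (nat_lit 5) (nat_lit 666) (nat_lit 577) (nat_lit 317))) (XT.nd (nat_lit 78) (nat_lit 304) (nat_lit 0) (XT.lf (nat_lit 0) (nat_lit 23134894135) (nat_lit 380) (nat_lit 1785141966) (nat_lit 456) (nat_lit 9779121410) (nat_lit 154) (nat_lit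 5) (nat_lit 159) (nat_lit 5) (nat_lit 160) (nat_lit 5) (nat_lit 667) (nat_lit 577) (nat_lit 316)) (XT.lf (nat_lit 0) (nat_lit 9583978073) (nat_lit 304) (nat_lit 23884858242) (nat_lit 380) (nat_lit 1661903996) (nat_lit 150) (nat_lit 5) (nat_lit 154) (nat_lit 5) (nat_lit 155) (nat_lit 5) (nat_lit 668) (nat_lit 577) (nat_lit 315))))))) (XT.nd (nat_lit 74958) (nat_lit 0) (nat_lit 24244) (XT.nd (nat_lit 74334) (nat_lit 0) (nat_lit 27132) (XT.nd (nat_lit 234) (nat_lit 0) (nat_lit 0) (XT.nd (nat_lit 78) (nat_lit 684) (nat_lit 0) (XT.lf (nat_lit 0) (nat_lit 6617847630) (nat_lit 380) (nat_lit 4317453726) (nat_lit 76) (nat_lit 24633054542) (nat_lit 149) (nat_lit 5) (nat_lit 154) (nat_lit 5) (nat_lit 150) (nat_lit 5) (nat_lit 669) (nat_lit 577) (nat_lit 314)) (XT.nd (nat_lit 78) (nat_lit 304) (nat_lit 0) (XT.lf (nat_lit 0) (nat_lit 15167592270) (nat_lit 456) (nat_lit 18476836592) (nat_lit 76) (nat_lit 2367542298) (nat_lit 144) (nat_lit 5) (nat_lit 150) (nat_lit 5) (nat_lit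 145) (nat_lit 5) (nat_lit 670) (nat_lit 577) (nat_lit 313)) (XT.lf (nat_lit 0) (nat_lit 3386610477) (nat_lit 304) (nat_lit 20622410352) (nat_lit 380) (nat_lit 12453024202) (nat_lit 140) (nat_lit 5) (nat_lit 144) (nat_lit 5) (nat_lit 145) (nat_lit 5) (nat_lit 671) (nat_lit 577) (nat_lit 312)))) (XT.nd (nat_lit 73944) (nat_lit 0) (nat_lit 27056) (XT.nd (nat_lit 73866) (nat_lit 0) (nat_lit 27056) (XT.lf (nat_lit 0) (nat_lit 25933201213) (nat_lit 304) (nat_lit 7215210240) (nat_lit 380) (nat_lit 3770286342) (nat_lit 140) (nat_lit 5) (nat_lit 144) (nat_lit 5) (nat_lit 145) (nat_lit 5) (nat_lit 672) (nat_lit 577) (nat_lit 311)) (XT.lf (nat_lit 0) (nat_lit 489789955) (nat_lit 0) (nat_lit 489789955) (nat_lit 1748) (nat_lit 5559042700) (nat_lit 496) (nat_lit 5) (nat_lit 496) (nat_lit 3) (nat_lit 519) (nat_lit 3) (nat_lit 578) (nat_lit 578) (nat_lit 404))) (XT.nd (nat_lit 78) (nat_lit 0) (nat_lit 0) (XT.lf (nat_lit 0) (nat_lit 2411045149) (nat_lit 1748) (nat_lit 5642196492)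 (nat_lit 1824) (nat_lit 5146105347) (nat_lit 496) (nat_lit 5) (nat_lit 519) (nat_lit 3) (nat_lit 520) (nat_lit 5) (nat_lit 579) (nat_lit 578) (nat_lit 403)) (XT.lf (nat_lit 76) (nat_lit 942790096) (nat_lit 0) (nat_lit 1931369352) (nat_lit 1824) (nat_lit 10449688167) (nat_lit 497) (nat_lit 5) (nat_lit 496) (nat_lit 5) (nat_lit 520) (nat_lit 5) (nat_lit 580) (nat_lit 578) (nat_lit 402))))) (XT.nd (nat_lit 312) (nat_lit 0) (nat_lit 152) (XT.nd (nat_lit 156) (nat_lit 0) (nat_lit 76) (XT.nd (nat_lit 78) (nat_lit 0) (nat_lit 0) (XT.lf (nat_lit 0) (nat_lit 3402434360) (nat_lit 1748) (nat_lit 5748046419) (nat_lit 1824) (nat_lit 4299240146) (nat_lit 497) (nat_lit 5) (nat_lit 520) (nat_lit 5) (nat_lit 521) (nat_lit 5) (nat_lit 581) (nat_lit 578) (nat_lit 401)) (XT.lf (nat_lit 76) (nat_lit 1012555332) (nat_lit 0) (nat_lit 2938067487) (nat_lit 1824) (nat_lit 9627302548) (nat_lit 498) (nat_lit 5) (nat_lit 497) (nat_lit 5) (nat_lit 521) (nat_lit 5) (nat_lit 582) (nat_lit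 578) (nat_lit 400))) (XT.nd (nat_lit 78) (nat_lit 0) (nat_lit 0) (XT.lf (nat_lit 0) (nat_lit 4560840866) (nat_lit 1748) (nat_lit 5749706615) (nat_lit 1824) (nat_lit 3397125711) (nat_lit 498) (nat_lit 5) (nat_lit 521) (nat_lit 5) (nat_lit 522) (nat_lit 5) (nat_lit 583) (nat_lit 578) (nat_lit 399)) (XT.lf (nat_lit 76) (nat_lit 1192821253) (nat_lit 0) (nat_lit 4008008743) (nat_lit 1824) (nat_lit 8638835247) (nat_lit 499) (nat_lit 5) (nat_lit 498) (nat_lit 5) (nat_lit 522) (nat_lit 5) (nat_lit 584) (nat_lit 578) (nat_lit 398)))) (XT.nd (nat_lit 156) (nat_lit 0) (nat_lit 76) (XT.nd (nat_lit 78) (nat_lit 0) (nat_lit 0) (XT.lf (nat_lit 0) (nat_lit 5898716536) (nat_lit 1748) (nat_lit 5643172405) (nat_lit 1824) (nat_lit 2431506831) (nat_lit 499) (nat_lit 5) (nat_lit 522) (nat_lit 5) (nat_lit 523) (nat_lit 5) (nat_lit 585) (nat_lit 578) (nat_lit 397)) (XT.lf (nat_lit 76) (nat_lit 1487842963) (nat_lit 0) (nat_lit 5149648983) (nat_lit 1824) (nat_lit 7471770920) (nat_lit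 500) (nat_lit 5) (nat_lit 499) (nat_lit 5) (nat_lit 523) (nat_lit 5) (nat_lit 586) (nat_lit 578) (nat_lit 396))) (XT.nd (nat_lit 78) (nat_lit 0) (nat_lit 0) (XT.lf (nat_lit 0) (nat_lit 7428955593) (nat_lit 1748) (nat_lit 5424133142) (nat_lit 1824) (nat_lit 1394000879) (nat_lit 500) (nat_lit 5) (nat_lit 523) (nat_lit 5) (nat_lit 524) (nat_lit 5) (nat_lit 587) (nat_lit 578) (nat_lit 395)) (XT.lf (nat_lit 76) (nat_lit 1902190371) (nat_lit 0) (nat_lit 6371586086) (nat_lit 1824) (nat_lit 6113146435) (nat_lit 501) (nat_lit 5) (nat_lit 500) (nat_lit 5) (nat_lit 524) (nat_lit 5) (nat_lit 588) (nat_lit 578) (nat_lit 394)))))) (XT.nd (nat_lit 546) (nat_lit 1520) (nat_lit 0) (XT.nd (nat_lit 234) (nat_lit 1672) (nat_lit 0) (XT.nd (nat_lit 78) (nat_lit 0) (nat_lit 0) (XT.lf (nat_lit 0) (nat_lit 9164920768) (nat_lit 1748) (nat_lit 5087966628) (nat_lit 1824) (nat_lit 276077446) (nat_lit 501) (nat_lit 5) (nat_lit 524) (nat_lit 5) (nat_lit 525) (nat_lit 5) (nat_lit 589) (nat_lit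 578) (nat_lit 393)) (XT.nd (nat_lit 78) (nat_lit 0) (nat_lit 0) (XT.lf (nat_lit 76) (nat_lit 2440754161) (nat_lit 0) (nat_lit 7682580548) (nat_lit 1824) (nat_lit 4549524520) (nat_lit 502) (nat_lit 5) (nat_lit 501) (nat_lit 5) (nat_lit 525) (nat_lit 5) (nat_lit 590) (nat_lit 578) (nat_lit 392)) (XT.lf (nat_lit 76) (nat_lit 10183260803) (nat_lit 0) (nat_lit 943334049) (nat_lit 1824) (nat_lit 3692523617) (nat_lit 502) (nat_lit 5) (nat_lit 501) (nat_lit 5) (nat_lit 525) (nat_lit 5) (nat_lit 591) (nat_lit 578) (nat_lit 391)))) (XT.nd (nat_lit 156) (nat_lit 1748) (nat_lit 0) (XT.nd (nat_lit 78) (nat_lit 0) (nat_lit 0) (XT.lf (nat_lit 76) (nat_lit 3108752378) (nat_lit 0) (nat_lit 9091576128) (nat_lit 1824) (nat_lit 2766966735) (nat_lit 503) (nat_lit 5) (nat_lit 502) (nat_lit 5) (nat_lit 526) (nat_lit 5) (nat_lit 592) (nat_lit 578) (nat_lit 390)) (XT.lf (nat_lit 76) (nat_lit 11058974838) (nat_lit 0) (nat_lit 2265720186) (nat_lit 1824) (nat_lit 1793157862) (nat_lit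 503) (nat_lit 5) (nat_lit 502) (nat_lit 5) (nat_lit 526) (nat_lit 5) (nat_lit 593) (nat_lit 578) (nat_lit 389))) (XT.nd (nat_lit 78) (nat_lit 1824) (nat_lit 0) (XT.lf (nat_lit 76) (nat_lit 3911737652) (nat_lit 0) (nat_lit 10607720613) (nat_lit 1824) (nat_lit 751005726) (nat_lit 504) (nat_lit 5) (nat_lit 503) (nat_lit 5) (nat_lit 527) (nat_lit 5) (nat_lit 594) (nat_lit 578) (nat_lit 388)) (XT.lf (nat_lit 0) (nat_lit 342404237) (nat_lit 1824) (nat_lit 3351927475) (nat_lit 1900) (nat_lit 11731065436) (nat_lit 479) (nat_lit 5) (nat_lit 503) (nat_lit 5) (nat_lit 504) (nat_lit 5) (nat_lit 595) (nat_lit 578) (nat_lit 387))))) (XT.nd (nat_lit 312) (nat_lit 1596) (nat_lit 0) (XT.nd (nat_lit 156) (nat_lit 0) (nat_lit 76) (XT.nd (nat_lit 78) (nat_lit 0) (nat_lit 0) (XT.lf (nat_lit 0) (nat_lit 1493534997) (nat_lit 1824) (nat_lit 10736829342) (nat_lit 1900) (nat_lit 3352047638) (nat_lit 480) (nat_lit 5) (nat_lit 504) (nat_lit 5) (nat_lit 505) (nat_lit 5) (nat_lit 596)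 (nat_lit 578) (nat_lit 386)) (XT.lf (nat_lit 0) (nat_lit 2707162694) (nat_lit 1824) (nat_lit 2520183055) (nat_lit 1900) (nat_lit 10514432323) (nat_lit 480) (nat_lit 5) (nat_lit 504) (nat_lit 5) (nat_lit 505) (nat_lit 5) (nat_lit 597) (nat_lit 578) (nat_lit 385))) (XT.nd (nat_lit 78) (nat_lit 0) (nat_lit 0) (XT.lf (nat_lit 0) (nat_lit 3988802783) (nat_lit 1824) (nat_lit 9983623595) (nat_lit 1900) (nat_lit 1931030762) (nat_lit 481) (nat_lit 5) (nat_lit 505) (nat_lit 5) (nat_lit 506) (nat_lit 5) (nat_lit 598) (nat_lit 578) (nat_lit 384)) (XT.lf (nat_lit 0) (nat_lit 5340353304) (nat_lit 1824) (nat_lit 1545883584) (nat_lit 1900) (nat_lit 9181247786) (nat_lit 481) (nat_lit 5) (nat_lit 505) (nat_lit 5) (nat_lit 506) (nat_lit 5) (nat_lit 599) (nat_lit 578) (nat_lit 383)))) (XT.nd (nat_lit 156) (nat_lit 1748) (nat_lit 0) (XT.nd (nat_lit 78) (nat_lit 0) (nat_lit 0) (XT.lf (nat_lit 0) (nat_lit 6760662908) (nat_lit 1824) (nat_lit 9087996190) (nat_lit 1900) (nat_lit 385299530)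 (nat_lit 482) (nat_lit 5) (nat_lit 506) (nat_lit 5) (nat_lit 507) (nat_lit 5) (nat_lit 600) (nat_lit 578) (nat_lit 382)) (XT.lf (nat_lit 0) (nat_lit 8258318125) (nat_lit 1824) (nat_lit 422558121) (nat_lit 1900) (nat_lit 7721907446) (nat_lit 482) (nat_lit 5) (nat_lit 506) (nat_lit 5) (nat_lit 507) (nat_lit 5) (nat_lit 601) (nat_lit 578) (nat_lit 381))) (XT.nd (nat_lit 78) (nat_lit 1748) (nat_lit 0) (XT.lf (nat_lit 76) (nat_lit 8522143588) (nat_lit 0) (nat_lit 1312146436) (nat_lit 1900) (nat_lit 6739728376) (nat_lit 483) (nat_lit 5) (nat_lit 482) (nat_lit 5) (nat_lit 507) (nat_lit 5) (nat_lit 602) (nat_lit 578) (nat_lit 380)) (XT.lf (nat_lit 0) (nat_lit 868010062) (nat_lit 1824) (nat_lit 10615679953) (nat_lit 1900) (nat_lit 5264150018) (nat_lit 459) (nat_lit 5) (nat_lit 483) (nat_lit 5) (nat_lit 484) (nat_lit 5) (nat_lit 603) (nat_lit 578) (nat_lit 379))))))))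
noncomputable def xc186 : XT := (XT.nd (nat_lit 2262) (nat_lit 8816) (nat_lit 0) (XT.nd (nat_lit 1092) (nat_lit 6384) (nat_lit 0) (XT.nd (nat_lit 546) (nat_lit 3420) (nat_lit 0) (XT.nd (nat_lit 234) (nat_lit 1900) (nat_lit 0) (XT.nd (nat_lit 78) (nat_lit 1064) (nat_lit 0) (XT.lf (nat_lit 0) (nat_lit 10060750494) (nat_lit 1824) (nat_lit 3161227103) (nat_lit 1900) (nat_lit 3702042906) (nat_lit 459) (nat_lit 5) (nat_lit 483) (nat_lit 5) (nat_lit 484) (nat_lit 5) (nat_lit 604) (nat_lit 578) (nat_lit 378)) (XT.nd (nat_lit 78) (nat_lit 0) (nat_lit 0) (XT.lf (nat_lit 0) (nat_lit 2329423957) (nat_lit 1064) (nat_lit 12702946599) (nat_lit 1140) (nat_lit 2070607623) (nat_lit 445) (nat_lit 5) (nat_lit 459) (nat_lit 5) (nat_lit 460) (nat_lit 5) (nat_lit 605) (nat_lit 578) (nat_lit 377)) (XT.lf (nat_lit 0) (nat_lit 11771925036) (nat_lit 1064) (nat_lit 5167364893) (nat_lit 1140) (nat_lit 345019090) (nat_lit 445) (nat_lit 5) (nat_lit 459) (nat_lit 5) (nat_lit 460) (nat_lit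 5) (nat_lit 606) (nat_lit 578) (nat_lit 376)))) (XT.nd (nat_lit 156) (nat_lit 912) (nat_lit 0) (XT.nd (nat_lit 78) (nat_lit 0) (nat_lit 0) (XT.lf (nat_lit 0) (nat_lit 1432445276) (nat_lit 988) (nat_lit 13514221048) (nat_lit 76) (nat_lit 2521698303) (nat_lit 432) (nat_lit 5) (nat_lit 445) (nat_lit 5) (nat_lit 433) (nat_lit 5) (nat_lit 607) (nat_lit 578) (nat_lit 375)) (XT.lf (nat_lit 0) (nat_lit 3305943030) (nat_lit 988) (nat_lit 4013319413) (nat_lit 76) (nat_lit 10335491574) (nat_lit 432) (nat_lit 5) (nat_lit 445) (nat_lit 5) (nat_lit 433) (nat_lit 5) (nat_lit 608) (nat_lit 578) (nat_lit 374))) (XT.nd (nat_lit 78) (nat_lit 0) (nat_lit 0) (XT.lf (nat_lit 0) (nat_lit 5251233364) (nat_lit 988) (nat_lit 12100329826) (nat_lit 76) (nat_lit 492621905) (nat_lit 420) (nat_lit 5) (nat_lit 433) (nat_lit 5) (nat_lit 421) (nat_lit 5) (nat_lit 609) (nat_lit 578) (nat_lit 373)) (XT.lf (nat_lit 0) (nat_lit 7304865714) (nat_lit 988) (nat_lit 2340843159) (nat_lit 76) (nat_lit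 8390307542) (nat_lit 420) (nat_lit 5) (nat_lit 433) (nat_lit 5) (nat_lit 421) (nat_lit 5) (nat_lit 610) (nat_lit 578) (nat_lit 372))))) (XT.nd (nat_lit 234) (nat_lit 1748) (nat_lit 0) (XT.nd (nat_lit 78) (nat_lit 836) (nat_lit 0) (XT.lf (nat_lit 0) (nat_lit 7709154153) (nat_lit 836) (nat_lit 1734444434) (nat_lit 912) (nat_lit 8787205557) (nat_lit 409) (nat_lit 5) (nat_lit 420) (nat_lit 5) (nat_lit 421) (nat_lit 5) (nat_lit 611) (nat_lit 578) (nat_lit 371)) (XT.nd (nat_lit 78) (nat_lit 836) (nat_lit 0) (XT.lf (nat_lit 0) (nat_lit 11676106778) (nat_lit 912) (nat_lit 484395103) (nat_lit 76) (nat_lit 6267966063) (nat_lit 409) (nat_lit 5) (nat_lit 421) (nat_lit 5) (nat_lit 410) (nat_lit 5) (nat_lit 612) (nat_lit 578) (nat_lit 370)) (XT.lf (nat_lit 0) (nat_lit 9865756274) (nat_lit 836) (nat_lit 4157223835) (nat_lit 912) (nat_lit 4605710938) (nat_lit 398) (nat_lit 5) (nat_lit 409) (nat_lit 5) (nat_lit 410) (nat_lit 5) (nat_lit 613) (nat_lit 578) (nat_lit 369))))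 (XT.nd (nat_lit 156) (nat_lit 912) (nat_lit 0) (XT.nd (nat_lit 78) (nat_lit 0) (nat_lit 0) (XT.lf (nat_lit 0) (nat_lit 1585555046) (nat_lit 836) (nat_lit 14865063707) (nat_lit 912) (nat_lit 2381623621) (nat_lit 387) (nat_lit 5) (nat_lit 398) (nat_lit 5) (nat_lit 399) (nat_lit 5) (nat_lit 614) (nat_lit 578) (nat_lit 368)) (XT.lf (nat_lit 0) (nat_lit 12226108691) (nat_lit 836) (nat_lit 6781181567) (nat_lit 912) (nat_lit 30965181) (nat_lit 387) (nat_lit 5) (nat_lit 398) (nat_lit 5) (nat_lit 399) (nat_lit 5) (nat_lit 615) (nat_lit 578) (nat_lit 367))) (XT.nd (nat_lit 78) (nat_lit 0) (nat_lit 0) (XT.lf (nat_lit 0) (nat_lit 2364906819) (nat_lit 912) (nat_lit 15396869901) (nat_lit 76) (nat_lit 1485720218) (nat_lit 375) (nat_lit 5) (nat_lit 387) (nat_lit 5) (nat_lit 376) (nat_lit 5) (nat_lit 616) (nat_lit 578) (nat_lit 366)) (XT.lf (nat_lit 0) (nat_lit 4893677939) (nat_lit 912) (nat_lit 4692254148) (nat_lit 76) (nat_lit 9873279455) (nat_lit 375) (nat_lit 5) (nat_lit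 387) (nat_lit 5) (nat_lit 376) (nat_lit 5) (nat_lit 617) (nat_lit 578) (nat_lit 365)))))) (XT.nd (nat_lit 546) (nat_lit 3344) (nat_lit 0) (XT.nd (nat_lit 234) (nat_lit 1520) (nat_lit 0) (XT.nd (nat_lit 78) (nat_lit 760) (nat_lit 0) (XT.lf (nat_lit 0) (nat_lit 6303412947) (nat_lit 760) (nat_lit 1205117476) (nat_lit 836) (nat_lit 12165920185) (nat_lit 365) (nat_lit 5) (nat_lit 375) (nat_lit 5) (nat_lit 376) (nat_lit 5) (nat_lit 618) (nat_lit 578) (nat_lit 364)) (XT.nd (nat_lit 78) (nat_lit 760) (nat_lit 0) (XT.lf (nat_lit 0) (nat_lit 10249700981) (nat_lit 836) (nat_lit 2364431757) (nat_lit 76) (nat_lit 7278381579) (nat_lit 365) (nat_lit 5) (nat_lit 376) (nat_lit 5) (nat_lit 366) (nat_lit 5) (nat_lit 619) (nat_lit 578) (nat_lit 363)) (XT.lf (nat_lit 0) (nat_lit 8966253708) (nat_lit 760) (nat_lit 4140389313) (nat_lit 836) (nat_lit 7007077597) (nat_lit 355) (nat_lit 5) (nat_lit 365) (nat_lit 5) (nat_lit 366) (nat_lit 5) (nat_lit 620) (nat_lit 578) (nat_lit 362))))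 (XT.nd (nat_lit 156) (nat_lit 836) (nat_lit 0) (XT.nd (nat_lit 78) (nat_lit 0) (nat_lit 0) (XT.lf (nat_lit 0) (nat_lit 183911875) (nat_lit 684) (nat_lit 15878028862) (nat_lit 760) (nat_lit 4276586243) (nat_lit 346) (nat_lit 5) (nat_lit 355) (nat_lit 5) (nat_lit 356) (nat_lit 5) (nat_lit 621) (nat_lit 578) (nat_lit 361)) (XT.lf (nat_lit 0) (nat_lit 11859549190) (nat_lit 684) (nat_lit 7313720434) (nat_lit 760) (nat_lit 1392621609) (nat_lit 346) (nat_lit 5) (nat_lit 355) (nat_lit 5) (nat_lit 356) (nat_lit 5) (nat_lit 622) (nat_lit 578) (nat_lit 360))) (XT.nd (nat_lit 78) (nat_lit 0) (nat_lit 0) (XT.lf (nat_lit 0) (nat_lit 1552519239) (nat_lit 836) (nat_lit 17812272706) (nat_lit 76) (nat_lit 1432333683) (nat_lit 335) (nat_lit 5) (nat_lit 346) (nat_lit 5) (nat_lit 336) (nat_lit 5) (nat_lit 623) (nat_lit 578) (nat_lit 359)) (XT.lf (nat_lit 0) (nat_lit 4640185366) (nat_lit 836) (nat_lit 6067678868) (nat_lit 76) (nat_lit 10322891232) (nat_lit 335) (nat_lit 5) (nat_lit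 346) (nat_lit 5) (nat_lit 336) (nat_lit 5) (nat_lit 624) (nat_lit 578) (nat_lit 358))))) (XT.nd (nat_lit 312) (nat_lit 1976) (nat_lit 0) (XT.nd (nat_lit 156) (nat_lit 684) (nat_lit 0) (XT.nd (nat_lit 78) (nat_lit 0) (nat_lit 0) (XT.lf (nat_lit 0) (nat_lit 5984702814) (nat_lit 684) (nat_lit 1838862531) (nat_lit 760) (nat_lit 13444813591) (nat_lit 326) (nat_lit 5) (nat_lit 335) (nat_lit 5) (nat_lit 336) (nat_lit 5) (nat_lit 625) (nat_lit 578) (nat_lit 357)) (XT.lf (nat_lit 0) (nat_lit 11153554993) (nat_lit 760) (nat_lit 3202275023) (nat_lit 76) (nat_lit 7153266259) (nat_lit 326) (nat_lit 5) (nat_lit 336) (nat_lit 5) (nat_lit 327) (nat_lit 5) (nat_lit 626) (nat_lit 578) (nat_lit 356))) (XT.nd (nat_lit 78) (nat_lit 0) (nat_lit 0) (XT.lf (nat_lit 0) (nat_lit 9224011592) (nat_lit 684) (nat_lit 5393453165) (nat_lit 760) (nat_lit 7135817036) (nat_lit 317) (nat_lit 5) (nat_lit 326) (nat_lit 5) (nat_lit 327) (nat_lit 5) (nat_lit 627) (nat_lit 578) (nat_lit 355)) (XT.lf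 (nat_lit 0) (nat_lit 18191925660) (nat_lit 760) (nat_lit 89759002) (nat_lit 76) (nat_lit 3719841132) (nat_lit 317) (nat_lit 5) (nat_lit 327) (nat_lit 5) (nat_lit 318) (nat_lit 5) (nat_lit 628) (nat_lit 578) (nat_lit 354)))) (XT.nd (nat_lit 156) (nat_lit 608) (nat_lit 0) (XT.nd (nat_lit 78) (nat_lit 760) (nat_lit 0) (XT.lf (nat_lit 0) (nat_lit 12724222839) (nat_lit 608) (nat_lit 9227383376) (nat_lit 684) (nat_lit 300854079) (nat_lit 309) (nat_lit 5) (nat_lit 317) (nat_lit 5) (nat_lit 318) (nat_lit 5) (nat_lit 629) (nat_lit 578) (nat_lit 353)) (XT.lf (nat_lit 0) (nat_lit 3252887075) (nat_lit 760) (nat_lit 19204135590) (nat_lit 76) (nat_lit 50609118) (nat_lit 299) (nat_lit 5) (nat_lit 309) (nat_lit 5) (nat_lit 300) (nat_lit 5) (nat_lit 630) (nat_lit 578) (nat_lit 352))) (XT.nd (nat_lit 78) (nat_lit 608) (nat_lit 0) (XT.lf (nat_lit 0) (nat_lit 6994620542) (nat_lit 760) (nat_lit 6314685081) (nat_lit 76) (nat_lit 9456142603) (nat_lit 299) (nat_lit 5) (nat_lit 309)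 (nat_lit 5) (nat_lit 300) (nat_lit 5) (nat_lit 631) (nat_lit 578) (nat_lit 351)) (XT.lf (nat_lit 0) (nat_lit 6917836935) (nat_lit 608) (nat_lit 3933826470) (nat_lit 684) (nat_lit 12175948309) (nat_lit 291) (nat_lit 5) (nat_lit 299) (nat_lit 5) (nat_lit 300) (nat_lit 5) (nat_lit 632) (nat_lit 578) (nat_lit 350))))))) (XT.nd (nat_lit 1092) (nat_lit 4180) (nat_lit 0) (XT.nd (nat_lit 546) (nat_lit 2204) (nat_lit 0) (XT.nd (nat_lit 234) (nat_lit 1216) (nat_lit 0) (XT.nd (nat_lit 78) (nat_lit 1216) (nat_lit 0) (XT.lf (nat_lit 0) (nat_lit 14860655715) (nat_lit 684) (nat_lit 2835884937) (nat_lit 76) (nat_lit 5596981853) (nat_lit 291) (nat_lit 5) (nat_lit 300) (nat_lit 5) (nat_lit 292) (nat_lit 5) (nat_lit 633) (nat_lit 578) (nat_lit 349)) (XT.nd (nat_lit 78) (nat_lit 608) (nat_lit 0) (XT.lf (nat_lit 0) (nat_lit 10813872747) (nat_lit 608) (nat_lit 8227908815) (nat_lit 684) (nat_lit 4521131079) (nat_lit 283) (nat_lit 5) (nat_lit 291) (nat_lit 5) (nat_lit 292) (nat_lit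 5) (nat_lit 634) (nat_lit 578) (nat_lit 348)) (XT.lf (nat_lit 0) (nat_lit 935183824) (nat_lit 608) (nat_lit 22401593090) (nat_lit 684) (nat_lit 500308924) (nat_lit 275) (nat_lit 5) (nat_lit 283) (nat_lit 5) (nat_lit 284) (nat_lit 5) (nat_lit 635) (nat_lit 578) (nat_lit 347)))) (XT.nd (nat_lit 156) (nat_lit 532) (nat_lit 0) (XT.nd (nat_lit 78) (nat_lit 608) (nat_lit 0) (XT.lf (nat_lit 0) (nat_lit 3690065879) (nat_lit 684) (nat_lit 9133006306) (nat_lit 76) (nat_lit 11290475651) (nat_lit 274) (nat_lit 5) (nat_lit 283) (nat_lit 5) (nat_lit 275) (nat_lit 5) (nat_lit 636) (nat_lit 578) (nat_lit 346)) (XT.lf (nat_lit 0) (nat_lit 4967766169) (nat_lit 608) (nat_lit 3017880662) (nat_lit 684) (nat_lit 16409264335) (nat_lit 266) (nat_lit 5) (nat_lit 274) (nat_lit 5) (nat_lit 275) (nat_lit 5) (nat_lit 637) (nat_lit 578) (nat_lit 345))) (XT.nd (nat_lit 78) (nat_lit 532) (nat_lit 0) (XT.lf (nat_lit 0) (nat_lit 12470050447) (nat_lit 684) (nat_lit 5257449066) (nat_lit 76)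 (nat_lit 6952344209) (nat_lit 266) (nat_lit 5) (nat_lit 275) (nat_lit 5) (nat_lit 267) (nat_lit 5) (nat_lit 638) (nat_lit 578) (nat_lit 344)) (XT.lf (nat_lit 0) (nat_lit 9292249228) (nat_lit 532) (nat_lit 7828168094) (nat_lit 608) (nat_lit 7848532286) (nat_lit 259) (nat_lit 5) (nat_lit 266) (nat_lit 5) (nat_lit 267) (nat_lit 5) (nat_lit 639) (nat_lit 578) (nat_lit 343))))) (XT.nd (nat_lit 234) (nat_lit 1064) (nat_lit 0) (XT.nd (nat_lit 78) (nat_lit 1140) (nat_lit 0) (XT.lf (nat_lit 0) (nat_lit 21910033194) (nat_lit 608) (nat_lit 1079203330) (nat_lit 76) (nat_lit 2273676429) (nat_lit 259) (nat_lit 5) (nat_lit 267) (nat_lit 5) (nat_lit 260) (nat_lit 5) (nat_lit 640) (nat_lit 578) (nat_lit 342)) (XT.nd (nat_lit 78) (nat_lit 532) (nat_lit 0) (XT.lf (nat_lit 0) (nat_lit 1355832462) (nat_lit 608) (nat_lit 11632941841) (nat_lit 76) (nat_lit 12571035092) (nat_lit 251) (nat_lit 5) (nat_lit 259) (nat_lit 5) (nat_lit 252) (nat_lit 5) (nat_lit 641) (nat_lit 578) (nat_lit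 341)) (XT.lf (nat_lit 0) (nat_lit 3402333436) (nat_lit 532) (nat_lit 2737003570) (nat_lit 608) (nat_lit 19722353413) (nat_lit 244) (nat_lit 5) (nat_lit 251) (nat_lit 5) (nat_lit 252) (nat_lit 5) (nat_lit 642) (nat_lit 578) (nat_lit 340)))) (XT.nd (nat_lit 156) (nat_lit 532) (nat_lit 0) (XT.nd (nat_lit 78) (nat_lit 532) (nat_lit 0) (XT.lf (nat_lit 0) (nat_lit 11143339173) (nat_lit 608) (nat_lit 7327945673) (nat_lit 76) (nat_lit 7695827831) (nat_lit 244) (nat_lit 5) (nat_lit 252) (nat_lit 5) (nat_lit 245) (nat_lit 5) (nat_lit 643) (nat_lit 578) (nat_lit 339)) (XT.lf (nat_lit 0) (nat_lit 8190226833) (nat_lit 532) (nat_lit 8124698074) (nat_lit 608) (nat_lit 10162368559) (nat_lit 237) (nat_lit 5) (nat_lit 244) (nat_lit 5) (nat_lit 245) (nat_lit 5) (nat_lit 644) (nat_lit 578) (nat_lit 338))) (XT.nd (nat_lit 78) (nat_lit 532) (nat_lit 0) (XT.lf (nat_lit 0) (nat_lit 21651445540) (nat_lit 608) (nat_lit 2695884520) (nat_lit 76) (nat_lit 2445117906) (nat_lit 237) (nat_lit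 5) (nat_lit 245) (nat_lit 5) (nat_lit 238) (nat_lit 5) (nat_lit 645) (nat_lit 578) (nat_lit 337)) (XT.lf (nat_lit 0) (nat_lit 118562471) (nat_lit 532) (nat_lit 13788993339) (nat_lit 76) (nat_lit 13203601999) (nat_lit 230) (nat_lit 5) (nat_lit 237) (nat_lit 5) (nat_lit 231) (nat_lit 5) (nat_lit 646) (nat_lit 578) (nat_lit 336)))))) (XT.nd (nat_lit 546) (nat_lit 2204) (nat_lit 0) (XT.nd (nat_lit 234) (nat_lit 988) (nat_lit 0) (XT.nd (nat_lit 78) (nat_lit 456) (nat_lit 0) (XT.lf (nat_lit 0) (nat_lit 2251496674) (nat_lit 532) (nat_lit 3192199871) (nat_lit 608) (nat_lit 21991281493) (nat_lit 223) (nat_lit 5) (nat_lit 230) (nat_lit 5) (nat_lit 231) (nat_lit 5) (nat_lit 647) (nat_lit 578) (nat_lit 335)) (XT.nd (nat_lit 78) (nat_lit 456) (nat_lit 0) (XT.lf (nat_lit 0) (nat_lit 11015066856) (nat_lit 608) (nat_lit 9019697447) (nat_lit 76) (nat_lit 7727715842) (nat_lit 223) (nat_lit 5) (nat_lit 231) (nat_lit 5) (nat_lit 224) (nat_lit 5) (nat_lit 648) (nat_lit 578) (nat_lit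 334)) (XT.lf (nat_lit 0) (nat_lit 7540078103) (nat_lit 456) (nat_lit 9224306191) (nat_lit 532) (nat_lit 11330817748) (nat_lit 217) (nat_lit 5) (nat_lit 223) (nat_lit 5) (nat_lit 224) (nat_lit 5) (nat_lit 649) (nat_lit 578) (nat_lit 333)))) (XT.nd (nat_lit 156) (nat_lit 456) (nat_lit 0) (XT.nd (nat_lit 78) (nat_lit 532) (nat_lit 0) (XT.lf (nat_lit 0) (nat_lit 22697770259) (nat_lit 532) (nat_lit 3897218693) (nat_lit 76) (nat_lit 1838207920) (nat_lit 217) (nat_lit 5) (nat_lit 224) (nat_lit 5) (nat_lit 218) (nat_lit 5) (nat_lit 650) (nat_lit 578) (nat_lit 332)) (XT.lf (nat_lit 0) (nat_lit 116509394) (nat_lit 532) (nat_lit 15574924979) (nat_lit 76) (nat_lit 13083635649) (nat_lit 210) (nat_lit 5) (nat_lit 217) (nat_lit 5) (nat_lit 211) (nat_lit 5) (nat_lit 651) (nat_lit 578) (nat_lit 331))) (XT.nd (nat_lit 78) (nat_lit 0) (nat_lit 0) (XT.lf (nat_lit 0) (nat_lit 1546172759) (nat_lit 456) (nat_lit 4495485278) (nat_lit 532) (nat_lit 23080705079) (nat_lit 204) (nat_lit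 5) (nat_lit 210) (nat_lit 5) (nat_lit 211) (nat_lit 5) (nat_lit 652) (nat_lit 578) (nat_lit 330)) (XT.lf (nat_lit 0) (nat_lit 12232036583) (nat_lit 532) (nat_lit 10304348799) (nat_lit 76) (nat_lit 6937282280) (nat_lit 204) (nat_lit 5) (nat_lit 211) (nat_lit 5) (nat_lit 205) (nat_lit 5) (nat_lit 653) (nat_lit 578) (nat_lit 329))))) (XT.nd (nat_lit 312) (nat_lit 836) (nat_lit 0) (XT.nd (nat_lit 156) (nat_lit 912) (nat_lit 0) (XT.nd (nat_lit 78) (nat_lit 0) (nat_lit 0) (XT.lf (nat_lit 0) (nat_lit 7374978550) (nat_lit 456) (nat_lit 11245527399) (nat_lit 532) (nat_lit 11210006810) (nat_lit 198) (nat_lit 5) (nat_lit 204) (nat_lit 5) (nat_lit 205) (nat_lit 5) (nat_lit 654) (nat_lit 578) (nat_lit 328)) (XT.lf (nat_lit 0) (nat_lit 25204763794) (nat_lit 532) (nat_lit 4652688024) (nat_lit 76) (nat_lit 335682683) (nat_lit 198) (nat_lit 5) (nat_lit 205) (nat_lit 5) (nat_lit 199) (nat_lit 5) (nat_lit 655) (nat_lit 578) (nat_lit 327))) (XT.nd (nat_lit 78) (nat_lit 456) (nat_lit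 0) (XT.lf (nat_lit 0) (nat_lit 1500475349) (nat_lit 456) (nat_lit 16964343630) (nat_lit 76) (nat_lit 12094801842) (nat_lit 192) (nat_lit 5) (nat_lit 198) (nat_lit 5) (nat_lit 193) (nat_lit 5) (nat_lit 656) (nat_lit 578) (nat_lit 326)) (XT.lf (nat_lit 0) (nat_lit 1317653048) (nat_lit 456) (nat_lit 6771427520) (nat_lit 532) (nat_lit 22842961421) (nat_lit 186) (nat_lit 5) (nat_lit 192) (nat_lit 5) (nat_lit 193) (nat_lit 5) (nat_lit 657) (nat_lit 578) (nat_lit 325)))) (XT.nd (nat_lit 156) (nat_lit 456) (nat_lit 0) (XT.nd (nat_lit 78) (nat_lit 380) (nat_lit 0) (XT.lf (nat_lit 0) (nat_lit 14954279455) (nat_lit 532) (nat_lit 11153484298) (nat_lit 76) (nat_lit 5201251510) (nat_lit 186) (nat_lit 5) (nat_lit 193) (nat_lit 5) (nat_lit 187) (nat_lit 5) (nat_lit 658) (nat_lit 578) (nat_lit 324)) (XT.lf (nat_lit 0) (nat_lit 7728382766) (nat_lit 380) (nat_lit 14320237803) (nat_lit 456) (nat_lit 9643070781) (nat_lit 181) (nat_lit 5) (nat_lit 186) (nat_lit 5) (nat_lit 187)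 (nat_lit 5) (nat_lit 659) (nat_lit 578) (nat_lit 323))) (XT.nd (nat_lit 78) (nat_lit 456) (nat_lit 0) (XT.lf (nat_lit 0) (nat_lit 27134336066) (nat_lit 380) (nat_lit 2222206412) (nat_lit 456) (nat_lit 2724044712) (nat_lit 181) (nat_lit 5) (nat_lit 186) (nat_lit 5) (nat_lit 187) (nat_lit 5) (nat_lit 660) (nat_lit 578) (nat_lit 322)) (XT.lf (nat_lit 0) (nat_lit 4434771558) (nat_lit 456) (nat_lit 17931422730) (nat_lit 76) (nat_lit 10107339211) (nat_lit 175) (nat_lit 5) (nat_lit 181) (nat_lit 5) (nat_lit 176) (nat_lit 5) (nat_lit 661) (nat_lit 578) (nat_lit 321))))))))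
noncomputable def xc187 : XT := (XT.nd (nat_lit 76128) (nat_lit 0) (nat_lit 14136) (XT.nd (nat_lit 74958) (nat_lit 0) (nat_lit 25764) (XT.nd (nat_lit 546) (nat_lit 1064) (nat_lit 0) (XT.nd (nat_lit 234) (nat_lit 836) (nat_lit 0) (XT.nd (nat_lit 78) (nat_lit 380) (nat_lit 0) (XT.lf (nat_lit 0) (nat_lit 1596870897) (nat_lit 380) (nat_lit 10158858664) (nat_lit 456) (nat_lit 21117140351) (nat_lit 170) (nat_lit 5) (nat_lit 175) (nat_lit 5) (nat_lit 176) (nat_lit 5) (nat_lit 662) (nat_lit 578) (nat_lit 320)) (XT.nd (nat_lit 78) (nat_lit 380) (nat_lit 0) (XT.lf (nat_lit 0) (nat_lit 19356047801) (nat_lit 456) (nat_lit 11539401497) (nat_lit 76) (nat_lit 2382085034) (nat_lit 170) (nat_lit 5) (nat_lit 176) (nat_lit 5) (nat_lit 171) (nat_lit 5) (nat_lit 663) (nat_lit 578) (nat_lit 319)) (XT.lf (nat_lit 0) (nat_lit 8633241527) (nat_lit 380) (nat_lit 18595450698) (nat_lit 456) (nat_lit 6459193520) (nat_lit 165) (nat_lit 5) (nat_lit 170) (nat_lit 5) (nat_lit 171) (nat_lit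 5) (nat_lit 664) (nat_lit 578) (nat_lit 318)))) (XT.nd (nat_lit 156) (nat_lit 380) (nat_lit 0) (XT.nd (nat_lit 78) (nat_lit 380) (nat_lit 0) (XT.lf (nat_lit 0) (nat_lit 1212179574) (nat_lit 456) (nat_lit 4751778272) (nat_lit 76) (nat_lit 28140837849) (nat_lit 164) (nat_lit 5) (nat_lit 170) (nat_lit 5) (nat_lit 165) (nat_lit 5) (nat_lit 665) (nat_lit 578) (nat_lit 317)) (XT.lf (nat_lit 0) (nat_lit 9098196510) (nat_lit 456) (nat_lit 18451802360) (nat_lit 76) (nat_lit 6976237064) (nat_lit 159) (nat_lit 5) (nat_lit 165) (nat_lit 5) (nat_lit 160) (nat_lit 5) (nat_lit 666) (nat_lit 578) (nat_lit 316))) (XT.nd (nat_lit 78) (nat_lit 0) (nat_lit 0) (XT.lf (nat_lit 0) (nat_lit 2413487677) (nat_lit 380) (nat_lit 14812786443) (nat_lit 456) (nat_lit 17728144142) (nat_lit 154) (nat_lit 5) (nat_lit 159) (nat_lit 5) (nat_lit 160) (nat_lit 5) (nat_lit 667) (nat_lit 578) (nat_lit 315)) (XT.lf (nat_lit 0) (nat_lit 23941660543) (nat_lit 380) (nat_lit 1696177751) (nat_lit 456)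 (nat_lit 9750907533) (nat_lit 154) (nat_lit 5) (nat_lit 159) (nat_lit 5) (nat_lit 160) (nat_lit 5) (nat_lit 668) (nat_lit 578) (nat_lit 314))))) (XT.nd (nat_lit 234) (nat_lit 304) (nat_lit 0) (XT.nd (nat_lit 78) (nat_lit 456) (nat_lit 0) (XT.lf (nat_lit 0) (nat_lit 10121024376) (nat_lit 304) (nat_lit 24235324047) (nat_lit 380) (nat_lit 1472637315) (nat_lit 150) (nat_lit 5) (nat_lit 154) (nat_lit 5) (nat_lit 155) (nat_lit 5) (nat_lit 669) (nat_lit 578) (nat_lit 313)) (XT.nd (nat_lit 78) (nat_lit 380) (nat_lit 0) (XT.lf (nat_lit 0) (nat_lit 6965485535) (nat_lit 380) (nat_lit 4062340571) (nat_lit 76) (nat_lit 25247584877) (nat_lit 149) (nat_lit 5) (nat_lit 154) (nat_lit 5) (nat_lit 150) (nat_lit 5) (nat_lit 670) (nat_lit 578) (nat_lit 312)) (XT.lf (nat_lit 0) (nat_lit 15685024061) (nat_lit 456) (nat_lit 18503703801) (nat_lit 76) (nat_lit 2539194835) (nat_lit 144) (nat_lit 5) (nat_lit 150) (nat_lit 5) (nat_lit 145) (nat_lit 5) (nat_lit 671) (nat_lit 578) (nat_lit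 311)))) (XT.nd (nat_lit 74022) (nat_lit 0) (nat_lit 27056) (XT.nd (nat_lit 73944) (nat_lit 0) (nat_lit 27056) (XT.lf (nat_lit 0) (nat_lit 3794757805) (nat_lit 304) (nat_lit 20906535941) (nat_lit 380) (nat_lit 12485744173) (nat_lit 140) (nat_lit 5) (nat_lit 144) (nat_lit 5) (nat_lit 145) (nat_lit 5) (nat_lit 672) (nat_lit 578) (nat_lit 310)) (XT.lf (nat_lit 0) (nat_lit 697511179) (nat_lit 0) (nat_lit 697511179) (nat_lit 1748) (nat_lit 5266431036) (nat_lit 496) (nat_lit 5) (nat_lit 496) (nat_lit 3) (nat_lit 519) (nat_lit 3) (nat_lit 579) (nat_lit 579) (nat_lit 402))) (XT.nd (nat_lit 78) (nat_lit 0) (nat_lit 0) (XT.lf (nat_lit 0) (nat_lit 3232924459) (nat_lit 1748) (nat_lit 5348859723) (nat_lit 1824) (nat_lit 4866028242) (nat_lit 496) (nat_lit 5) (nat_lit 519) (nat_lit 3) (nat_lit 520) (nat_lit 5) (nat_lit 580) (nat_lit 579) (nat_lit 401)) (XT.lf (nat_lit 76) (nat_lit 1365154355) (nat_lit 0) (nat_lit 2327596760) (nat_lit 1824) (nat_lit 9882303895) (nat_lit 497)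 (nat_lit 5) (nat_lit 496) (nat_lit 5) (nat_lit 520) (nat_lit 5) (nat_lit 581) (nat_lit 579) (nat_lit 400)))))) (XT.nd (nat_lit 546) (nat_lit 1368) (nat_lit 0) (XT.nd (nat_lit 234) (nat_lit 0) (nat_lit 76) (XT.nd (nat_lit 78) (nat_lit 0) (nat_lit 0) (XT.lf (nat_lit 0) (nat_lit 4214391579) (nat_lit 1748) (nat_lit 5450164414) (nat_lit 1824) (nat_lit 4039234721) (nat_lit 497) (nat_lit 5) (nat_lit 520) (nat_lit 5) (nat_lit 521) (nat_lit 5) (nat_lit 582) (nat_lit 579) (nat_lit 399)) (XT.nd (nat_lit 78) (nat_lit 0) (nat_lit 76) (XT.lf (nat_lit 76) (nat_lit 1442933299) (nat_lit 0) (nat_lit 3318686881) (nat_lit 1824) (nat_lit 9073178448) (nat_lit 498) (nat_lit 5) (nat_lit 497) (nat_lit 5) (nat_lit 521) (nat_lit 5) (nat_lit 583) (nat_lit 579) (nat_lit 398)) (XT.lf (nat_lit 0) (nat_lit 5367641203) (nat_lit 1748) (nat_lit 5446169549) (nat_lit 1824) (nat_lit 3153659580) (nat_lit 498) (nat_lit 5) (nat_lit 521) (nat_lit 5) (nat_lit 522) (nat_lit 5) (nat_lit 584) (nat_lit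 579) (nat_lit 397)))) (XT.nd (nat_lit 156) (nat_lit 0) (nat_lit 76) (XT.nd (nat_lit 78) (nat_lit 0) (nat_lit 76) (XT.lf (nat_lit 76) (nat_lit 1632455381) (nat_lit 0) (nat_lit 4376643189) (nat_lit 1824) (nat_lit 8093231160) (nat_lit 499) (nat_lit 5) (nat_lit 498) (nat_lit 5) (nat_lit 522) (nat_lit 5) (nat_lit 585) (nat_lit 579) (nat_lit 396)) (XT.lf (nat_lit 0) (nat_lit 6705297737) (nat_lit 1748) (nat_lit 5332722629) (nat_lit 1824) (nat_lit 2201028263) (nat_lit 499) (nat_lit 5) (nat_lit 522) (nat_lit 5) (nat_lit 523) (nat_lit 5) (nat_lit 586) (nat_lit 579) (nat_lit 395))) (XT.nd (nat_lit 78) (nat_lit 0) (nat_lit 76) (XT.lf (nat_lit 76) (nat_lit 1938128090) (nat_lit 0) (nat_lit 5509948818) (nat_lit 1824) (nat_lit 6929772434) (nat_lit 500) (nat_lit 5) (nat_lit 499) (nat_lit 5) (nat_lit 523) (nat_lit 5) (nat_lit 587) (nat_lit 579) (nat_lit 394)) (XT.lf (nat_lit 0) (nat_lit 8240441094) (nat_lit 1748) (nat_lit 5105363200) (nat_lit 1824) (nat_lit 1172927730) (nat_lit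 500) (nat_lit 5) (nat_lit 523) (nat_lit 5) (nat_lit 524) (nat_lit 5) (nat_lit 588) (nat_lit 579) (nat_lit 393))))) (XT.nd (nat_lit 312) (nat_lit 1596) (nat_lit 0) (XT.nd (nat_lit 156) (nat_lit 0) (nat_lit 76) (XT.nd (nat_lit 78) (nat_lit 0) (nat_lit 76) (XT.lf (nat_lit 76) (nat_lit 2364675911) (nat_lit 0) (nat_lit 6727240058) (nat_lit 1824) (nat_lit 5569651658) (nat_lit 501) (nat_lit 5) (nat_lit 500) (nat_lit 5) (nat_lit 524) (nat_lit 5) (nat_lit 589) (nat_lit 579) (nat_lit 392)) (XT.lf (nat_lit 0) (nat_lit 9986633116) (nat_lit 1748) (nat_lit 4759316915) (nat_lit 1824) (nat_lit 60786177) (nat_lit 501) (nat_lit 5) (nat_lit 524) (nat_lit 5) (nat_lit 525) (nat_lit 5) (nat_lit 590) (nat_lit 579) (nat_lit 391))) (XT.nd (nat_lit 78) (nat_lit 0) (nat_lit 0) (XT.lf (nat_lit 76) (nat_lit 2917146651) (nat_lit 0) (nat_lit 8037326881) (nat_lit 1824) (nat_lit 3999230565) (nat_lit 502) (nat_lit 5) (nat_lit 501) (nat_lit 5) (nat_lit 525) (nat_lit 5) (nat_lit 591) (nat_lit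 579) (nat_lit 390)) (XT.lf (nat_lit 76) (nat_lit 10806119555) (nat_lit 0) (nat_lit 1159352417) (nat_lit 1824) (nat_lit 3137663849) (nat_lit 502) (nat_lit 5) (nat_lit 501) (nat_lit 5) (nat_lit 525) (nat_lit 5) (nat_lit 592) (nat_lit 579) (nat_lit 389)))) (XT.nd (nat_lit 156) (nat_lit 1748) (nat_lit 0) (XT.nd (nat_lit 78) (nat_lit 0) (nat_lit 0) (XT.lf (nat_lit 76) (nat_lit 3600918396) (nat_lit 0) (nat_lit 9449213550) (nat_lit 1824) (nat_lit 2204355898) (nat_lit 503) (nat_lit 5) (nat_lit 502) (nat_lit 5) (nat_lit 526) (nat_lit 5) (nat_lit 593) (nat_lit 579) (nat_lit 388)) (XT.lf (nat_lit 76) (nat_lit 11701714109) (nat_lit 0) (nat_lit 2483393315) (nat_lit 1824) (nat_lit 1223187518) (nat_lit 503) (nat_lit 5) (nat_lit 502) (nat_lit 5) (nat_lit 526) (nat_lit 5) (nat_lit 594) (nat_lit 579) (nat_lit 387))) (XT.nd (nat_lit 78) (nat_lit 1824) (nat_lit 0) (XT.lf (nat_lit 76) (nat_lit 4421707079) (nat_lit 0) (nat_lit 10972119374) (nat_lit 1824) (nat_lit 170331324) (nat_lit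 504) (nat_lit 5) (nat_lit 503) (nat_lit 5) (nat_lit 527) (nat_lit 5) (nat_lit 595) (nat_lit 579) (nat_lit 386)) (XT.lf (nat_lit 0) (nat_lit 925607102) (nat_lit 1824) (nat_lit 2988002765) (nat_lit 1900) (nat_lit 11808733609) (nat_lit 479) (nat_lit 5) (nat_lit 503) (nat_lit 5) (nat_lit 504) (nat_lit 5) (nat_lit 596) (nat_lit 579) (nat_lit 385))))))) (XT.nd (nat_lit 1170) (nat_lit 7144) (nat_lit 0) (XT.nd (nat_lit 546) (nat_lit 4560) (nat_lit 0) (XT.nd (nat_lit 234) (nat_lit 0) (nat_lit 76) (XT.nd (nat_lit 78) (nat_lit 0) (nat_lit 0) (XT.lf (nat_lit 0) (nat_lit 2090332034) (nat_lit 1824) (nat_lit 10511140383) (nat_lit 1900) (nat_lit 3281215431) (nat_lit 480) (nat_lit 5) (nat_lit 504) (nat_lit 5) (nat_lit 505) (nat_lit 5) (nat_lit 597) (nat_lit 579) (nat_lit 384)) (XT.nd (nat_lit 78) (nat_lit 0) (nat_lit 76) (XT.lf (nat_lit 0) (nat_lit 3317116082) (nat_lit 1824) (nat_lit 2138796966) (nat_lit 1900) (nat_lit 10589551205) (nat_lit 480) (nat_lit 5) (nat_lit 504) (nat_lit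 5) (nat_lit 505) (nat_lit 5) (nat_lit 598) (nat_lit 579) (nat_lit 383)) (XT.lf (nat_lit 0) (nat_lit 4615504766) (nat_lit 1824) (nat_lit 9742589582) (nat_lit 1900) (nat_lit 1852460888) (nat_lit 481) (nat_lit 5) (nat_lit 505) (nat_lit 5) (nat_lit 506) (nat_lit 5) (nat_lit 599) (nat_lit 579) (nat_lit 382)))) (XT.nd (nat_lit 156) (nat_lit 0) (nat_lit 76) (XT.nd (nat_lit 78) (nat_lit 0) (nat_lit 76) (XT.lf (nat_lit 0) (nat_lit 5983362260) (nat_lit 1824) (nat_lit 1144736074) (nat_lit 1900) (nat_lit 9249980106) (nat_lit 481) (nat_lit 5) (nat_lit 505) (nat_lit 5) (nat_lit 506) (nat_lit 5) (nat_lit 600) (nat_lit 579) (nat_lit 381)) (XT.lf (nat_lit 0) (nat_lit 7423706680) (nat_lit 1824) (nat_lit 8829288291) (nat_lit 1900) (nat_lit 295054954) (nat_lit 482) (nat_lit 5) (nat_lit 506) (nat_lit 5) (nat_lit 507) (nat_lit 5) (nat_lit 601) (nat_lit 579) (nat_lit 380))) (XT.nd (nat_lit 78) (nat_lit 0) (nat_lit 0) (XT.lf (nat_lit 76) (nat_lit 832837) (nat_lit 0) (nat_lit 8940137953)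 (nat_lit 1900) (nat_lit 7779488198) (nat_lit 483) (nat_lit 5) (nat_lit 482) (nat_lit 5) (nat_lit 507) (nat_lit 5) (nat_lit 602) (nat_lit 579) (nat_lit 379)) (XT.lf (nat_lit 76) (nat_lit 9121576664) (nat_lit 0) (nat_lit 1419518661) (nat_lit 1900) (nat_lit 6354171002) (nat_lit 483) (nat_lit 5) (nat_lit 482) (nat_lit 5) (nat_lit 507) (nat_lit 5) (nat_lit 603) (nat_lit 579) (nat_lit 378))))) (XT.nd (nat_lit 312) (nat_lit 1824) (nat_lit 0) (XT.nd (nat_lit 156) (nat_lit 1140) (nat_lit 0) (XT.nd (nat_lit 78) (nat_lit 0) (nat_lit 0) (XT.lf (nat_lit 0) (nat_lit 1322226565) (nat_lit 1824) (nat_lit 10893574351) (nat_lit 1900) (nat_lit 4856917713) (nat_lit 459) (nat_lit 5) (nat_lit 483) (nat_lit 5) (nat_lit 484) (nat_lit 5) (nat_lit 604) (nat_lit 579) (nat_lit 377)) (XT.lf (nat_lit 0) (nat_lit 10690255996) (nat_lit 1824) (nat_lit 3288746546) (nat_lit 1900) (nat_lit 3273617778) (nat_lit 459) (nat_lit 5) (nat_lit 483) (nat_lit 5) (nat_lit 484) (nat_lit 5) (nat_lit 605)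 (nat_lit 579) (nat_lit 376))) (XT.nd (nat_lit 78) (nat_lit 76) (nat_lit 0) (XT.lf (nat_lit 0) (nat_lit 2811715515) (nat_lit 1064) (nat_lit 13006648922) (nat_lit 1140) (nat_lit 1616938059) (nat_lit 445) (nat_lit 5) (nat_lit 459) (nat_lit 5) (nat_lit 460) (nat_lit 5) (nat_lit 606) (nat_lit 579) (nat_lit 375)) (XT.lf (nat_lit 0) (nat_lit 131704477) (nat_lit 1140) (nat_lit 5186793899) (nat_lit 76) (nat_lit 12301935135) (nat_lit 444) (nat_lit 5) (nat_lit 459) (nat_lit 5) (nat_lit 445) (nat_lit 5) (nat_lit 607) (nat_lit 579) (nat_lit 374)))) (XT.nd (nat_lit 156) (nat_lit 912) (nat_lit 0) (XT.nd (nat_lit 78) (nat_lit 0) (nat_lit 0) (XT.lf (nat_lit 0) (nat_lit 1933235893) (nat_lit 988) (nat_lit 13344059164) (nat_lit 76) (nat_lit 2530967345) (nat_lit 432) (nat_lit 5) (nat_lit 445) (nat_lit 5) (nat_lit 433) (nat_lit 5) (nat_lit 608) (nat_lit 579) (nat_lit 373)) (XT.lf (nat_lit 0) (nat_lit 3834945921) (nat_lit 988) (nat_lit 3661775698) (nat_lit 76) (nat_lit 10501843637)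 (nat_lit 432) (nat_lit 5) (nat_lit 445) (nat_lit 5) (nat_lit 433) (nat_lit 5) (nat_lit 609) (nat_lit 579) (nat_lit 372))) (XT.nd (nat_lit 78) (nat_lit 0) (nat_lit 0) (XT.lf (nat_lit 0) (nat_lit 5812671706) (nat_lit 988) (nat_lit 11904030314) (nat_lit 76) (nat_lit 475212855) (nat_lit 420) (nat_lit 5) (nat_lit 433) (nat_lit 5) (nat_lit 421) (nat_lit 5) (nat_lit 610) (nat_lit 579) (nat_lit 371)) (XT.lf (nat_lit 0) (nat_lit 7898427415) (nat_lit 988) (nat_lit 1957948152) (nat_lit 76) (nat_lit 8531386744) (nat_lit 420) (nat_lit 5) (nat_lit 433) (nat_lit 5) (nat_lit 421) (nat_lit 5) (nat_lit 611) (nat_lit 579) (nat_lit 370)))))) (XT.nd (nat_lit 546) (nat_lit 3724) (nat_lit 0) (XT.nd (nat_lit 234) (nat_lit 1748) (nat_lit 0) (XT.nd (nat_lit 78) (nat_lit 836) (nat_lit 0) (XT.lf (nat_lit 0) (nat_lit 8290222055) (nat_lit 836) (nat_lit 1783710698) (nat_lit 912) (nat_lit 8512633578) (nat_lit 409) (nat_lit 5) (nat_lit 420) (nat_lit 5) (nat_lit 421) (nat_lit 5) (nat_lit 612)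 (nat_lit 579) (nat_lit 369)) (XT.nd (nat_lit 78) (nat_lit 836) (nat_lit 0) (XT.lf (nat_lit 0) (nat_lit 12342342196) (nat_lit 912) (nat_lit 66795396) (nat_lit 76) (nat_lit 6379221276) (nat_lit 409) (nat_lit 5) (nat_lit 421) (nat_lit 5) (nat_lit 410) (nat_lit 5) (nat_lit 613) (nat_lit 579) (nat_lit 368)) (XT.lf (nat_lit 0) (nat_lit 10487547906) (nat_lit 836) (nat_lit 4242876497) (nat_lit 912) (nat_lit 4262277076) (nat_lit 398) (nat_lit 5) (nat_lit 409) (nat_lit 5) (nat_lit 410) (nat_lit 5) (nat_lit 614) (nat_lit 579) (nat_lit 367)))) (XT.nd (nat_lit 156) (nat_lit 836) (nat_lit 0) (XT.nd (nat_lit 78) (nat_lit 76) (nat_lit 0) (XT.lf (nat_lit 0) (nat_lit 2047473273) (nat_lit 836) (nat_lit 15153547522) (nat_lit 912) (nat_lit 1999415403) (nat_lit 387) (nat_lit 5) (nat_lit 398) (nat_lit 5) (nat_lit 399) (nat_lit 5) (nat_lit 615) (nat_lit 579) (nat_lit 366)) (XT.lf (nat_lit 0) (nat_lit 384715293) (nat_lit 912) (nat_lit 6520863695) (nat_lit 76) (nat_lit 12505105622)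 (nat_lit 386) (nat_lit 5) (nat_lit 398) (nat_lit 5) (nat_lit 387) (nat_lit 5) (nat_lit 616) (nat_lit 579) (nat_lit 365))) (XT.nd (nat_lit 78) (nat_lit 0) (nat_lit 0) (XT.lf (nat_lit 0) (nat_lit 2822783120) (nat_lit 912) (nat_lit 15272157110) (nat_lit 76) (nat_lit 1529273193) (nat_lit 375) (nat_lit 5) (nat_lit 387) (nat_lit 5) (nat_lit 376) (nat_lit 5) (nat_lit 617) (nat_lit 579) (nat_lit 364)) (XT.lf (nat_lit 0) (nat_lit 5394079110) (nat_lit 912) (nat_lit 4361932379) (nat_lit 76) (nat_lit 10084312269) (nat_lit 375) (nat_lit 5) (nat_lit 387) (nat_lit 5) (nat_lit 376) (nat_lit 5) (nat_lit 618) (nat_lit 579) (nat_lit 363))))) (XT.nd (nat_lit 312) (nat_lit 1520) (nat_lit 0) (XT.nd (nat_lit 156) (nat_lit 1444) (nat_lit 0) (XT.nd (nat_lit 78) (nat_lit 0) (nat_lit 0) (XT.lf (nat_lit 0) (nat_lit 6850857486) (nat_lit 760) (nat_lit 1205214314) (nat_lit 836) (nat_lit 12003899364) (nat_lit 365) (nat_lit 5) (nat_lit 375) (nat_lit 5) (nat_lit 376) (nat_lit 5) (nat_lit 619)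 (nat_lit 579) (nat_lit 362)) (XT.lf (nat_lit 0) (nat_lit 10844426989) (nat_lit 836) (nat_lit 1990946984) (nat_lit 76) (nat_lit 7447175363) (nat_lit 365) (nat_lit 5) (nat_lit 376) (nat_lit 5) (nat_lit 366) (nat_lit 5) (nat_lit 620) (nat_lit 579) (nat_lit 361))) (XT.nd (nat_lit 78) (nat_lit 684) (nat_lit 0) (XT.lf (nat_lit 0) (nat_lit 9563583945) (nat_lit 760) (nat_lit 4189996088) (nat_lit 836) (nat_lit 6754698691) (nat_lit 355) (nat_lit 5) (nat_lit 365) (nat_lit 5) (nat_lit 366) (nat_lit 5) (nat_lit 621) (nat_lit 579) (nat_lit 360)) (XT.lf (nat_lit 0) (nat_lit 610296638) (nat_lit 684) (nat_lit 16153097714) (nat_lit 760) (nat_lit 3974279046) (nat_lit 346) (nat_lit 5) (nat_lit 355) (nat_lit 5) (nat_lit 356) (nat_lit 5) (nat_lit 622) (nat_lit 579) (nat_lit 359)))) (XT.nd (nat_lit 156) (nat_lit 684) (nat_lit 0) (XT.nd (nat_lit 78) (nat_lit 836) (nat_lit 0) (XT.lf (nat_lit 0) (nat_lit 12511158335) (nat_lit 684) (nat_lit 7418336288) (nat_lit 760) (nat_lit 1040239803)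 (nat_lit 346) (nat_lit 5) (nat_lit 355) (nat_lit 5) (nat_lit 356) (nat_lit 5) (nat_lit 623) (nat_lit 579) (nat_lit 358)) (XT.lf (nat_lit 0) (nat_lit 1954463608) (nat_lit 836) (nat_lit 17744722005) (nat_lit 76) (nat_lit 1506445965) (nat_lit 335) (nat_lit 5) (nat_lit 346) (nat_lit 5) (nat_lit 336) (nat_lit 5) (nat_lit 624) (nat_lit 579) (nat_lit 357))) (XT.nd (nat_lit 78) (nat_lit 684) (nat_lit 0) (XT.lf (nat_lit 0) (nat_lit 5096610626) (nat_lit 836) (nat_lit 5773546018) (nat_lit 76) (nat_lit 10573923182) (nat_lit 335) (nat_lit 5) (nat_lit 346) (nat_lit 5) (nat_lit 336) (nat_lit 5) (nat_lit 625) (nat_lit 579) (nat_lit 356)) (XT.lf (nat_lit 0) (nat_lit 6517149834) (nat_lit 684) (nat_lit 1822058403) (nat_lit 760) (nat_lit 13347336888) (nat_lit 326) (nat_lit 5) (nat_lit 335) (nat_lit 5) (nat_lit 336) (nat_lit 5) (nat_lit 626) (nat_lit 579) (nat_lit 355))))))))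
noncomputable def xc188 : XT := (XT.nd (nat_lit 2262) (nat_lit 4104) (nat_lit 0) (XT.nd (nat_lit 1092) (nat_lit 4636) (nat_lit 0) (XT.nd (nat_lit 546) (nat_lit 2432) (nat_lit 0) (XT.nd (nat_lit 234) (nat_lit 1368) (nat_lit 0) (XT.nd (nat_lit 78) (nat_lit 1292) (nat_lit 0) (XT.lf (nat_lit 0) (nat_lit 11729096163) (nat_lit 760) (nat_lit 2854941634) (nat_lit 76) (nat_lit 7348173397) (nat_lit 326) (nat_lit 5) (nat_lit 336) (nat_lit 5) (nat_lit 327) (nat_lit 5) (nat_lit 627) (nat_lit 579) (nat_lit 354)) (XT.nd (nat_lit 78) (nat_lit 608) (nat_lit 0) (XT.lf (nat_lit 0) (nat_lit 9817164273) (nat_lit 684) (nat_lit 5440862043) (nat_lit 760) (nat_lit 6923339607) (nat_lit 317) (nat_lit 5) (nat_lit 326) (nat_lit 5) (nat_lit 327) (nat_lit 5) (nat_lit 628) (nat_lit 579) (nat_lit 353)) (XT.lf (nat_lit 0) (nat_lit 319758535) (nat_lit 608) (nat_lit 18579851146) (nat_lit 684) (nat_lit 3535052797) (nat_lit 309) (nat_lit 5) (nat_lit 317) (nat_lit 5) (nat_lit 318) (nat_lit 5) (nat_lit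 629) (nat_lit 579) (nat_lit 352)))) (XT.nd (nat_lit 156) (nat_lit 608) (nat_lit 0) (XT.nd (nat_lit 78) (nat_lit 684) (nat_lit 0) (XT.lf (nat_lit 0) (nat_lit 37100224) (nat_lit 684) (nat_lit 9307835203) (nat_lit 76) (nat_lit 13345798722) (nat_lit 308) (nat_lit 5) (nat_lit 317) (nat_lit 5) (nat_lit 309) (nat_lit 5) (nat_lit 630) (nat_lit 579) (nat_lit 351)) (XT.lf (nat_lit 0) (nat_lit 3654320632) (nat_lit 760) (nat_lit 19175656864) (nat_lit 76) (nat_lit 121063461) (nat_lit 299) (nat_lit 5) (nat_lit 309) (nat_lit 5) (nat_lit 300) (nat_lit 5) (nat_lit 631) (nat_lit 579) (nat_lit 350))) (XT.nd (nat_lit 78) (nat_lit 608) (nat_lit 0) (XT.lf (nat_lit 0) (nat_lit 7464293164) (nat_lit 760) (nat_lit 6036506785) (nat_lit 76) (nat_lit 9713346004) (nat_lit 299) (nat_lit 5) (nat_lit 309) (nat_lit 5) (nat_lit 300) (nat_lit 5) (nat_lit 632) (nat_lit 579) (nat_lit 349)) (XT.lf (nat_lit 0) (nat_lit 7458004671) (nat_lit 608) (nat_lit 3936614757) (nat_lit 684) (nat_lit 12087010737)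 (nat_lit 291) (nat_lit 5) (nat_lit 299) (nat_lit 5) (nat_lit 300) (nat_lit 5) (nat_lit 633) (nat_lit 579) (nat_lit 348))))) (XT.nd (nat_lit 234) (nat_lit 1216) (nat_lit 0) (XT.nd (nat_lit 78) (nat_lit 1216) (nat_lit 0) (XT.lf (nat_lit 0) (nat_lit 15477883998) (nat_lit 684) (nat_lit 2492747672) (nat_lit 76) (nat_lit 5782345955) (nat_lit 291) (nat_lit 5) (nat_lit 300) (nat_lit 5) (nat_lit 292) (nat_lit 5) (nat_lit 634) (nat_lit 579) (nat_lit 347)) (XT.nd (nat_lit 78) (nat_lit 608) (nat_lit 0) (XT.lf (nat_lit 0) (nat_lit 11427374540) (nat_lit 608) (nat_lit 8311562058) (nat_lit 684) (nat_lit 4288893175) (nat_lit 283) (nat_lit 5) (nat_lit 291) (nat_lit 5) (nat_lit 292) (nat_lit 5) (nat_lit 635) (nat_lit 579) (nat_lit 346)) (XT.lf (nat_lit 0) (nat_lit 1354276090) (nat_lit 608) (nat_lit 22762468003) (nat_lit 684) (nat_lit 190804385) (nat_lit 275) (nat_lit 5) (nat_lit 283) (nat_lit 5) (nat_lit 284) (nat_lit 5) (nat_lit 636) (nat_lit 579) (nat_lit 345)))) (XT.nd (nat_lit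 156) (nat_lit 532) (nat_lit 0) (XT.nd (nat_lit 78) (nat_lit 608) (nat_lit 0) (XT.lf (nat_lit 0) (nat_lit 4073004723) (nat_lit 684) (nat_lit 8919006442) (nat_lit 76) (nat_lit 11597610996) (nat_lit 274) (nat_lit 5) (nat_lit 283) (nat_lit 5) (nat_lit 275) (nat_lit 5) (nat_lit 637) (nat_lit 579) (nat_lit 344)) (XT.lf (nat_lit 0) (nat_lit 5461171877) (nat_lit 608) (nat_lit 2989822332) (nat_lit 684) (nat_lit 16425688881) (nat_lit 266) (nat_lit 5) (nat_lit 274) (nat_lit 5) (nat_lit 275) (nat_lit 5) (nat_lit 638) (nat_lit 579) (nat_lit 343))) (XT.nd (nat_lit 78) (nat_lit 532) (nat_lit 0) (XT.lf (nat_lit 0) (nat_lit 13019655866) (nat_lit 684) (nat_lit 4970830764) (nat_lit 76) (nat_lit 7176936536) (nat_lit 266) (nat_lit 5) (nat_lit 275) (nat_lit 5) (nat_lit 267) (nat_lit 5) (nat_lit 639) (nat_lit 579) (nat_lit 342)) (XT.lf (nat_lit 0) (nat_lit 9867284079) (nat_lit 532) (nat_lit 7892386516) (nat_lit 608) (nat_lit 7702708024) (nat_lit 259) (nat_lit 5) (nat_lit 266) (nat_lit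 5) (nat_lit 267) (nat_lit 5) (nat_lit 640) (nat_lit 579) (nat_lit 341)))))) (XT.nd (nat_lit 546) (nat_lit 2432) (nat_lit 0) (XT.nd (nat_lit 234) (nat_lit 1064) (nat_lit 0) (XT.nd (nat_lit 78) (nat_lit 1140) (nat_lit 0) (XT.lf (nat_lit 0) (nat_lit 22639846104) (nat_lit 608) (nat_lit 713983198) (nat_lit 76) (nat_lit 2408496840) (nat_lit 259) (nat_lit 5) (nat_lit 267) (nat_lit 5) (nat_lit 260) (nat_lit 5) (nat_lit 641) (nat_lit 579) (nat_lit 340)) (XT.nd (nat_lit 78) (nat_lit 532) (nat_lit 0) (XT.lf (nat_lit 0) (nat_lit 1673260609) (nat_lit 608) (nat_lit 11477470830) (nat_lit 76) (nat_lit 12914455588) (nat_lit 251) (nat_lit 5) (nat_lit 259) (nat_lit 5) (nat_lit 252) (nat_lit 5) (nat_lit 642) (nat_lit 579) (nat_lit 339)) (XT.lf (nat_lit 0) (nat_lit 3855956467) (nat_lit 532) (nat_lit 2693289812) (nat_lit 608) (nat_lit 19823923413) (nat_lit 244) (nat_lit 5) (nat_lit 251) (nat_lit 5) (nat_lit 252) (nat_lit 5) (nat_lit 643) (nat_lit 579) (nat_lit 338)))) (XT.nd (nat_lit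 156) (nat_lit 532) (nat_lit 0) (XT.nd (nat_lit 78) (nat_lit 532) (nat_lit 0) (XT.lf (nat_lit 0) (nat_lit 11648325329) (nat_lit 608) (nat_lit 7091473537) (nat_lit 76) (nat_lit 7945001828) (nat_lit 244) (nat_lit 5) (nat_lit 252) (nat_lit 5) (nat_lit 245) (nat_lit 5) (nat_lit 644) (nat_lit 579) (nat_lit 337)) (XT.lf (nat_lit 0) (nat_lit 8734542477) (nat_lit 532) (nat_lit 8185739079) (nat_lit 608) (nat_lit 10080965000) (nat_lit 237) (nat_lit 5) (nat_lit 244) (nat_lit 5) (nat_lit 245) (nat_lit 5) (nat_lit 645) (nat_lit 579) (nat_lit 336))) (XT.nd (nat_lit 78) (nat_lit 532) (nat_lit 0) (XT.lf (nat_lit 0) (nat_lit 22358706657) (nat_lit 608) (nat_lit 2371914772) (nat_lit 76) (nat_lit 2592179464) (nat_lit 237) (nat_lit 5) (nat_lit 245) (nat_lit 5) (nat_lit 238) (nat_lit 5) (nat_lit 646) (nat_lit 579) (nat_lit 335)) (XT.lf (nat_lit 0) (nat_lit 394033837) (nat_lit 532) (nat_lit 13685731566) (nat_lit 76) (nat_lit 13568142614) (nat_lit 230) (nat_lit 5) (nat_lit 237) (nat_lit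 5) (nat_lit 231) (nat_lit 5) (nat_lit 647) (nat_lit 579) (nat_lit 334))))) (XT.nd (nat_lit 312) (nat_lit 1444) (nat_lit 0) (XT.nd (nat_lit 156) (nat_lit 456) (nat_lit 0) (XT.nd (nat_lit 78) (nat_lit 0) (nat_lit 0) (XT.lf (nat_lit 0) (nat_lit 2673074552) (nat_lit 532) (nat_lit 3149685935) (nat_lit 608) (nat_lit 22155502581) (nat_lit 223) (nat_lit 5) (nat_lit 230) (nat_lit 5) (nat_lit 231) (nat_lit 5) (nat_lit 648) (nat_lit 579) (nat_lit 333)) (XT.lf (nat_lit 0) (nat_lit 11500937367) (nat_lit 608) (nat_lit 8826295387) (nat_lit 76) (nat_lit 7985175090) (nat_lit 223) (nat_lit 5) (nat_lit 231) (nat_lit 5) (nat_lit 224) (nat_lit 5) (nat_lit 649) (nat_lit 579) (nat_lit 332))) (XT.nd (nat_lit 78) (nat_lit 0) (nat_lit 0) (XT.lf (nat_lit 0) (nat_lit 8062216490) (nat_lit 456) (nat_lit 9300228390) (nat_lit 532) (nat_lit 11289395430) (nat_lit 217) (nat_lit 5) (nat_lit 223) (nat_lit 5) (nat_lit 224) (nat_lit 5) (nat_lit 650) (nat_lit 579) (nat_lit 331)) (XT.lf (nat_lit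 0) (nat_lit 23410037202) (nat_lit 532) (nat_lit 3606635882) (nat_lit 76) (nat_lit 1980011382) (nat_lit 217) (nat_lit 5) (nat_lit 224) (nat_lit 5) (nat_lit 218) (nat_lit 5) (nat_lit 651) (nat_lit 579) (nat_lit 330)))) (XT.nd (nat_lit 156) (nat_lit 456) (nat_lit 0) (XT.nd (nat_lit 78) (nat_lit 456) (nat_lit 0) (XT.lf (nat_lit 0) (nat_lit 376165825) (nat_lit 532) (nat_lit 15516891364) (nat_lit 76) (nat_lit 13452357988) (nat_lit 210) (nat_lit 5) (nat_lit 217) (nat_lit 5) (nat_lit 211) (nat_lit 5) (nat_lit 652) (nat_lit 579) (nat_lit 329)) (XT.lf (nat_lit 0) (nat_lit 1944197196) (nat_lit 456) (nat_lit 4472958095) (nat_lit 532) (nat_lit 23282552277) (nat_lit 204) (nat_lit 5) (nat_lit 210) (nat_lit 5) (nat_lit 211) (nat_lit 5) (nat_lit 653) (nat_lit 579) (nat_lit 328))) (XT.nd (nat_lit 78) (nat_lit 456) (nat_lit 0) (XT.lf (nat_lit 0) (nat_lit 12727063696) (nat_lit 532) (nat_lit 10146245796) (nat_lit 76) (nat_lit 7184814453) (nat_lit 204) (nat_lit 5) (nat_lit 211)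 (nat_lit 5) (nat_lit 205) (nat_lit 5) (nat_lit 654) (nat_lit 579) (nat_lit 327)) (XT.lf (nat_lit 0) (nat_lit 7884272113) (nat_lit 456) (nat_lit 11356469806) (nat_lit 532) (nat_lit 11181415420) (nat_lit 198) (nat_lit 5) (nat_lit 204) (nat_lit 5) (nat_lit 205) (nat_lit 5) (nat_lit 655) (nat_lit 579) (nat_lit 326))))))) (XT.nd (nat_lit 1092) (nat_lit 760) (nat_lit 0) (XT.nd (nat_lit 546) (nat_lit 1596) (nat_lit 0) (XT.nd (nat_lit 234) (nat_lit 836) (nat_lit 0) (XT.nd (nat_lit 78) (nat_lit 912) (nat_lit 0) (XT.lf (nat_lit 0) (nat_lit 25952551038) (nat_lit 532) (nat_lit 4386898930) (nat_lit 76) (nat_lit 452664404) (nat_lit 198) (nat_lit 5) (nat_lit 205) (nat_lit 5) (nat_lit 199) (nat_lit 5) (nat_lit 656) (nat_lit 579) (nat_lit 325)) (XT.nd (nat_lit 78) (nat_lit 456) (nat_lit 0) (XT.lf (nat_lit 0) (nat_lit 1773319293) (nat_lit 456) (nat_lit 16943912684) (nat_lit 76) (nat_lit 12448715939) (nat_lit 192) (nat_lit 5) (nat_lit 198) (nat_lit 5) (nat_lit 193) (nat_lit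 5) (nat_lit 657) (nat_lit 579) (nat_lit 324)) (XT.lf (nat_lit 0) (nat_lit 1701357362) (nat_lit 456) (nat_lit 6789897956) (nat_lit 532) (nat_lit 23054611186) (nat_lit 186) (nat_lit 5) (nat_lit 192) (nat_lit 5) (nat_lit 193) (nat_lit 5) (nat_lit 658) (nat_lit 579) (nat_lit 323)))) (XT.nd (nat_lit 156) (nat_lit 456) (nat_lit 0) (XT.nd (nat_lit 78) (nat_lit 380) (nat_lit 0) (XT.lf (nat_lit 0) (nat_lit 15489789073) (nat_lit 532) (nat_lit 11022232211) (nat_lit 76) (nat_lit 5418437509) (nat_lit 186) (nat_lit 5) (nat_lit 193) (nat_lit 5) (nat_lit 187) (nat_lit 5) (nat_lit 659) (nat_lit 579) (nat_lit 322)) (XT.lf (nat_lit 0) (nat_lit 8234941130) (nat_lit 380) (nat_lit 14488725471) (nat_lit 456) (nat_lit 9597168971) (nat_lit 181) (nat_lit 5) (nat_lit 186) (nat_lit 5) (nat_lit 187) (nat_lit 5) (nat_lit 660) (nat_lit 579) (nat_lit 321))) (XT.nd (nat_lit 78) (nat_lit 456) (nat_lit 0) (XT.lf (nat_lit 0) (nat_lit 28022111717) (nat_lit 380) (nat_lit 2151045552) (nat_lit 456)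 (nat_lit 2544444012) (nat_lit 181) (nat_lit 5) (nat_lit 186) (nat_lit 5) (nat_lit 187) (nat_lit 5) (nat_lit 661) (nat_lit 579) (nat_lit 320)) (XT.lf (nat_lit 0) (nat_lit 4752955187) (nat_lit 456) (nat_lit 17940353377) (nat_lit 76) (nat_lit 10425098177) (nat_lit 175) (nat_lit 5) (nat_lit 181) (nat_lit 5) (nat_lit 176) (nat_lit 5) (nat_lit 662) (nat_lit 579) (nat_lit 319))))) (XT.nd (nat_lit 234) (nat_lit 836) (nat_lit 0) (XT.nd (nat_lit 78) (nat_lit 380) (nat_lit 0) (XT.lf (nat_lit 0) (nat_lit 1976205479) (nat_lit 380) (nat_lit 10241882634) (nat_lit 456) (nat_lit 21307686804) (nat_lit 170) (nat_lit 5) (nat_lit 175) (nat_lit 5) (nat_lit 176) (nat_lit 5) (nat_lit 663) (nat_lit 579) (nat_lit 318)) (XT.nd (nat_lit 78) (nat_lit 380) (nat_lit 0) (XT.lf (nat_lit 0) (nat_lit 19966721772) (nat_lit 456) (nat_lit 11425905760) (nat_lit 76) (nat_lit 2545979060) (nat_lit 170) (nat_lit 5) (nat_lit 176) (nat_lit 5) (nat_lit 171) (nat_lit 5) (nat_lit 664) (nat_lit 579) (nat_lit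 317)) (XT.lf (nat_lit 0) (nat_lit 9147925100) (nat_lit 380) (nat_lit 18846731205) (nat_lit 456) (nat_lit 6362552128) (nat_lit 165) (nat_lit 5) (nat_lit 170) (nat_lit 5) (nat_lit 171) (nat_lit 5) (nat_lit 665) (nat_lit 579) (nat_lit 316)))) (XT.nd (nat_lit 156) (nat_lit 380) (nat_lit 0) (XT.nd (nat_lit 78) (nat_lit 380) (nat_lit 0) (XT.lf (nat_lit 0) (nat_lit 1454916816) (nat_lit 456) (nat_lit 4508590738) (nat_lit 76) (nat_lit 28819007242) (nat_lit 164) (nat_lit 5) (nat_lit 170) (nat_lit 5) (nat_lit 165) (nat_lit 5) (nat_lit 666) (nat_lit 579) (nat_lit 315)) (XT.lf (nat_lit 0) (nat_lit 9497327990) (nat_lit 456) (nat_lit 18481282403) (nat_lit 76) (nat_lit 7233800104) (nat_lit 159) (nat_lit 5) (nat_lit 165) (nat_lit 5) (nat_lit 160) (nat_lit 5) (nat_lit 667) (nat_lit 579) (nat_lit 314))) (XT.nd (nat_lit 78) (nat_lit 0) (nat_lit 0) (XT.lf (nat_lit 0) (nat_lit 2799079515) (nat_lit 380) (nat_lit 14986819569) (nat_lit 456) (nat_lit 17863298882) (nat_lit 154) (nat_lit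 5) (nat_lit 159) (nat_lit 5) (nat_lit 160) (nat_lit 5) (nat_lit 668) (nat_lit 579) (nat_lit 313)) (XT.lf (nat_lit 0) (nat_lit 24751201680) (nat_lit 380) (nat_lit 1610275225) (nat_lit 456) (nat_lit 9730819661) (nat_lit 154) (nat_lit 5) (nat_lit 159) (nat_lit 5) (nat_lit 160) (nat_lit 5) (nat_lit 669) (nat_lit 579) (nat_lit 312)))))) (XT.nd (nat_lit 74490) (nat_lit 0) (nat_lit 26828) (XT.nd (nat_lit 74178) (nat_lit 0) (nat_lit 26752) (XT.nd (nat_lit 78) (nat_lit 456) (nat_lit 0) (XT.lf (nat_lit 0) (nat_lit 10655400595) (nat_lit 304) (nat_lit 24597739716) (nat_lit 380) (nat_lit 1288225431) (nat_lit 150) (nat_lit 5) (nat_lit 154) (nat_lit 5) (nat_lit 155) (nat_lit 5) (nat_lit 670) (nat_lit 579) (nat_lit 311)) (XT.nd (nat_lit 78) (nat_lit 380) (nat_lit 0) (XT.lf (nat_lit 0) (nat_lit 7311716576) (nat_lit 380) (nat_lit 3815384549) (nat_lit 76) (nat_lit 25869673488) (nat_lit 149) (nat_lit 5) (nat_lit 154) (nat_lit 5) (nat_lit 150) (nat_lit 5) (nat_lit 671) (nat_lit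 579) (nat_lit 310)) (XT.lf (nat_lit 0) (nat_lit 16204491502) (nat_lit 456) (nat_lit 18544414629) (nat_lit 76) (nat_lit 2709453638) (nat_lit 144) (nat_lit 5) (nat_lit 150) (nat_lit 5) (nat_lit 145) (nat_lit 5) (nat_lit 672) (nat_lit 579) (nat_lit 309)))) (XT.nd (nat_lit 156) (nat_lit 0) (nat_lit 0) (XT.nd (nat_lit 78) (nat_lit 0) (nat_lit 0) (XT.lf (nat_lit 0) (nat_lit 901701143) (nat_lit 0) (nat_lit 901701143) (nat_lit 1748) (nat_lit 4983646893) (nat_lit 496) (nat_lit 5) (nat_lit 496) (nat_lit 3) (nat_lit 519) (nat_lit 3) (nat_lit 580) (nat_lit 580) (nat_lit 400)) (XT.lf (nat_lit 0) (nat_lit 4041199256) (nat_lit 1748) (nat_lit 5065428710) (nat_lit 1824) (nat_lit 4595221922) (nat_lit 496) (nat_lit 5) (nat_lit 519) (nat_lit 3) (nat_lit 520) (nat_lit 5) (nat_lit 581) (nat_lit 580) (nat_lit 399))) (XT.nd (nat_lit 78) (nat_lit 0) (nat_lit 76) (XT.lf (nat_lit 76) (nat_lit 1780297175) (nat_lit 0) (nat_lit 2717862671) (nat_lit 1824) (nat_lit 9333719642) (nat_lit 497)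 (nat_lit 5) (nat_lit 496) (nat_lit 5) (nat_lit 520) (nat_lit 5) (nat_lit 582) (nat_lit 580) (nat_lit 398)) (XT.lf (nat_lit 0) (nat_lit 5013701067) (nat_lit 1748) (nat_lit 5162355964) (nat_lit 1824) (nat_lit 3787464410) (nat_lit 497) (nat_lit 5) (nat_lit 520) (nat_lit 5) (nat_lit 521) (nat_lit 5) (nat_lit 583) (nat_lit 580) (nat_lit 397))))) (XT.nd (nat_lit 312) (nat_lit 0) (nat_lit 152) (XT.nd (nat_lit 156) (nat_lit 0) (nat_lit 76) (XT.nd (nat_lit 78) (nat_lit 0) (nat_lit 76) (XT.lf (nat_lit 76) (nat_lit 1865993100) (nat_lit 0) (nat_lit 3694420523) (nat_lit 1824) (nat_lit 8536965978) (nat_lit 498) (nat_lit 5) (nat_lit 497) (nat_lit 5) (nat_lit 521) (nat_lit 5) (nat_lit 584) (nat_lit 580) (nat_lit 396)) (XT.lf (nat_lit 0) (nat_lit 6162790566) (nat_lit 1748) (nat_lit 5152813819) (nat_lit 1824) (nat_lit 2917416503) (nat_lit 498) (nat_lit 5) (nat_lit 521) (nat_lit 5) (nat_lit 522) (nat_lit 5) (nat_lit 585) (nat_lit 580) (nat_lit 395))) (XT.nd (nat_lit 78) (nat_lit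 0) (nat_lit 76) (XT.lf (nat_lit 76) (nat_lit 2064737038) (nat_lit 0) (nat_lit 4741448516) (nat_lit 1824) (nat_lit 7564610592) (nat_lit 499) (nat_lit 5) (nat_lit 498) (nat_lit 5) (nat_lit 522) (nat_lit 5) (nat_lit 586) (nat_lit 580) (nat_lit 394)) (XT.lf (nat_lit 0) (nat_lit 7501271118) (nat_lit 1748) (nat_lit 5032501627) (nat_lit 1824) (nat_lit 1976778255) (nat_lit 499) (nat_lit 5) (nat_lit 522) (nat_lit 5) (nat_lit 523) (nat_lit 5) (nat_lit 587) (nat_lit 580) (nat_lit 393)))) (XT.nd (nat_lit 156) (nat_lit 0) (nat_lit 76) (XT.nd (nat_lit 78) (nat_lit 0) (nat_lit 76) (XT.lf (nat_lit 76) (nat_lit 2381089295) (nat_lit 0) (nat_lit 5867463110) (nat_lit 1824) (nat_lit 6403783199) (nat_lit 500) (nat_lit 5) (nat_lit 499) (nat_lit 5) (nat_lit 523) (nat_lit 5) (nat_lit 588) (nat_lit 580) (nat_lit 392)) (XT.lf (nat_lit 0) (nat_lit 9042414842) (nat_lit 1748) (nat_lit 4796808599) (nat_lit 1824) (nat_lit 957100273) (nat_lit 500) (nat_lit 5) (nat_lit 523) (nat_lit 5) (nat_lit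 524) (nat_lit 5) (nat_lit 589) (nat_lit 580) (nat_lit 391))) (XT.nd (nat_lit 78) (nat_lit 0) (nat_lit 0) (XT.lf (nat_lit 76) (nat_lit 2819929571) (nat_lit 0) (nat_lit 7081144961) (nat_lit 1824) (nat_lit 5041139168) (nat_lit 501) (nat_lit 5) (nat_lit 500) (nat_lit 5) (nat_lit 524) (nat_lit 5) (nat_lit 590) (nat_lit 580) (nat_lit 390)) (XT.lf (nat_lit 76) (nat_lit 10648744669) (nat_lit 0) (nat_lit 152233049) (nat_lit 1824) (nat_lit 4289562864) (nat_lit 501) (nat_lit 5) (nat_lit 500) (nat_lit 5) (nat_lit 524) (nat_lit 5) (nat_lit 591) (nat_lit 580) (nat_lit 389))))))))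
noncomputable def xc189 : XT := (XT.nd (nat_lit 2262) (nat_lit 10792) (nat_lit 0) (XT.nd (nat_lit 1092) (nat_lit 7144) (nat_lit 0) (XT.nd (nat_lit 546) (nat_lit 1520) (nat_lit 0) (XT.nd (nat_lit 234) (nat_lit 1672) (nat_lit 0) (XT.nd (nat_lit 78) (nat_lit 0) (nat_lit 0) (XT.lf (nat_lit 76) (nat_lit 3386463640) (nat_lit 0) (nat_lit 8391359387) (nat_lit 1824) (nat_lit 3462832587) (nat_lit 502) (nat_lit 5) (nat_lit 501) (nat_lit 5) (nat_lit 525) (nat_lit 5) (nat_lit 592) (nat_lit 580) (nat_lit 388)) (XT.nd (nat_lit 78) (nat_lit 0) (nat_lit 76) (XT.lf (nat_lit 76) (nat_lit 11425157687) (nat_lit 0) (nat_lit 1372035513) (nat_lit 1824) (nat_lit 2596120470) (nat_lit 502) (nat_lit 5) (nat_lit 501) (nat_lit 5) (nat_lit 525) (nat_lit 5) (nat_lit 593) (nat_lit 580) (nat_lit 387)) (XT.lf (nat_lit 76) (nat_lit 4086230660) (nat_lit 0) (nat_lit 9807176963) (nat_lit 1824) (nat_lit 1654488602) (nat_lit 503) (nat_lit 5) (nat_lit 502) (nat_lit 5) (nat_lit 526) (nat_lit 5) (nat_lit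 594) (nat_lit 580) (nat_lit 386)))) (XT.nd (nat_lit 156) (nat_lit 0) (nat_lit 0) (XT.nd (nat_lit 78) (nat_lit 1748) (nat_lit 0) (XT.lf (nat_lit 76) (nat_lit 12340938487) (nat_lit 0) (nat_lit 2698727007) (nat_lit 1824) (nat_lit 665343019) (nat_lit 503) (nat_lit 5) (nat_lit 502) (nat_lit 5) (nat_lit 526) (nat_lit 5) (nat_lit 595) (nat_lit 580) (nat_lit 385)) (XT.lf (nat_lit 0) (nat_lit 393594359) (nat_lit 1824) (nat_lit 10941658690) (nat_lit 1900) (nat_lit 4528875526) (nat_lit 479) (nat_lit 5) (nat_lit 503) (nat_lit 5) (nat_lit 504) (nat_lit 5) (nat_lit 596) (nat_lit 580) (nat_lit 384))) (XT.nd (nat_lit 78) (nat_lit 0) (nat_lit 76) (XT.lf (nat_lit 0) (nat_lit 1498093465) (nat_lit 1824) (nat_lit 2633534389) (nat_lit 1900) (nat_lit 11894049827) (nat_lit 479) (nat_lit 5) (nat_lit 503) (nat_lit 5) (nat_lit 504) (nat_lit 5) (nat_lit 597) (nat_lit 580) (nat_lit 383)) (XT.lf (nat_lit 0) (nat_lit 2677050570) (nat_lit 1824) (nat_lit 10298039906) (nat_lit 1900) (nat_lit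 3214320362) (nat_lit 480) (nat_lit 5) (nat_lit 504) (nat_lit 5) (nat_lit 505) (nat_lit 5) (nat_lit 598) (nat_lit 580) (nat_lit 382))))) (XT.nd (nat_lit 234) (nat_lit 1596) (nat_lit 0) (XT.nd (nat_lit 78) (nat_lit 0) (nat_lit 76) (XT.lf (nat_lit 0) (nat_lit 3917685753) (nat_lit 1824) (nat_lit 1766550077) (nat_lit 1900) (nat_lit 10671421271) (nat_lit 480) (nat_lit 5) (nat_lit 504) (nat_lit 5) (nat_lit 505) (nat_lit 5) (nat_lit 599) (nat_lit 580) (nat_lit 381)) (XT.nd (nat_lit 78) (nat_lit 0) (nat_lit 0) (XT.lf (nat_lit 0) (nat_lit 5233502989) (nat_lit 1824) (nat_lit 9513848058) (nat_lit 1900) (nat_lit 1776870266) (nat_lit 481) (nat_lit 5) (nat_lit 505) (nat_lit 5) (nat_lit 506) (nat_lit 5) (nat_lit 600) (nat_lit 580) (nat_lit 380)) (XT.lf (nat_lit 0) (nat_lit 6618410022) (nat_lit 1824) (nat_lit 752343232) (nat_lit 1900) (nat_lit 9324548492) (nat_lit 481) (nat_lit 5) (nat_lit 505) (nat_lit 5) (nat_lit 506) (nat_lit 5) (nat_lit 601) (nat_lit 580) (nat_lit 379))))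 (XT.nd (nat_lit 156) (nat_lit 1748) (nat_lit 0) (XT.nd (nat_lit 78) (nat_lit 0) (nat_lit 0) (XT.lf (nat_lit 0) (nat_lit 8079515025) (nat_lit 1824) (nat_lit 8582510136) (nat_lit 1900) (nat_lit 206809027) (nat_lit 482) (nat_lit 5) (nat_lit 506) (nat_lit 5) (nat_lit 507) (nat_lit 5) (nat_lit 602) (nat_lit 580) (nat_lit 378)) (XT.lf (nat_lit 76) (nat_lit 421428126) (nat_lit 0) (nat_lit 9198479238) (nat_lit 1900) (nat_lit 7424928999) (nat_lit 483) (nat_lit 5) (nat_lit 482) (nat_lit 5) (nat_lit 507) (nat_lit 5) (nat_lit 603) (nat_lit 580) (nat_lit 377))) (XT.nd (nat_lit 78) (nat_lit 1748) (nat_lit 0) (XT.lf (nat_lit 76) (nat_lit 9716340188) (nat_lit 0) (nat_lit 1525887981) (nat_lit 1900) (nat_lit 5981108381) (nat_lit 483) (nat_lit 5) (nat_lit 482) (nat_lit 5) (nat_lit 507) (nat_lit 5) (nat_lit 604) (nat_lit 580) (nat_lit 376)) (XT.lf (nat_lit 0) (nat_lit 1768563736) (nat_lit 1824) (nat_lit 11174480055) (nat_lit 1900) (nat_lit 4461442356) (nat_lit 459) (nat_lit 5)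 (nat_lit 483) (nat_lit 5) (nat_lit 484) (nat_lit 5) (nat_lit 605) (nat_lit 580) (nat_lit 375)))))) (XT.nd (nat_lit 546) (nat_lit 4180) (nat_lit 0) (XT.nd (nat_lit 234) (nat_lit 1824) (nat_lit 0) (XT.nd (nat_lit 78) (nat_lit 1140) (nat_lit 0) (XT.lf (nat_lit 0) (nat_lit 11315720567) (nat_lit 1824) (nat_lit 3416319729) (nat_lit 1900) (nat_lit 2856135515) (nat_lit 459) (nat_lit 5) (nat_lit 483) (nat_lit 5) (nat_lit 484) (nat_lit 5) (nat_lit 606) (nat_lit 580) (nat_lit 374)) (XT.nd (nat_lit 78) (nat_lit 76) (nat_lit 0) (XT.lf (nat_lit 0) (nat_lit 3286734023) (nat_lit 1064) (nat_lit 13314497578) (nat_lit 1140) (nat_lit 1173419730) (nat_lit 445) (nat_lit 5) (nat_lit 459) (nat_lit 5) (nat_lit 460) (nat_lit 5) (nat_lit 607) (nat_lit 580) (nat_lit 373)) (XT.lf (nat_lit 0) (nat_lit 594746546) (nat_lit 1140) (nat_lit 4873812293) (nat_lit 76) (nat_lit 12495049020) (nat_lit 444) (nat_lit 5) (nat_lit 459) (nat_lit 5) (nat_lit 445) (nat_lit 5) (nat_lit 608) (nat_lit 580)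 (nat_lit 372)))) (XT.nd (nat_lit 156) (nat_lit 912) (nat_lit 0) (XT.nd (nat_lit 78) (nat_lit 0) (nat_lit 0) (XT.lf (nat_lit 0) (nat_lit 2425708484) (nat_lit 988) (nat_lit 13187597108) (nat_lit 76) (nat_lit 2542020252) (nat_lit 432) (nat_lit 5) (nat_lit 445) (nat_lit 5) (nat_lit 433) (nat_lit 5) (nat_lit 609) (nat_lit 580) (nat_lit 371)) (XT.lf (nat_lit 0) (nat_lit 4356554519) (nat_lit 988) (nat_lit 3319968821) (nat_lit 76) (nat_lit 10673089882) (nat_lit 432) (nat_lit 5) (nat_lit 445) (nat_lit 5) (nat_lit 433) (nat_lit 5) (nat_lit 610) (nat_lit 580) (nat_lit 370))) (XT.nd (nat_lit 78) (nat_lit 0) (nat_lit 0) (XT.lf (nat_lit 0) (nat_lit 6367615714) (nat_lit 988) (nat_lit 11720824773) (nat_lit 76) (nat_lit 458514221) (nat_lit 420) (nat_lit 5) (nat_lit 433) (nat_lit 5) (nat_lit 421) (nat_lit 5) (nat_lit 611) (nat_lit 580) (nat_lit 369)) (XT.lf (nat_lit 0) (nat_lit 8486484762) (nat_lit 988) (nat_lit 1584081480) (nat_lit 76) (nat_lit 8676325370) (nat_lit 420) (nat_lit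 5) (nat_lit 433) (nat_lit 5) (nat_lit 421) (nat_lit 5) (nat_lit 612) (nat_lit 580) (nat_lit 368))))) (XT.nd (nat_lit 312) (nat_lit 1672) (nat_lit 0) (XT.nd (nat_lit 156) (nat_lit 836) (nat_lit 0) (XT.nd (nat_lit 78) (nat_lit 836) (nat_lit 0) (XT.lf (nat_lit 0) (nat_lit 8866334857) (nat_lit 836) (nat_lit 1833396229) (nat_lit 912) (nat_lit 8250056481) (nat_lit 409) (nat_lit 5) (nat_lit 420) (nat_lit 5) (nat_lit 421) (nat_lit 5) (nat_lit 613) (nat_lit 580) (nat_lit 367)) (XT.lf (nat_lit 0) (nat_lit 347116703) (nat_lit 836) (nat_lit 12660236547) (nat_lit 912) (nat_lit 6148386281) (nat_lit 398) (nat_lit 5) (nat_lit 409) (nat_lit 5) (nat_lit 410) (nat_lit 5) (nat_lit 614) (nat_lit 580) (nat_lit 366))) (XT.nd (nat_lit 78) (nat_lit 836) (nat_lit 0) (XT.lf (nat_lit 0) (nat_lit 11105292431) (nat_lit 836) (nat_lit 4330144816) (nat_lit 912) (nat_lit 3928887400) (nat_lit 398) (nat_lit 5) (nat_lit 409) (nat_lit 5) (nat_lit 410) (nat_lit 5) (nat_lit 615) (nat_lit 580) (nat_lit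 365)) (XT.lf (nat_lit 0) (nat_lit 2501924398) (nat_lit 836) (nat_lit 15448143406) (nat_lit 912) (nat_lit 1626254258) (nat_lit 387) (nat_lit 5) (nat_lit 398) (nat_lit 5) (nat_lit 399) (nat_lit 5) (nat_lit 616) (nat_lit 580) (nat_lit 364)))) (XT.nd (nat_lit 156) (nat_lit 760) (nat_lit 0) (XT.nd (nat_lit 78) (nat_lit 836) (nat_lit 0) (XT.lf (nat_lit 0) (nat_lit 792145798) (nat_lit 912) (nat_lit 6240553441) (nat_lit 76) (nat_lit 12758182878) (nat_lit 386) (nat_lit 5) (nat_lit 398) (nat_lit 5) (nat_lit 387) (nat_lit 5) (nat_lit 617) (nat_lit 580) (nat_lit 363)) (XT.lf (nat_lit 0) (nat_lit 3273873696) (nat_lit 912) (nat_lit 15161750398) (nat_lit 76) (nat_lit 1573159858) (nat_lit 375) (nat_lit 5) (nat_lit 387) (nat_lit 5) (nat_lit 376) (nat_lit 5) (nat_lit 618) (nat_lit 580) (nat_lit 362))) (XT.nd (nat_lit 78) (nat_lit 760) (nat_lit 0) (XT.lf (nat_lit 0) (nat_lit 5888857667) (nat_lit 912) (nat_lit 4041475091) (nat_lit 76) (nat_lit 10299038909) (nat_lit 375) (nat_lit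 5) (nat_lit 387) (nat_lit 5) (nat_lit 376) (nat_lit 5) (nat_lit 619) (nat_lit 580) (nat_lit 361)) (XT.lf (nat_lit 0) (nat_lit 7392888362) (nat_lit 760) (nat_lit 1206245251) (nat_lit 836) (nat_lit 11854377943) (nat_lit 365) (nat_lit 5) (nat_lit 375) (nat_lit 5) (nat_lit 376) (nat_lit 5) (nat_lit 620) (nat_lit 580) (nat_lit 360))))))) (XT.nd (nat_lit 1170) (nat_lit 5168) (nat_lit 0) (XT.nd (nat_lit 546) (nat_lit 2660) (nat_lit 0) (XT.nd (nat_lit 234) (nat_lit 1520) (nat_lit 0) (XT.nd (nat_lit 78) (nat_lit 1444) (nat_lit 0) (XT.lf (nat_lit 0) (nat_lit 11435913749) (nat_lit 836) (nat_lit 1626331660) (nat_lit 76) (nat_lit 7618443123) (nat_lit 365) (nat_lit 5) (nat_lit 376) (nat_lit 5) (nat_lit 366) (nat_lit 5) (nat_lit 621) (nat_lit 580) (nat_lit 359)) (XT.nd (nat_lit 78) (nat_lit 684) (nat_lit 0) (XT.lf (nat_lit 0) (nat_lit 10156629136) (nat_lit 760) (nat_lit 4241884235) (nat_lit 836) (nat_lit 6512514254) (nat_lit 355) (nat_lit 5) (nat_lit 365) (nat_lit 5) (nat_lit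 366) (nat_lit 5) (nat_lit 622) (nat_lit 580) (nat_lit 358)) (XT.lf (nat_lit 0) (nat_lit 1028794886) (nat_lit 684) (nat_lit 16435317948) (nat_lit 760) (nat_lit 3680985962) (nat_lit 346) (nat_lit 5) (nat_lit 355) (nat_lit 5) (nat_lit 356) (nat_lit 5) (nat_lit 623) (nat_lit 580) (nat_lit 357)))) (XT.nd (nat_lit 156) (nat_lit 684) (nat_lit 0) (XT.nd (nat_lit 78) (nat_lit 836) (nat_lit 0) (XT.lf (nat_lit 0) (nat_lit 13159707302) (nat_lit 684) (nat_lit 7526662112) (nat_lit 760) (nat_lit 695575321) (nat_lit 346) (nat_lit 5) (nat_lit 355) (nat_lit 5) (nat_lit 356) (nat_lit 5) (nat_lit 624) (nat_lit 580) (nat_lit 356)) (XT.lf (nat_lit 0) (nat_lit 2350044599) (nat_lit 836) (nat_lit 17692276811) (nat_lit 76) (nat_lit 1580275007) (nat_lit 335) (nat_lit 5) (nat_lit 346) (nat_lit 5) (nat_lit 336) (nat_lit 5) (nat_lit 625) (nat_lit 580) (nat_lit 355))) (XT.nd (nat_lit 78) (nat_lit 684) (nat_lit 0) (XT.lf (nat_lit 0) (nat_lit 5548044524) (nat_lit 836) (nat_lit 5489664356)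 (nat_lit 76) (nat_lit 10828244903) (nat_lit 335) (nat_lit 5) (nat_lit 346) (nat_lit 5) (nat_lit 336) (nat_lit 5) (nat_lit 626) (nat_lit 580) (nat_lit 354)) (XT.lf (nat_lit 0) (nat_lit 7044218093) (nat_lit 684) (nat_lit 1806998823) (nat_lit 760) (nat_lit 13262137360) (nat_lit 326) (nat_lit 5) (nat_lit 335) (nat_lit 5) (nat_lit 336) (nat_lit 5) (nat_lit 627) (nat_lit 580) (nat_lit 353))))) (XT.nd (nat_lit 312) (nat_lit 1292) (nat_lit 0) (XT.nd (nat_lit 156) (nat_lit 684) (nat_lit 0) (XT.nd (nat_lit 78) (nat_lit 684) (nat_lit 0) (XT.lf (nat_lit 0) (nat_lit 12302461313) (nat_lit 760) (nat_lit 2516635921) (nat_lit 76) (nat_lit 7544965597) (nat_lit 326) (nat_lit 5) (nat_lit 336) (nat_lit 5) (nat_lit 327) (nat_lit 5) (nat_lit 628) (nat_lit 580) (nat_lit 352)) (XT.lf (nat_lit 0) (nat_lit 10406310759) (nat_lit 684) (nat_lit 5491566841) (nat_lit 760) (nat_lit 6720405236) (nat_lit 317) (nat_lit 5) (nat_lit 326) (nat_lit 5) (nat_lit 327) (nat_lit 5) (nat_lit 629) (nat_lit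 580) (nat_lit 351))) (XT.nd (nat_lit 78) (nat_lit 76) (nat_lit 0) (XT.lf (nat_lit 0) (nat_lit 722664110) (nat_lit 608) (nat_lit 18886010273) (nat_lit 684) (nat_lit 3268043629) (nat_lit 309) (nat_lit 5) (nat_lit 317) (nat_lit 5) (nat_lit 318) (nat_lit 5) (nat_lit 630) (nat_lit 580) (nat_lit 350)) (XT.lf (nat_lit 0) (nat_lit 364588399) (nat_lit 684) (nat_lit 9100898298) (nat_lit 76) (nat_lit 13672511578) (nat_lit 308) (nat_lit 5) (nat_lit 317) (nat_lit 5) (nat_lit 309) (nat_lit 5) (nat_lit 631) (nat_lit 580) (nat_lit 349)))) (XT.nd (nat_lit 156) (nat_lit 608) (nat_lit 0) (XT.nd (nat_lit 78) (nat_lit 0) (nat_lit 0) (XT.lf (nat_lit 0) (nat_lit 4050720977) (nat_lit 760) (nat_lit 19162628828) (nat_lit 76) (nat_lit 190230366) (nat_lit 299) (nat_lit 5) (nat_lit 309) (nat_lit 5) (nat_lit 300) (nat_lit 5) (nat_lit 632) (nat_lit 580) (nat_lit 348)) (XT.lf (nat_lit 0) (nat_lit 7930553471) (nat_lit 760) (nat_lit 5768471064) (nat_lit 76) (nat_lit 9973049822) (nat_lit 299)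 (nat_lit 5) (nat_lit 309) (nat_lit 5) (nat_lit 300) (nat_lit 5) (nat_lit 633) (nat_lit 580) (nat_lit 347))) (XT.nd (nat_lit 78) (nat_lit 0) (nat_lit 0) (XT.lf (nat_lit 0) (nat_lit 7993372951) (nat_lit 608) (nat_lit 3942405644) (nat_lit 684) (nat_lit 12009204107) (nat_lit 291) (nat_lit 5) (nat_lit 299) (nat_lit 5) (nat_lit 300) (nat_lit 5) (nat_lit 634) (nat_lit 580) (nat_lit 346)) (XT.lf (nat_lit 0) (nat_lit 16095030268) (nat_lit 684) (nat_lit 2158274518) (nat_lit 76) (nat_lit 5968566177) (nat_lit 291) (nat_lit 5) (nat_lit 300) (nat_lit 5) (nat_lit 292) (nat_lit 5) (nat_lit 635) (nat_lit 580) (nat_lit 345)))))) (XT.nd (nat_lit 546) (nat_lit 2736) (nat_lit 0) (XT.nd (nat_lit 234) (nat_lit 1140) (nat_lit 0) (XT.nd (nat_lit 78) (nat_lit 684) (nat_lit 0) (XT.lf (nat_lit 0) (nat_lit 12037721664) (nat_lit 608) (nat_lit 8400030004) (nat_lit 684) (nat_lit 4064539814) (nat_lit 283) (nat_lit 5) (nat_lit 291) (nat_lit 5) (nat_lit 292) (nat_lit 5) (nat_lit 636) (nat_lit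 580) (nat_lit 344)) (XT.nd (nat_lit 78) (nat_lit 0) (nat_lit 0) (XT.lf (nat_lit 0) (nat_lit 111008014) (nat_lit 684) (nat_lit 23022191888) (nat_lit 76) (nat_lit 1654449688) (nat_lit 274) (nat_lit 5) (nat_lit 283) (nat_lit 5) (nat_lit 275) (nat_lit 5) (nat_lit 637) (nat_lit 580) (nat_lit 343)) (XT.lf (nat_lit 0) (nat_lit 4451598157) (nat_lit 684) (nat_lit 8716129371) (nat_lit 76) (nat_lit 11907731066) (nat_lit 274) (nat_lit 5) (nat_lit 283) (nat_lit 5) (nat_lit 275) (nat_lit 5) (nat_lit 638) (nat_lit 580) (nat_lit 342)))) (XT.nd (nat_lit 156) (nat_lit 532) (nat_lit 0) (XT.nd (nat_lit 78) (nat_lit 0) (nat_lit 0) (XT.lf (nat_lit 0) (nat_lit 5949144243) (nat_lit 608) (nat_lit 2964636135) (nat_lit 684) (nat_lit 16454547967) (nat_lit 266) (nat_lit 5) (nat_lit 274) (nat_lit 5) (nat_lit 275) (nat_lit 5) (nat_lit 639) (nat_lit 580) (nat_lit 341)) (XT.lf (nat_lit 0) (nat_lit 13568596089) (nat_lit 684) (nat_lit 4693692897) (nat_lit 76) (nat_lit 7402698876) (nat_lit 266)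 (nat_lit 5) (nat_lit 275) (nat_lit 5) (nat_lit 267) (nat_lit 5) (nat_lit 640) (nat_lit 580) (nat_lit 340))) (XT.nd (nat_lit 78) (nat_lit 0) (nat_lit 0) (XT.lf (nat_lit 0) (nat_lit 10438706911) (nat_lit 532) (nat_lit 7961475173) (nat_lit 608) (nat_lit 7565725173) (nat_lit 259) (nat_lit 5) (nat_lit 266) (nat_lit 5) (nat_lit 267) (nat_lit 5) (nat_lit 641) (nat_lit 580) (nat_lit 339)) (XT.lf (nat_lit 0) (nat_lit 23372931614) (nat_lit 608) (nat_lit 356478743) (nat_lit 76) (nat_lit 2542544210) (nat_lit 259) (nat_lit 5) (nat_lit 267) (nat_lit 5) (nat_lit 260) (nat_lit 5) (nat_lit 642) (nat_lit 580) (nat_lit 338))))) (XT.nd (nat_lit 312) (nat_lit 1064) (nat_lit 0) (XT.nd (nat_lit 156) (nat_lit 532) (nat_lit 0) (XT.nd (nat_lit 78) (nat_lit 532) (nat_lit 0) (XT.lf (nat_lit 0) (nat_lit 1985764169) (nat_lit 608) (nat_lit 11333961954) (nat_lit 76) (nat_lit 13261172028) (nat_lit 251) (nat_lit 5) (nat_lit 259) (nat_lit 5) (nat_lit 252) (nat_lit 5) (nat_lit 643) (nat_lit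 580) (nat_lit 337)) (XT.lf (nat_lit 0) (nat_lit 4303679558) (nat_lit 532) (nat_lit 2652524861) (nat_lit 608) (nat_lit 19938897586) (nat_lit 244) (nat_lit 5) (nat_lit 251) (nat_lit 5) (nat_lit 252) (nat_lit 5) (nat_lit 644) (nat_lit 580) (nat_lit 336))) (XT.nd (nat_lit 78) (nat_lit 532) (nat_lit 0) (XT.lf (nat_lit 0) (nat_lit 12152456169) (nat_lit 608) (nat_lit 6865145521) (nat_lit 76) (nat_lit 8195460342) (nat_lit 244) (nat_lit 5) (nat_lit 252) (nat_lit 5) (nat_lit 245) (nat_lit 5) (nat_lit 645) (nat_lit 580) (nat_lit 335)) (XT.lf (nat_lit 0) (nat_lit 9274968725) (nat_lit 532) (nat_lit 8251940445) (nat_lit 608) (nat_lit 10008986713) (nat_lit 237) (nat_lit 5) (nat_lit 244) (nat_lit 5) (nat_lit 245) (nat_lit 5) (nat_lit 646) (nat_lit 580) (nat_lit 334)))) (XT.nd (nat_lit 156) (nat_lit 532) (nat_lit 0) (XT.nd (nat_lit 78) (nat_lit 532) (nat_lit 0) (XT.lf (nat_lit 0) (nat_lit 23069464226) (nat_lit 608) (nat_lit 2056139459) (nat_lit 76) (nat_lit 2738370611) (nat_lit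 237) (nat_lit 5) (nat_lit 245) (nat_lit 5) (nat_lit 238) (nat_lit 5) (nat_lit 647) (nat_lit 580) (nat_lit 333)) (XT.lf (nat_lit 0) (nat_lit 664409819) (nat_lit 532) (nat_lit 13595123207) (nat_lit 76) (nat_lit 13936072724) (nat_lit 230) (nat_lit 5) (nat_lit 237) (nat_lit 5) (nat_lit 231) (nat_lit 5) (nat_lit 648) (nat_lit 580) (nat_lit 332))) (XT.nd (nat_lit 78) (nat_lit 0) (nat_lit 0) (XT.lf (nat_lit 0) (nat_lit 3088462172) (nat_lit 532) (nat_lit 3110451728) (nat_lit 608) (nat_lit 22333710150) (nat_lit 223) (nat_lit 5) (nat_lit 230) (nat_lit 5) (nat_lit 231) (nat_lit 5) (nat_lit 649) (nat_lit 580) (nat_lit 331)) (XT.lf (nat_lit 0) (nat_lit 11986212914) (nat_lit 608) (nat_lit 8643540240) (nat_lit 76) (nat_lit 8243787599) (nat_lit 223) (nat_lit 5) (nat_lit 231) (nat_lit 5) (nat_lit 224) (nat_lit 5) (nat_lit 650) (nat_lit 580) (nat_lit 330))))))))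
noncomputable def xc190 : XT := (XT.nd (nat_lit 76284) (nat_lit 0) (nat_lit 18088) (XT.nd (nat_lit 1092) (nat_lit 1596) (nat_lit 0) (XT.nd (nat_lit 546) (nat_lit 2128) (nat_lit 0) (XT.nd (nat_lit 234) (nat_lit 912) (nat_lit 0) (XT.nd (nat_lit 78) (nat_lit 532) (nat_lit 0) (XT.lf (nat_lit 0) (nat_lit 8580378184) (nat_lit 456) (nat_lit 9381884702) (nat_lit 532) (nat_lit 11257552935) (nat_lit 217) (nat_lit 5) (nat_lit 223) (nat_lit 5) (nat_lit 224) (nat_lit 5) (nat_lit 651) (nat_lit 580) (nat_lit 329)) (XT.nd (nat_lit 78) (nat_lit 532) (nat_lit 0) (XT.lf (nat_lit 0) (nat_lit 24126518933) (nat_lit 532) (nat_lit 3324551775) (nat_lit 76) (nat_lit 2120572109) (nat_lit 217) (nat_lit 5) (nat_lit 224) (nat_lit 5) (nat_lit 218) (nat_lit 5) (nat_lit 652) (nat_lit 580) (nat_lit 328)) (XT.lf (nat_lit 0) (nat_lit 631023093) (nat_lit 532) (nat_lit 15472046460) (nat_lit 76) (nat_lit 13824297907) (nat_lit 210) (nat_lit 5) (nat_lit 217) (nat_lit 5) (nat_lit 211) (nat_lit 5)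 (nat_lit 653) (nat_lit 580) (nat_lit 327)))) (XT.nd (nat_lit 156) (nat_lit 456) (nat_lit 0) (XT.nd (nat_lit 78) (nat_lit 0) (nat_lit 0) (XT.lf (nat_lit 0) (nat_lit 2335927143) (nat_lit 456) (nat_lit 4454346430) (nat_lit 532) (nat_lit 23498523483) (nat_lit 204) (nat_lit 5) (nat_lit 210) (nat_lit 5) (nat_lit 211) (nat_lit 5) (nat_lit 654) (nat_lit 580) (nat_lit 326)) (XT.lf (nat_lit 0) (nat_lit 13222268542) (nat_lit 532) (nat_lit 9999122675) (nat_lit 76) (nat_lit 7433072956) (nat_lit 204) (nat_lit 5) (nat_lit 211) (nat_lit 5) (nat_lit 205) (nat_lit 5) (nat_lit 655) (nat_lit 580) (nat_lit 325))) (XT.nd (nat_lit 78) (nat_lit 0) (nat_lit 0) (XT.lf (nat_lit 0) (nat_lit 8389702645) (nat_lit 456) (nat_lit 11474056582) (nat_lit 532) (nat_lit 11162068405) (nat_lit 198) (nat_lit 5) (nat_lit 204) (nat_lit 5) (nat_lit 205) (nat_lit 5) (nat_lit 656) (nat_lit 580) (nat_lit 324)) (XT.lf (nat_lit 0) (nat_lit 26705831170) (nat_lit 532) (nat_lit 4129728360) (nat_lit 76) (nat_lit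 567703916) (nat_lit 198) (nat_lit 5) (nat_lit 205) (nat_lit 5) (nat_lit 199) (nat_lit 5) (nat_lit 657) (nat_lit 580) (nat_lit 323))))) (XT.nd (nat_lit 234) (nat_lit 1216) (nat_lit 0) (XT.nd (nat_lit 78) (nat_lit 456) (nat_lit 0) (XT.lf (nat_lit 0) (nat_lit 2042190560) (nat_lit 456) (nat_lit 16937041401) (nat_lit 76) (nat_lit 12805358522) (nat_lit 192) (nat_lit 5) (nat_lit 198) (nat_lit 5) (nat_lit 193) (nat_lit 5) (nat_lit 658) (nat_lit 580) (nat_lit 322)) (XT.nd (nat_lit 78) (nat_lit 0) (nat_lit 0) (XT.lf (nat_lit 0) (nat_lit 2078859379) (nat_lit 456) (nat_lit 6813279427) (nat_lit 532) (nat_lit 23280015728) (nat_lit 186) (nat_lit 5) (nat_lit 192) (nat_lit 5) (nat_lit 193) (nat_lit 5) (nat_lit 659) (nat_lit 580) (nat_lit 321)) (XT.lf (nat_lit 0) (nat_lit 16026828249) (nat_lit 532) (nat_lit 10902113829) (nat_lit 76) (nat_lit 5635573049) (nat_lit 186) (nat_lit 5) (nat_lit 193) (nat_lit 5) (nat_lit 187) (nat_lit 5) (nat_lit 660) (nat_lit 580) (nat_lit 320))))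 (XT.nd (nat_lit 156) (nat_lit 836) (nat_lit 0) (XT.nd (nat_lit 78) (nat_lit 0) (nat_lit 0) (XT.lf (nat_lit 0) (nat_lit 8737962433) (nat_lit 380) (nat_lit 14665161757) (nat_lit 456) (nat_lit 9559620591) (nat_lit 181) (nat_lit 5) (nat_lit 186) (nat_lit 5) (nat_lit 187) (nat_lit 5) (nat_lit 661) (nat_lit 580) (nat_lit 319)) (XT.lf (nat_lit 0) (nat_lit 28914242658) (nat_lit 380) (nat_lit 2082950557) (nat_lit 456) (nat_lit 2370340972) (nat_lit 181) (nat_lit 5) (nat_lit 186) (nat_lit 5) (nat_lit 187) (nat_lit 5) (nat_lit 662) (nat_lit 580) (nat_lit 318))) (XT.nd (nat_lit 78) (nat_lit 380) (nat_lit 0) (XT.lf (nat_lit 0) (nat_lit 5068591181) (nat_lit 456) (nat_lit 17963041829) (nat_lit 76) (nat_lit 10744722962) (nat_lit 175) (nat_lit 5) (nat_lit 181) (nat_lit 5) (nat_lit 176) (nat_lit 5) (nat_lit 663) (nat_lit 580) (nat_lit 317)) (XT.lf (nat_lit 0) (nat_lit 2349636897) (nat_lit 380) (nat_lit 10331232779) (nat_lit 456) (nat_lit 21511045121) (nat_lit 170) (nat_lit 5)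 (nat_lit 175) (nat_lit 5) (nat_lit 176) (nat_lit 5) (nat_lit 664) (nat_lit 580) (nat_lit 316)))))) (XT.nd (nat_lit 546) (nat_lit 76) (nat_lit 0) (XT.nd (nat_lit 234) (nat_lit 1064) (nat_lit 0) (XT.nd (nat_lit 78) (nat_lit 456) (nat_lit 0) (XT.lf (nat_lit 0) (nat_lit 20580928387) (nat_lit 456) (nat_lit 11323509066) (nat_lit 76) (nat_lit 2708636748) (nat_lit 170) (nat_lit 5) (nat_lit 176) (nat_lit 5) (nat_lit 171) (nat_lit 5) (nat_lit 665) (nat_lit 580) (nat_lit 315)) (XT.nd (nat_lit 78) (nat_lit 76) (nat_lit 0) (XT.lf (nat_lit 0) (nat_lit 9659621341) (nat_lit 380) (nat_lit 19107721473) (nat_lit 456) (nat_lit 6272746979) (nat_lit 165) (nat_lit 5) (nat_lit 170) (nat_lit 5) (nat_lit 171) (nat_lit 5) (nat_lit 666) (nat_lit 580) (nat_lit 314)) (XT.lf (nat_lit 0) (nat_lit 1694024427) (nat_lit 456) (nat_lit 4273673068) (nat_lit 76) (nat_lit 29506260738) (nat_lit 164) (nat_lit 5) (nat_lit 170) (nat_lit 5) (nat_lit 165) (nat_lit 5) (nat_lit 667) (nat_lit 580) (nat_lit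 313)))) (XT.nd (nat_lit 156) (nat_lit 304) (nat_lit 0) (XT.nd (nat_lit 78) (nat_lit 380) (nat_lit 0) (XT.lf (nat_lit 0) (nat_lit 9896009220) (nat_lit 456) (nat_lit 18524537419) (nat_lit 76) (nat_lit 7491930834) (nat_lit 159) (nat_lit 5) (nat_lit 165) (nat_lit 5) (nat_lit 160) (nat_lit 5) (nat_lit 668) (nat_lit 580) (nat_lit 312)) (XT.lf (nat_lit 0) (nat_lit 3179284562) (nat_lit 380) (nat_lit 15169079411) (nat_lit 456) (nat_lit 18009676602) (nat_lit 154) (nat_lit 5) (nat_lit 159) (nat_lit 5) (nat_lit 160) (nat_lit 5) (nat_lit 669) (nat_lit 580) (nat_lit 311))) (XT.nd (nat_lit 78) (nat_lit 304) (nat_lit 0) (XT.lf (nat_lit 0) (nat_lit 25564091847) (nat_lit 380) (nat_lit 1527307642) (nat_lit 456) (nat_lit 9718682860) (nat_lit 154) (nat_lit 5) (nat_lit 159) (nat_lit 5) (nat_lit 160) (nat_lit 5) (nat_lit 670) (nat_lit 580) (nat_lit 310)) (XT.lf (nat_lit 0) (nat_lit 11187574092) (nat_lit 304) (nat_lit 24972152400) (nat_lit 380) (nat_lit 1108429933) (nat_lit 150)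 (nat_lit 5) (nat_lit 154) (nat_lit 5) (nat_lit 155) (nat_lit 5) (nat_lit 671) (nat_lit 580) (nat_lit 309))))) (XT.nd (nat_lit 74334) (nat_lit 0) (nat_lit 26448) (XT.nd (nat_lit 74178) (nat_lit 0) (nat_lit 26372) (XT.nd (nat_lit 74100) (nat_lit 0) (nat_lit 26372) (XT.lf (nat_lit 0) (nat_lit 7656837231) (nat_lit 380) (nat_lit 3576233921) (nat_lit 76) (nat_lit 26499655302) (nat_lit 149) (nat_lit 5) (nat_lit 154) (nat_lit 5) (nat_lit 150) (nat_lit 5) (nat_lit 672) (nat_lit 580) (nat_lit 308)) (XT.lf (nat_lit 0) (nat_lit 1102587665) (nat_lit 0) (nat_lit 1102587665) (nat_lit 1748) (nat_lit 4710277960) (nat_lit 496) (nat_lit 5) (nat_lit 496) (nat_lit 3) (nat_lit 519) (nat_lit 3) (nat_lit 581) (nat_lit 581) (nat_lit 398))) (XT.nd (nat_lit 78) (nat_lit 0) (nat_lit 0) (XT.lf (nat_lit 0) (nat_lit 4836764022) (nat_lit 1748) (nat_lit 4791489103) (nat_lit 1824) (nat_lit 4333294291) (nat_lit 496) (nat_lit 5) (nat_lit 519) (nat_lit 3) (nat_lit 520) (nat_lit 5) (nat_lit 582)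 (nat_lit 581) (nat_lit 397)) (XT.lf (nat_lit 76) (nat_lit 2188682561) (nat_lit 0) (nat_lit 3102587069) (nat_lit 1824) (nat_lit 8803140738) (nat_lit 497) (nat_lit 5) (nat_lit 496) (nat_lit 5) (nat_lit 520) (nat_lit 5) (nat_lit 583) (nat_lit 581) (nat_lit 396)))) (XT.nd (nat_lit 156) (nat_lit 0) (nat_lit 76) (XT.nd (nat_lit 78) (nat_lit 0) (nat_lit 0) (XT.lf (nat_lit 0) (nat_lit 5801231583) (nat_lit 1748) (nat_lit 4884200028) (nat_lit 1824) (nat_lit 3543572208) (nat_lit 497) (nat_lit 5) (nat_lit 520) (nat_lit 5) (nat_lit 521) (nat_lit 5) (nat_lit 584) (nat_lit 581) (nat_lit 395)) (XT.lf (nat_lit 76) (nat_lit 2282206786) (nat_lit 0) (nat_lit 4065656016) (nat_lit 1824) (nat_lit 8017897494) (nat_lit 498) (nat_lit 5) (nat_lit 497) (nat_lit 5) (nat_lit 521) (nat_lit 5) (nat_lit 585) (nat_lit 581) (nat_lit 394))) (XT.nd (nat_lit 78) (nat_lit 0) (nat_lit 0) (XT.lf (nat_lit 0) (nat_lit 6947134938) (nat_lit 1748) (nat_lit 4869211962) (nat_lit 1824) (nat_lit 2688071381)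 (nat_lit 498) (nat_lit 5) (nat_lit 521) (nat_lit 5) (nat_lit 522) (nat_lit 5) (nat_lit 586) (nat_lit 581) (nat_lit 393)) (XT.lf (nat_lit 76) (nat_lit 2490146108) (nat_lit 0) (nat_lit 5102783122) (nat_lit 1824) (nat_lit 7052229994) (nat_lit 499) (nat_lit 5) (nat_lit 498) (nat_lit 5) (nat_lit 522) (nat_lit 5) (nat_lit 587) (nat_lit 581) (nat_lit 392))))))) (XT.nd (nat_lit 1170) (nat_lit 6992) (nat_lit 0) (XT.nd (nat_lit 546) (nat_lit 1520) (nat_lit 0) (XT.nd (nat_lit 234) (nat_lit 0) (nat_lit 76) (XT.nd (nat_lit 78) (nat_lit 0) (nat_lit 0) (XT.lf (nat_lit 0) (nat_lit 8287462848) (nat_lit 1748) (nat_lit 4742075674) (nat_lit 1824) (nat_lit 1758460520) (nat_lit 499) (nat_lit 5) (nat_lit 522) (nat_lit 5) (nat_lit 523) (nat_lit 5) (nat_lit 588) (nat_lit 581) (nat_lit 391)) (XT.nd (nat_lit 78) (nat_lit 0) (nat_lit 76) (XT.lf (nat_lit 76) (nat_lit 2817214198) (nat_lit 0) (nat_lit 6222524134) (nat_lit 1824) (nat_lit 5893080812) (nat_lit 500) (nat_lit 5) (nat_lit 499)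 (nat_lit 5) (nat_lit 523) (nat_lit 5) (nat_lit 589) (nat_lit 581) (nat_lit 390)) (XT.lf (nat_lit 0) (nat_lit 9835686174) (nat_lit 1748) (nat_lit 4498029407) (nat_lit 1824) (nat_lit 746248035) (nat_lit 500) (nat_lit 5) (nat_lit 523) (nat_lit 5) (nat_lit 524) (nat_lit 5) (nat_lit 590) (nat_lit 581) (nat_lit 389)))) (XT.nd (nat_lit 156) (nat_lit 0) (nat_lit 76) (XT.nd (nat_lit 78) (nat_lit 0) (nat_lit 0) (XT.lf (nat_lit 76) (nat_lit 3268446715) (nat_lit 0) (nat_lit 7433609942) (nat_lit 1824) (nat_lit 4526904739) (nat_lit 501) (nat_lit 5) (nat_lit 500) (nat_lit 5) (nat_lit 524) (nat_lit 5) (nat_lit 591) (nat_lit 581) (nat_lit 388)) (XT.lf (nat_lit 76) (nat_lit 11246149516) (nat_lit 0) (nat_lit 361985633) (nat_lit 1824) (nat_lit 3772356855) (nat_lit 501) (nat_lit 5) (nat_lit 500) (nat_lit 5) (nat_lit 524) (nat_lit 5) (nat_lit 592) (nat_lit 581) (nat_lit 387))) (XT.nd (nat_lit 78) (nat_lit 0) (nat_lit 0) (XT.lf (nat_lit 76) (nat_lit 3849208344) (nat_lit 0) (nat_lit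 8744967013) (nat_lit 1824) (nat_lit 2939641537) (nat_lit 502) (nat_lit 5) (nat_lit 501) (nat_lit 5) (nat_lit 525) (nat_lit 5) (nat_lit 593) (nat_lit 581) (nat_lit 386)) (XT.lf (nat_lit 76) (nat_lit 12040930872) (nat_lit 0) (nat_lit 1581613908) (nat_lit 1824) (nat_lit 2067211799) (nat_lit 502) (nat_lit 5) (nat_lit 501) (nat_lit 5) (nat_lit 525) (nat_lit 5) (nat_lit 594) (nat_lit 581) (nat_lit 385))))) (XT.nd (nat_lit 312) (nat_lit 0) (nat_lit 76) (XT.nd (nat_lit 156) (nat_lit 1748) (nat_lit 0) (XT.nd (nat_lit 78) (nat_lit 0) (nat_lit 0) (XT.lf (nat_lit 76) (nat_lit 4565200465) (nat_lit 0) (nat_lit 10165737978) (nat_lit 1824) (nat_lit 1116687934) (nat_lit 503) (nat_lit 5) (nat_lit 502) (nat_lit 5) (nat_lit 526) (nat_lit 5) (nat_lit 595) (nat_lit 581) (nat_lit 384)) (XT.lf (nat_lit 76) (nat_lit 12977213326) (nat_lit 0) (nat_lit 2911934366) (nat_lit 1824) (nat_lit 118953370) (nat_lit 503) (nat_lit 5) (nat_lit 502) (nat_lit 5) (nat_lit 526) (nat_lit 5) (nat_lit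 596) (nat_lit 581) (nat_lit 383))) (XT.nd (nat_lit 78) (nat_lit 0) (nat_lit 0) (XT.lf (nat_lit 0) (nat_lit 944578228) (nat_lit 1824) (nat_lit 10754385560) (nat_lit 1900) (nat_lit 4471552591) (nat_lit 479) (nat_lit 5) (nat_lit 503) (nat_lit 5) (nat_lit 504) (nat_lit 5) (nat_lit 597) (nat_lit 581) (nat_lit 382)) (XT.lf (nat_lit 0) (nat_lit 2060518062) (nat_lit 1824) (nat_lit 2288061641) (nat_lit 1900) (nat_lit 11986930387) (nat_lit 479) (nat_lit 5) (nat_lit 503) (nat_lit 5) (nat_lit 504) (nat_lit 5) (nat_lit 598) (nat_lit 581) (nat_lit 381)))) (XT.nd (nat_lit 156) (nat_lit 0) (nat_lit 76) (XT.nd (nat_lit 78) (nat_lit 0) (nat_lit 0) (XT.lf (nat_lit 0) (nat_lit 3254343884) (nat_lit 1824) (nat_lit 10097115579) (nat_lit 1900) (nat_lit 3151233281) (nat_lit 480) (nat_lit 5) (nat_lit 504) (nat_lit 5) (nat_lit 505) (nat_lit 5) (nat_lit 599) (nat_lit 581) (nat_lit 380)) (XT.lf (nat_lit 0) (nat_lit 4509522118) (nat_lit 1824) (nat_lit 1402974093) (nat_lit 1900) (nat_lit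 10759973727) (nat_lit 480) (nat_lit 5) (nat_lit 504) (nat_lit 5) (nat_lit 505) (nat_lit 5) (nat_lit 600) (nat_lit 581) (nat_lit 379))) (XT.nd (nat_lit 78) (nat_lit 0) (nat_lit 0) (XT.lf (nat_lit 0) (nat_lit 5843448065) (nat_lit 1824) (nat_lit 9296980349) (nat_lit 1900) (nat_lit 1704141774) (nat_lit 481) (nat_lit 5) (nat_lit 505) (nat_lit 5) (nat_lit 506) (nat_lit 5) (nat_lit 601) (nat_lit 581) (nat_lit 378)) (XT.lf (nat_lit 0) (nat_lit 7246145886) (nat_lit 1824) (nat_lit 368228655) (nat_lit 1900) (nat_lit 9404896426) (nat_lit 481) (nat_lit 5) (nat_lit 505) (nat_lit 5) (nat_lit 506) (nat_lit 5) (nat_lit 602) (nat_lit 581) (nat_lit 377)))))) (XT.nd (nat_lit 546) (nat_lit 4332) (nat_lit 0) (XT.nd (nat_lit 234) (nat_lit 2888) (nat_lit 0) (XT.nd (nat_lit 78) (nat_lit 0) (nat_lit 0) (XT.lf (nat_lit 0) (nat_lit 8728739131) (nat_lit 1824) (nat_lit 8347236156) (nat_lit 1900) (nat_lit 120454025) (nat_lit 482) (nat_lit 5) (nat_lit 506) (nat_lit 5) (nat_lit 507) (nat_lit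 5) (nat_lit 603) (nat_lit 581) (nat_lit 376)) (XT.nd (nat_lit 78) (nat_lit 0) (nat_lit 0) (XT.lf (nat_lit 76) (nat_lit 834103739) (nat_lit 0) (nat_lit 9458898771) (nat_lit 1900) (nat_lit 7083088323) (nat_lit 483) (nat_lit 5) (nat_lit 482) (nat_lit 5) (nat_lit 507) (nat_lit 5) (nat_lit 604) (nat_lit 581) (nat_lit 375)) (XT.lf (nat_lit 76) (nat_lit 10306987630) (nat_lit 0) (nat_lit 1631356670) (nat_lit 1900) (nat_lit 5620005787) (nat_lit 483) (nat_lit 5) (nat_lit 482) (nat_lit 5) (nat_lit 507) (nat_lit 5) (nat_lit 605) (nat_lit 581) (nat_lit 374)))) (XT.nd (nat_lit 156) (nat_lit 1140) (nat_lit 0) (XT.nd (nat_lit 78) (nat_lit 0) (nat_lit 0) (XT.lf (nat_lit 0) (nat_lit 2207522708) (nat_lit 1824) (nat_lit 11458556177) (nat_lit 1900) (nat_lit 4077186283) (nat_lit 459) (nat_lit 5) (nat_lit 483) (nat_lit 5) (nat_lit 484) (nat_lit 5) (nat_lit 606) (nat_lit 581) (nat_lit 373)) (XT.lf (nat_lit 0) (nat_lit 11937709191) (nat_lit 1824) (nat_lit 3544044674) (nat_lit 1900)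 (nat_lit 2449057323) (nat_lit 459) (nat_lit 5) (nat_lit 483) (nat_lit 5) (nat_lit 484) (nat_lit 5) (nat_lit 607) (nat_lit 581) (nat_lit 372))) (XT.nd (nat_lit 78) (nat_lit 76) (nat_lit 0) (XT.lf (nat_lit 0) (nat_lit 3754991000) (nat_lit 1064) (nat_lit 13626650349) (nat_lit 1140) (nat_lit 739509144) (nat_lit 445) (nat_lit 5) (nat_lit 459) (nat_lit 5) (nat_lit 460) (nat_lit 5) (nat_lit 608) (nat_lit 581) (nat_lit 371)) (XT.lf (nat_lit 0) (nat_lit 1049171253) (nat_lit 1140) (nat_lit 4570752704) (nat_lit 76) (nat_lit 12694080319) (nat_lit 444) (nat_lit 5) (nat_lit 459) (nat_lit 5) (nat_lit 445) (nat_lit 5) (nat_lit 609) (nat_lit 581) (nat_lit 370))))) (XT.nd (nat_lit 312) (nat_lit 2508) (nat_lit 0) (XT.nd (nat_lit 156) (nat_lit 912) (nat_lit 0) (XT.nd (nat_lit 78) (nat_lit 0) (nat_lit 0) (XT.lf (nat_lit 0) (nat_lit 2910408613) (nat_lit 988) (nat_lit 13044444746) (nat_lit 76) (nat_lit 2554830630) (nat_lit 432) (nat_lit 5) (nat_lit 445) (nat_lit 5) (nat_lit 433)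 (nat_lit 5) (nat_lit 610) (nat_lit 581) (nat_lit 369)) (XT.lf (nat_lit 0) (nat_lit 4871318904) (nat_lit 988) (nat_lit 2987442409) (nat_lit 76) (nat_lit 10849267339) (nat_lit 432) (nat_lit 5) (nat_lit 445) (nat_lit 5) (nat_lit 433) (nat_lit 5) (nat_lit 611) (nat_lit 581) (nat_lit 368))) (XT.nd (nat_lit 78) (nat_lit 0) (nat_lit 0) (XT.lf (nat_lit 0) (nat_lit 6916623714) (nat_lit 988) (nat_lit 11550314175) (nat_lit 76) (nat_lit 442499105) (nat_lit 420) (nat_lit 5) (nat_lit 433) (nat_lit 5) (nat_lit 421) (nat_lit 5) (nat_lit 612) (nat_lit 581) (nat_lit 367)) (XT.lf (nat_lit 0) (nat_lit 9069602383) (nat_lit 988) (nat_lit 1218775763) (nat_lit 76) (nat_lit 8825160308) (nat_lit 420) (nat_lit 5) (nat_lit 433) (nat_lit 5) (nat_lit 421) (nat_lit 5) (nat_lit 613) (nat_lit 581) (nat_lit 366)))) (XT.nd (nat_lit 156) (nat_lit 836) (nat_lit 0) (XT.nd (nat_lit 78) (nat_lit 836) (nat_lit 0) (XT.lf (nat_lit 0) (nat_lit 9438037141) (nat_lit 836) (nat_lit 1883531395) (nat_lit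 912) (nat_lit 7999035151) (nat_lit 409) (nat_lit 5) (nat_lit 420) (nat_lit 5) (nat_lit 421) (nat_lit 5) (nat_lit 614) (nat_lit 581) (nat_lit 365)) (XT.lf (nat_lit 0) (nat_lit 754052730) (nat_lit 836) (nat_lit 12915804796) (nat_lit 912) (nat_lit 5860927323) (nat_lit 398) (nat_lit 5) (nat_lit 409) (nat_lit 5) (nat_lit 410) (nat_lit 5) (nat_lit 615) (nat_lit 581) (nat_lit 364))) (XT.nd (nat_lit 78) (nat_lit 836) (nat_lit 0) (XT.lf (nat_lit 0) (nat_lit 11719548958) (nat_lit 836) (nat_lit 4419064887) (nat_lit 912) (nat_lit 3605086046) (nat_lit 398) (nat_lit 5) (nat_lit 409) (nat_lit 5) (nat_lit 410) (nat_lit 5) (nat_lit 616) (nat_lit 581) (nat_lit 363)) (XT.lf (nat_lit 0) (nat_lit 2949407772) (nat_lit 836) (nat_lit 15748960304) (nat_lit 912) (nat_lit 1261672987) (nat_lit 387) (nat_lit 5) (nat_lit 398) (nat_lit 5) (nat_lit 399) (nat_lit 5) (nat_lit 617) (nat_lit 581) (nat_lit 362))))))))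
noncomputable def xc191 : XT := (XT.nd (nat_lit 2262) (nat_lit 7144) (nat_lit 0) (XT.nd (nat_lit 1092) (nat_lit 4940) (nat_lit 0) (XT.nd (nat_lit 546) (nat_lit 2812) (nat_lit 0) (XT.nd (nat_lit 234) (nat_lit 2204) (nat_lit 0) (XT.nd (nat_lit 78) (nat_lit 836) (nat_lit 0) (XT.lf (nat_lit 0) (nat_lit 1192202670) (nat_lit 912) (nat_lit 5970586031) (nat_lit 76) (nat_lit 13016206151) (nat_lit 386) (nat_lit 5) (nat_lit 398) (nat_lit 5) (nat_lit 387) (nat_lit 5) (nat_lit 618) (nat_lit 581) (nat_lit 361)) (XT.nd (nat_lit 78) (nat_lit 0) (nat_lit 0) (XT.lf (nat_lit 0) (nat_lit 3718661930) (nat_lit 912) (nat_lit 15065283507) (nat_lit 76) (nat_lit 1617407755) (nat_lit 375) (nat_lit 5) (nat_lit 387) (nat_lit 5) (nat_lit 376) (nat_lit 5) (nat_lit 619) (nat_lit 581) (nat_lit 360)) (XT.lf (nat_lit 0) (nat_lit 6378508114) (nat_lit 912) (nat_lit 3730439987) (nat_lit 76) (nat_lit 10517553706) (nat_lit 375) (nat_lit 5) (nat_lit 387) (nat_lit 5) (nat_lit 376) (nat_lit 5) (nat_lit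 620) (nat_lit 581) (nat_lit 359)))) (XT.nd (nat_lit 156) (nat_lit 1444) (nat_lit 0) (XT.nd (nat_lit 78) (nat_lit 0) (nat_lit 0) (XT.lf (nat_lit 0) (nat_lit 7930032678) (nat_lit 760) (nat_lit 1208192774) (nat_lit 836) (nat_lit 11716994713) (nat_lit 365) (nat_lit 5) (nat_lit 375) (nat_lit 5) (nat_lit 376) (nat_lit 5) (nat_lit 621) (nat_lit 581) (nat_lit 358)) (XT.lf (nat_lit 0) (nat_lit 12024684139) (nat_lit 836) (nat_lit 1270128704) (nat_lit 76) (nat_lit 7792269360) (nat_lit 365) (nat_lit 5) (nat_lit 376) (nat_lit 5) (nat_lit 366) (nat_lit 5) (nat_lit 622) (nat_lit 581) (nat_lit 357))) (XT.nd (nat_lit 78) (nat_lit 684) (nat_lit 0) (XT.lf (nat_lit 0) (nat_lit 10745933876) (nat_lit 760) (nat_lit 4296049318) (nat_lit 836) (nat_lit 6280136310) (nat_lit 355) (nat_lit 5) (nat_lit 365) (nat_lit 5) (nat_lit 366) (nat_lit 5) (nat_lit 623) (nat_lit 581) (nat_lit 356)) (XT.lf (nat_lit 0) (nat_lit 1439886273) (nat_lit 684) (nat_lit 16724768520) (nat_lit 760) (nat_lit 3396302467)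 (nat_lit 346) (nat_lit 5) (nat_lit 355) (nat_lit 5) (nat_lit 356) (nat_lit 5) (nat_lit 624) (nat_lit 581) (nat_lit 355))))) (XT.nd (nat_lit 234) (nat_lit 1976) (nat_lit 0) (XT.nd (nat_lit 78) (nat_lit 836) (nat_lit 0) (XT.lf (nat_lit 0) (nat_lit 13805759771) (nat_lit 684) (nat_lit 7638709289) (nat_lit 760) (nat_lit 358209166) (nat_lit 346) (nat_lit 5) (nat_lit 355) (nat_lit 5) (nat_lit 356) (nat_lit 5) (nat_lit 625) (nat_lit 581) (nat_lit 354)) (XT.nd (nat_lit 78) (nat_lit 0) (nat_lit 0) (XT.lf (nat_lit 0) (nat_lit 2739694202) (nat_lit 836) (nat_lit 17654600207) (nat_lit 76) (nat_lit 1653883701) (nat_lit 335) (nat_lit 5) (nat_lit 346) (nat_lit 5) (nat_lit 336) (nat_lit 5) (nat_lit 626) (nat_lit 581) (nat_lit 353)) (XT.lf (nat_lit 0) (nat_lit 5994935524) (nat_lit 836) (nat_lit 5215612408) (nat_lit 76) (nat_lit 11085989403) (nat_lit 335) (nat_lit 5) (nat_lit 346) (nat_lit 5) (nat_lit 336) (nat_lit 5) (nat_lit 627) (nat_lit 581) (nat_lit 352)))) (XT.nd (nat_lit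 156) (nat_lit 1292) (nat_lit 0) (XT.nd (nat_lit 78) (nat_lit 0) (nat_lit 0) (XT.lf (nat_lit 0) (nat_lit 7566422393) (nat_lit 684) (nat_lit 1793637888) (nat_lit 760) (nat_lit 13188908111) (nat_lit 326) (nat_lit 5) (nat_lit 335) (nat_lit 5) (nat_lit 336) (nat_lit 5) (nat_lit 628) (nat_lit 581) (nat_lit 351)) (XT.lf (nat_lit 0) (nat_lit 12874138401) (nat_lit 760) (nat_lit 2186918134) (nat_lit 76) (nat_lit 7743758730) (nat_lit 326) (nat_lit 5) (nat_lit 336) (nat_lit 5) (nat_lit 327) (nat_lit 5) (nat_lit 629) (nat_lit 581) (nat_lit 350))) (XT.nd (nat_lit 78) (nat_lit 608) (nat_lit 0) (XT.lf (nat_lit 0) (nat_lit 10991987147) (nat_lit 684) (nat_lit 5545542313) (nat_lit 760) (nat_lit 6526669200) (nat_lit 317) (nat_lit 5) (nat_lit 326) (nat_lit 5) (nat_lit 327) (nat_lit 5) (nat_lit 630) (nat_lit 581) (nat_lit 349)) (XT.lf (nat_lit 0) (nat_lit 1118230815) (nat_lit 608) (nat_lit 19200833616) (nat_lit 684) (nat_lit 3008807977) (nat_lit 309) (nat_lit 5) (nat_lit 317) (nat_lit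 5) (nat_lit 318) (nat_lit 5) (nat_lit 631) (nat_lit 581) (nat_lit 348)))))) (XT.nd (nat_lit 546) (nat_lit 2280) (nat_lit 0) (XT.nd (nat_lit 234) (nat_lit 1900) (nat_lit 0) (XT.nd (nat_lit 78) (nat_lit 684) (nat_lit 0) (XT.lf (nat_lit 0) (nat_lit 685938385) (nat_lit 684) (nat_lit 8905086959) (nat_lit 76) (nat_lit 14003436705) (nat_lit 308) (nat_lit 5) (nat_lit 317) (nat_lit 5) (nat_lit 309) (nat_lit 5) (nat_lit 632) (nat_lit 581) (nat_lit 347)) (XT.nd (nat_lit 78) (nat_lit 0) (nat_lit 0) (XT.lf (nat_lit 0) (nat_lit 4442494654) (nat_lit 760) (nat_lit 19164738408) (nat_lit 76) (nat_lit 258188795) (nat_lit 299) (nat_lit 5) (nat_lit 309) (nat_lit 5) (nat_lit 300) (nat_lit 5) (nat_lit 633) (nat_lit 581) (nat_lit 346)) (XT.lf (nat_lit 0) (nat_lit 8393830479) (nat_lit 760) (nat_lit 5510170881) (nat_lit 76) (nat_lit 10235406722) (nat_lit 299) (nat_lit 5) (nat_lit 309) (nat_lit 5) (nat_lit 300) (nat_lit 5) (nat_lit 634) (nat_lit 581) (nat_lit 345)))) (XT.nd (nat_lit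 156) (nat_lit 1292) (nat_lit 0) (XT.nd (nat_lit 78) (nat_lit 0) (nat_lit 0) (XT.lf (nat_lit 0) (nat_lit 8524451662) (nat_lit 608) (nat_lit 3951144752) (nat_lit 684) (nat_lit 11942249737) (nat_lit 291) (nat_lit 5) (nat_lit 299) (nat_lit 5) (nat_lit 300) (nat_lit 5) (nat_lit 635) (nat_lit 581) (nat_lit 344)) (XT.lf (nat_lit 0) (nat_lit 16712575424) (nat_lit 684) (nat_lit 1832035829) (nat_lit 76) (nat_lit 6155770356) (nat_lit 291) (nat_lit 5) (nat_lit 300) (nat_lit 5) (nat_lit 292) (nat_lit 5) (nat_lit 636) (nat_lit 581) (nat_lit 343))) (XT.nd (nat_lit 78) (nat_lit 684) (nat_lit 0) (XT.lf (nat_lit 0) (nat_lit 12645449986) (nat_lit 608) (nat_lit 8493286952) (nat_lit 684) (nat_lit 3847742160) (nat_lit 283) (nat_lit 5) (nat_lit 291) (nat_lit 5) (nat_lit 292) (nat_lit 5) (nat_lit 637) (nat_lit 581) (nat_lit 342)) (XT.lf (nat_lit 0) (nat_lit 404535370) (nat_lit 684) (nat_lit 23108854158) (nat_lit 76) (nat_lit 1764173829) (nat_lit 274) (nat_lit 5) (nat_lit 283) (nat_lit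 5) (nat_lit 275) (nat_lit 5) (nat_lit 638) (nat_lit 581) (nat_lit 341))))) (XT.nd (nat_lit 312) (nat_lit 1140) (nat_lit 0) (XT.nd (nat_lit 156) (nat_lit 532) (nat_lit 0) (XT.nd (nat_lit 78) (nat_lit 608) (nat_lit 0) (XT.lf (nat_lit 0) (nat_lit 4826225409) (nat_lit 684) (nat_lit 8523999441) (nat_lit 76) (nat_lit 12221018185) (nat_lit 274) (nat_lit 5) (nat_lit 283) (nat_lit 5) (nat_lit 275) (nat_lit 5) (nat_lit 639) (nat_lit 581) (nat_lit 340)) (XT.lf (nat_lit 0) (nat_lit 6432168774) (nat_lit 608) (nat_lit 2942246194) (nat_lit 684) (nat_lit 16495620191) (nat_lit 266) (nat_lit 5) (nat_lit 274) (nat_lit 5) (nat_lit 275) (nat_lit 5) (nat_lit 640) (nat_lit 581) (nat_lit 339))) (XT.nd (nat_lit 78) (nat_lit 532) (nat_lit 0) (XT.lf (nat_lit 0) (nat_lit 14117310481) (nat_lit 684) (nat_lit 4425634343) (nat_lit 76) (nat_lit 7629783619) (nat_lit 266) (nat_lit 5) (nat_lit 275) (nat_lit 5) (nat_lit 267) (nat_lit 5) (nat_lit 641) (nat_lit 581) (nat_lit 338)) (XT.lf (nat_lit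 0) (nat_lit 11007032327) (nat_lit 532) (nat_lit 8035392227) (nat_lit 608) (nat_lit 7437303987) (nat_lit 259) (nat_lit 5) (nat_lit 266) (nat_lit 5) (nat_lit 267) (nat_lit 5) (nat_lit 642) (nat_lit 581) (nat_lit 337)))) (XT.nd (nat_lit 156) (nat_lit 532) (nat_lit 0) (XT.nd (nat_lit 78) (nat_lit 608) (nat_lit 0) (XT.lf (nat_lit 0) (nat_lit 24109794887) (nat_lit 608) (nat_lit 6261028) (nat_lit 76) (nat_lit 2675937802) (nat_lit 259) (nat_lit 5) (nat_lit 267) (nat_lit 5) (nat_lit 260) (nat_lit 5) (nat_lit 643) (nat_lit 581) (nat_lit 336)) (XT.lf (nat_lit 0) (nat_lit 2293682402) (nat_lit 608) (nat_lit 11202069209) (nat_lit 76) (nat_lit 13611389057) (nat_lit 251) (nat_lit 5) (nat_lit 259) (nat_lit 5) (nat_lit 252) (nat_lit 5) (nat_lit 644) (nat_lit 581) (nat_lit 335))) (XT.nd (nat_lit 78) (nat_lit 0) (nat_lit 0) (XT.lf (nat_lit 0) (nat_lit 4745966108) (nat_lit 532) (nat_lit 2614619239) (nat_lit 608) (nat_lit 20067102398) (nat_lit 244) (nat_lit 5) (nat_lit 251) (nat_lit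 5) (nat_lit 252) (nat_lit 5) (nat_lit 645) (nat_lit 581) (nat_lit 334)) (XT.lf (nat_lit 0) (nat_lit 12656139985) (nat_lit 608) (nat_lit 6648586949) (nat_lit 76) (nat_lit 8447372700) (nat_lit 244) (nat_lit 5) (nat_lit 252) (nat_lit 5) (nat_lit 245) (nat_lit 5) (nat_lit 646) (nat_lit 581) (nat_lit 333))))))) (XT.nd (nat_lit 1170) (nat_lit 2736) (nat_lit 0) (XT.nd (nat_lit 546) (nat_lit 2356) (nat_lit 0) (XT.nd (nat_lit 234) (nat_lit 988) (nat_lit 0) (XT.nd (nat_lit 78) (nat_lit 532) (nat_lit 0) (XT.lf (nat_lit 0) (nat_lit 9812001546) (nat_lit 532) (nat_lit 8323252404) (nat_lit 608) (nat_lit 9946192988) (nat_lit 237) (nat_lit 5) (nat_lit 244) (nat_lit 5) (nat_lit 245) (nat_lit 5) (nat_lit 647) (nat_lit 581) (nat_lit 332)) (XT.nd (nat_lit 78) (nat_lit 532) (nat_lit 0) (XT.lf (nat_lit 0) (nat_lit 23784201681) (nat_lit 608) (nat_lit 1748152667) (nat_lit 76) (nat_lit 2883821950) (nat_lit 237) (nat_lit 5) (nat_lit 245) (nat_lit 5) (nat_lit 238) (nat_lit 5) (nat_lit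 648) (nat_lit 581) (nat_lit 331)) (XT.lf (nat_lit 0) (nat_lit 930000309) (nat_lit 532) (nat_lit 13516849786) (nat_lit 76) (nat_lit 14307611612) (nat_lit 230) (nat_lit 5) (nat_lit 237) (nat_lit 5) (nat_lit 231) (nat_lit 5) (nat_lit 649) (nat_lit 581) (nat_lit 330)))) (XT.nd (nat_lit 156) (nat_lit 456) (nat_lit 0) (XT.nd (nat_lit 78) (nat_lit 0) (nat_lit 0) (XT.lf (nat_lit 0) (nat_lit 3498103512) (nat_lit 532) (nat_lit 3074402473) (nat_lit 608) (nat_lit 22525768357) (nat_lit 223) (nat_lit 5) (nat_lit 230) (nat_lit 5) (nat_lit 231) (nat_lit 5) (nat_lit 650) (nat_lit 581) (nat_lit 329)) (XT.lf (nat_lit 0) (nat_lit 12471282039) (nat_lit 608) (nat_lit 8471081311) (nat_lit 76) (nat_lit 8503731601) (nat_lit 223) (nat_lit 5) (nat_lit 231) (nat_lit 5) (nat_lit 224) (nat_lit 5) (nat_lit 651) (nat_lit 581) (nat_lit 328))) (XT.nd (nat_lit 78) (nat_lit 0) (nat_lit 0) (XT.lf (nat_lit 0) (nat_lit 9095043575) (nat_lit 456) (nat_lit 9469226111) (nat_lit 532) (nat_lit 11235077692)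 (nat_lit 217) (nat_lit 5) (nat_lit 223) (nat_lit 5) (nat_lit 224) (nat_lit 5) (nat_lit 652) (nat_lit 581) (nat_lit 327)) (XT.lf (nat_lit 0) (nat_lit 24847689245) (nat_lit 532) (nat_lit 3050580656) (nat_lit 76) (nat_lit 2260023631) (nat_lit 217) (nat_lit 5) (nat_lit 224) (nat_lit 5) (nat_lit 218) (nat_lit 5) (nat_lit 653) (nat_lit 581) (nat_lit 326))))) (XT.nd (nat_lit 312) (nat_lit 912) (nat_lit 0) (XT.nd (nat_lit 156) (nat_lit 456) (nat_lit 0) (XT.nd (nat_lit 78) (nat_lit 456) (nat_lit 0) (XT.lf (nat_lit 0) (nat_lit 881373228) (nat_lit 532) (nat_lit 15440096836) (nat_lit 76) (nat_lit 14199681173) (nat_lit 210) (nat_lit 5) (nat_lit 217) (nat_lit 5) (nat_lit 211) (nat_lit 5) (nat_lit 654) (nat_lit 581) (nat_lit 325)) (XT.lf (nat_lit 0) (nat_lit 2721790249) (nat_lit 456) (nat_lit 4439559053) (nat_lit 532) (nat_lit 23728509486) (nat_lit 204) (nat_lit 5) (nat_lit 210) (nat_lit 5) (nat_lit 211) (nat_lit 5) (nat_lit 655) (nat_lit 581) (nat_lit 324))) (XT.nd (nat_lit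 78) (nat_lit 456) (nat_lit 0) (XT.lf (nat_lit 0) (nat_lit 13718032226) (nat_lit 532) (nat_lit 9862649883) (nat_lit 76) (nat_lit 7682236351) (nat_lit 204) (nat_lit 5) (nat_lit 211) (nat_lit 5) (nat_lit 205) (nat_lit 5) (nat_lit 656) (nat_lit 581) (nat_lit 323)) (XT.lf (nat_lit 0) (nat_lit 8891738423) (nat_lit 456) (nat_lit 11598248768) (nat_lit 532) (nat_lit 11151769477) (nat_lit 198) (nat_lit 5) (nat_lit 204) (nat_lit 5) (nat_lit 205) (nat_lit 5) (nat_lit 657) (nat_lit 581) (nat_lit 322)))) (XT.nd (nat_lit 156) (nat_lit 456) (nat_lit 0) (XT.nd (nat_lit 78) (nat_lit 456) (nat_lit 0) (XT.lf (nat_lit 0) (nat_lit 27465081504) (nat_lit 532) (nat_lit 3880807598) (nat_lit 76) (nat_lit 680928643) (nat_lit 198) (nat_lit 5) (nat_lit 205) (nat_lit 5) (nat_lit 199) (nat_lit 5) (nat_lit 658) (nat_lit 581) (nat_lit 321)) (XT.lf (nat_lit 0) (nat_lit 2307375855) (nat_lit 456) (nat_lit 16943458568) (nat_lit 76) (nat_lit 13164953065) (nat_lit 192) (nat_lit 5) (nat_lit 198)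 (nat_lit 5) (nat_lit 193) (nat_lit 5) (nat_lit 659) (nat_lit 581) (nat_lit 320))) (XT.nd (nat_lit 78) (nat_lit 0) (nat_lit 0) (XT.lf (nat_lit 0) (nat_lit 2450573887) (nat_lit 456) (nat_lit 6841493797) (nat_lit 532) (nat_lit 23519080401) (nat_lit 186) (nat_lit 5) (nat_lit 192) (nat_lit 5) (nat_lit 193) (nat_lit 5) (nat_lit 660) (nat_lit 581) (nat_lit 319)) (XT.lf (nat_lit 0) (nat_lit 16565784072) (nat_lit 532) (nat_lit 10792817556) (nat_lit 76) (nat_lit 5852827752) (nat_lit 186) (nat_lit 5) (nat_lit 193) (nat_lit 5) (nat_lit 187) (nat_lit 5) (nat_lit 661) (nat_lit 581) (nat_lit 318)))))) (XT.nd (nat_lit 546) (nat_lit 1064) (nat_lit 0) (XT.nd (nat_lit 234) (nat_lit 836) (nat_lit 0) (XT.nd (nat_lit 78) (nat_lit 456) (nat_lit 0) (XT.lf (nat_lit 0) (nat_lit 9237906688) (nat_lit 380) (nat_lit 14849527829) (nat_lit 456) (nat_lit 9530232689) (nat_lit 181) (nat_lit 5) (nat_lit 186) (nat_lit 5) (nat_lit 187) (nat_lit 5) (nat_lit 662) (nat_lit 581) (nat_lit 317)) (XT.nd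 (nat_lit 78) (nat_lit 456) (nat_lit 0) (XT.lf (nat_lit 0) (nat_lit 29811336340) (nat_lit 380) (nat_lit 2017808428) (nat_lit 456) (nat_lit 2201492581) (nat_lit 181) (nat_lit 5) (nat_lit 186) (nat_lit 5) (nat_lit 187) (nat_lit 5) (nat_lit 663) (nat_lit 581) (nat_lit 316)) (XT.lf (nat_lit 0) (nat_lit 5381974626) (nat_lit 456) (nat_lit 17999235945) (nat_lit 76) (nat_lit 11066425207) (nat_lit 175) (nat_lit 5) (nat_lit 181) (nat_lit 5) (nat_lit 176) (nat_lit 5) (nat_lit 664) (nat_lit 581) (nat_lit 315)))) (XT.nd (nat_lit 156) (nat_lit 456) (nat_lit 0) (XT.nd (nat_lit 78) (nat_lit 0) (nat_lit 0) (XT.lf (nat_lit 0) (nat_lit 2717570917) (nat_lit 380) (nat_lit 10426854448) (nat_lit 456) (nat_lit 21727122021) (nat_lit 170) (nat_lit 5) (nat_lit 175) (nat_lit 5) (nat_lit 176) (nat_lit 5) (nat_lit 665) (nat_lit 581) (nat_lit 314)) (XT.lf (nat_lit 0) (nat_lit 21199075386) (nat_lit 456) (nat_lit 11231914263) (nat_lit 76) (nat_lit 2870208662) (nat_lit 170) (nat_lit 5) (nat_lit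 176) (nat_lit 5) (nat_lit 171) (nat_lit 5) (nat_lit 666) (nat_lit 581) (nat_lit 313))) (XT.nd (nat_lit 78) (nat_lit 76) (nat_lit 0) (XT.lf (nat_lit 0) (nat_lit 10168786218) (nat_lit 380) (nat_lit 19378433808) (nat_lit 456) (nat_lit 6189574283) (nat_lit 165) (nat_lit 5) (nat_lit 170) (nat_lit 5) (nat_lit 171) (nat_lit 5) (nat_lit 667) (nat_lit 581) (nat_lit 312)) (XT.lf (nat_lit 0) (nat_lit 1929759275) (nat_lit 456) (nat_lit 4046680666) (nat_lit 76) (nat_lit 30202953958) (nat_lit 164) (nat_lit 5) (nat_lit 170) (nat_lit 5) (nat_lit 165) (nat_lit 5) (nat_lit 668) (nat_lit 581) (nat_lit 311))))) (XT.nd (nat_lit 74412) (nat_lit 0) (nat_lit 26296) (XT.nd (nat_lit 156) (nat_lit 304) (nat_lit 0) (XT.nd (nat_lit 78) (nat_lit 380) (nat_lit 0) (XT.lf (nat_lit 0) (nat_lit 10294558652) (nat_lit 456) (nat_lit 18581330905) (nat_lit 76) (nat_lit 7750818593) (nat_lit 159) (nat_lit 5) (nat_lit 165) (nat_lit 5) (nat_lit 160) (nat_lit 5) (nat_lit 669) (nat_lit 581) (nat_lit 310))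 (XT.lf (nat_lit 0) (nat_lit 3554503717) (nat_lit 380) (nat_lit 15359546207) (nat_lit 456) (nat_lit 18167170925) (nat_lit 154) (nat_lit 5) (nat_lit 159) (nat_lit 5) (nat_lit 160) (nat_lit 5) (nat_lit 670) (nat_lit 581) (nat_lit 309))) (XT.nd (nat_lit 78) (nat_lit 304) (nat_lit 0) (XT.lf (nat_lit 0) (nat_lit 26380896688) (nat_lit 380) (nat_lit 1447153018) (nat_lit 456) (nat_lit 9714331802) (nat_lit 154) (nat_lit 5) (nat_lit 159) (nat_lit 5) (nat_lit 160) (nat_lit 5) (nat_lit 671) (nat_lit 581) (nat_lit 308)) (XT.lf (nat_lit 0) (nat_lit 11718001357) (nat_lit 304) (nat_lit 25358617641) (nat_lit 380) (nat_lit 933020671) (nat_lit 150) (nat_lit 5) (nat_lit 154) (nat_lit 5) (nat_lit 155) (nat_lit 5) (nat_lit 672) (nat_lit 581) (nat_lit 307)))) (XT.nd (nat_lit 156) (nat_lit 0) (nat_lit 0) (XT.nd (nat_lit 78) (nat_lit 0) (nat_lit 0) (XT.lf (nat_lit 0) (nat_lit 1300391531) (nat_lit 0) (nat_lit 1300391531) (nat_lit 1748) (nat_lit 4445927318) (nat_lit 496) (nat_lit 5)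 (nat_lit 496) (nat_lit 3) (nat_lit 519) (nat_lit 3) (nat_lit 582) (nat_lit 582) (nat_lit 396)) (XT.lf (nat_lit 0) (nat_lit 5620485827) (nat_lit 1748) (nat_lit 4526642049) (nat_lit 1824) (nat_lit 4079867838) (nat_lit 496) (nat_lit 5) (nat_lit 519) (nat_lit 3) (nat_lit 520) (nat_lit 5) (nat_lit 583) (nat_lit 582) (nat_lit 395))) (XT.nd (nat_lit 78) (nat_lit 0) (nat_lit 76) (XT.lf (nat_lit 76) (nat_lit 2590760175) (nat_lit 0) (nat_lit 3482177395) (nat_lit 1824) (nat_lit 8289802075) (nat_lit 497) (nat_lit 5) (nat_lit 496) (nat_lit 5) (nat_lit 520) (nat_lit 5) (nat_lit 584) (nat_lit 582) (nat_lit 394)) (XT.lf (nat_lit 0) (nat_lit 6577825702) (nat_lit 1748) (nat_lit 4615291319) (nat_lit 1824) (nat_lit 3307214232) (nat_lit 497) (nat_lit 5) (nat_lit 520) (nat_lit 5) (nat_lit 521) (nat_lit 5) (nat_lit 585) (nat_lit 582) (nat_lit 393))))))))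
noncomputable def xc192 : XT := (XT.nd (nat_lit 2262) (nat_lit 12236) (nat_lit 0) (XT.nd (nat_lit 1092) (nat_lit 4408) (nat_lit 0) (XT.nd (nat_lit 546) (nat_lit 1444) (nat_lit 0) (XT.nd (nat_lit 234) (nat_lit 0) (nat_lit 152) (XT.nd (nat_lit 78) (nat_lit 0) (nat_lit 76) (XT.lf (nat_lit 76) (nat_lit 2692031837) (nat_lit 0) (nat_lit 4432769869) (nat_lit 1824) (nat_lit 7515233717) (nat_lit 498) (nat_lit 5) (nat_lit 497) (nat_lit 5) (nat_lit 521) (nat_lit 5) (nat_lit 586) (nat_lit 582) (nat_lit 392)) (XT.nd (nat_lit 78) (nat_lit 0) (nat_lit 0) (XT.lf (nat_lit 0) (nat_lit 7721495323) (nat_lit 1748) (nat_lit 4594952474) (nat_lit 1824) (nat_lit 2465310843) (nat_lit 498) (nat_lit 5) (nat_lit 521) (nat_lit 5) (nat_lit 522) (nat_lit 5) (nat_lit 587) (nat_lit 582) (nat_lit 391)) (XT.lf (nat_lit 76) (nat_lit 2909147732) (nat_lit 0) (nat_lit 5460995681) (nat_lit 1824) (nat_lit 6555373009) (nat_lit 499) (nat_lit 5) (nat_lit 498) (nat_lit 5) (nat_lit 522) (nat_lit 5) (nat_lit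 588) (nat_lit 582) (nat_lit 390)))) (XT.nd (nat_lit 156) (nat_lit 0) (nat_lit 76) (XT.nd (nat_lit 78) (nat_lit 0) (nat_lit 0) (XT.lf (nat_lit 0) (nat_lit 9064675300) (nat_lit 1748) (nat_lit 4461027159) (nat_lit 1824) (nat_lit 1545789188) (nat_lit 499) (nat_lit 5) (nat_lit 522) (nat_lit 5) (nat_lit 523) (nat_lit 5) (nat_lit 589) (nat_lit 582) (nat_lit 389)) (XT.lf (nat_lit 76) (nat_lit 3246975550) (nat_lit 0) (nat_lit 6575455740) (nat_lit 1824) (nat_lit 5396968908) (nat_lit 500) (nat_lit 5) (nat_lit 499) (nat_lit 5) (nat_lit 523) (nat_lit 5) (nat_lit 590) (nat_lit 582) (nat_lit 388))) (XT.nd (nat_lit 78) (nat_lit 0) (nat_lit 0) (XT.lf (nat_lit 0) (nat_lit 10621041800) (nat_lit 1748) (nat_lit 4208601909) (nat_lit 1824) (nat_lit 540109708) (nat_lit 500) (nat_lit 5) (nat_lit 523) (nat_lit 5) (nat_lit 524) (nat_lit 5) (nat_lit 591) (nat_lit 582) (nat_lit 387)) (XT.lf (nat_lit 76) (nat_lit 3710707761) (nat_lit 0) (nat_lit 7784936967) (nat_lit 1824) (nat_lit 4026269044)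 (nat_lit 501) (nat_lit 5) (nat_lit 500) (nat_lit 5) (nat_lit 524) (nat_lit 5) (nat_lit 592) (nat_lit 582) (nat_lit 386))))) (XT.nd (nat_lit 234) (nat_lit 1672) (nat_lit 0) (XT.nd (nat_lit 78) (nat_lit 0) (nat_lit 76) (XT.lf (nat_lit 76) (nat_lit 11840574576) (nat_lit 0) (nat_lit 567906548) (nat_lit 1824) (nat_lit 3268221844) (nat_lit 501) (nat_lit 5) (nat_lit 500) (nat_lit 5) (nat_lit 524) (nat_lit 5) (nat_lit 593) (nat_lit 582) (nat_lit 385)) (XT.nd (nat_lit 78) (nat_lit 0) (nat_lit 0) (XT.lf (nat_lit 76) (nat_lit 4305869013) (nat_lit 0) (nat_lit 9098432711) (nat_lit 1824) (nat_lit 2428992132) (nat_lit 502) (nat_lit 5) (nat_lit 501) (nat_lit 5) (nat_lit 525) (nat_lit 5) (nat_lit 594) (nat_lit 582) (nat_lit 384)) (XT.lf (nat_lit 76) (nat_lit 12653981354) (nat_lit 0) (nat_lit 1788311243) (nat_lit 1824) (nat_lit 1550279333) (nat_lit 502) (nat_lit 5) (nat_lit 501) (nat_lit 5) (nat_lit 525) (nat_lit 5) (nat_lit 595) (nat_lit 582) (nat_lit 383)))) (XT.nd (nat_lit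 156) (nat_lit 0) (nat_lit 76) (XT.nd (nat_lit 78) (nat_lit 1824) (nat_lit 0) (XT.lf (nat_lit 76) (nat_lit 5038324150) (nat_lit 0) (nat_lit 10525163345) (nat_lit 1824) (nat_lit 590299625) (nat_lit 503) (nat_lit 5) (nat_lit 502) (nat_lit 5) (nat_lit 526) (nat_lit 5) (nat_lit 596) (nat_lit 582) (nat_lit 382)) (XT.lf (nat_lit 0) (nat_lit 411166191) (nat_lit 1824) (nat_lit 2709297336) (nat_lit 1900) (nat_lit 13197165276) (nat_lit 478) (nat_lit 5) (nat_lit 502) (nat_lit 5) (nat_lit 503) (nat_lit 5) (nat_lit 597) (nat_lit 582) (nat_lit 381))) (XT.nd (nat_lit 78) (nat_lit 0) (nat_lit 0) (XT.lf (nat_lit 0) (nat_lit 1485492075) (nat_lit 1824) (nat_lit 10579136569) (nat_lit 1900) (nat_lit 4418826353) (nat_lit 479) (nat_lit 5) (nat_lit 503) (nat_lit 5) (nat_lit 504) (nat_lit 5) (nat_lit 598) (nat_lit 582) (nat_lit 380)) (XT.lf (nat_lit 0) (nat_lit 2613514974) (nat_lit 1824) (nat_lit 1951139833) (nat_lit 1900) (nat_lit 12087299102) (nat_lit 479) (nat_lit 5) (nat_lit 503)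 (nat_lit 5) (nat_lit 504) (nat_lit 5) (nat_lit 599) (nat_lit 582) (nat_lit 379)))))) (XT.nd (nat_lit 546) (nat_lit 4560) (nat_lit 0) (XT.nd (nat_lit 234) (nat_lit 0) (nat_lit 76) (XT.nd (nat_lit 78) (nat_lit 0) (nat_lit 0) (XT.lf (nat_lit 0) (nat_lit 3822845125) (nat_lit 1824) (nat_lit 9907972610) (nat_lit 1900) (nat_lit 3091830526) (nat_lit 480) (nat_lit 5) (nat_lit 504) (nat_lit 5) (nat_lit 505) (nat_lit 5) (nat_lit 600) (nat_lit 582) (nat_lit 378)) (XT.nd (nat_lit 78) (nat_lit 0) (nat_lit 76) (XT.lf (nat_lit 0) (nat_lit 5093256053) (nat_lit 1824) (nat_lit 1047616633) (nat_lit 1900) (nat_lit 10855146319) (nat_lit 480) (nat_lit 5) (nat_lit 504) (nat_lit 5) (nat_lit 505) (nat_lit 5) (nat_lit 601) (nat_lit 582) (nat_lit 377)) (XT.lf (nat_lit 0) (nat_lit 6445971598) (nat_lit 1824) (nat_lit 9091585209) (nat_lit 1900) (nat_lit 1634162809) (nat_lit 481) (nat_lit 5) (nat_lit 505) (nat_lit 5) (nat_lit 506) (nat_lit 5) (nat_lit 602) (nat_lit 582) (nat_lit 376))))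 (XT.nd (nat_lit 156) (nat_lit 0) (nat_lit 76) (XT.nd (nat_lit 78) (nat_lit 0) (nat_lit 76) (XT.lf (nat_lit 76) (nat_lit 8175511) (nat_lit 0) (nat_lit 7859078306) (nat_lit 1900) (nat_lit 9482850551) (nat_lit 482) (nat_lit 5) (nat_lit 481) (nat_lit 5) (nat_lit 506) (nat_lit 5) (nat_lit 603) (nat_lit 582) (nat_lit 375)) (XT.lf (nat_lit 0) (nat_lit 9372012305) (nat_lit 1824) (nat_lit 8123058058) (nat_lit 1900) (nat_lit 35885806) (nat_lit 482) (nat_lit 5) (nat_lit 506) (nat_lit 5) (nat_lit 507) (nat_lit 5) (nat_lit 604) (nat_lit 582) (nat_lit 374))) (XT.nd (nat_lit 78) (nat_lit 0) (nat_lit 0) (XT.lf (nat_lit 76) (nat_lit 1239335458) (nat_lit 0) (nat_lit 9721558050) (nat_lit 1900) (nat_lit 6753451304) (nat_lit 483) (nat_lit 5) (nat_lit 482) (nat_lit 5) (nat_lit 507) (nat_lit 5) (nat_lit 605) (nat_lit 582) (nat_lit 373)) (XT.lf (nat_lit 76) (nat_lit 10894058407) (nat_lit 0) (nat_lit 1736024297) (nat_lit 1900) (nat_lit 5270348270) (nat_lit 483) (nat_lit 5) (nat_lit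 482) (nat_lit 5) (nat_lit 507) (nat_lit 5) (nat_lit 606) (nat_lit 582) (nat_lit 372))))) (XT.nd (nat_lit 312) (nat_lit 1824) (nat_lit 0) (XT.nd (nat_lit 156) (nat_lit 1140) (nat_lit 0) (XT.nd (nat_lit 78) (nat_lit 0) (nat_lit 0) (XT.lf (nat_lit 0) (nat_lit 2639589056) (nat_lit 1824) (nat_lit 11745961174) (nat_lit 1900) (nat_lit 3703631084) (nat_lit 459) (nat_lit 5) (nat_lit 483) (nat_lit 5) (nat_lit 484) (nat_lit 5) (nat_lit 607) (nat_lit 582) (nat_lit 371)) (XT.lf (nat_lit 0) (nat_lit 12556773075) (nat_lit 1824) (nat_lit 3672017599) (nat_lit 1900) (nat_lit 2051863054) (nat_lit 459) (nat_lit 5) (nat_lit 483) (nat_lit 5) (nat_lit 484) (nat_lit 5) (nat_lit 608) (nat_lit 582) (nat_lit 370))) (XT.nd (nat_lit 78) (nat_lit 76) (nat_lit 0) (XT.lf (nat_lit 0) (nat_lit 4216982685) (nat_lit 1064) (nat_lit 13943265266) (nat_lit 1140) (nat_lit 314680931) (nat_lit 445) (nat_lit 5) (nat_lit 459) (nat_lit 5) (nat_lit 460) (nat_lit 5) (nat_lit 609) (nat_lit 582) (nat_lit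 369)) (XT.lf (nat_lit 0) (nat_lit 1495500484) (nat_lit 1140) (nat_lit 4277185217) (nat_lit 76) (nat_lit 12899067575) (nat_lit 444) (nat_lit 5) (nat_lit 459) (nat_lit 5) (nat_lit 445) (nat_lit 5) (nat_lit 610) (nat_lit 582) (nat_lit 368)))) (XT.nd (nat_lit 156) (nat_lit 912) (nat_lit 0) (XT.nd (nat_lit 78) (nat_lit 0) (nat_lit 0) (XT.lf (nat_lit 0) (nat_lit 3387865113) (nat_lit 988) (nat_lit 12914229926) (nat_lit 76) (nat_lit 2569373967) (nat_lit 432) (nat_lit 5) (nat_lit 445) (nat_lit 5) (nat_lit 433) (nat_lit 5) (nat_lit 611) (nat_lit 582) (nat_lit 367)) (XT.lf (nat_lit 0) (nat_lit 5379773054) (nat_lit 988) (nat_lit 2663756242) (nat_lit 76) (nat_lit 11030416142) (nat_lit 432) (nat_lit 5) (nat_lit 445) (nat_lit 5) (nat_lit 433) (nat_lit 5) (nat_lit 612) (nat_lit 582) (nat_lit 366))) (XT.nd (nat_lit 78) (nat_lit 0) (nat_lit 0) (XT.lf (nat_lit 0) (nat_lit 7460238469) (nat_lit 988) (nat_lit 11392117178) (nat_lit 76) (nat_lit 427141666) (nat_lit 420) (nat_lit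 5) (nat_lit 433) (nat_lit 5) (nat_lit 421) (nat_lit 5) (nat_lit 613) (nat_lit 582) (nat_lit 365)) (XT.lf (nat_lit 0) (nat_lit 9648330001) (nat_lit 988) (nat_lit 861579435) (nat_lit 76) (nat_lit 8977930749) (nat_lit 420) (nat_lit 5) (nat_lit 433) (nat_lit 5) (nat_lit 421) (nat_lit 5) (nat_lit 614) (nat_lit 582) (nat_lit 364))))))) (XT.nd (nat_lit 1092) (nat_lit 5776) (nat_lit 0) (XT.nd (nat_lit 546) (nat_lit 3040) (nat_lit 0) (XT.nd (nat_lit 234) (nat_lit 1748) (nat_lit 0) (XT.nd (nat_lit 78) (nat_lit 836) (nat_lit 0) (XT.lf (nat_lit 0) (nat_lit 10005859387) (nat_lit 836) (nat_lit 1934146315) (nat_lit 912) (nat_lit 7759148053) (nat_lit 409) (nat_lit 5) (nat_lit 420) (nat_lit 5) (nat_lit 421) (nat_lit 5) (nat_lit 615) (nat_lit 582) (nat_lit 363)) (XT.nd (nat_lit 78) (nat_lit 0) (nat_lit 0) (XT.lf (nat_lit 0) (nat_lit 1153595234) (nat_lit 836) (nat_lit 13176392633) (nat_lit 912) (nat_lit 5583656554) (nat_lit 398) (nat_lit 5) (nat_lit 409) (nat_lit 5) (nat_lit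 410) (nat_lit 5) (nat_lit 616) (nat_lit 582) (nat_lit 362)) (XT.lf (nat_lit 0) (nat_lit 12330862927) (nat_lit 836) (nat_lit 4509673382) (nat_lit 912) (nat_lit 3290433537) (nat_lit 398) (nat_lit 5) (nat_lit 409) (nat_lit 5) (nat_lit 410) (nat_lit 5) (nat_lit 617) (nat_lit 582) (nat_lit 361)))) (XT.nd (nat_lit 156) (nat_lit 836) (nat_lit 0) (XT.nd (nat_lit 78) (nat_lit 76) (nat_lit 0) (XT.lf (nat_lit 0) (nat_lit 3390407544) (nat_lit 836) (nat_lit 16056109859) (nat_lit 912) (nat_lit 905220214) (nat_lit 387) (nat_lit 5) (nat_lit 398) (nat_lit 5) (nat_lit 399) (nat_lit 5) (nat_lit 618) (nat_lit 582) (nat_lit 360)) (XT.lf (nat_lit 0) (nat_lit 1585341183) (nat_lit 912) (nat_lit 5710549003) (nat_lit 76) (nat_lit 13279278847) (nat_lit 386) (nat_lit 5) (nat_lit 398) (nat_lit 5) (nat_lit 387) (nat_lit 5) (nat_lit 619) (nat_lit 582) (nat_lit 359))) (XT.nd (nat_lit 78) (nat_lit 0) (nat_lit 0) (XT.lf (nat_lit 0) (nat_lit 4157616829) (nat_lit 912) (nat_lit 14982408191) (nat_lit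 76) (nat_lit 1662044165) (nat_lit 375) (nat_lit 5) (nat_lit 387) (nat_lit 5) (nat_lit 376) (nat_lit 5) (nat_lit 620) (nat_lit 582) (nat_lit 358)) (XT.lf (nat_lit 0) (nat_lit 6863511277) (nat_lit 912) (nat_lit 3428400761) (nat_lit 76) (nat_lit 10739952089) (nat_lit 375) (nat_lit 5) (nat_lit 387) (nat_lit 5) (nat_lit 376) (nat_lit 5) (nat_lit 621) (nat_lit 582) (nat_lit 357))))) (XT.nd (nat_lit 234) (nat_lit 1520) (nat_lit 0) (XT.nd (nat_lit 78) (nat_lit 760) (nat_lit 0) (XT.lf (nat_lit 0) (nat_lit 8462803410) (nat_lit 760) (nat_lit 1211040422) (nat_lit 836) (nat_lit 11591404976) (nat_lit 365) (nat_lit 5) (nat_lit 375) (nat_lit 5) (nat_lit 376) (nat_lit 5) (nat_lit 622) (nat_lit 582) (nat_lit 356)) (XT.nd (nat_lit 78) (nat_lit 760) (nat_lit 0) (XT.lf (nat_lit 0) (nat_lit 12611248674) (nat_lit 836) (nat_lit 921896533) (nat_lit 76) (nat_lit 7968738906) (nat_lit 365) (nat_lit 5) (nat_lit 376) (nat_lit 5) (nat_lit 366) (nat_lit 5) (nat_lit 623) (nat_lit 582) (nat_lit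 355)) (XT.lf (nat_lit 0) (nat_lit 11332029175) (nat_lit 760) (nat_lit 4352488757) (nat_lit 836) (nat_lit 6057192102) (nat_lit 355) (nat_lit 5) (nat_lit 365) (nat_lit 5) (nat_lit 366) (nat_lit 5) (nat_lit 624) (nat_lit 582) (nat_lit 354)))) (XT.nd (nat_lit 156) (nat_lit 836) (nat_lit 0) (XT.nd (nat_lit 78) (nat_lit 0) (nat_lit 0) (XT.lf (nat_lit 0) (nat_lit 1844035296) (nat_lit 684) (nat_lit 17021532455) (nat_lit 760) (nat_lit 3119838652) (nat_lit 346) (nat_lit 5) (nat_lit 355) (nat_lit 5) (nat_lit 356) (nat_lit 5) (nat_lit 625) (nat_lit 582) (nat_lit 353)) (XT.lf (nat_lit 0) (nat_lit 14449866434) (nat_lit 684) (nat_lit 7754491871) (nat_lit 760) (nat_lit 27736227) (nat_lit 346) (nat_lit 5) (nat_lit 355) (nat_lit 5) (nat_lit 356) (nat_lit 5) (nat_lit 626) (nat_lit 582) (nat_lit 352))) (XT.nd (nat_lit 78) (nat_lit 0) (nat_lit 0) (XT.lf (nat_lit 0) (nat_lit 3123831331) (nat_lit 836) (nat_lit 17631373354) (nat_lit 76) (nat_lit 1727333534) (nat_lit 335) (nat_lit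 5) (nat_lit 346) (nat_lit 5) (nat_lit 336) (nat_lit 5) (nat_lit 627) (nat_lit 582) (nat_lit 351)) (XT.lf (nat_lit 0) (nat_lit 6437719768) (nat_lit 836) (nat_lit 4950984600) (nat_lit 76) (nat_lit 11347289739) (nat_lit 335) (nat_lit 5) (nat_lit 346) (nat_lit 5) (nat_lit 336) (nat_lit 5) (nat_lit 628) (nat_lit 582) (nat_lit 350)))))) (XT.nd (nat_lit 546) (nat_lit 3040) (nat_lit 0) (XT.nd (nat_lit 234) (nat_lit 1368) (nat_lit 0) (XT.nd (nat_lit 78) (nat_lit 684) (nat_lit 0) (XT.lf (nat_lit 0) (nat_lit 8084263660) (nat_lit 684) (nat_lit 1781931915) (nat_lit 760) (nat_lit 13127357556) (nat_lit 326) (nat_lit 5) (nat_lit 335) (nat_lit 5) (nat_lit 336) (nat_lit 5) (nat_lit 629) (nat_lit 582) (nat_lit 349)) (XT.nd (nat_lit 78) (nat_lit 684) (nat_lit 0) (XT.lf (nat_lit 0) (nat_lit 13444604504) (nat_lit 760) (nat_lit 1865363815) (nat_lit 76) (nat_lit 7944667951) (nat_lit 326) (nat_lit 5) (nat_lit 336) (nat_lit 5) (nat_lit 327) (nat_lit 5) (nat_lit 630) (nat_lit 582) (nat_lit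 348)) (XT.lf (nat_lit 0) (nat_lit 11574716330) (nat_lit 684) (nat_lit 5602766245) (nat_lit 760) (nat_lit 6341800681) (nat_lit 317) (nat_lit 5) (nat_lit 326) (nat_lit 5) (nat_lit 327) (nat_lit 5) (nat_lit 631) (nat_lit 582) (nat_lit 347)))) (XT.nd (nat_lit 156) (nat_lit 684) (nat_lit 0) (XT.nd (nat_lit 78) (nat_lit 76) (nat_lit 0) (XT.lf (nat_lit 0) (nat_lit 1506909754) (nat_lit 608) (nat_lit 19524395788) (nat_lit 684) (nat_lit 2756992091) (nat_lit 309) (nat_lit 5) (nat_lit 317) (nat_lit 5) (nat_lit 318) (nat_lit 5) (nat_lit 632) (nat_lit 582) (nat_lit 346)) (XT.lf (nat_lit 0) (nat_lit 1001520108) (nat_lit 684) (nat_lit 8720030966) (nat_lit 76) (nat_lit 14338748515) (nat_lit 308) (nat_lit 5) (nat_lit 317) (nat_lit 5) (nat_lit 309) (nat_lit 5) (nat_lit 633) (nat_lit 582) (nat_lit 345))) (XT.nd (nat_lit 78) (nat_lit 0) (nat_lit 0) (XT.lf (nat_lit 0) (nat_lit 4830036645) (nat_lit 760) (nat_lit 19181690426) (nat_lit 76) (nat_lit 325015222) (nat_lit 299) (nat_lit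 5) (nat_lit 309) (nat_lit 5) (nat_lit 300) (nat_lit 5) (nat_lit 634) (nat_lit 582) (nat_lit 344)) (XT.lf (nat_lit 0) (nat_lit 8854542479) (nat_lit 760) (nat_lit 5261214740) (nat_lit 76) (nat_lit 10500568435) (nat_lit 299) (nat_lit 5) (nat_lit 309) (nat_lit 5) (nat_lit 300) (nat_lit 5) (nat_lit 635) (nat_lit 582) (nat_lit 343))))) (XT.nd (nat_lit 312) (nat_lit 1140) (nat_lit 0) (XT.nd (nat_lit 156) (nat_lit 1292) (nat_lit 0) (XT.nd (nat_lit 78) (nat_lit 0) (nat_lit 0) (XT.lf (nat_lit 0) (nat_lit 9051737362) (nat_lit 608) (nat_lit 3962781060) (nat_lit 684) (nat_lit 11885882841) (nat_lit 291) (nat_lit 5) (nat_lit 299) (nat_lit 5) (nat_lit 300) (nat_lit 5) (nat_lit 636) (nat_lit 582) (nat_lit 342)) (XT.lf (nat_lit 0) (nat_lit 17330991244) (nat_lit 684) (nat_lit 1513616781) (nat_lit 76) (nat_lit 6344084586) (nat_lit 291) (nat_lit 5) (nat_lit 300) (nat_lit 5) (nat_lit 292) (nat_lit 5) (nat_lit 637) (nat_lit 582) (nat_lit 341))) (XT.nd (nat_lit 78) (nat_lit 684)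 (nat_lit 0) (XT.lf (nat_lit 0) (nat_lit 13251082831) (nat_lit 608) (nat_lit 8591311426) (nat_lit 684) (nat_lit 3638183690) (nat_lit 283) (nat_lit 5) (nat_lit 291) (nat_lit 5) (nat_lit 292) (nat_lit 5) (nat_lit 638) (nat_lit 582) (nat_lit 340)) (XT.lf (nat_lit 0) (nat_lit 692621459) (nat_lit 684) (nat_lit 23211764067) (nat_lit 76) (nat_lit 1873116617) (nat_lit 274) (nat_lit 5) (nat_lit 283) (nat_lit 5) (nat_lit 275) (nat_lit 5) (nat_lit 639) (nat_lit 582) (nat_lit 339)))) (XT.nd (nat_lit 156) (nat_lit 532) (nat_lit 0) (XT.nd (nat_lit 78) (nat_lit 608) (nat_lit 0) (XT.lf (nat_lit 0) (nat_lit 5197255194) (nat_lit 684) (nat_lit 8342256710) (nat_lit 76) (nat_lit 12537653560) (nat_lit 274) (nat_lit 5) (nat_lit 283) (nat_lit 5) (nat_lit 275) (nat_lit 5) (nat_lit 640) (nat_lit 582) (nat_lit 338)) (XT.lf (nat_lit 0) (nat_lit 6910717614) (nat_lit 608) (nat_lit 2922580291) (nat_lit 684) (nat_lit 16548697979) (nat_lit 266) (nat_lit 5) (nat_lit 274) (nat_lit 5) (nat_lit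 275) (nat_lit 5) (nat_lit 641) (nat_lit 582) (nat_lit 337))) (XT.nd (nat_lit 78) (nat_lit 532) (nat_lit 0) (XT.lf (nat_lit 0) (nat_lit 14666229615) (nat_lit 684) (nat_lit 4166268894) (nat_lit 76) (nat_lit 7858341197) (nat_lit 266) (nat_lit 5) (nat_lit 275) (nat_lit 5) (nat_lit 267) (nat_lit 5) (nat_lit 642) (nat_lit 582) (nat_lit 336)) (XT.lf (nat_lit 0) (nat_lit 11572762438) (nat_lit 532) (nat_lit 8114100407) (nat_lit 608) (nat_lit 7317176854) (nat_lit 259) (nat_lit 5) (nat_lit 266) (nat_lit 5) (nat_lit 267) (nat_lit 5) (nat_lit 643) (nat_lit 582) (nat_lit 335))))))))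
noncomputable def xc193 : XT := (XT.nd (nat_lit 76440) (nat_lit 0) (nat_lit 21128) (XT.nd (nat_lit 1092) (nat_lit 3800) (nat_lit 0) (XT.nd (nat_lit 546) (nat_lit 1976) (nat_lit 0) (XT.nd (nat_lit 234) (nat_lit 1064) (nat_lit 0) (XT.nd (nat_lit 78) (nat_lit 608) (nat_lit 0) (XT.lf (nat_lit 0) (nat_lit 341564489) (nat_lit 532) (nat_lit 24511587288) (nat_lit 608) (nat_lit 2469447206) (nat_lit 252) (nat_lit 5) (nat_lit 259) (nat_lit 5) (nat_lit 260) (nat_lit 5) (nat_lit 644) (nat_lit 582) (nat_lit 334)) (XT.nd (nat_lit 78) (nat_lit 532) (nat_lit 0) (XT.lf (nat_lit 0) (nat_lit 2597344352) (nat_lit 608) (nat_lit 11081462396) (nat_lit 76) (nat_lit 13965310022) (nat_lit 251) (nat_lit 5) (nat_lit 259) (nat_lit 5) (nat_lit 252) (nat_lit 5) (nat_lit 645) (nat_lit 582) (nat_lit 333)) (XT.lf (nat_lit 0) (nat_lit 5183266205) (nat_lit 532) (nat_lit 2579487441) (nat_lit 608) (nat_lit 20208377990) (nat_lit 244) (nat_lit 5) (nat_lit 251) (nat_lit 5) (nat_lit 252) (nat_lit 5)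 (nat_lit 646) (nat_lit 582) (nat_lit 332)))) (XT.nd (nat_lit 156) (nat_lit 532) (nat_lit 0) (XT.nd (nat_lit 78) (nat_lit 532) (nat_lit 0) (XT.lf (nat_lit 0) (nat_lit 13159776714) (nat_lit 608) (nat_lit 6441438077) (nat_lit 76) (nat_lit 8700906035) (nat_lit 244) (nat_lit 5) (nat_lit 252) (nat_lit 5) (nat_lit 245) (nat_lit 5) (nat_lit 647) (nat_lit 582) (nat_lit 331)) (XT.lf (nat_lit 0) (nat_lit 10346124551) (nat_lit 532) (nat_lit 8399630130) (nat_lit 608) (nat_lit 9892354968) (nat_lit 237) (nat_lit 5) (nat_lit 244) (nat_lit 5) (nat_lit 245) (nat_lit 5) (nat_lit 648) (nat_lit 582) (nat_lit 330))) (XT.nd (nat_lit 78) (nat_lit 532) (nat_lit 0) (XT.lf (nat_lit 0) (nat_lit 24503396066) (nat_lit 608) (nat_lit 1447562489) (nat_lit 76) (nat_lit 3028660949) (nat_lit 237) (nat_lit 5) (nat_lit 245) (nat_lit 5) (nat_lit 238) (nat_lit 5) (nat_lit 649) (nat_lit 582) (nat_lit 329)) (XT.lf (nat_lit 0) (nat_lit 1191105403) (nat_lit 532) (nat_lit 13450608653) (nat_lit 76) (nat_lit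 14682977063) (nat_lit 230) (nat_lit 5) (nat_lit 237) (nat_lit 5) (nat_lit 231) (nat_lit 5) (nat_lit 650) (nat_lit 582) (nat_lit 328))))) (XT.nd (nat_lit 234) (nat_lit 988) (nat_lit 0) (XT.nd (nat_lit 78) (nat_lit 456) (nat_lit 0) (XT.lf (nat_lit 0) (nat_lit 3902429381) (nat_lit 532) (nat_lit 3041447721) (nat_lit 608) (nat_lit 22731554777) (nat_lit 223) (nat_lit 5) (nat_lit 230) (nat_lit 5) (nat_lit 231) (nat_lit 5) (nat_lit 651) (nat_lit 582) (nat_lit 327)) (XT.nd (nat_lit 78) (nat_lit 456) (nat_lit 0) (XT.lf (nat_lit 0) (nat_lit 12956525506) (nat_lit 608) (nat_lit 8308582778) (nat_lit 76) (nat_lit 8765182867) (nat_lit 223) (nat_lit 5) (nat_lit 231) (nat_lit 5) (nat_lit 224) (nat_lit 5) (nat_lit 652) (nat_lit 582) (nat_lit 326)) (XT.lf (nat_lit 0) (nat_lit 9606680920) (nat_lit 456) (nat_lit 9562208974) (nat_lit 532) (nat_lit 11221768575) (nat_lit 217) (nat_lit 5) (nat_lit 223) (nat_lit 5) (nat_lit 224) (nat_lit 5) (nat_lit 653) (nat_lit 582) (nat_lit 325))))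 (XT.nd (nat_lit 156) (nat_lit 456) (nat_lit 0) (XT.nd (nat_lit 78) (nat_lit 532) (nat_lit 0) (XT.lf (nat_lit 0) (nat_lit 25574016284) (nat_lit 532) (nat_lit 2784350675) (nat_lit 76) (nat_lit 2398495999) (nat_lit 217) (nat_lit 5) (nat_lit 224) (nat_lit 5) (nat_lit 218) (nat_lit 5) (nat_lit 654) (nat_lit 582) (nat_lit 324)) (XT.lf (nat_lit 0) (nat_lit 1127499032) (nat_lit 532) (nat_lit 15420764830) (nat_lit 76) (nat_lit 14578731801) (nat_lit 210) (nat_lit 5) (nat_lit 217) (nat_lit 5) (nat_lit 211) (nat_lit 5) (nat_lit 655) (nat_lit 582) (nat_lit 323))) (XT.nd (nat_lit 78) (nat_lit 0) (nat_lit 0) (XT.lf (nat_lit 0) (nat_lit 3102201220) (nat_lit 456) (nat_lit 4428509495) (nat_lit 532) (nat_lit 23972414099) (nat_lit 204) (nat_lit 5) (nat_lit 210) (nat_lit 5) (nat_lit 211) (nat_lit 5) (nat_lit 656) (nat_lit 582) (nat_lit 322)) (XT.lf (nat_lit 0) (nat_lit 14214728811) (nat_lit 532) (nat_lit 9736512602) (nat_lit 76) (nat_lit 7932480402) (nat_lit 204) (nat_lit 5) (nat_lit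 211) (nat_lit 5) (nat_lit 205) (nat_lit 5) (nat_lit 657) (nat_lit 582) (nat_lit 321)))))) (XT.nd (nat_lit 546) (nat_lit 2052) (nat_lit 0) (XT.nd (nat_lit 234) (nat_lit 836) (nat_lit 0) (XT.nd (nat_lit 78) (nat_lit 456) (nat_lit 0) (XT.lf (nat_lit 0) (nat_lit 9390835902) (nat_lit 456) (nat_lit 11729013296) (nat_lit 532) (nat_lit 11150333226) (nat_lit 198) (nat_lit 5) (nat_lit 204) (nat_lit 5) (nat_lit 205) (nat_lit 5) (nat_lit 658) (nat_lit 582) (nat_lit 320)) (XT.nd (nat_lit 78) (nat_lit 456) (nat_lit 0) (XT.lf (nat_lit 0) (nat_lit 28230774627) (nat_lit 532) (nat_lit 3639781565) (nat_lit 76) (nat_lit 792462104) (nat_lit 198) (nat_lit 5) (nat_lit 205) (nat_lit 5) (nat_lit 199) (nat_lit 5) (nat_lit 659) (nat_lit 582) (nat_lit 319)) (XT.lf (nat_lit 0) (nat_lit 2569153404) (nat_lit 456) (nat_lit 16962908611) (nat_lit 76) (nat_lit 13527720959) (nat_lit 192) (nat_lit 5) (nat_lit 198) (nat_lit 5) (nat_lit 193) (nat_lit 5) (nat_lit 660) (nat_lit 582) (nat_lit 318))))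 (XT.nd (nat_lit 156) (nat_lit 380) (nat_lit 0) (XT.nd (nat_lit 78) (nat_lit 0) (nat_lit 0) (XT.lf (nat_lit 0) (nat_lit 2816903052) (nat_lit 456) (nat_lit 6874468214) (nat_lit 532) (nat_lit 23771723023) (nat_lit 186) (nat_lit 5) (nat_lit 192) (nat_lit 5) (nat_lit 193) (nat_lit 5) (nat_lit 661) (nat_lit 582) (nat_lit 317)) (XT.lf (nat_lit 0) (nat_lit 17107037525) (nat_lit 532) (nat_lit 10694046313) (nat_lit 76) (nat_lit 6070368009) (nat_lit 186) (nat_lit 5) (nat_lit 193) (nat_lit 5) (nat_lit 187) (nat_lit 5) (nat_lit 662) (nat_lit 582) (nat_lit 316))) (XT.nd (nat_lit 78) (nat_lit 0) (nat_lit 0) (XT.lf (nat_lit 0) (nat_lit 9735222498) (nat_lit 380) (nat_lit 15041811386) (nat_lit 456) (nat_lit 9508822431) (nat_lit 181) (nat_lit 5) (nat_lit 186) (nat_lit 5) (nat_lit 187) (nat_lit 5) (nat_lit 663) (nat_lit 582) (nat_lit 315)) (XT.lf (nat_lit 0) (nat_lit 30713992161) (nat_lit 380) (nat_lit 1955510675) (nat_lit 456) (nat_lit 2037664677) (nat_lit 181) (nat_lit 5) (nat_lit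 186) (nat_lit 5) (nat_lit 187) (nat_lit 5) (nat_lit 664) (nat_lit 582) (nat_lit 314))))) (XT.nd (nat_lit 312) (nat_lit 836) (nat_lit 0) (XT.nd (nat_lit 156) (nat_lit 380) (nat_lit 0) (XT.nd (nat_lit 78) (nat_lit 380) (nat_lit 0) (XT.lf (nat_lit 0) (nat_lit 5693393070) (nat_lit 456) (nat_lit 18048699018) (nat_lit 76) (nat_lit 11390414021) (nat_lit 175) (nat_lit 5) (nat_lit 181) (nat_lit 5) (nat_lit 176) (nat_lit 5) (nat_lit 665) (nat_lit 582) (nat_lit 313)) (XT.lf (nat_lit 0) (nat_lit 3080401075) (nat_lit 380) (nat_lit 10528698932) (nat_lit 456) (nat_lit 21955835933) (nat_lit 170) (nat_lit 5) (nat_lit 175) (nat_lit 5) (nat_lit 176) (nat_lit 5) (nat_lit 666) (nat_lit 582) (nat_lit 312))) (XT.nd (nat_lit 78) (nat_lit 380) (nat_lit 0) (XT.lf (nat_lit 0) (nat_lit 21821565574) (nat_lit 456) (nat_lit 11150838416) (nat_lit 76) (nat_lit 3030841573) (nat_lit 170) (nat_lit 5) (nat_lit 176) (nat_lit 5) (nat_lit 171) (nat_lit 5) (nat_lit 667) (nat_lit 582) (nat_lit 311))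 (XT.lf (nat_lit 0) (nat_lit 10675864799) (nat_lit 380) (nat_lit 19658887822) (nat_lit 456) (nat_lit 6112839398) (nat_lit 165) (nat_lit 5) (nat_lit 170) (nat_lit 5) (nat_lit 171) (nat_lit 5) (nat_lit 668) (nat_lit 582) (nat_lit 310)))) (XT.nd (nat_lit 156) (nat_lit 380) (nat_lit 0) (XT.nd (nat_lit 78) (nat_lit 380) (nat_lit 0) (XT.lf (nat_lit 0) (nat_lit 2162370569) (nat_lit 456) (nat_lit 3827281845) (nat_lit 76) (nat_lit 30909442876) (nat_lit 164) (nat_lit 5) (nat_lit 170) (nat_lit 5) (nat_lit 165) (nat_lit 5) (nat_lit 669) (nat_lit 582) (nat_lit 309)) (XT.lf (nat_lit 0) (nat_lit 10693288395) (nat_lit 456) (nat_lit 18651441508) (nat_lit 76) (nat_lit 8010649596) (nat_lit 159) (nat_lit 5) (nat_lit 165) (nat_lit 5) (nat_lit 160) (nat_lit 5) (nat_lit 670) (nat_lit 582) (nat_lit 308))) (XT.nd (nat_lit 78) (nat_lit 0) (nat_lit 0) (XT.lf (nat_lit 0) (nat_lit 3925126149) (nat_lit 380) (nat_lit 15558206958) (nat_lit 456) (nat_lit 18335686191) (nat_lit 154) (nat_lit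 5) (nat_lit 159) (nat_lit 5) (nat_lit 160) (nat_lit 5) (nat_lit 671) (nat_lit 582) (nat_lit 307)) (XT.lf (nat_lit 0) (nat_lit 27202173796) (nat_lit 380) (nat_lit 1369693948) (nat_lit 456) (nat_lit 9717610446) (nat_lit 154) (nat_lit 5) (nat_lit 159) (nat_lit 5) (nat_lit 160) (nat_lit 5) (nat_lit 672) (nat_lit 582) (nat_lit 306))))))) (XT.nd (nat_lit 1170) (nat_lit 4864) (nat_lit 0) (XT.nd (nat_lit 546) (nat_lit 0) (nat_lit 228) (XT.nd (nat_lit 234) (nat_lit 0) (nat_lit 76) (XT.nd (nat_lit 78) (nat_lit 0) (nat_lit 0) (XT.lf (nat_lit 0) (nat_lit 1495326807) (nat_lit 0) (nat_lit 1495326807) (nat_lit 1748) (nat_lit 4190212838) (nat_lit 496) (nat_lit 5) (nat_lit 496) (nat_lit 3) (nat_lit 519) (nat_lit 3) (nat_lit 583) (nat_lit 583) (nat_lit 394)) (XT.nd (nat_lit 78) (nat_lit 0) (nat_lit 0) (XT.lf (nat_lit 0) (nat_lit 6393205544) (nat_lit 1748) (nat_lit 4270503574) (nat_lit 1824) (nat_lit 3834579056) (nat_lit 496) (nat_lit 5) (nat_lit 519) (nat_lit 3) (nat_lit 520)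 (nat_lit 5) (nat_lit 584) (nat_lit 583) (nat_lit 393)) (XT.lf (nat_lit 76) (nat_lit 2986965962) (nat_lit 0) (nat_lit 3857029118) (nat_lit 1824) (nat_lit 7792966938) (nat_lit 497) (nat_lit 5) (nat_lit 496) (nat_lit 5) (nat_lit 520) (nat_lit 5) (nat_lit 585) (nat_lit 583) (nat_lit 392)))) (XT.nd (nat_lit 156) (nat_lit 0) (nat_lit 76) (XT.nd (nat_lit 78) (nat_lit 0) (nat_lit 0) (XT.lf (nat_lit 0) (nat_lit 7344300984) (nat_lit 1748) (nat_lit 4355239678) (nat_lit 1824) (nat_lit 3078059188) (nat_lit 497) (nat_lit 5) (nat_lit 520) (nat_lit 5) (nat_lit 521) (nat_lit 5) (nat_lit 586) (nat_lit 583) (nat_lit 391)) (XT.lf (nat_lit 76) (nat_lit 3095911801) (nat_lit 0) (nat_lit 4796128009) (nat_lit 1824) (nat_lit 7028262608) (nat_lit 498) (nat_lit 5) (nat_lit 497) (nat_lit 5) (nat_lit 521) (nat_lit 5) (nat_lit 587) (nat_lit 583) (nat_lit 390))) (XT.nd (nat_lit 78) (nat_lit 0) (nat_lit 0) (XT.lf (nat_lit 0) (nat_lit 8486668873) (nat_lit 1748) (nat_lit 4329639176) (nat_lit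 1824) (nat_lit 2248832779) (nat_lit 498) (nat_lit 5) (nat_lit 521) (nat_lit 5) (nat_lit 522) (nat_lit 5) (nat_lit 588) (nat_lit 583) (nat_lit 389)) (XT.lf (nat_lit 76) (nat_lit 3322192954) (nat_lit 0) (nat_lit 5816425607) (nat_lit 1824) (nat_lit 6073349380) (nat_lit 499) (nat_lit 5) (nat_lit 498) (nat_lit 5) (nat_lit 522) (nat_lit 5) (nat_lit 589) (nat_lit 583) (nat_lit 388))))) (XT.nd (nat_lit 312) (nat_lit 0) (nat_lit 76) (XT.nd (nat_lit 156) (nat_lit 0) (nat_lit 76) (XT.nd (nat_lit 78) (nat_lit 0) (nat_lit 0) (XT.lf (nat_lit 0) (nat_lit 9833688140) (nat_lit 1748) (nat_lit 4188953941) (nat_lit 1824) (nat_lit 1338488380) (nat_lit 499) (nat_lit 5) (nat_lit 522) (nat_lit 5) (nat_lit 523) (nat_lit 5) (nat_lit 590) (nat_lit 583) (nat_lit 387)) (XT.lf (nat_lit 76) (nat_lit 3670831889) (nat_lit 0) (nat_lit 6926573779) (nat_lit 1824) (nat_lit 4914776107) (nat_lit 500) (nat_lit 5) (nat_lit 499) (nat_lit 5) (nat_lit 523) (nat_lit 5) (nat_lit 591) (nat_lit 583) (nat_lit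 386))) (XT.nd (nat_lit 78) (nat_lit 0) (nat_lit 0) (XT.lf (nat_lit 0) (nat_lit 11399246856) (nat_lit 1748) (nat_lit 3928117964) (nat_lit 1824) (nat_lit 338432772) (nat_lit 500) (nat_lit 5) (nat_lit 523) (nat_lit 5) (nat_lit 524) (nat_lit 5) (nat_lit 592) (nat_lit 583) (nat_lit 385)) (XT.lf (nat_lit 76) (nat_lit 4147178847) (nat_lit 0) (nat_lit 8135421199) (nat_lit 1824) (nat_lit 3538576633) (nat_lit 501) (nat_lit 5) (nat_lit 500) (nat_lit 5) (nat_lit 524) (nat_lit 5) (nat_lit 593) (nat_lit 583) (nat_lit 384)))) (XT.nd (nat_lit 156) (nat_lit 0) (nat_lit 76) (XT.nd (nat_lit 78) (nat_lit 0) (nat_lit 76) (XT.lf (nat_lit 76) (nat_lit 12432539922) (nat_lit 0) (nat_lit 770230849) (nat_lit 1824) (nat_lit 2776510015) (nat_lit 501) (nat_lit 5) (nat_lit 500) (nat_lit 5) (nat_lit 524) (nat_lit 5) (nat_lit 594) (nat_lit 583) (nat_lit 383)) (XT.lf (nat_lit 76) (nat_lit 4756919593) (nat_lit 0) (nat_lit 9452033774) (nat_lit 1824) (nat_lit 1930241875) (nat_lit 502) (nat_lit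 5) (nat_lit 501) (nat_lit 5) (nat_lit 525) (nat_lit 5) (nat_lit 595) (nat_lit 583) (nat_lit 382))) (XT.nd (nat_lit 78) (nat_lit 0) (nat_lit 76) (XT.lf (nat_lit 76) (nat_lit 13264838628) (nat_lit 0) (nat_lit 1992344535) (nat_lit 1824) (nat_lit 1044686783) (nat_lit 502) (nat_lit 5) (nat_lit 501) (nat_lit 5) (nat_lit 525) (nat_lit 5) (nat_lit 596) (nat_lit 583) (nat_lit 381)) (XT.lf (nat_lit 76) (nat_lit 5506083786) (nat_lit 0) (nat_lit 10885715254) (nat_lit 1824) (nat_lit 74691096) (nat_lit 503) (nat_lit 5) (nat_lit 502) (nat_lit 5) (nat_lit 526) (nat_lit 5) (nat_lit 597) (nat_lit 583) (nat_lit 380)))))) (XT.nd (nat_lit 546) (nat_lit 3496) (nat_lit 0) (XT.nd (nat_lit 234) (nat_lit 0) (nat_lit 152) (XT.nd (nat_lit 78) (nat_lit 0) (nat_lit 76) (XT.lf (nat_lit 0) (nat_lit 929681069) (nat_lit 1824) (nat_lit 2396873915) (nat_lit 1900) (nat_lit 13307189911) (nat_lit 478) (nat_lit 5) (nat_lit 502) (nat_lit 5) (nat_lit 503) (nat_lit 5) (nat_lit 598) (nat_lit 583) (nat_lit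 379)) (XT.nd (nat_lit 78) (nat_lit 0) (nat_lit 0) (XT.lf (nat_lit 0) (nat_lit 2016953437) (nat_lit 1824) (nat_lit 10415539848) (nat_lit 1900) (nat_lit 4370565730) (nat_lit 479) (nat_lit 5) (nat_lit 503) (nat_lit 5) (nat_lit 504) (nat_lit 5) (nat_lit 599) (nat_lit 583) (nat_lit 378)) (XT.lf (nat_lit 0) (nat_lit 3157698529) (nat_lit 1824) (nat_lit 1622339637) (nat_lit 1900) (nat_lit 12195087094) (nat_lit 479) (nat_lit 5) (nat_lit 503) (nat_lit 5) (nat_lit 504) (nat_lit 5) (nat_lit 600) (nat_lit 583) (nat_lit 377)))) (XT.nd (nat_lit 156) (nat_lit 0) (nat_lit 76) (XT.nd (nat_lit 78) (nat_lit 0) (nat_lit 0) (XT.lf (nat_lit 0) (nat_lit 4383168197) (nat_lit 1824) (nat_lit 9730233100) (nat_lit 1900) (nat_lit 3035993722) (nat_lit 480) (nat_lit 5) (nat_lit 504) (nat_lit 5) (nat_lit 505) (nat_lit 5) (nat_lit 601) (nat_lit 583) (nat_lit 376)) (XT.lf (nat_lit 0) (nat_lit 5669499771) (nat_lit 1824) (nat_lit 700040571) (nat_lit 1900) (nat_lit 10956883152) (nat_lit 480) (nat_lit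 5) (nat_lit 504) (nat_lit 5) (nat_lit 505) (nat_lit 5) (nat_lit 602) (nat_lit 583) (nat_lit 375))) (XT.nd (nat_lit 78) (nat_lit 0) (nat_lit 0) (XT.lf (nat_lit 0) (nat_lit 7041687043) (nat_lit 1824) (nat_lit 8897278172) (nat_lit 1900) (nat_lit 1566825111) (nat_lit 481) (nat_lit 5) (nat_lit 505) (nat_lit 5) (nat_lit 506) (nat_lit 5) (nat_lit 603) (nat_lit 583) (nat_lit 374)) (XT.lf (nat_lit 76) (nat_lit 382003166) (nat_lit 0) (nat_lit 8102664953) (nat_lit 1900) (nat_lit 9203209734) (nat_lit 482) (nat_lit 5) (nat_lit 481) (nat_lit 5) (nat_lit 506) (nat_lit 5) (nat_lit 604) (nat_lit 583) (nat_lit 373))))) (XT.nd (nat_lit 312) (nat_lit 2052) (nat_lit 0) (XT.nd (nat_lit 156) (nat_lit 1672) (nat_lit 0) (XT.nd (nat_lit 78) (nat_lit 0) (nat_lit 76) (XT.lf (nat_lit 76) (nat_lit 9962639098) (nat_lit 0) (nat_lit 47620899) (nat_lit 1900) (nat_lit 7862272460) (nat_lit 482) (nat_lit 5) (nat_lit 481) (nat_lit 5) (nat_lit 506) (nat_lit 5) (nat_lit 605) (nat_lit 583) (nat_lit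 372)) (XT.lf (nat_lit 76) (nat_lit 1637583956) (nat_lit 0) (nat_lit 9986617145) (nat_lit 1900) (nat_lit 6435522651) (nat_lit 483) (nat_lit 5) (nat_lit 482) (nat_lit 5) (nat_lit 507) (nat_lit 5) (nat_lit 606) (nat_lit 583) (nat_lit 371))) (XT.nd (nat_lit 78) (nat_lit 1748) (nat_lit 0) (XT.lf (nat_lit 76) (nat_lit 11478078584) (nat_lit 0) (nat_lit 1839987856) (nat_lit 1900) (nat_lit 4931639864) (nat_lit 483) (nat_lit 5) (nat_lit 482) (nat_lit 5) (nat_lit 507) (nat_lit 5) (nat_lit 607) (nat_lit 583) (nat_lit 370)) (XT.lf (nat_lit 0) (nat_lit 3065233485) (nat_lit 1824) (nat_lit 12036852978) (nat_lit 1900) (nat_lit 3340276828) (nat_lit 459) (nat_lit 5) (nat_lit 483) (nat_lit 5) (nat_lit 484) (nat_lit 5) (nat_lit 608) (nat_lit 583) (nat_lit 369)))) (XT.nd (nat_lit 156) (nat_lit 912) (nat_lit 0) (XT.nd (nat_lit 78) (nat_lit 1140) (nat_lit 0) (XT.lf (nat_lit 0) (nat_lit 13173450348) (nat_lit 1824) (nat_lit 3800333030) (nat_lit 1900) (nat_lit 1664050434) (nat_lit 459)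 (nat_lit 5) (nat_lit 483) (nat_lit 5) (nat_lit 484) (nat_lit 5) (nat_lit 609) (nat_lit 583) (nat_lit 368)) (XT.lf (nat_lit 0) (nat_lit 100240781) (nat_lit 1140) (nat_lit 14163587278) (nat_lit 76) (nat_lit 4572277271) (nat_lit 444) (nat_lit 5) (nat_lit 459) (nat_lit 5) (nat_lit 445) (nat_lit 5) (nat_lit 610) (nat_lit 583) (nat_lit 367))) (XT.nd (nat_lit 78) (nat_lit 912) (nat_lit 0) (XT.lf (nat_lit 0) (nat_lit 1934239604) (nat_lit 1140) (nat_lit 3992695721) (nat_lit 76) (nat_lit 13110053204) (nat_lit 444) (nat_lit 5) (nat_lit 459) (nat_lit 5) (nat_lit 445) (nat_lit 5) (nat_lit 611) (nat_lit 583) (nat_lit 366)) (XT.lf (nat_lit 0) (nat_lit 3858590820) (nat_lit 988) (nat_lit 12796597844) (nat_lit 76) (nat_lit 2585627580) (nat_lit 432) (nat_lit 5) (nat_lit 445) (nat_lit 5) (nat_lit 433) (nat_lit 5) (nat_lit 612) (nat_lit 583) (nat_lit 365))))))))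
noncomputable def xc194 : XT := (XT.nd (nat_lit 2262) (nat_lit 8360) (nat_lit 0) (XT.nd (nat_lit 1092) (nat_lit 5472) (nat_lit 0) (XT.nd (nat_lit 546) (nat_lit 3116) (nat_lit 0) (XT.nd (nat_lit 234) (nat_lit 2508) (nat_lit 0) (XT.nd (nat_lit 78) (nat_lit 912) (nat_lit 0) (XT.lf (nat_lit 0) (nat_lit 5882435578) (nat_lit 988) (nat_lit 2348485602) (nat_lit 76) (nat_lit 11216579498) (nat_lit 432) (nat_lit 5) (nat_lit 445) (nat_lit 5) (nat_lit 433) (nat_lit 5) (nat_lit 613) (nat_lit 583) (nat_lit 364)) (XT.nd (nat_lit 78) (nat_lit 0) (nat_lit 0) (XT.lf (nat_lit 0) (nat_lit 7998987914) (nat_lit 988) (nat_lit 11245869479) (nat_lit 76) (nat_lit 412417083) (nat_lit 420) (nat_lit 5) (nat_lit 433) (nat_lit 5) (nat_lit 421) (nat_lit 5) (nat_lit 614) (nat_lit 583) (nat_lit 363)) (XT.lf (nat_lit 0) (nat_lit 10223203146) (nat_lit 988) (nat_lit 512056079) (nat_lit 76) (nat_lit 9134678171) (nat_lit 420) (nat_lit 5) (nat_lit 433) (nat_lit 5) (nat_lit 421) (nat_lit 5) (nat_lit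 615) (nat_lit 583) (nat_lit 362)))) (XT.nd (nat_lit 156) (nat_lit 836) (nat_lit 0) (XT.nd (nat_lit 78) (nat_lit 836) (nat_lit 0) (XT.lf (nat_lit 0) (nat_lit 10570318657) (nat_lit 836) (nat_lit 1985270891) (nat_lit 912) (nat_lit 7529990567) (nat_lit 409) (nat_lit 5) (nat_lit 420) (nat_lit 5) (nat_lit 421) (nat_lit 5) (nat_lit 616) (nat_lit 583) (nat_lit 361)) (XT.lf (nat_lit 0) (nat_lit 1546199482) (nat_lit 836) (nat_lit 13442104011) (nat_lit 912) (nat_lit 5316158871) (nat_lit 398) (nat_lit 5) (nat_lit 409) (nat_lit 5) (nat_lit 410) (nat_lit 5) (nat_lit 617) (nat_lit 583) (nat_lit 360))) (XT.nd (nat_lit 78) (nat_lit 836) (nat_lit 0) (XT.lf (nat_lit 0) (nat_lit 12939766797) (nat_lit 836) (nat_lit 4602007561) (nat_lit 912) (nat_lit 2984506115) (nat_lit 398) (nat_lit 5) (nat_lit 409) (nat_lit 5) (nat_lit 410) (nat_lit 5) (nat_lit 618) (nat_lit 583) (nat_lit 359)) (XT.lf (nat_lit 0) (nat_lit 3825393335) (nat_lit 836) (nat_lit 16369706440) (nat_lit 912) (nat_lit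 556459728) (nat_lit 387) (nat_lit 5) (nat_lit 398) (nat_lit 5) (nat_lit 399) (nat_lit 5) (nat_lit 619) (nat_lit 583) (nat_lit 358))))) (XT.nd (nat_lit 234) (nat_lit 2204) (nat_lit 0) (XT.nd (nat_lit 78) (nat_lit 836) (nat_lit 0) (XT.lf (nat_lit 0) (nat_lit 1972002312) (nat_lit 912) (nat_lit 5460045692) (nat_lit 76) (nat_lit 13547506266) (nat_lit 386) (nat_lit 5) (nat_lit 398) (nat_lit 5) (nat_lit 387) (nat_lit 5) (nat_lit 620) (nat_lit 583) (nat_lit 357)) (XT.nd (nat_lit 78) (nat_lit 0) (nat_lit 0) (XT.lf (nat_lit 0) (nat_lit 4591193675) (nat_lit 912) (nat_lit 14912793585) (nat_lit 76) (nat_lit 1707096135) (nat_lit 375) (nat_lit 5) (nat_lit 387) (nat_lit 5) (nat_lit 376) (nat_lit 5) (nat_lit 621) (nat_lit 583) (nat_lit 356)) (XT.lf (nat_lit 0) (nat_lit 7344334944) (nat_lit 912) (nat_lit 3134946452) (nat_lit 76) (nat_lit 10966330627) (nat_lit 375) (nat_lit 5) (nat_lit 387) (nat_lit 5) (nat_lit 376) (nat_lit 5) (nat_lit 622) (nat_lit 583) (nat_lit 355)))) (XT.nd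 (nat_lit 156) (nat_lit 1444) (nat_lit 0) (XT.nd (nat_lit 78) (nat_lit 0) (nat_lit 0) (XT.lf (nat_lit 0) (nat_lit 8991700076) (nat_lit 760) (nat_lit 1214772757) (nat_lit 836) (nat_lit 11477279951) (nat_lit 365) (nat_lit 5) (nat_lit 375) (nat_lit 5) (nat_lit 376) (nat_lit 5) (nat_lit 623) (nat_lit 583) (nat_lit 354)) (XT.lf (nat_lit 0) (nat_lit 13196106147) (nat_lit 836) (nat_lit 581208411) (nat_lit 76) (nat_lit 8147936981) (nat_lit 365) (nat_lit 5) (nat_lit 376) (nat_lit 5) (nat_lit 366) (nat_lit 5) (nat_lit 624) (nat_lit 583) (nat_lit 353))) (XT.nd (nat_lit 78) (nat_lit 684) (nat_lit 0) (XT.lf (nat_lit 0) (nat_lit 11915433140) (nat_lit 760) (nat_lit 4411201789) (nat_lit 836) (nat_lit 5843323513) (nat_lit 355) (nat_lit 5) (nat_lit 365) (nat_lit 5) (nat_lit 366) (nat_lit 5) (nat_lit 625) (nat_lit 583) (nat_lit 352)) (XT.lf (nat_lit 0) (nat_lit 2241691951) (nat_lit 684) (nat_lit 17325696825) (nat_lit 760) (nat_lit 2851218640) (nat_lit 346) (nat_lit 5) (nat_lit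 355) (nat_lit 5) (nat_lit 356) (nat_lit 5) (nat_lit 626) (nat_lit 583) (nat_lit 351)))))) (XT.nd (nat_lit 546) (nat_lit 2660) (nat_lit 0) (XT.nd (nat_lit 234) (nat_lit 1976) (nat_lit 0) (XT.nd (nat_lit 78) (nat_lit 760) (nat_lit 0) (XT.lf (nat_lit 0) (nat_lit 292350128) (nat_lit 760) (nat_lit 7579714581) (nat_lit 76) (nat_lit 14798253721) (nat_lit 345) (nat_lit 5) (nat_lit 355) (nat_lit 5) (nat_lit 346) (nat_lit 5) (nat_lit 627) (nat_lit 583) (nat_lit 350)) (XT.nd (nat_lit 78) (nat_lit 0) (nat_lit 0) (XT.lf (nat_lit 0) (nat_lit 3502862402) (nat_lit 836) (nat_lit 17622294883) (nat_lit 76) (nat_lit 1800684663) (nat_lit 335) (nat_lit 5) (nat_lit 346) (nat_lit 5) (nat_lit 336) (nat_lit 5) (nat_lit 628) (nat_lit 583) (nat_lit 349)) (XT.lf (nat_lit 0) (nat_lit 6876821658) (nat_lit 836) (nat_lit 4695390627) (nat_lit 76) (nat_lit 11612279120) (nat_lit 335) (nat_lit 5) (nat_lit 346) (nat_lit 5) (nat_lit 336) (nat_lit 5) (nat_lit 629) (nat_lit 583) (nat_lit 348))))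 (XT.nd (nat_lit 156) (nat_lit 1292) (nat_lit 0) (XT.nd (nat_lit 78) (nat_lit 0) (nat_lit 0) (XT.lf (nat_lit 0) (nat_lit 8598229613) (nat_lit 684) (nat_lit 1771839363) (nat_lit 760) (nat_lit 13077208901) (nat_lit 326) (nat_lit 5) (nat_lit 335) (nat_lit 5) (nat_lit 336) (nat_lit 5) (nat_lit 630) (nat_lit 583) (nat_lit 347)) (XT.lf (nat_lit 0) (nat_lit 14014326404) (nat_lit 760) (nat_lit 1551563171) (nat_lit 76) (nat_lit 8147807798) (nat_lit 326) (nat_lit 5) (nat_lit 336) (nat_lit 5) (nat_lit 327) (nat_lit 5) (nat_lit 631) (nat_lit 583) (nat_lit 346))) (XT.nd (nat_lit 78) (nat_lit 608) (nat_lit 0) (XT.lf (nat_lit 0) (nat_lit 12155008657) (nat_lit 684) (nat_lit 5663219384) (nat_lit 760) (nat_lit 6165482232) (nat_lit 317) (nat_lit 5) (nat_lit 326) (nat_lit 5) (nat_lit 327) (nat_lit 5) (nat_lit 632) (nat_lit 583) (nat_lit 345)) (XT.lf (nat_lit 0) (nat_lit 1889137841) (nat_lit 608) (nat_lit 19856776725) (nat_lit 684) (nat_lit 2512254918) (nat_lit 309) (nat_lit 5)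 (nat_lit 317) (nat_lit 5) (nat_lit 318) (nat_lit 5) (nat_lit 633) (nat_lit 583) (nat_lit 344))))) (XT.nd (nat_lit 312) (nat_lit 1292) (nat_lit 0) (XT.nd (nat_lit 156) (nat_lit 608) (nat_lit 0) (XT.nd (nat_lit 78) (nat_lit 684) (nat_lit 0) (XT.lf (nat_lit 0) (nat_lit 1311691758) (nat_lit 684) (nat_lit 8545375710) (nat_lit 76) (nat_lit 14678621405) (nat_lit 308) (nat_lit 5) (nat_lit 317) (nat_lit 5) (nat_lit 309) (nat_lit 5) (nat_lit 634) (nat_lit 583) (nat_lit 343)) (XT.lf (nat_lit 0) (nat_lit 5213730897) (nat_lit 760) (nat_lit 19213207020) (nat_lit 76) (nat_lit 390783741) (nat_lit 299) (nat_lit 5) (nat_lit 309) (nat_lit 5) (nat_lit 300) (nat_lit 5) (nat_lit 635) (nat_lit 583) (nat_lit 342))) (XT.nd (nat_lit 78) (nat_lit 608) (nat_lit 0) (XT.lf (nat_lit 0) (nat_lit 9313097563) (nat_lit 760) (nat_lit 5021226080) (nat_lit 76) (nat_lit 10768685897) (nat_lit 299) (nat_lit 5) (nat_lit 309) (nat_lit 5) (nat_lit 300) (nat_lit 5) (nat_lit 636) (nat_lit 583) (nat_lit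 341)) (XT.lf (nat_lit 0) (nat_lit 9575713927) (nat_lit 608) (nat_lit 3977266797) (nat_lit 684) (nat_lit 11839852044) (nat_lit 291) (nat_lit 5) (nat_lit 299) (nat_lit 5) (nat_lit 300) (nat_lit 5) (nat_lit 637) (nat_lit 583) (nat_lit 340)))) (XT.nd (nat_lit 156) (nat_lit 684) (nat_lit 0) (XT.nd (nat_lit 78) (nat_lit 608) (nat_lit 0) (XT.lf (nat_lit 0) (nat_lit 17950740935) (nat_lit 684) (nat_lit 1202616756) (nat_lit 76) (nat_lit 6533633352) (nat_lit 291) (nat_lit 5) (nat_lit 300) (nat_lit 5) (nat_lit 292) (nat_lit 5) (nat_lit 638) (nat_lit 583) (nat_lit 339)) (XT.lf (nat_lit 0) (nat_lit 13855131635) (nat_lit 608) (nat_lit 8694086073) (nat_lit 684) (nat_lit 3435559712) (nat_lit 283) (nat_lit 5) (nat_lit 291) (nat_lit 5) (nat_lit 292) (nat_lit 5) (nat_lit 639) (nat_lit 583) (nat_lit 338))) (XT.nd (nat_lit 78) (nat_lit 0) (nat_lit 0) (XT.lf (nat_lit 0) (nat_lit 975596709) (nat_lit 684) (nat_lit 23330682956) (nat_lit 76) (nat_lit 1981377980) (nat_lit 274) (nat_lit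 5) (nat_lit 283) (nat_lit 5) (nat_lit 275) (nat_lit 5) (nat_lit 640) (nat_lit 583) (nat_lit 337)) (XT.lf (nat_lit 0) (nat_lit 5565046200) (nat_lit 684) (nat_lit 8170556362) (nat_lit 76) (nat_lit 12857817445) (nat_lit 274) (nat_lit 5) (nat_lit 283) (nat_lit 5) (nat_lit 275) (nat_lit 5) (nat_lit 641) (nat_lit 583) (nat_lit 336))))))) (XT.nd (nat_lit 1092) (nat_lit 4028) (nat_lit 0) (XT.nd (nat_lit 546) (nat_lit 2052) (nat_lit 0) (XT.nd (nat_lit 234) (nat_lit 1140) (nat_lit 0) (XT.nd (nat_lit 78) (nat_lit 532) (nat_lit 0) (XT.lf (nat_lit 0) (nat_lit 7385250176) (nat_lit 608) (nat_lit 2905569741) (nat_lit 684) (nat_lit 16613587147) (nat_lit 266) (nat_lit 5) (nat_lit 274) (nat_lit 5) (nat_lit 275) (nat_lit 5) (nat_lit 642) (nat_lit 583) (nat_lit 335)) (XT.nd (nat_lit 78) (nat_lit 532) (nat_lit 0) (XT.lf (nat_lit 0) (nat_lit 15215775780) (nat_lit 684) (nat_lit 3915224668) (nat_lit 76) (nat_lit 8088520232) (nat_lit 266) (nat_lit 5) (nat_lit 275) (nat_lit 5) (nat_lit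 267) (nat_lit 5) (nat_lit 643) (nat_lit 583) (nat_lit 334)) (XT.lf (nat_lit 0) (nat_lit 12136387491) (nat_lit 532) (nat_lit 8197566898) (nat_lit 608) (nat_lit 7205087854) (nat_lit 259) (nat_lit 5) (nat_lit 266) (nat_lit 5) (nat_lit 267) (nat_lit 5) (nat_lit 644) (nat_lit 583) (nat_lit 333)))) (XT.nd (nat_lit 156) (nat_lit 532) (nat_lit 0) (XT.nd (nat_lit 78) (nat_lit 76) (nat_lit 0) (XT.lf (nat_lit 0) (nat_lit 682916740) (nat_lit 532) (nat_lit 24918358249) (nat_lit 608) (nat_lit 2262743824) (nat_lit 252) (nat_lit 5) (nat_lit 259) (nat_lit 5) (nat_lit 260) (nat_lit 5) (nat_lit 645) (nat_lit 583) (nat_lit 332)) (XT.lf (nat_lit 0) (nat_lit 2897069307) (nat_lit 608) (nat_lit 10971826556) (nat_lit 76) (nat_lit 14323137160) (nat_lit 251) (nat_lit 5) (nat_lit 259) (nat_lit 5) (nat_lit 252) (nat_lit 5) (nat_lit 646) (nat_lit 583) (nat_lit 331))) (XT.nd (nat_lit 78) (nat_lit 0) (nat_lit 0) (XT.lf (nat_lit 0) (nat_lit 5616017241) (nat_lit 532) (nat_lit 2547047795) (nat_lit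 608) (nat_lit 20362577792) (nat_lit 244) (nat_lit 5) (nat_lit 251) (nat_lit 5) (nat_lit 252) (nat_lit 5) (nat_lit 647) (nat_lit 583) (nat_lit 330)) (XT.lf (nat_lit 0) (nat_lit 13663758417) (nat_lit 608) (nat_lit 6243353527) (nat_lit 76) (nat_lit 8956225464) (nat_lit 244) (nat_lit 5) (nat_lit 252) (nat_lit 5) (nat_lit 245) (nat_lit 5) (nat_lit 648) (nat_lit 583) (nat_lit 329))))) (XT.nd (nat_lit 234) (nat_lit 988) (nat_lit 0) (XT.nd (nat_lit 78) (nat_lit 532) (nat_lit 0) (XT.lf (nat_lit 0) (nat_lit 10877809609) (nat_lit 532) (nat_lit 8481033610) (nat_lit 608) (nat_lit 9847255239) (nat_lit 237) (nat_lit 5) (nat_lit 244) (nat_lit 5) (nat_lit 245) (nat_lit 5) (nat_lit 649) (nat_lit 583) (nat_lit 328)) (XT.nd (nat_lit 78) (nat_lit 532) (nat_lit 0) (XT.lf (nat_lit 0) (nat_lit 25227518535) (nat_lit 608) (nat_lit 1153990449) (nat_lit 76) (nat_lit 3173012100) (nat_lit 237) (nat_lit 5) (nat_lit 245) (nat_lit 5) (nat_lit 238) (nat_lit 5) (nat_lit 650) (nat_lit 583) (nat_lit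 327)) (XT.lf (nat_lit 0) (nat_lit 1448015831) (nat_lit 532) (nat_lit 13396112437) (nat_lit 76) (nat_lit 15062385566) (nat_lit 230) (nat_lit 5) (nat_lit 237) (nat_lit 5) (nat_lit 231) (nat_lit 5) (nat_lit 651) (nat_lit 583) (nat_lit 326)))) (XT.nd (nat_lit 156) (nat_lit 456) (nat_lit 0) (XT.nd (nat_lit 78) (nat_lit 0) (nat_lit 0) (XT.lf (nat_lit 0) (nat_lit 4301858013) (nat_lit 532) (nat_lit 3011501203) (nat_lit 608) (nat_lit 22950960049) (nat_lit 223) (nat_lit 5) (nat_lit 230) (nat_lit 5) (nat_lit 231) (nat_lit 5) (nat_lit 652) (nat_lit 583) (nat_lit 325)) (XT.lf (nat_lit 0) (nat_lit 13442316749) (nat_lit 608) (nat_lit 8155723138) (nat_lit 76) (nat_lit 9028314893) (nat_lit 223) (nat_lit 5) (nat_lit 231) (nat_lit 5) (nat_lit 224) (nat_lit 5) (nat_lit 653) (nat_lit 583) (nat_lit 324))) (XT.nd (nat_lit 78) (nat_lit 0) (nat_lit 0) (XT.lf (nat_lit 0) (nat_lit 10115746944) (nat_lit 456) (nat_lit 9660794889) (nat_lit 532) (nat_lit 11217435520) (nat_lit 217) (nat_lit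 5) (nat_lit 223) (nat_lit 5) (nat_lit 224) (nat_lit 5) (nat_lit 654) (nat_lit 583) (nat_lit 323)) (XT.lf (nat_lit 0) (nat_lit 26305963020) (nat_lit 532) (nat_lit 2525503284) (nat_lit 76) (nat_lit 2536115954) (nat_lit 217) (nat_lit 5) (nat_lit 224) (nat_lit 5) (nat_lit 218) (nat_lit 5) (nat_lit 655) (nat_lit 583) (nat_lit 322)))))) (XT.nd (nat_lit 546) (nat_lit 1672) (nat_lit 0) (XT.nd (nat_lit 234) (nat_lit 1368) (nat_lit 0) (XT.nd (nat_lit 78) (nat_lit 456) (nat_lit 0) (XT.lf (nat_lit 0) (nat_lit 1369674483) (nat_lit 532) (nat_lit 15413788025) (nat_lit 76) (nat_lit 14961672263) (nat_lit 210) (nat_lit 5) (nat_lit 217) (nat_lit 5) (nat_lit 211) (nat_lit 5) (nat_lit 656) (nat_lit 583) (nat_lit 321)) (XT.nd (nat_lit 78) (nat_lit 0) (nat_lit 0) (XT.lf (nat_lit 0) (nat_lit 3477562398) (nat_lit 456) (nat_lit 4421115884) (nat_lit 532) (nat_lit 24230153829) (nat_lit 204) (nat_lit 5) (nat_lit 210) (nat_lit 5) (nat_lit 211) (nat_lit 5) (nat_lit 657) (nat_lit 583) (nat_lit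 320)) (XT.lf (nat_lit 0) (nat_lit 14712725752) (nat_lit 532) (nat_lit 9620410214) (nat_lit 76) (nat_lit 8183978264) (nat_lit 204) (nat_lit 5) (nat_lit 211) (nat_lit 5) (nat_lit 205) (nat_lit 5) (nat_lit 658) (nat_lit 583) (nat_lit 319)))) (XT.nd (nat_lit 156) (nat_lit 912) (nat_lit 0) (XT.nd (nat_lit 78) (nat_lit 0) (nat_lit 0) (XT.lf (nat_lit 0) (nat_lit 9887440308) (nat_lit 456) (nat_lit 11866322850) (nat_lit 532) (nat_lit 11157584757) (nat_lit 198) (nat_lit 5) (nat_lit 204) (nat_lit 5) (nat_lit 205) (nat_lit 5) (nat_lit 659) (nat_lit 583) (nat_lit 318)) (XT.lf (nat_lit 0) (nat_lit 29003378868) (nat_lit 532) (nat_lit 3406308276) (nat_lit 76) (nat_lit 902424080) (nat_lit 198) (nat_lit 5) (nat_lit 205) (nat_lit 5) (nat_lit 199) (nat_lit 5) (nat_lit 660) (nat_lit 583) (nat_lit 317))) (XT.nd (nat_lit 78) (nat_lit 456) (nat_lit 0) (XT.lf (nat_lit 0) (nat_lit 2827793326) (nat_lit 456) (nat_lit 16995151089) (nat_lit 76) (nat_lit 13893881715) (nat_lit 192) (nat_lit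 5) (nat_lit 198) (nat_lit 5) (nat_lit 193) (nat_lit 5) (nat_lit 661) (nat_lit 583) (nat_lit 316)) (XT.lf (nat_lit 0) (nat_lit 3178236967) (nat_lit 456) (nat_lit 6912134954) (nat_lit 532) (nat_lit 24037873567) (nat_lit 186) (nat_lit 5) (nat_lit 192) (nat_lit 5) (nat_lit 193) (nat_lit 5) (nat_lit 662) (nat_lit 583) (nat_lit 315))))) (XT.nd (nat_lit 312) (nat_lit 836) (nat_lit 0) (XT.nd (nat_lit 156) (nat_lit 456) (nat_lit 0) (XT.nd (nat_lit 78) (nat_lit 380) (nat_lit 0) (XT.lf (nat_lit 0) (nat_lit 17650963907) (nat_lit 532) (nat_lit 10605517018) (nat_lit 76) (nat_lit 6288357166) (nat_lit 186) (nat_lit 5) (nat_lit 193) (nat_lit 5) (nat_lit 187) (nat_lit 5) (nat_lit 663) (nat_lit 583) (nat_lit 314)) (XT.lf (nat_lit 0) (nat_lit 10230347628) (nat_lit 380) (nat_lit 15242006514) (nat_lit 456) (nat_lit 9495216766) (nat_lit 181) (nat_lit 5) (nat_lit 186) (nat_lit 5) (nat_lit 187) (nat_lit 5) (nat_lit 664) (nat_lit 583) (nat_lit 313))) (XT.nd (nat_lit 78) (nat_lit 456)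 (nat_lit 0) (XT.lf (nat_lit 0) (nat_lit 31622802084) (nat_lit 380) (nat_lit 1895953144) (nat_lit 456) (nat_lit 1878631584) (nat_lit 181) (nat_lit 5) (nat_lit 186) (nat_lit 5) (nat_lit 187) (nat_lit 5) (nat_lit 665) (nat_lit 583) (nat_lit 312)) (XT.lf (nat_lit 0) (nat_lit 6003126899) (nat_lit 456) (nat_lit 18111209287) (nat_lit 76) (nat_lit 11716896186) (nat_lit 175) (nat_lit 5) (nat_lit 181) (nat_lit 5) (nat_lit 176) (nat_lit 5) (nat_lit 666) (nat_lit 583) (nat_lit 311)))) (XT.nd (nat_lit 156) (nat_lit 456) (nat_lit 0) (XT.nd (nat_lit 78) (nat_lit 0) (nat_lit 0) (XT.lf (nat_lit 0) (nat_lit 3438509231) (nat_lit 380) (nat_lit 10636723309) (nat_lit 456) (nat_lit 22197116695) (nat_lit 170) (nat_lit 5) (nat_lit 175) (nat_lit 5) (nat_lit 176) (nat_lit 5) (nat_lit 667) (nat_lit 583) (nat_lit 310)) (XT.lf (nat_lit 0) (nat_lit 22448797231) (nat_lit 456) (nat_lit 11080012303) (nat_lit 76) (nat_lit 3190678645) (nat_lit 170) (nat_lit 5) (nat_lit 176) (nat_lit 5) (nat_lit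 171) (nat_lit 5) (nat_lit 668) (nat_lit 583) (nat_lit 309))) (XT.nd (nat_lit 78) (nat_lit 76) (nat_lit 0) (XT.lf (nat_lit 0) (nat_lit 11181291798) (nat_lit 380) (nat_lit 19949110309) (nat_lit 456) (nat_lit 6042356500) (nat_lit 165) (nat_lit 5) (nat_lit 170) (nat_lit 5) (nat_lit 171) (nat_lit 5) (nat_lit 669) (nat_lit 583) (nat_lit 308)) (XT.lf (nat_lit 0) (nat_lit 2392100207) (nat_lit 456) (nat_lit 3615157323) (nat_lit 76) (nat_lit 31626084097) (nat_lit 164) (nat_lit 5) (nat_lit 170) (nat_lit 5) (nat_lit 165) (nat_lit 5) (nat_lit 670) (nat_lit 583) (nat_lit 307))))))))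
noncomputable def xc195 : XT := (XT.nd (nat_lit 76518) (nat_lit 0) (nat_lit 9804) (XT.nd (nat_lit 75348) (nat_lit 0) (nat_lit 23180) (XT.nd (nat_lit 74802) (nat_lit 0) (nat_lit 26144) (XT.nd (nat_lit 74490) (nat_lit 0) (nat_lit 25992) (XT.nd (nat_lit 78) (nat_lit 380) (nat_lit 0) (XT.lf (nat_lit 0) (nat_lit 11092504576) (nat_lit 456) (nat_lit 18734662557) (nat_lit 76) (nat_lit 8271607139) (nat_lit 159) (nat_lit 5) (nat_lit 165) (nat_lit 5) (nat_lit 160) (nat_lit 5) (nat_lit 671) (nat_lit 583) (nat_lit 306)) (XT.nd (nat_lit 74334) (nat_lit 0) (nat_lit 25992) (XT.lf (nat_lit 0) (nat_lit 4291529823) (nat_lit 380) (nat_lit 15765055283) (nat_lit 456) (nat_lit 18515137177) (nat_lit 154) (nat_lit 5) (nat_lit 159) (nat_lit 5) (nat_lit 160) (nat_lit 5) (nat_lit 672) (nat_lit 583) (nat_lit 305)) (XT.lf (nat_lit 0) (nat_lit 1687601129) (nat_lit 0) (nat_lit 1687601129) (nat_lit 1748) (nat_lit 3942766588) (nat_lit 496) (nat_lit 5) (nat_lit 496) (nat_lit 3) (nat_lit 519)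 (nat_lit 3) (nat_lit 584) (nat_lit 584) (nat_lit 392)))) (XT.nd (nat_lit 156) (nat_lit 0) (nat_lit 76) (XT.nd (nat_lit 78) (nat_lit 0) (nat_lit 0) (XT.lf (nat_lit 0) (nat_lit 7155739014) (nat_lit 1748) (nat_lit 4022704000) (nat_lit 1824) (nat_lit 3597077885) (nat_lit 496) (nat_lit 5) (nat_lit 519) (nat_lit 3) (nat_lit 520) (nat_lit 5) (nat_lit 585) (nat_lit 584) (nat_lit 391)) (XT.lf (nat_lit 76) (nat_lit 3377722758) (nat_lit 0) (nat_lit 4227526269) (nat_lit 1824) (nat_lit 7311925875) (nat_lit 497) (nat_lit 5) (nat_lit 496) (nat_lit 5) (nat_lit 520) (nat_lit 5) (nat_lit 586) (nat_lit 584) (nat_lit 390))) (XT.nd (nat_lit 78) (nat_lit 0) (nat_lit 0) (XT.lf (nat_lit 0) (nat_lit 8101451103) (nat_lit 1748) (nat_lit 4103669474) (nat_lit 1824) (nat_lit 2855787877) (nat_lit 497) (nat_lit 5) (nat_lit 520) (nat_lit 5) (nat_lit 521) (nat_lit 5) (nat_lit 587) (nat_lit 584) (nat_lit 389)) (XT.lf (nat_lit 76) (nat_lit 3494276910) (nat_lit 0) (nat_lit 5156086268) (nat_lit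 1824) (nat_lit 6556298271) (nat_lit 498) (nat_lit 5) (nat_lit 497) (nat_lit 5) (nat_lit 521) (nat_lit 5) (nat_lit 588) (nat_lit 584) (nat_lit 388))))) (XT.nd (nat_lit 234) (nat_lit 0) (nat_lit 76) (XT.nd (nat_lit 78) (nat_lit 0) (nat_lit 0) (XT.lf (nat_lit 0) (nat_lit 9243429974) (nat_lit 1748) (nat_lit 4072890603) (nat_lit 1824) (nat_lit 2038345882) (nat_lit 498) (nat_lit 5) (nat_lit 521) (nat_lit 5) (nat_lit 522) (nat_lit 5) (nat_lit 589) (nat_lit 584) (nat_lit 387)) (XT.nd (nat_lit 78) (nat_lit 0) (nat_lit 76) (XT.lf (nat_lit 76) (nat_lit 3729719345) (nat_lit 0) (nat_lit 6169403497) (nat_lit 1824) (nat_lit 5605493905) (nat_lit 499) (nat_lit 5) (nat_lit 498) (nat_lit 5) (nat_lit 522) (nat_lit 5) (nat_lit 590) (nat_lit 584) (nat_lit 386)) (XT.lf (nat_lit 0) (nat_lit 10595259378) (nat_lit 1748) (nat_lit 3925468737) (nat_lit 1824) (nat_lit 1136291796) (nat_lit 499) (nat_lit 5) (nat_lit 522) (nat_lit 5) (nat_lit 523) (nat_lit 5) (nat_lit 591) (nat_lit 584) (nat_lit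 385)))) (XT.nd (nat_lit 156) (nat_lit 0) (nat_lit 76) (XT.nd (nat_lit 78) (nat_lit 0) (nat_lit 76) (XT.lf (nat_lit 76) (nat_lit 4089228177) (nat_lit 0) (nat_lit 7276186495) (nat_lit 1824) (nat_lit 4445855000) (nat_lit 500) (nat_lit 5) (nat_lit 499) (nat_lit 5) (nat_lit 523) (nat_lit 5) (nat_lit 592) (nat_lit 584) (nat_lit 384)) (XT.lf (nat_lit 0) (nat_lit 12171045922) (nat_lit 1748) (nat_lit 3656184375) (nat_lit 1824) (nat_lit 140973121) (nat_lit 500) (nat_lit 5) (nat_lit 523) (nat_lit 5) (nat_lit 524) (nat_lit 5) (nat_lit 593) (nat_lit 584) (nat_lit 383))) (XT.nd (nat_lit 78) (nat_lit 0) (nat_lit 0) (XT.lf (nat_lit 76) (nat_lit 4578312477) (nat_lit 0) (nat_lit 8485351358) (nat_lit 1824) (nat_lit 3063194963) (nat_lit 501) (nat_lit 5) (nat_lit 500) (nat_lit 5) (nat_lit 524) (nat_lit 5) (nat_lit 594) (nat_lit 584) (nat_lit 382)) (XT.lf (nat_lit 76) (nat_lit 13022553517) (nat_lit 0) (nat_lit 969186186) (nat_lit 1824) (nat_lit 2296595899) (nat_lit 501) (nat_lit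 5) (nat_lit 500) (nat_lit 5) (nat_lit 524) (nat_lit 5) (nat_lit 595) (nat_lit 584) (nat_lit 381)))))) (XT.nd (nat_lit 546) (nat_lit 1444) (nat_lit 0) (XT.nd (nat_lit 234) (nat_lit 0) (nat_lit 0) (XT.nd (nat_lit 78) (nat_lit 1748) (nat_lit 0) (XT.lf (nat_lit 76) (nat_lit 5202820384) (nat_lit 0) (nat_lit 9806042162) (nat_lit 1824) (nat_lit 1442770108) (nat_lit 502) (nat_lit 5) (nat_lit 501) (nat_lit 5) (nat_lit 525) (nat_lit 5) (nat_lit 596) (nat_lit 584) (nat_lit 380)) (XT.nd (nat_lit 78) (nat_lit 1748) (nat_lit 0) (XT.lf (nat_lit 76) (nat_lit 13874020106) (nat_lit 0) (nat_lit 2193924477) (nat_lit 1824) (nat_lit 549819141) (nat_lit 502) (nat_lit 5) (nat_lit 501) (nat_lit 5) (nat_lit 525) (nat_lit 5) (nat_lit 597) (nat_lit 584) (nat_lit 379)) (XT.lf (nat_lit 0) (nat_lit 425100098) (nat_lit 1824) (nat_lit 10819698886) (nat_lit 1900) (nat_lit 5540995080) (nat_lit 478) (nat_lit 5) (nat_lit 502) (nat_lit 5) (nat_lit 503) (nat_lit 5) (nat_lit 598) (nat_lit 584) (nat_lit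 378)))) (XT.nd (nat_lit 156) (nat_lit 0) (nat_lit 76) (XT.nd (nat_lit 78) (nat_lit 0) (nat_lit 76) (XT.lf (nat_lit 0) (nat_lit 1438751002) (nat_lit 1824) (nat_lit 2092437915) (nat_lit 1900) (nat_lit 13425391888) (nat_lit 478) (nat_lit 5) (nat_lit 502) (nat_lit 5) (nat_lit 503) (nat_lit 5) (nat_lit 599) (nat_lit 584) (nat_lit 377)) (XT.lf (nat_lit 0) (nat_lit 2539560403) (nat_lit 1824) (nat_lit 10263239868) (nat_lit 1900) (nat_lit 4326645682) (nat_lit 479) (nat_lit 5) (nat_lit 503) (nat_lit 5) (nat_lit 504) (nat_lit 5) (nat_lit 600) (nat_lit 584) (nat_lit 376))) (XT.nd (nat_lit 78) (nat_lit 0) (nat_lit 76) (XT.lf (nat_lit 0) (nat_lit 3693664163) (nat_lit 1824) (nat_lit 1301246453) (nat_lit 1900) (nat_lit 12310232598) (nat_lit 479) (nat_lit 5) (nat_lit 503) (nat_lit 5) (nat_lit 504) (nat_lit 5) (nat_lit 601) (nat_lit 584) (nat_lit 375)) (XT.lf (nat_lit 0) (nat_lit 4935908617) (nat_lit 1824) (nat_lit 9563535414) (nat_lit 1900) (nat_lit 2983609583) (nat_lit 480)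 (nat_lit 5) (nat_lit 504) (nat_lit 5) (nat_lit 505) (nat_lit 5) (nat_lit 602) (nat_lit 584) (nat_lit 374))))) (XT.nd (nat_lit 312) (nat_lit 1596) (nat_lit 0) (XT.nd (nat_lit 156) (nat_lit 0) (nat_lit 76) (XT.nd (nat_lit 78) (nat_lit 0) (nat_lit 76) (XT.lf (nat_lit 0) (nat_lit 6238847665) (nat_lit 1824) (nat_lit 359823395) (nat_lit 1900) (nat_lit 11065134528) (nat_lit 480) (nat_lit 5) (nat_lit 504) (nat_lit 5) (nat_lit 505) (nat_lit 5) (nat_lit 603) (nat_lit 584) (nat_lit 373)) (XT.lf (nat_lit 0) (nat_lit 7631190539) (nat_lit 1824) (nat_lit 8713690919) (nat_lit 1900) (nat_lit 1502024595) (nat_lit 481) (nat_lit 5) (nat_lit 505) (nat_lit 5) (nat_lit 506) (nat_lit 5) (nat_lit 604) (nat_lit 584) (nat_lit 372))) (XT.nd (nat_lit 78) (nat_lit 0) (nat_lit 0) (XT.lf (nat_lit 76) (nat_lit 748797539) (nat_lit 0) (nat_lit 8347768118) (nat_lit 1900) (nat_lit 8936199507) (nat_lit 482) (nat_lit 5) (nat_lit 481) (nat_lit 5) (nat_lit 506) (nat_lit 5) (nat_lit 605) (nat_lit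 584) (nat_lit 371)) (XT.lf (nat_lit 76) (nat_lit 10514003949) (nat_lit 0) (nat_lit 129994755) (nat_lit 1900) (nat_lit 7577288084) (nat_lit 482) (nat_lit 5) (nat_lit 481) (nat_lit 5) (nat_lit 506) (nat_lit 5) (nat_lit 606) (nat_lit 584) (nat_lit 370)))) (XT.nd (nat_lit 156) (nat_lit 1748) (nat_lit 0) (XT.nd (nat_lit 78) (nat_lit 0) (nat_lit 0) (XT.lf (nat_lit 76) (nat_lit 2029295448) (nat_lit 0) (nat_lit 10254234854) (nat_lit 1900) (nat_lit 6128825877) (nat_lit 483) (nat_lit 5) (nat_lit 482) (nat_lit 5) (nat_lit 507) (nat_lit 5) (nat_lit 607) (nat_lit 584) (nat_lit 369)) (XT.lf (nat_lit 76) (nat_lit 12059561540) (nat_lit 0) (nat_lit 1943341894) (nat_lit 1900) (nat_lit 4603402830) (nat_lit 483) (nat_lit 5) (nat_lit 482) (nat_lit 5) (nat_lit 507) (nat_lit 5) (nat_lit 608) (nat_lit 584) (nat_lit 368))) (XT.nd (nat_lit 78) (nat_lit 0) (nat_lit 0) (XT.lf (nat_lit 0) (nat_lit 3484912480) (nat_lit 1824) (nat_lit 12331389134) (nat_lit 1900) (nat_lit 2986641305) (nat_lit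 459) (nat_lit 5) (nat_lit 483) (nat_lit 5) (nat_lit 484) (nat_lit 5) (nat_lit 609) (nat_lit 584) (nat_lit 367)) (XT.lf (nat_lit 0) (nat_lit 13788266733) (nat_lit 1824) (nat_lit 3929083904) (nat_lit 1900) (nat_lit 1285134326) (nat_lit 459) (nat_lit 5) (nat_lit 483) (nat_lit 5) (nat_lit 484) (nat_lit 5) (nat_lit 610) (nat_lit 584) (nat_lit 366))))))) (XT.nd (nat_lit 1170) (nat_lit 6232) (nat_lit 0) (XT.nd (nat_lit 546) (nat_lit 3344) (nat_lit 0) (XT.nd (nat_lit 234) (nat_lit 1748) (nat_lit 0) (XT.nd (nat_lit 78) (nat_lit 912) (nat_lit 0) (XT.lf (nat_lit 0) (nat_lit 503058449) (nat_lit 1140) (nat_lit 14084081377) (nat_lit 76) (nat_lit 4617648578) (nat_lit 444) (nat_lit 5) (nat_lit 459) (nat_lit 5) (nat_lit 445) (nat_lit 5) (nat_lit 611) (nat_lit 584) (nat_lit 365)) (XT.nd (nat_lit 78) (nat_lit 912) (nat_lit 0) (XT.lf (nat_lit 0) (nat_lit 2365878174) (nat_lit 1140) (nat_lit 3716885276) (nat_lit 76) (nat_lit 13327083446) (nat_lit 444) (nat_lit 5) (nat_lit 459)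 (nat_lit 5) (nat_lit 445) (nat_lit 5) (nat_lit 612) (nat_lit 584) (nat_lit 364)) (XT.lf (nat_lit 0) (nat_lit 4323083286) (nat_lit 988) (nat_lit 12691210423) (nat_lit 76) (nat_lit 2603570556) (nat_lit 432) (nat_lit 5) (nat_lit 445) (nat_lit 5) (nat_lit 433) (nat_lit 5) (nat_lit 613) (nat_lit 584) (nat_lit 363)))) (XT.nd (nat_lit 156) (nat_lit 836) (nat_lit 0) (XT.nd (nat_lit 78) (nat_lit 912) (nat_lit 0) (XT.lf (nat_lit 0) (nat_lit 6379810417) (nat_lit 988) (nat_lit 2041220630) (nat_lit 76) (nat_lit 11407803660) (nat_lit 432) (nat_lit 5) (nat_lit 445) (nat_lit 5) (nat_lit 433) (nat_lit 5) (nat_lit 614) (nat_lit 584) (nat_lit 362)) (XT.lf (nat_lit 0) (nat_lit 8533385854) (nat_lit 988) (nat_lit 11111223198) (nat_lit 76) (nat_lit 398301509) (nat_lit 420) (nat_lit 5) (nat_lit 433) (nat_lit 5) (nat_lit 421) (nat_lit 5) (nat_lit 615) (nat_lit 584) (nat_lit 361))) (XT.nd (nat_lit 78) (nat_lit 836) (nat_lit 0) (XT.lf (nat_lit 0) (nat_lit 10794743857) (nat_lit 988)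 (nat_lit 169783798) (nat_lit 76) (nat_lit 9295446327) (nat_lit 420) (nat_lit 5) (nat_lit 433) (nat_lit 5) (nat_lit 421) (nat_lit 5) (nat_lit 616) (nat_lit 584) (nat_lit 360)) (XT.lf (nat_lit 0) (nat_lit 11131919266) (nat_lit 836) (nat_lit 2036934834) (nat_lit 912) (nat_lit 7311174339) (nat_lit 409) (nat_lit 5) (nat_lit 420) (nat_lit 5) (nat_lit 421) (nat_lit 5) (nat_lit 617) (nat_lit 584) (nat_lit 359))))) (XT.nd (nat_lit 312) (nat_lit 1596) (nat_lit 0) (XT.nd (nat_lit 156) (nat_lit 912) (nat_lit 0) (XT.nd (nat_lit 78) (nat_lit 0) (nat_lit 0) (XT.lf (nat_lit 0) (nat_lit 1932306423) (nat_lit 836) (nat_lit 13713044829) (nat_lit 912) (nat_lit 5058034898) (nat_lit 398) (nat_lit 5) (nat_lit 409) (nat_lit 5) (nat_lit 410) (nat_lit 5) (nat_lit 618) (nat_lit 584) (nat_lit 358)) (XT.lf (nat_lit 0) (nat_lit 13546780713) (nat_lit 836) (nat_lit 4696105298) (nat_lit 912) (nat_lit 2686895110) (nat_lit 398) (nat_lit 5) (nat_lit 409) (nat_lit 5) (nat_lit 410) (nat_lit 5)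 (nat_lit 619) (nat_lit 584) (nat_lit 357))) (XT.nd (nat_lit 78) (nat_lit 76) (nat_lit 0) (XT.lf (nat_lit 0) (nat_lit 4254820886) (nat_lit 836) (nat_lit 16689867181) (nat_lit 912) (nat_lit 214969842) (nat_lit 387) (nat_lit 5) (nat_lit 398) (nat_lit 5) (nat_lit 399) (nat_lit 5) (nat_lit 620) (nat_lit 584) (nat_lit 356)) (XT.lf (nat_lit 0) (nat_lit 2352613356) (nat_lit 912) (nat_lit 5218694615) (nat_lit 76) (nat_lit 13820995648) (nat_lit 386) (nat_lit 5) (nat_lit 398) (nat_lit 5) (nat_lit 387) (nat_lit 5) (nat_lit 621) (nat_lit 584) (nat_lit 355)))) (XT.nd (nat_lit 156) (nat_lit 760) (nat_lit 0) (XT.nd (nat_lit 78) (nat_lit 0) (nat_lit 0) (XT.lf (nat_lit 0) (nat_lit 5019834648) (nat_lit 912) (nat_lit 14856125610) (nat_lit 76) (nat_lit 1752590505) (nat_lit 375) (nat_lit 5) (nat_lit 387) (nat_lit 5) (nat_lit 376) (nat_lit 5) (nat_lit 622) (nat_lit 584) (nat_lit 354)) (XT.lf (nat_lit 0) (nat_lit 7821434485) (nat_lit 912) (nat_lit 2849680825) (nat_lit 76) (nat_lit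 11196787090) (nat_lit 375) (nat_lit 5) (nat_lit 387) (nat_lit 5) (nat_lit 376) (nat_lit 5) (nat_lit 623) (nat_lit 584) (nat_lit 353))) (XT.nd (nat_lit 78) (nat_lit 0) (nat_lit 0) (XT.lf (nat_lit 0) (nat_lit 9517209393) (nat_lit 760) (nat_lit 1219375331) (nat_lit 836) (nat_lit 11374306206) (nat_lit 365) (nat_lit 5) (nat_lit 375) (nat_lit 5) (nat_lit 376) (nat_lit 5) (nat_lit 624) (nat_lit 584) (nat_lit 352)) (XT.lf (nat_lit 0) (nat_lit 13779744244) (nat_lit 836) (nat_lit 247651829) (nat_lit 76) (nat_lit 8329949255) (nat_lit 365) (nat_lit 5) (nat_lit 376) (nat_lit 5) (nat_lit 366) (nat_lit 5) (nat_lit 625) (nat_lit 584) (nat_lit 351)))))) (XT.nd (nat_lit 546) (nat_lit 3268) (nat_lit 0) (XT.nd (nat_lit 234) (nat_lit 1444) (nat_lit 0) (XT.nd (nat_lit 78) (nat_lit 760) (nat_lit 0) (XT.lf (nat_lit 0) (nat_lit 12496651627) (nat_lit 760) (nat_lit 4472189432) (nat_lit 836) (nat_lit 5638186493) (nat_lit 355) (nat_lit 5) (nat_lit 365) (nat_lit 5) (nat_lit 366) (nat_lit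 5) (nat_lit 626) (nat_lit 584) (nat_lit 350)) (XT.nd (nat_lit 78) (nat_lit 76) (nat_lit 0) (XT.lf (nat_lit 0) (nat_lit 2633292369) (nat_lit 684) (nat_lit 17637352747) (nat_lit 760) (nat_lit 2590080012) (nat_lit 346) (nat_lit 5) (nat_lit 355) (nat_lit 5) (nat_lit 356) (nat_lit 5) (nat_lit 627) (nat_lit 584) (nat_lit 349)) (XT.lf (nat_lit 0) (nat_lit 606030695) (nat_lit 760) (nat_lit 7387235059) (nat_lit 76) (nat_lit 15124286741) (nat_lit 345) (nat_lit 5) (nat_lit 355) (nat_lit 5) (nat_lit 346) (nat_lit 5) (nat_lit 628) (nat_lit 584) (nat_lit 348)))) (XT.nd (nat_lit 156) (nat_lit 684) (nat_lit 0) (XT.nd (nat_lit 78) (nat_lit 0) (nat_lit 0) (XT.lf (nat_lit 0) (nat_lit 3877181899) (nat_lit 836) (nat_lit 17627080325) (nat_lit 76) (nat_lit 1873995990) (nat_lit 335) (nat_lit 5) (nat_lit 346) (nat_lit 5) (nat_lit 336) (nat_lit 5) (nat_lit 629) (nat_lit 584) (nat_lit 347)) (XT.lf (nat_lit 0) (nat_lit 7312654414) (nat_lit 836) (nat_lit 4448454856) (nat_lit 76) (nat_lit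 11881091011) (nat_lit 335) (nat_lit 5) (nat_lit 346) (nat_lit 5) (nat_lit 336) (nat_lit 5) (nat_lit 630) (nat_lit 584) (nat_lit 346))) (XT.nd (nat_lit 78) (nat_lit 0) (nat_lit 0) (XT.lf (nat_lit 0) (nat_lit 9108795398) (nat_lit 684) (nat_lit 1763320757) (nat_lit 760) (nat_lit 13038199632) (nat_lit 326) (nat_lit 5) (nat_lit 335) (nat_lit 5) (nat_lit 336) (nat_lit 5) (nat_lit 631) (nat_lit 584) (nat_lit 345)) (XT.lf (nat_lit 0) (nat_lit 14583761155) (nat_lit 760) (nat_lit 1245120461) (nat_lit 76) (nat_lit 8353292297) (nat_lit 326) (nat_lit 5) (nat_lit 336) (nat_lit 5) (nat_lit 327) (nat_lit 5) (nat_lit 632) (nat_lit 584) (nat_lit 344))))) (XT.nd (nat_lit 312) (nat_lit 1216) (nat_lit 0) (XT.nd (nat_lit 156) (nat_lit 760) (nat_lit 0) (XT.nd (nat_lit 78) (nat_lit 608) (nat_lit 0) (XT.lf (nat_lit 0) (nat_lit 12733362579) (nat_lit 684) (nat_lit 5726885361) (nat_lit 760) (nat_lit 5997409271) (nat_lit 317) (nat_lit 5) (nat_lit 326) (nat_lit 5) (nat_lit 327) (nat_lit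 5) (nat_lit 633) (nat_lit 584) (nat_lit 343)) (XT.lf (nat_lit 0) (nat_lit 2265338411) (nat_lit 608) (nat_lit 20198061645) (nat_lit 684) (nat_lit 2274267592) (nat_lit 309) (nat_lit 5) (nat_lit 317) (nat_lit 5) (nat_lit 318) (nat_lit 5) (nat_lit 634) (nat_lit 584) (nat_lit 342))) (XT.nd (nat_lit 78) (nat_lit 684) (nat_lit 0) (XT.lf (nat_lit 0) (nat_lit 1616800304) (nat_lit 684) (nat_lit 8380781615) (nat_lit 76) (nat_lit 15023229896) (nat_lit 308) (nat_lit 5) (nat_lit 317) (nat_lit 5) (nat_lit 309) (nat_lit 5) (nat_lit 635) (nat_lit 584) (nat_lit 341)) (XT.lf (nat_lit 0) (nat_lit 5593950843) (nat_lit 760) (nat_lit 19259027087) (nat_lit 76) (nat_lit 455566173) (nat_lit 299) (nat_lit 5) (nat_lit 309) (nat_lit 5) (nat_lit 300) (nat_lit 5) (nat_lit 636) (nat_lit 584) (nat_lit 340)))) (XT.nd (nat_lit 156) (nat_lit 608) (nat_lit 0) (XT.nd (nat_lit 78) (nat_lit 608) (nat_lit 0) (XT.lf (nat_lit 0) (nat_lit 9769894149) (nat_lit 760) (nat_lit 4789842686) (nat_lit 76) (nat_lit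 11039909377) (nat_lit 299) (nat_lit 5) (nat_lit 309) (nat_lit 5) (nat_lit 300) (nat_lit 5) (nat_lit 637) (nat_lit 584) (nat_lit 339)) (XT.lf (nat_lit 0) (nat_lit 10096853174) (nat_lit 608) (nat_lit 3994557343) (nat_lit 684) (nat_lit 11803918929) (nat_lit 291) (nat_lit 5) (nat_lit 299) (nat_lit 5) (nat_lit 300) (nat_lit 5) (nat_lit 638) (nat_lit 584) (nat_lit 338))) (XT.nd (nat_lit 78) (nat_lit 608) (nat_lit 0) (XT.lf (nat_lit 0) (nat_lit 18572279653) (nat_lit 684) (nat_lit 898648752) (nat_lit 76) (nat_lit 6724539653) (nat_lit 291) (nat_lit 5) (nat_lit 300) (nat_lit 5) (nat_lit 292) (nat_lit 5) (nat_lit 639) (nat_lit 584) (nat_lit 337)) (XT.lf (nat_lit 0) (nat_lit 14458096579) (nat_lit 608) (nat_lit 8801597571) (nat_lit 684) (nat_lit 3239576893) (nat_lit 283) (nat_lit 5) (nat_lit 291) (nat_lit 5) (nat_lit 292) (nat_lit 5) (nat_lit 640) (nat_lit 584) (nat_lit 336))))))))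
noncomputable def xc196 : XT := (XT.nd (nat_lit 2262) (nat_lit 836) (nat_lit 0) (XT.nd (nat_lit 1092) (nat_lit 4028) (nat_lit 0) (XT.nd (nat_lit 546) (nat_lit 2128) (nat_lit 0) (XT.nd (nat_lit 234) (nat_lit 1140) (nat_lit 0) (XT.nd (nat_lit 78) (nat_lit 608) (nat_lit 0) (XT.lf (nat_lit 0) (nat_lit 1253781096) (nat_lit 684) (nat_lit 23465389280) (nat_lit 76) (nat_lit 2089055357) (nat_lit 274) (nat_lit 5) (nat_lit 283) (nat_lit 5) (nat_lit 275) (nat_lit 5) (nat_lit 641) (nat_lit 584) (nat_lit 335)) (XT.nd (nat_lit 78) (nat_lit 608) (nat_lit 0) (XT.lf (nat_lit 0) (nat_lit 5929947568) (nat_lit 684) (nat_lit 8008568140) (nat_lit 76) (nat_lit 13181689302) (nat_lit 274) (nat_lit 5) (nat_lit 283) (nat_lit 5) (nat_lit 275) (nat_lit 5) (nat_lit 642) (nat_lit 584) (nat_lit 334)) (XT.lf (nat_lit 0) (nat_lit 7856213743) (nat_lit 608) (nat_lit 2891149267) (nat_lit 684) (nat_lit 16690106496) (nat_lit 266) (nat_lit 5) (nat_lit 274) (nat_lit 5) (nat_lit 275) (nat_lit 5) (nat_lit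 643) (nat_lit 584) (nat_lit 333)))) (XT.nd (nat_lit 156) (nat_lit 608) (nat_lit 0) (XT.nd (nat_lit 78) (nat_lit 532) (nat_lit 0) (XT.lf (nat_lit 0) (nat_lit 15766363473) (nat_lit 684) (nat_lit 3672143536) (nat_lit 76) (nat_lit 8320467696) (nat_lit 266) (nat_lit 5) (nat_lit 275) (nat_lit 5) (nat_lit 267) (nat_lit 5) (nat_lit 644) (nat_lit 584) (nat_lit 332)) (XT.lf (nat_lit 0) (nat_lit 12698386486) (nat_lit 532) (nat_lit 8285763222) (nat_lit 608) (nat_lit 7100792324) (nat_lit 259) (nat_lit 5) (nat_lit 266) (nat_lit 5) (nat_lit 267) (nat_lit 5) (nat_lit 645) (nat_lit 584) (nat_lit 331))) (XT.nd (nat_lit 78) (nat_lit 76) (nat_lit 0) (XT.lf (nat_lit 0) (nat_lit 1018106179) (nat_lit 532) (nat_lit 25336505514) (nat_lit 608) (nat_lit 2061850752) (nat_lit 252) (nat_lit 5) (nat_lit 259) (nat_lit 5) (nat_lit 260) (nat_lit 5) (nat_lit 646) (nat_lit 584) (nat_lit 330)) (XT.lf (nat_lit 0) (nat_lit 3193167236) (nat_lit 608) (nat_lit 10872861426) (nat_lit 76) (nat_lit 14685071777)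 (nat_lit 251) (nat_lit 5) (nat_lit 259) (nat_lit 5) (nat_lit 252) (nat_lit 5) (nat_lit 647) (nat_lit 584) (nat_lit 329))))) (XT.nd (nat_lit 234) (nat_lit 1064) (nat_lit 0) (XT.nd (nat_lit 78) (nat_lit 532) (nat_lit 0) (XT.lf (nat_lit 0) (nat_lit 6044644499) (nat_lit 532) (nat_lit 2517222319) (nat_lit 608) (nat_lit 20529568142) (nat_lit 244) (nat_lit 5) (nat_lit 251) (nat_lit 5) (nat_lit 252) (nat_lit 5) (nat_lit 648) (nat_lit 584) (nat_lit 328)) (XT.nd (nat_lit 78) (nat_lit 532) (nat_lit 0) (XT.lf (nat_lit 0) (nat_lit 14168469733) (nat_lit 608) (nat_lit 6054001727) (nat_lit 76) (nat_lit 9213494253) (nat_lit 244) (nat_lit 5) (nat_lit 252) (nat_lit 5) (nat_lit 245) (nat_lit 5) (nat_lit 649) (nat_lit 584) (nat_lit 327)) (XT.lf (nat_lit 0) (nat_lit 11407517442) (nat_lit 532) (nat_lit 8567427522) (nat_lit 608) (nat_lit 9810687438) (nat_lit 237) (nat_lit 5) (nat_lit 244) (nat_lit 5) (nat_lit 245) (nat_lit 5) (nat_lit 650) (nat_lit 584) (nat_lit 326)))) (XT.nd (nat_lit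 156) (nat_lit 532) (nat_lit 0) (XT.nd (nat_lit 78) (nat_lit 532) (nat_lit 0) (XT.lf (nat_lit 0) (nat_lit 25957034830) (nat_lit 608) (nat_lit 867070940) (nat_lit 76) (nat_lit 3316997074) (nat_lit 237) (nat_lit 5) (nat_lit 245) (nat_lit 5) (nat_lit 238) (nat_lit 5) (nat_lit 651) (nat_lit 584) (nat_lit 325)) (XT.lf (nat_lit 0) (nat_lit 1701013364) (nat_lit 532) (nat_lit 13353088521) (nat_lit 76) (nat_lit 15446052502) (nat_lit 230) (nat_lit 5) (nat_lit 237) (nat_lit 5) (nat_lit 231) (nat_lit 5) (nat_lit 652) (nat_lit 584) (nat_lit 324))) (XT.nd (nat_lit 78) (nat_lit 0) (nat_lit 0) (XT.lf (nat_lit 0) (nat_lit 4696795639) (nat_lit 532) (nat_lit 2984480678) (nat_lit 608) (nat_lit 23183887532) (nat_lit 223) (nat_lit 5) (nat_lit 230) (nat_lit 5) (nat_lit 231) (nat_lit 5) (nat_lit 653) (nat_lit 584) (nat_lit 323)) (XT.lf (nat_lit 0) (nat_lit 13929022304) (nat_lit 608) (nat_lit 8012194680) (nat_lit 76) (nat_lit 9293299076) (nat_lit 223) (nat_lit 5) (nat_lit 231) (nat_lit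 5) (nat_lit 224) (nat_lit 5) (nat_lit 654) (nat_lit 584) (nat_lit 322)))))) (XT.nd (nat_lit 546) (nat_lit 2128) (nat_lit 0) (XT.nd (nat_lit 234) (nat_lit 912) (nat_lit 0) (XT.nd (nat_lit 78) (nat_lit 532) (nat_lit 0) (XT.lf (nat_lit 0) (nat_lit 10622687416) (nat_lit 456) (nat_lit 9764950555) (nat_lit 532) (nat_lit 11221899161) (nat_lit 217) (nat_lit 5) (nat_lit 223) (nat_lit 5) (nat_lit 224) (nat_lit 5) (nat_lit 655) (nat_lit 584) (nat_lit 321)) (XT.nd (nat_lit 78) (nat_lit 532) (nat_lit 0) (XT.lf (nat_lit 0) (nat_lit 27043987712) (nat_lit 532) (nat_lit 2273692700) (nat_lit 76) (nat_lit 2673007087) (nat_lit 217) (nat_lit 5) (nat_lit 224) (nat_lit 5) (nat_lit 218) (nat_lit 5) (nat_lit 656) (nat_lit 584) (nat_lit 320)) (XT.lf (nat_lit 0) (nat_lit 1608165119) (nat_lit 532) (nat_lit 15418918744) (nat_lit 76) (nat_lit 15348723687) (nat_lit 210) (nat_lit 5) (nat_lit 217) (nat_lit 5) (nat_lit 211) (nat_lit 5) (nat_lit 657) (nat_lit 584) (nat_lit 319)))) (XT.nd (nat_lit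 156) (nat_lit 456) (nat_lit 0) (XT.nd (nat_lit 78) (nat_lit 0) (nat_lit 0) (XT.lf (nat_lit 0) (nat_lit 3848264312) (nat_lit 456) (nat_lit 4417300791) (nat_lit 532) (nat_lit 24501657567) (nat_lit 204) (nat_lit 5) (nat_lit 210) (nat_lit 5) (nat_lit 211) (nat_lit 5) (nat_lit 658) (nat_lit 584) (nat_lit 318)) (XT.lf (nat_lit 0) (nat_lit 15212384309) (nat_lit 532) (nat_lit 9514055789) (nat_lit 76) (nat_lit 8436900672) (nat_lit 204) (nat_lit 5) (nat_lit 211) (nat_lit 5) (nat_lit 205) (nat_lit 5) (nat_lit 659) (nat_lit 584) (nat_lit 317))) (XT.nd (nat_lit 78) (nat_lit 0) (nat_lit 0) (XT.lf (nat_lit 0) (nat_lit 10381986200) (nat_lit 456) (nat_lit 12010155737) (nat_lit 532) (nat_lit 11173359353) (nat_lit 198) (nat_lit 5) (nat_lit 204) (nat_lit 5) (nat_lit 205) (nat_lit 5) (nat_lit 660) (nat_lit 584) (nat_lit 316)) (XT.lf (nat_lit 0) (nat_lit 29783358737) (nat_lit 532) (nat_lit 3180058317) (nat_lit 76) (nat_lit 1010930783) (nat_lit 198) (nat_lit 5) (nat_lit 205) (nat_lit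 5) (nat_lit 199) (nat_lit 5) (nat_lit 661) (nat_lit 584) (nat_lit 315))))) (XT.nd (nat_lit 312) (nat_lit 836) (nat_lit 0) (XT.nd (nat_lit 156) (nat_lit 380) (nat_lit 0) (XT.nd (nat_lit 78) (nat_lit 456) (nat_lit 0) (XT.lf (nat_lit 0) (nat_lit 3083558011) (nat_lit 456) (nat_lit 17039960210) (nat_lit 76) (nat_lit 14263653175) (nat_lit 192) (nat_lit 5) (nat_lit 198) (nat_lit 5) (nat_lit 193) (nat_lit 5) (nat_lit 662) (nat_lit 584) (nat_lit 314)) (XT.lf (nat_lit 0) (nat_lit 3534954200) (nat_lit 456) (nat_lit 6954431263) (nat_lit 532) (nat_lit 24317473871) (nat_lit 186) (nat_lit 5) (nat_lit 192) (nat_lit 5) (nat_lit 193) (nat_lit 5) (nat_lit 663) (nat_lit 584) (nat_lit 313))) (XT.nd (nat_lit 78) (nat_lit 380) (nat_lit 0) (XT.lf (nat_lit 0) (nat_lit 18197933235) (nat_lit 532) (nat_lit 10526960094) (nat_lit 76) (nat_lit 6506955717) (nat_lit 186) (nat_lit 5) (nat_lit 193) (nat_lit 5) (nat_lit 187) (nat_lit 5) (nat_lit 664) (nat_lit 584) (nat_lit 312)) (XT.lf (nat_lit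 0) (nat_lit 10723709560) (nat_lit 380) (nat_lit 15450113562) (nat_lit 456) (nat_lit 9489252095) (nat_lit 181) (nat_lit 5) (nat_lit 186) (nat_lit 5) (nat_lit 187) (nat_lit 5) (nat_lit 665) (nat_lit 584) (nat_lit 311)))) (XT.nd (nat_lit 156) (nat_lit 380) (nat_lit 0) (XT.nd (nat_lit 78) (nat_lit 456) (nat_lit 0) (XT.lf (nat_lit 0) (nat_lit 32538351242) (nat_lit 380) (nat_lit 1839035852) (nat_lit 456) (nat_lit 1724175778) (nat_lit 181) (nat_lit 5) (nat_lit 186) (nat_lit 5) (nat_lit 187) (nat_lit 5) (nat_lit 666) (nat_lit 584) (nat_lit 310)) (XT.lf (nat_lit 0) (nat_lit 6311449689) (nat_lit 456) (nat_lit 18186559470) (nat_lit 76) (nat_lit 12046076367) (nat_lit 175) (nat_lit 5) (nat_lit 181) (nat_lit 5) (nat_lit 176) (nat_lit 5) (nat_lit 667) (nat_lit 584) (nat_lit 309))) (XT.nd (nat_lit 78) (nat_lit 0) (nat_lit 0) (XT.lf (nat_lit 0) (nat_lit 3792266089) (nat_lit 380) (nat_lit 10750890299) (nat_lit 456) (nat_lit 22450905284) (nat_lit 170) (nat_lit 5) (nat_lit 175)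 (nat_lit 5) (nat_lit 176) (nat_lit 5) (nat_lit 668) (nat_lit 584) (nat_lit 308)) (XT.lf (nat_lit 0) (nat_lit 23081164512) (nat_lit 456) (nat_lit 11019179946) (nat_lit 76) (nat_lit 3349859615) (nat_lit 170) (nat_lit 5) (nat_lit 176) (nat_lit 5) (nat_lit 171) (nat_lit 5) (nat_lit 669) (nat_lit 584) (nat_lit 307))))))) (XT.nd (nat_lit 75426) (nat_lit 0) (nat_lit 22800) (XT.nd (nat_lit 74880) (nat_lit 0) (nat_lit 25688) (XT.nd (nat_lit 74568) (nat_lit 0) (nat_lit 25612) (XT.nd (nat_lit 78) (nat_lit 456) (nat_lit 0) (XT.lf (nat_lit 0) (nat_lit 11685492128) (nat_lit 380) (nat_lit 20249135125) (nat_lit 456) (nat_lit 5977948260) (nat_lit 165) (nat_lit 5) (nat_lit 170) (nat_lit 5) (nat_lit 171) (nat_lit 5) (nat_lit 670) (nat_lit 584) (nat_lit 306)) (XT.nd (nat_lit 78) (nat_lit 380) (nat_lit 0) (XT.lf (nat_lit 0) (nat_lit 2619183106) (nat_lit 456) (nat_lit 3409999725) (nat_lit 76) (nat_lit 32353235117) (nat_lit 164) (nat_lit 5) (nat_lit 170) (nat_lit 5) (nat_lit 165)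 (nat_lit 5) (nat_lit 671) (nat_lit 584) (nat_lit 305)) (XT.lf (nat_lit 0) (nat_lit 11492507698) (nat_lit 456) (nat_lit 18830801617) (nat_lit 76) (nat_lit 8533871799) (nat_lit 159) (nat_lit 5) (nat_lit 165) (nat_lit 5) (nat_lit 160) (nat_lit 5) (nat_lit 672) (nat_lit 584) (nat_lit 304)))) (XT.nd (nat_lit 156) (nat_lit 0) (nat_lit 0) (XT.nd (nat_lit 78) (nat_lit 0) (nat_lit 0) (XT.lf (nat_lit 0) (nat_lit 1877415999) (nat_lit 0) (nat_lit 1877415999) (nat_lit 1748) (nat_lit 3703234275) (nat_lit 496) (nat_lit 5) (nat_lit 496) (nat_lit 3) (nat_lit 519) (nat_lit 3) (nat_lit 585) (nat_lit 585) (nat_lit 390)) (XT.lf (nat_lit 0) (nat_lit 7908878168) (nat_lit 1748) (nat_lit 3782887370) (nat_lit 1824) (nat_lit 3367027178) (nat_lit 496) (nat_lit 5) (nat_lit 519) (nat_lit 3) (nat_lit 520) (nat_lit 5) (nat_lit 586) (nat_lit 585) (nat_lit 389))) (XT.nd (nat_lit 78) (nat_lit 0) (nat_lit 76) (XT.lf (nat_lit 76) (nat_lit 3763440879) (nat_lit 0) (nat_lit 4594041971) (nat_lit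 1824) (nat_lit 6845995610) (nat_lit 497) (nat_lit 5) (nat_lit 496) (nat_lit 5) (nat_lit 520) (nat_lit 5) (nat_lit 587) (nat_lit 585) (nat_lit 388)) (XT.lf (nat_lit 0) (nat_lit 8850046926) (nat_lit 1748) (nat_lit 3860219028) (nat_lit 1824) (nat_lit 2640092701) (nat_lit 497) (nat_lit 5) (nat_lit 520) (nat_lit 5) (nat_lit 521) (nat_lit 5) (nat_lit 588) (nat_lit 585) (nat_lit 387))))) (XT.nd (nat_lit 234) (nat_lit 0) (nat_lit 152) (XT.nd (nat_lit 78) (nat_lit 0) (nat_lit 76) (XT.lf (nat_lit 76) (nat_lit 3887544679) (nat_lit 0) (nat_lit 5512990866) (nat_lit 1824) (nat_lit 6098679918) (nat_lit 498) (nat_lit 5) (nat_lit 497) (nat_lit 5) (nat_lit 521) (nat_lit 5) (nat_lit 589) (nat_lit 585) (nat_lit 386)) (XT.nd (nat_lit 78) (nat_lit 0) (nat_lit 0) (XT.lf (nat_lit 0) (nat_lit 9992531295) (nat_lit 1748) (nat_lit 3824339421) (nat_lit 1824) (nat_lit 1833569208) (nat_lit 498) (nat_lit 5) (nat_lit 521) (nat_lit 5) (nat_lit 522) (nat_lit 5) (nat_lit 590) (nat_lit 585) (nat_lit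 385)) (XT.lf (nat_lit 76) (nat_lit 4132151614) (nat_lit 0) (nat_lit 6520251561) (nat_lit 1824) (nat_lit 5151165431) (nat_lit 499) (nat_lit 5) (nat_lit 498) (nat_lit 5) (nat_lit 522) (nat_lit 5) (nat_lit 591) (nat_lit 585) (nat_lit 384)))) (XT.nd (nat_lit 156) (nat_lit 0) (nat_lit 0) (XT.nd (nat_lit 78) (nat_lit 0) (nat_lit 0) (XT.lf (nat_lit 0) (nat_lit 11350126384) (nat_lit 1748) (nat_lit 3670198524) (nat_lit 1824) (nat_lit 938942323) (nat_lit 499) (nat_lit 5) (nat_lit 522) (nat_lit 5) (nat_lit 523) (nat_lit 5) (nat_lit 592) (nat_lit 585) (nat_lit 383)) (XT.lf (nat_lit 76) (nat_lit 4502596410) (nat_lit 0) (nat_lit 7624594925) (nat_lit 1824) (nat_lit 3989581185) (nat_lit 500) (nat_lit 5) (nat_lit 499) (nat_lit 5) (nat_lit 523) (nat_lit 5) (nat_lit 593) (nat_lit 585) (nat_lit 382))) (XT.nd (nat_lit 78) (nat_lit 0) (nat_lit 76) (XT.lf (nat_lit 76) (nat_lit 12884306378) (nat_lit 0) (nat_lit 53203056) (nat_lit 1824) (nat_lit 3339564674) (nat_lit 500) (nat_lit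 5) (nat_lit 499) (nat_lit 5) (nat_lit 523) (nat_lit 5) (nat_lit 594) (nat_lit 585) (nat_lit 381)) (XT.lf (nat_lit 76) (nat_lit 5004548136) (nat_lit 0) (nat_lit 8835010071) (nat_lit 1824) (nat_lit 2599513454) (nat_lit 501) (nat_lit 5) (nat_lit 500) (nat_lit 5) (nat_lit 524) (nat_lit 5) (nat_lit 595) (nat_lit 585) (nat_lit 380)))))) (XT.nd (nat_lit 546) (nat_lit 1444) (nat_lit 0) (XT.nd (nat_lit 234) (nat_lit 1672) (nat_lit 0) (XT.nd (nat_lit 78) (nat_lit 0) (nat_lit 76) (XT.lf (nat_lit 76) (nat_lit 13611111852) (nat_lit 0) (nat_lit 1164993132) (nat_lit 1824) (nat_lit 1827875456) (nat_lit 501) (nat_lit 5) (nat_lit 500) (nat_lit 5) (nat_lit 524) (nat_lit 5) (nat_lit 596) (nat_lit 585) (nat_lit 379)) (XT.nd (nat_lit 78) (nat_lit 0) (nat_lit 0) (XT.lf (nat_lit 76) (nat_lit 5644018659) (nat_lit 0) (nat_lit 10160724821) (nat_lit 1824) (nat_lit 965977101) (nat_lit 502) (nat_lit 5) (nat_lit 501) (nat_lit 5) (nat_lit 525) (nat_lit 5) (nat_lit 597) (nat_lit 585) (nat_lit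 378)) (XT.lf (nat_lit 76) (nat_lit 14482031751) (nat_lit 0) (nat_lit 2393255727) (nat_lit 1824) (nat_lit 65081790) (nat_lit 502) (nat_lit 5) (nat_lit 501) (nat_lit 5) (nat_lit 525) (nat_lit 5) (nat_lit 598) (nat_lit 585) (nat_lit 377)))) (XT.nd (nat_lit 156) (nat_lit 0) (nat_lit 76) (XT.nd (nat_lit 78) (nat_lit 0) (nat_lit 0) (XT.lf (nat_lit 0) (nat_lit 914461228) (nat_lit 1824) (nat_lit 10690628669) (nat_lit 1900) (nat_lit 5506773981) (nat_lit 478) (nat_lit 5) (nat_lit 502) (nat_lit 5) (nat_lit 503) (nat_lit 5) (nat_lit 599) (nat_lit 585) (nat_lit 376)) (XT.lf (nat_lit 0) (nat_lit 1938956540) (nat_lit 1824) (nat_lit 1795596286) (nat_lit 1900) (nat_lit 13551702666) (nat_lit 478) (nat_lit 5) (nat_lit 502) (nat_lit 5) (nat_lit 503) (nat_lit 5) (nat_lit 600) (nat_lit 585) (nat_lit 375))) (XT.nd (nat_lit 78) (nat_lit 0) (nat_lit 0) (XT.lf (nat_lit 0) (nat_lit 3053892458) (nat_lit 1824) (nat_lit 10121896845) (nat_lit 1900) (nat_lit 4286946990) (nat_lit 479) (nat_lit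 5) (nat_lit 503) (nat_lit 5) (nat_lit 504) (nat_lit 5) (nat_lit 601) (nat_lit 585) (nat_lit 374)) (XT.lf (nat_lit 0) (nat_lit 4221989257) (nat_lit 1824) (nat_lit 987459793) (nat_lit 1900) (nat_lit 12432680774) (nat_lit 479) (nat_lit 5) (nat_lit 503) (nat_lit 5) (nat_lit 504) (nat_lit 5) (nat_lit 602) (nat_lit 585) (nat_lit 373))))) (XT.nd (nat_lit 312) (nat_lit 1596) (nat_lit 0) (XT.nd (nat_lit 156) (nat_lit 0) (nat_lit 76) (XT.nd (nat_lit 78) (nat_lit 0) (nat_lit 0) (XT.lf (nat_lit 0) (nat_lit 5481644337) (nat_lit 1824) (nat_lit 9407533586) (nat_lit 1900) (nat_lit 2934569729) (nat_lit 480) (nat_lit 5) (nat_lit 504) (nat_lit 5) (nat_lit 505) (nat_lit 5) (nat_lit 603) (nat_lit 585) (nat_lit 372)) (XT.lf (nat_lit 0) (nat_lit 6801877116) (nat_lit 1824) (nat_lit 26556591) (nat_lit 1900) (nat_lit 11179856782) (nat_lit 480) (nat_lit 5) (nat_lit 504) (nat_lit 5) (nat_lit 505) (nat_lit 5) (nat_lit 604) (nat_lit 585) (nat_lit 371))) (XT.nd (nat_lit 78) (nat_lit 0)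 (nat_lit 0) (XT.lf (nat_lit 0) (nat_lit 8215061711) (nat_lit 1824) (nat_lit 8540470682) (nat_lit 1900) (nat_lit 1439661186) (nat_lit 481) (nat_lit 5) (nat_lit 505) (nat_lit 5) (nat_lit 506) (nat_lit 5) (nat_lit 605) (nat_lit 585) (nat_lit 370)) (XT.lf (nat_lit 76) (nat_lit 1108981401) (nat_lit 0) (nat_lit 8594548419) (nat_lit 1900) (nat_lit 8681364845) (nat_lit 482) (nat_lit 5) (nat_lit 481) (nat_lit 5) (nat_lit 506) (nat_lit 5) (nat_lit 606) (nat_lit 585) (nat_lit 369)))) (XT.nd (nat_lit 156) (nat_lit 1672) (nat_lit 0) (XT.nd (nat_lit 78) (nat_lit 0) (nat_lit 76) (XT.lf (nat_lit 76) (nat_lit 11062723157) (nat_lit 0) (nat_lit 210854393) (nat_lit 1900) (nat_lit 7303776344) (nat_lit 482) (nat_lit 5) (nat_lit 481) (nat_lit 5) (nat_lit 506) (nat_lit 5) (nat_lit 607) (nat_lit 585) (nat_lit 368)) (XT.lf (nat_lit 76) (nat_lit 2414902322) (nat_lit 0) (nat_lit 10524568846) (nat_lit 1900) (nat_lit 5832902560) (nat_lit 483) (nat_lit 5) (nat_lit 482) (nat_lit 5) (nat_lit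 507) (nat_lit 5) (nat_lit 608) (nat_lit 585) (nat_lit 367))) (XT.nd (nat_lit 78) (nat_lit 1748) (nat_lit 0) (XT.lf (nat_lit 76) (nat_lit 12639008619) (nat_lit 0) (nat_lit 2046178628) (nat_lit 1900) (nat_lit 4285176932) (nat_lit 483) (nat_lit 5) (nat_lit 482) (nat_lit 5) (nat_lit 507) (nat_lit 5) (nat_lit 609) (nat_lit 585) (nat_lit 366)) (XT.lf (nat_lit 0) (nat_lit 3899068942) (nat_lit 1824) (nat_lit 12629726929) (nat_lit 1900) (nat_lit 2642259311) (nat_lit 459) (nat_lit 5) (nat_lit 483) (nat_lit 5) (nat_lit 484) (nat_lit 5) (nat_lit 610) (nat_lit 585) (nat_lit 365))))))))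
noncomputable def xc197 : XT := (XT.nd (nat_lit 2262) (nat_lit 9196) (nat_lit 0) (XT.nd (nat_lit 1092) (nat_lit 6384) (nat_lit 0) (XT.nd (nat_lit 546) (nat_lit 2584) (nat_lit 0) (XT.nd (nat_lit 234) (nat_lit 2660) (nat_lit 0) (XT.nd (nat_lit 78) (nat_lit 1140) (nat_lit 0) (XT.lf (nat_lit 0) (nat_lit 14401736198) (nat_lit 1824) (nat_lit 4058361672) (nat_lit 1900) (nat_lit 914646012) (nat_lit 459) (nat_lit 5) (nat_lit 483) (nat_lit 5) (nat_lit 484) (nat_lit 5) (nat_lit 611) (nat_lit 585) (nat_lit 364)) (XT.nd (nat_lit 78) (nat_lit 0) (nat_lit 0) (XT.lf (nat_lit 0) (nat_lit 898368420) (nat_lit 1140) (nat_lit 14017072456) (nat_lit 76) (nat_lit 4665716431) (nat_lit 444) (nat_lit 5) (nat_lit 459) (nat_lit 5) (nat_lit 445) (nat_lit 5) (nat_lit 612) (nat_lit 585) (nat_lit 363)) (XT.lf (nat_lit 0) (nat_lit 2790890641) (nat_lit 1140) (nat_lit 3449369502) (nat_lit 76) (nat_lit 13550208331) (nat_lit 444) (nat_lit 5) (nat_lit 459) (nat_lit 5) (nat_lit 445) (nat_lit 5)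 (nat_lit 613) (nat_lit 585) (nat_lit 362)))) (XT.nd (nat_lit 156) (nat_lit 1748) (nat_lit 0) (XT.nd (nat_lit 78) (nat_lit 0) (nat_lit 0) (XT.lf (nat_lit 0) (nat_lit 4781825469) (nat_lit 988) (nat_lit 12597745726) (nat_lit 76) (nat_lit 2623183705) (nat_lit 432) (nat_lit 5) (nat_lit 445) (nat_lit 5) (nat_lit 433) (nat_lit 5) (nat_lit 614) (nat_lit 585) (nat_lit 361)) (XT.lf (nat_lit 0) (nat_lit 6872387525) (nat_lit 988) (nat_lit 1741565723) (nat_lit 76) (nat_lit 11604137908) (nat_lit 432) (nat_lit 5) (nat_lit 445) (nat_lit 5) (nat_lit 433) (nat_lit 5) (nat_lit 615) (nat_lit 585) (nat_lit 360))) (XT.nd (nat_lit 78) (nat_lit 836) (nat_lit 0) (XT.lf (nat_lit 0) (nat_lit 9063932638) (nat_lit 988) (nat_lit 10987846287) (nat_lit 76) (nat_lit 384772042) (nat_lit 420) (nat_lit 5) (nat_lit 433) (nat_lit 5) (nat_lit 421) (nat_lit 5) (nat_lit 616) (nat_lit 585) (nat_lit 359)) (XT.lf (nat_lit 0) (nat_lit 167846742) (nat_lit 836) (nat_lit 11196704378) (nat_lit 912) (nat_lit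 9293524267) (nat_lit 409) (nat_lit 5) (nat_lit 420) (nat_lit 5) (nat_lit 421) (nat_lit 5) (nat_lit 617) (nat_lit 585) (nat_lit 358))))) (XT.nd (nat_lit 234) (nat_lit 1748) (nat_lit 0) (XT.nd (nat_lit 78) (nat_lit 836) (nat_lit 0) (XT.lf (nat_lit 0) (nat_lit 11691153418) (nat_lit 836) (nat_lit 2089167691) (nat_lit 912) (nat_lit 7102326661) (nat_lit 409) (nat_lit 5) (nat_lit 420) (nat_lit 5) (nat_lit 421) (nat_lit 5) (nat_lit 618) (nat_lit 585) (nat_lit 357)) (XT.nd (nat_lit 78) (nat_lit 0) (nat_lit 0) (XT.lf (nat_lit 0) (nat_lit 2312343317) (nat_lit 836) (nat_lit 13989322966) (nat_lit 912) (nat_lit 4808900374) (nat_lit 398) (nat_lit 5) (nat_lit 409) (nat_lit 5) (nat_lit 410) (nat_lit 5) (nat_lit 619) (nat_lit 585) (nat_lit 356)) (XT.lf (nat_lit 0) (nat_lit 14152413156) (nat_lit 836) (nat_lit 4792005090) (nat_lit 912) (nat_lit 2397206323) (nat_lit 398) (nat_lit 5) (nat_lit 409) (nat_lit 5) (nat_lit 410) (nat_lit 5) (nat_lit 620) (nat_lit 585) (nat_lit 355))))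 (XT.nd (nat_lit 156) (nat_lit 836) (nat_lit 0) (XT.nd (nat_lit 78) (nat_lit 0) (nat_lit 0) (XT.lf (nat_lit 0) (nat_lit 118087885) (nat_lit 912) (nat_lit 16897831700) (nat_lit 76) (nat_lit 4560252369) (nat_lit 386) (nat_lit 5) (nat_lit 398) (nat_lit 5) (nat_lit 387) (nat_lit 5) (nat_lit 621) (nat_lit 585) (nat_lit 354)) (XT.lf (nat_lit 0) (nat_lit 2727588535) (nat_lit 912) (nat_lit 4986128877) (nat_lit 76) (nat_lit 14099856215) (nat_lit 386) (nat_lit 5) (nat_lit 398) (nat_lit 5) (nat_lit 387) (nat_lit 5) (nat_lit 622) (nat_lit 585) (nat_lit 353))) (XT.nd (nat_lit 78) (nat_lit 0) (nat_lit 0) (XT.lf (nat_lit 0) (nat_lit 5443969422) (nat_lit 912) (nat_lit 14812106401) (nat_lit 76) (nat_lit 1798553933) (nat_lit 375) (nat_lit 5) (nat_lit 387) (nat_lit 5) (nat_lit 376) (nat_lit 5) (nat_lit 623) (nat_lit 585) (nat_lit 352)) (XT.lf (nat_lit 0) (nat_lit 8295253450) (nat_lit 912) (nat_lit 2572221774) (nat_lit 76) (nat_lit 11431420497) (nat_lit 375) (nat_lit 5) (nat_lit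 387) (nat_lit 5) (nat_lit 376) (nat_lit 5) (nat_lit 624) (nat_lit 585) (nat_lit 351)))))) (XT.nd (nat_lit 546) (nat_lit 3344) (nat_lit 0) (XT.nd (nat_lit 234) (nat_lit 1520) (nat_lit 0) (XT.nd (nat_lit 78) (nat_lit 760) (nat_lit 0) (XT.lf (nat_lit 0) (nat_lit 10039805902) (nat_lit 760) (nat_lit 1224834655) (nat_lit 836) (nat_lit 11282185118) (nat_lit 365) (nat_lit 5) (nat_lit 375) (nat_lit 5) (nat_lit 376) (nat_lit 5) (nat_lit 625) (nat_lit 585) (nat_lit 350)) (XT.nd (nat_lit 78) (nat_lit 0) (nat_lit 0) (XT.lf (nat_lit 0) (nat_lit 80224250) (nat_lit 760) (nat_lit 14282936761) (nat_lit 836) (nat_lit 8435158522) (nat_lit 355) (nat_lit 5) (nat_lit 365) (nat_lit 5) (nat_lit 366) (nat_lit 5) (nat_lit 626) (nat_lit 585) (nat_lit 349)) (XT.lf (nat_lit 0) (nat_lit 13076178878) (nat_lit 760) (nat_lit 4535454450) (nat_lit 836) (nat_lit 5441450520) (nat_lit 355) (nat_lit 5) (nat_lit 365) (nat_lit 5) (nat_lit 366) (nat_lit 5) (nat_lit 627) (nat_lit 585) (nat_lit 348))))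 (XT.nd (nat_lit 156) (nat_lit 760) (nat_lit 0) (XT.nd (nat_lit 78) (nat_lit 76) (nat_lit 0) (XT.lf (nat_lit 0) (nat_lit 3019259427) (nat_lit 684) (nat_lit 17956595366) (nat_lit 760) (nat_lit 2336073268) (nat_lit 346) (nat_lit 5) (nat_lit 355) (nat_lit 5) (nat_lit 356) (nat_lit 5) (nat_lit 628) (nat_lit 585) (nat_lit 347)) (XT.lf (nat_lit 0) (nat_lit 914031321) (nat_lit 760) (nat_lit 7204266752) (nat_lit 76) (nat_lit 15455672845) (nat_lit 345) (nat_lit 5) (nat_lit 355) (nat_lit 5) (nat_lit 346) (nat_lit 5) (nat_lit 629) (nat_lit 585) (nat_lit 346))) (XT.nd (nat_lit 78) (nat_lit 0) (nat_lit 0) (XT.lf (nat_lit 0) (nat_lit 4247172913) (nat_lit 836) (nat_lit 17645461555) (nat_lit 76) (nat_lit 1947325231) (nat_lit 335) (nat_lit 5) (nat_lit 346) (nat_lit 5) (nat_lit 336) (nat_lit 5) (nat_lit 630) (nat_lit 585) (nat_lit 345)) (XT.lf (nat_lit 0) (nat_lit 7745620616) (nat_lit 836) (nat_lit 4209815741) (nat_lit 76) (nat_lit 12153859224) (nat_lit 335) (nat_lit 5) (nat_lit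 346) (nat_lit 5) (nat_lit 336) (nat_lit 5) (nat_lit 631) (nat_lit 585) (nat_lit 344))))) (XT.nd (nat_lit 312) (nat_lit 1368) (nat_lit 0) (XT.nd (nat_lit 156) (nat_lit 1292) (nat_lit 0) (XT.nd (nat_lit 78) (nat_lit 0) (nat_lit 0) (XT.lf (nat_lit 0) (nat_lit 9616424201) (nat_lit 684) (nat_lit 1756338621) (nat_lit 760) (nat_lit 13010081034) (nat_lit 326) (nat_lit 5) (nat_lit 335) (nat_lit 5) (nat_lit 336) (nat_lit 5) (nat_lit 632) (nat_lit 585) (nat_lit 343)) (XT.lf (nat_lit 0) (nat_lit 15153356622) (nat_lit 760) (nat_lit 945653424) (nat_lit 76) (nat_lit 8561235059) (nat_lit 326) (nat_lit 5) (nat_lit 336) (nat_lit 5) (nat_lit 327) (nat_lit 5) (nat_lit 633) (nat_lit 585) (nat_lit 342))) (XT.nd (nat_lit 78) (nat_lit 608) (nat_lit 0) (XT.lf (nat_lit 0) (nat_lit 13310265269) (nat_lit 684) (nat_lit 5793750625) (nat_lit 760) (nat_lit 5837289593) (nat_lit 317) (nat_lit 5) (nat_lit 326) (nat_lit 5) (nat_lit 327) (nat_lit 5) (nat_lit 634) (nat_lit 585) (nat_lit 341))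 (XT.lf (nat_lit 0) (nat_lit 2635921815) (nat_lit 608) (nat_lit 20548341012) (nat_lit 684) (nat_lit 2042712936) (nat_lit 309) (nat_lit 5) (nat_lit 317) (nat_lit 5) (nat_lit 318) (nat_lit 5) (nat_lit 635) (nat_lit 585) (nat_lit 340)))) (XT.nd (nat_lit 156) (nat_lit 608) (nat_lit 0) (XT.nd (nat_lit 78) (nat_lit 684) (nat_lit 0) (XT.lf (nat_lit 0) (nat_lit 1917181975) (nat_lit 684) (nat_lit 8225923573) (nat_lit 76) (nat_lit 15372748764) (nat_lit 308) (nat_lit 5) (nat_lit 317) (nat_lit 5) (nat_lit 309) (nat_lit 5) (nat_lit 636) (nat_lit 585) (nat_lit 339)) (XT.lf (nat_lit 0) (nat_lit 5971059894) (nat_lit 760) (nat_lit 19318905751) (nat_lit 76) (nat_lit 519432166) (nat_lit 299) (nat_lit 5) (nat_lit 309) (nat_lit 5) (nat_lit 300) (nat_lit 5) (nat_lit 637) (nat_lit 585) (nat_lit 338))) (XT.nd (nat_lit 78) (nat_lit 608) (nat_lit 0) (XT.lf (nat_lit 0) (nat_lit 10225321478) (nat_lit 760) (nat_lit 4566716130) (nat_lit 76) (nat_lit 11314388613) (nat_lit 299) (nat_lit 5)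 (nat_lit 309) (nat_lit 5) (nat_lit 300) (nat_lit 5) (nat_lit 638) (nat_lit 585) (nat_lit 337)) (XT.lf (nat_lit 0) (nat_lit 10615615466) (nat_lit 608) (nat_lit 4014611130) (nat_lit 684) (nat_lit 11777857596) (nat_lit 291) (nat_lit 5) (nat_lit 299) (nat_lit 5) (nat_lit 300) (nat_lit 5) (nat_lit 639) (nat_lit 585) (nat_lit 336))))))) (XT.nd (nat_lit 1170) (nat_lit 4028) (nat_lit 0) (XT.nd (nat_lit 546) (nat_lit 2736) (nat_lit 0) (XT.nd (nat_lit 234) (nat_lit 1140) (nat_lit 0) (XT.nd (nat_lit 78) (nat_lit 1292) (nat_lit 0) (XT.lf (nat_lit 0) (nat_lit 19196055023) (nat_lit 684) (nat_lit 601338817) (nat_lit 76) (nat_lit 6916925135) (nat_lit 291) (nat_lit 5) (nat_lit 300) (nat_lit 5) (nat_lit 292) (nat_lit 5) (nat_lit 640) (nat_lit 585) (nat_lit 335)) (XT.nd (nat_lit 78) (nat_lit 684) (nat_lit 0) (XT.lf (nat_lit 0) (nat_lit 15060467191) (nat_lit 608) (nat_lit 8913836535) (nat_lit 684) (nat_lit 3049952808) (nat_lit 283) (nat_lit 5) (nat_lit 291) (nat_lit 5) (nat_lit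 292) (nat_lit 5) (nat_lit 641) (nat_lit 585) (nat_lit 334)) (XT.lf (nat_lit 0) (nat_lit 1527484604) (nat_lit 684) (nat_lit 23615678096) (nat_lit 76) (nat_lit 2196243825) (nat_lit 274) (nat_lit 5) (nat_lit 283) (nat_lit 5) (nat_lit 275) (nat_lit 5) (nat_lit 642) (nat_lit 585) (nat_lit 333)))) (XT.nd (nat_lit 156) (nat_lit 532) (nat_lit 0) (XT.nd (nat_lit 78) (nat_lit 608) (nat_lit 0) (XT.lf (nat_lit 0) (nat_lit 6292299349) (nat_lit 684) (nat_lit 7855975808) (nat_lit 76) (nat_lit 13509447951) (nat_lit 274) (nat_lit 5) (nat_lit 283) (nat_lit 5) (nat_lit 275) (nat_lit 5) (nat_lit 643) (nat_lit 585) (nat_lit 332)) (XT.lf (nat_lit 0) (nat_lit 8324044057) (nat_lit 608) (nat_lit 2879256885) (nat_lit 684) (nat_lit 16778087409) (nat_lit 266) (nat_lit 5) (nat_lit 274) (nat_lit 5) (nat_lit 275) (nat_lit 5) (nat_lit 644) (nat_lit 585) (nat_lit 331))) (XT.nd (nat_lit 78) (nat_lit 532) (nat_lit 0) (XT.lf (nat_lit 0) (nat_lit 16318399870) (nat_lit 684) (nat_lit 3436680578)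 (nat_lit 76) (nat_lit 8554329047) (nat_lit 266) (nat_lit 5) (nat_lit 275) (nat_lit 5) (nat_lit 267) (nat_lit 5) (nat_lit 645) (nat_lit 585) (nat_lit 330)) (XT.lf (nat_lit 0) (nat_lit 13259227770) (nat_lit 532) (nat_lit 8378665132) (nat_lit 608) (nat_lit 7004056453) (nat_lit 259) (nat_lit 5) (nat_lit 266) (nat_lit 5) (nat_lit 267) (nat_lit 5) (nat_lit 646) (nat_lit 585) (nat_lit 329))))) (XT.nd (nat_lit 312) (nat_lit 1596) (nat_lit 0) (XT.nd (nat_lit 156) (nat_lit 532) (nat_lit 0) (XT.nd (nat_lit 78) (nat_lit 76) (nat_lit 0) (XT.lf (nat_lit 0) (nat_lit 1347513963) (nat_lit 532) (nat_lit 25766130760) (nat_lit 608) (nat_lit 1866498043) (nat_lit 252) (nat_lit 5) (nat_lit 259) (nat_lit 5) (nat_lit 260) (nat_lit 5) (nat_lit 647) (nat_lit 585) (nat_lit 328)) (XT.lf (nat_lit 0) (nat_lit 3485939216) (nat_lit 608) (nat_lit 10784280919) (nat_lit 76) (nat_lit 15051314422) (nat_lit 251) (nat_lit 5) (nat_lit 259) (nat_lit 5) (nat_lit 252) (nat_lit 5) (nat_lit 648) (nat_lit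 585) (nat_lit 327))) (XT.nd (nat_lit 78) (nat_lit 0) (nat_lit 0) (XT.lf (nat_lit 0) (nat_lit 6469561719) (nat_lit 532) (nat_lit 2489936593) (nat_lit 608) (nat_lit 20709227935) (nat_lit 244) (nat_lit 5) (nat_lit 251) (nat_lit 5) (nat_lit 252) (nat_lit 5) (nat_lit 649) (nat_lit 585) (nat_lit 326)) (XT.lf (nat_lit 0) (nat_lit 14674288328) (nat_lit 608) (nat_lit 5873064394) (nat_lit 76) (nat_lit 9472873980) (nat_lit 244) (nat_lit 5) (nat_lit 252) (nat_lit 5) (nat_lit 245) (nat_lit 5) (nat_lit 650) (nat_lit 585) (nat_lit 325)))) (XT.nd (nat_lit 156) (nat_lit 1064) (nat_lit 0) (XT.nd (nat_lit 78) (nat_lit 0) (nat_lit 0) (XT.lf (nat_lit 0) (nat_lit 11935698203) (nat_lit 532) (nat_lit 8658781108) (nat_lit 608) (nat_lit 9782455871) (nat_lit 237) (nat_lit 5) (nat_lit 244) (nat_lit 5) (nat_lit 245) (nat_lit 5) (nat_lit 651) (nat_lit 585) (nat_lit 324)) (XT.lf (nat_lit 0) (nat_lit 26692405751) (nat_lit 608) (nat_lit 586450693) (nat_lit 76) (nat_lit 3460734874) (nat_lit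 237) (nat_lit 5) (nat_lit 245) (nat_lit 5) (nat_lit 238) (nat_lit 5) (nat_lit 652) (nat_lit 585) (nat_lit 323))) (XT.nd (nat_lit 78) (nat_lit 532) (nat_lit 0) (XT.lf (nat_lit 0) (nat_lit 1950371209) (nat_lit 532) (nat_lit 13321278546) (nat_lit 76) (nat_lit 15834192337) (nat_lit 230) (nat_lit 5) (nat_lit 237) (nat_lit 5) (nat_lit 231) (nat_lit 5) (nat_lit 653) (nat_lit 585) (nat_lit 322)) (XT.lf (nat_lit 0) (nat_lit 5087637037) (nat_lit 532) (nat_lit 2960307787) (nat_lit 608) (nat_lit 23430252982) (nat_lit 223) (nat_lit 5) (nat_lit 230) (nat_lit 5) (nat_lit 231) (nat_lit 5) (nat_lit 654) (nat_lit 585) (nat_lit 321)))))) (XT.nd (nat_lit 546) (nat_lit 2128) (nat_lit 0) (XT.nd (nat_lit 234) (nat_lit 1444) (nat_lit 0) (XT.nd (nat_lit 78) (nat_lit 456) (nat_lit 0) (XT.lf (nat_lit 0) (nat_lit 14417002232) (nat_lit 608) (nat_lit 7877702971) (nat_lit 76) (nat_lit 9560304893) (nat_lit 223) (nat_lit 5) (nat_lit 231) (nat_lit 5) (nat_lit 224) (nat_lit 5) (nat_lit 655)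 (nat_lit 585) (nat_lit 320)) (XT.nd (nat_lit 78) (nat_lit 0) (nat_lit 0) (XT.lf (nat_lit 0) (nat_lit 11127937717) (nat_lit 456) (nat_lit 9874647652) (nat_lit 532) (nat_lit 11234990480) (nat_lit 217) (nat_lit 5) (nat_lit 223) (nat_lit 5) (nat_lit 224) (nat_lit 5) (nat_lit 656) (nat_lit 585) (nat_lit 319)) (XT.lf (nat_lit 0) (nat_lit 27788544351) (nat_lit 532) (nat_lit 2028585384) (nat_lit 76) (nat_lit 2809290003) (nat_lit 217) (nat_lit 5) (nat_lit 224) (nat_lit 5) (nat_lit 218) (nat_lit 5) (nat_lit 657) (nat_lit 585) (nat_lit 318)))) (XT.nd (nat_lit 156) (nat_lit 456) (nat_lit 0) (XT.nd (nat_lit 78) (nat_lit 456) (nat_lit 0) (XT.lf (nat_lit 0) (nat_lit 1843228408) (nat_lit 532) (nat_lit 15435923569) (nat_lit 76) (nat_lit 15740106061) (nat_lit 210) (nat_lit 5) (nat_lit 217) (nat_lit 5) (nat_lit 211) (nat_lit 5) (nat_lit 658) (nat_lit 585) (nat_lit 317)) (XT.lf (nat_lit 0) (nat_lit 4214686217) (nat_lit 456) (nat_lit 4416991088) (nat_lit 532) (nat_lit 24786866287)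 (nat_lit 204) (nat_lit 5) (nat_lit 210) (nat_lit 5) (nat_lit 211) (nat_lit 5) (nat_lit 659) (nat_lit 585) (nat_lit 316))) (XT.nd (nat_lit 78) (nat_lit 456) (nat_lit 0) (XT.lf (nat_lit 0) (nat_lit 15714059948) (nat_lit 532) (nat_lit 9417175592) (nat_lit 76) (nat_lit 8691416120) (nat_lit 204) (nat_lit 5) (nat_lit 211) (nat_lit 5) (nat_lit 205) (nat_lit 5) (nat_lit 660) (nat_lit 585) (nat_lit 315)) (XT.lf (nat_lit 0) (nat_lit 10874898018) (nat_lit 456) (nat_lit 12160495750) (nat_lit 532) (nat_lit 11197502146) (nat_lit 198) (nat_lit 5) (nat_lit 204) (nat_lit 5) (nat_lit 205) (nat_lit 5) (nat_lit 661) (nat_lit 585) (nat_lit 314))))) (XT.nd (nat_lit 312) (nat_lit 1216) (nat_lit 0) (XT.nd (nat_lit 156) (nat_lit 456) (nat_lit 0) (XT.nd (nat_lit 78) (nat_lit 456) (nat_lit 0) (XT.lf (nat_lit 0) (nat_lit 30571175365) (nat_lit 532) (nat_lit 2960714342) (nat_lit 76) (nat_lit 1118095017) (nat_lit 198) (nat_lit 5) (nat_lit 205) (nat_lit 5) (nat_lit 199) (nat_lit 5) (nat_lit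 662) (nat_lit 585) (nat_lit 313)) (XT.lf (nat_lit 0) (nat_lit 3336702468) (nat_lit 456) (nat_lit 17097124369) (nat_lit 76) (nat_lit 14637251715) (nat_lit 192) (nat_lit 5) (nat_lit 198) (nat_lit 5) (nat_lit 193) (nat_lit 5) (nat_lit 663) (nat_lit 585) (nat_lit 312))) (XT.nd (nat_lit 78) (nat_lit 0) (nat_lit 0) (XT.lf (nat_lit 0) (nat_lit 3887422309) (nat_lit 456) (nat_lit 7001299213) (nat_lit 532) (nat_lit 24610477360) (nat_lit 186) (nat_lit 5) (nat_lit 192) (nat_lit 5) (nat_lit 193) (nat_lit 5) (nat_lit 664) (nat_lit 585) (nat_lit 311)) (XT.lf (nat_lit 0) (nat_lit 18748310633) (nat_lit 532) (nat_lit 10458118996) (nat_lit 76) (nat_lit 6726321482) (nat_lit 186) (nat_lit 5) (nat_lit 193) (nat_lit 5) (nat_lit 187) (nat_lit 5) (nat_lit 665) (nat_lit 585) (nat_lit 310)))) (XT.nd (nat_lit 156) (nat_lit 836) (nat_lit 0) (XT.nd (nat_lit 78) (nat_lit 0) (nat_lit 0) (XT.lf (nat_lit 0) (nat_lit 11215726023) (nat_lit 380) (nat_lit 15666139014) (nat_lit 456) (nat_lit 9490773962)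 (nat_lit 181) (nat_lit 5) (nat_lit 186) (nat_lit 5) (nat_lit 187) (nat_lit 5) (nat_lit 666) (nat_lit 585) (nat_lit 309)) (XT.lf (nat_lit 0) (nat_lit 33461218533) (nat_lit 380) (nat_lit 1784662824) (nat_lit 456) (nat_lit 1574087554) (nat_lit 181) (nat_lit 5) (nat_lit 186) (nat_lit 5) (nat_lit 187) (nat_lit 5) (nat_lit 667) (nat_lit 585) (nat_lit 308))) (XT.nd (nat_lit 78) (nat_lit 380) (nat_lit 0) (XT.lf (nat_lit 0) (nat_lit 6618628560) (nat_lit 456) (nat_lit 18274556325) (nat_lit 76) (nat_lit 12378157312) (nat_lit 175) (nat_lit 5) (nat_lit 181) (nat_lit 5) (nat_lit 176) (nat_lit 5) (nat_lit 668) (nat_lit 585) (nat_lit 307)) (XT.lf (nat_lit 0) (nat_lit 4142031704) (nat_lit 380) (nat_lit 10871168125) (nat_lit 456) (nat_lit 22717153546) (nat_lit 170) (nat_lit 5) (nat_lit 175) (nat_lit 5) (nat_lit 176) (nat_lit 5) (nat_lit 669) (nat_lit 585) (nat_lit 306))))))))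
noncomputable def xc198 : XT := (XT.nd (nat_lit 76674) (nat_lit 0) (nat_lit 9652) (XT.nd (nat_lit 75504) (nat_lit 0) (nat_lit 22420) (XT.nd (nat_lit 74958) (nat_lit 0) (nat_lit 25308) (XT.nd (nat_lit 74646) (nat_lit 0) (nat_lit 25232) (XT.nd (nat_lit 78) (nat_lit 456) (nat_lit 0) (XT.lf (nat_lit 0) (nat_lit 23719057829) (nat_lit 456) (nat_lit 10968098144) (nat_lit 76) (nat_lit 3508520973) (nat_lit 170) (nat_lit 5) (nat_lit 176) (nat_lit 5) (nat_lit 171) (nat_lit 5) (nat_lit 670) (nat_lit 585) (nat_lit 305)) (XT.nd (nat_lit 78) (nat_lit 76) (nat_lit 0) (XT.lf (nat_lit 0) (nat_lit 12188881415) (nat_lit 380) (nat_lit 20559003073) (nat_lit 456) (nat_lit 5919445547) (nat_lit 165) (nat_lit 5) (nat_lit 170) (nat_lit 5) (nat_lit 171) (nat_lit 5) (nat_lit 671) (nat_lit 585) (nat_lit 304)) (XT.lf (nat_lit 0) (nat_lit 2843847520) (nat_lit 456) (nat_lit 3211513113) (nat_lit 76) (nat_lit 33091254585) (nat_lit 164) (nat_lit 5) (nat_lit 170) (nat_lit 5) (nat_lit 165) (nat_lit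 5) (nat_lit 672) (nat_lit 585) (nat_lit 303)))) (XT.nd (nat_lit 156) (nat_lit 0) (nat_lit 0) (XT.nd (nat_lit 78) (nat_lit 0) (nat_lit 0) (XT.lf (nat_lit 0) (nat_lit 2064967055) (nat_lit 0) (nat_lit 2064967055) (nat_lit 1748) (nat_lit 3471274695) (nat_lit 496) (nat_lit 5) (nat_lit 496) (nat_lit 3) (nat_lit 519) (nat_lit 3) (nat_lit 586) (nat_lit 586) (nat_lit 388)) (XT.lf (nat_lit 0) (nat_lit 8653392116) (nat_lit 1748) (nat_lit 3550710911) (nat_lit 1824) (nat_lit 3144102185) (nat_lit 496) (nat_lit 5) (nat_lit 519) (nat_lit 3) (nat_lit 520) (nat_lit 5) (nat_lit 587) (nat_lit 586) (nat_lit 387))) (XT.nd (nat_lit 78) (nat_lit 0) (nat_lit 76) (XT.lf (nat_lit 76) (nat_lit 4144518679) (nat_lit 0) (nat_lit 4956938935) (nat_lit 1824) (nat_lit 6394517999) (nat_lit 497) (nat_lit 5) (nat_lit 496) (nat_lit 5) (nat_lit 520) (nat_lit 5) (nat_lit 588) (nat_lit 586) (nat_lit 386)) (XT.lf (nat_lit 0) (nat_lit 9590837561) (nat_lit 1748) (nat_lit 3624540061) (nat_lit 1824) (nat_lit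 2430677202) (nat_lit 497) (nat_lit 5) (nat_lit 520) (nat_lit 5) (nat_lit 521) (nat_lit 5) (nat_lit 589) (nat_lit 586) (nat_lit 385))))) (XT.nd (nat_lit 234) (nat_lit 0) (nat_lit 152) (XT.nd (nat_lit 78) (nat_lit 0) (nat_lit 76) (XT.lf (nat_lit 76) (nat_lit 4276120477) (nat_lit 0) (nat_lit 5867178856) (nat_lit 1824) (nat_lit 5654770857) (nat_lit 498) (nat_lit 5) (nat_lit 497) (nat_lit 5) (nat_lit 521) (nat_lit 5) (nat_lit 590) (nat_lit 586) (nat_lit 384)) (XT.nd (nat_lit 78) (nat_lit 0) (nat_lit 0) (XT.lf (nat_lit 0) (nat_lit 10734704798) (nat_lit 1748) (nat_lit 3583631867) (nat_lit 1824) (nat_lit 1634231757) (nat_lit 498) (nat_lit 5) (nat_lit 521) (nat_lit 5) (nat_lit 522) (nat_lit 5) (nat_lit 591) (nat_lit 586) (nat_lit 383)) (XT.lf (nat_lit 76) (nat_lit 4529902183) (nat_lit 0) (nat_lit 6869284037) (nat_lit 1824) (nat_lit 4709745879) (nat_lit 499) (nat_lit 5) (nat_lit 498) (nat_lit 5) (nat_lit 522) (nat_lit 5) (nat_lit 592) (nat_lit 586) (nat_lit 382))))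 (XT.nd (nat_lit 156) (nat_lit 0) (nat_lit 0) (XT.nd (nat_lit 78) (nat_lit 0) (nat_lit 0) (XT.lf (nat_lit 0) (nat_lit 12099006860) (nat_lit 1748) (nat_lit 3422783974) (nat_lit 1824) (nat_lit 746191653) (nat_lit 499) (nat_lit 5) (nat_lit 522) (nat_lit 5) (nat_lit 523) (nat_lit 5) (nat_lit 593) (nat_lit 586) (nat_lit 381)) (XT.lf (nat_lit 76) (nat_lit 4911356210) (nat_lit 0) (nat_lit 7972093262) (nat_lit 1824) (nat_lit 3545352321) (nat_lit 500) (nat_lit 5) (nat_lit 499) (nat_lit 5) (nat_lit 523) (nat_lit 5) (nat_lit 594) (nat_lit 586) (nat_lit 380))) (XT.nd (nat_lit 78) (nat_lit 0) (nat_lit 76) (XT.lf (nat_lit 76) (nat_lit 13454451203) (nat_lit 0) (nat_lit 245449900) (nat_lit 1824) (nat_lit 2892610391) (nat_lit 500) (nat_lit 5) (nat_lit 499) (nat_lit 5) (nat_lit 523) (nat_lit 5) (nat_lit 595) (nat_lit 586) (nat_lit 379)) (XT.lf (nat_lit 76) (nat_lit 5426312887) (nat_lit 0) (nat_lit 9184674216) (nat_lit 1824) (nat_lit 2146942585) (nat_lit 501) (nat_lit 5) (nat_lit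 500) (nat_lit 5) (nat_lit 524) (nat_lit 5) (nat_lit 596) (nat_lit 586) (nat_lit 378)))))) (XT.nd (nat_lit 546) (nat_lit 1368) (nat_lit 0) (XT.nd (nat_lit 234) (nat_lit 0) (nat_lit 76) (XT.nd (nat_lit 78) (nat_lit 1748) (nat_lit 0) (XT.lf (nat_lit 76) (nat_lit 14198700547) (nat_lit 0) (nat_lit 1357865488) (nat_lit 1824) (nat_lit 1369765183) (nat_lit 501) (nat_lit 5) (nat_lit 500) (nat_lit 5) (nat_lit 524) (nat_lit 5) (nat_lit 597) (nat_lit 586) (nat_lit 377)) (XT.nd (nat_lit 78) (nat_lit 1824) (nat_lit 0) (XT.lf (nat_lit 76) (nat_lit 6080949271) (nat_lit 0) (nat_lit 10516343984) (nat_lit 1824) (nat_lit 499283178) (nat_lit 502) (nat_lit 5) (nat_lit 501) (nat_lit 5) (nat_lit 525) (nat_lit 5) (nat_lit 598) (nat_lit 586) (nat_lit 376)) (XT.lf (nat_lit 0) (nat_lit 404721822) (nat_lit 1824) (nat_lit 2183099463) (nat_lit 1900) (nat_lit 14681930978) (nat_lit 477) (nat_lit 5) (nat_lit 501) (nat_lit 5) (nat_lit 502) (nat_lit 5) (nat_lit 599) (nat_lit 586) (nat_lit 375))))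 (XT.nd (nat_lit 156) (nat_lit 0) (nat_lit 76) (XT.nd (nat_lit 78) (nat_lit 0) (nat_lit 0) (XT.lf (nat_lit 0) (nat_lit 1394937236) (nat_lit 1824) (nat_lit 10572391843) (nat_lit 1900) (nat_lit 5477500578) (nat_lit 478) (nat_lit 5) (nat_lit 502) (nat_lit 5) (nat_lit 503) (nat_lit 5) (nat_lit 600) (nat_lit 586) (nat_lit 374)) (XT.lf (nat_lit 0) (nat_lit 2430859967) (nat_lit 1824) (nat_lit 1505969586) (nat_lit 1900) (nat_lit 13686061345) (nat_lit 478) (nat_lit 5) (nat_lit 502) (nat_lit 5) (nat_lit 503) (nat_lit 5) (nat_lit 601) (nat_lit 586) (nat_lit 373))) (XT.nd (nat_lit 78) (nat_lit 0) (nat_lit 0) (XT.lf (nat_lit 0) (nat_lit 3560511298) (nat_lit 1824) (nat_lit 9991186165) (nat_lit 1900) (nat_lit 4251356051) (nat_lit 479) (nat_lit 5) (nat_lit 503) (nat_lit 5) (nat_lit 504) (nat_lit 5) (nat_lit 602) (nat_lit 586) (nat_lit 372)) (XT.lf (nat_lit 0) (nat_lit 4743233936) (nat_lit 1824) (nat_lit 680592698) (nat_lit 1900) (nat_lit 12562383528) (nat_lit 479) (nat_lit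 5) (nat_lit 503) (nat_lit 5) (nat_lit 504) (nat_lit 5) (nat_lit 603) (nat_lit 586) (nat_lit 371))))) (XT.nd (nat_lit 312) (nat_lit 1596) (nat_lit 0) (XT.nd (nat_lit 156) (nat_lit 0) (nat_lit 76) (XT.nd (nat_lit 78) (nat_lit 0) (nat_lit 0) (XT.lf (nat_lit 0) (nat_lit 6020936535) (nat_lit 1824) (nat_lit 9261896736) (nat_lit 1900) (nat_lit 2888770499) (nat_lit 480) (nat_lit 5) (nat_lit 504) (nat_lit 5) (nat_lit 505) (nat_lit 5) (nat_lit 604) (nat_lit 586) (nat_lit 370)) (XT.lf (nat_lit 76) (nat_lit 304143845) (nat_lit 0) (nat_lit 7056980135) (nat_lit 1900) (nat_lit 10998842987) (nat_lit 481) (nat_lit 5) (nat_lit 480) (nat_lit 5) (nat_lit 505) (nat_lit 5) (nat_lit 605) (nat_lit 586) (nat_lit 369))) (XT.nd (nat_lit 78) (nat_lit 0) (nat_lit 0) (XT.lf (nat_lit 0) (nat_lit 8793864446) (nat_lit 1824) (nat_lit 8377279657) (nat_lit 1900) (nat_lit 1379638665) (nat_lit 481) (nat_lit 5) (nat_lit 505) (nat_lit 5) (nat_lit 506) (nat_lit 5) (nat_lit 606) (nat_lit 586) (nat_lit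 368)) (XT.lf (nat_lit 76) (nat_lit 1462964096) (nat_lit 0) (nat_lit 8843164627) (nat_lit 1900) (nat_lit 8438269101) (nat_lit 482) (nat_lit 5) (nat_lit 481) (nat_lit 5) (nat_lit 506) (nat_lit 5) (nat_lit 607) (nat_lit 586) (nat_lit 367)))) (XT.nd (nat_lit 156) (nat_lit 1672) (nat_lit 0) (XT.nd (nat_lit 78) (nat_lit 0) (nat_lit 76) (XT.lf (nat_lit 76) (nat_lit 11609274744) (nat_lit 0) (nat_lit 290292304) (nat_lit 1900) (nat_lit 7041299870) (nat_lit 482) (nat_lit 5) (nat_lit 481) (nat_lit 5) (nat_lit 506) (nat_lit 5) (nat_lit 608) (nat_lit 586) (nat_lit 366)) (XT.lf (nat_lit 76) (nat_lit 2794823749) (nat_lit 0) (nat_lit 10797775808) (nat_lit 1900) (nat_lit 5547311636) (nat_lit 483) (nat_lit 5) (nat_lit 482) (nat_lit 5) (nat_lit 507) (nat_lit 5) (nat_lit 609) (nat_lit 586) (nat_lit 365))) (XT.nd (nat_lit 78) (nat_lit 1748) (nat_lit 0) (XT.lf (nat_lit 76) (nat_lit 13216909753) (nat_lit 0) (nat_lit 2148588068) (nat_lit 1900) (nat_lit 3976518730) (nat_lit 483) (nat_lit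 5) (nat_lit 482) (nat_lit 5) (nat_lit 507) (nat_lit 5) (nat_lit 610) (nat_lit 586) (nat_lit 364)) (XT.lf (nat_lit 0) (nat_lit 4308132802) (nat_lit 1824) (nat_lit 12932023517) (nat_lit 1900) (nat_lit 2306681947) (nat_lit 459) (nat_lit 5) (nat_lit 483) (nat_lit 5) (nat_lit 484) (nat_lit 5) (nat_lit 611) (nat_lit 586) (nat_lit 363))))))) (XT.nd (nat_lit 1092) (nat_lit 6384) (nat_lit 0) (XT.nd (nat_lit 546) (nat_lit 2584) (nat_lit 0) (XT.nd (nat_lit 234) (nat_lit 2660) (nat_lit 0) (XT.nd (nat_lit 78) (nat_lit 1140) (nat_lit 0) (XT.lf (nat_lit 0) (nat_lit 15014361589) (nat_lit 1824) (nat_lit 4188256405) (nat_lit 1900) (nat_lit 552132511) (nat_lit 459) (nat_lit 5) (nat_lit 483) (nat_lit 5) (nat_lit 484) (nat_lit 5) (nat_lit 612) (nat_lit 586) (nat_lit 362)) (XT.nd (nat_lit 78) (nat_lit 0) (nat_lit 0) (XT.lf (nat_lit 0) (nat_lit 1286624909) (nat_lit 1140) (nat_lit 13962263435) (nat_lit 76) (nat_lit 4716465285) (nat_lit 444) (nat_lit 5) (nat_lit 459) (nat_lit 5) (nat_lit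 445) (nat_lit 5) (nat_lit 613) (nat_lit 586) (nat_lit 361)) (XT.lf (nat_lit 0) (nat_lit 3209737003) (nat_lit 1140) (nat_lit 3189778000) (nat_lit 76) (nat_lit 13779481641) (nat_lit 444) (nat_lit 5) (nat_lit 459) (nat_lit 5) (nat_lit 445) (nat_lit 5) (nat_lit 614) (nat_lit 586) (nat_lit 360)))) (XT.nd (nat_lit 156) (nat_lit 1748) (nat_lit 0) (XT.nd (nat_lit 78) (nat_lit 0) (nat_lit 0) (XT.lf (nat_lit 0) (nat_lit 5235286389) (nat_lit 988) (nat_lit 12515897386) (nat_lit 76) (nat_lit 2644449511) (nat_lit 432) (nat_lit 5) (nat_lit 445) (nat_lit 5) (nat_lit 433) (nat_lit 5) (nat_lit 615) (nat_lit 586) (nat_lit 359)) (XT.lf (nat_lit 0) (nat_lit 7360643521) (nat_lit 988) (nat_lit 1449138945) (nat_lit 76) (nat_lit 11805634521) (nat_lit 432) (nat_lit 5) (nat_lit 445) (nat_lit 5) (nat_lit 433) (nat_lit 5) (nat_lit 616) (nat_lit 586) (nat_lit 358))) (XT.nd (nat_lit 78) (nat_lit 836) (nat_lit 0) (XT.lf (nat_lit 0) (nat_lit 9591115815) (nat_lit 988) (nat_lit 10875421960)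 (nat_lit 76) (nat_lit 371806683) (nat_lit 420) (nat_lit 5) (nat_lit 433) (nat_lit 5) (nat_lit 421) (nat_lit 5) (nat_lit 617) (nat_lit 586) (nat_lit 357)) (XT.lf (nat_lit 0) (nat_lit 501199527) (nat_lit 836) (nat_lit 11431907251) (nat_lit 912) (nat_lit 9131285768) (nat_lit 409) (nat_lit 5) (nat_lit 420) (nat_lit 5) (nat_lit 421) (nat_lit 5) (nat_lit 618) (nat_lit 586) (nat_lit 356))))) (XT.nd (nat_lit 234) (nat_lit 1748) (nat_lit 0) (XT.nd (nat_lit 78) (nat_lit 836) (nat_lit 0) (XT.lf (nat_lit 0) (nat_lit 12248501829) (nat_lit 836) (nat_lit 2141998874) (nat_lit 912) (nat_lit 6903089877) (nat_lit 409) (nat_lit 5) (nat_lit 420) (nat_lit 5) (nat_lit 421) (nat_lit 5) (nat_lit 619) (nat_lit 586) (nat_lit 355)) (XT.nd (nat_lit 78) (nat_lit 0) (nat_lit 0) (XT.lf (nat_lit 0) (nat_lit 2686724329) (nat_lit 836) (nat_lit 14271048334) (nat_lit 912) (nat_lit 4568385549) (nat_lit 398) (nat_lit 5) (nat_lit 409) (nat_lit 5) (nat_lit 410) (nat_lit 5) (nat_lit 620) (nat_lit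 586) (nat_lit 354)) (XT.lf (nat_lit 0) (nat_lit 14757161562) (nat_lit 836) (nat_lit 4889746083) (nat_lit 912) (nat_lit 2115059437) (nat_lit 398) (nat_lit 5) (nat_lit 409) (nat_lit 5) (nat_lit 410) (nat_lit 5) (nat_lit 621) (nat_lit 586) (nat_lit 353)))) (XT.nd (nat_lit 156) (nat_lit 836) (nat_lit 0) (XT.nd (nat_lit 78) (nat_lit 0) (nat_lit 0) (XT.lf (nat_lit 0) (nat_lit 441942694) (nat_lit 912) (nat_lit 16905455364) (nat_lit 76) (nat_lit 4653850215) (nat_lit 386) (nat_lit 5) (nat_lit 398) (nat_lit 5) (nat_lit 387) (nat_lit 5) (nat_lit 622) (nat_lit 586) (nat_lit 352)) (XT.lf (nat_lit 0) (nat_lit 3097329571) (nat_lit 912) (nat_lit 4761995601) (nat_lit 76) (nat_lit 14384199220) (nat_lit 386) (nat_lit 5) (nat_lit 398) (nat_lit 5) (nat_lit 387) (nat_lit 5) (nat_lit 623) (nat_lit 586) (nat_lit 351))) (XT.nd (nat_lit 78) (nat_lit 0) (nat_lit 0) (XT.lf (nat_lit 0) (nat_lit 5864015747) (nat_lit 912) (nat_lit 14780453756) (nat_lit 76) (nat_lit 1845012919) (nat_lit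 375) (nat_lit 5) (nat_lit 387) (nat_lit 5) (nat_lit 376) (nat_lit 5) (nat_lit 624) (nat_lit 586) (nat_lit 350)) (XT.lf (nat_lit 0) (nat_lit 8766224143) (nat_lit 912) (nat_lit 2302200746) (nat_lit 76) (nat_lit 11670331168) (nat_lit 375) (nat_lit 5) (nat_lit 387) (nat_lit 5) (nat_lit 376) (nat_lit 5) (nat_lit 625) (nat_lit 586) (nat_lit 349)))))) (XT.nd (nat_lit 546) (nat_lit 3344) (nat_lit 0) (XT.nd (nat_lit 234) (nat_lit 1520) (nat_lit 0) (XT.nd (nat_lit 78) (nat_lit 760) (nat_lit 0) (XT.lf (nat_lit 0) (nat_lit 10559952579) (nat_lit 760) (nat_lit 1231138171) (nat_lit 836) (nat_lit 11200632346) (nat_lit 365) (nat_lit 5) (nat_lit 375) (nat_lit 5) (nat_lit 376) (nat_lit 5) (nat_lit 626) (nat_lit 586) (nat_lit 348)) (XT.nd (nat_lit 78) (nat_lit 0) (nat_lit 0) (XT.lf (nat_lit 0) (nat_lit 404960321) (nat_lit 760) (nat_lit 14542930035) (nat_lit 836) (nat_lit 8300430611) (nat_lit 355) (nat_lit 5) (nat_lit 365) (nat_lit 5) (nat_lit 366) (nat_lit 5) (nat_lit 627) (nat_lit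 586) (nat_lit 347)) (XT.lf (nat_lit 0) (nat_lit 13654498128) (nat_lit 760) (nat_lit 4601001322) (nat_lit 836) (nat_lit 5252798079) (nat_lit 355) (nat_lit 5) (nat_lit 365) (nat_lit 5) (nat_lit 366) (nat_lit 5) (nat_lit 628) (nat_lit 586) (nat_lit 346)))) (XT.nd (nat_lit 156) (nat_lit 760) (nat_lit 0) (XT.nd (nat_lit 78) (nat_lit 76) (nat_lit 0) (XT.lf (nat_lit 0) (nat_lit 3400003333) (nat_lit 684) (nat_lit 18283523856) (nat_lit 760) (nat_lit 2088861301) (nat_lit 346) (nat_lit 5) (nat_lit 355) (nat_lit 5) (nat_lit 356) (nat_lit 5) (nat_lit 629) (nat_lit 586) (nat_lit 345)) (XT.lf (nat_lit 0) (nat_lit 1216702578) (nat_lit 760) (nat_lit 7030481067) (nat_lit 76) (nat_lit 15792564436) (nat_lit 345) (nat_lit 5) (nat_lit 355) (nat_lit 5) (nat_lit 346) (nat_lit 5) (nat_lit 630) (nat_lit 586) (nat_lit 344))) (XT.nd (nat_lit 78) (nat_lit 0) (nat_lit 0) (XT.lf (nat_lit 0) (nat_lit 4613207659) (nat_lit 836) (nat_lit 17677186264) (nat_lit 76) (nat_lit 2020728984) (nat_lit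 335) (nat_lit 5) (nat_lit 346) (nat_lit 5) (nat_lit 336) (nat_lit 5) (nat_lit 631) (nat_lit 586) (nat_lit 343)) (XT.lf (nat_lit 0) (nat_lit 8176112722) (nat_lit 836) (nat_lit 3979125269) (nat_lit 76) (nat_lit 12430718025) (nat_lit 335) (nat_lit 5) (nat_lit 346) (nat_lit 5) (nat_lit 336) (nat_lit 5) (nat_lit 632) (nat_lit 586) (nat_lit 342))))) (XT.nd (nat_lit 312) (nat_lit 1368) (nat_lit 0) (XT.nd (nat_lit 156) (nat_lit 1292) (nat_lit 0) (XT.nd (nat_lit 78) (nat_lit 0) (nat_lit 0) (XT.lf (nat_lit 0) (nat_lit 10121567847) (nat_lit 684) (nat_lit 1750857405) (nat_lit 760) (nat_lit 12992617728) (nat_lit 326) (nat_lit 5) (nat_lit 335) (nat_lit 5) (nat_lit 336) (nat_lit 5) (nat_lit 633) (nat_lit 586) (nat_lit 341)) (XT.lf (nat_lit 0) (nat_lit 15723552018) (nat_lit 760) (nat_lit 652792706) (nat_lit 76) (nat_lit 8771749375) (nat_lit 326) (nat_lit 5) (nat_lit 336) (nat_lit 5) (nat_lit 327) (nat_lit 5) (nat_lit 634) (nat_lit 586) (nat_lit 340))) (XT.nd (nat_lit 78)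 (nat_lit 608) (nat_lit 0) (XT.lf (nat_lit 0) (nat_lit 13886193217) (nat_lit 684) (nat_lit 5863804373) (nat_lit 760) (nat_lit 5684842897) (nat_lit 317) (nat_lit 5) (nat_lit 326) (nat_lit 5) (nat_lit 327) (nat_lit 5) (nat_lit 635) (nat_lit 586) (nat_lit 339)) (XT.lf (nat_lit 0) (nat_lit 3001285999) (nat_lit 608) (nat_lit 20907710498) (nat_lit 684) (nat_lit 1817284987) (nat_lit 309) (nat_lit 5) (nat_lit 317) (nat_lit 5) (nat_lit 318) (nat_lit 5) (nat_lit 636) (nat_lit 586) (nat_lit 338)))) (XT.nd (nat_lit 156) (nat_lit 608) (nat_lit 0) (XT.nd (nat_lit 78) (nat_lit 684) (nat_lit 0) (XT.lf (nat_lit 0) (nat_lit 2213162740) (nat_lit 684) (nat_lit 8080490417) (nat_lit 76) (nat_lit 15727353172) (nat_lit 308) (nat_lit 5) (nat_lit 317) (nat_lit 5) (nat_lit 309) (nat_lit 5) (nat_lit 637) (nat_lit 586) (nat_lit 337)) (XT.lf (nat_lit 0) (nat_lit 6345411921) (nat_lit 760) (nat_lit 19392613857) (nat_lit 76) (nat_lit 582449288) (nat_lit 299) (nat_lit 5) (nat_lit 309) (nat_lit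 5) (nat_lit 300) (nat_lit 5) (nat_lit 638) (nat_lit 586) (nat_lit 336))) (XT.nd (nat_lit 78) (nat_lit 608) (nat_lit 0) (XT.lf (nat_lit 0) (nat_lit 10679760093) (nat_lit 760) (nat_lit 4351511228) (nat_lit 76) (nat_lit 11592272933) (nat_lit 299) (nat_lit 5) (nat_lit 309) (nat_lit 5) (nat_lit 300) (nat_lit 5) (nat_lit 639) (nat_lit 586) (nat_lit 335)) (XT.lf (nat_lit 0) (nat_lit 11132450295) (nat_lit 608) (nat_lit 4037389549) (nat_lit 684) (nat_lit 11761454242) (nat_lit 291) (nat_lit 5) (nat_lit 299) (nat_lit 5) (nat_lit 300) (nat_lit 5) (nat_lit 640) (nat_lit 586) (nat_lit 334))))))))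
noncomputable def xc199 : XT := (XT.nd (nat_lit 2262) (nat_lit 760) (nat_lit 0) (XT.nd (nat_lit 1092) (nat_lit 4180) (nat_lit 0) (XT.nd (nat_lit 546) (nat_lit 2204) (nat_lit 0) (XT.nd (nat_lit 234) (nat_lit 1140) (nat_lit 0) (XT.nd (nat_lit 78) (nat_lit 1292) (nat_lit 0) (XT.lf (nat_lit 0) (nat_lit 19822507628) (nat_lit 684) (nat_lit 310325503) (nat_lit 76) (nat_lit 7110910206) (nat_lit 291) (nat_lit 5) (nat_lit 300) (nat_lit 5) (nat_lit 292) (nat_lit 5) (nat_lit 641) (nat_lit 586) (nat_lit 333)) (XT.nd (nat_lit 78) (nat_lit 684) (nat_lit 0) (XT.lf (nat_lit 0) (nat_lit 15662722940) (nat_lit 608) (nat_lit 9030797438) (nat_lit 684) (nat_lit 2866415511) (nat_lit 283) (nat_lit 5) (nat_lit 291) (nat_lit 5) (nat_lit 292) (nat_lit 5) (nat_lit 642) (nat_lit 586) (nat_lit 332)) (XT.lf (nat_lit 0) (nat_lit 1797007658) (nat_lit 684) (nat_lit 23781360584) (nat_lit 76) (nat_lit 2303036214) (nat_lit 274) (nat_lit 5) (nat_lit 283) (nat_lit 5) (nat_lit 275) (nat_lit 5) (nat_lit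 643) (nat_lit 586) (nat_lit 331)))) (XT.nd (nat_lit 156) (nat_lit 532) (nat_lit 0) (XT.nd (nat_lit 78) (nat_lit 608) (nat_lit 0) (XT.lf (nat_lit 0) (nat_lit 6652432946) (nat_lit 684) (nat_lit 7712476624) (nat_lit 76) (nat_lit 13841271726) (nat_lit 274) (nat_lit 5) (nat_lit 283) (nat_lit 5) (nat_lit 275) (nat_lit 5) (nat_lit 644) (nat_lit 586) (nat_lit 330)) (XT.lf (nat_lit 0) (nat_lit 8789165884) (nat_lit 608) (nat_lit 2869833789) (nat_lit 684) (nat_lit 16877373478) (nat_lit 266) (nat_lit 5) (nat_lit 274) (nat_lit 5) (nat_lit 275) (nat_lit 5) (nat_lit 645) (nat_lit 586) (nat_lit 329))) (XT.nd (nat_lit 78) (nat_lit 532) (nat_lit 0) (XT.lf (nat_lit 0) (nat_lit 16872285291) (nat_lit 684) (nat_lit 3208503550) (nat_lit 76) (nat_lit 8790248383) (nat_lit 266) (nat_lit 5) (nat_lit 275) (nat_lit 5) (nat_lit 267) (nat_lit 5) (nat_lit 646) (nat_lit 586) (nat_lit 328)) (XT.lf (nat_lit 0) (nat_lit 13819369605) (nat_lit 532) (nat_lit 8476252511) (nat_lit 608) (nat_lit 6914656884)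 (nat_lit 259) (nat_lit 5) (nat_lit 266) (nat_lit 5) (nat_lit 267) (nat_lit 5) (nat_lit 647) (nat_lit 586) (nat_lit 327))))) (XT.nd (nat_lit 234) (nat_lit 1064) (nat_lit 0) (XT.nd (nat_lit 78) (nat_lit 608) (nat_lit 0) (XT.lf (nat_lit 0) (nat_lit 1671509282) (nat_lit 532) (nat_lit 26207342587) (nat_lit 608) (nat_lit 1676425347) (nat_lit 252) (nat_lit 5) (nat_lit 259) (nat_lit 5) (nat_lit 260) (nat_lit 5) (nat_lit 648) (nat_lit 586) (nat_lit 326)) (XT.nd (nat_lit 78) (nat_lit 532) (nat_lit 0) (XT.lf (nat_lit 0) (nat_lit 3775677833) (nat_lit 608) (nat_lit 10705812619) (nat_lit 76) (nat_lit 15422065056) (nat_lit 251) (nat_lit 5) (nat_lit 259) (nat_lit 5) (nat_lit 252) (nat_lit 5) (nat_lit 649) (nat_lit 586) (nat_lit 325)) (XT.lf (nat_lit 0) (nat_lit 6891171648) (nat_lit 532) (nat_lit 2465119627) (nat_lit 608) (nat_lit 20901448278) (nat_lit 244) (nat_lit 5) (nat_lit 251) (nat_lit 5) (nat_lit 252) (nat_lit 5) (nat_lit 650) (nat_lit 586) (nat_lit 324)))) (XT.nd (nat_lit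 156) (nat_lit 532) (nat_lit 0) (XT.nd (nat_lit 78) (nat_lit 532) (nat_lit 0) (XT.lf (nat_lit 0) (nat_lit 15181585321) (nat_lit 608) (nat_lit 5700236016) (nat_lit 76) (nat_lit 9734524694) (nat_lit 244) (nat_lit 5) (nat_lit 252) (nat_lit 5) (nat_lit 245) (nat_lit 5) (nat_lit 651) (nat_lit 586) (nat_lit 323)) (XT.lf (nat_lit 0) (nat_lit 12462792032) (nat_lit 532) (nat_lit 8755068068) (nat_lit 608) (nat_lit 9762375158) (nat_lit 237) (nat_lit 5) (nat_lit 244) (nat_lit 5) (nat_lit 245) (nat_lit 5) (nat_lit 652) (nat_lit 586) (nat_lit 322))) (XT.nd (nat_lit 78) (nat_lit 532) (nat_lit 0) (XT.lf (nat_lit 0) (nat_lit 27434087606) (nat_lit 608) (nat_lit 311788255) (nat_lit 76) (nat_lit 3604341977) (nat_lit 237) (nat_lit 5) (nat_lit 245) (nat_lit 5) (nat_lit 238) (nat_lit 5) (nat_lit 653) (nat_lit 586) (nat_lit 321)) (XT.lf (nat_lit 0) (nat_lit 2196354391) (nat_lit 532) (nat_lit 13300437925) (nat_lit 76) (nat_lit 16227018808) (nat_lit 230) (nat_lit 5) (nat_lit 237) (nat_lit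 5) (nat_lit 231) (nat_lit 5) (nat_lit 654) (nat_lit 586) (nat_lit 320)))))) (XT.nd (nat_lit 546) (nat_lit 2204) (nat_lit 0) (XT.nd (nat_lit 234) (nat_lit 988) (nat_lit 0) (XT.nd (nat_lit 78) (nat_lit 456) (nat_lit 0) (XT.lf (nat_lit 0) (nat_lit 5474766060) (nat_lit 532) (nat_lit 2938907921) (nat_lit 608) (nat_lit 23689984242) (nat_lit 223) (nat_lit 5) (nat_lit 230) (nat_lit 5) (nat_lit 231) (nat_lit 5) (nat_lit 655) (nat_lit 586) (nat_lit 319)) (XT.nd (nat_lit 78) (nat_lit 456) (nat_lit 0) (XT.lf (nat_lit 0) (nat_lit 14906610520) (nat_lit 608) (nat_lit 7751966371) (nat_lit 76) (nat_lit 9829500069) (nat_lit 223) (nat_lit 5) (nat_lit 231) (nat_lit 5) (nat_lit 224) (nat_lit 5) (nat_lit 656) (nat_lit 586) (nat_lit 318)) (XT.lf (nat_lit 0) (nat_lit 11631923376) (nat_lit 456) (nat_lit 9989862718) (nat_lit 532) (nat_lit 11256550474) (nat_lit 217) (nat_lit 5) (nat_lit 223) (nat_lit 5) (nat_lit 224) (nat_lit 5) (nat_lit 657) (nat_lit 586) (nat_lit 317)))) (XT.nd (nat_lit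 156) (nat_lit 456) (nat_lit 0) (XT.nd (nat_lit 78) (nat_lit 532) (nat_lit 0) (XT.lf (nat_lit 0) (nat_lit 28540083102) (nat_lit 532) (nat_lit 1789859542) (nat_lit 76) (nat_lit 2945082467) (nat_lit 217) (nat_lit 5) (nat_lit 224) (nat_lit 5) (nat_lit 218) (nat_lit 5) (nat_lit 658) (nat_lit 586) (nat_lit 316)) (XT.lf (nat_lit 0) (nat_lit 2075114109) (nat_lit 532) (nat_lit 15464582880) (nat_lit 76) (nat_lit 16136038421) (nat_lit 210) (nat_lit 5) (nat_lit 217) (nat_lit 5) (nat_lit 211) (nat_lit 5) (nat_lit 659) (nat_lit 586) (nat_lit 315))) (XT.nd (nat_lit 78) (nat_lit 0) (nat_lit 0) (XT.lf (nat_lit 0) (nat_lit 4577196607) (nat_lit 456) (nat_lit 4420117800) (nat_lit 532) (nat_lit 25085732764) (nat_lit 204) (nat_lit 5) (nat_lit 210) (nat_lit 5) (nat_lit 211) (nat_lit 5) (nat_lit 660) (nat_lit 586) (nat_lit 314)) (XT.lf (nat_lit 0) (nat_lit 16218102731) (nat_lit 532) (nat_lit 9329508615) (nat_lit 76) (nat_lit 8947691035) (nat_lit 204) (nat_lit 5) (nat_lit 211) (nat_lit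 5) (nat_lit 205) (nat_lit 5) (nat_lit 661) (nat_lit 586) (nat_lit 313))))) (XT.nd (nat_lit 312) (nat_lit 836) (nat_lit 0) (XT.nd (nat_lit 156) (nat_lit 912) (nat_lit 0) (XT.nd (nat_lit 78) (nat_lit 0) (nat_lit 0) (XT.lf (nat_lit 0) (nat_lit 11366590608) (nat_lit 456) (nat_lit 12317332057) (nat_lit 532) (nat_lit 11229867805) (nat_lit 198) (nat_lit 5) (nat_lit 204) (nat_lit 5) (nat_lit 205) (nat_lit 5) (nat_lit 662) (nat_lit 586) (nat_lit 312)) (XT.lf (nat_lit 0) (nat_lit 31367286929) (nat_lit 532) (nat_lit 2747970592) (nat_lit 76) (nat_lit 1224026332) (nat_lit 198) (nat_lit 5) (nat_lit 205) (nat_lit 5) (nat_lit 199) (nat_lit 5) (nat_lit 663) (nat_lit 586) (nat_lit 311))) (XT.nd (nat_lit 78) (nat_lit 456) (nat_lit 0) (XT.lf (nat_lit 0) (nat_lit 3587474672) (nat_lit 456) (nat_lit 17166445706) (nat_lit 76) (nat_lit 15014892441) (nat_lit 192) (nat_lit 5) (nat_lit 198) (nat_lit 5) (nat_lit 193) (nat_lit 5) (nat_lit 664) (nat_lit 586) (nat_lit 310)) (XT.lf (nat_lit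 0) (nat_lit 4235998345) (nat_lit 456) (nat_lit 7052685564) (nat_lit 532) (nat_lit 24916848779) (nat_lit 186) (nat_lit 5) (nat_lit 192) (nat_lit 5) (nat_lit 193) (nat_lit 5) (nat_lit 665) (nat_lit 586) (nat_lit 309)))) (XT.nd (nat_lit 156) (nat_lit 456) (nat_lit 0) (XT.nd (nat_lit 78) (nat_lit 380) (nat_lit 0) (XT.lf (nat_lit 0) (nat_lit 19302456712) (nat_lit 532) (nat_lit 10398749754) (nat_lit 76) (nat_lit 6946609784) (nat_lit 186) (nat_lit 5) (nat_lit 193) (nat_lit 5) (nat_lit 187) (nat_lit 5) (nat_lit 666) (nat_lit 586) (nat_lit 308)) (XT.lf (nat_lit 0) (nat_lit 11706805511) (nat_lit 380) (nat_lit 15890095378) (nat_lit 456) (nat_lit 9499636756) (nat_lit 181) (nat_lit 5) (nat_lit 186) (nat_lit 5) (nat_lit 187) (nat_lit 5) (nat_lit 667) (nat_lit 586) (nat_lit 307))) (XT.nd (nat_lit 78) (nat_lit 456) (nat_lit 0) (XT.lf (nat_lit 0) (nat_lit 34391977185) (nat_lit 380) (nat_lit 1732741947) (nat_lit 456) (nat_lit 1428164711) (nat_lit 181) (nat_lit 5) (nat_lit 186)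 (nat_lit 5) (nat_lit 187) (nat_lit 5) (nat_lit 668) (nat_lit 586) (nat_lit 306)) (XT.lf (nat_lit 0) (nat_lit 6924924504) (nat_lit 456) (nat_lit 18375020217) (nat_lit 76) (nat_lit 12713340044) (nat_lit 175) (nat_lit 5) (nat_lit 181) (nat_lit 5) (nat_lit 176) (nat_lit 5) (nat_lit 669) (nat_lit 586) (nat_lit 305))))))) (XT.nd (nat_lit 75660) (nat_lit 0) (nat_lit 22344) (XT.nd (nat_lit 75036) (nat_lit 0) (nat_lit 25232) (XT.nd (nat_lit 74724) (nat_lit 0) (nat_lit 25156) (XT.nd (nat_lit 78) (nat_lit 380) (nat_lit 0) (XT.lf (nat_lit 0) (nat_lit 4488155973) (nat_lit 380) (nat_lit 10997530376) (nat_lit 456) (nat_lit 22995823949) (nat_lit 170) (nat_lit 5) (nat_lit 175) (nat_lit 5) (nat_lit 176) (nat_lit 5) (nat_lit 670) (nat_lit 586) (nat_lit 304)) (XT.nd (nat_lit 78) (nat_lit 380) (nat_lit 0) (XT.lf (nat_lit 0) (nat_lit 24362864233) (nat_lit 456) (nat_lit 10926536038) (nat_lit 76) (nat_lit 3666796126) (nat_lit 170) (nat_lit 5) (nat_lit 176) (nat_lit 5) (nat_lit 171)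 (nat_lit 5) (nat_lit 671) (nat_lit 586) (nat_lit 303)) (XT.lf (nat_lit 0) (nat_lit 12691866507) (nat_lit 380) (nat_lit 20878761801) (nat_lit 456) (nat_lit 5866687132) (nat_lit 165) (nat_lit 5) (nat_lit 170) (nat_lit 5) (nat_lit 171) (nat_lit 5) (nat_lit 672) (nat_lit 586) (nat_lit 302)))) (XT.nd (nat_lit 156) (nat_lit 0) (nat_lit 0) (XT.nd (nat_lit 78) (nat_lit 0) (nat_lit 0) (XT.lf (nat_lit 0) (nat_lit 2250444344) (nat_lit 0) (nat_lit 2250444344) (nat_lit 1748) (nat_lit 3246559219) (nat_lit 496) (nat_lit 5) (nat_lit 496) (nat_lit 3) (nat_lit 519) (nat_lit 3) (nat_lit 587) (nat_lit 587) (nat_lit 386)) (XT.lf (nat_lit 0) (nat_lit 9390028186) (nat_lit 1748) (nat_lit 3325844499) (nat_lit 1824) (nat_lit 2927990057) (nat_lit 496) (nat_lit 5) (nat_lit 519) (nat_lit 3) (nat_lit 520) (nat_lit 5) (nat_lit 588) (nat_lit 587) (nat_lit 385))) (XT.nd (nat_lit 78) (nat_lit 0) (nat_lit 76) (XT.lf (nat_lit 76) (nat_lit 4521343099) (nat_lit 0) (nat_lit 5316569952) (nat_lit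 1824) (nat_lit 5956859029) (nat_lit 497) (nat_lit 5) (nat_lit 496) (nat_lit 5) (nat_lit 520) (nat_lit 5) (nat_lit 589) (nat_lit 587) (nat_lit 384)) (XT.lf (nat_lit 0) (nat_lit 10324551368) (nat_lit 1748) (nat_lit 3396297156) (nat_lit 1824) (nat_lit 2227255613) (nat_lit 497) (nat_lit 5) (nat_lit 520) (nat_lit 5) (nat_lit 521) (nat_lit 5) (nat_lit 590) (nat_lit 587) (nat_lit 383))))) (XT.nd (nat_lit 312) (nat_lit 0) (nat_lit 152) (XT.nd (nat_lit 156) (nat_lit 0) (nat_lit 76) (XT.nd (nat_lit 78) (nat_lit 0) (nat_lit 76) (XT.lf (nat_lit 76) (nat_lit 4660398081) (nat_lit 0) (nat_lit 6218978579) (nat_lit 1824) (nat_lit 5223957529) (nat_lit 498) (nat_lit 5) (nat_lit 497) (nat_lit 5) (nat_lit 521) (nat_lit 5) (nat_lit 591) (nat_lit 587) (nat_lit 382)) (XT.lf (nat_lit 0) (nat_lit 11470662712) (nat_lit 1748) (nat_lit 3350427205) (nat_lit 1824) (nat_lit 1440072068) (nat_lit 498) (nat_lit 5) (nat_lit 521) (nat_lit 5) (nat_lit 522) (nat_lit 5) (nat_lit 592) (nat_lit 587)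 (nat_lit 381))) (XT.nd (nat_lit 78) (nat_lit 0) (nat_lit 76) (XT.lf (nat_lit 76) (nat_lit 4923371755) (nat_lit 0) (nat_lit 7216807592) (nat_lit 1824) (nat_lit 4280639315) (nat_lit 499) (nat_lit 5) (nat_lit 498) (nat_lit 5) (nat_lit 522) (nat_lit 5) (nat_lit 593) (nat_lit 587) (nat_lit 380)) (XT.lf (nat_lit 0) (nat_lit 12842599790) (nat_lit 1748) (nat_lit 3182878908) (nat_lit 1824) (nat_lit 557799918) (nat_lit 499) (nat_lit 5) (nat_lit 522) (nat_lit 5) (nat_lit 523) (nat_lit 5) (nat_lit 594) (nat_lit 587) (nat_lit 379)))) (XT.nd (nat_lit 156) (nat_lit 0) (nat_lit 76) (XT.nd (nat_lit 78) (nat_lit 0) (nat_lit 0) (XT.lf (nat_lit 76) (nat_lit 5315915391) (nat_lit 0) (nat_lit 8318969229) (nat_lit 1824) (nat_lit 3112587234) (nat_lit 500) (nat_lit 5) (nat_lit 499) (nat_lit 5) (nat_lit 523) (nat_lit 5) (nat_lit 595) (nat_lit 587) (nat_lit 378)) (XT.lf (nat_lit 76) (nat_lit 14023865773) (nat_lit 0) (nat_lit 434117821) (nat_lit 1824) (nat_lit 2456666390) (nat_lit 500)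 (nat_lit 5) (nat_lit 499) (nat_lit 5) (nat_lit 523) (nat_lit 5) (nat_lit 596) (nat_lit 587) (nat_lit 377))) (XT.nd (nat_lit 78) (nat_lit 0) (nat_lit 0) (XT.lf (nat_lit 76) (nat_lit 5844021947) (nat_lit 0) (nat_lit 9534615243) (nat_lit 1824) (nat_lit 1704913023) (nat_lit 501) (nat_lit 5) (nat_lit 500) (nat_lit 5) (nat_lit 524) (nat_lit 5) (nat_lit 597) (nat_lit 587) (nat_lit 376)) (XT.lf (nat_lit 76) (nat_lit 14785794953) (nat_lit 0) (nat_lit 1548010584) (nat_lit 1824) (nat_lit 921701257) (nat_lit 501) (nat_lit 5) (nat_lit 500) (nat_lit 5) (nat_lit 524) (nat_lit 5) (nat_lit 598) (nat_lit 587) (nat_lit 375)))))) (XT.nd (nat_lit 546) (nat_lit 1368) (nat_lit 0) (XT.nd (nat_lit 234) (nat_lit 0) (nat_lit 76) (XT.nd (nat_lit 78) (nat_lit 1824) (nat_lit 0) (XT.lf (nat_lit 76) (nat_lit 6514035228) (nat_lit 0) (nat_lit 10873157472) (nat_lit 1824) (nat_lit 42127872) (nat_lit 502) (nat_lit 5) (nat_lit 501) (nat_lit 5) (nat_lit 525) (nat_lit 5) (nat_lit 599) (nat_lit 587)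 (nat_lit 374)) (XT.nd (nat_lit 78) (nat_lit 0) (nat_lit 76) (XT.lf (nat_lit 0) (nat_lit 864791094) (nat_lit 1824) (nat_lit 1915367949) (nat_lit 1900) (nat_lit 14825921550) (nat_lit 477) (nat_lit 5) (nat_lit 501) (nat_lit 5) (nat_lit 502) (nat_lit 5) (nat_lit 600) (nat_lit 587) (nat_lit 373)) (XT.lf (nat_lit 0) (nat_lit 1867075487) (nat_lit 1824) (nat_lit 10464684164) (nat_lit 1900) (nat_lit 5453055125) (nat_lit 478) (nat_lit 5) (nat_lit 502) (nat_lit 5) (nat_lit 503) (nat_lit 5) (nat_lit 601) (nat_lit 587) (nat_lit 372)))) (XT.nd (nat_lit 156) (nat_lit 0) (nat_lit 76) (XT.nd (nat_lit 78) (nat_lit 0) (nat_lit 76) (XT.lf (nat_lit 0) (nat_lit 2915006095) (nat_lit 1824) (nat_lit 1223191413) (nat_lit 1900) (nat_lit 13828414469) (nat_lit 478) (nat_lit 5) (nat_lit 502) (nat_lit 5) (nat_lit 503) (nat_lit 5) (nat_lit 602) (nat_lit 587) (nat_lit 371)) (XT.lf (nat_lit 0) (nat_lit 4059961615) (nat_lit 1824) (nat_lit 9870797839) (nat_lit 1900) (nat_lit 4219764680) (nat_lit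 479) (nat_lit 5) (nat_lit 503) (nat_lit 5) (nat_lit 504) (nat_lit 5) (nat_lit 603) (nat_lit 587) (nat_lit 370))) (XT.nd (nat_lit 78) (nat_lit 0) (nat_lit 76) (XT.lf (nat_lit 0) (nat_lit 5257941841) (nat_lit 1824) (nat_lit 380271170) (nat_lit 1900) (nat_lit 12699299344) (nat_lit 479) (nat_lit 5) (nat_lit 503) (nat_lit 5) (nat_lit 504) (nat_lit 5) (nat_lit 604) (nat_lit 587) (nat_lit 369)) (XT.lf (nat_lit 0) (nat_lit 6554330382) (nat_lit 1824) (nat_lit 9126308526) (nat_lit 1900) (nat_lit 2846112783) (nat_lit 480) (nat_lit 5) (nat_lit 504) (nat_lit 5) (nat_lit 505) (nat_lit 5) (nat_lit 605) (nat_lit 587) (nat_lit 368))))) (XT.nd (nat_lit 312) (nat_lit 1596) (nat_lit 0) (XT.nd (nat_lit 156) (nat_lit 0) (nat_lit 76) (XT.nd (nat_lit 78) (nat_lit 0) (nat_lit 76) (XT.lf (nat_lit 76) (nat_lit 628942168) (nat_lit 0) (nat_lit 7286351169) (nat_lit 1900) (nat_lit 10803709862) (nat_lit 481) (nat_lit 5) (nat_lit 480) (nat_lit 5) (nat_lit 505) (nat_lit 5) (nat_lit 606) (nat_lit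 587) (nat_lit 367)) (XT.lf (nat_lit 0) (nat_lit 9368147637) (nat_lit 1824) (nat_lit 8223794456) (nat_lit 1900) (nat_lit 1321864517) (nat_lit 481) (nat_lit 5) (nat_lit 505) (nat_lit 5) (nat_lit 506) (nat_lit 5) (nat_lit 607) (nat_lit 587) (nat_lit 366))) (XT.nd (nat_lit 78) (nat_lit 0) (nat_lit 0) (XT.lf (nat_lit 76) (nat_lit 1811142127) (nat_lit 0) (nat_lit 9093773824) (nat_lit 1900) (nat_lit 8206493305) (nat_lit 482) (nat_lit 5) (nat_lit 481) (nat_lit 5) (nat_lit 506) (nat_lit 5) (nat_lit 608) (nat_lit 587) (nat_lit 365)) (XT.lf (nat_lit 76) (nat_lit 12154125680) (nat_lit 0) (nat_lit 368398056) (nat_lit 1900) (nat_lit 6789438438) (nat_lit 482) (nat_lit 5) (nat_lit 481) (nat_lit 5) (nat_lit 506) (nat_lit 5) (nat_lit 609) (nat_lit 587) (nat_lit 364)))) (XT.nd (nat_lit 156) (nat_lit 1748) (nat_lit 0) (XT.nd (nat_lit 78) (nat_lit 0) (nat_lit 0) (XT.lf (nat_lit 76) (nat_lit 3169466264) (nat_lit 0) (nat_lit 11074011586) (nat_lit 1900) (nat_lit 5271628712) (nat_lit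 483) (nat_lit 5) (nat_lit 482) (nat_lit 5) (nat_lit 507) (nat_lit 5) (nat_lit 610) (nat_lit 587) (nat_lit 363)) (XT.lf (nat_lit 76) (nat_lit 13793744066) (nat_lit 0) (nat_lit 2250658126) (nat_lit 1900) (nat_lit 3677000911) (nat_lit 483) (nat_lit 5) (nat_lit 482) (nat_lit 5) (nat_lit 507) (nat_lit 5) (nat_lit 611) (nat_lit 587) (nat_lit 362))) (XT.nd (nat_lit 78) (nat_lit 0) (nat_lit 0) (XT.lf (nat_lit 0) (nat_lit 4712521603) (nat_lit 1824) (nat_lit 13238436046) (nat_lit 1900) (nat_lit 1979475958) (nat_lit 459) (nat_lit 5) (nat_lit 483) (nat_lit 5) (nat_lit 484) (nat_lit 5) (nat_lit 612) (nat_lit 587) (nat_lit 361)) (XT.lf (nat_lit 0) (nat_lit 15626635237) (nat_lit 1824) (nat_lit 4318856885) (nat_lit 1900) (nat_lit 197155918) (nat_lit 459) (nat_lit 5) (nat_lit 483) (nat_lit 5) (nat_lit 484) (nat_lit 5) (nat_lit 613) (nat_lit 587) (nat_lit 360))))))))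
noncomputable def xc200 : XT := (XT.nd (nat_lit 2262) (nat_lit 9196) (nat_lit 0) (XT.nd (nat_lit 1092) (nat_lit 5624) (nat_lit 0) (XT.nd (nat_lit 546) (nat_lit 3344) (nat_lit 0) (XT.nd (nat_lit 234) (nat_lit 1748) (nat_lit 0) (XT.nd (nat_lit 78) (nat_lit 912) (nat_lit 0) (XT.lf (nat_lit 0) (nat_lit 1668267750) (nat_lit 1140) (nat_lit 13919372535) (nat_lit 76) (nat_lit 4769881986) (nat_lit 444) (nat_lit 5) (nat_lit 459) (nat_lit 5) (nat_lit 445) (nat_lit 5) (nat_lit 614) (nat_lit 587) (nat_lit 359)) (XT.nd (nat_lit 78) (nat_lit 912) (nat_lit 0) (XT.lf (nat_lit 0) (nat_lit 3622863452) (nat_lit 1140) (nat_lit 2937753787) (nat_lit 76) (nat_lit 14014960877) (nat_lit 444) (nat_lit 5) (nat_lit 459) (nat_lit 5) (nat_lit 445) (nat_lit 5) (nat_lit 615) (nat_lit 587) (nat_lit 358)) (XT.lf (nat_lit 0) (nat_lit 5683921770) (nat_lit 988) (nat_lit 12445374066) (nat_lit 76) (nat_lit 2667352085) (nat_lit 432) (nat_lit 5) (nat_lit 445) (nat_lit 5) (nat_lit 433) (nat_lit 5)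 (nat_lit 616) (nat_lit 587) (nat_lit 357)))) (XT.nd (nat_lit 156) (nat_lit 836) (nat_lit 0) (XT.nd (nat_lit 78) (nat_lit 912) (nat_lit 0) (XT.lf (nat_lit 0) (nat_lit 7845042326) (nat_lit 988) (nat_lit 1163571461) (nat_lit 76) (nat_lit 12012348764) (nat_lit 432) (nat_lit 5) (nat_lit 445) (nat_lit 5) (nat_lit 433) (nat_lit 5) (nat_lit 617) (nat_lit 587) (nat_lit 356)) (XT.lf (nat_lit 0) (nat_lit 10115410762) (nat_lit 988) (nat_lit 10773648149) (nat_lit 76) (nat_lit 359384300) (nat_lit 420) (nat_lit 5) (nat_lit 433) (nat_lit 5) (nat_lit 421) (nat_lit 5) (nat_lit 618) (nat_lit 587) (nat_lit 355))) (XT.nd (nat_lit 78) (nat_lit 0) (nat_lit 0) (XT.lf (nat_lit 0) (nat_lit 828405226) (nat_lit 836) (nat_lit 11671376601) (nat_lit 912) (nat_lit 8979319995) (nat_lit 409) (nat_lit 5) (nat_lit 420) (nat_lit 5) (nat_lit 421) (nat_lit 5) (nat_lit 619) (nat_lit 587) (nat_lit 354)) (XT.lf (nat_lit 0) (nat_lit 12804434325) (nat_lit 836) (nat_lit 2195457679) (nat_lit 912) (nat_lit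 6713120803) (nat_lit 409) (nat_lit 5) (nat_lit 420) (nat_lit 5) (nat_lit 421) (nat_lit 5) (nat_lit 620) (nat_lit 587) (nat_lit 353))))) (XT.nd (nat_lit 234) (nat_lit 1596) (nat_lit 0) (XT.nd (nat_lit 78) (nat_lit 912) (nat_lit 0) (XT.lf (nat_lit 0) (nat_lit 3055851112) (nat_lit 836) (nat_lit 14558332919) (nat_lit 912) (nat_lit 4336134621) (nat_lit 398) (nat_lit 5) (nat_lit 409) (nat_lit 5) (nat_lit 410) (nat_lit 5) (nat_lit 621) (nat_lit 587) (nat_lit 352)) (XT.nd (nat_lit 78) (nat_lit 912) (nat_lit 0) (XT.lf (nat_lit 0) (nat_lit 15361512927) (nat_lit 836) (nat_lit 4989368081) (nat_lit 912) (nat_lit 1840087450) (nat_lit 398) (nat_lit 5) (nat_lit 409) (nat_lit 5) (nat_lit 410) (nat_lit 5) (nat_lit 622) (nat_lit 587) (nat_lit 351)) (XT.lf (nat_lit 0) (nat_lit 759790631) (nat_lit 912) (nat_lit 16926058733) (nat_lit 76) (nat_lit 4749227102) (nat_lit 386) (nat_lit 5) (nat_lit 398) (nat_lit 5) (nat_lit 387) (nat_lit 5) (nat_lit 623) (nat_lit 587) (nat_lit 350))))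 (XT.nd (nat_lit 156) (nat_lit 760) (nat_lit 0) (XT.nd (nat_lit 78) (nat_lit 836) (nat_lit 0) (XT.lf (nat_lit 0) (nat_lit 3462226244) (nat_lit 912) (nat_lit 4545955378) (nat_lit 76) (nat_lit 14674137991) (nat_lit 386) (nat_lit 5) (nat_lit 398) (nat_lit 5) (nat_lit 387) (nat_lit 5) (nat_lit 624) (nat_lit 587) (nat_lit 349)) (XT.lf (nat_lit 0) (nat_lit 6280380007) (nat_lit 912) (nat_lit 14760900613) (nat_lit 76) (nat_lit 1891993826) (nat_lit 375) (nat_lit 5) (nat_lit 387) (nat_lit 5) (nat_lit 376) (nat_lit 5) (nat_lit 625) (nat_lit 587) (nat_lit 348))) (XT.nd (nat_lit 78) (nat_lit 760) (nat_lit 0) (XT.lf (nat_lit 0) (nat_lit 9234768180) (nat_lit 912) (nat_lit 2039262194) (nat_lit 76) (nat_lit 11913620780) (nat_lit 375) (nat_lit 5) (nat_lit 387) (nat_lit 5) (nat_lit 376) (nat_lit 5) (nat_lit 626) (nat_lit 587) (nat_lit 347)) (XT.lf (nat_lit 0) (nat_lit 11078101418) (nat_lit 760) (nat_lit 1238274219) (nat_lit 836) (nat_lit 11129377332) (nat_lit 365) (nat_lit 5)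 (nat_lit 375) (nat_lit 5) (nat_lit 376) (nat_lit 5) (nat_lit 627) (nat_lit 587) (nat_lit 346)))))) (XT.nd (nat_lit 546) (nat_lit 2660) (nat_lit 0) (XT.nd (nat_lit 234) (nat_lit 1520) (nat_lit 0) (XT.nd (nat_lit 78) (nat_lit 684) (nat_lit 0) (XT.lf (nat_lit 0) (nat_lit 723643520) (nat_lit 760) (nat_lit 14809119795) (nat_lit 836) (nat_lit 8174790741) (nat_lit 355) (nat_lit 5) (nat_lit 365) (nat_lit 5) (nat_lit 366) (nat_lit 5) (nat_lit 628) (nat_lit 587) (nat_lit 345)) (XT.nd (nat_lit 78) (nat_lit 684) (nat_lit 0) (XT.lf (nat_lit 0) (nat_lit 14232082201) (nat_lit 760) (nat_lit 4668836211) (nat_lit 836) (nat_lit 5071924156) (nat_lit 355) (nat_lit 5) (nat_lit 365) (nat_lit 5) (nat_lit 366) (nat_lit 5) (nat_lit 629) (nat_lit 587) (nat_lit 344)) (XT.lf (nat_lit 0) (nat_lit 3775922198) (nat_lit 684) (nat_lit 18618241413) (nat_lit 760) (nat_lit 1848118888) (nat_lit 346) (nat_lit 5) (nat_lit 355) (nat_lit 5) (nat_lit 356) (nat_lit 5) (nat_lit 630) (nat_lit 587) (nat_lit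 343)))) (XT.nd (nat_lit 156) (nat_lit 684) (nat_lit 0) (XT.nd (nat_lit 78) (nat_lit 760) (nat_lit 0) (XT.lf (nat_lit 0) (nat_lit 1514384025) (nat_lit 760) (nat_lit 6865562989) (nat_lit 76) (nat_lit 16135115199) (nat_lit 345) (nat_lit 5) (nat_lit 355) (nat_lit 5) (nat_lit 346) (nat_lit 5) (nat_lit 631) (nat_lit 587) (nat_lit 342)) (XT.lf (nat_lit 0) (nat_lit 4975647983) (nat_lit 836) (nat_lit 17722017454) (nat_lit 76) (nat_lit 2094262796) (nat_lit 335) (nat_lit 5) (nat_lit 346) (nat_lit 5) (nat_lit 336) (nat_lit 5) (nat_lit 632) (nat_lit 587) (nat_lit 341))) (XT.nd (nat_lit 78) (nat_lit 684) (nat_lit 0) (XT.lf (nat_lit 0) (nat_lit 8604513575) (nat_lit 836) (nat_lit 3756048426) (nat_lit 76) (nat_lit 12711802221) (nat_lit 335) (nat_lit 5) (nat_lit 346) (nat_lit 5) (nat_lit 336) (nat_lit 5) (nat_lit 633) (nat_lit 587) (nat_lit 340)) (XT.lf (nat_lit 0) (nat_lit 10624667372) (nat_lit 684) (nat_lit 1746843422) (nat_lit 760) (nat_lit 12985587223) (nat_lit 326) (nat_lit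 5) (nat_lit 335) (nat_lit 5) (nat_lit 336) (nat_lit 5) (nat_lit 634) (nat_lit 587) (nat_lit 339))))) (XT.nd (nat_lit 312) (nat_lit 1292) (nat_lit 0) (XT.nd (nat_lit 156) (nat_lit 684) (nat_lit 0) (XT.nd (nat_lit 78) (nat_lit 684) (nat_lit 0) (XT.lf (nat_lit 0) (nat_lit 16294778405) (nat_lit 760) (nat_lit 366181330) (nat_lit 76) (nat_lit 8984948314) (nat_lit 326) (nat_lit 5) (nat_lit 336) (nat_lit 5) (nat_lit 327) (nat_lit 5) (nat_lit 635) (nat_lit 587) (nat_lit 338)) (XT.lf (nat_lit 0) (nat_lit 14461612816) (nat_lit 684) (nat_lit 5937038492) (nat_lit 760) (nat_lit 5539800340) (nat_lit 317) (nat_lit 5) (nat_lit 326) (nat_lit 5) (nat_lit 327) (nat_lit 5) (nat_lit 636) (nat_lit 587) (nat_lit 337))) (XT.nd (nat_lit 78) (nat_lit 76) (nat_lit 0) (XT.lf (nat_lit 0) (nat_lit 3361817052) (nat_lit 608) (nat_lit 21276270961) (nat_lit 684) (nat_lit 1597688543) (nat_lit 309) (nat_lit 5) (nat_lit 317) (nat_lit 5) (nat_lit 318) (nat_lit 5) (nat_lit 637) (nat_lit 587) (nat_lit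 336)) (XT.lf (nat_lit 0) (nat_lit 2505058757) (nat_lit 684) (nat_lit 7944184397) (nat_lit 76) (nat_lit 16087218799) (nat_lit 308) (nat_lit 5) (nat_lit 317) (nat_lit 5) (nat_lit 309) (nat_lit 5) (nat_lit 638) (nat_lit 587) (nat_lit 335)))) (XT.nd (nat_lit 156) (nat_lit 608) (nat_lit 0) (XT.nd (nat_lit 78) (nat_lit 0) (nat_lit 0) (XT.lf (nat_lit 0) (nat_lit 6717351714) (nat_lit 760) (nat_lit 19479937482) (nat_lit 76) (nat_lit 644683124) (nat_lit 299) (nat_lit 5) (nat_lit 309) (nat_lit 5) (nat_lit 300) (nat_lit 5) (nat_lit 639) (nat_lit 587) (nat_lit 334)) (XT.lf (nat_lit 0) (nat_lit 11133582309) (nat_lit 760) (nat_lit 4143905519) (nat_lit 76) (nat_lit 11873711382) (nat_lit 299) (nat_lit 5) (nat_lit 309) (nat_lit 5) (nat_lit 300) (nat_lit 5) (nat_lit 640) (nat_lit 587) (nat_lit 333))) (XT.nd (nat_lit 78) (nat_lit 0) (nat_lit 0) (XT.lf (nat_lit 0) (nat_lit 11647796840) (nat_lit 608) (nat_lit 4062856868) (nat_lit 684) (nat_lit 11754506753) (nat_lit 291) (nat_lit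 5) (nat_lit 299) (nat_lit 5) (nat_lit 300) (nat_lit 5) (nat_lit 641) (nat_lit 587) (nat_lit 332)) (XT.lf (nat_lit 0) (nat_lit 20452071491) (nat_lit 684) (nat_lit 25259339) (nat_lit 76) (nat_lit 7306614154) (nat_lit 291) (nat_lit 5) (nat_lit 300) (nat_lit 5) (nat_lit 292) (nat_lit 5) (nat_lit 642) (nat_lit 587) (nat_lit 331))))))) (XT.nd (nat_lit 1092) (nat_lit 4028) (nat_lit 0) (XT.nd (nat_lit 546) (nat_lit 2204) (nat_lit 0) (XT.nd (nat_lit 234) (nat_lit 1672) (nat_lit 0) (XT.nd (nat_lit 78) (nat_lit 684) (nat_lit 0) (XT.lf (nat_lit 0) (nat_lit 16265333805) (nat_lit 608) (nat_lit 9152478527) (nat_lit 684) (nat_lit 2688703112) (nat_lit 283) (nat_lit 5) (nat_lit 291) (nat_lit 5) (nat_lit 292) (nat_lit 5) (nat_lit 643) (nat_lit 587) (nat_lit 330)) (XT.nd (nat_lit 78) (nat_lit 0) (nat_lit 0) (XT.lf (nat_lit 0) (nat_lit 2062641547) (nat_lit 684) (nat_lit 23962263580) (nat_lit 76) (nat_lit 2409523229) (nat_lit 274) (nat_lit 5) (nat_lit 283) (nat_lit 5) (nat_lit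 275) (nat_lit 5) (nat_lit 644) (nat_lit 587) (nat_lit 329)) (XT.lf (nat_lit 0) (nat_lit 7010671542) (nat_lit 684) (nat_lit 7577780847) (nat_lit 76) (nat_lit 14177338622) (nat_lit 274) (nat_lit 5) (nat_lit 283) (nat_lit 5) (nat_lit 275) (nat_lit 5) (nat_lit 645) (nat_lit 587) (nat_lit 328)))) (XT.nd (nat_lit 156) (nat_lit 1064) (nat_lit 0) (XT.nd (nat_lit 78) (nat_lit 0) (nat_lit 0) (XT.lf (nat_lit 0) (nat_lit 9251993555) (nat_lit 608) (nat_lit 2862824241) (nat_lit 684) (nat_lit 16987820141) (nat_lit 266) (nat_lit 5) (nat_lit 274) (nat_lit 5) (nat_lit 275) (nat_lit 5) (nat_lit 646) (nat_lit 587) (nat_lit 327)) (XT.lf (nat_lit 0) (nat_lit 17428413643) (nat_lit 684) (nat_lit 2987292383) (nat_lit 76) (nat_lit 9028368570) (nat_lit 266) (nat_lit 5) (nat_lit 275) (nat_lit 5) (nat_lit 267) (nat_lit 5) (nat_lit 647) (nat_lit 587) (nat_lit 326))) (XT.nd (nat_lit 78) (nat_lit 532) (nat_lit 0) (XT.lf (nat_lit 0) (nat_lit 14379260727) (nat_lit 532) (nat_lit 8578509276)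 (nat_lit 608) (nat_lit 6832380339) (nat_lit 259) (nat_lit 5) (nat_lit 266) (nat_lit 5) (nat_lit 267) (nat_lit 5) (nat_lit 648) (nat_lit 587) (nat_lit 325)) (XT.lf (nat_lit 0) (nat_lit 1990449887) (nat_lit 532) (nat_lit 26660256463) (nat_lit 608) (nat_lit 1491381519) (nat_lit 252) (nat_lit 5) (nat_lit 259) (nat_lit 5) (nat_lit 260) (nat_lit 5) (nat_lit 649) (nat_lit 587) (nat_lit 324))))) (XT.nd (nat_lit 234) (nat_lit 1596) (nat_lit 0) (XT.nd (nat_lit 78) (nat_lit 532) (nat_lit 0) (XT.lf (nat_lit 0) (nat_lit 4062667585) (nat_lit 608) (nat_lit 10637197309) (nat_lit 76) (nat_lit 15797523221) (nat_lit 251) (nat_lit 5) (nat_lit 259) (nat_lit 5) (nat_lit 252) (nat_lit 5) (nat_lit 650) (nat_lit 587) (nat_lit 323)) (XT.nd (nat_lit 78) (nat_lit 0) (nat_lit 0) (XT.lf (nat_lit 0) (nat_lit 7309866567) (nat_lit 532) (nat_lit 2442703740) (nat_lit 608) (nat_lit 21106132169) (nat_lit 244) (nat_lit 5) (nat_lit 251) (nat_lit 5) (nat_lit 252) (nat_lit 5) (nat_lit 651) (nat_lit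 587) (nat_lit 322)) (XT.lf (nat_lit 0) (nat_lit 15690725704) (nat_lit 608) (nat_lit 5535223372) (nat_lit 76) (nat_lit 9998605072) (nat_lit 244) (nat_lit 5) (nat_lit 252) (nat_lit 5) (nat_lit 245) (nat_lit 5) (nat_lit 652) (nat_lit 587) (nat_lit 321)))) (XT.nd (nat_lit 156) (nat_lit 1064) (nat_lit 0) (XT.nd (nat_lit 78) (nat_lit 0) (nat_lit 0) (XT.lf (nat_lit 0) (nat_lit 12989229597) (nat_lit 532) (nat_lit 8856266447) (nat_lit 608) (nat_lit 9750269883) (nat_lit 237) (nat_lit 5) (nat_lit 244) (nat_lit 5) (nat_lit 245) (nat_lit 5) (nat_lit 653) (nat_lit 587) (nat_lit 320)) (XT.lf (nat_lit 0) (nat_lit 28182532661) (nat_lit 608) (nat_lit 42753498) (nat_lit 76) (nat_lit 3747932474) (nat_lit 237) (nat_lit 5) (nat_lit 245) (nat_lit 5) (nat_lit 238) (nat_lit 5) (nat_lit 654) (nat_lit 587) (nat_lit 319))) (XT.nd (nat_lit 78) (nat_lit 532) (nat_lit 0) (XT.lf (nat_lit 0) (nat_lit 2439220115) (nat_lit 532) (nat_lit 13290335388) (nat_lit 76) (nat_lit 16624745097) (nat_lit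 230) (nat_lit 5) (nat_lit 237) (nat_lit 5) (nat_lit 231) (nat_lit 5) (nat_lit 655) (nat_lit 587) (nat_lit 318)) (XT.lf (nat_lit 0) (nat_lit 5858556155) (nat_lit 532) (nat_lit 2920210088) (nat_lit 608) (nat_lit 23963020952) (nat_lit 223) (nat_lit 5) (nat_lit 230) (nat_lit 5) (nat_lit 231) (nat_lit 5) (nat_lit 656) (nat_lit 587) (nat_lit 317)))))) (XT.nd (nat_lit 546) (nat_lit 2128) (nat_lit 0) (XT.nd (nat_lit 234) (nat_lit 1444) (nat_lit 0) (XT.nd (nat_lit 78) (nat_lit 456) (nat_lit 0) (XT.lf (nat_lit 0) (nat_lit 15398195484) (nat_lit 608) (nat_lit 7634715560) (nat_lit 76) (nat_lit 10101050736) (nat_lit 223) (nat_lit 5) (nat_lit 231) (nat_lit 5) (nat_lit 224) (nat_lit 5) (nat_lit 657) (nat_lit 587) (nat_lit 316)) (XT.nd (nat_lit 78) (nat_lit 0) (nat_lit 0) (XT.lf (nat_lit 0) (nat_lit 12135060600) (nat_lit 456) (nat_lit 10110577036) (nat_lit 532) (nat_lit 11286429834) (nat_lit 217) (nat_lit 5) (nat_lit 223) (nat_lit 5) (nat_lit 224) (nat_lit 5) (nat_lit 658)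 (nat_lit 587) (nat_lit 315)) (XT.lf (nat_lit 0) (nat_lit 29299050723) (nat_lit 532) (nat_lit 1557204648) (nat_lit 76) (nat_lit 3080499558) (nat_lit 217) (nat_lit 5) (nat_lit 224) (nat_lit 5) (nat_lit 218) (nat_lit 5) (nat_lit 659) (nat_lit 587) (nat_lit 314)))) (XT.nd (nat_lit 156) (nat_lit 456) (nat_lit 0) (XT.nd (nat_lit 78) (nat_lit 456) (nat_lit 0) (XT.lf (nat_lit 0) (nat_lit 2304064615) (nat_lit 532) (nat_lit 15504690416) (nat_lit 76) (nat_lit 16536739041) (nat_lit 210) (nat_lit 5) (nat_lit 217) (nat_lit 5) (nat_lit 211) (nat_lit 5) (nat_lit 660) (nat_lit 587) (nat_lit 313)) (XT.lf (nat_lit 0) (nat_lit 4936153713) (nat_lit 456) (nat_lit 4426615976) (nat_lit 532) (nat_lit 25398221305) (nat_lit 204) (nat_lit 5) (nat_lit 210) (nat_lit 5) (nat_lit 211) (nat_lit 5) (nat_lit 661) (nat_lit 587) (nat_lit 312))) (XT.nd (nat_lit 78) (nat_lit 456) (nat_lit 0) (XT.lf (nat_lit 0) (nat_lit 16724857697) (nat_lit 532) (nat_lit 9250806122) (nat_lit 76) (nat_lit 9205889947)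 (nat_lit 204) (nat_lit 5) (nat_lit 211) (nat_lit 5) (nat_lit 205) (nat_lit 5) (nat_lit 662) (nat_lit 587) (nat_lit 311)) (XT.lf (nat_lit 0) (nat_lit 11857469739) (nat_lit 456) (nat_lit 12480659083) (nat_lit 532) (nat_lit 11270320232) (nat_lit 198) (nat_lit 5) (nat_lit 204) (nat_lit 5) (nat_lit 205) (nat_lit 5) (nat_lit 663) (nat_lit 587) (nat_lit 310))))) (XT.nd (nat_lit 312) (nat_lit 1216) (nat_lit 0) (XT.nd (nat_lit 156) (nat_lit 456) (nat_lit 0) (XT.nd (nat_lit 78) (nat_lit 456) (nat_lit 0) (XT.lf (nat_lit 0) (nat_lit 32172149061) (nat_lit 532) (nat_lit 2541532429) (nat_lit 76) (nat_lit 1328831170) (nat_lit 198) (nat_lit 5) (nat_lit 205) (nat_lit 5) (nat_lit 199) (nat_lit 5) (nat_lit 664) (nat_lit 587) (nat_lit 309)) (XT.lf (nat_lit 0) (nat_lit 3836115895) (nat_lit 456) (nat_lit 17247739682) (nat_lit 76) (nat_lit 15396789377) (nat_lit 192) (nat_lit 5) (nat_lit 198) (nat_lit 5) (nat_lit 193) (nat_lit 5) (nat_lit 665) (nat_lit 587) (nat_lit 308))) (XT.nd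 (nat_lit 78) (nat_lit 0) (nat_lit 0) (XT.lf (nat_lit 0) (nat_lit 4581029337) (nat_lit 456) (nat_lit 7108541627) (nat_lit 532) (nat_lit 25236563947) (nat_lit 186) (nat_lit 5) (nat_lit 192) (nat_lit 5) (nat_lit 193) (nat_lit 5) (nat_lit 666) (nat_lit 587) (nat_lit 307)) (XT.lf (nat_lit 0) (nat_lit 19860727940) (nat_lit 532) (nat_lit 10348620537) (nat_lit 76) (nat_lit 7167973613) (nat_lit 186) (nat_lit 5) (nat_lit 193) (nat_lit 5) (nat_lit 187) (nat_lit 5) (nat_lit 667) (nat_lit 587) (nat_lit 306)))) (XT.nd (nat_lit 156) (nat_lit 836) (nat_lit 0) (XT.nd (nat_lit 78) (nat_lit 0) (nat_lit 0) (XT.lf (nat_lit 0) (nat_lit 12197347779) (nat_lit 380) (nat_lit 16122001076) (nat_lit 456) (nat_lit 9515703419) (nat_lit 181) (nat_lit 5) (nat_lit 186) (nat_lit 5) (nat_lit 187) (nat_lit 5) (nat_lit 668) (nat_lit 587) (nat_lit 305)) (XT.lf (nat_lit 0) (nat_lit 35331195316) (nat_lit 380) (nat_lit 1683184816) (nat_lit 456) (nat_lit 1286212248) (nat_lit 181) (nat_lit 5) (nat_lit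 186) (nat_lit 5) (nat_lit 187) (nat_lit 5) (nat_lit 669) (nat_lit 587) (nat_lit 304))) (XT.nd (nat_lit 78) (nat_lit 380) (nat_lit 0) (XT.lf (nat_lit 0) (nat_lit 7230592711) (nat_lit 456) (nat_lit 18487784717) (nat_lit 76) (nat_lit 13051824055) (nat_lit 175) (nat_lit 5) (nat_lit 181) (nat_lit 5) (nat_lit 176) (nat_lit 5) (nat_lit 670) (nat_lit 587) (nat_lit 303)) (XT.lf (nat_lit 0) (nat_lit 4830979102) (nat_lit 380) (nat_lit 11129955886) (nat_lit 456) (nat_lit 23286889344) (nat_lit 170) (nat_lit 5) (nat_lit 175) (nat_lit 5) (nat_lit 176) (nat_lit 5) (nat_lit 671) (nat_lit 587) (nat_lit 302))))))))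
noncomputable def xc201 : XT := (XT.nd (nat_lit 76830) (nat_lit 0) (nat_lit 7904) (XT.nd (nat_lit 75660) (nat_lit 0) (nat_lit 20824) (XT.nd (nat_lit 75114) (nat_lit 0) (nat_lit 23332) (XT.nd (nat_lit 74802) (nat_lit 0) (nat_lit 24776) (XT.nd (nat_lit 74646) (nat_lit 0) (nat_lit 24776) (XT.lf (nat_lit 0) (nat_lit 25012967776) (nat_lit 456) (nat_lit 10894274690) (nat_lit 76) (nat_lit 3824815569) (nat_lit 170) (nat_lit 5) (nat_lit 176) (nat_lit 5) (nat_lit 171) (nat_lit 5) (nat_lit 672) (nat_lit 587) (nat_lit 301)) (XT.nd (nat_lit 78) (nat_lit 0) (nat_lit 0) (XT.lf (nat_lit 0) (nat_lit 2434032573) (nat_lit 0) (nat_lit 2434032573) (nat_lit 1748) (nat_lit 3028771286) (nat_lit 496) (nat_lit 5) (nat_lit 496) (nat_lit 3) (nat_lit 519) (nat_lit 3) (nat_lit 588) (nat_lit 588) (nat_lit 384)) (XT.lf (nat_lit 0) (nat_lit 10119512936) (nat_lit 1748) (nat_lit 3107970165) (nat_lit 1824) (nat_lit 2718389369) (nat_lit 496) (nat_lit 5) (nat_lit 519) (nat_lit 3) (nat_lit 520)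 (nat_lit 5) (nat_lit 589) (nat_lit 588) (nat_lit 383)))) (XT.nd (nat_lit 156) (nat_lit 0) (nat_lit 76) (XT.nd (nat_lit 78) (nat_lit 0) (nat_lit 76) (XT.lf (nat_lit 76) (nat_lit 4894290190) (nat_lit 0) (nat_lit 5673278359) (nat_lit 1824) (nat_lit 5532407849) (nat_lit 497) (nat_lit 5) (nat_lit 496) (nat_lit 5) (nat_lit 520) (nat_lit 5) (nat_lit 590) (nat_lit 588) (nat_lit 382)) (XT.lf (nat_lit 0) (nat_lit 11051896927) (nat_lit 1748) (nat_lit 3175167250) (nat_lit 1824) (nat_lit 2029552424) (nat_lit 497) (nat_lit 5) (nat_lit 520) (nat_lit 5) (nat_lit 521) (nat_lit 5) (nat_lit 591) (nat_lit 588) (nat_lit 381))) (XT.nd (nat_lit 78) (nat_lit 0) (nat_lit 76) (XT.lf (nat_lit 76) (nat_lit 5040760209) (nat_lit 0) (nat_lit 6568710078) (nat_lit 1824) (nat_lit 4805648573) (nat_lit 498) (nat_lit 5) (nat_lit 497) (nat_lit 5) (nat_lit 521) (nat_lit 5) (nat_lit 592) (nat_lit 588) (nat_lit 380)) (XT.lf (nat_lit 0) (nat_lit 12201098476) (nat_lit 1748) (nat_lit 3124397207) (nat_lit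 1824) (nat_lit 1250837827) (nat_lit 498) (nat_lit 5) (nat_lit 521) (nat_lit 5) (nat_lit 522) (nat_lit 5) (nat_lit 593) (nat_lit 588) (nat_lit 379))))) (XT.nd (nat_lit 234) (nat_lit 1596) (nat_lit 0) (XT.nd (nat_lit 78) (nat_lit 0) (nat_lit 76) (XT.lf (nat_lit 76) (nat_lit 5312949847) (nat_lit 0) (nat_lit 7563121709) (nat_lit 1824) (nat_lit 3863271055) (nat_lit 499) (nat_lit 5) (nat_lit 498) (nat_lit 5) (nat_lit 522) (nat_lit 5) (nat_lit 594) (nat_lit 588) (nat_lit 378)) (XT.nd (nat_lit 78) (nat_lit 0) (nat_lit 0) (XT.lf (nat_lit 0) (nat_lit 13581586342) (nat_lit 1748) (nat_lit 2950149764) (nat_lit 1824) (nat_lit 373535341) (nat_lit 499) (nat_lit 5) (nat_lit 522) (nat_lit 5) (nat_lit 523) (nat_lit 5) (nat_lit 595) (nat_lit 588) (nat_lit 377)) (XT.lf (nat_lit 76) (nat_lit 5716670508) (nat_lit 0) (nat_lit 8665504421) (nat_lit 1824) (nat_lit 2690725048) (nat_lit 500) (nat_lit 5) (nat_lit 499) (nat_lit 5) (nat_lit 523) (nat_lit 5) (nat_lit 596) (nat_lit 588) (nat_lit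 376)))) (XT.nd (nat_lit 156) (nat_lit 1672) (nat_lit 0) (XT.nd (nat_lit 78) (nat_lit 0) (nat_lit 76) (XT.lf (nat_lit 76) (nat_lit 14593006627) (nat_lit 0) (nat_lit 619423518) (nat_lit 1824) (nat_lit 2031178217) (nat_lit 500) (nat_lit 5) (nat_lit 499) (nat_lit 5) (nat_lit 523) (nat_lit 5) (nat_lit 597) (nat_lit 588) (nat_lit 375)) (XT.lf (nat_lit 76) (nat_lit 6258079244) (nat_lit 0) (nat_lit 9885099496) (nat_lit 1824) (nat_lit 1272874784) (nat_lit 501) (nat_lit 5) (nat_lit 500) (nat_lit 5) (nat_lit 524) (nat_lit 5) (nat_lit 598) (nat_lit 588) (nat_lit 374))) (XT.nd (nat_lit 78) (nat_lit 1748) (nat_lit 0) (XT.lf (nat_lit 76) (nat_lit 15372860713) (nat_lit 0) (nat_lit 1735629568) (nat_lit 1824) (nat_lit 483138714) (nat_lit 501) (nat_lit 5) (nat_lit 500) (nat_lit 5) (nat_lit 524) (nat_lit 5) (nat_lit 599) (nat_lit 588) (nat_lit 373)) (XT.lf (nat_lit 0) (nat_lit 400705718) (nat_lit 1824) (nat_lit 10828024311) (nat_lit 1900) (nat_lit 6540293598) (nat_lit 477) (nat_lit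 5) (nat_lit 501) (nat_lit 5) (nat_lit 502) (nat_lit 5) (nat_lit 600) (nat_lit 588) (nat_lit 372)))))) (XT.nd (nat_lit 546) (nat_lit 2508) (nat_lit 0) (XT.nd (nat_lit 234) (nat_lit 0) (nat_lit 152) (XT.nd (nat_lit 78) (nat_lit 0) (nat_lit 76) (XT.lf (nat_lit 0) (nat_lit 1316511018) (nat_lit 1824) (nat_lit 1654373595) (nat_lit 1900) (nat_lit 14978602950) (nat_lit 477) (nat_lit 5) (nat_lit 501) (nat_lit 5) (nat_lit 502) (nat_lit 5) (nat_lit 601) (nat_lit 588) (nat_lit 371)) (XT.nd (nat_lit 78) (nat_lit 0) (nat_lit 0) (XT.lf (nat_lit 0) (nat_lit 2331406142) (nat_lit 1824) (nat_lit 10367215529) (nat_lit 1900) (nat_lit 5433323969) (nat_lit 478) (nat_lit 5) (nat_lit 502) (nat_lit 5) (nat_lit 503) (nat_lit 5) (nat_lit 602) (nat_lit 588) (nat_lit 370)) (XT.lf (nat_lit 0) (nat_lit 3391923026) (nat_lit 1824) (nat_lit 946907870) (nat_lit 1900) (nat_lit 13978715839) (nat_lit 478) (nat_lit 5) (nat_lit 502) (nat_lit 5) (nat_lit 503) (nat_lit 5) (nat_lit 603) (nat_lit 588)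 (nat_lit 369)))) (XT.nd (nat_lit 156) (nat_lit 0) (nat_lit 76) (XT.nd (nat_lit 78) (nat_lit 0) (nat_lit 0) (XT.lf (nat_lit 0) (nat_lit 4552771854) (nat_lit 1824) (nat_lit 9760435970) (nat_lit 1900) (nat_lit 4192069920) (nat_lit 479) (nat_lit 5) (nat_lit 503) (nat_lit 5) (nat_lit 504) (nat_lit 5) (nat_lit 604) (nat_lit 588) (nat_lit 368)) (XT.lf (nat_lit 0) (nat_lit 5766640881) (nat_lit 1824) (nat_lit 86133627) (nat_lit 1900) (nat_lit 12843393121) (nat_lit 479) (nat_lit 5) (nat_lit 503) (nat_lit 5) (nat_lit 504) (nat_lit 5) (nat_lit 605) (nat_lit 588) (nat_lit 367))) (XT.nd (nat_lit 78) (nat_lit 0) (nat_lit 0) (XT.lf (nat_lit 0) (nat_lit 7082355779) (nat_lit 1824) (nat_lit 9000466622) (nat_lit 1900) (nat_lit 2806501853) (nat_lit 480) (nat_lit 5) (nat_lit 504) (nat_lit 5) (nat_lit 505) (nat_lit 5) (nat_lit 606) (nat_lit 588) (nat_lit 366)) (XT.lf (nat_lit 76) (nat_lit 947860349) (nat_lit 0) (nat_lit 7516883489) (nat_lit 1900) (nat_lit 10620793302) (nat_lit 481)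 (nat_lit 5) (nat_lit 480) (nat_lit 5) (nat_lit 505) (nat_lit 5) (nat_lit 607) (nat_lit 588) (nat_lit 365))))) (XT.nd (nat_lit 312) (nat_lit 2812) (nat_lit 0) (XT.nd (nat_lit 156) (nat_lit 0) (nat_lit 0) (XT.nd (nat_lit 78) (nat_lit 0) (nat_lit 0) (XT.lf (nat_lit 0) (nat_lit 9938445905) (nat_lit 1824) (nat_lit 8079705568) (nat_lit 1900) (nat_lit 1266249787) (nat_lit 481) (nat_lit 5) (nat_lit 505) (nat_lit 5) (nat_lit 506) (nat_lit 5) (nat_lit 608) (nat_lit 588) (nat_lit 364)) (XT.lf (nat_lit 76) (nat_lit 2153899716) (nat_lit 0) (nat_lit 9346531561) (nat_lit 1900) (nat_lit 7985635496) (nat_lit 482) (nat_lit 5) (nat_lit 481) (nat_lit 5) (nat_lit 506) (nat_lit 5) (nat_lit 609) (nat_lit 588) (nat_lit 363))) (XT.nd (nat_lit 78) (nat_lit 0) (nat_lit 76) (XT.lf (nat_lit 76) (nat_lit 12697732454) (nat_lit 0) (nat_lit 445258430) (nat_lit 1900) (nat_lit 6547788310) (nat_lit 482) (nat_lit 5) (nat_lit 481) (nat_lit 5) (nat_lit 506) (nat_lit 5) (nat_lit 610) (nat_lit 588)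 (nat_lit 362)) (XT.lf (nat_lit 76) (nat_lit 3539224333) (nat_lit 0) (nat_lit 11353431324) (nat_lit 1900) (nat_lit 5005445410) (nat_lit 483) (nat_lit 5) (nat_lit 482) (nat_lit 5) (nat_lit 507) (nat_lit 5) (nat_lit 611) (nat_lit 588) (nat_lit 361)))) (XT.nd (nat_lit 156) (nat_lit 1140) (nat_lit 0) (XT.nd (nat_lit 78) (nat_lit 1748) (nat_lit 0) (XT.lf (nat_lit 76) (nat_lit 14369980461) (nat_lit 0) (nat_lit 2352474726) (nat_lit 1900) (nat_lit 3386211639) (nat_lit 483) (nat_lit 5) (nat_lit 482) (nat_lit 5) (nat_lit 507) (nat_lit 5) (nat_lit 612) (nat_lit 588) (nat_lit 360)) (XT.lf (nat_lit 0) (nat_lit 5112641071) (nat_lit 1824) (nat_lit 13549121778) (nat_lit 1900) (nat_lit 1660223081) (nat_lit 459) (nat_lit 5) (nat_lit 483) (nat_lit 5) (nat_lit 484) (nat_lit 5) (nat_lit 613) (nat_lit 588) (nat_lit 359))) (XT.nd (nat_lit 78) (nat_lit 1064) (nat_lit 0) (XT.lf (nat_lit 0) (nat_lit 148730681) (nat_lit 1900) (nat_lit 4300521958) (nat_lit 76) (nat_lit 16089310803) (nat_lit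 458) (nat_lit 5) (nat_lit 483) (nat_lit 5) (nat_lit 459) (nat_lit 5) (nat_lit 614) (nat_lit 588) (nat_lit 358)) (XT.lf (nat_lit 0) (nat_lit 2043723016) (nat_lit 1140) (nat_lit 13888132758) (nat_lit 76) (nat_lit 4825955707) (nat_lit 444) (nat_lit 5) (nat_lit 459) (nat_lit 5) (nat_lit 445) (nat_lit 5) (nat_lit 615) (nat_lit 588) (nat_lit 357))))))) (XT.nd (nat_lit 1170) (nat_lit 6156) (nat_lit 0) (XT.nd (nat_lit 546) (nat_lit 3268) (nat_lit 0) (XT.nd (nat_lit 234) (nat_lit 2584) (nat_lit 0) (XT.nd (nat_lit 78) (nat_lit 912) (nat_lit 0) (XT.lf (nat_lit 0) (nat_lit 4030702987) (nat_lit 1140) (nat_lit 2692952757) (nat_lit 76) (nat_lit 14256707233) (nat_lit 444) (nat_lit 5) (nat_lit 459) (nat_lit 5) (nat_lit 445) (nat_lit 5) (nat_lit 616) (nat_lit 588) (nat_lit 356)) (XT.nd (nat_lit 78) (nat_lit 0) (nat_lit 0) (XT.lf (nat_lit 0) (nat_lit 6128174651) (nat_lit 988) (nat_lit 12385898937) (nat_lit 76) (nat_lit 2691877119) (nat_lit 432) (nat_lit 5) (nat_lit 445) (nat_lit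 5) (nat_lit 433) (nat_lit 5) (nat_lit 617) (nat_lit 588) (nat_lit 355)) (XT.lf (nat_lit 0) (nat_lit 8326035765) (nat_lit 988) (nat_lit 884506999) (nat_lit 76) (nat_lit 12224338869) (nat_lit 432) (nat_lit 5) (nat_lit 445) (nat_lit 5) (nat_lit 433) (nat_lit 5) (nat_lit 618) (nat_lit 588) (nat_lit 354)))) (XT.nd (nat_lit 156) (nat_lit 836) (nat_lit 0) (XT.nd (nat_lit 78) (nat_lit 836) (nat_lit 0) (XT.lf (nat_lit 0) (nat_lit 10637281290) (nat_lit 988) (nat_lit 10682236982) (nat_lit 76) (nat_lit 347484600) (nat_lit 420) (nat_lit 5) (nat_lit 433) (nat_lit 5) (nat_lit 421) (nat_lit 5) (nat_lit 619) (nat_lit 588) (nat_lit 353)) (XT.lf (nat_lit 0) (nat_lit 1149838486) (nat_lit 836) (nat_lit 11915214748) (nat_lit 912) (nat_lit 8837307502) (nat_lit 409) (nat_lit 5) (nat_lit 420) (nat_lit 5) (nat_lit 421) (nat_lit 5) (nat_lit 620) (nat_lit 588) (nat_lit 352))) (XT.nd (nat_lit 78) (nat_lit 836) (nat_lit 0) (XT.lf (nat_lit 0) (nat_lit 13359410419) (nat_lit 836) (nat_lit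 2249573318) (nat_lit 912) (nat_lit 6532090187) (nat_lit 409) (nat_lit 5) (nat_lit 420) (nat_lit 5) (nat_lit 421) (nat_lit 5) (nat_lit 621) (nat_lit 588) (nat_lit 351)) (XT.lf (nat_lit 0) (nat_lit 3420113364) (nat_lit 836) (nat_lit 14851290829) (nat_lit 912) (nat_lit 4111805180) (nat_lit 398) (nat_lit 5) (nat_lit 409) (nat_lit 5) (nat_lit 410) (nat_lit 5) (nat_lit 622) (nat_lit 588) (nat_lit 350))))) (XT.nd (nat_lit 312) (nat_lit 1520) (nat_lit 0) (XT.nd (nat_lit 156) (nat_lit 836) (nat_lit 0) (XT.nd (nat_lit 78) (nat_lit 912) (nat_lit 0) (XT.lf (nat_lit 0) (nat_lit 15965944391) (nat_lit 836) (nat_lit 5090911572) (nat_lit 912) (nat_lit 1571936128) (nat_lit 398) (nat_lit 5) (nat_lit 409) (nat_lit 5) (nat_lit 410) (nat_lit 5) (nat_lit 623) (nat_lit 588) (nat_lit 349)) (XT.lf (nat_lit 0) (nat_lit 1071996328) (nat_lit 912) (nat_lit 16959403303) (nat_lit 76) (nat_lit 4846422220) (nat_lit 386) (nat_lit 5) (nat_lit 398) (nat_lit 5) (nat_lit 387) (nat_lit 5) (nat_lit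 624) (nat_lit 588) (nat_lit 348))) (XT.nd (nat_lit 78) (nat_lit 836) (nat_lit 0) (XT.lf (nat_lit 0) (nat_lit 3822656930) (nat_lit 912) (nat_lit 4337681736) (nat_lit 76) (nat_lit 14969787982) (nat_lit 386) (nat_lit 5) (nat_lit 398) (nat_lit 5) (nat_lit 387) (nat_lit 5) (nat_lit 625) (nat_lit 588) (nat_lit 347)) (XT.lf (nat_lit 0) (nat_lit 6693457759) (nat_lit 912) (nat_lit 14753194539) (nat_lit 76) (nat_lit 1939522907) (nat_lit 375) (nat_lit 5) (nat_lit 387) (nat_lit 5) (nat_lit 376) (nat_lit 5) (nat_lit 626) (nat_lit 588) (nat_lit 346)))) (XT.nd (nat_lit 156) (nat_lit 760) (nat_lit 0) (XT.nd (nat_lit 78) (nat_lit 760) (nat_lit 0) (XT.lf (nat_lit 0) (nat_lit 9701297026) (nat_lit 912) (nat_lit 1783063040) (nat_lit 76) (nat_lit 12161392416) (nat_lit 375) (nat_lit 5) (nat_lit 387) (nat_lit 5) (nat_lit 376) (nat_lit 5) (nat_lit 627) (nat_lit 588) (nat_lit 345)) (XT.lf (nat_lit 0) (nat_lit 11594694000) (nat_lit 760) (nat_lit 1246232019) (nat_lit 836) (nat_lit 11068162820)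 (nat_lit 365) (nat_lit 5) (nat_lit 375) (nat_lit 5) (nat_lit 376) (nat_lit 5) (nat_lit 628) (nat_lit 588) (nat_lit 344))) (XT.nd (nat_lit 78) (nat_lit 0) (nat_lit 0) (XT.lf (nat_lit 0) (nat_lit 1036640029) (nat_lit 760) (nat_lit 15081591272) (nat_lit 836) (nat_lit 8057963140) (nat_lit 355) (nat_lit 5) (nat_lit 365) (nat_lit 5) (nat_lit 366) (nat_lit 5) (nat_lit 629) (nat_lit 588) (nat_lit 343)) (XT.lf (nat_lit 0) (nat_lit 14809394078) (nat_lit 760) (nat_lit 4738966936) (nat_lit 836) (nat_lit 4898535760) (nat_lit 355) (nat_lit 5) (nat_lit 365) (nat_lit 5) (nat_lit 366) (nat_lit 5) (nat_lit 630) (nat_lit 588) (nat_lit 342)))))) (XT.nd (nat_lit 546) (nat_lit 3268) (nat_lit 0) (XT.nd (nat_lit 234) (nat_lit 1368) (nat_lit 0) (XT.nd (nat_lit 78) (nat_lit 836) (nat_lit 0) (XT.lf (nat_lit 0) (nat_lit 4147402579) (nat_lit 684) (nat_lit 18960855262) (nat_lit 760) (nat_lit 1613532208) (nat_lit 346) (nat_lit 5) (nat_lit 355) (nat_lit 5) (nat_lit 356) (nat_lit 5) (nat_lit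 631) (nat_lit 588) (nat_lit 341)) (XT.nd (nat_lit 78) (nat_lit 760) (nat_lit 0) (XT.lf (nat_lit 0) (nat_lit 1807404689) (nat_lit 760) (nat_lit 6709210561) (nat_lit 76) (nat_lit 16483480204) (nat_lit 345) (nat_lit 5) (nat_lit 355) (nat_lit 5) (nat_lit 346) (nat_lit 5) (nat_lit 632) (nat_lit 588) (nat_lit 340)) (XT.lf (nat_lit 0) (nat_lit 5334845843) (nat_lit 836) (nat_lit 17779732952) (nat_lit 76) (nat_lit 2167981223) (nat_lit 335) (nat_lit 5) (nat_lit 346) (nat_lit 5) (nat_lit 336) (nat_lit 5) (nat_lit 633) (nat_lit 588) (nat_lit 339)))) (XT.nd (nat_lit 156) (nat_lit 684) (nat_lit 0) (XT.nd (nat_lit 78) (nat_lit 684) (nat_lit 0) (XT.lf (nat_lit 0) (nat_lit 9031196886) (nat_lit 836) (nat_lit 3540262678) (nat_lit 76) (nat_lit 12997247257) (nat_lit 335) (nat_lit 5) (nat_lit 346) (nat_lit 5) (nat_lit 336) (nat_lit 5) (nat_lit 634) (nat_lit 588) (nat_lit 338)) (XT.lf (nat_lit 0) (nat_lit 11126153577) (nat_lit 684) (nat_lit 1744264786) (nat_lit 760) (nat_lit 12988779494)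 (nat_lit 326) (nat_lit 5) (nat_lit 335) (nat_lit 5) (nat_lit 336) (nat_lit 5) (nat_lit 635) (nat_lit 588) (nat_lit 337))) (XT.nd (nat_lit 78) (nat_lit 684) (nat_lit 0) (XT.lf (nat_lit 0) (nat_lit 16867459196) (nat_lit 760) (nat_lit 85474171) (nat_lit 76) (nat_lit 9200944812) (nat_lit 326) (nat_lit 5) (nat_lit 336) (nat_lit 5) (nat_lit 327) (nat_lit 5) (nat_lit 636) (nat_lit 588) (nat_lit 336)) (XT.lf (nat_lit 0) (nat_lit 15036980919) (nat_lit 684) (nat_lit 6013447496) (nat_lit 760) (nat_lit 5401904099) (nat_lit 317) (nat_lit 5) (nat_lit 326) (nat_lit 5) (nat_lit 327) (nat_lit 5) (nat_lit 637) (nat_lit 588) (nat_lit 335))))) (XT.nd (nat_lit 312) (nat_lit 1900) (nat_lit 0) (XT.nd (nat_lit 156) (nat_lit 684) (nat_lit 0) (XT.nd (nat_lit 78) (nat_lit 76) (nat_lit 0) (XT.lf (nat_lit 0) (nat_lit 3717889737) (nat_lit 608) (nat_lit 21654128419) (nat_lit 684) (nat_lit 1383638715) (nat_lit 309) (nat_lit 5) (nat_lit 317) (nat_lit 5) (nat_lit 318) (nat_lit 5) (nat_lit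 638) (nat_lit 588) (nat_lit 334)) (XT.lf (nat_lit 0) (nat_lit 2793176812) (nat_lit 684) (nat_lit 7816720691) (nat_lit 76) (nat_lit 16452521963) (nat_lit 308) (nat_lit 5) (nat_lit 317) (nat_lit 5) (nat_lit 309) (nat_lit 5) (nat_lit 639) (nat_lit 588) (nat_lit 333))) (XT.nd (nat_lit 78) (nat_lit 0) (nat_lit 0) (XT.lf (nat_lit 0) (nat_lit 7087215429) (nat_lit 760) (nat_lit 19580677474) (nat_lit 76) (nat_lit 706197366) (nat_lit 299) (nat_lit 5) (nat_lit 309) (nat_lit 5) (nat_lit 300) (nat_lit 5) (nat_lit 640) (nat_lit 588) (nat_lit 332)) (XT.lf (nat_lit 0) (nat_lit 11587152661) (nat_lit 760) (nat_lit 3943588769) (nat_lit 76) (nat_lit 12158852845) (nat_lit 299) (nat_lit 5) (nat_lit 309) (nat_lit 5) (nat_lit 300) (nat_lit 5) (nat_lit 641) (nat_lit 588) (nat_lit 331)))) (XT.nd (nat_lit 156) (nat_lit 684) (nat_lit 0) (XT.nd (nat_lit 78) (nat_lit 608) (nat_lit 0) (XT.lf (nat_lit 0) (nat_lit 12162084514) (nat_lit 608) (nat_lit 4090980142) (nat_lit 684) (nat_lit 11756824327)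 (nat_lit 291) (nat_lit 5) (nat_lit 299) (nat_lit 5) (nat_lit 300) (nat_lit 5) (nat_lit 642) (nat_lit 588) (nat_lit 330)) (XT.lf (nat_lit 0) (nat_lit 257575828) (nat_lit 608) (nat_lit 20829271066) (nat_lit 684) (nat_lit 7248251789) (nat_lit 283) (nat_lit 5) (nat_lit 291) (nat_lit 5) (nat_lit 292) (nat_lit 5) (nat_lit 643) (nat_lit 588) (nat_lit 329))) (XT.nd (nat_lit 78) (nat_lit 684) (nat_lit 0) (XT.lf (nat_lit 0) (nat_lit 16868760826) (nat_lit 608) (nat_lit 9278881750) (nat_lit 684) (nat_lit 2516563382) (nat_lit 283) (nat_lit 5) (nat_lit 291) (nat_lit 5) (nat_lit 292) (nat_lit 5) (nat_lit 644) (nat_lit 588) (nat_lit 328)) (XT.lf (nat_lit 0) (nat_lit 2324668826) (nat_lit 684) (nat_lit 24158229137) (nat_lit 76) (nat_lit 2515793558) (nat_lit 274) (nat_lit 5) (nat_lit 283) (nat_lit 5) (nat_lit 275) (nat_lit 5) (nat_lit 645) (nat_lit 588) (nat_lit 327))))))))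
noncomputable def xc202 : XT := (XT.nd (nat_lit 76908) (nat_lit 0) (nat_lit 19912) (XT.nd (nat_lit 1092) (nat_lit 3572) (nat_lit 0) (XT.nd (nat_lit 546) (nat_lit 2052) (nat_lit 0) (XT.nd (nat_lit 234) (nat_lit 1672) (nat_lit 0) (XT.nd (nat_lit 78) (nat_lit 608) (nat_lit 0) (XT.lf (nat_lit 0) (nat_lit 7367330510) (nat_lit 684) (nat_lit 7451611253) (nat_lit 76) (nat_lit 14517826438) (nat_lit 274) (nat_lit 5) (nat_lit 283) (nat_lit 5) (nat_lit 275) (nat_lit 5) (nat_lit 646) (nat_lit 588) (nat_lit 326)) (XT.nd (nat_lit 78) (nat_lit 0) (nat_lit 0) (XT.lf (nat_lit 0) (nat_lit 9712931498) (nat_lit 608) (nat_lit 2858175475) (nat_lit 684) (nat_lit 17109294338) (nat_lit 266) (nat_lit 5) (nat_lit 274) (nat_lit 5) (nat_lit 275) (nat_lit 5) (nat_lit 647) (nat_lit 588) (nat_lit 325)) (XT.lf (nat_lit 0) (nat_lit 17987172847) (nat_lit 684) (nat_lit 2772738695) (nat_lit 76) (nat_lit 9268831385) (nat_lit 266) (nat_lit 5) (nat_lit 275) (nat_lit 5) (nat_lit 267) (nat_lit 5) (nat_lit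 648) (nat_lit 588) (nat_lit 324)))) (XT.nd (nat_lit 156) (nat_lit 608) (nat_lit 0) (XT.nd (nat_lit 78) (nat_lit 532) (nat_lit 0) (XT.lf (nat_lit 0) (nat_lit 14939340875) (nat_lit 532) (nat_lit 8685423286) (nat_lit 608) (nat_lit 6757023253) (nat_lit 259) (nat_lit 5) (nat_lit 266) (nat_lit 5) (nat_lit 267) (nat_lit 5) (nat_lit 649) (nat_lit 588) (nat_lit 323)) (XT.lf (nat_lit 0) (nat_lit 2304682587) (nat_lit 532) (nat_lit 27124994679) (nat_lit 608) (nat_lit 1311124245) (nat_lit 252) (nat_lit 5) (nat_lit 259) (nat_lit 5) (nat_lit 260) (nat_lit 5) (nat_lit 650) (nat_lit 588) (nat_lit 322))) (XT.nd (nat_lit 78) (nat_lit 532) (nat_lit 0) (XT.lf (nat_lit 0) (nat_lit 4347185253) (nat_lit 608) (nat_lit 10578188504) (nat_lit 76) (nat_lit 16177888203) (nat_lit 251) (nat_lit 5) (nat_lit 259) (nat_lit 5) (nat_lit 252) (nat_lit 5) (nat_lit 651) (nat_lit 588) (nat_lit 321)) (XT.lf (nat_lit 0) (nat_lit 7726028803) (nat_lit 532) (nat_lit 2422624444) (nat_lit 608) (nat_lit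 21323194188) (nat_lit 244) (nat_lit 5) (nat_lit 251) (nat_lit 5) (nat_lit 252) (nat_lit 5) (nat_lit 652) (nat_lit 588) (nat_lit 320))))) (XT.nd (nat_lit 234) (nat_lit 1064) (nat_lit 0) (XT.nd (nat_lit 78) (nat_lit 988) (nat_lit 0) (XT.lf (nat_lit 0) (nat_lit 16202068742) (nat_lit 608) (nat_lit 5377745059) (nat_lit 76) (nat_lit 10265272564) (nat_lit 244) (nat_lit 5) (nat_lit 252) (nat_lit 5) (nat_lit 245) (nat_lit 5) (nat_lit 653) (nat_lit 588) (nat_lit 319)) (XT.nd (nat_lit 78) (nat_lit 456) (nat_lit 0) (XT.lf (nat_lit 0) (nat_lit 13515432608) (nat_lit 532) (nat_lit 8962358537) (nat_lit 608) (nat_lit 9745974263) (nat_lit 237) (nat_lit 5) (nat_lit 244) (nat_lit 5) (nat_lit 245) (nat_lit 5) (nat_lit 654) (nat_lit 588) (nat_lit 318)) (XT.lf (nat_lit 0) (nat_lit 223909477) (nat_lit 456) (nat_lit 28715733856) (nat_lit 532) (nat_lit 3669162499) (nat_lit 231) (nat_lit 5) (nat_lit 237) (nat_lit 5) (nat_lit 238) (nat_lit 5) (nat_lit 655) (nat_lit 588) (nat_lit 317))))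 (XT.nd (nat_lit 156) (nat_lit 456) (nat_lit 0) (XT.nd (nat_lit 78) (nat_lit 532) (nat_lit 0) (XT.lf (nat_lit 0) (nat_lit 2679218124) (nat_lit 532) (nat_lit 13290752538) (nat_lit 76) (nat_lit 17027584013) (nat_lit 230) (nat_lit 5) (nat_lit 237) (nat_lit 5) (nat_lit 231) (nat_lit 5) (nat_lit 656) (nat_lit 588) (nat_lit 316)) (XT.lf (nat_lit 0) (nat_lit 6239370852) (nat_lit 532) (nat_lit 2904146786) (nat_lit 608) (nat_lit 24249314267) (nat_lit 223) (nat_lit 5) (nat_lit 230) (nat_lit 5) (nat_lit 231) (nat_lit 5) (nat_lit 657) (nat_lit 588) (nat_lit 315))) (XT.nd (nat_lit 78) (nat_lit 456) (nat_lit 0) (XT.lf (nat_lit 0) (nat_lit 15892100140) (nat_lit 608) (nat_lit 7525693091) (nat_lit 76) (nat_lit 10375121604) (nat_lit 223) (nat_lit 5) (nat_lit 231) (nat_lit 5) (nat_lit 224) (nat_lit 5) (nat_lit 658) (nat_lit 588) (nat_lit 314)) (XT.lf (nat_lit 0) (nat_lit 12637756771) (nat_lit 456) (nat_lit 10236776527) (nat_lit 532) (nat_lit 11324488641) (nat_lit 217) (nat_lit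 5) (nat_lit 223) (nat_lit 5) (nat_lit 224) (nat_lit 5) (nat_lit 659) (nat_lit 588) (nat_lit 313)))))) (XT.nd (nat_lit 546) (nat_lit 1672) (nat_lit 0) (XT.nd (nat_lit 234) (nat_lit 912) (nat_lit 0) (XT.nd (nat_lit 78) (nat_lit 988) (nat_lit 0) (XT.lf (nat_lit 0) (nat_lit 30065890983) (nat_lit 532) (nat_lit 1330320977) (nat_lit 76) (nat_lit 3215653802) (nat_lit 217) (nat_lit 5) (nat_lit 224) (nat_lit 5) (nat_lit 218) (nat_lit 5) (nat_lit 660) (nat_lit 588) (nat_lit 312)) (XT.nd (nat_lit 78) (nat_lit 456) (nat_lit 0) (XT.lf (nat_lit 0) (nat_lit 2530315289) (nat_lit 532) (nat_lit 15556052851) (nat_lit 76) (nat_lit 16942425622) (nat_lit 210) (nat_lit 5) (nat_lit 217) (nat_lit 5) (nat_lit 211) (nat_lit 5) (nat_lit 661) (nat_lit 588) (nat_lit 311)) (XT.lf (nat_lit 0) (nat_lit 5291905981) (nat_lit 456) (nat_lit 4436424554) (nat_lit 532) (nat_lit 25724307497) (nat_lit 204) (nat_lit 5) (nat_lit 210) (nat_lit 5) (nat_lit 211) (nat_lit 5) (nat_lit 662) (nat_lit 588) (nat_lit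 310)))) (XT.nd (nat_lit 156) (nat_lit 456) (nat_lit 0) (XT.nd (nat_lit 78) (nat_lit 456) (nat_lit 0) (XT.lf (nat_lit 0) (nat_lit 17234665222) (nat_lit 532) (nat_lit 9180831217) (nat_lit 76) (nat_lit 9466175653) (nat_lit 204) (nat_lit 5) (nat_lit 211) (nat_lit 5) (nat_lit 205) (nat_lit 5) (nat_lit 663) (nat_lit 588) (nat_lit 309)) (XT.lf (nat_lit 0) (nat_lit 12347932589) (nat_lit 456) (nat_lit 12650476402) (nat_lit 532) (nat_lit 11318732279) (nat_lit 198) (nat_lit 5) (nat_lit 204) (nat_lit 5) (nat_lit 205) (nat_lit 5) (nat_lit 664) (nat_lit 588) (nat_lit 308))) (XT.nd (nat_lit 78) (nat_lit 456) (nat_lit 0) (XT.lf (nat_lit 0) (nat_lit 32986215258) (nat_lit 532) (nat_lit 2341115889) (nat_lit 76) (nat_lit 1432613015) (nat_lit 198) (nat_lit 5) (nat_lit 205) (nat_lit 5) (nat_lit 199) (nat_lit 5) (nat_lit 665) (nat_lit 588) (nat_lit 307)) (XT.lf (nat_lit 0) (nat_lit 4082861021) (nat_lit 456) (nat_lit 17340834672) (nat_lit 76) (nat_lit 15783155660) (nat_lit 192) (nat_lit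 5) (nat_lit 198) (nat_lit 5) (nat_lit 193) (nat_lit 5) (nat_lit 666) (nat_lit 588) (nat_lit 306))))) (XT.nd (nat_lit 312) (nat_lit 836) (nat_lit 0) (XT.nd (nat_lit 156) (nat_lit 380) (nat_lit 0) (XT.nd (nat_lit 78) (nat_lit 0) (nat_lit 0) (XT.lf (nat_lit 0) (nat_lit 4922852754) (nat_lit 456) (nat_lit 7168823139) (nat_lit 532) (nat_lit 25569609521) (nat_lit 186) (nat_lit 5) (nat_lit 192) (nat_lit 5) (nat_lit 193) (nat_lit 5) (nat_lit 667) (nat_lit 588) (nat_lit 305)) (XT.lf (nat_lit 0) (nat_lit 20423476999) (nat_lit 532) (nat_lit 10307511236) (nat_lit 76) (nat_lit 7390563798) (nat_lit 186) (nat_lit 5) (nat_lit 193) (nat_lit 5) (nat_lit 187) (nat_lit 5) (nat_lit 668) (nat_lit 588) (nat_lit 304))) (XT.nd (nat_lit 78) (nat_lit 0) (nat_lit 0) (XT.lf (nat_lit 0) (nat_lit 12687744329) (nat_lit 380) (nat_lit 16361880343) (nat_lit 456) (nat_lit 9538845176) (nat_lit 181) (nat_lit 5) (nat_lit 186) (nat_lit 5) (nat_lit 187) (nat_lit 5) (nat_lit 669) (nat_lit 588) (nat_lit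 303)) (XT.lf (nat_lit 0) (nat_lit 36279436472) (nat_lit 380) (nat_lit 1635906596) (nat_lit 456) (nat_lit 1148042071) (nat_lit 181) (nat_lit 5) (nat_lit 186) (nat_lit 5) (nat_lit 187) (nat_lit 5) (nat_lit 670) (nat_lit 588) (nat_lit 302)))) (XT.nd (nat_lit 74802) (nat_lit 0) (nat_lit 24776) (XT.nd (nat_lit 78) (nat_lit 380) (nat_lit 0) (XT.lf (nat_lit 0) (nat_lit 7535882878) (nat_lit 456) (nat_lit 18612696213) (nat_lit 76) (nat_lit 13393807490) (nat_lit 175) (nat_lit 5) (nat_lit 181) (nat_lit 5) (nat_lit 176) (nat_lit 5) (nat_lit 671) (nat_lit 588) (nat_lit 301)) (XT.lf (nat_lit 0) (nat_lit 5170832066) (nat_lit 380) (nat_lit 11268428612) (nat_lit 456) (nat_lit 23590332740) (nat_lit 170) (nat_lit 5) (nat_lit 175) (nat_lit 5) (nat_lit 176) (nat_lit 5) (nat_lit 672) (nat_lit 588) (nat_lit 300))) (XT.nd (nat_lit 78) (nat_lit 0) (nat_lit 0) (XT.lf (nat_lit 0) (nat_lit 2615911362) (nat_lit 0) (nat_lit 2615911362) (nat_lit 1748) (nat_lit 2817605923) (nat_lit 496)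 (nat_lit 5) (nat_lit 496) (nat_lit 3) (nat_lit 519) (nat_lit 3) (nat_lit 589) (nat_lit 589) (nat_lit 382)) (XT.lf (nat_lit 0) (nat_lit 10842553124) (nat_lit 1748) (nat_lit 2896781601) (nat_lit 1824) (nat_lit 2515009667) (nat_lit 496) (nat_lit 5) (nat_lit 519) (nat_lit 3) (nat_lit 520) (nat_lit 5) (nat_lit 590) (nat_lit 589) (nat_lit 381))))))) (XT.nd (nat_lit 1092) (nat_lit 3420) (nat_lit 0) (XT.nd (nat_lit 546) (nat_lit 1444) (nat_lit 0) (XT.nd (nat_lit 234) (nat_lit 0) (nat_lit 152) (XT.nd (nat_lit 78) (nat_lit 0) (nat_lit 76) (XT.lf (nat_lit 76) (nat_lit 5263725619) (nat_lit 0) (nat_lit 6027398489) (nat_lit 1824) (nat_lit 5120575844) (nat_lit 497) (nat_lit 5) (nat_lit 496) (nat_lit 5) (nat_lit 520) (nat_lit 5) (nat_lit 591) (nat_lit 589) (nat_lit 380)) (XT.nd (nat_lit 78) (nat_lit 0) (nat_lit 0) (XT.lf (nat_lit 0) (nat_lit 11773563982) (nat_lit 1748) (nat_lit 2960839136) (nat_lit 1824) (nat_lit 1837301967) (nat_lit 497) (nat_lit 5) (nat_lit 520) (nat_lit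 5) (nat_lit 521) (nat_lit 5) (nat_lit 592) (nat_lit 589) (nat_lit 379)) (XT.lf (nat_lit 76) (nat_lit 5417579034) (nat_lit 0) (nat_lit 6916685517) (nat_lit 1824) (nat_lit 4399273937) (nat_lit 498) (nat_lit 5) (nat_lit 497) (nat_lit 5) (nat_lit 521) (nat_lit 5) (nat_lit 593) (nat_lit 589) (nat_lit 378)))) (XT.nd (nat_lit 156) (nat_lit 0) (nat_lit 76) (XT.nd (nat_lit 78) (nat_lit 0) (nat_lit 0) (XT.lf (nat_lit 0) (nat_lit 12926687640) (nat_lit 1748) (nat_lit 2905225653) (nat_lit 1824) (nat_lit 1066285492) (nat_lit 498) (nat_lit 5) (nat_lit 521) (nat_lit 5) (nat_lit 522) (nat_lit 5) (nat_lit 594) (nat_lit 589) (nat_lit 377)) (XT.lf (nat_lit 76) (nat_lit 5699015319) (nat_lit 0) (nat_lit 7908519058) (nat_lit 1824) (nat_lit 3457086796) (nat_lit 499) (nat_lit 5) (nat_lit 498) (nat_lit 5) (nat_lit 522) (nat_lit 5) (nat_lit 595) (nat_lit 589) (nat_lit 376))) (XT.nd (nat_lit 78) (nat_lit 0) (nat_lit 0) (XT.lf (nat_lit 0) (nat_lit 14316630752) (nat_lit 1748) (nat_lit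 2724275095) (nat_lit 1824) (nat_lit 193173890) (nat_lit 499) (nat_lit 5) (nat_lit 522) (nat_lit 5) (nat_lit 523) (nat_lit 5) (nat_lit 596) (nat_lit 589) (nat_lit 375)) (XT.lf (nat_lit 76) (nat_lit 6114007387) (nat_lit 0) (nat_lit 9011974647) (nat_lit 1824) (nat_lit 2279224352) (nat_lit 500) (nat_lit 5) (nat_lit 499) (nat_lit 5) (nat_lit 523) (nat_lit 5) (nat_lit 597) (nat_lit 589) (nat_lit 374))))) (XT.nd (nat_lit 234) (nat_lit 1672) (nat_lit 0) (XT.nd (nat_lit 78) (nat_lit 0) (nat_lit 76) (XT.lf (nat_lit 76) (nat_lit 15162321142) (nat_lit 0) (nat_lit 801576829) (nat_lit 1824) (nat_lit 1615610412) (nat_lit 500) (nat_lit 5) (nat_lit 499) (nat_lit 5) (nat_lit 523) (nat_lit 5) (nat_lit 598) (nat_lit 589) (nat_lit 373)) (XT.nd (nat_lit 78) (nat_lit 0) (nat_lit 0) (XT.lf (nat_lit 76) (nat_lit 6668877947) (nat_lit 0) (nat_lit 10236388517) (nat_lit 1824) (nat_lit 850296428) (nat_lit 501) (nat_lit 5) (nat_lit 500) (nat_lit 5) (nat_lit 524) (nat_lit 5) (nat_lit 599)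 (nat_lit 589) (nat_lit 372)) (XT.lf (nat_lit 76) (nat_lit 15960354318) (nat_lit 0) (nat_lit 1920917681) (nat_lit 1824) (nat_lit 53550654) (nat_lit 501) (nat_lit 5) (nat_lit 500) (nat_lit 5) (nat_lit 524) (nat_lit 5) (nat_lit 600) (nat_lit 589) (nat_lit 371)))) (XT.nd (nat_lit 156) (nat_lit 0) (nat_lit 76) (XT.nd (nat_lit 78) (nat_lit 0) (nat_lit 0) (XT.lf (nat_lit 0) (nat_lit 834625815) (nat_lit 1824) (nat_lit 10751151744) (nat_lit 1900) (nat_lit 6530082773) (nat_lit 477) (nat_lit 5) (nat_lit 501) (nat_lit 5) (nat_lit 502) (nat_lit 5) (nat_lit 601) (nat_lit 589) (nat_lit 370)) (XT.lf (nat_lit 0) (nat_lit 1760396122) (nat_lit 1824) (nat_lit 1399781603) (nat_lit 1900) (nat_lit 15139923345) (nat_lit 477) (nat_lit 5) (nat_lit 501) (nat_lit 5) (nat_lit 502) (nat_lit 5) (nat_lit 602) (nat_lit 589) (nat_lit 369))) (XT.nd (nat_lit 78) (nat_lit 0) (nat_lit 0) (XT.lf (nat_lit 0) (nat_lit 2788442901) (nat_lit 1824) (nat_lit 10279709476) (nat_lit 1900) (nat_lit 5418199351)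 (nat_lit 478) (nat_lit 5) (nat_lit 502) (nat_lit 5) (nat_lit 503) (nat_lit 5) (nat_lit 603) (nat_lit 589) (nat_lit 368)) (XT.lf (nat_lit 0) (nat_lit 3862122894) (nat_lit 1824) (nat_lit 676777043) (nat_lit 1900) (nat_lit 14136926335) (nat_lit 478) (nat_lit 5) (nat_lit 502) (nat_lit 5) (nat_lit 503) (nat_lit 5) (nat_lit 604) (nat_lit 589) (nat_lit 367)))))) (XT.nd (nat_lit 546) (nat_lit 3572) (nat_lit 0) (XT.nd (nat_lit 234) (nat_lit 0) (nat_lit 76) (XT.nd (nat_lit 78) (nat_lit 0) (nat_lit 0) (XT.lf (nat_lit 0) (nat_lit 5039454941) (nat_lit 1824) (nat_lit 9659818252) (nat_lit 1900) (nat_lit 4168173858) (nat_lit 479) (nat_lit 5) (nat_lit 503) (nat_lit 5) (nat_lit 504) (nat_lit 5) (nat_lit 605) (nat_lit 589) (nat_lit 366)) (XT.nd (nat_lit 78) (nat_lit 0) (nat_lit 76) (XT.lf (nat_lit 76) (nat_lit 204856347) (nat_lit 0) (nat_lit 6066317659) (nat_lit 1900) (nat_lit 12791109739) (nat_lit 480) (nat_lit 5) (nat_lit 479) (nat_lit 5) (nat_lit 504) (nat_lit 5) (nat_lit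 606) (nat_lit 589) (nat_lit 365)) (XT.lf (nat_lit 0) (nat_lit 7605528067) (nat_lit 1824) (nat_lit 8884082188) (nat_lit 1900) (nat_lit 2769847205) (nat_lit 480) (nat_lit 5) (nat_lit 504) (nat_lit 5) (nat_lit 505) (nat_lit 5) (nat_lit 607) (nat_lit 589) (nat_lit 364)))) (XT.nd (nat_lit 156) (nat_lit 0) (nat_lit 76) (XT.nd (nat_lit 78) (nat_lit 0) (nat_lit 76) (XT.lf (nat_lit 76) (nat_lit 1261261363) (nat_lit 0) (nat_lit 7748733362) (nat_lit 1900) (nat_lit 10449711709) (nat_lit 481) (nat_lit 5) (nat_lit 480) (nat_lit 5) (nat_lit 505) (nat_lit 5) (nat_lit 608) (nat_lit 589) (nat_lit 363)) (XT.lf (nat_lit 0) (nat_lit 10505280294) (nat_lit 1824) (nat_lit 7944716849) (nat_lit 1900) (nat_lit 1212708943) (nat_lit 481) (nat_lit 5) (nat_lit 505) (nat_lit 5) (nat_lit 506) (nat_lit 5) (nat_lit 609) (nat_lit 589) (nat_lit 362))) (XT.nd (nat_lit 78) (nat_lit 0) (nat_lit 0) (XT.lf (nat_lit 76) (nat_lit 2491609338) (nat_lit 0) (nat_lit 9601592009) (nat_lit 1900) (nat_lit 7775310071)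 (nat_lit 482) (nat_lit 5) (nat_lit 481) (nat_lit 5) (nat_lit 506) (nat_lit 5) (nat_lit 610) (nat_lit 589) (nat_lit 361)) (XT.lf (nat_lit 76) (nat_lit 13240541640) (nat_lit 0) (nat_lit 520957536) (nat_lit 1900) (nat_lit 6315961591) (nat_lit 482) (nat_lit 5) (nat_lit 481) (nat_lit 5) (nat_lit 506) (nat_lit 5) (nat_lit 611) (nat_lit 589) (nat_lit 360))))) (XT.nd (nat_lit 312) (nat_lit 1976) (nat_lit 0) (XT.nd (nat_lit 156) (nat_lit 1824) (nat_lit 0) (XT.nd (nat_lit 78) (nat_lit 0) (nat_lit 0) (XT.lf (nat_lit 76) (nat_lit 3904480892) (nat_lit 0) (nat_lit 11636189595) (nat_lit 1900) (nat_lit 4748368739) (nat_lit 483) (nat_lit 5) (nat_lit 482) (nat_lit 5) (nat_lit 507) (nat_lit 5) (nat_lit 612) (nat_lit 589) (nat_lit 359)) (XT.lf (nat_lit 76) (nat_lit 14946078179) (nat_lit 0) (nat_lit 2454121911) (nat_lit 1900) (nat_lit 3103753932) (nat_lit 483) (nat_lit 5) (nat_lit 482) (nat_lit 5) (nat_lit 507) (nat_lit 5) (nat_lit 613) (nat_lit 589) (nat_lit 358))) (XT.nd (nat_lit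 78) (nat_lit 76) (nat_lit 0) (XT.lf (nat_lit 0) (nat_lit 5508885660) (nat_lit 1824) (nat_lit 13864238212) (nat_lit 1900) (nat_lit 1348519435) (nat_lit 459) (nat_lit 5) (nat_lit 483) (nat_lit 5) (nat_lit 484) (nat_lit 5) (nat_lit 614) (nat_lit 589) (nat_lit 357)) (XT.lf (nat_lit 0) (nat_lit 485415664) (nat_lit 1900) (nat_lit 4093851281) (nat_lit 76) (nat_lit 16363374501) (nat_lit 458) (nat_lit 5) (nat_lit 483) (nat_lit 5) (nat_lit 459) (nat_lit 5) (nat_lit 615) (nat_lit 589) (nat_lit 356)))) (XT.nd (nat_lit 156) (nat_lit 912) (nat_lit 0) (XT.nd (nat_lit 78) (nat_lit 0) (nat_lit 0) (XT.lf (nat_lit 0) (nat_lit 2413403619) (nat_lit 1140) (nat_lit 13868291387) (nat_lit 76) (nat_lit 4884677898) (nat_lit 444) (nat_lit 5) (nat_lit 459) (nat_lit 5) (nat_lit 445) (nat_lit 5) (nat_lit 616) (nat_lit 589) (nat_lit 355)) (XT.lf (nat_lit 0) (nat_lit 4433676010) (nat_lit 1140) (nat_lit 2455043159) (nat_lit 76) (nat_lit 14504785570) (nat_lit 444) (nat_lit 5) (nat_lit 459)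 (nat_lit 5) (nat_lit 445) (nat_lit 5) (nat_lit 617) (nat_lit 589) (nat_lit 354))) (XT.nd (nat_lit 78) (nat_lit 0) (nat_lit 0) (XT.lf (nat_lit 0) (nat_lit 6568475980) (nat_lit 988) (nat_lit 12337209179) (nat_lit 76) (nat_lit 2718011847) (nat_lit 432) (nat_lit 5) (nat_lit 445) (nat_lit 5) (nat_lit 433) (nat_lit 5) (nat_lit 618) (nat_lit 589) (nat_lit 353)) (XT.lf (nat_lit 0) (nat_lit 8804064164) (nat_lit 988) (nat_lit 611601318) (nat_lit 76) (nat_lit 12441666025) (nat_lit 432) (nat_lit 5) (nat_lit 445) (nat_lit 5) (nat_lit 433) (nat_lit 5) (nat_lit 619) (nat_lit 589) (nat_lit 352))))))))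
noncomputable def xc203 : XT := (XT.nd (nat_lit 2262) (nat_lit 6916) (nat_lit 0) (XT.nd (nat_lit 1092) (nat_lit 6004) (nat_lit 0) (XT.nd (nat_lit 546) (nat_lit 3116) (nat_lit 0) (XT.nd (nat_lit 234) (nat_lit 1748) (nat_lit 0) (XT.nd (nat_lit 78) (nat_lit 836) (nat_lit 0) (XT.lf (nat_lit 0) (nat_lit 11157180234) (nat_lit 988) (nat_lit 10600914275) (nat_lit 76) (nat_lit 336088092) (nat_lit 420) (nat_lit 5) (nat_lit 433) (nat_lit 5) (nat_lit 421) (nat_lit 5) (nat_lit 620) (nat_lit 589) (nat_lit 351)) (XT.nd (nat_lit 78) (nat_lit 0) (nat_lit 0) (XT.lf (nat_lit 0) (nat_lit 1465862127) (nat_lit 836) (nat_lit 12163525402) (nat_lit 912) (nat_lit 8704942836) (nat_lit 409) (nat_lit 5) (nat_lit 420) (nat_lit 5) (nat_lit 421) (nat_lit 5) (nat_lit 621) (nat_lit 589) (nat_lit 350)) (XT.lf (nat_lit 0) (nat_lit 13913879873) (nat_lit 836) (nat_lit 2304374940) (nat_lit 912) (nat_lit 6359682171) (nat_lit 409) (nat_lit 5) (nat_lit 420) (nat_lit 5) (nat_lit 421) (nat_lit 5) (nat_lit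 622) (nat_lit 589) (nat_lit 349)))) (XT.nd (nat_lit 156) (nat_lit 912) (nat_lit 0) (XT.nd (nat_lit 78) (nat_lit 0) (nat_lit 0) (XT.lf (nat_lit 0) (nat_lit 3779889362) (nat_lit 836) (nat_lit 15150038341) (nat_lit 912) (nat_lit 3895067684) (nat_lit 398) (nat_lit 5) (nat_lit 409) (nat_lit 5) (nat_lit 410) (nat_lit 5) (nat_lit 623) (nat_lit 589) (nat_lit 348)) (XT.lf (nat_lit 0) (nat_lit 16570923799) (nat_lit 836) (nat_lit 5194417740) (nat_lit 912) (nat_lit 1310263478) (nat_lit 398) (nat_lit 5) (nat_lit 409) (nat_lit 5) (nat_lit 410) (nat_lit 5) (nat_lit 624) (nat_lit 589) (nat_lit 347))) (XT.nd (nat_lit 78) (nat_lit 0) (nat_lit 0) (XT.lf (nat_lit 0) (nat_lit 1378912883) (nat_lit 912) (nat_lit 17005265145) (nat_lit 76) (nat_lit 4945475400) (nat_lit 386) (nat_lit 5) (nat_lit 398) (nat_lit 5) (nat_lit 387) (nat_lit 5) (nat_lit 625) (nat_lit 589) (nat_lit 346)) (XT.lf (nat_lit 0) (nat_lit 4178989117) (nat_lit 912) (nat_lit 4136860641) (nat_lit 76) (nat_lit 15271266817)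 (nat_lit 386) (nat_lit 5) (nat_lit 398) (nat_lit 5) (nat_lit 387) (nat_lit 5) (nat_lit 626) (nat_lit 589) (nat_lit 345))))) (XT.nd (nat_lit 234) (nat_lit 1520) (nat_lit 0) (XT.nd (nat_lit 78) (nat_lit 760) (nat_lit 0) (XT.lf (nat_lit 0) (nat_lit 7103634249) (nat_lit 912) (nat_lit 14757097256) (nat_lit 76) (nat_lit 1987626326) (nat_lit 375) (nat_lit 5) (nat_lit 387) (nat_lit 5) (nat_lit 376) (nat_lit 5) (nat_lit 627) (nat_lit 589) (nat_lit 344)) (XT.nd (nat_lit 78) (nat_lit 760) (nat_lit 0) (XT.lf (nat_lit 0) (nat_lit 10166212510) (nat_lit 912) (nat_lit 1533272169) (nat_lit 76) (nat_lit 12413750618) (nat_lit 375) (nat_lit 5) (nat_lit 387) (nat_lit 5) (nat_lit 376) (nat_lit 5) (nat_lit 628) (nat_lit 589) (nat_lit 343)) (XT.lf (nat_lit 0) (nat_lit 12110162037) (nat_lit 760) (nat_lit 1255001638) (nat_lit 836) (nat_lit 11016744398) (nat_lit 365) (nat_lit 5) (nat_lit 375) (nat_lit 5) (nat_lit 376) (nat_lit 5) (nat_lit 629) (nat_lit 589) (nat_lit 342)))) (XT.nd (nat_lit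 156) (nat_lit 760) (nat_lit 0) (XT.nd (nat_lit 78) (nat_lit 0) (nat_lit 0) (XT.lf (nat_lit 0) (nat_lit 1344304430) (nat_lit 760) (nat_lit 15360432903) (nat_lit 836) (nat_lit 7949684286) (nat_lit 355) (nat_lit 5) (nat_lit 365) (nat_lit 5) (nat_lit 366) (nat_lit 5) (nat_lit 630) (nat_lit 589) (nat_lit 341)) (XT.lf (nat_lit 0) (nat_lit 15386887451) (nat_lit 760) (nat_lit 4811402946) (nat_lit 836) (nat_lit 4732351460) (nat_lit 355) (nat_lit 5) (nat_lit 365) (nat_lit 5) (nat_lit 366) (nat_lit 5) (nat_lit 631) (nat_lit 589) (nat_lit 340))) (XT.nd (nat_lit 78) (nat_lit 76) (nat_lit 0) (XT.lf (nat_lit 0) (nat_lit 4514820004) (nat_lit 684) (nat_lit 19311476654) (nat_lit 760) (nat_lit 1384798375) (nat_lit 346) (nat_lit 5) (nat_lit 355) (nat_lit 5) (nat_lit 356) (nat_lit 5) (nat_lit 632) (nat_lit 589) (nat_lit 339)) (XT.lf (nat_lit 0) (nat_lit 2096083524) (nat_lit 760) (nat_lit 6561134404) (nat_lit 76) (nat_lit 16837815996) (nat_lit 345) (nat_lit 5) (nat_lit 355) (nat_lit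 5) (nat_lit 346) (nat_lit 5) (nat_lit 633) (nat_lit 589) (nat_lit 338)))))) (XT.nd (nat_lit 546) (nat_lit 3192) (nat_lit 0) (XT.nd (nat_lit 234) (nat_lit 1368) (nat_lit 0) (XT.nd (nat_lit 78) (nat_lit 684) (nat_lit 0) (XT.lf (nat_lit 0) (nat_lit 5691143779) (nat_lit 836) (nat_lit 17850124947) (nat_lit 76) (nat_lit 2241937898) (nat_lit 335) (nat_lit 5) (nat_lit 346) (nat_lit 5) (nat_lit 336) (nat_lit 5) (nat_lit 634) (nat_lit 589) (nat_lit 337)) (XT.nd (nat_lit 78) (nat_lit 684) (nat_lit 0) (XT.lf (nat_lit 0) (nat_lit 9456527705) (nat_lit 836) (nat_lit 3331457477) (nat_lit 76) (nat_lit 13287189310) (nat_lit 335) (nat_lit 5) (nat_lit 346) (nat_lit 5) (nat_lit 336) (nat_lit 5) (nat_lit 635) (nat_lit 589) (nat_lit 336)) (XT.lf (nat_lit 0) (nat_lit 11626447561) (nat_lit 684) (nat_lit 1743091350) (nat_lit 760) (nat_lit 13001996575) (nat_lit 326) (nat_lit 5) (nat_lit 335) (nat_lit 5) (nat_lit 336) (nat_lit 5) (nat_lit 636) (nat_lit 589) (nat_lit 335)))) (XT.nd (nat_lit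 156) (nat_lit 684) (nat_lit 0) (XT.nd (nat_lit 78) (nat_lit 0) (nat_lit 0) (XT.lf (nat_lit 0) (nat_lit 192183060) (nat_lit 684) (nat_lit 17251075352) (nat_lit 760) (nat_lit 9228916481) (nat_lit 317) (nat_lit 5) (nat_lit 326) (nat_lit 5) (nat_lit 327) (nat_lit 5) (nat_lit 637) (nat_lit 589) (nat_lit 334)) (XT.lf (nat_lit 0) (nat_lit 15612745381) (nat_lit 684) (nat_lit 6093028475) (nat_lit 760) (nat_lit 5270906956) (nat_lit 317) (nat_lit 5) (nat_lit 326) (nat_lit 5) (nat_lit 327) (nat_lit 5) (nat_lit 638) (nat_lit 589) (nat_lit 333))) (XT.nd (nat_lit 78) (nat_lit 76) (nat_lit 0) (XT.lf (nat_lit 0) (nat_lit 4069868009) (nat_lit 608) (nat_lit 22041394031) (nat_lit 684) (nat_lit 1174860510) (nat_lit 309) (nat_lit 5) (nat_lit 317) (nat_lit 5) (nat_lit 318) (nat_lit 5) (nat_lit 639) (nat_lit 589) (nat_lit 332)) (XT.lf (nat_lit 0) (nat_lit 3077814742) (nat_lit 684) (nat_lit 7697826929) (nat_lit 76) (nat_lit 16823439749) (nat_lit 308) (nat_lit 5) (nat_lit 317) (nat_lit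 5) (nat_lit 309) (nat_lit 5) (nat_lit 640) (nat_lit 589) (nat_lit 331))))) (XT.nd (nat_lit 312) (nat_lit 1292) (nat_lit 0) (XT.nd (nat_lit 156) (nat_lit 1216) (nat_lit 0) (XT.nd (nat_lit 78) (nat_lit 0) (nat_lit 0) (XT.lf (nat_lit 0) (nat_lit 7455331018) (nat_lit 760) (nat_lit 19694649003) (nat_lit 76) (nat_lit 767053896) (nat_lit 299) (nat_lit 5) (nat_lit 309) (nat_lit 5) (nat_lit 300) (nat_lit 5) (nat_lit 641) (nat_lit 589) (nat_lit 330)) (XT.lf (nat_lit 0) (nat_lit 12040828343) (nat_lit 760) (nat_lit 3750262485) (nat_lit 76) (nat_lit 12447846159) (nat_lit 299) (nat_lit 5) (nat_lit 309) (nat_lit 5) (nat_lit 300) (nat_lit 5) (nat_lit 642) (nat_lit 589) (nat_lit 329))) (XT.nd (nat_lit 78) (nat_lit 608) (nat_lit 0) (XT.lf (nat_lit 0) (nat_lit 12675733486) (nat_lit 608) (nat_lit 4121729134) (nat_lit 684) (nat_lit 11768227094) (nat_lit 291) (nat_lit 5) (nat_lit 299) (nat_lit 5) (nat_lit 300) (nat_lit 5) (nat_lit 643) (nat_lit 589) (nat_lit 328)) (XT.lf (nat_lit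 0) (nat_lit 535394349) (nat_lit 608) (nat_lit 21190320853) (nat_lit 684) (nat_lit 7171732715) (nat_lit 283) (nat_lit 5) (nat_lit 291) (nat_lit 5) (nat_lit 292) (nat_lit 5) (nat_lit 644) (nat_lit 589) (nat_lit 327)))) (XT.nd (nat_lit 156) (nat_lit 608) (nat_lit 0) (XT.nd (nat_lit 78) (nat_lit 684) (nat_lit 0) (XT.lf (nat_lit 0) (nat_lit 17473456635) (nat_lit 608) (nat_lit 9410012685) (nat_lit 684) (nat_lit 2349753366) (nat_lit 283) (nat_lit 5) (nat_lit 291) (nat_lit 5) (nat_lit 292) (nat_lit 5) (nat_lit 645) (nat_lit 589) (nat_lit 326)) (XT.lf (nat_lit 0) (nat_lit 2583363709) (nat_lit 684) (nat_lit 24369114101) (nat_lit 76) (nat_lit 2621933982) (nat_lit 274) (nat_lit 5) (nat_lit 283) (nat_lit 5) (nat_lit 275) (nat_lit 5) (nat_lit 646) (nat_lit 589) (nat_lit 325))) (XT.nd (nat_lit 78) (nat_lit 608) (nat_lit 0) (XT.lf (nat_lit 0) (nat_lit 7722717813) (nat_lit 684) (nat_lit 7333702676) (nat_lit 76) (nat_lit 14862912920) (nat_lit 274) (nat_lit 5) (nat_lit 283)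 (nat_lit 5) (nat_lit 275) (nat_lit 5) (nat_lit 647) (nat_lit 589) (nat_lit 324)) (XT.lf (nat_lit 0) (nat_lit 10172374740) (nat_lit 608) (nat_lit 2855837590) (nat_lit 684) (nat_lit 17241674183) (nat_lit 266) (nat_lit 5) (nat_lit 274) (nat_lit 5) (nat_lit 275) (nat_lit 5) (nat_lit 648) (nat_lit 589) (nat_lit 323))))))) (XT.nd (nat_lit 1170) (nat_lit 2204) (nat_lit 0) (XT.nd (nat_lit 546) (nat_lit 2508) (nat_lit 0) (XT.nd (nat_lit 234) (nat_lit 1140) (nat_lit 0) (XT.nd (nat_lit 78) (nat_lit 1064) (nat_lit 0) (XT.lf (nat_lit 0) (nat_lit 18548945265) (nat_lit 684) (nat_lit 2564545318) (nat_lit 76) (nat_lit 9511777644) (nat_lit 266) (nat_lit 5) (nat_lit 275) (nat_lit 5) (nat_lit 267) (nat_lit 5) (nat_lit 649) (nat_lit 589) (nat_lit 322)) (XT.nd (nat_lit 78) (nat_lit 532) (nat_lit 0) (XT.lf (nat_lit 0) (nat_lit 15500041316) (nat_lit 532) (nat_lit 8796986255) (nat_lit 608) (nat_lit 6688391426) (nat_lit 259) (nat_lit 5) (nat_lit 266) (nat_lit 5) (nat_lit 267) (nat_lit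 5) (nat_lit 650) (nat_lit 589) (nat_lit 321)) (XT.lf (nat_lit 0) (nat_lit 2614543734) (nat_lit 532) (nat_lit 27601686314) (nat_lit 608) (nat_lit 1135419679) (nat_lit 252) (nat_lit 5) (nat_lit 259) (nat_lit 5) (nat_lit 260) (nat_lit 5) (nat_lit 651) (nat_lit 589) (nat_lit 320)))) (XT.nd (nat_lit 156) (nat_lit 532) (nat_lit 0) (XT.nd (nat_lit 78) (nat_lit 532) (nat_lit 0) (XT.lf (nat_lit 0) (nat_lit 4629500274) (nat_lit 608) (nat_lit 10528552013) (nat_lit 76) (nat_lit 16563359191) (nat_lit 251) (nat_lit 5) (nat_lit 259) (nat_lit 5) (nat_lit 252) (nat_lit 5) (nat_lit 652) (nat_lit 589) (nat_lit 319)) (XT.lf (nat_lit 0) (nat_lit 8140031218) (nat_lit 532) (nat_lit 2404820328) (nat_lit 608) (nat_lit 21552560200) (nat_lit 244) (nat_lit 5) (nat_lit 251) (nat_lit 5) (nat_lit 252) (nat_lit 5) (nat_lit 653) (nat_lit 589) (nat_lit 318))) (XT.nd (nat_lit 78) (nat_lit 532) (nat_lit 0) (XT.lf (nat_lit 0) (nat_lit 16715968367) (nat_lit 608) (nat_lit 5227531045) (nat_lit 76)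 (nat_lit 10534683542) (nat_lit 244) (nat_lit 5) (nat_lit 252) (nat_lit 5) (nat_lit 245) (nat_lit 5) (nat_lit 654) (nat_lit 589) (nat_lit 317)) (XT.lf (nat_lit 0) (nat_lit 14041814328) (nat_lit 532) (nat_lit 9073330776) (nat_lit 608) (nat_lit 9749331833) (nat_lit 237) (nat_lit 5) (nat_lit 244) (nat_lit 5) (nat_lit 245) (nat_lit 5) (nat_lit 655) (nat_lit 589) (nat_lit 316))))) (XT.nd (nat_lit 312) (nat_lit 1444) (nat_lit 0) (XT.nd (nat_lit 156) (nat_lit 532) (nat_lit 0) (XT.nd (nat_lit 78) (nat_lit 76) (nat_lit 0) (XT.lf (nat_lit 0) (nat_lit 486074691) (nat_lit 456) (nat_lit 29218584998) (nat_lit 532) (nat_lit 3552590126) (nat_lit 231) (nat_lit 5) (nat_lit 237) (nat_lit 5) (nat_lit 238) (nat_lit 5) (nat_lit 656) (nat_lit 589) (nat_lit 315)) (XT.lf (nat_lit 0) (nat_lit 2916591036) (nat_lit 532) (nat_lit 13301483432) (nat_lit 76) (nat_lit 17435748164) (nat_lit 230) (nat_lit 5) (nat_lit 237) (nat_lit 5) (nat_lit 231) (nat_lit 5) (nat_lit 657) (nat_lit 589) (nat_lit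 314))) (XT.nd (nat_lit 78) (nat_lit 0) (nat_lit 0) (XT.lf (nat_lit 0) (nat_lit 6617564241) (nat_lit 532) (nat_lit 2890653881) (nat_lit 608) (nat_lit 24548826595) (nat_lit 223) (nat_lit 5) (nat_lit 230) (nat_lit 5) (nat_lit 231) (nat_lit 5) (nat_lit 658) (nat_lit 589) (nat_lit 313)) (XT.lf (nat_lit 0) (nat_lit 16388662584) (nat_lit 608) (nat_lit 7424652954) (nat_lit 76) (nat_lit 10651876104) (nat_lit 223) (nat_lit 5) (nat_lit 231) (nat_lit 5) (nat_lit 224) (nat_lit 5) (nat_lit 659) (nat_lit 589) (nat_lit 312)))) (XT.nd (nat_lit 156) (nat_lit 988) (nat_lit 0) (XT.nd (nat_lit 78) (nat_lit 0) (nat_lit 0) (XT.lf (nat_lit 0) (nat_lit 13140410945) (nat_lit 456) (nat_lit 10368451648) (nat_lit 532) (nat_lit 11370596071) (nat_lit 217) (nat_lit 5) (nat_lit 223) (nat_lit 5) (nat_lit 224) (nat_lit 5) (nat_lit 660) (nat_lit 589) (nat_lit 311)) (XT.lf (nat_lit 0) (nat_lit 30841045063) (nat_lit 532) (nat_lit 1108919166) (nat_lit 76) (nat_lit 3350655318) (nat_lit 217) (nat_lit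 5) (nat_lit 224) (nat_lit 5) (nat_lit 218) (nat_lit 5) (nat_lit 661) (nat_lit 589) (nat_lit 310))) (XT.nd (nat_lit 78) (nat_lit 456) (nat_lit 0) (XT.lf (nat_lit 0) (nat_lit 2754094780) (nat_lit 532) (nat_lit 15618489388) (nat_lit 76) (nat_lit 17353315464) (nat_lit 210) (nat_lit 5) (nat_lit 217) (nat_lit 5) (nat_lit 211) (nat_lit 5) (nat_lit 662) (nat_lit 589) (nat_lit 309)) (XT.lf (nat_lit 0) (nat_lit 5644792538) (nat_lit 456) (nat_lit 4449486242) (nat_lit 532) (nat_lit 26063977967) (nat_lit 204) (nat_lit 5) (nat_lit 210) (nat_lit 5) (nat_lit 211) (nat_lit 5) (nat_lit 663) (nat_lit 589) (nat_lit 308)))))) (XT.nd (nat_lit 546) (nat_lit 456) (nat_lit 0) (XT.nd (nat_lit 234) (nat_lit 1292) (nat_lit 0) (XT.nd (nat_lit 78) (nat_lit 456) (nat_lit 0) (XT.lf (nat_lit 0) (nat_lit 17747861383) (nat_lit 532) (nat_lit 9119358426) (nat_lit 76) (nat_lit 9728709380) (nat_lit 204) (nat_lit 5) (nat_lit 211) (nat_lit 5) (nat_lit 205) (nat_lit 5) (nat_lit 664) (nat_lit 589)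 (nat_lit 307)) (XT.nd (nat_lit 78) (nat_lit 0) (nat_lit 0) (XT.lf (nat_lit 0) (nat_lit 12838368226) (nat_lit 456) (nat_lit 12826788638) (nat_lit 532) (nat_lit 11374985474) (nat_lit 198) (nat_lit 5) (nat_lit 204) (nat_lit 5) (nat_lit 205) (nat_lit 5) (nat_lit 665) (nat_lit 589) (nat_lit 306)) (XT.lf (nat_lit 0) (nat_lit 33809937272) (nat_lit 532) (nat_lit 2146447253) (nat_lit 76) (nat_lit 1535472523) (nat_lit 198) (nat_lit 5) (nat_lit 205) (nat_lit 5) (nat_lit 199) (nat_lit 5) (nat_lit 666) (nat_lit 589) (nat_lit 305)))) (XT.nd (nat_lit 156) (nat_lit 380) (nat_lit 0) (XT.nd (nat_lit 78) (nat_lit 456) (nat_lit 0) (XT.lf (nat_lit 0) (nat_lit 4327938857) (nat_lit 456) (nat_lit 17445571586) (nat_lit 76) (nat_lit 16174203717) (nat_lit 192) (nat_lit 5) (nat_lit 198) (nat_lit 5) (nat_lit 193) (nat_lit 5) (nat_lit 667) (nat_lit 589) (nat_lit 304)) (XT.lf (nat_lit 0) (nat_lit 5261796958) (nat_lit 456) (nat_lit 7233490144) (nat_lit 532) (nat_lit 25915982772) (nat_lit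 186) (nat_lit 5) (nat_lit 192) (nat_lit 5) (nat_lit 193) (nat_lit 5) (nat_lit 668) (nat_lit 589) (nat_lit 303))) (XT.nd (nat_lit 78) (nat_lit 380) (nat_lit 0) (XT.lf (nat_lit 0) (nat_lit 20991053132) (nat_lit 532) (nat_lit 10275213065) (nat_lit 76) (nat_lit 7614529161) (nat_lit 186) (nat_lit 5) (nat_lit 193) (nat_lit 5) (nat_lit 187) (nat_lit 5) (nat_lit 669) (nat_lit 589) (nat_lit 302)) (XT.lf (nat_lit 0) (nat_lit 13178378872) (nat_lit 380) (nat_lit 16609763130) (nat_lit 456) (nat_lit 9568941273) (nat_lit 181) (nat_lit 5) (nat_lit 186) (nat_lit 5) (nat_lit 187) (nat_lit 5) (nat_lit 670) (nat_lit 589) (nat_lit 301))))) (XT.nd (nat_lit 75036) (nat_lit 0) (nat_lit 24396) (XT.nd (nat_lit 74880) (nat_lit 0) (nat_lit 24396) (XT.nd (nat_lit 78) (nat_lit 456) (nat_lit 0) (XT.lf (nat_lit 0) (nat_lit 37237260158) (nat_lit 380) (nat_lit 1590825885) (nat_lit 456) (nat_lit 1013472710) (nat_lit 181) (nat_lit 5) (nat_lit 186) (nat_lit 5) (nat_lit 187) (nat_lit 5) (nat_lit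 671) (nat_lit 589) (nat_lit 300)) (XT.lf (nat_lit 0) (nat_lit 7841039514) (nat_lit 456) (nat_lit 18749613537) (nat_lit 76) (nat_lit 13739487325) (nat_lit 175) (nat_lit 5) (nat_lit 181) (nat_lit 5) (nat_lit 176) (nat_lit 5) (nat_lit 672) (nat_lit 589) (nat_lit 299))) (XT.nd (nat_lit 78) (nat_lit 0) (nat_lit 0) (XT.lf (nat_lit 0) (nat_lit 2796255480) (nat_lit 0) (nat_lit 2796255480) (nat_lit 1748) (nat_lit 2612769277) (nat_lit 496) (nat_lit 5) (nat_lit 496) (nat_lit 3) (nat_lit 519) (nat_lit 3) (nat_lit 590) (nat_lit 590) (nat_lit 380)) (XT.lf (nat_lit 0) (nat_lit 11559836645) (nat_lit 1748) (nat_lit 2691983702) (nat_lit 1824) (nat_lit 2317571020) (nat_lit 496) (nat_lit 5) (nat_lit 519) (nat_lit 3) (nat_lit 520) (nat_lit 5) (nat_lit 591) (nat_lit 590) (nat_lit 379)))) (XT.nd (nat_lit 156) (nat_lit 0) (nat_lit 76) (XT.nd (nat_lit 78) (nat_lit 0) (nat_lit 76) (XT.lf (nat_lit 76) (nat_lit 5630005153) (nat_lit 0) (nat_lit 6379256111) (nat_lit 1824) (nat_lit 4720795741)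 (nat_lit 497) (nat_lit 5) (nat_lit 496) (nat_lit 5) (nat_lit 520) (nat_lit 5) (nat_lit 592) (nat_lit 590) (nat_lit 378)) (XT.lf (nat_lit 0) (nat_lit 12490224339) (nat_lit 1748) (nat_lit 2753012994) (nat_lit 1824) (nat_lit 1650248021) (nat_lit 497) (nat_lit 5) (nat_lit 520) (nat_lit 5) (nat_lit 521) (nat_lit 5) (nat_lit 593) (nat_lit 590) (nat_lit 377))) (XT.nd (nat_lit 78) (nat_lit 0) (nat_lit 76) (XT.lf (nat_lit 76) (nat_lit 5791216678) (nat_lit 0) (nat_lit 7263209574) (nat_lit 1824) (nat_lit 4004284016) (nat_lit 498) (nat_lit 5) (nat_lit 497) (nat_lit 5) (nat_lit 521) (nat_lit 5) (nat_lit 594) (nat_lit 590) (nat_lit 376)) (XT.lf (nat_lit 0) (nat_lit 13648088747) (nat_lit 1748) (nat_lit 2692607849) (nat_lit 1824) (nat_lit 886179934) (nat_lit 498) (nat_lit 5) (nat_lit 521) (nat_lit 5) (nat_lit 522) (nat_lit 5) (nat_lit 595) (nat_lit 590) (nat_lit 375))))))))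
noncomputable def xc204 : XT := (XT.nd (nat_lit 2262) (nat_lit 11172) (nat_lit 0) (XT.nd (nat_lit 1092) (nat_lit 5928) (nat_lit 0) (XT.nd (nat_lit 546) (nat_lit 0) (nat_lit 76) (XT.nd (nat_lit 234) (nat_lit 1672) (nat_lit 0) (XT.nd (nat_lit 78) (nat_lit 0) (nat_lit 76) (XT.lf (nat_lit 76) (nat_lit 6081936875) (nat_lit 0) (nat_lit 8253285859) (nat_lit 1824) (nat_lit 3061551793) (nat_lit 499) (nat_lit 5) (nat_lit 498) (nat_lit 5) (nat_lit 522) (nat_lit 5) (nat_lit 596) (nat_lit 590) (nat_lit 374)) (XT.nd (nat_lit 78) (nat_lit 0) (nat_lit 0) (XT.lf (nat_lit 0) (nat_lit 15048381172) (nat_lit 1748) (nat_lit 2504945079) (nat_lit 1824) (nat_lit 16498963) (nat_lit 499) (nat_lit 5) (nat_lit 522) (nat_lit 5) (nat_lit 523) (nat_lit 5) (nat_lit 597) (nat_lit 590) (nat_lit 373)) (XT.lf (nat_lit 76) (nat_lit 6508301635) (nat_lit 0) (nat_lit 9358650258) (nat_lit 1824) (nat_lit 1877562399) (nat_lit 500) (nat_lit 5) (nat_lit 499) (nat_lit 5) (nat_lit 523) (nat_lit 5) (nat_lit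 598) (nat_lit 590) (nat_lit 372)))) (XT.nd (nat_lit 156) (nat_lit 1748) (nat_lit 0) (XT.nd (nat_lit 78) (nat_lit 0) (nat_lit 76) (XT.lf (nat_lit 76) (nat_lit 15732248054) (nat_lit 0) (nat_lit 980781030) (nat_lit 1824) (nat_lit 1209445718) (nat_lit 500) (nat_lit 5) (nat_lit 499) (nat_lit 5) (nat_lit 523) (nat_lit 5) (nat_lit 599) (nat_lit 590) (nat_lit 371)) (XT.lf (nat_lit 76) (nat_lit 7076800987) (nat_lit 0) (nat_lit 10588739348) (nat_lit 1824) (nat_lit 436664284) (nat_lit 501) (nat_lit 5) (nat_lit 500) (nat_lit 5) (nat_lit 524) (nat_lit 5) (nat_lit 600) (nat_lit 590) (nat_lit 370))) (XT.nd (nat_lit 78) (nat_lit 0) (nat_lit 76) (XT.lf (nat_lit 0) (nat_lit 362751742) (nat_lit 1824) (nat_lit 1738878527) (nat_lit 1900) (nat_lit 16183537643) (nat_lit 476) (nat_lit 5) (nat_lit 500) (nat_lit 5) (nat_lit 501) (nat_lit 5) (nat_lit 601) (nat_lit 590) (nat_lit 369)) (XT.lf (nat_lit 0) (nat_lit 1260685865) (nat_lit 1824) (nat_lit 10684136090) (nat_lit 1900) (nat_lit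 6525143581) (nat_lit 477) (nat_lit 5) (nat_lit 501) (nat_lit 5) (nat_lit 502) (nat_lit 5) (nat_lit 602) (nat_lit 590) (nat_lit 368))))) (XT.nd (nat_lit 234) (nat_lit 0) (nat_lit 152) (XT.nd (nat_lit 78) (nat_lit 0) (nat_lit 76) (XT.lf (nat_lit 0) (nat_lit 2196944764) (nat_lit 1824) (nat_lit 1151268716) (nat_lit 1900) (nat_lit 15309838628) (nat_lit 477) (nat_lit 5) (nat_lit 501) (nat_lit 5) (nat_lit 502) (nat_lit 5) (nat_lit 603) (nat_lit 590) (nat_lit 367)) (XT.nd (nat_lit 78) (nat_lit 0) (nat_lit 0) (XT.lf (nat_lit 0) (nat_lit 3238683727) (nat_lit 1824) (nat_lit 10201902701) (nat_lit 1900) (nat_lit 5407579200) (nat_lit 478) (nat_lit 5) (nat_lit 502) (nat_lit 5) (nat_lit 503) (nat_lit 5) (nat_lit 604) (nat_lit 590) (nat_lit 366)) (XT.lf (nat_lit 0) (nat_lit 4326102576) (nat_lit 1824) (nat_lit 412468501) (nat_lit 1900) (nat_lit 14303013745) (nat_lit 478) (nat_lit 5) (nat_lit 502) (nat_lit 5) (nat_lit 503) (nat_lit 5) (nat_lit 605) (nat_lit 590) (nat_lit 365))))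 (XT.nd (nat_lit 156) (nat_lit 0) (nat_lit 76) (XT.nd (nat_lit 78) (nat_lit 0) (nat_lit 0) (XT.lf (nat_lit 0) (nat_lit 5520508985) (nat_lit 1824) (nat_lit 9568675480) (nat_lit 1900) (nat_lit 4147983452) (nat_lit 479) (nat_lit 5) (nat_lit 503) (nat_lit 5) (nat_lit 504) (nat_lit 5) (nat_lit 606) (nat_lit 590) (nat_lit 364)) (XT.lf (nat_lit 76) (nat_lit 491421958) (nat_lit 0) (nat_lit 6279818271) (nat_lit 1900) (nat_lit 12664774007) (nat_lit 480) (nat_lit 5) (nat_lit 479) (nat_lit 5) (nat_lit 504) (nat_lit 5) (nat_lit 607) (nat_lit 590) (nat_lit 363))) (XT.nd (nat_lit 78) (nat_lit 0) (nat_lit 0) (XT.lf (nat_lit 0) (nat_lit 8124348713) (nat_lit 1824) (nat_lit 8776879397) (nat_lit 1900) (nat_lit 2736062407) (nat_lit 480) (nat_lit 5) (nat_lit 504) (nat_lit 5) (nat_lit 505) (nat_lit 5) (nat_lit 608) (nat_lit 590) (nat_lit 362)) (XT.lf (nat_lit 76) (nat_lit 1569496786) (nat_lit 0) (nat_lit 7982055015) (nat_lit 1900) (nat_lit 10290100157) (nat_lit 481) (nat_lit 5) (nat_lit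 480) (nat_lit 5) (nat_lit 505) (nat_lit 5) (nat_lit 609) (nat_lit 590) (nat_lit 361)))))) (XT.nd (nat_lit 546) (nat_lit 4560) (nat_lit 0) (XT.nd (nat_lit 234) (nat_lit 1748) (nat_lit 0) (XT.nd (nat_lit 78) (nat_lit 0) (nat_lit 0) (XT.lf (nat_lit 0) (nat_lit 11069158939) (nat_lit 1824) (nat_lit 7818545028) (nat_lit 1900) (nat_lit 1161159739) (nat_lit 481) (nat_lit 5) (nat_lit 505) (nat_lit 5) (nat_lit 506) (nat_lit 5) (nat_lit 610) (nat_lit 590) (nat_lit 360)) (XT.nd (nat_lit 78) (nat_lit 0) (nat_lit 0) (XT.lf (nat_lit 76) (nat_lit 2824632248) (nat_lit 0) (nat_lit 9859108102) (nat_lit 1900) (nat_lit 7575147170) (nat_lit 482) (nat_lit 5) (nat_lit 481) (nat_lit 5) (nat_lit 506) (nat_lit 5) (nat_lit 611) (nat_lit 590) (nat_lit 359)) (XT.lf (nat_lit 76) (nat_lit 13782990437) (nat_lit 0) (nat_lit 595576935) (nat_lit 1900) (nat_lit 6093585624) (nat_lit 482) (nat_lit 5) (nat_lit 481) (nat_lit 5) (nat_lit 506) (nat_lit 5) (nat_lit 612) (nat_lit 590) (nat_lit 358))))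 (XT.nd (nat_lit 156) (nat_lit 1824) (nat_lit 0) (XT.nd (nat_lit 78) (nat_lit 0) (nat_lit 0) (XT.lf (nat_lit 76) (nat_lit 4265607872) (nat_lit 0) (nat_lit 11922440535) (nat_lit 1900) (nat_lit 4500020487) (nat_lit 483) (nat_lit 5) (nat_lit 482) (nat_lit 5) (nat_lit 507) (nat_lit 5) (nat_lit 613) (nat_lit 590) (nat_lit 357)) (XT.lf (nat_lit 76) (nat_lit 15522487353) (nat_lit 0) (nat_lit 2555681945) (nat_lit 1900) (nat_lit 2829245063) (nat_lit 483) (nat_lit 5) (nat_lit 482) (nat_lit 5) (nat_lit 507) (nat_lit 5) (nat_lit 614) (nat_lit 590) (nat_lit 356))) (XT.nd (nat_lit 78) (nat_lit 76) (nat_lit 0) (XT.lf (nat_lit 0) (nat_lit 5901639083) (nat_lit 1824) (nat_lit 14183943197) (nat_lit 1900) (nat_lit 1043974917) (nat_lit 459) (nat_lit 5) (nat_lit 483) (nat_lit 5) (nat_lit 484) (nat_lit 5) (nat_lit 615) (nat_lit 590) (nat_lit 355)) (XT.lf (nat_lit 0) (nat_lit 815875966) (nat_lit 1900) (nat_lit 3894412355) (nat_lit 76) (nat_lit 16644772597) (nat_lit 458) (nat_lit 5)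 (nat_lit 483) (nat_lit 5) (nat_lit 459) (nat_lit 5) (nat_lit 616) (nat_lit 590) (nat_lit 354))))) (XT.nd (nat_lit 312) (nat_lit 2584) (nat_lit 0) (XT.nd (nat_lit 156) (nat_lit 912) (nat_lit 0) (XT.nd (nat_lit 78) (nat_lit 0) (nat_lit 0) (XT.lf (nat_lit 0) (nat_lit 2777709891) (nat_lit 1140) (nat_lit 13859609516) (nat_lit 76) (nat_lit 4946042234) (nat_lit 444) (nat_lit 5) (nat_lit 459) (nat_lit 5) (nat_lit 445) (nat_lit 5) (nat_lit 617) (nat_lit 590) (nat_lit 353)) (XT.lf (nat_lit 0) (nat_lit 4832190902) (nat_lit 1140) (nat_lit 2223705102) (nat_lit 76) (nat_lit 14759264397) (nat_lit 444) (nat_lit 5) (nat_lit 459) (nat_lit 5) (nat_lit 445) (nat_lit 5) (nat_lit 618) (nat_lit 590) (nat_lit 352))) (XT.nd (nat_lit 78) (nat_lit 0) (nat_lit 0) (XT.lf (nat_lit 0) (nat_lit 7005245189) (nat_lit 988) (nat_lit 12299055499) (nat_lit 76) (nat_lit 2745745004) (nat_lit 432) (nat_lit 5) (nat_lit 445) (nat_lit 5) (nat_lit 433) (nat_lit 5) (nat_lit 619) (nat_lit 590) (nat_lit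 351)) (XT.lf (nat_lit 0) (nat_lit 9279556907) (nat_lit 988) (nat_lit 344521713) (nat_lit 76) (nat_lit 12664394365) (nat_lit 432) (nat_lit 5) (nat_lit 445) (nat_lit 5) (nat_lit 433) (nat_lit 5) (nat_lit 620) (nat_lit 590) (nat_lit 350)))) (XT.nd (nat_lit 156) (nat_lit 836) (nat_lit 0) (XT.nd (nat_lit 78) (nat_lit 836) (nat_lit 0) (XT.lf (nat_lit 0) (nat_lit 11675550020) (nat_lit 988) (nat_lit 10529419061) (nat_lit 76) (nat_lit 325176060) (nat_lit 420) (nat_lit 5) (nat_lit 433) (nat_lit 5) (nat_lit 421) (nat_lit 5) (nat_lit 621) (nat_lit 590) (nat_lit 349)) (XT.lf (nat_lit 0) (nat_lit 1776827649) (nat_lit 836) (nat_lit 12416413710) (nat_lit 912) (nat_lit 8581934026) (nat_lit 409) (nat_lit 5) (nat_lit 420) (nat_lit 5) (nat_lit 421) (nat_lit 5) (nat_lit 622) (nat_lit 590) (nat_lit 348))) (XT.nd (nat_lit 78) (nat_lit 836) (nat_lit 0) (XT.lf (nat_lit 0) (nat_lit 14468283235) (nat_lit 836) (nat_lit 2359891655) (nat_lit 912) (nat_lit 6195593789) (nat_lit 409) (nat_lit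 5) (nat_lit 420) (nat_lit 5) (nat_lit 421) (nat_lit 5) (nat_lit 623) (nat_lit 590) (nat_lit 347)) (XT.lf (nat_lit 0) (nat_lit 4135546483) (nat_lit 836) (nat_lit 15454693947) (nat_lit 912) (nat_lit 3685604947) (nat_lit 398) (nat_lit 5) (nat_lit 409) (nat_lit 5) (nat_lit 410) (nat_lit 5) (nat_lit 624) (nat_lit 590) (nat_lit 346))))))) (XT.nd (nat_lit 1092) (nat_lit 5016) (nat_lit 0) (XT.nd (nat_lit 546) (nat_lit 2888) (nat_lit 0) (XT.nd (nat_lit 234) (nat_lit 2356) (nat_lit 0) (XT.nd (nat_lit 78) (nat_lit 912) (nat_lit 0) (XT.lf (nat_lit 0) (nat_lit 17176910249) (nat_lit 836) (nat_lit 5299928487) (nat_lit 912) (nat_lit 1054739247) (nat_lit 398) (nat_lit 5) (nat_lit 409) (nat_lit 5) (nat_lit 410) (nat_lit 5) (nat_lit 625) (nat_lit 590) (nat_lit 345)) (XT.nd (nat_lit 78) (nat_lit 0) (nat_lit 0) (XT.lf (nat_lit 0) (nat_lit 1680882364) (nat_lit 912) (nat_lit 17063434439) (nat_lit 76) (nat_lit 5046427138) (nat_lit 386) (nat_lit 5) (nat_lit 398) (nat_lit 5) (nat_lit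 387) (nat_lit 5) (nat_lit 626) (nat_lit 590) (nat_lit 344)) (XT.lf (nat_lit 0) (nat_lit 4531579902) (nat_lit 912) (nat_lit 3943190002) (nat_lit 76) (nat_lit 15578694339) (nat_lit 386) (nat_lit 5) (nat_lit 398) (nat_lit 5) (nat_lit 387) (nat_lit 5) (nat_lit 627) (nat_lit 590) (nat_lit 343)))) (XT.nd (nat_lit 156) (nat_lit 1520) (nat_lit 0) (XT.nd (nat_lit 78) (nat_lit 0) (nat_lit 0) (XT.lf (nat_lit 0) (nat_lit 7511284918) (nat_lit 912) (nat_lit 14772384170) (nat_lit 76) (nat_lit 2036330180) (nat_lit 375) (nat_lit 5) (nat_lit 387) (nat_lit 5) (nat_lit 376) (nat_lit 5) (nat_lit 628) (nat_lit 590) (nat_lit 342)) (XT.lf (nat_lit 0) (nat_lit 10629907333) (nat_lit 912) (nat_lit 1289569935) (nat_lit 76) (nat_lit 12670801442) (nat_lit 375) (nat_lit 5) (nat_lit 387) (nat_lit 5) (nat_lit 376) (nat_lit 5) (nat_lit 629) (nat_lit 590) (nat_lit 341))) (XT.nd (nat_lit 78) (nat_lit 760) (nat_lit 0) (XT.lf (nat_lit 0) (nat_lit 12624927904) (nat_lit 760) (nat_lit 1264573969)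 (nat_lit 836) (nat_lit 10974890053) (nat_lit 365) (nat_lit 5) (nat_lit 375) (nat_lit 5) (nat_lit 376) (nat_lit 5) (nat_lit 630) (nat_lit 590) (nat_lit 340)) (XT.lf (nat_lit 0) (nat_lit 1646980216) (nat_lit 760) (nat_lit 15645736337) (nat_lit 836) (nat_lit 7849702466) (nat_lit 355) (nat_lit 5) (nat_lit 365) (nat_lit 5) (nat_lit 366) (nat_lit 5) (nat_lit 631) (nat_lit 590) (nat_lit 339))))) (XT.nd (nat_lit 234) (nat_lit 2128) (nat_lit 0) (XT.nd (nat_lit 78) (nat_lit 760) (nat_lit 0) (XT.lf (nat_lit 0) (nat_lit 15965007257) (nat_lit 760) (nat_lit 4886155295) (nat_lit 836) (nat_lit 4573100934) (nat_lit 355) (nat_lit 5) (nat_lit 365) (nat_lit 5) (nat_lit 366) (nat_lit 5) (nat_lit 632) (nat_lit 590) (nat_lit 338)) (XT.nd (nat_lit 78) (nat_lit 76) (nat_lit 0) (XT.lf (nat_lit 0) (nat_lit 4878539485) (nat_lit 684) (nat_lit 19670220880) (nat_lit 760) (nat_lit 1161624988) (nat_lit 346) (nat_lit 5) (nat_lit 355) (nat_lit 5) (nat_lit 356) (nat_lit 5) (nat_lit 633) (nat_lit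 590) (nat_lit 337)) (XT.lf (nat_lit 0) (nat_lit 2380729859) (nat_lit 760) (nat_lit 6421057238) (nat_lit 76) (nat_lit 17198280685) (nat_lit 345) (nat_lit 5) (nat_lit 355) (nat_lit 5) (nat_lit 346) (nat_lit 5) (nat_lit 634) (nat_lit 590) (nat_lit 336)))) (XT.nd (nat_lit 156) (nat_lit 1368) (nat_lit 0) (XT.nd (nat_lit 78) (nat_lit 0) (nat_lit 0) (XT.lf (nat_lit 0) (nat_lit 6044875362) (nat_lit 836) (nat_lit 17932999549) (nat_lit 76) (nat_lit 2316185586) (nat_lit 335) (nat_lit 5) (nat_lit 346) (nat_lit 5) (nat_lit 336) (nat_lit 5) (nat_lit 635) (nat_lit 590) (nat_lit 335)) (XT.lf (nat_lit 0) (nat_lit 9880862874) (nat_lit 836) (nat_lit 3129333787) (nat_lit 76) (nat_lit 13581765381) (nat_lit 335) (nat_lit 5) (nat_lit 346) (nat_lit 5) (nat_lit 336) (nat_lit 5) (nat_lit 636) (nat_lit 590) (nat_lit 334))) (XT.nd (nat_lit 78) (nat_lit 684) (nat_lit 0) (XT.lf (nat_lit 0) (nat_lit 12125961241) (nat_lit 684) (nat_lit 1743294650) (nat_lit 760) (nat_lit 13025052164) (nat_lit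 326) (nat_lit 5) (nat_lit 335) (nat_lit 5) (nat_lit 336) (nat_lit 5) (nat_lit 637) (nat_lit 590) (nat_lit 333)) (XT.lf (nat_lit 0) (nat_lit 465658920) (nat_lit 684) (nat_lit 17556206691) (nat_lit 760) (nat_lit 9179146551) (nat_lit 317) (nat_lit 5) (nat_lit 326) (nat_lit 5) (nat_lit 327) (nat_lit 5) (nat_lit 638) (nat_lit 590) (nat_lit 332)))))) (XT.nd (nat_lit 546) (nat_lit 2432) (nat_lit 0) (XT.nd (nat_lit 234) (nat_lit 1900) (nat_lit 0) (XT.nd (nat_lit 78) (nat_lit 684) (nat_lit 0) (XT.lf (nat_lit 0) (nat_lit 16189345582) (nat_lit 684) (nat_lit 6175781036) (nat_lit 760) (nat_lit 5146571899) (nat_lit 317) (nat_lit 5) (nat_lit 326) (nat_lit 5) (nat_lit 327) (nat_lit 5) (nat_lit 639) (nat_lit 590) (nat_lit 331)) (XT.nd (nat_lit 78) (nat_lit 76) (nat_lit 0) (XT.lf (nat_lit 0) (nat_lit 4418105505) (nat_lit 608) (nat_lit 22438184084) (nat_lit 684) (nat_lit 971088420) (nat_lit 309) (nat_lit 5) (nat_lit 317) (nat_lit 5) (nat_lit 318) (nat_lit 5) (nat_lit 640) (nat_lit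 590) (nat_lit 330)) (XT.lf (nat_lit 0) (nat_lit 3359261843) (nat_lit 684) (nat_lit 7587242738) (nat_lit 76) (nat_lit 17200150131) (nat_lit 308) (nat_lit 5) (nat_lit 317) (nat_lit 5) (nat_lit 309) (nat_lit 5) (nat_lit 641) (nat_lit 590) (nat_lit 329)))) (XT.nd (nat_lit 156) (nat_lit 1216) (nat_lit 0) (XT.nd (nat_lit 78) (nat_lit 0) (nat_lit 0) (XT.lf (nat_lit 0) (nat_lit 7822018646) (nat_lit 760) (nat_lit 19821681140) (nat_lit 76) (nat_lit 827312874) (nat_lit 299) (nat_lit 5) (nat_lit 309) (nat_lit 5) (nat_lit 300) (nat_lit 5) (nat_lit 642) (nat_lit 590) (nat_lit 328)) (XT.lf (nat_lit 0) (nat_lit 12494959623) (nat_lit 760) (nat_lit 3563639458) (nat_lit 76) (nat_lit 12740840239) (nat_lit 299) (nat_lit 5) (nat_lit 309) (nat_lit 5) (nat_lit 300) (nat_lit 5) (nat_lit 643) (nat_lit 590) (nat_lit 327))) (XT.nd (nat_lit 78) (nat_lit 608) (nat_lit 0) (XT.lf (nat_lit 0) (nat_lit 13189155194) (nat_lit 608) (nat_lit 4155076239) (nat_lit 684) (nat_lit 11788545769) (nat_lit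 291) (nat_lit 5) (nat_lit 299) (nat_lit 5) (nat_lit 300) (nat_lit 5) (nat_lit 644) (nat_lit 590) (nat_lit 326)) (XT.lf (nat_lit 0) (nat_lit 808181248) (nat_lit 608) (nat_lit 21560748152) (nat_lit 684) (nat_lit 7102283757) (nat_lit 283) (nat_lit 5) (nat_lit 291) (nat_lit 5) (nat_lit 292) (nat_lit 5) (nat_lit 645) (nat_lit 590) (nat_lit 325))))) (XT.nd (nat_lit 312) (nat_lit 1140) (nat_lit 0) (XT.nd (nat_lit 156) (nat_lit 608) (nat_lit 0) (XT.nd (nat_lit 78) (nat_lit 684) (nat_lit 0) (XT.lf (nat_lit 0) (nat_lit 18079865976) (nat_lit 608) (nat_lit 9545880470) (nat_lit 684) (nat_lit 2188039009) (nat_lit 283) (nat_lit 5) (nat_lit 291) (nat_lit 5) (nat_lit 292) (nat_lit 5) (nat_lit 646) (nat_lit 590) (nat_lit 324)) (XT.lf (nat_lit 0) (nat_lit 2838992447) (nat_lit 684) (nat_lit 24594789714) (nat_lit 76) (nat_lit 2728029478) (nat_lit 274) (nat_lit 5) (nat_lit 283) (nat_lit 5) (nat_lit 275) (nat_lit 5) (nat_lit 647) (nat_lit 590) (nat_lit 323))) (XT.nd (nat_lit 78)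 (nat_lit 608) (nat_lit 0) (XT.lf (nat_lit 0) (nat_lit 8077134389) (nat_lit 684) (nat_lit 7223801564) (nat_lit 76) (nat_lit 15212775901) (nat_lit 274) (nat_lit 5) (nat_lit 283) (nat_lit 5) (nat_lit 275) (nat_lit 5) (nat_lit 648) (nat_lit 590) (nat_lit 322)) (XT.lf (nat_lit 0) (nat_lit 10630709407) (nat_lit 608) (nat_lit 2855763458) (nat_lit 684) (nat_lit 17384848649) (nat_lit 266) (nat_lit 5) (nat_lit 274) (nat_lit 5) (nat_lit 275) (nat_lit 5) (nat_lit 649) (nat_lit 590) (nat_lit 321)))) (XT.nd (nat_lit 156) (nat_lit 608) (nat_lit 0) (XT.nd (nat_lit 78) (nat_lit 532) (nat_lit 0) (XT.lf (nat_lit 0) (nat_lit 19114108101) (nat_lit 684) (nat_lit 2362425852) (nat_lit 76) (nat_lit 9757347328) (nat_lit 266) (nat_lit 5) (nat_lit 275) (nat_lit 5) (nat_lit 267) (nat_lit 5) (nat_lit 650) (nat_lit 590) (nat_lit 320)) (XT.lf (nat_lit 0) (nat_lit 16061785341) (nat_lit 532) (nat_lit 8913193668) (nat_lit 608) (nat_lit 6626299689) (nat_lit 259) (nat_lit 5) (nat_lit 266) (nat_lit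 5) (nat_lit 267) (nat_lit 5) (nat_lit 651) (nat_lit 590) (nat_lit 319))) (XT.nd (nat_lit 78) (nat_lit 76) (nat_lit 0) (XT.lf (nat_lit 0) (nat_lit 2920359690) (nat_lit 532) (nat_lit 28090467196) (nat_lit 608) (nat_lit 964042094) (nat_lit 252) (nat_lit 5) (nat_lit 259) (nat_lit 5) (nat_lit 260) (nat_lit 5) (nat_lit 652) (nat_lit 590) (nat_lit 318)) (XT.lf (nat_lit 0) (nat_lit 4909875089) (nat_lit 608) (nat_lit 10488065516) (nat_lit 76) (nat_lit 16954135432) (nat_lit 251) (nat_lit 5) (nat_lit 259) (nat_lit 5) (nat_lit 252) (nat_lit 5) (nat_lit 653) (nat_lit 590) (nat_lit 317))))))))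
noncomputable def xc205 : XT := (XT.nd (nat_lit 77064) (nat_lit 0) (nat_lit 14744) (XT.nd (nat_lit 1092) (nat_lit 1292) (nat_lit 0) (XT.nd (nat_lit 546) (nat_lit 1900) (nat_lit 0) (XT.nd (nat_lit 234) (nat_lit 1064) (nat_lit 0) (XT.nd (nat_lit 78) (nat_lit 532) (nat_lit 0) (XT.lf (nat_lit 0) (nat_lit 8552237684) (nat_lit 532) (nat_lit 2389232955) (nat_lit 608) (nat_lit 21794167083) (nat_lit 244) (nat_lit 5) (nat_lit 251) (nat_lit 5) (nat_lit 252) (nat_lit 5) (nat_lit 654) (nat_lit 590) (nat_lit 316)) (XT.nd (nat_lit 78) (nat_lit 532) (nat_lit 0) (XT.lf (nat_lit 0) (nat_lit 17232773557) (nat_lit 608) (nat_lit 5084322231) (nat_lit 76) (nat_lit 10806993444) (nat_lit 244) (nat_lit 5) (nat_lit 252) (nat_lit 5) (nat_lit 245) (nat_lit 5) (nat_lit 655) (nat_lit 590) (nat_lit 315)) (XT.lf (nat_lit 0) (nat_lit 14568780053) (nat_lit 532) (nat_lit 9189173659) (nat_lit 608) (nat_lit 9760195136) (nat_lit 237) (nat_lit 5) (nat_lit 244) (nat_lit 5) (nat_lit 245) (nat_lit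 5) (nat_lit 656) (nat_lit 590) (nat_lit 314)))) (XT.nd (nat_lit 156) (nat_lit 532) (nat_lit 0) (XT.nd (nat_lit 78) (nat_lit 76) (nat_lit 0) (XT.lf (nat_lit 0) (nat_lit 743476909) (nat_lit 456) (nat_lit 29734268178) (nat_lit 532) (nat_lit 3441062515) (nat_lit 231) (nat_lit 5) (nat_lit 237) (nat_lit 5) (nat_lit 238) (nat_lit 5) (nat_lit 657) (nat_lit 590) (nat_lit 313)) (XT.lf (nat_lit 0) (nat_lit 3151574672) (nat_lit 532) (nat_lit 13322334172) (nat_lit 76) (nat_lit 17849450124) (nat_lit 230) (nat_lit 5) (nat_lit 237) (nat_lit 5) (nat_lit 231) (nat_lit 5) (nat_lit 658) (nat_lit 590) (nat_lit 312))) (XT.nd (nat_lit 78) (nat_lit 0) (nat_lit 0) (XT.lf (nat_lit 0) (nat_lit 6993481435) (nat_lit 532) (nat_lit 2879670496) (nat_lit 608) (nat_lit 24861531351) (nat_lit 223) (nat_lit 5) (nat_lit 230) (nat_lit 5) (nat_lit 231) (nat_lit 5) (nat_lit 659) (nat_lit 590) (nat_lit 311)) (XT.lf (nat_lit 0) (nat_lit 16888216344) (nat_lit 608) (nat_lit 7331360162) (nat_lit 76) (nat_lit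 10931476553) (nat_lit 223) (nat_lit 5) (nat_lit 231) (nat_lit 5) (nat_lit 224) (nat_lit 5) (nat_lit 660) (nat_lit 590) (nat_lit 310))))) (XT.nd (nat_lit 234) (nat_lit 912) (nat_lit 0) (XT.nd (nat_lit 78) (nat_lit 532) (nat_lit 0) (XT.lf (nat_lit 0) (nat_lit 13643414318) (nat_lit 456) (nat_lit 10505597296) (nat_lit 532) (nat_lit 11424630116) (nat_lit 217) (nat_lit 5) (nat_lit 223) (nat_lit 5) (nat_lit 224) (nat_lit 5) (nat_lit 661) (nat_lit 590) (nat_lit 309)) (XT.nd (nat_lit 78) (nat_lit 532) (nat_lit 0) (XT.lf (nat_lit 0) (nat_lit 31624951950) (nat_lit 532) (nat_lit 892719780) (nat_lit 76) (nat_lit 3485611947) (nat_lit 217) (nat_lit 5) (nat_lit 224) (nat_lit 5) (nat_lit 218) (nat_lit 5) (nat_lit 662) (nat_lit 590) (nat_lit 308)) (XT.lf (nat_lit 0) (nat_lit 2975625335) (nat_lit 532) (nat_lit 15691831380) (nat_lit 76) (nat_lit 17769625651) (nat_lit 210) (nat_lit 5) (nat_lit 217) (nat_lit 5) (nat_lit 211) (nat_lit 5) (nat_lit 663) (nat_lit 590) (nat_lit 307))))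 (XT.nd (nat_lit 156) (nat_lit 456) (nat_lit 0) (XT.nd (nat_lit 78) (nat_lit 0) (nat_lit 0) (XT.lf (nat_lit 0) (nat_lit 5995143634) (nat_lit 456) (nat_lit 4465747399) (nat_lit 532) (nat_lit 26417230153) (nat_lit 204) (nat_lit 5) (nat_lit 210) (nat_lit 5) (nat_lit 211) (nat_lit 5) (nat_lit 664) (nat_lit 590) (nat_lit 306)) (XT.lf (nat_lit 0) (nat_lit 18264778296) (nat_lit 532) (nat_lit 9066173300) (nat_lit 76) (nat_lit 9993650941) (nat_lit 204) (nat_lit 5) (nat_lit 211) (nat_lit 5) (nat_lit 205) (nat_lit 5) (nat_lit 665) (nat_lit 590) (nat_lit 305))) (XT.nd (nat_lit 78) (nat_lit 0) (nat_lit 0) (XT.lf (nat_lit 0) (nat_lit 13329158067) (nat_lit 456) (nat_lit 13009605368) (nat_lit 532) (nat_lit 11438969756) (nat_lit 198) (nat_lit 5) (nat_lit 204) (nat_lit 5) (nat_lit 205) (nat_lit 5) (nat_lit 666) (nat_lit 590) (nat_lit 304)) (XT.lf (nat_lit 0) (nat_lit 34643765495) (nat_lit 532) (nat_lit 1957262633) (nat_lit 76) (nat_lit 1637507664) (nat_lit 198) (nat_lit 5) (nat_lit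 205) (nat_lit 5) (nat_lit 199) (nat_lit 5) (nat_lit 667) (nat_lit 590) (nat_lit 303)))))) (XT.nd (nat_lit 75348) (nat_lit 0) (nat_lit 23940) (XT.nd (nat_lit 234) (nat_lit 380) (nat_lit 0) (XT.nd (nat_lit 78) (nat_lit 456) (nat_lit 0) (XT.lf (nat_lit 0) (nat_lit 4571572428) (nat_lit 456) (nat_lit 17561803491) (nat_lit 76) (nat_lit 16570145446) (nat_lit 192) (nat_lit 5) (nat_lit 198) (nat_lit 5) (nat_lit 193) (nat_lit 5) (nat_lit 668) (nat_lit 590) (nat_lit 302)) (XT.nd (nat_lit 78) (nat_lit 0) (nat_lit 0) (XT.lf (nat_lit 0) (nat_lit 5598181638) (nat_lit 456) (nat_lit 7302506873) (nat_lit 532) (nat_lit 26275691374) (nat_lit 186) (nat_lit 5) (nat_lit 192) (nat_lit 5) (nat_lit 193) (nat_lit 5) (nat_lit 669) (nat_lit 590) (nat_lit 301)) (XT.lf (nat_lit 0) (nat_lit 21563802486) (nat_lit 532) (nat_lit 10251528172) (nat_lit 76) (nat_lit 7840016676) (nat_lit 186) (nat_lit 5) (nat_lit 193) (nat_lit 5) (nat_lit 187) (nat_lit 5) (nat_lit 670) (nat_lit 590) (nat_lit 300))))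 (XT.nd (nat_lit 74958) (nat_lit 0) (nat_lit 23940) (XT.nd (nat_lit 78) (nat_lit 0) (nat_lit 0) (XT.lf (nat_lit 0) (nat_lit 13669627780) (nat_lit 380) (nat_lit 16865685017) (nat_lit 456) (nat_lit 9605878724) (nat_lit 181) (nat_lit 5) (nat_lit 186) (nat_lit 5) (nat_lit 187) (nat_lit 5) (nat_lit 671) (nat_lit 590) (nat_lit 299)) (XT.lf (nat_lit 0) (nat_lit 38205222352) (nat_lit 380) (nat_lit 1547864583) (nat_lit 456) (nat_lit 882329051) (nat_lit 181) (nat_lit 5) (nat_lit 186) (nat_lit 5) (nat_lit 187) (nat_lit 5) (nat_lit 672) (nat_lit 590) (nat_lit 298))) (XT.nd (nat_lit 78) (nat_lit 0) (nat_lit 0) (XT.lf (nat_lit 0) (nat_lit 2975235080) (nat_lit 0) (nat_lit 2975235080) (nat_lit 1748) (nat_lit 2413978177) (nat_lit 496) (nat_lit 5) (nat_lit 496) (nat_lit 3) (nat_lit 519) (nat_lit 3) (nat_lit 591) (nat_lit 591) (nat_lit 378)) (XT.lf (nat_lit 0) (nat_lit 12272033434) (nat_lit 1748) (nat_lit 2493292107) (nat_lit 1824) (nat_lit 2125803601) (nat_lit 496) (nat_lit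 5) (nat_lit 519) (nat_lit 3) (nat_lit 520) (nat_lit 5) (nat_lit 592) (nat_lit 591) (nat_lit 377))))) (XT.nd (nat_lit 312) (nat_lit 0) (nat_lit 152) (XT.nd (nat_lit 156) (nat_lit 0) (nat_lit 76) (XT.nd (nat_lit 78) (nat_lit 0) (nat_lit 76) (XT.lf (nat_lit 76) (nat_lit 5993475135) (nat_lit 0) (nat_lit 6729168851) (nat_lit 1824) (nat_lit 4332520748) (nat_lit 497) (nat_lit 5) (nat_lit 496) (nat_lit 5) (nat_lit 520) (nat_lit 5) (nat_lit 593) (nat_lit 591) (nat_lit 376)) (XT.lf (nat_lit 0) (nat_lit 13202532745) (nat_lit 1748) (nat_lit 2551399931) (nat_lit 1824) (nat_lit 1468143422) (nat_lit 497) (nat_lit 5) (nat_lit 520) (nat_lit 5) (nat_lit 521) (nat_lit 5) (nat_lit 594) (nat_lit 591) (nat_lit 375))) (XT.nd (nat_lit 78) (nat_lit 0) (nat_lit 76) (XT.lf (nat_lit 76) (nat_lit 6162025693) (nat_lit 0) (nat_lit 7608579828) (nat_lit 1824) (nat_lit 3620148819) (nat_lit 498) (nat_lit 5) (nat_lit 497) (nat_lit 5) (nat_lit 521) (nat_lit 5) (nat_lit 595) (nat_lit 591) (nat_lit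 374)) (XT.lf (nat_lit 0) (nat_lit 14365944172) (nat_lit 1748) (nat_lit 2486250167) (nat_lit 1824) (nat_lit 710294086) (nat_lit 498) (nat_lit 5) (nat_lit 521) (nat_lit 5) (nat_lit 522) (nat_lit 5) (nat_lit 596) (nat_lit 591) (nat_lit 373)))) (XT.nd (nat_lit 156) (nat_lit 0) (nat_lit 76) (XT.nd (nat_lit 78) (nat_lit 0) (nat_lit 0) (XT.lf (nat_lit 76) (nat_lit 6462073545) (nat_lit 0) (nat_lit 8597702229) (nat_lit 1824) (nat_lit 2676150053) (nat_lit 499) (nat_lit 5) (nat_lit 498) (nat_lit 5) (nat_lit 522) (nat_lit 5) (nat_lit 597) (nat_lit 591) (nat_lit 372)) (XT.lf (nat_lit 76) (nat_lit 15619720014) (nat_lit 0) (nat_lit 158781383) (nat_lit 1824) (nat_lit 2134110584) (nat_lit 499) (nat_lit 5) (nat_lit 498) (nat_lit 5) (nat_lit 522) (nat_lit 5) (nat_lit 598) (nat_lit 591) (nat_lit 371))) (XT.nd (nat_lit 78) (nat_lit 0) (nat_lit 0) (XT.lf (nat_lit 76) (nat_lit 6899919128) (nat_lit 0) (nat_lit 9705796464) (nat_lit 1824) (nat_lit 1485234331) (nat_lit 500) (nat_lit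 5) (nat_lit 499) (nat_lit 5) (nat_lit 523) (nat_lit 5) (nat_lit 599) (nat_lit 591) (nat_lit 370)) (XT.lf (nat_lit 76) (nat_lit 16303217977) (nat_lit 0) (nat_lit 1157233122) (nat_lit 1824) (nat_lit 812184322) (nat_lit 500) (nat_lit 5) (nat_lit 499) (nat_lit 5) (nat_lit 523) (nat_lit 5) (nat_lit 600) (nat_lit 591) (nat_lit 369))))))) (XT.nd (nat_lit 1170) (nat_lit 7676) (nat_lit 0) (XT.nd (nat_lit 546) (nat_lit 0) (nat_lit 228) (XT.nd (nat_lit 234) (nat_lit 0) (nat_lit 76) (XT.nd (nat_lit 78) (nat_lit 1824) (nat_lit 0) (XT.lf (nat_lit 76) (nat_lit 7482221552) (nat_lit 0) (nat_lit 10942404811) (nat_lit 1824) (nat_lit 31481698) (nat_lit 501) (nat_lit 5) (nat_lit 500) (nat_lit 5) (nat_lit 524) (nat_lit 5) (nat_lit 601) (nat_lit 591) (nat_lit 368)) (XT.nd (nat_lit 78) (nat_lit 0) (nat_lit 76) (XT.lf (nat_lit 0) (nat_lit 770484512) (nat_lit 1824) (nat_lit 1509599452) (nat_lit 1900) (nat_lit 16362753582) (nat_lit 476) (nat_lit 5) (nat_lit 500) (nat_lit 5) (nat_lit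 501) (nat_lit 5) (nat_lit 602) (nat_lit 591) (nat_lit 367)) (XT.lf (nat_lit 0) (nat_lit 1679370875) (nat_lit 1824) (nat_lit 10626732028) (nat_lit 1900) (nat_lit 6525368821) (nat_lit 477) (nat_lit 5) (nat_lit 501) (nat_lit 5) (nat_lit 502) (nat_lit 5) (nat_lit 603) (nat_lit 591) (nat_lit 366)))) (XT.nd (nat_lit 156) (nat_lit 0) (nat_lit 76) (XT.nd (nat_lit 78) (nat_lit 0) (nat_lit 76) (XT.lf (nat_lit 0) (nat_lit 2626639829) (nat_lit 1824) (nat_lit 908522734) (nat_lit 1900) (nat_lit 15488312233) (nat_lit 477) (nat_lit 5) (nat_lit 501) (nat_lit 5) (nat_lit 502) (nat_lit 5) (nat_lit 604) (nat_lit 591) (nat_lit 365)) (XT.lf (nat_lit 0) (nat_lit 3682611543) (nat_lit 1824) (nat_lit 10133544595) (nat_lit 1900) (nat_lit 5401366944) (nat_lit 478) (nat_lit 5) (nat_lit 502) (nat_lit 5) (nat_lit 503) (nat_lit 5) (nat_lit 605) (nat_lit 591) (nat_lit 364))) (XT.nd (nat_lit 78) (nat_lit 0) (nat_lit 76) (XT.lf (nat_lit 0) (nat_lit 4784344374) (nat_lit 1824) (nat_lit 153662812)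 (nat_lit 1900) (nat_lit 14476952609) (nat_lit 478) (nat_lit 5) (nat_lit 502) (nat_lit 5) (nat_lit 503) (nat_lit 5) (nat_lit 606) (nat_lit 591) (nat_lit 363)) (XT.lf (nat_lit 0) (nat_lit 5996417960) (nat_lit 1824) (nat_lit 9486751089) (nat_lit 1900) (nat_lit 4131410362) (nat_lit 479) (nat_lit 5) (nat_lit 503) (nat_lit 5) (nat_lit 504) (nat_lit 5) (nat_lit 607) (nat_lit 591) (nat_lit 362))))) (XT.nd (nat_lit 312) (nat_lit 0) (nat_lit 152) (XT.nd (nat_lit 156) (nat_lit 0) (nat_lit 76) (XT.nd (nat_lit 78) (nat_lit 0) (nat_lit 76) (XT.lf (nat_lit 76) (nat_lit 772750286) (nat_lit 0) (nat_lit 6494009656) (nat_lit 1900) (nat_lit 12550751219) (nat_lit 480) (nat_lit 5) (nat_lit 479) (nat_lit 5) (nat_lit 504) (nat_lit 5) (nat_lit 608) (nat_lit 591) (nat_lit 361)) (XT.lf (nat_lit 0) (nat_lit 8639305973) (nat_lit 1824) (nat_lit 8678594959) (nat_lit 1900) (nat_lit 2705064949) (nat_lit 480) (nat_lit 5) (nat_lit 504) (nat_lit 5) (nat_lit 505) (nat_lit 5) (nat_lit 609) (nat_lit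 591) (nat_lit 360))) (XT.nd (nat_lit 78) (nat_lit 0) (nat_lit 76) (XT.lf (nat_lit 76) (nat_lit 1872907287) (nat_lit 0) (nat_lit 8217000792) (nat_lit 1900) (nat_lit 10141609786) (nat_lit 481) (nat_lit 5) (nat_lit 480) (nat_lit 5) (nat_lit 505) (nat_lit 5) (nat_lit 610) (nat_lit 591) (nat_lit 359)) (XT.lf (nat_lit 0) (nat_lit 11630577720) (nat_lit 1824) (nat_lit 7700919237) (nat_lit 1900) (nat_lit 1111523089) (nat_lit 481) (nat_lit 5) (nat_lit 505) (nat_lit 5) (nat_lit 506) (nat_lit 5) (nat_lit 611) (nat_lit 591) (nat_lit 358)))) (XT.nd (nat_lit 156) (nat_lit 0) (nat_lit 76) (XT.nd (nat_lit 78) (nat_lit 0) (nat_lit 0) (XT.lf (nat_lit 76) (nat_lit 3153318974) (nat_lit 0) (nat_lit 10119231683) (nat_lit 1900) (nat_lit 7384792075) (nat_lit 482) (nat_lit 5) (nat_lit 481) (nat_lit 5) (nat_lit 506) (nat_lit 5) (nat_lit 612) (nat_lit 591) (nat_lit 357)) (XT.lf (nat_lit 76) (nat_lit 14325507189) (nat_lit 0) (nat_lit 669195747) (nat_lit 1900) (nat_lit 5880302397) (nat_lit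 482) (nat_lit 5) (nat_lit 481) (nat_lit 5) (nat_lit 506) (nat_lit 5) (nat_lit 613) (nat_lit 591) (nat_lit 356))) (XT.nd (nat_lit 78) (nat_lit 0) (nat_lit 0) (XT.lf (nat_lit 76) (nat_lit 4622966706) (nat_lit 0) (nat_lit 12212337969) (nat_lit 1900) (nat_lit 4260036634) (nat_lit 483) (nat_lit 5) (nat_lit 482) (nat_lit 5) (nat_lit 507) (nat_lit 5) (nat_lit 614) (nat_lit 591) (nat_lit 355)) (XT.lf (nat_lit 76) (nat_lit 16099649528) (nat_lit 0) (nat_lit 2657235411) (nat_lit 1900) (nat_lit 2562315981) (nat_lit 483) (nat_lit 5) (nat_lit 482) (nat_lit 5) (nat_lit 507) (nat_lit 5) (nat_lit 615) (nat_lit 591) (nat_lit 354)))))) (XT.nd (nat_lit 546) (nat_lit 3420) (nat_lit 0) (XT.nd (nat_lit 234) (nat_lit 1824) (nat_lit 0) (XT.nd (nat_lit 78) (nat_lit 1140) (nat_lit 0) (XT.lf (nat_lit 0) (nat_lit 6291274815) (nat_lit 1824) (nat_lit 14508395053) (nat_lit 1900) (nat_lit 746212637) (nat_lit 459) (nat_lit 5) (nat_lit 483) (nat_lit 5) (nat_lit 484) (nat_lit 5) (nat_lit 616)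 (nat_lit 591) (nat_lit 353)) (XT.nd (nat_lit 78) (nat_lit 1064) (nat_lit 0) (XT.lf (nat_lit 0) (nat_lit 1140490283) (nat_lit 1900) (nat_lit 3701908492) (nat_lit 76) (nat_lit 16933579820) (nat_lit 458) (nat_lit 5) (nat_lit 483) (nat_lit 5) (nat_lit 459) (nat_lit 5) (nat_lit 617) (nat_lit 591) (nat_lit 352)) (XT.lf (nat_lit 0) (nat_lit 3137030139) (nat_lit 1140) (nat_lit 13861861588) (nat_lit 76) (nat_lit 5010044564) (nat_lit 444) (nat_lit 5) (nat_lit 459) (nat_lit 5) (nat_lit 445) (nat_lit 5) (nat_lit 618) (nat_lit 591) (nat_lit 351)))) (XT.nd (nat_lit 156) (nat_lit 912) (nat_lit 0) (XT.nd (nat_lit 78) (nat_lit 912) (nat_lit 0) (XT.lf (nat_lit 0) (nat_lit 5226644574) (nat_lit 1140) (nat_lit 1998630069) (nat_lit 76) (nat_lit 15020215847) (nat_lit 444) (nat_lit 5) (nat_lit 459) (nat_lit 5) (nat_lit 445) (nat_lit 5) (nat_lit 619) (nat_lit 591) (nat_lit 350)) (XT.lf (nat_lit 0) (nat_lit 7438890740) (nat_lit 988) (nat_lit 12271201677) (nat_lit 76) (nat_lit 2775066786)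 (nat_lit 432) (nat_lit 5) (nat_lit 445) (nat_lit 5) (nat_lit 433) (nat_lit 5) (nat_lit 620) (nat_lit 591) (nat_lit 349))) (XT.nd (nat_lit 78) (nat_lit 912) (nat_lit 0) (XT.lf (nat_lit 0) (nat_lit 9752932993) (nat_lit 988) (nat_lit 82946528) (nat_lit 76) (nat_lit 12892590960) (nat_lit 432) (nat_lit 5) (nat_lit 445) (nat_lit 5) (nat_lit 433) (nat_lit 5) (nat_lit 621) (nat_lit 591) (nat_lit 348)) (XT.lf (nat_lit 0) (nat_lit 12192823209) (nat_lit 988) (nat_lit 10467503116) (nat_lit 76) (nat_lit 314730528) (nat_lit 420) (nat_lit 5) (nat_lit 433) (nat_lit 5) (nat_lit 421) (nat_lit 5) (nat_lit 622) (nat_lit 591) (nat_lit 347))))) (XT.nd (nat_lit 312) (nat_lit 1748) (nat_lit 0) (XT.nd (nat_lit 156) (nat_lit 836) (nat_lit 0) (XT.nd (nat_lit 78) (nat_lit 0) (nat_lit 0) (XT.lf (nat_lit 0) (nat_lit 2083075737) (nat_lit 836) (nat_lit 12673986313) (nat_lit 912) (nat_lit 8468002093) (nat_lit 409) (nat_lit 5) (nat_lit 420) (nat_lit 5) (nat_lit 421) (nat_lit 5) (nat_lit 623)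 (nat_lit 591) (nat_lit 346)) (XT.lf (nat_lit 0) (nat_lit 15023052365) (nat_lit 836) (nat_lit 2416152555) (nat_lit 912) (nat_lit 6039534475) (nat_lit 409) (nat_lit 5) (nat_lit 420) (nat_lit 5) (nat_lit 421) (nat_lit 5) (nat_lit 624) (nat_lit 591) (nat_lit 345))) (XT.nd (nat_lit 78) (nat_lit 0) (nat_lit 0) (XT.lf (nat_lit 0) (nat_lit 4487441701) (nat_lit 836) (nat_lit 15765378407) (nat_lit 912) (nat_lit 3483111654) (nat_lit 398) (nat_lit 5) (nat_lit 409) (nat_lit 5) (nat_lit 410) (nat_lit 5) (nat_lit 625) (nat_lit 591) (nat_lit 344)) (XT.lf (nat_lit 0) (nat_lit 17784354619) (nat_lit 836) (nat_lit 5407486449) (nat_lit 912) (nat_lit 805044432) (nat_lit 398) (nat_lit 5) (nat_lit 409) (nat_lit 5) (nat_lit 410) (nat_lit 5) (nat_lit 626) (nat_lit 591) (nat_lit 343)))) (XT.nd (nat_lit 156) (nat_lit 836) (nat_lit 0) (XT.nd (nat_lit 78) (nat_lit 0) (nat_lit 0) (XT.lf (nat_lit 0) (nat_lit 1978236289) (nat_lit 912) (nat_lit 17133715037) (nat_lit 76) (nat_lit 5149318609)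 (nat_lit 386) (nat_lit 5) (nat_lit 398) (nat_lit 5) (nat_lit 387) (nat_lit 5) (nat_lit 627) (nat_lit 591) (nat_lit 342)) (XT.lf (nat_lit 0) (nat_lit 4880776478) (nat_lit 912) (nat_lit 3756379203) (nat_lit 76) (nat_lit 15892192665) (nat_lit 386) (nat_lit 5) (nat_lit 398) (nat_lit 5) (nat_lit 387) (nat_lit 5) (nat_lit 628) (nat_lit 591) (nat_lit 341))) (XT.nd (nat_lit 78) (nat_lit 0) (nat_lit 0) (XT.lf (nat_lit 0) (nat_lit 7916775884) (nat_lit 912) (nat_lit 14798843934) (nat_lit 76) (nat_lit 2085660520) (nat_lit 375) (nat_lit 5) (nat_lit 387) (nat_lit 5) (nat_lit 376) (nat_lit 5) (nat_lit 629) (nat_lit 591) (nat_lit 340)) (XT.lf (nat_lit 0) (nat_lit 11092765546) (nat_lit 912) (nat_lit 1051647687) (nat_lit 76) (nat_lit 12932652506) (nat_lit 375) (nat_lit 5) (nat_lit 387) (nat_lit 5) (nat_lit 376) (nat_lit 5) (nat_lit 630) (nat_lit 591) (nat_lit 339))))))))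
noncomputable def xc206 : XT := (XT.nd (nat_lit 2262) (nat_lit 3724) (nat_lit 0) (XT.nd (nat_lit 1092) (nat_lit 5244) (nat_lit 0) (XT.nd (nat_lit 546) (nat_lit 2736) (nat_lit 0) (XT.nd (nat_lit 234) (nat_lit 1520) (nat_lit 0) (XT.nd (nat_lit 78) (nat_lit 760) (nat_lit 0) (XT.lf (nat_lit 0) (nat_lit 13139405151) (nat_lit 760) (nat_lit 1274940706) (nat_lit 836) (nat_lit 10942379749) (nat_lit 365) (nat_lit 5) (nat_lit 375) (nat_lit 5) (nat_lit 376) (nat_lit 5) (nat_lit 631) (nat_lit 591) (nat_lit 338)) (XT.nd (nat_lit 78) (nat_lit 0) (nat_lit 0) (XT.lf (nat_lit 0) (nat_lit 1945000268) (nat_lit 760) (nat_lit 15937596446) (nat_lit 836) (nat_lit 7757777344) (nat_lit 355) (nat_lit 5) (nat_lit 365) (nat_lit 5) (nat_lit 366) (nat_lit 5) (nat_lit 632) (nat_lit 591) (nat_lit 337)) (XT.lf (nat_lit 0) (nat_lit 16544190193) (nat_lit 760) (nat_lit 4963236619) (nat_lit 836) (nat_lit 4420524549) (nat_lit 355) (nat_lit 5) (nat_lit 365) (nat_lit 5) (nat_lit 366) (nat_lit 5)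 (nat_lit 633) (nat_lit 591) (nat_lit 336)))) (XT.nd (nat_lit 156) (nat_lit 760) (nat_lit 0) (XT.nd (nat_lit 78) (nat_lit 76) (nat_lit 0) (XT.lf (nat_lit 0) (nat_lit 5238916005) (nat_lit 684) (nat_lit 20037207279) (nat_lit 760) (nat_lit 943729696) (nat_lit 346) (nat_lit 5) (nat_lit 355) (nat_lit 5) (nat_lit 356) (nat_lit 5) (nat_lit 634) (nat_lit 591) (nat_lit 335)) (XT.lf (nat_lit 0) (nat_lit 2661643826) (nat_lit 760) (nat_lit 6288713432) (nat_lit 76) (nat_lit 17565034043) (nat_lit 345) (nat_lit 5) (nat_lit 355) (nat_lit 5) (nat_lit 346) (nat_lit 5) (nat_lit 635) (nat_lit 591) (nat_lit 334))) (XT.nd (nat_lit 78) (nat_lit 0) (nat_lit 0) (XT.lf (nat_lit 0) (nat_lit 6396365629) (nat_lit 836) (nat_lit 18028176364) (nat_lit 76) (nat_lit 2390776243) (nat_lit 335) (nat_lit 5) (nat_lit 346) (nat_lit 5) (nat_lit 336) (nat_lit 5) (nat_lit 636) (nat_lit 591) (nat_lit 333)) (XT.lf (nat_lit 0) (nat_lit 10304551465) (nat_lit 836) (nat_lit 2933603623) (nat_lit 76) (nat_lit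 13881113380) (nat_lit 335) (nat_lit 5) (nat_lit 346) (nat_lit 5) (nat_lit 336) (nat_lit 5) (nat_lit 637) (nat_lit 591) (nat_lit 332))))) (XT.nd (nat_lit 234) (nat_lit 1368) (nat_lit 0) (XT.nd (nat_lit 78) (nat_lit 684) (nat_lit 0) (XT.lf (nat_lit 0) (nat_lit 12625097852) (nat_lit 684) (nat_lit 1744847849) (nat_lit 760) (nat_lit 13057771257) (nat_lit 326) (nat_lit 5) (nat_lit 335) (nat_lit 5) (nat_lit 336) (nat_lit 5) (nat_lit 638) (nat_lit 591) (nat_lit 331)) (XT.nd (nat_lit 78) (nat_lit 0) (nat_lit 0) (XT.lf (nat_lit 0) (nat_lit 734134151) (nat_lit 684) (nat_lit 17868989641) (nat_lit 760) (nat_lit 9137481251) (nat_lit 317) (nat_lit 5) (nat_lit 326) (nat_lit 5) (nat_lit 327) (nat_lit 5) (nat_lit 639) (nat_lit 591) (nat_lit 330)) (XT.lf (nat_lit 0) (nat_lit 16767212937) (nat_lit 684) (nat_lit 6261707261) (nat_lit 760) (nat_lit 5028671738) (nat_lit 317) (nat_lit 5) (nat_lit 326) (nat_lit 5) (nat_lit 327) (nat_lit 5) (nat_lit 640) (nat_lit 591) (nat_lit 329))))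 (XT.nd (nat_lit 156) (nat_lit 684) (nat_lit 0) (XT.nd (nat_lit 78) (nat_lit 76) (nat_lit 0) (XT.lf (nat_lit 0) (nat_lit 4762946023) (nat_lit 608) (nat_lit 22844619980) (nat_lit 684) (nat_lit 772066033) (nat_lit 309) (nat_lit 5) (nat_lit 317) (nat_lit 5) (nat_lit 318) (nat_lit 5) (nat_lit 641) (nat_lit 591) (nat_lit 328)) (XT.lf (nat_lit 0) (nat_lit 3637799258) (nat_lit 684) (nat_lit 7484719302) (nat_lit 76) (nat_lit 17582832091) (nat_lit 308) (nat_lit 5) (nat_lit 317) (nat_lit 5) (nat_lit 309) (nat_lit 5) (nat_lit 642) (nat_lit 591) (nat_lit 327))) (XT.nd (nat_lit 78) (nat_lit 0) (nat_lit 0) (XT.lf (nat_lit 0) (nat_lit 8187591091) (nat_lit 760) (nat_lit 19961616452) (nat_lit 76) (nat_lit 887032814) (nat_lit 299) (nat_lit 5) (nat_lit 309) (nat_lit 5) (nat_lit 300) (nat_lit 5) (nat_lit 643) (nat_lit 591) (nat_lit 326)) (XT.lf (nat_lit 0) (nat_lit 12949890259) (nat_lit 760) (nat_lit 3383443315) (nat_lit 76) (nat_lit 13037984184) (nat_lit 299) (nat_lit 5) (nat_lit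 309) (nat_lit 5) (nat_lit 300) (nat_lit 5) (nat_lit 644) (nat_lit 591) (nat_lit 325)))))) (XT.nd (nat_lit 546) (nat_lit 2736) (nat_lit 0) (XT.nd (nat_lit 234) (nat_lit 1292) (nat_lit 0) (XT.nd (nat_lit 78) (nat_lit 608) (nat_lit 0) (XT.lf (nat_lit 0) (nat_lit 13702752829) (nat_lit 608) (nat_lit 4190996413) (nat_lit 684) (nat_lit 11817621312) (nat_lit 291) (nat_lit 5) (nat_lit 299) (nat_lit 5) (nat_lit 300) (nat_lit 5) (nat_lit 645) (nat_lit 591) (nat_lit 324)) (XT.nd (nat_lit 78) (nat_lit 0) (nat_lit 0) (XT.lf (nat_lit 0) (nat_lit 1076247038) (nat_lit 608) (nat_lit 21940656773) (nat_lit 684) (nat_lit 7039712351) (nat_lit 283) (nat_lit 5) (nat_lit 291) (nat_lit 5) (nat_lit 292) (nat_lit 5) (nat_lit 646) (nat_lit 591) (nat_lit 323)) (XT.lf (nat_lit 0) (nat_lit 18688426202) (nat_lit 608) (nat_lit 9686497744) (nat_lit 684) (nat_lit 2031194808) (nat_lit 283) (nat_lit 5) (nat_lit 291) (nat_lit 5) (nat_lit 292) (nat_lit 5) (nat_lit 647) (nat_lit 591) (nat_lit 322))))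 (XT.nd (nat_lit 156) (nat_lit 608) (nat_lit 0) (XT.nd (nat_lit 78) (nat_lit 0) (nat_lit 0) (XT.lf (nat_lit 0) (nat_lit 3091813688) (nat_lit 684) (nat_lit 24835141228) (nat_lit 76) (nat_lit 2834163325) (nat_lit 274) (nat_lit 5) (nat_lit 283) (nat_lit 5) (nat_lit 275) (nat_lit 5) (nat_lit 648) (nat_lit 591) (nat_lit 321)) (XT.lf (nat_lit 0) (nat_lit 8430874519) (nat_lit 684) (nat_lit 7121665555) (nat_lit 76) (nat_lit 15567593436) (nat_lit 274) (nat_lit 5) (nat_lit 283) (nat_lit 5) (nat_lit 275) (nat_lit 5) (nat_lit 649) (nat_lit 591) (nat_lit 320))) (XT.nd (nat_lit 78) (nat_lit 0) (nat_lit 0) (XT.lf (nat_lit 0) (nat_lit 11088313186) (nat_lit 608) (nat_lit 2857908636) (nat_lit 684) (nat_lit 17538717271) (nat_lit 266) (nat_lit 5) (nat_lit 274) (nat_lit 5) (nat_lit 275) (nat_lit 5) (nat_lit 650) (nat_lit 591) (nat_lit 319)) (XT.lf (nat_lit 0) (nat_lit 19683033795) (nat_lit 684) (nat_lit 2166104231) (nat_lit 76) (nat_lit 10005679715) (nat_lit 266) (nat_lit 5) (nat_lit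 275) (nat_lit 5) (nat_lit 267) (nat_lit 5) (nat_lit 651) (nat_lit 591) (nat_lit 318))))) (XT.nd (nat_lit 312) (nat_lit 1064) (nat_lit 0) (XT.nd (nat_lit 156) (nat_lit 608) (nat_lit 0) (XT.nd (nat_lit 78) (nat_lit 532) (nat_lit 0) (XT.lf (nat_lit 0) (nat_lit 16624988751) (nat_lit 532) (nat_lit 9034044708) (nat_lit 608) (nat_lit 6570571583) (nat_lit 259) (nat_lit 5) (nat_lit 266) (nat_lit 5) (nat_lit 267) (nat_lit 5) (nat_lit 652) (nat_lit 591) (nat_lit 317)) (XT.lf (nat_lit 0) (nat_lit 3222447278) (nat_lit 532) (nat_lit 28591479880) (nat_lit 608) (nat_lit 796773553) (nat_lit 252) (nat_lit 5) (nat_lit 259) (nat_lit 5) (nat_lit 260) (nat_lit 5) (nat_lit 653) (nat_lit 591) (nat_lit 316))) (XT.nd (nat_lit 78) (nat_lit 532) (nat_lit 0) (XT.lf (nat_lit 0) (nat_lit 5188565487) (nat_lit 608) (nat_lit 10456518160) (nat_lit 76) (nat_lit 17350416389) (nat_lit 251) (nat_lit 5) (nat_lit 259) (nat_lit 5) (nat_lit 252) (nat_lit 5) (nat_lit 654) (nat_lit 591) (nat_lit 315))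 (XT.lf (nat_lit 0) (nat_lit 8963003547) (nat_lit 532) (nat_lit 2375806753) (nat_lit 608) (nat_lit 22047962458) (nat_lit 244) (nat_lit 5) (nat_lit 251) (nat_lit 5) (nat_lit 252) (nat_lit 5) (nat_lit 655) (nat_lit 591) (nat_lit 314)))) (XT.nd (nat_lit 156) (nat_lit 532) (nat_lit 0) (XT.nd (nat_lit 78) (nat_lit 532) (nat_lit 0) (XT.lf (nat_lit 0) (nat_lit 17752828705) (nat_lit 608) (nat_lit 4947870042) (nat_lit 76) (nat_lit 11082356910) (nat_lit 244) (nat_lit 5) (nat_lit 252) (nat_lit 5) (nat_lit 245) (nat_lit 5) (nat_lit 656) (nat_lit 591) (nat_lit 313)) (XT.lf (nat_lit 0) (nat_lit 15096727586) (nat_lit 532) (nat_lit 9309881649) (nat_lit 608) (nat_lit 9778425439) (nat_lit 237) (nat_lit 5) (nat_lit 244) (nat_lit 5) (nat_lit 245) (nat_lit 5) (nat_lit 657) (nat_lit 591) (nat_lit 312))) (XT.nd (nat_lit 78) (nat_lit 76) (nat_lit 0) (XT.lf (nat_lit 0) (nat_lit 996409426) (nat_lit 456) (nat_lit 30262932281) (nat_lit 532) (nat_lit 3334394132) (nat_lit 231) (nat_lit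 5) (nat_lit 237) (nat_lit 5) (nat_lit 238) (nat_lit 5) (nat_lit 658) (nat_lit 591) (nat_lit 311)) (XT.lf (nat_lit 0) (nat_lit 3384398377) (nat_lit 532) (nat_lit 13353122523) (nat_lit 76) (nat_lit 18268902598) (nat_lit 230) (nat_lit 5) (nat_lit 237) (nat_lit 5) (nat_lit 231) (nat_lit 5) (nat_lit 659) (nat_lit 591) (nat_lit 310))))))) (XT.nd (nat_lit 76050) (nat_lit 0) (nat_lit 22420) (XT.nd (nat_lit 546) (nat_lit 1748) (nat_lit 0) (XT.nd (nat_lit 234) (nat_lit 988) (nat_lit 0) (XT.nd (nat_lit 78) (nat_lit 456) (nat_lit 0) (XT.lf (nat_lit 0) (nat_lit 7367459012) (nat_lit 532) (nat_lit 2871138893) (nat_lit 608) (nat_lit 25187412711) (nat_lit 223) (nat_lit 5) (nat_lit 230) (nat_lit 5) (nat_lit 231) (nat_lit 5) (nat_lit 660) (nat_lit 591) (nat_lit 309)) (XT.nd (nat_lit 78) (nat_lit 456) (nat_lit 0) (XT.lf (nat_lit 0) (nat_lit 17391090733) (nat_lit 608) (nat_lit 7245590354) (nat_lit 76) (nat_lit 11214084291) (nat_lit 223) (nat_lit 5) (nat_lit 231) (nat_lit 5) (nat_lit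 224) (nat_lit 5) (nat_lit 661) (nat_lit 591) (nat_lit 308)) (XT.lf (nat_lit 0) (nat_lit 14147150688) (nat_lit 456) (nat_lit 10648212717) (nat_lit 532) (nat_lit 11486477316) (nat_lit 217) (nat_lit 5) (nat_lit 223) (nat_lit 5) (nat_lit 224) (nat_lit 5) (nat_lit 662) (nat_lit 591) (nat_lit 307)))) (XT.nd (nat_lit 156) (nat_lit 456) (nat_lit 0) (XT.nd (nat_lit 78) (nat_lit 532) (nat_lit 0) (XT.lf (nat_lit 0) (nat_lit 32418048823) (nat_lit 532) (nat_lit 681452905) (nat_lit 76) (nat_lit 3620629378) (nat_lit 217) (nat_lit 5) (nat_lit 224) (nat_lit 5) (nat_lit 218) (nat_lit 5) (nat_lit 663) (nat_lit 591) (nat_lit 306)) (XT.lf (nat_lit 0) (nat_lit 3195123096) (nat_lit 532) (nat_lit 15775921951) (nat_lit 76) (nat_lit 18191573217) (nat_lit 210) (nat_lit 5) (nat_lit 217) (nat_lit 5) (nat_lit 211) (nat_lit 5) (nat_lit 664) (nat_lit 591) (nat_lit 305))) (XT.nd (nat_lit 78) (nat_lit 0) (nat_lit 0) (XT.lf (nat_lit 0) (nat_lit 6343281075) (nat_lit 456) (nat_lit 4485157917)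 (nat_lit 532) (nat_lit 26784072089) (nat_lit 204) (nat_lit 5) (nat_lit 210) (nat_lit 5) (nat_lit 211) (nat_lit 5) (nat_lit 665) (nat_lit 591) (nat_lit 304)) (XT.lf (nat_lit 0) (nat_lit 18785744455) (nat_lit 532) (nat_lit 9021072031) (nat_lit 76) (nat_lit 10261158882) (nat_lit 204) (nat_lit 5) (nat_lit 211) (nat_lit 5) (nat_lit 205) (nat_lit 5) (nat_lit 666) (nat_lit 591) (nat_lit 303))))) (XT.nd (nat_lit 312) (nat_lit 380) (nat_lit 0) (XT.nd (nat_lit 156) (nat_lit 912) (nat_lit 0) (XT.nd (nat_lit 78) (nat_lit 0) (nat_lit 0) (XT.lf (nat_lit 0) (nat_lit 13820676327) (nat_lit 456) (nat_lit 13198941033) (nat_lit 532) (nat_lit 11510583227) (nat_lit 198) (nat_lit 5) (nat_lit 204) (nat_lit 5) (nat_lit 205) (nat_lit 5) (nat_lit 667) (nat_lit 591) (nat_lit 302)) (XT.lf (nat_lit 0) (nat_lit 35488149338) (nat_lit 532) (nat_lit 1773307572) (nat_lit 76) (nat_lit 1738813844) (nat_lit 198) (nat_lit 5) (nat_lit 205) (nat_lit 5) (nat_lit 199) (nat_lit 5) (nat_lit 668) (nat_lit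 591) (nat_lit 301))) (XT.nd (nat_lit 78) (nat_lit 456) (nat_lit 0) (XT.lf (nat_lit 0) (nat_lit 4813979264) (nat_lit 456) (nat_lit 17689395264) (nat_lit 76) (nat_lit 16971192391) (nat_lit 192) (nat_lit 5) (nat_lit 198) (nat_lit 5) (nat_lit 193) (nat_lit 5) (nat_lit 669) (nat_lit 591) (nat_lit 300)) (XT.lf (nat_lit 0) (nat_lit 5932318224) (nat_lit 456) (nat_lit 7375841637) (nat_lit 532) (nat_lit 26648753209) (nat_lit 186) (nat_lit 5) (nat_lit 192) (nat_lit 5) (nat_lit 193) (nat_lit 5) (nat_lit 670) (nat_lit 591) (nat_lit 299)))) (XT.nd (nat_lit 75036) (nat_lit 0) (nat_lit 23940) (XT.nd (nat_lit 78) (nat_lit 380) (nat_lit 0) (XT.lf (nat_lit 0) (nat_lit 22142068434) (nat_lit 532) (nat_lit 10236269276) (nat_lit 76) (nat_lit 8067171615) (nat_lit 186) (nat_lit 5) (nat_lit 193) (nat_lit 5) (nat_lit 187) (nat_lit 5) (nat_lit 671) (nat_lit 591) (nat_lit 298)) (XT.lf (nat_lit 0) (nat_lit 14161860523) (nat_lit 380) (nat_lit 17129687130) (nat_lit 456) (nat_lit 9649552070)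 (nat_lit 181) (nat_lit 5) (nat_lit 186) (nat_lit 5) (nat_lit 187) (nat_lit 5) (nat_lit 672) (nat_lit 591) (nat_lit 297))) (XT.nd (nat_lit 78) (nat_lit 0) (nat_lit 0) (XT.lf (nat_lit 0) (nat_lit 3153015916) (nat_lit 0) (nat_lit 3153015916) (nat_lit 1748) (nat_lit 2220959696) (nat_lit 496) (nat_lit 5) (nat_lit 496) (nat_lit 3) (nat_lit 519) (nat_lit 3) (nat_lit 592) (nat_lit 592) (nat_lit 376)) (XT.lf (nat_lit 0) (nat_lit 12979796340) (nat_lit 1748) (nat_lit 2300432778) (nat_lit 1824) (nat_lit 1939447278) (nat_lit 496) (nat_lit 5) (nat_lit 519) (nat_lit 3) (nat_lit 520) (nat_lit 5) (nat_lit 593) (nat_lit 592) (nat_lit 375)))))) (XT.nd (nat_lit 546) (nat_lit 1520) (nat_lit 0) (XT.nd (nat_lit 234) (nat_lit 0) (nat_lit 152) (XT.nd (nat_lit 78) (nat_lit 0) (nat_lit 76) (XT.lf (nat_lit 76) (nat_lit 6354472933) (nat_lit 0) (nat_lit 7077446593) (nat_lit 1824) (nat_lit 3955223731) (nat_lit 497) (nat_lit 5) (nat_lit 496) (nat_lit 5) (nat_lit 520) (nat_lit 5) (nat_lit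 594) (nat_lit 592) (nat_lit 374)) (XT.nd (nat_lit 78) (nat_lit 0) (nat_lit 0) (XT.lf (nat_lit 0) (nat_lit 13911127728) (nat_lit 1748) (nat_lit 2355721546) (nat_lit 1824) (nat_lit 1290749697) (nat_lit 497) (nat_lit 5) (nat_lit 520) (nat_lit 5) (nat_lit 521) (nat_lit 5) (nat_lit 595) (nat_lit 592) (nat_lit 373)) (XT.lf (nat_lit 76) (nat_lit 6530349524) (nat_lit 0) (nat_lit 7953087125) (nat_lit 1824) (nat_lit 3246357180) (nat_lit 498) (nat_lit 5) (nat_lit 497) (nat_lit 5) (nat_lit 521) (nat_lit 5) (nat_lit 596) (nat_lit 592) (nat_lit 372)))) (XT.nd (nat_lit 156) (nat_lit 0) (nat_lit 0) (XT.nd (nat_lit 78) (nat_lit 0) (nat_lit 0) (XT.lf (nat_lit 0) (nat_lit 15080880943) (nat_lit 1748) (nat_lit 2285869596) (nat_lit 1824) (nat_lit 538408612) (nat_lit 498) (nat_lit 5) (nat_lit 521) (nat_lit 5) (nat_lit 522) (nat_lit 5) (nat_lit 597) (nat_lit 592) (nat_lit 371)) (XT.lf (nat_lit 76) (nat_lit 6839775158) (nat_lit 0) (nat_lit 8942042522) (nat_lit 1824) (nat_lit 2300383574)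 (nat_lit 499) (nat_lit 5) (nat_lit 498) (nat_lit 5) (nat_lit 522) (nat_lit 5) (nat_lit 598) (nat_lit 592) (nat_lit 370))) (XT.nd (nat_lit 78) (nat_lit 0) (nat_lit 76) (XT.lf (nat_lit 76) (nat_lit 16175702790) (nat_lit 0) (nat_lit 330963136) (nat_lit 1824) (nat_lit 1755920756) (nat_lit 499) (nat_lit 5) (nat_lit 498) (nat_lit 5) (nat_lit 522) (nat_lit 5) (nat_lit 599) (nat_lit 592) (nat_lit 369)) (XT.lf (nat_lit 76) (nat_lit 7289216493) (nat_lit 0) (nat_lit 10053673640) (nat_lit 1824) (nat_lit 1101752439) (nat_lit 500) (nat_lit 5) (nat_lit 499) (nat_lit 5) (nat_lit 523) (nat_lit 5) (nat_lit 600) (nat_lit 592) (nat_lit 368))))) (XT.nd (nat_lit 312) (nat_lit 0) (nat_lit 76) (XT.nd (nat_lit 156) (nat_lit 0) (nat_lit 0) (XT.nd (nat_lit 78) (nat_lit 1748) (nat_lit 0) (XT.lf (nat_lit 76) (nat_lit 16875653887) (nat_lit 0) (nat_lit 1331124105) (nat_lit 1824) (nat_lit 423343128) (nat_lit 500) (nat_lit 5) (nat_lit 499) (nat_lit 5) (nat_lit 523) (nat_lit 5) (nat_lit 601)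 (nat_lit 592) (nat_lit 367)) (XT.lf (nat_lit 0) (nat_lit 360935044) (nat_lit 1824) (nat_lit 10934276687) (nat_lit 1900) (nat_lit 7522146460) (nat_lit 476) (nat_lit 5) (nat_lit 500) (nat_lit 5) (nat_lit 501) (nat_lit 5) (nat_lit 602) (nat_lit 592) (nat_lit 366))) (XT.nd (nat_lit 78) (nat_lit 0) (nat_lit 76) (XT.lf (nat_lit 0) (nat_lit 1170820900) (nat_lit 1824) (nat_lit 1285988437) (nat_lit 1900) (nat_lit 16551163196) (nat_lit 476) (nat_lit 5) (nat_lit 500) (nat_lit 5) (nat_lit 501) (nat_lit 5) (nat_lit 603) (nat_lit 592) (nat_lit 365)) (XT.lf (nat_lit 0) (nat_lit 2091150616) (nat_lit 1824) (nat_lit 10578706516) (nat_lit 1900) (nat_lit 6530657406) (nat_lit 477) (nat_lit 5) (nat_lit 501) (nat_lit 5) (nat_lit 502) (nat_lit 5) (nat_lit 604) (nat_lit 592) (nat_lit 364)))) (XT.nd (nat_lit 156) (nat_lit 0) (nat_lit 76) (XT.nd (nat_lit 78) (nat_lit 0) (nat_lit 76) (XT.lf (nat_lit 0) (nat_lit 3049949414) (nat_lit 1824) (nat_lit 671242058) (nat_lit 1900) (nat_lit 15675314956)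 (nat_lit 477) (nat_lit 5) (nat_lit 501) (nat_lit 5) (nat_lit 502) (nat_lit 5) (nat_lit 605) (nat_lit 592) (nat_lit 363)) (XT.lf (nat_lit 0) (nat_lit 4120694898) (nat_lit 1824) (nat_lit 10074396802) (nat_lit 1900) (nat_lit 5399471331) (nat_lit 478) (nat_lit 5) (nat_lit 502) (nat_lit 5) (nat_lit 503) (nat_lit 5) (nat_lit 606) (nat_lit 592) (nat_lit 362))) (XT.nd (nat_lit 78) (nat_lit 0) (nat_lit 76) (XT.lf (nat_lit 76) (nat_lit 101277184) (nat_lit 0) (nat_lit 5136697051) (nat_lit 1900) (nat_lit 14558104435) (nat_lit 479) (nat_lit 5) (nat_lit 478) (nat_lit 5) (nat_lit 503) (nat_lit 5) (nat_lit 607) (nat_lit 592) (nat_lit 361)) (XT.lf (nat_lit 0) (nat_lit 6467652350) (nat_lit 1824) (nat_lit 9413800700) (nat_lit 1900) (nat_lit 4118370787) (nat_lit 479) (nat_lit 5) (nat_lit 503) (nat_lit 5) (nat_lit 504) (nat_lit 5) (nat_lit 608) (nat_lit 592) (nat_lit 360))))))))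
noncomputable def xc207 : XT := (XT.nd (nat_lit 2262) (nat_lit 9956) (nat_lit 0) (XT.nd (nat_lit 1092) (nat_lit 6460) (nat_lit 0) (XT.nd (nat_lit 546) (nat_lit 4484) (nat_lit 0) (XT.nd (nat_lit 234) (nat_lit 0) (nat_lit 152) (XT.nd (nat_lit 78) (nat_lit 0) (nat_lit 76) (XT.lf (nat_lit 76) (nat_lit 1049162509) (nat_lit 0) (nat_lit 6709044617) (nat_lit 1900) (nat_lit 12448711391) (nat_lit 480) (nat_lit 5) (nat_lit 479) (nat_lit 5) (nat_lit 504) (nat_lit 5) (nat_lit 609) (nat_lit 592) (nat_lit 359)) (XT.nd (nat_lit 78) (nat_lit 0) (nat_lit 0) (XT.lf (nat_lit 0) (nat_lit 9150875527) (nat_lit 1824) (nat_lit 8588977676) (nat_lit 1900) (nat_lit 2676776103) (nat_lit 480) (nat_lit 5) (nat_lit 504) (nat_lit 5) (nat_lit 505) (nat_lit 5) (nat_lit 610) (nat_lit 592) (nat_lit 358)) (XT.lf (nat_lit 76) (nat_lit 2171823107) (nat_lit 0) (nat_lit 8453721312) (nat_lit 1900) (nat_lit 10003907212) (nat_lit 481) (nat_lit 5) (nat_lit 480) (nat_lit 5) (nat_lit 505) (nat_lit 5) (nat_lit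 611) (nat_lit 592) (nat_lit 357)))) (XT.nd (nat_lit 156) (nat_lit 0) (nat_lit 0) (XT.nd (nat_lit 78) (nat_lit 0) (nat_lit 0) (XT.lf (nat_lit 0) (nat_lit 12190020879) (nat_lit 1824) (nat_lit 7591580555) (nat_lit 1900) (nat_lit 1063722942) (nat_lit 481) (nat_lit 5) (nat_lit 505) (nat_lit 5) (nat_lit 506) (nat_lit 5) (nat_lit 612) (nat_lit 592) (nat_lit 356)) (XT.lf (nat_lit 76) (nat_lit 3478009808) (nat_lit 0) (nat_lit 10382113644) (nat_lit 1900) (nat_lit 7203904642) (nat_lit 482) (nat_lit 5) (nat_lit 481) (nat_lit 5) (nat_lit 506) (nat_lit 5) (nat_lit 613) (nat_lit 592) (nat_lit 355))) (XT.nd (nat_lit 78) (nat_lit 0) (nat_lit 76) (XT.lf (nat_lit 76) (nat_lit 14868511895) (nat_lit 0) (nat_lit 741890768) (nat_lit 1900) (nat_lit 5675767980) (nat_lit 482) (nat_lit 5) (nat_lit 481) (nat_lit 5) (nat_lit 506) (nat_lit 5) (nat_lit 614) (nat_lit 592) (nat_lit 354)) (XT.lf (nat_lit 76) (nat_lit 4976908812) (nat_lit 0) (nat_lit 12506035539) (nat_lit 1900) (nat_lit 4028066794)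 (nat_lit 483) (nat_lit 5) (nat_lit 482) (nat_lit 5) (nat_lit 507) (nat_lit 5) (nat_lit 615) (nat_lit 592) (nat_lit 353))))) (XT.nd (nat_lit 234) (nat_lit 2888) (nat_lit 0) (XT.nd (nat_lit 78) (nat_lit 1824) (nat_lit 0) (XT.lf (nat_lit 76) (nat_lit 16677998178) (nat_lit 0) (nat_lit 2758861306) (nat_lit 1900) (nat_lit 2302610759) (nat_lit 483) (nat_lit 5) (nat_lit 482) (nat_lit 5) (nat_lit 507) (nat_lit 5) (nat_lit 616) (nat_lit 592) (nat_lit 352)) (XT.nd (nat_lit 78) (nat_lit 76) (nat_lit 0) (XT.lf (nat_lit 0) (nat_lit 6678156588) (nat_lit 1824) (nat_lit 14837752681) (nat_lit 1900) (nat_lit 454868361) (nat_lit 459) (nat_lit 5) (nat_lit 483) (nat_lit 5) (nat_lit 484) (nat_lit 5) (nat_lit 617) (nat_lit 592) (nat_lit 351)) (XT.lf (nat_lit 0) (nat_lit 1459625346) (nat_lit 1900) (nat_lit 3516054207) (nat_lit 76) (nat_lit 17229875186) (nat_lit 458) (nat_lit 5) (nat_lit 483) (nat_lit 5) (nat_lit 459) (nat_lit 5) (nat_lit 618) (nat_lit 592) (nat_lit 350)))) (XT.nd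 (nat_lit 156) (nat_lit 1824) (nat_lit 0) (XT.nd (nat_lit 78) (nat_lit 0) (nat_lit 0) (XT.lf (nat_lit 0) (nat_lit 3491741187) (nat_lit 1140) (nat_lit 13874834962) (nat_lit 76) (nat_lit 5076682869) (nat_lit 444) (nat_lit 5) (nat_lit 459) (nat_lit 5) (nat_lit 445) (nat_lit 5) (nat_lit 619) (nat_lit 592) (nat_lit 349)) (XT.lf (nat_lit 0) (nat_lit 5617422999) (nat_lit 1140) (nat_lit 1779520456) (nat_lit 76) (nat_lit 15287715668) (nat_lit 444) (nat_lit 5) (nat_lit 459) (nat_lit 5) (nat_lit 445) (nat_lit 5) (nat_lit 620) (nat_lit 592) (nat_lit 348))) (XT.nd (nat_lit 78) (nat_lit 912) (nat_lit 0) (XT.lf (nat_lit 0) (nat_lit 7869810661) (nat_lit 988) (nat_lit 12253424122) (nat_lit 76) (nat_lit 2805968816) (nat_lit 432) (nat_lit 5) (nat_lit 445) (nat_lit 5) (nat_lit 433) (nat_lit 5) (nat_lit 621) (nat_lit 592) (nat_lit 347)) (XT.lf (nat_lit 0) (nat_lit 175740178) (nat_lit 912) (nat_lit 10050002405) (nat_lit 988) (nat_lit 12951726656) (nat_lit 420) (nat_lit 5) (nat_lit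 432) (nat_lit 5) (nat_lit 433) (nat_lit 5) (nat_lit 622) (nat_lit 592) (nat_lit 346)))))) (XT.nd (nat_lit 546) (nat_lit 3876) (nat_lit 0) (XT.nd (nat_lit 234) (nat_lit 1748) (nat_lit 0) (XT.nd (nat_lit 78) (nat_lit 836) (nat_lit 0) (XT.lf (nat_lit 0) (nat_lit 12709423030) (nat_lit 988) (nat_lit 10414930528) (nat_lit 76) (nat_lit 304734238) (nat_lit 420) (nat_lit 5) (nat_lit 433) (nat_lit 5) (nat_lit 421) (nat_lit 5) (nat_lit 623) (nat_lit 592) (nat_lit 345)) (XT.nd (nat_lit 78) (nat_lit 0) (nat_lit 0) (XT.lf (nat_lit 0) (nat_lit 2384936727) (nat_lit 836) (nat_lit 12936351399) (nat_lit 912) (nat_lit 8362880576) (nat_lit 409) (nat_lit 5) (nat_lit 420) (nat_lit 5) (nat_lit 421) (nat_lit 5) (nat_lit 624) (nat_lit 592) (nat_lit 344)) (XT.lf (nat_lit 0) (nat_lit 15578610937) (nat_lit 836) (nat_lit 2473186744) (nat_lit 912) (nat_lit 5891225597) (nat_lit 409) (nat_lit 5) (nat_lit 420) (nat_lit 5) (nat_lit 421) (nat_lit 5) (nat_lit 625) (nat_lit 592) (nat_lit 343))))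 (XT.nd (nat_lit 156) (nat_lit 912) (nat_lit 0) (XT.nd (nat_lit 78) (nat_lit 0) (nat_lit 0) (XT.lf (nat_lit 0) (nat_lit 4835922069) (nat_lit 836) (nat_lit 16082214791) (nat_lit 912) (nat_lit 3287293886) (nat_lit 398) (nat_lit 5) (nat_lit 409) (nat_lit 5) (nat_lit 410) (nat_lit 5) (nat_lit 626) (nat_lit 592) (nat_lit 342)) (XT.lf (nat_lit 0) (nat_lit 18393700079) (nat_lit 836) (nat_lit 5517135018) (nat_lit 912) (nat_lit 560870810) (nat_lit 398) (nat_lit 5) (nat_lit 409) (nat_lit 5) (nat_lit 410) (nat_lit 5) (nat_lit 627) (nat_lit 592) (nat_lit 341))) (XT.nd (nat_lit 78) (nat_lit 0) (nat_lit 0) (XT.lf (nat_lit 0) (nat_lit 2271296091) (nat_lit 912) (nat_lit 17215924044) (nat_lit 76) (nat_lit 5254191686) (nat_lit 386) (nat_lit 5) (nat_lit 398) (nat_lit 5) (nat_lit 387) (nat_lit 5) (nat_lit 628) (nat_lit 592) (nat_lit 340)) (XT.lf (nat_lit 0) (nat_lit 5226916593) (nat_lit 912) (nat_lit 3576148657) (nat_lit 76) (nat_lit 16211886229) (nat_lit 386) (nat_lit 5) (nat_lit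 398) (nat_lit 5) (nat_lit 387) (nat_lit 5) (nat_lit 629) (nat_lit 592) (nat_lit 339))))) (XT.nd (nat_lit 312) (nat_lit 1520) (nat_lit 0) (XT.nd (nat_lit 156) (nat_lit 1520) (nat_lit 0) (XT.nd (nat_lit 78) (nat_lit 0) (nat_lit 0) (XT.lf (nat_lit 0) (nat_lit 8320464408) (nat_lit 912) (nat_lit 14836278022) (nat_lit 76) (nat_lit 2135643373) (nat_lit 375) (nat_lit 5) (nat_lit 387) (nat_lit 5) (nat_lit 376) (nat_lit 5) (nat_lit 630) (nat_lit 592) (nat_lit 338)) (XT.lf (nat_lit 0) (nat_lit 11555163020) (nat_lit 912) (nat_lit 819207317) (nat_lit 76) (nat_lit 13199413050) (nat_lit 375) (nat_lit 5) (nat_lit 387) (nat_lit 5) (nat_lit 376) (nat_lit 5) (nat_lit 631) (nat_lit 592) (nat_lit 337))) (XT.nd (nat_lit 78) (nat_lit 760) (nat_lit 0) (XT.lf (nat_lit 0) (nat_lit 13653998990) (nat_lit 760) (nat_lit 1286094323) (nat_lit 836) (nat_lit 10919005020) (nat_lit 365) (nat_lit 5) (nat_lit 375) (nat_lit 5) (nat_lit 376) (nat_lit 5) (nat_lit 632) (nat_lit 592) (nat_lit 336))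 (XT.lf (nat_lit 0) (nat_lit 2238687324) (nat_lit 760) (nat_lit 16236111334) (nat_lit 836) (nat_lit 7673679555) (nat_lit 355) (nat_lit 5) (nat_lit 365) (nat_lit 5) (nat_lit 366) (nat_lit 5) (nat_lit 633) (nat_lit 592) (nat_lit 335)))) (XT.nd (nat_lit 156) (nat_lit 836) (nat_lit 0) (XT.nd (nat_lit 78) (nat_lit 684) (nat_lit 0) (XT.lf (nat_lit 0) (nat_lit 17124865223) (nat_lit 760) (nat_lit 5042661115) (nat_lit 836) (nat_lit 4274372946) (nat_lit 355) (nat_lit 5) (nat_lit 365) (nat_lit 5) (nat_lit 366) (nat_lit 5) (nat_lit 634) (nat_lit 592) (nat_lit 334)) (XT.lf (nat_lit 0) (nat_lit 5596294988) (nat_lit 684) (nat_lit 20412559249) (nat_lit 760) (nat_lit 730839784) (nat_lit 346) (nat_lit 5) (nat_lit 355) (nat_lit 5) (nat_lit 356) (nat_lit 5) (nat_lit 635) (nat_lit 592) (nat_lit 333))) (XT.nd (nat_lit 78) (nat_lit 760) (nat_lit 0) (XT.lf (nat_lit 0) (nat_lit 2939116774) (nat_lit 760) (nat_lit 6163848572) (nat_lit 76) (nat_lit 17938237592) (nat_lit 345) (nat_lit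 5) (nat_lit 355) (nat_lit 5) (nat_lit 346) (nat_lit 5) (nat_lit 636) (nat_lit 592) (nat_lit 332)) (XT.lf (nat_lit 0) (nat_lit 6745931504) (nat_lit 836) (nat_lit 18135488088) (nat_lit 76) (nat_lit 2465761074) (nat_lit 335) (nat_lit 5) (nat_lit 346) (nat_lit 5) (nat_lit 336) (nat_lit 5) (nat_lit 637) (nat_lit 592) (nat_lit 331))))))) (XT.nd (nat_lit 1170) (nat_lit 4712) (nat_lit 0) (XT.nd (nat_lit 546) (nat_lit 2508) (nat_lit 0) (XT.nd (nat_lit 234) (nat_lit 1368) (nat_lit 0) (XT.nd (nat_lit 78) (nat_lit 1368) (nat_lit 0) (XT.lf (nat_lit 0) (nat_lit 10727935202) (nat_lit 836) (nat_lit 2743989613) (nat_lit 76) (nat_lit 14185372221) (nat_lit 335) (nat_lit 5) (nat_lit 346) (nat_lit 5) (nat_lit 336) (nat_lit 5) (nat_lit 638) (nat_lit 592) (nat_lit 330)) (XT.nd (nat_lit 78) (nat_lit 684) (nat_lit 0) (XT.lf (nat_lit 0) (nat_lit 13124252430) (nat_lit 684) (nat_lit 1747725684) (nat_lit 760) (nat_lit 13099989782) (nat_lit 326) (nat_lit 5) (nat_lit 335) (nat_lit 5) (nat_lit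 336) (nat_lit 5) (nat_lit 639) (nat_lit 592) (nat_lit 329)) (XT.lf (nat_lit 0) (nat_lit 997915308) (nat_lit 684) (nat_lit 18189517084) (nat_lit 760) (nat_lit 9103729308) (nat_lit 317) (nat_lit 5) (nat_lit 326) (nat_lit 5) (nat_lit 327) (nat_lit 5) (nat_lit 640) (nat_lit 592) (nat_lit 328)))) (XT.nd (nat_lit 156) (nat_lit 760) (nat_lit 0) (XT.nd (nat_lit 78) (nat_lit 608) (nat_lit 0) (XT.lf (nat_lit 0) (nat_lit 17346771386) (nat_lit 684) (nat_lit 6350811652) (nat_lit 760) (nat_lit 4916988733) (nat_lit 317) (nat_lit 5) (nat_lit 326) (nat_lit 5) (nat_lit 327) (nat_lit 5) (nat_lit 641) (nat_lit 592) (nat_lit 327)) (XT.lf (nat_lit 0) (nat_lit 5104723982) (nat_lit 608) (nat_lit 23260828234) (nat_lit 684) (nat_lit 577545650) (nat_lit 309) (nat_lit 5) (nat_lit 317) (nat_lit 5) (nat_lit 318) (nat_lit 5) (nat_lit 642) (nat_lit 592) (nat_lit 326))) (XT.nd (nat_lit 78) (nat_lit 684) (nat_lit 0) (XT.lf (nat_lit 0) (nat_lit 3913700358) (nat_lit 684) (nat_lit 7390018944)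 (nat_lit 76) (nat_lit 17971665739) (nat_lit 308) (nat_lit 5) (nat_lit 317) (nat_lit 5) (nat_lit 309) (nat_lit 5) (nat_lit 643) (nat_lit 592) (nat_lit 325)) (XT.lf (nat_lit 0) (nat_lit 8552354132) (nat_lit 760) (nat_lit 20114310613) (nat_lit 76) (nat_lit 946270667) (nat_lit 299) (nat_lit 5) (nat_lit 309) (nat_lit 5) (nat_lit 300) (nat_lit 5) (nat_lit 644) (nat_lit 592) (nat_lit 324))))) (XT.nd (nat_lit 312) (nat_lit 1292) (nat_lit 0) (XT.nd (nat_lit 156) (nat_lit 608) (nat_lit 0) (XT.nd (nat_lit 78) (nat_lit 608) (nat_lit 0) (XT.lf (nat_lit 0) (nat_lit 13405957887) (nat_lit 760) (nat_lit 3209408094) (nat_lit 76) (nat_lit 13339427393) (nat_lit 299) (nat_lit 5) (nat_lit 309) (nat_lit 5) (nat_lit 300) (nat_lit 5) (nat_lit 645) (nat_lit 592) (nat_lit 323)) (XT.lf (nat_lit 0) (nat_lit 14216921814) (nat_lit 608) (nat_lit 4229467100) (nat_lit 684) (nat_lit 11855304598) (nat_lit 291) (nat_lit 5) (nat_lit 299) (nat_lit 5) (nat_lit 300) (nat_lit 5) (nat_lit 646) (nat_lit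 592) (nat_lit 322))) (XT.nd (nat_lit 78) (nat_lit 0) (nat_lit 0) (XT.lf (nat_lit 0) (nat_lit 1339892476) (nat_lit 608) (nat_lit 22330155855) (nat_lit 684) (nat_lit 6983835047) (nat_lit 283) (nat_lit 5) (nat_lit 291) (nat_lit 5) (nat_lit 292) (nat_lit 5) (nat_lit 647) (nat_lit 592) (nat_lit 321)) (XT.lf (nat_lit 0) (nat_lit 19299567763) (nat_lit 608) (nat_lit 9831880587) (nat_lit 684) (nat_lit 1879003458) (nat_lit 283) (nat_lit 5) (nat_lit 291) (nat_lit 5) (nat_lit 292) (nat_lit 5) (nat_lit 648) (nat_lit 592) (nat_lit 320)))) (XT.nd (nat_lit 156) (nat_lit 608) (nat_lit 0) (XT.nd (nat_lit 78) (nat_lit 0) (nat_lit 0) (XT.lf (nat_lit 0) (nat_lit 3342078827) (nat_lit 684) (nat_lit 25090067543) (nat_lit 76) (nat_lit 2940417197) (nat_lit 274) (nat_lit 5) (nat_lit 283) (nat_lit 5) (nat_lit 275) (nat_lit 5) (nat_lit 649) (nat_lit 592) (nat_lit 319)) (XT.lf (nat_lit 0) (nat_lit 8784226192) (nat_lit 684) (nat_lit 7027063073) (nat_lit 76) (nat_lit 15927543937) (nat_lit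 274) (nat_lit 5) (nat_lit 283) (nat_lit 5) (nat_lit 275) (nat_lit 5) (nat_lit 650) (nat_lit 592) (nat_lit 318))) (XT.nd (nat_lit 78) (nat_lit 0) (nat_lit 0) (XT.lf (nat_lit 0) (nat_lit 11545555797) (nat_lit 608) (nat_lit 2862231273) (nat_lit 684) (nat_lit 17703189855) (nat_lit 266) (nat_lit 5) (nat_lit 274) (nat_lit 5) (nat_lit 275) (nat_lit 5) (nat_lit 651) (nat_lit 592) (nat_lit 317)) (XT.lf (nat_lit 0) (nat_lit 20256090408) (nat_lit 684) (nat_lit 1975314303) (nat_lit 76) (nat_lit 10256913494) (nat_lit 266) (nat_lit 5) (nat_lit 275) (nat_lit 5) (nat_lit 267) (nat_lit 5) (nat_lit 652) (nat_lit 592) (nat_lit 316)))))) (XT.nd (nat_lit 546) (nat_lit 2052) (nat_lit 0) (XT.nd (nat_lit 234) (nat_lit 1520) (nat_lit 0) (XT.nd (nat_lit 78) (nat_lit 608) (nat_lit 0) (XT.lf (nat_lit 0) (nat_lit 17190060328) (nat_lit 532) (nat_lit 9159542179) (nat_lit 608) (nat_lit 6521039050) (nat_lit 259) (nat_lit 5) (nat_lit 266) (nat_lit 5) (nat_lit 267) (nat_lit 5) (nat_lit 653)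 (nat_lit 592) (nat_lit 315)) (XT.nd (nat_lit 78) (nat_lit 76) (nat_lit 0) (XT.lf (nat_lit 0) (nat_lit 3521114211) (nat_lit 532) (nat_lit 29104873627) (nat_lit 608) (nat_lit 633403581) (nat_lit 252) (nat_lit 5) (nat_lit 259) (nat_lit 5) (nat_lit 260) (nat_lit 5) (nat_lit 654) (nat_lit 592) (nat_lit 314)) (XT.lf (nat_lit 0) (nat_lit 5465820934) (nat_lit 608) (nat_lit 10433710167) (nat_lit 76) (nat_lit 17752401888) (nat_lit 251) (nat_lit 5) (nat_lit 259) (nat_lit 5) (nat_lit 252) (nat_lit 5) (nat_lit 655) (nat_lit 592) (nat_lit 313)))) (XT.nd (nat_lit 156) (nat_lit 988) (nat_lit 0) (XT.nd (nat_lit 78) (nat_lit 0) (nat_lit 0) (XT.lf (nat_lit 0) (nat_lit 9372676065) (nat_lit 532) (nat_lit 2364488919) (nat_lit 608) (nat_lit 22313904438) (nat_lit 244) (nat_lit 5) (nat_lit 251) (nat_lit 5) (nat_lit 252) (nat_lit 5) (nat_lit 656) (nat_lit 592) (nat_lit 312)) (XT.lf (nat_lit 0) (nat_lit 18276473972) (nat_lit 608) (nat_lit 4817936022) (nat_lit 76) (nat_lit 11360927921)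 (nat_lit 244) (nat_lit 5) (nat_lit 252) (nat_lit 5) (nat_lit 245) (nat_lit 5) (nat_lit 657) (nat_lit 592) (nat_lit 311))) (XT.nd (nat_lit 78) (nat_lit 456) (nat_lit 0) (XT.lf (nat_lit 0) (nat_lit 15626047694) (nat_lit 532) (nat_lit 9435453096) (nat_lit 608) (nat_lit 9803892449) (nat_lit 237) (nat_lit 5) (nat_lit 244) (nat_lit 5) (nat_lit 245) (nat_lit 5) (nat_lit 658) (nat_lit 592) (nat_lit 310)) (XT.lf (nat_lit 0) (nat_lit 1245156318) (nat_lit 456) (nat_lit 30804733351) (nat_lit 532) (nat_lit 3232406858) (nat_lit 231) (nat_lit 5) (nat_lit 237) (nat_lit 5) (nat_lit 238) (nat_lit 5) (nat_lit 659) (nat_lit 592) (nat_lit 309))))) (XT.nd (nat_lit 312) (nat_lit 988) (nat_lit 0) (XT.nd (nat_lit 156) (nat_lit 456) (nat_lit 0) (XT.nd (nat_lit 78) (nat_lit 532) (nat_lit 0) (XT.lf (nat_lit 0) (nat_lit 3615285316) (nat_lit 532) (nat_lit 13393677542) (nat_lit 76) (nat_lit 18694318589) (nat_lit 230) (nat_lit 5) (nat_lit 237) (nat_lit 5) (nat_lit 231) (nat_lit 5) (nat_lit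 660) (nat_lit 592) (nat_lit 308)) (XT.lf (nat_lit 0) (nat_lit 7739825444) (nat_lit 532) (nat_lit 2865004373) (nat_lit 608) (nat_lit 25526465400) (nat_lit 223) (nat_lit 5) (nat_lit 230) (nat_lit 5) (nat_lit 231) (nat_lit 5) (nat_lit 661) (nat_lit 592) (nat_lit 307))) (XT.nd (nat_lit 78) (nat_lit 456) (nat_lit 0) (XT.lf (nat_lit 0) (nat_lit 17897611185) (nat_lit 608) (nat_lit 7167129409) (nat_lit 76) (nat_lit 11499859832) (nat_lit 223) (nat_lit 5) (nat_lit 231) (nat_lit 5) (nat_lit 224) (nat_lit 5) (nat_lit 662) (nat_lit 592) (nat_lit 306)) (XT.lf (nat_lit 0) (nat_lit 14651996896) (nat_lit 456) (nat_lit 10796301419) (nat_lit 532) (nat_lit 11556032504) (nat_lit 217) (nat_lit 5) (nat_lit 223) (nat_lit 5) (nat_lit 224) (nat_lit 5) (nat_lit 663) (nat_lit 592) (nat_lit 305)))) (XT.nd (nat_lit 156) (nat_lit 456) (nat_lit 0) (XT.nd (nat_lit 78) (nat_lit 532) (nat_lit 0) (XT.lf (nat_lit 0) (nat_lit 33220771424) (nat_lit 532) (nat_lit 474857752) (nat_lit 76) (nat_lit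 3755811277) (nat_lit 217) (nat_lit 5) (nat_lit 224) (nat_lit 5) (nat_lit 218) (nat_lit 5) (nat_lit 664) (nat_lit 592) (nat_lit 304)) (XT.lf (nat_lit 0) (nat_lit 3412798390) (nat_lit 532) (nat_lit 15870615654) (nat_lit 76) (nat_lit 18619375320) (nat_lit 210) (nat_lit 5) (nat_lit 217) (nat_lit 5) (nat_lit 211) (nat_lit 5) (nat_lit 665) (nat_lit 592) (nat_lit 303))) (XT.nd (nat_lit 78) (nat_lit 0) (nat_lit 0) (XT.lf (nat_lit 0) (nat_lit 6689518639) (nat_lit 456) (nat_lit 4507671120) (nat_lit 532) (nat_lit 27164522210) (nat_lit 204) (nat_lit 5) (nat_lit 210) (nat_lit 5) (nat_lit 211) (nat_lit 5) (nat_lit 666) (nat_lit 592) (nat_lit 302)) (XT.lf (nat_lit 0) (nat_lit 19311085059) (nat_lit 532) (nat_lit 8983861085) (nat_lit 76) (nat_lit 10531390635) (nat_lit 204) (nat_lit 5) (nat_lit 211) (nat_lit 5) (nat_lit 205) (nat_lit 5) (nat_lit 667) (nat_lit 592) (nat_lit 301))))))))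
noncomputable def xc208 : XT := (XT.nd (nat_lit 77220) (nat_lit 0) (nat_lit 8588) (XT.nd (nat_lit 76050) (nat_lit 0) (nat_lit 22040) (XT.nd (nat_lit 75504) (nat_lit 0) (nat_lit 23560) (XT.nd (nat_lit 234) (nat_lit 456) (nat_lit 0) (XT.nd (nat_lit 78) (nat_lit 456) (nat_lit 0) (XT.lf (nat_lit 0) (nat_lit 14313290449) (nat_lit 456) (nat_lit 13394814854) (nat_lit 532) (nat_lit 11589731912) (nat_lit 198) (nat_lit 5) (nat_lit 204) (nat_lit 5) (nat_lit 205) (nat_lit 5) (nat_lit 668) (nat_lit 592) (nat_lit 300)) (XT.nd (nat_lit 78) (nat_lit 456) (nat_lit 0) (XT.lf (nat_lit 0) (nat_lit 36343537596) (nat_lit 532) (nat_lit 1594336668) (nat_lit 76) (nat_lit 1839484034) (nat_lit 198) (nat_lit 5) (nat_lit 205) (nat_lit 5) (nat_lit 199) (nat_lit 5) (nat_lit 669) (nat_lit 592) (nat_lit 299)) (XT.lf (nat_lit 0) (nat_lit 5055371679) (nat_lit 456) (nat_lit 17828223252) (nat_lit 76) (nat_lit 17377555912) (nat_lit 192) (nat_lit 5) (nat_lit 198) (nat_lit 5) (nat_lit 193) (nat_lit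 5) (nat_lit 670) (nat_lit 592) (nat_lit 298)))) (XT.nd (nat_lit 75114) (nat_lit 0) (nat_lit 23560) (XT.nd (nat_lit 78) (nat_lit 0) (nat_lit 0) (XT.lf (nat_lit 0) (nat_lit 6264510295) (nat_lit 456) (nat_lit 7453466724) (nat_lit 532) (nat_lit 27035196177) (nat_lit 186) (nat_lit 5) (nat_lit 192) (nat_lit 5) (nat_lit 193) (nat_lit 5) (nat_lit 671) (nat_lit 592) (nat_lit 297)) (XT.lf (nat_lit 0) (nat_lit 22726191905) (nat_lit 532) (nat_lit 10229259310) (nat_lit 76) (nat_lit 8296137698) (nat_lit 186) (nat_lit 5) (nat_lit 193) (nat_lit 5) (nat_lit 187) (nat_lit 5) (nat_lit 672) (nat_lit 592) (nat_lit 296))) (XT.nd (nat_lit 78) (nat_lit 0) (nat_lit 0) (XT.lf (nat_lit 0) (nat_lit 3329759562) (nat_lit 0) (nat_lit 3329759562) (nat_lit 1748) (nat_lit 2033450743) (nat_lit 496) (nat_lit 5) (nat_lit 496) (nat_lit 3) (nat_lit 519) (nat_lit 3) (nat_lit 593) (nat_lit 593) (nat_lit 374)) (XT.lf (nat_lit 0) (nat_lit 13683761968) (nat_lit 1748) (nat_lit 2113141576) (nat_lit 1824)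 (nat_lit 1758251223) (nat_lit 496) (nat_lit 5) (nat_lit 519) (nat_lit 3) (nat_lit 520) (nat_lit 5) (nat_lit 594) (nat_lit 593) (nat_lit 373))))) (XT.nd (nat_lit 234) (nat_lit 0) (nat_lit 152) (XT.nd (nat_lit 78) (nat_lit 0) (nat_lit 76) (XT.lf (nat_lit 76) (nat_lit 6713327381) (nat_lit 0) (nat_lit 7424391877) (nat_lit 1824) (nat_lit 3588396419) (nat_lit 497) (nat_lit 5) (nat_lit 496) (nat_lit 5) (nat_lit 520) (nat_lit 5) (nat_lit 595) (nat_lit 593) (nat_lit 372)) (XT.nd (nat_lit 78) (nat_lit 0) (nat_lit 0) (XT.lf (nat_lit 0) (nat_lit 14616632413) (nat_lit 1748) (nat_lit 2165709502) (nat_lit 1824) (nat_lit 1117836709) (nat_lit 497) (nat_lit 5) (nat_lit 520) (nat_lit 5) (nat_lit 521) (nat_lit 5) (nat_lit 596) (nat_lit 593) (nat_lit 371)) (XT.lf (nat_lit 76) (nat_lit 6896522946) (nat_lit 0) (nat_lit 8297015938) (nat_lit 1824) (nat_lit 2882415990) (nat_lit 498) (nat_lit 5) (nat_lit 497) (nat_lit 5) (nat_lit 521) (nat_lit 5) (nat_lit 597) (nat_lit 593) (nat_lit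 370)))) (XT.nd (nat_lit 156) (nat_lit 0) (nat_lit 0) (XT.nd (nat_lit 78) (nat_lit 0) (nat_lit 0) (XT.lf (nat_lit 0) (nat_lit 15793511526) (nat_lit 1748) (nat_lit 2091193318) (nat_lit 1824) (nat_lit 370311582) (nat_lit 498) (nat_lit 5) (nat_lit 521) (nat_lit 5) (nat_lit 522) (nat_lit 5) (nat_lit 598) (nat_lit 593) (nat_lit 369)) (XT.lf (nat_lit 76) (nat_lit 7215382794) (nat_lit 0) (nat_lit 9286575652) (nat_lit 1824) (nat_lit 1933771599) (nat_lit 499) (nat_lit 5) (nat_lit 498) (nat_lit 5) (nat_lit 522) (nat_lit 5) (nat_lit 599) (nat_lit 593) (nat_lit 368))) (XT.nd (nat_lit 78) (nat_lit 0) (nat_lit 76) (XT.lf (nat_lit 76) (nat_lit 16733346387) (nat_lit 0) (nat_lit 500025811) (nat_lit 1824) (nat_lit 1386510106) (nat_lit 499) (nat_lit 5) (nat_lit 498) (nat_lit 5) (nat_lit 522) (nat_lit 5) (nat_lit 600) (nat_lit 593) (nat_lit 367)) (XT.lf (nat_lit 76) (nat_lit 7676541559) (nat_lit 0) (nat_lit 10402537622) (nat_lit 1824) (nat_lit 726645448) (nat_lit 500) (nat_lit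 5) (nat_lit 499) (nat_lit 5) (nat_lit 523) (nat_lit 5) (nat_lit 601) (nat_lit 593) (nat_lit 366)))))) (XT.nd (nat_lit 546) (nat_lit 0) (nat_lit 228) (XT.nd (nat_lit 234) (nat_lit 0) (nat_lit 76) (XT.nd (nat_lit 78) (nat_lit 1748) (nat_lit 0) (XT.lf (nat_lit 76) (nat_lit 17449971608) (nat_lit 0) (nat_lit 1502639244) (nat_lit 1824) (nat_lit 42455049) (nat_lit 500) (nat_lit 5) (nat_lit 499) (nat_lit 5) (nat_lit 523) (nat_lit 5) (nat_lit 602) (nat_lit 593) (nat_lit 365)) (XT.nd (nat_lit 78) (nat_lit 0) (nat_lit 0) (XT.lf (nat_lit 0) (nat_lit 745532860) (nat_lit 1824) (nat_lit 10904135746) (nat_lit 1900) (nat_lit 7536466392) (nat_lit 476) (nat_lit 5) (nat_lit 500) (nat_lit 5) (nat_lit 501) (nat_lit 5) (nat_lit 603) (nat_lit 593) (nat_lit 364)) (XT.lf (nat_lit 0) (nat_lit 1564216843) (nat_lit 1824) (nat_lit 1067760681) (nat_lit 1900) (nat_lit 16748732541) (nat_lit 476) (nat_lit 5) (nat_lit 500) (nat_lit 5) (nat_lit 501) (nat_lit 5) (nat_lit 604) (nat_lit 593) (nat_lit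 363)))) (XT.nd (nat_lit 156) (nat_lit 0) (nat_lit 76) (XT.nd (nat_lit 78) (nat_lit 0) (nat_lit 0) (XT.lf (nat_lit 0) (nat_lit 2496480283) (nat_lit 1824) (nat_lit 10539838361) (nat_lit 1900) (nat_lit 6540914161) (nat_lit 477) (nat_lit 5) (nat_lit 501) (nat_lit 5) (nat_lit 502) (nat_lit 5) (nat_lit 605) (nat_lit 593) (nat_lit 362)) (XT.lf (nat_lit 0) (nat_lit 3467327475) (nat_lit 1824) (nat_lit 439135248) (nat_lit 1900) (nat_lit 15870824791) (nat_lit 477) (nat_lit 5) (nat_lit 501) (nat_lit 5) (nat_lit 502) (nat_lit 5) (nat_lit 606) (nat_lit 593) (nat_lit 361))) (XT.nd (nat_lit 78) (nat_lit 0) (nat_lit 0) (XT.lf (nat_lit 0) (nat_lit 4553388615) (nat_lit 1824) (nat_lit 10024232791) (nat_lit 1900) (nat_lit 5401806248) (nat_lit 478) (nat_lit 5) (nat_lit 502) (nat_lit 5) (nat_lit 503) (nat_lit 5) (nat_lit 607) (nat_lit 593) (nat_lit 360)) (XT.lf (nat_lit 76) (nat_lit 353299069) (nat_lit 0) (nat_lit 5334469381) (nat_lit 1900) (nat_lit 14497310472) (nat_lit 479) (nat_lit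 5) (nat_lit 478) (nat_lit 5) (nat_lit 503) (nat_lit 5) (nat_lit 608) (nat_lit 593) (nat_lit 359))))) (XT.nd (nat_lit 312) (nat_lit 0) (nat_lit 152) (XT.nd (nat_lit 156) (nat_lit 0) (nat_lit 76) (XT.nd (nat_lit 78) (nat_lit 0) (nat_lit 0) (XT.lf (nat_lit 0) (nat_lit 6934669786) (nat_lit 1824) (nat_lit 9349591698) (nat_lit 1900) (nat_lit 4108785318) (nat_lit 479) (nat_lit 5) (nat_lit 503) (nat_lit 5) (nat_lit 504) (nat_lit 5) (nat_lit 609) (nat_lit 593) (nat_lit 358)) (XT.lf (nat_lit 76) (nat_lit 1320969689) (nat_lit 0) (nat_lit 6925073613) (nat_lit 1900) (nat_lit 12358340316) (nat_lit 480) (nat_lit 5) (nat_lit 479) (nat_lit 5) (nat_lit 504) (nat_lit 5) (nat_lit 610) (nat_lit 593) (nat_lit 357))) (XT.nd (nat_lit 78) (nat_lit 0) (nat_lit 0) (XT.lf (nat_lit 0) (nat_lit 9659521099) (nat_lit 1824) (nat_lit 8507788003) (nat_lit 1900) (nat_lit 2651120791) (nat_lit 480) (nat_lit 5) (nat_lit 504) (nat_lit 5) (nat_lit 505) (nat_lit 5) (nat_lit 611) (nat_lit 593) (nat_lit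 356)) (XT.lf (nat_lit 76) (nat_lit 2466564524) (nat_lit 0) (nat_lit 8692365620) (nat_lit 1900) (nat_lit 9876673967) (nat_lit 481) (nat_lit 5) (nat_lit 480) (nat_lit 5) (nat_lit 505) (nat_lit 5) (nat_lit 612) (nat_lit 593) (nat_lit 355)))) (XT.nd (nat_lit 156) (nat_lit 0) (nat_lit 0) (XT.nd (nat_lit 78) (nat_lit 0) (nat_lit 0) (XT.lf (nat_lit 0) (nat_lit 12747961631) (nat_lit 1824) (nat_lit 7490281576) (nat_lit 1900) (nat_lit 1017686166) (nat_lit 481) (nat_lit 5) (nat_lit 505) (nat_lit 5) (nat_lit 506) (nat_lit 5) (nat_lit 613) (nat_lit 593) (nat_lit 354)) (XT.lf (nat_lit 76) (nat_lit 3799035261) (nat_lit 0) (nat_lit 10647904059) (nat_lit 1900) (nat_lit 7032158750) (nat_lit 482) (nat_lit 5) (nat_lit 481) (nat_lit 5) (nat_lit 506) (nat_lit 5) (nat_lit 614) (nat_lit 593) (nat_lit 353))) (XT.nd (nat_lit 78) (nat_lit 0) (nat_lit 76) (XT.lf (nat_lit 76) (nat_lit 15412416699) (nat_lit 0) (nat_lit 813736566) (nat_lit 1900) (nat_lit 5479651982) (nat_lit 482) (nat_lit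 5) (nat_lit 481) (nat_lit 5) (nat_lit 506) (nat_lit 5) (nat_lit 615) (nat_lit 593) (nat_lit 352)) (XT.lf (nat_lit 76) (nat_lit 5327776066) (nat_lit 0) (nat_lit 12803686825) (nat_lit 1900) (nat_lit 3803773678) (nat_lit 483) (nat_lit 5) (nat_lit 482) (nat_lit 5) (nat_lit 507) (nat_lit 5) (nat_lit 616) (nat_lit 593) (nat_lit 351))))))) (XT.nd (nat_lit 1092) (nat_lit 6612) (nat_lit 0) (XT.nd (nat_lit 546) (nat_lit 2584) (nat_lit 0) (XT.nd (nat_lit 234) (nat_lit 2888) (nat_lit 0) (XT.nd (nat_lit 78) (nat_lit 1824) (nat_lit 0) (XT.lf (nat_lit 76) (nat_lit 17257959198) (nat_lit 0) (nat_lit 2860637136) (nat_lit 1900) (nat_lit 2049786061) (nat_lit 483) (nat_lit 5) (nat_lit 482) (nat_lit 5) (nat_lit 507) (nat_lit 5) (nat_lit 617) (nat_lit 593) (nat_lit 350)) (XT.nd (nat_lit 78) (nat_lit 76) (nat_lit 0) (XT.lf (nat_lit 0) (nat_lit 7062638863) (nat_lit 1824) (nat_lit 15172175676) (nat_lit 1900) (nat_lit 169589979) (nat_lit 459) (nat_lit 5) (nat_lit 483) (nat_lit 5) (nat_lit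 484) (nat_lit 5) (nat_lit 618) (nat_lit 593) (nat_lit 349)) (XT.lf (nat_lit 0) (nat_lit 1773636440) (nat_lit 1900) (nat_lit 3336574776) (nat_lit 76) (nat_lit 17533741981) (nat_lit 458) (nat_lit 5) (nat_lit 483) (nat_lit 5) (nat_lit 459) (nat_lit 5) (nat_lit 619) (nat_lit 593) (nat_lit 348)))) (XT.nd (nat_lit 156) (nat_lit 1824) (nat_lit 0) (XT.nd (nat_lit 78) (nat_lit 0) (nat_lit 0) (XT.lf (nat_lit 0) (nat_lit 3842208887) (nat_lit 1140) (nat_lit 13898329491) (nat_lit 76) (nat_lit 5145957217) (nat_lit 444) (nat_lit 5) (nat_lit 459) (nat_lit 5) (nat_lit 445) (nat_lit 5) (nat_lit 620) (nat_lit 593) (nat_lit 347)) (XT.lf (nat_lit 0) (nat_lit 6004901730) (nat_lit 1140) (nat_lit 1566089130) (nat_lit 76) (nat_lit 15561843207) (nat_lit 444) (nat_lit 5) (nat_lit 459) (nat_lit 5) (nat_lit 445) (nat_lit 5) (nat_lit 621) (nat_lit 593) (nat_lit 346))) (XT.nd (nat_lit 78) (nat_lit 912) (nat_lit 0) (XT.lf (nat_lit 0) (nat_lit 8298393058) (nat_lit 988) (nat_lit 12245511455)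 (nat_lit 76) (nat_lit 2838444107) (nat_lit 432) (nat_lit 5) (nat_lit 445) (nat_lit 5) (nat_lit 433) (nat_lit 5) (nat_lit 622) (nat_lit 593) (nat_lit 345)) (XT.lf (nat_lit 0) (nat_lit 430571781) (nat_lit 912) (nat_lit 10267186176) (nat_lit 988) (nat_lit 12937895629) (nat_lit 420) (nat_lit 5) (nat_lit 432) (nat_lit 5) (nat_lit 433) (nat_lit 5) (nat_lit 623) (nat_lit 593) (nat_lit 344))))) (XT.nd (nat_lit 234) (nat_lit 1748) (nat_lit 0) (XT.nd (nat_lit 78) (nat_lit 836) (nat_lit 0) (XT.lf (nat_lit 0) (nat_lit 13225763890) (nat_lit 988) (nat_lit 10371477263) (nat_lit 76) (nat_lit 295170618) (nat_lit 420) (nat_lit 5) (nat_lit 433) (nat_lit 5) (nat_lit 421) (nat_lit 5) (nat_lit 624) (nat_lit 593) (nat_lit 343)) (XT.nd (nat_lit 78) (nat_lit 0) (nat_lit 0) (XT.lf (nat_lit 0) (nat_lit 2682731074) (nat_lit 836) (nat_lit 13203618758) (nat_lit 912) (nat_lit 8266315083) (nat_lit 409) (nat_lit 5) (nat_lit 420) (nat_lit 5) (nat_lit 421) (nat_lit 5) (nat_lit 625) (nat_lit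 593) (nat_lit 342)) (XT.lf (nat_lit 0) (nat_lit 16135374933) (nat_lit 836) (nat_lit 2531023352) (nat_lit 912) (nat_lit 5750400006) (nat_lit 409) (nat_lit 5) (nat_lit 420) (nat_lit 5) (nat_lit 421) (nat_lit 5) (nat_lit 626) (nat_lit 593) (nat_lit 341)))) (XT.nd (nat_lit 156) (nat_lit 912) (nat_lit 0) (XT.nd (nat_lit 78) (nat_lit 0) (nat_lit 0) (XT.lf (nat_lit 0) (nat_lit 5181325184) (nat_lit 836) (nat_lit 16405328537) (nat_lit 912) (nat_lit 3097868675) (nat_lit 398) (nat_lit 5) (nat_lit 409) (nat_lit 5) (nat_lit 410) (nat_lit 5) (nat_lit 627) (nat_lit 593) (nat_lit 340)) (XT.lf (nat_lit 0) (nat_lit 19005382584) (nat_lit 836) (nat_lit 5628918356) (nat_lit 912) (nat_lit 321920492) (nat_lit 398) (nat_lit 5) (nat_lit 409) (nat_lit 5) (nat_lit 410) (nat_lit 5) (nat_lit 628) (nat_lit 593) (nat_lit 339))) (XT.nd (nat_lit 78) (nat_lit 0) (nat_lit 0) (XT.lf (nat_lit 0) (nat_lit 2560373567) (nat_lit 912) (nat_lit 17309891417) (nat_lit 76) (nat_lit 5361088962) (nat_lit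 386) (nat_lit 5) (nat_lit 398) (nat_lit 5) (nat_lit 387) (nat_lit 5) (nat_lit 629) (nat_lit 593) (nat_lit 338)) (XT.lf (nat_lit 0) (nat_lit 5570328997) (nat_lit 912) (nat_lit 3402229367) (nat_lit 76) (nat_lit 16537901838) (nat_lit 386) (nat_lit 5) (nat_lit 398) (nat_lit 5) (nat_lit 387) (nat_lit 5) (nat_lit 630) (nat_lit 593) (nat_lit 337)))))) (XT.nd (nat_lit 546) (nat_lit 3496) (nat_lit 0) (XT.nd (nat_lit 234) (nat_lit 1520) (nat_lit 0) (XT.nd (nat_lit 78) (nat_lit 760) (nat_lit 0) (XT.lf (nat_lit 0) (nat_lit 8722699345) (nat_lit 912) (nat_lit 14884500324) (nat_lit 76) (nat_lit 2186304763) (nat_lit 375) (nat_lit 5) (nat_lit 387) (nat_lit 5) (nat_lit 376) (nat_lit 5) (nat_lit 631) (nat_lit 593) (nat_lit 336)) (XT.nd (nat_lit 78) (nat_lit 760) (nat_lit 0) (XT.lf (nat_lit 0) (nat_lit 12017467897) (nat_lit 912) (nat_lit 591960817) (nat_lit 76) (nat_lit 13471193980) (nat_lit 375) (nat_lit 5) (nat_lit 387) (nat_lit 5) (nat_lit 376) (nat_lit 5) (nat_lit 632) (nat_lit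 593) (nat_lit 335)) (XT.lf (nat_lit 0) (nat_lit 14169106782) (nat_lit 760) (nat_lit 1298028055) (nat_lit 836) (nat_lit 10904568584) (nat_lit 365) (nat_lit 5) (nat_lit 375) (nat_lit 5) (nat_lit 376) (nat_lit 5) (nat_lit 633) (nat_lit 593) (nat_lit 334)))) (XT.nd (nat_lit 156) (nat_lit 760) (nat_lit 0) (XT.nd (nat_lit 78) (nat_lit 0) (nat_lit 0) (XT.lf (nat_lit 0) (nat_lit 2528354429) (nat_lit 760) (nat_lit 16541382348) (nat_lit 836) (nat_lit 7597190308) (nat_lit 355) (nat_lit 5) (nat_lit 365) (nat_lit 5) (nat_lit 366) (nat_lit 5) (nat_lit 634) (nat_lit 593) (nat_lit 333)) (XT.lf (nat_lit 0) (nat_lit 17707454056) (nat_lit 760) (nat_lit 5124444522) (nat_lit 836) (nat_lit 4134406642) (nat_lit 355) (nat_lit 5) (nat_lit 365) (nat_lit 5) (nat_lit 366) (nat_lit 5) (nat_lit 635) (nat_lit 593) (nat_lit 332))) (XT.nd (nat_lit 78) (nat_lit 76) (nat_lit 0) (XT.lf (nat_lit 0) (nat_lit 5951012759) (nat_lit 684) (nat_lit 20796404268) (nat_lit 760) (nat_lit 522691772) (nat_lit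 346) (nat_lit 5) (nat_lit 355) (nat_lit 5) (nat_lit 356) (nat_lit 5) (nat_lit 636) (nat_lit 593) (nat_lit 331)) (XT.lf (nat_lit 0) (nat_lit 3213431666) (nat_lit 760) (nat_lit 6046219037) (nat_lit 76) (nat_lit 18318054698) (nat_lit 345) (nat_lit 5) (nat_lit 355) (nat_lit 5) (nat_lit 346) (nat_lit 5) (nat_lit 637) (nat_lit 593) (nat_lit 330))))) (XT.nd (nat_lit 312) (nat_lit 1368) (nat_lit 0) (XT.nd (nat_lit 156) (nat_lit 1368) (nat_lit 0) (XT.nd (nat_lit 78) (nat_lit 0) (nat_lit 0) (XT.lf (nat_lit 0) (nat_lit 7093882200) (nat_lit 836) (nat_lit 18254780122) (nat_lit 76) (nat_lit 2541190583) (nat_lit 335) (nat_lit 5) (nat_lit 346) (nat_lit 5) (nat_lit 336) (nat_lit 5) (nat_lit 638) (nat_lit 593) (nat_lit 329)) (XT.lf (nat_lit 0) (nat_lit 11151348874) (nat_lit 836) (nat_lit 2560224575) (nat_lit 76) (nat_lit 14494681909) (nat_lit 335) (nat_lit 5) (nat_lit 346) (nat_lit 5) (nat_lit 336) (nat_lit 5) (nat_lit 639) (nat_lit 593) (nat_lit 328))) (XT.nd (nat_lit 78)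 (nat_lit 684) (nat_lit 0) (XT.lf (nat_lit 0) (nat_lit 13623812278) (nat_lit 684) (nat_lit 1751904417) (nat_lit 760) (nat_lit 13151554264) (nat_lit 326) (nat_lit 5) (nat_lit 335) (nat_lit 5) (nat_lit 336) (nat_lit 5) (nat_lit 640) (nat_lit 593) (nat_lit 327)) (XT.lf (nat_lit 0) (nat_lit 1257299291) (nat_lit 684) (nat_lit 18517886098) (nat_lit 760) (nat_lit 9077709345) (nat_lit 317) (nat_lit 5) (nat_lit 326) (nat_lit 5) (nat_lit 327) (nat_lit 5) (nat_lit 641) (nat_lit 593) (nat_lit 326)))) (XT.nd (nat_lit 156) (nat_lit 760) (nat_lit 0) (XT.nd (nat_lit 78) (nat_lit 608) (nat_lit 0) (XT.lf (nat_lit 0) (nat_lit 17928437869) (nat_lit 684) (nat_lit 6443101093) (nat_lit 760) (nat_lit 4811314245) (nat_lit 317) (nat_lit 5) (nat_lit 326) (nat_lit 5) (nat_lit 327) (nat_lit 5) (nat_lit 642) (nat_lit 593) (nat_lit 325)) (XT.lf (nat_lit 0) (nat_lit 5443764865) (nat_lit 608) (nat_lit 23686940468) (nat_lit 684) (nat_lit 387287929) (nat_lit 309) (nat_lit 5) (nat_lit 317) (nat_lit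 5) (nat_lit 318) (nat_lit 5) (nat_lit 643) (nat_lit 593) (nat_lit 324))) (XT.nd (nat_lit 78) (nat_lit 684) (nat_lit 0) (XT.lf (nat_lit 0) (nat_lit 4187231108) (nat_lit 684) (nat_lit 7302914726) (nat_lit 76) (nat_lit 18366832432) (nat_lit 308) (nat_lit 5) (nat_lit 317) (nat_lit 5) (nat_lit 309) (nat_lit 5) (nat_lit 644) (nat_lit 593) (nat_lit 323)) (XT.lf (nat_lit 0) (nat_lit 8916606923) (nat_lit 760) (nat_lit 20279632034) (nat_lit 76) (nat_lit 1005081889) (nat_lit 299) (nat_lit 5) (nat_lit 309) (nat_lit 5) (nat_lit 300) (nat_lit 5) (nat_lit 645) (nat_lit 593) (nat_lit 322))))))))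
noncomputable def xc209 : XT := (XT.nd (nat_lit 77298) (nat_lit 0) (nat_lit 17784) (XT.nd (nat_lit 1092) (nat_lit 3876) (nat_lit 0) (XT.nd (nat_lit 546) (nat_lit 2204) (nat_lit 0) (XT.nd (nat_lit 234) (nat_lit 1292) (nat_lit 0) (XT.nd (nat_lit 78) (nat_lit 1216) (nat_lit 0) (XT.lf (nat_lit 0) (nat_lit 13863494406) (nat_lit 760) (nat_lit 3041277833) (nat_lit 76) (nat_lit 13645319676) (nat_lit 299) (nat_lit 5) (nat_lit 309) (nat_lit 5) (nat_lit 300) (nat_lit 5) (nat_lit 646) (nat_lit 593) (nat_lit 321)) (XT.nd (nat_lit 78) (nat_lit 608) (nat_lit 0) (XT.lf (nat_lit 0) (nat_lit 14732050263) (nat_lit 608) (nat_lit 4270468168) (nat_lit 684) (nat_lit 11901456114) (nat_lit 291) (nat_lit 5) (nat_lit 299) (nat_lit 5) (nat_lit 300) (nat_lit 5) (nat_lit 647) (nat_lit 593) (nat_lit 320)) (XT.lf (nat_lit 0) (nat_lit 1599408988) (nat_lit 608) (nat_lit 22729359843) (nat_lit 684) (nat_lit 6934477193) (nat_lit 283) (nat_lit 5) (nat_lit 291) (nat_lit 5) (nat_lit 292) (nat_lit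 5) (nat_lit 648) (nat_lit 593) (nat_lit 319)))) (XT.nd (nat_lit 156) (nat_lit 608) (nat_lit 0) (XT.nd (nat_lit 78) (nat_lit 684) (nat_lit 0) (XT.lf (nat_lit 0) (nat_lit 19913714670) (nat_lit 608) (nat_lit 9982048464) (nat_lit 684) (nat_lit 1731255532) (nat_lit 283) (nat_lit 5) (nat_lit 291) (nat_lit 5) (nat_lit 292) (nat_lit 5) (nat_lit 649) (nat_lit 593) (nat_lit 318)) (XT.lf (nat_lit 0) (nat_lit 3590032347) (nat_lit 684) (nat_lit 25359480862) (nat_lit 76) (nat_lit 3046871258) (nat_lit 274) (nat_lit 5) (nat_lit 283) (nat_lit 5) (nat_lit 275) (nat_lit 5) (nat_lit 650) (nat_lit 593) (nat_lit 317))) (XT.nd (nat_lit 78) (nat_lit 608) (nat_lit 0) (XT.lf (nat_lit 0) (nat_lit 9137471444) (nat_lit 684) (nat_lit 6939772930) (nat_lit 76) (nat_lit 16292806304) (nat_lit 274) (nat_lit 5) (nat_lit 283) (nat_lit 5) (nat_lit 275) (nat_lit 5) (nat_lit 651) (nat_lit 593) (nat_lit 316)) (XT.lf (nat_lit 0) (nat_lit 12002799427) (nat_lit 608) (nat_lit 2868692031) (nat_lit 684)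 (nat_lit 17878186216) (nat_lit 266) (nat_lit 5) (nat_lit 274) (nat_lit 5) (nat_lit 275) (nat_lit 5) (nat_lit 652) (nat_lit 593) (nat_lit 315))))) (XT.nd (nat_lit 234) (nat_lit 1140) (nat_lit 0) (XT.nd (nat_lit 78) (nat_lit 1064) (nat_lit 0) (XT.lf (nat_lit 0) (nat_lit 20833641989) (nat_lit 684) (nat_lit 1789799431) (nat_lit 76) (nat_lit 10511186889) (nat_lit 266) (nat_lit 5) (nat_lit 275) (nat_lit 5) (nat_lit 267) (nat_lit 5) (nat_lit 653) (nat_lit 593) (nat_lit 314)) (XT.nd (nat_lit 78) (nat_lit 532) (nat_lit 0) (XT.lf (nat_lit 0) (nat_lit 17757402290) (nat_lit 532) (nat_lit 9289692439) (nat_lit 608) (nat_lit 6477542142) (nat_lit 259) (nat_lit 5) (nat_lit 266) (nat_lit 5) (nat_lit 267) (nat_lit 5) (nat_lit 654) (nat_lit 593) (nat_lit 313)) (XT.lf (nat_lit 0) (nat_lit 3816659512) (nat_lit 532) (nat_lit 29630804384) (nat_lit 608) (nat_lit 473728859) (nat_lit 252) (nat_lit 5) (nat_lit 259) (nat_lit 5) (nat_lit 260) (nat_lit 5) (nat_lit 655) (nat_lit 593) (nat_lit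 312)))) (XT.nd (nat_lit 156) (nat_lit 532) (nat_lit 0) (XT.nd (nat_lit 78) (nat_lit 532) (nat_lit 0) (XT.lf (nat_lit 0) (nat_lit 5741884889) (nat_lit 608) (nat_lit 10419452462) (nat_lit 76) (nat_lit 18160292266) (nat_lit 251) (nat_lit 5) (nat_lit 259) (nat_lit 5) (nat_lit 252) (nat_lit 5) (nat_lit 656) (nat_lit 593) (nat_lit 311)) (XT.lf (nat_lit 0) (nat_lit 9781594836) (nat_lit 532) (nat_lit 2355229323) (nat_lit 608) (nat_lit 22591961391) (nat_lit 244) (nat_lit 5) (nat_lit 251) (nat_lit 5) (nat_lit 252) (nat_lit 5) (nat_lit 657) (nat_lit 593) (nat_lit 310))) (XT.nd (nat_lit 78) (nat_lit 532) (nat_lit 0) (XT.lf (nat_lit 0) (nat_lit 18804045640) (nat_lit 608) (nat_lit 4694291455) (nat_lit 76) (nat_lit 11642859930) (nat_lit 244) (nat_lit 5) (nat_lit 252) (nat_lit 5) (nat_lit 245) (nat_lit 5) (nat_lit 658) (nat_lit 593) (nat_lit 309)) (XT.lf (nat_lit 0) (nat_lit 16157124545) (nat_lit 532) (nat_lit 9565890161) (nat_lit 608) (nat_lit 9836474047) (nat_lit 237) (nat_lit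 5) (nat_lit 244) (nat_lit 5) (nat_lit 245) (nat_lit 5) (nat_lit 659) (nat_lit 593) (nat_lit 308)))))) (XT.nd (nat_lit 546) (nat_lit 1824) (nat_lit 0) (XT.nd (nat_lit 234) (nat_lit 988) (nat_lit 0) (XT.nd (nat_lit 78) (nat_lit 608) (nat_lit 0) (XT.lf (nat_lit 0) (nat_lit 1489992839) (nat_lit 456) (nat_lit 31359834579) (nat_lit 532) (nat_lit 3134929700) (nat_lit 231) (nat_lit 5) (nat_lit 237) (nat_lit 5) (nat_lit 238) (nat_lit 5) (nat_lit 660) (nat_lit 593) (nat_lit 307)) (XT.nd (nat_lit 78) (nat_lit 532) (nat_lit 0) (XT.lf (nat_lit 0) (nat_lit 3844452780) (nat_lit 532) (nat_lit 13443839220) (nat_lit 76) (nat_lit 19125911554) (nat_lit 230) (nat_lit 5) (nat_lit 237) (nat_lit 5) (nat_lit 231) (nat_lit 5) (nat_lit 661) (nat_lit 593) (nat_lit 306)) (XT.lf (nat_lit 0) (nat_lit 8110901510) (nat_lit 532) (nat_lit 2861215171) (nat_lit 608) (nat_lit 25878694472) (nat_lit 223) (nat_lit 5) (nat_lit 230) (nat_lit 5) (nat_lit 231) (nat_lit 5) (nat_lit 662) (nat_lit 593)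 (nat_lit 305)))) (XT.nd (nat_lit 156) (nat_lit 532) (nat_lit 0) (XT.nd (nat_lit 78) (nat_lit 456) (nat_lit 0) (XT.lf (nat_lit 0) (nat_lit 18408099584) (nat_lit 608) (nat_lit 7095773082) (nat_lit 76) (nat_lit 11788963003) (nat_lit 223) (nat_lit 5) (nat_lit 231) (nat_lit 5) (nat_lit 224) (nat_lit 5) (nat_lit 663) (nat_lit 593) (nat_lit 304)) (XT.lf (nat_lit 0) (nat_lit 15158323257) (nat_lit 456) (nat_lit 10949871091) (nat_lit 532) (nat_lit 11633198561) (nat_lit 217) (nat_lit 5) (nat_lit 223) (nat_lit 5) (nat_lit 224) (nat_lit 5) (nat_lit 664) (nat_lit 593) (nat_lit 303))) (XT.nd (nat_lit 78) (nat_lit 532) (nat_lit 0) (XT.lf (nat_lit 0) (nat_lit 34033554427) (nat_lit 532) (nat_lit 272682270) (nat_lit 76) (nat_lit 3891259406) (nat_lit 217) (nat_lit 5) (nat_lit 224) (nat_lit 5) (nat_lit 218) (nat_lit 5) (nat_lit 665) (nat_lit 593) (nat_lit 302)) (XT.lf (nat_lit 0) (nat_lit 3628856004) (nat_lit 532) (nat_lit 15975778124) (nat_lit 76) (nat_lit 19053249408) (nat_lit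 210) (nat_lit 5) (nat_lit 217) (nat_lit 5) (nat_lit 211) (nat_lit 5) (nat_lit 666) (nat_lit 593) (nat_lit 301))))) (XT.nd (nat_lit 312) (nat_lit 912) (nat_lit 0) (XT.nd (nat_lit 156) (nat_lit 456) (nat_lit 0) (XT.nd (nat_lit 78) (nat_lit 0) (nat_lit 0) (XT.lf (nat_lit 0) (nat_lit 7034162474) (nat_lit 456) (nat_lit 4533243655) (nat_lit 532) (nat_lit 27558609155) (nat_lit 204) (nat_lit 5) (nat_lit 210) (nat_lit 5) (nat_lit 211) (nat_lit 5) (nat_lit 667) (nat_lit 593) (nat_lit 300)) (XT.lf (nat_lit 0) (nat_lit 19841122325) (nat_lit 532) (nat_lit 8954356850) (nat_lit 76) (nat_lit 10804502661) (nat_lit 204) (nat_lit 5) (nat_lit 211) (nat_lit 5) (nat_lit 205) (nat_lit 5) (nat_lit 668) (nat_lit 593) (nat_lit 299))) (XT.nd (nat_lit 78) (nat_lit 0) (nat_lit 0) (XT.lf (nat_lit 0) (nat_lit 14807361520) (nat_lit 456) (nat_lit 13597250751) (nat_lit 532) (nat_lit 11676329530) (nat_lit 198) (nat_lit 5) (nat_lit 204) (nat_lit 5) (nat_lit 205) (nat_lit 5) (nat_lit 669) (nat_lit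 593) (nat_lit 298)) (XT.lf (nat_lit 0) (nat_lit 37210378813) (nat_lit 532) (nat_lit 1420113197) (nat_lit 76) (nat_lit 1939608886) (nat_lit 198) (nat_lit 5) (nat_lit 205) (nat_lit 5) (nat_lit 199) (nat_lit 5) (nat_lit 670) (nat_lit 593) (nat_lit 297)))) (XT.nd (nat_lit 75192) (nat_lit 0) (nat_lit 23560) (XT.nd (nat_lit 78) (nat_lit 456) (nat_lit 0) (XT.lf (nat_lit 0) (nat_lit 5295957034) (nat_lit 456) (nat_lit 17978174956) (nat_lit 76) (nat_lit 17789447354) (nat_lit 192) (nat_lit 5) (nat_lit 198) (nat_lit 5) (nat_lit 193) (nat_lit 5) (nat_lit 671) (nat_lit 593) (nat_lit 296)) (XT.lf (nat_lit 0) (nat_lit 6595053968) (nat_lit 456) (nat_lit 7535358294) (nat_lit 532) (nat_lit 27435058024) (nat_lit 186) (nat_lit 5) (nat_lit 192) (nat_lit 5) (nat_lit 193) (nat_lit 5) (nat_lit 672) (nat_lit 593) (nat_lit 295))) (XT.nd (nat_lit 78) (nat_lit 0) (nat_lit 0) (XT.lf (nat_lit 0) (nat_lit 3505623618) (nat_lit 0) (nat_lit 3505623618) (nat_lit 1748) (nat_lit 1851197663) (nat_lit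 496) (nat_lit 5) (nat_lit 496) (nat_lit 3) (nat_lit 519) (nat_lit 3) (nat_lit 594) (nat_lit 594) (nat_lit 372)) (XT.lf (nat_lit 0) (nat_lit 14384551492) (nat_lit 1748) (nat_lit 1931163868) (nat_lit 1824) (nat_lit 1581973532) (nat_lit 496) (nat_lit 5) (nat_lit 519) (nat_lit 3) (nat_lit 520) (nat_lit 5) (nat_lit 595) (nat_lit 594) (nat_lit 371))))))) (XT.nd (nat_lit 1170) (nat_lit 4180) (nat_lit 0) (XT.nd (nat_lit 546) (nat_lit 1596) (nat_lit 0) (XT.nd (nat_lit 234) (nat_lit 0) (nat_lit 152) (XT.nd (nat_lit 78) (nat_lit 0) (nat_lit 76) (XT.lf (nat_lit 76) (nat_lit 7070359202) (nat_lit 0) (nat_lit 7770300276) (nat_lit 1824) (nat_lit 3231548635) (nat_lit 497) (nat_lit 5) (nat_lit 496) (nat_lit 5) (nat_lit 520) (nat_lit 5) (nat_lit 596) (nat_lit 594) (nat_lit 370)) (XT.nd (nat_lit 78) (nat_lit 0) (nat_lit 0) (XT.lf (nat_lit 0) (nat_lit 15319655306) (nat_lit 1748) (nat_lit 1981105127) (nat_lit 1824) (nat_lit 949182310) (nat_lit 497) (nat_lit 5) (nat_lit 520) (nat_lit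 5) (nat_lit 521) (nat_lit 5) (nat_lit 597) (nat_lit 594) (nat_lit 369)) (XT.lf (nat_lit 76) (nat_lit 7260872506) (nat_lit 0) (nat_lit 8640644713) (nat_lit 1824) (nat_lit 2527849455) (nat_lit 498) (nat_lit 5) (nat_lit 497) (nat_lit 5) (nat_lit 521) (nat_lit 5) (nat_lit 598) (nat_lit 594) (nat_lit 368)))) (XT.nd (nat_lit 156) (nat_lit 0) (nat_lit 0) (XT.nd (nat_lit 78) (nat_lit 0) (nat_lit 0) (XT.lf (nat_lit 0) (nat_lit 16504434586) (nat_lit 1748) (nat_lit 1901958294) (nat_lit 1824) (nat_lit 205798166) (nat_lit 498) (nat_lit 5) (nat_lit 521) (nat_lit 5) (nat_lit 522) (nat_lit 5) (nat_lit 599) (nat_lit 594) (nat_lit 367)) (XT.lf (nat_lit 76) (nat_lit 7589229216) (nat_lit 0) (nat_lit 9631565412) (nat_lit 1824) (nat_lit 1575849908) (nat_lit 499) (nat_lit 5) (nat_lit 498) (nat_lit 5) (nat_lit 522) (nat_lit 5) (nat_lit 600) (nat_lit 594) (nat_lit 366))) (XT.nd (nat_lit 78) (nat_lit 0) (nat_lit 76) (XT.lf (nat_lit 76) (nat_lit 17293051321) (nat_lit 0) (nat_lit 666161864)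 (nat_lit 1824) (nat_lit 1025419600) (nat_lit 499) (nat_lit 5) (nat_lit 498) (nat_lit 5) (nat_lit 522) (nat_lit 5) (nat_lit 601) (nat_lit 594) (nat_lit 365)) (XT.lf (nat_lit 76) (nat_lit 8062233805) (nat_lit 0) (nat_lit 10752639999) (nat_lit 1824) (nat_lit 359457826) (nat_lit 500) (nat_lit 5) (nat_lit 499) (nat_lit 5) (nat_lit 523) (nat_lit 5) (nat_lit 602) (nat_lit 594) (nat_lit 364))))) (XT.nd (nat_lit 312) (nat_lit 0) (nat_lit 152) (XT.nd (nat_lit 156) (nat_lit 0) (nat_lit 76) (XT.nd (nat_lit 78) (nat_lit 0) (nat_lit 76) (XT.lf (nat_lit 0) (nat_lit 326591435) (nat_lit 1824) (nat_lit 1343175291) (nat_lit 1900) (nat_lit 17697797235) (nat_lit 475) (nat_lit 5) (nat_lit 499) (nat_lit 5) (nat_lit 500) (nat_lit 5) (nat_lit 603) (nat_lit 594) (nat_lit 363)) (XT.lf (nat_lit 0) (nat_lit 1123168541) (nat_lit 1824) (nat_lit 10883054222) (nat_lit 1900) (nat_lit 7556358544) (nat_lit 476) (nat_lit 5) (nat_lit 500) (nat_lit 5) (nat_lit 501) (nat_lit 5) (nat_lit 604) (nat_lit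 594) (nat_lit 362))) (XT.nd (nat_lit 78) (nat_lit 0) (nat_lit 76) (XT.lf (nat_lit 0) (nat_lit 1951113948) (nat_lit 1824) (nat_lit 854641150) (nat_lit 1900) (nat_lit 16955435451) (nat_lit 476) (nat_lit 5) (nat_lit 500) (nat_lit 5) (nat_lit 501) (nat_lit 5) (nat_lit 605) (nat_lit 594) (nat_lit 361)) (XT.lf (nat_lit 0) (nat_lit 2895801137) (nat_lit 1824) (nat_lit 10509917823) (nat_lit 1900) (nat_lit 6556049636) (nat_lit 477) (nat_lit 5) (nat_lit 501) (nat_lit 5) (nat_lit 502) (nat_lit 5) (nat_lit 606) (nat_lit 594) (nat_lit 360)))) (XT.nd (nat_lit 156) (nat_lit 0) (nat_lit 76) (XT.nd (nat_lit 78) (nat_lit 0) (nat_lit 76) (XT.lf (nat_lit 0) (nat_lit 3879214464) (nat_lit 1824) (nat_lit 211920594) (nat_lit 1900) (nat_lit 16074826769) (nat_lit 477) (nat_lit 5) (nat_lit 501) (nat_lit 5) (nat_lit 502) (nat_lit 5) (nat_lit 607) (nat_lit 594) (nat_lit 359)) (XT.lf (nat_lit 0) (nat_lit 4981134415) (nat_lit 1824) (nat_lit 9982837453) (nat_lit 1900) (nat_lit 5408290557)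 (nat_lit 478) (nat_lit 5) (nat_lit 502) (nat_lit 5) (nat_lit 503) (nat_lit 5) (nat_lit 608) (nat_lit 594) (nat_lit 358))) (XT.nd (nat_lit 78) (nat_lit 0) (nat_lit 76) (XT.lf (nat_lit 76) (nat_lit 600653729) (nat_lit 0) (nat_lit 5532506700) (nat_lit 1900) (nat_lit 14448967511) (nat_lit 479) (nat_lit 5) (nat_lit 478) (nat_lit 5) (nat_lit 503) (nat_lit 5) (nat_lit 609) (nat_lit 594) (nat_lit 357)) (XT.lf (nat_lit 0) (nat_lit 7397915652) (nat_lit 1824) (nat_lit 9293902817) (nat_lit 1900) (nat_lit 4102578782) (nat_lit 479) (nat_lit 5) (nat_lit 503) (nat_lit 5) (nat_lit 504) (nat_lit 5) (nat_lit 610) (nat_lit 594) (nat_lit 356)))))) (XT.nd (nat_lit 546) (nat_lit 4484) (nat_lit 0) (XT.nd (nat_lit 234) (nat_lit 0) (nat_lit 152) (XT.nd (nat_lit 78) (nat_lit 0) (nat_lit 76) (XT.lf (nat_lit 76) (nat_lit 1588473215) (nat_lit 0) (nat_lit 7142244928) (nat_lit 1900) (nat_lit 12279339012) (nat_lit 480) (nat_lit 5) (nat_lit 479) (nat_lit 5) (nat_lit 504) (nat_lit 5) (nat_lit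 611) (nat_lit 594) (nat_lit 355)) (XT.nd (nat_lit 78) (nat_lit 0) (nat_lit 0) (XT.lf (nat_lit 0) (nat_lit 10165695047) (nat_lit 1824) (nat_lit 8434797641) (nat_lit 1900) (nat_lit 2628027448) (nat_lit 480) (nat_lit 5) (nat_lit 504) (nat_lit 5) (nat_lit 505) (nat_lit 5) (nat_lit 612) (nat_lit 594) (nat_lit 354)) (XT.lf (nat_lit 76) (nat_lit 2757442291) (nat_lit 0) (nat_lit 8933081330) (nat_lit 1900) (nat_lit 9759605957) (nat_lit 481) (nat_lit 5) (nat_lit 480) (nat_lit 5) (nat_lit 505) (nat_lit 5) (nat_lit 613) (nat_lit 594) (nat_lit 353)))) (XT.nd (nat_lit 156) (nat_lit 0) (nat_lit 0) (XT.nd (nat_lit 78) (nat_lit 0) (nat_lit 0) (XT.lf (nat_lit 0) (nat_lit 13304862747) (nat_lit 1824) (nat_lit 7396785986) (nat_lit 1900) (nat_lit 973342431) (nat_lit 481) (nat_lit 5) (nat_lit 505) (nat_lit 5) (nat_lit 506) (nat_lit 5) (nat_lit 614) (nat_lit 594) (nat_lit 352)) (XT.lf (nat_lit 76) (nat_lit 4116716522) (nat_lit 0) (nat_lit 10916752320) (nat_lit 1900) (nat_lit 6869241771)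 (nat_lit 482) (nat_lit 5) (nat_lit 481) (nat_lit 5) (nat_lit 506) (nat_lit 5) (nat_lit 615) (nat_lit 594) (nat_lit 351))) (XT.nd (nat_lit 78) (nat_lit 0) (nat_lit 76) (XT.lf (nat_lit 76) (nat_lit 15957626362) (nat_lit 0) (nat_lit 884805590) (nat_lit 1900) (nat_lit 5291637026) (nat_lit 482) (nat_lit 5) (nat_lit 481) (nat_lit 5) (nat_lit 506) (nat_lit 5) (nat_lit 616) (nat_lit 594) (nat_lit 350)) (XT.lf (nat_lit 76) (nat_lit 5675901251) (nat_lit 0) (nat_lit 13105445467) (nat_lit 1900) (nat_lit 3586832570) (nat_lit 483) (nat_lit 5) (nat_lit 482) (nat_lit 5) (nat_lit 507) (nat_lit 5) (nat_lit 617) (nat_lit 594) (nat_lit 349))))) (XT.nd (nat_lit 312) (nat_lit 1824) (nat_lit 0) (XT.nd (nat_lit 156) (nat_lit 1064) (nat_lit 0) (XT.nd (nat_lit 78) (nat_lit 1824) (nat_lit 0) (XT.lf (nat_lit 76) (nat_lit 17839951386) (nat_lit 0) (nat_lit 2962639001) (nat_lit 1900) (nat_lit 1803510623) (nat_lit 483) (nat_lit 5) (nat_lit 482) (nat_lit 5) (nat_lit 507) (nat_lit 5) (nat_lit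 618) (nat_lit 594) (nat_lit 348)) (XT.lf (nat_lit 0) (nat_lit 108520816) (nat_lit 1900) (nat_lit 15402575391) (nat_lit 76) (nat_lit 7335818238) (nat_lit 458) (nat_lit 5) (nat_lit 483) (nat_lit 5) (nat_lit 459) (nat_lit 5) (nat_lit 619) (nat_lit 594) (nat_lit 347))) (XT.nd (nat_lit 78) (nat_lit 1064) (nat_lit 0) (XT.lf (nat_lit 0) (nat_lit 2082867902) (nat_lit 1900) (nat_lit 3163205816) (nat_lit 76) (nat_lit 17845267735) (nat_lit 458) (nat_lit 5) (nat_lit 483) (nat_lit 5) (nat_lit 459) (nat_lit 5) (nat_lit 620) (nat_lit 594) (nat_lit 346)) (XT.lf (nat_lit 0) (nat_lit 4188788625) (nat_lit 1140) (nat_lit 13932157124) (nat_lit 76) (nat_lit 5217869720) (nat_lit 444) (nat_lit 5) (nat_lit 459) (nat_lit 5) (nat_lit 445) (nat_lit 5) (nat_lit 621) (nat_lit 594) (nat_lit 345)))) (XT.nd (nat_lit 156) (nat_lit 912) (nat_lit 0) (XT.nd (nat_lit 78) (nat_lit 912) (nat_lit 0) (XT.lf (nat_lit 0) (nat_lit 6389446392) (nat_lit 1140) (nat_lit 1358058994) (nat_lit 76) (nat_lit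 15842681403) (nat_lit 444) (nat_lit 5) (nat_lit 459) (nat_lit 5) (nat_lit 445) (nat_lit 5) (nat_lit 622) (nat_lit 594) (nat_lit 344)) (XT.lf (nat_lit 0) (nat_lit 8725016613) (nat_lit 988) (nat_lit 12247264100) (nat_lit 76) (nat_lit 2872487033) (nat_lit 432) (nat_lit 5) (nat_lit 445) (nat_lit 5) (nat_lit 433) (nat_lit 5) (nat_lit 623) (nat_lit 594) (nat_lit 343))) (XT.nd (nat_lit 78) (nat_lit 0) (nat_lit 0) (XT.lf (nat_lit 0) (nat_lit 680741079) (nat_lit 912) (nat_lit 10488085189) (nat_lit 988) (nat_lit 12934383683) (nat_lit 420) (nat_lit 5) (nat_lit 432) (nat_lit 5) (nat_lit 433) (nat_lit 5) (nat_lit 624) (nat_lit 594) (nat_lit 342)) (XT.lf (nat_lit 0) (nat_lit 13742251871) (nat_lit 988) (nat_lit 10336930766) (nat_lit 76) (nat_lit 286023757) (nat_lit 420) (nat_lit 5) (nat_lit 433) (nat_lit 5) (nat_lit 421) (nat_lit 5) (nat_lit 625) (nat_lit 594) (nat_lit 341))))))))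
noncomputable def xc210 : XT := (XT.nd (nat_lit 2262) (nat_lit 5624) (nat_lit 0) (XT.nd (nat_lit 1092) (nat_lit 5244) (nat_lit 0) (XT.nd (nat_lit 546) (nat_lit 3040) (nat_lit 0) (XT.nd (nat_lit 234) (nat_lit 1748) (nat_lit 0) (XT.nd (nat_lit 78) (nat_lit 836) (nat_lit 0) (XT.lf (nat_lit 0) (nat_lit 2976769790) (nat_lit 836) (nat_lit 13475899832) (nat_lit 912) (nat_lit 8178062852) (nat_lit 409) (nat_lit 5) (nat_lit 420) (nat_lit 5) (nat_lit 421) (nat_lit 5) (nat_lit 626) (nat_lit 594) (nat_lit 340)) (XT.nd (nat_lit 78) (nat_lit 836) (nat_lit 0) (XT.lf (nat_lit 0) (nat_lit 16693753113) (nat_lit 836) (nat_lit 2589691563) (nat_lit 912) (nat_lit 5616801602) (nat_lit 409) (nat_lit 5) (nat_lit 420) (nat_lit 5) (nat_lit 421) (nat_lit 5) (nat_lit 627) (nat_lit 594) (nat_lit 339)) (XT.lf (nat_lit 0) (nat_lit 5523979633) (nat_lit 836) (nat_lit 16734847498) (nat_lit 912) (nat_lit 2914563565) (nat_lit 398) (nat_lit 5) (nat_lit 409) (nat_lit 5) (nat_lit 410) (nat_lit 5)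 (nat_lit 628) (nat_lit 594) (nat_lit 338)))) (XT.nd (nat_lit 156) (nat_lit 836) (nat_lit 0) (XT.nd (nat_lit 78) (nat_lit 912) (nat_lit 0) (XT.lf (nat_lit 0) (nat_lit 19619831358) (nat_lit 836) (nat_lit 5742881419) (nat_lit 912) (nat_lit 87905486) (nat_lit 398) (nat_lit 5) (nat_lit 409) (nat_lit 5) (nat_lit 410) (nat_lit 5) (nat_lit 629) (nat_lit 594) (nat_lit 337)) (XT.lf (nat_lit 0) (nat_lit 2845771305) (nat_lit 912) (nat_lit 17415459576) (nat_lit 76) (nat_lit 5470053765) (nat_lit 386) (nat_lit 5) (nat_lit 398) (nat_lit 5) (nat_lit 387) (nat_lit 5) (nat_lit 630) (nat_lit 594) (nat_lit 336))) (XT.nd (nat_lit 78) (nat_lit 836) (nat_lit 0) (XT.lf (nat_lit 0) (nat_lit 5911333878) (nat_lit 912) (nat_lit 3234362514) (nat_lit 76) (nat_lit 16870368722) (nat_lit 386) (nat_lit 5) (nat_lit 398) (nat_lit 5) (nat_lit 387) (nat_lit 5) (nat_lit 631) (nat_lit 594) (nat_lit 335)) (XT.lf (nat_lit 0) (nat_lit 9123821585) (nat_lit 912) (nat_lit 14943336756) (nat_lit 76) (nat_lit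 2237670730) (nat_lit 375) (nat_lit 5) (nat_lit 387) (nat_lit 5) (nat_lit 376) (nat_lit 5) (nat_lit 632) (nat_lit 594) (nat_lit 334))))) (XT.nd (nat_lit 234) (nat_lit 1520) (nat_lit 0) (XT.nd (nat_lit 78) (nat_lit 1520) (nat_lit 0) (XT.lf (nat_lit 0) (nat_lit 12480041032) (nat_lit 912) (nat_lit 369629863) (nat_lit 76) (nat_lit 13748107930) (nat_lit 375) (nat_lit 5) (nat_lit 387) (nat_lit 5) (nat_lit 376) (nat_lit 5) (nat_lit 633) (nat_lit 594) (nat_lit 333)) (XT.nd (nat_lit 78) (nat_lit 760) (nat_lit 0) (XT.lf (nat_lit 0) (nat_lit 14685118496) (nat_lit 760) (nat_lit 1310735871) (nat_lit 836) (nat_lit 10898883970) (nat_lit 365) (nat_lit 5) (nat_lit 375) (nat_lit 5) (nat_lit 376) (nat_lit 5) (nat_lit 634) (nat_lit 594) (nat_lit 332)) (XT.lf (nat_lit 0) (nat_lit 2814305369) (nat_lit 760) (nat_lit 16853514097) (nat_lit 836) (nat_lit 7528101014) (nat_lit 355) (nat_lit 5) (nat_lit 365) (nat_lit 5) (nat_lit 366) (nat_lit 5) (nat_lit 635) (nat_lit 594) (nat_lit 331))))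 (XT.nd (nat_lit 156) (nat_lit 836) (nat_lit 0) (XT.nd (nat_lit 78) (nat_lit 684) (nat_lit 0) (XT.lf (nat_lit 0) (nat_lit 18292371619) (nat_lit 760) (nat_lit 5208604101) (nat_lit 836) (nat_lit 4000395657) (nat_lit 355) (nat_lit 5) (nat_lit 365) (nat_lit 5) (nat_lit 366) (nat_lit 5) (nat_lit 636) (nat_lit 594) (nat_lit 330)) (XT.lf (nat_lit 0) (nat_lit 6303396981) (nat_lit 684) (nat_lit 21188873909) (nat_lit 760) (nat_lit 319031029) (nat_lit 346) (nat_lit 5) (nat_lit 355) (nat_lit 5) (nat_lit 356) (nat_lit 5) (nat_lit 637) (nat_lit 594) (nat_lit 329))) (XT.nd (nat_lit 78) (nat_lit 760) (nat_lit 0) (XT.lf (nat_lit 0) (nat_lit 3484863463) (nat_lit 760) (nat_lit 5935591604) (nat_lit 76) (nat_lit 18704650657) (nat_lit 345) (nat_lit 5) (nat_lit 355) (nat_lit 5) (nat_lit 346) (nat_lit 5) (nat_lit 638) (nat_lit 594) (nat_lit 328)) (XT.lf (nat_lit 0) (nat_lit 7440519616) (nat_lit 836) (nat_lit 18385910205) (nat_lit 76) (nat_lit 2617114633) (nat_lit 335) (nat_lit 5)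 (nat_lit 346) (nat_lit 5) (nat_lit 336) (nat_lit 5) (nat_lit 639) (nat_lit 594) (nat_lit 327)))))) (XT.nd (nat_lit 546) (nat_lit 2508) (nat_lit 0) (XT.nd (nat_lit 234) (nat_lit 1368) (nat_lit 0) (XT.nd (nat_lit 78) (nat_lit 1368) (nat_lit 0) (XT.lf (nat_lit 0) (nat_lit 11575120725) (nat_lit 836) (nat_lit 2382051105) (nat_lit 76) (nat_lit 14809183624) (nat_lit 335) (nat_lit 5) (nat_lit 346) (nat_lit 5) (nat_lit 336) (nat_lit 5) (nat_lit 640) (nat_lit 594) (nat_lit 326)) (XT.nd (nat_lit 78) (nat_lit 684) (nat_lit 0) (XT.lf (nat_lit 0) (nat_lit 14124157419) (nat_lit 684) (nat_lit 1757361786) (nat_lit 760) (nat_lit 13212321495) (nat_lit 326) (nat_lit 5) (nat_lit 335) (nat_lit 5) (nat_lit 336) (nat_lit 5) (nat_lit 641) (nat_lit 594) (nat_lit 325)) (XT.lf (nat_lit 0) (nat_lit 1512573762) (nat_lit 684) (nat_lit 18854197946) (nat_lit 760) (nat_lit 9059249549) (nat_lit 317) (nat_lit 5) (nat_lit 326) (nat_lit 5) (nat_lit 327) (nat_lit 5) (nat_lit 642) (nat_lit 594)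 (nat_lit 324)))) (XT.nd (nat_lit 156) (nat_lit 760) (nat_lit 0) (XT.nd (nat_lit 78) (nat_lit 608) (nat_lit 0) (XT.lf (nat_lit 0) (nat_lit 18512622789) (nat_lit 684) (nat_lit 6538584807) (nat_lit 760) (nat_lit 4711448389) (nat_lit 317) (nat_lit 5) (nat_lit 326) (nat_lit 5) (nat_lit 327) (nat_lit 5) (nat_lit 643) (nat_lit 594) (nat_lit 323)) (XT.lf (nat_lit 0) (nat_lit 5780385649) (nat_lit 608) (nat_lit 24123093415) (nat_lit 684) (nat_lit 201061529) (nat_lit 309) (nat_lit 5) (nat_lit 317) (nat_lit 5) (nat_lit 318) (nat_lit 5) (nat_lit 644) (nat_lit 594) (nat_lit 322))) (XT.nd (nat_lit 78) (nat_lit 684) (nat_lit 0) (XT.lf (nat_lit 0) (nat_lit 4458650416) (nat_lit 684) (nat_lit 7223190054) (nat_lit 76) (nat_lit 18768514888) (nat_lit 308) (nat_lit 5) (nat_lit 317) (nat_lit 5) (nat_lit 309) (nat_lit 5) (nat_lit 645) (nat_lit 594) (nat_lit 321)) (XT.lf (nat_lit 0) (nat_lit 9280642357) (nat_lit 760) (nat_lit 20457461515) (nat_lit 76) (nat_lit 1063520522) (nat_lit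 299) (nat_lit 5) (nat_lit 309) (nat_lit 5) (nat_lit 300) (nat_lit 5) (nat_lit 646) (nat_lit 594) (nat_lit 320))))) (XT.nd (nat_lit 312) (nat_lit 1292) (nat_lit 0) (XT.nd (nat_lit 156) (nat_lit 608) (nat_lit 0) (XT.nd (nat_lit 78) (nat_lit 608) (nat_lit 0) (XT.lf (nat_lit 0) (nat_lit 14322826348) (nat_lit 760) (nat_lit 2878806175) (nat_lit 76) (nat_lit 13955811359) (nat_lit 299) (nat_lit 5) (nat_lit 309) (nat_lit 5) (nat_lit 300) (nat_lit 5) (nat_lit 647) (nat_lit 594) (nat_lit 319)) (XT.lf (nat_lit 0) (nat_lit 15248519422) (nat_lit 608) (nat_lit 4313981842) (nat_lit 684) (nat_lit 11955945660) (nat_lit 291) (nat_lit 5) (nat_lit 299) (nat_lit 5) (nat_lit 300) (nat_lit 5) (nat_lit 648) (nat_lit 594) (nat_lit 318))) (XT.nd (nat_lit 78) (nat_lit 0) (nat_lit 0) (XT.lf (nat_lit 0) (nat_lit 1855079082) (nat_lit 608) (nat_lit 23138388476) (nat_lit 684) (nat_lit 6891472624) (nat_lit 283) (nat_lit 5) (nat_lit 291) (nat_lit 5) (nat_lit 292) (nat_lit 5) (nat_lit 649) (nat_lit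 594) (nat_lit 317)) (XT.lf (nat_lit 0) (nat_lit 20531284957) (nat_lit 608) (nat_lit 10137024175) (nat_lit 684) (nat_lit 1587749159) (nat_lit 283) (nat_lit 5) (nat_lit 291) (nat_lit 5) (nat_lit 292) (nat_lit 5) (nat_lit 650) (nat_lit 594) (nat_lit 316)))) (XT.nd (nat_lit 156) (nat_lit 608) (nat_lit 0) (XT.nd (nat_lit 78) (nat_lit 0) (nat_lit 0) (XT.lf (nat_lit 0) (nat_lit 3835912139) (nat_lit 684) (nat_lit 25643306357) (nat_lit 76) (nat_lit 3153604260) (nat_lit 274) (nat_lit 5) (nat_lit 283) (nat_lit 5) (nat_lit 275) (nat_lit 5) (nat_lit 651) (nat_lit 594) (nat_lit 315)) (XT.lf (nat_lit 0) (nat_lit 9490886702) (nat_lit 684) (nat_lit 6859583955) (nat_lit 76) (nat_lit 16663560054) (nat_lit 274) (nat_lit 5) (nat_lit 283) (nat_lit 5) (nat_lit 275) (nat_lit 5) (nat_lit 652) (nat_lit 594) (nat_lit 314))) (XT.nd (nat_lit 78) (nat_lit 0) (nat_lit 0) (XT.lf (nat_lit 0) (nat_lit 12460399162) (nat_lit 608) (nat_lit 2877254004) (nat_lit 684) (nat_lit 18063635911) (nat_lit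 266) (nat_lit 5) (nat_lit 274) (nat_lit 5) (nat_lit 275) (nat_lit 5) (nat_lit 653) (nat_lit 594) (nat_lit 313)) (XT.lf (nat_lit 0) (nat_lit 21416048944) (nat_lit 684) (nat_lit 1609312107) (nat_lit 76) (nat_lit 10768637775) (nat_lit 266) (nat_lit 5) (nat_lit 275) (nat_lit 5) (nat_lit 267) (nat_lit 5) (nat_lit 654) (nat_lit 594) (nat_lit 312))))))) (XT.nd (nat_lit 1092) (nat_lit 912) (nat_lit 0) (XT.nd (nat_lit 546) (nat_lit 2052) (nat_lit 0) (XT.nd (nat_lit 234) (nat_lit 1520) (nat_lit 0) (XT.nd (nat_lit 78) (nat_lit 608) (nat_lit 0) (XT.lf (nat_lit 0) (nat_lit 18327410732) (nat_lit 532) (nat_lit 9424505335) (nat_lit 608) (nat_lit 6439928731) (nat_lit 259) (nat_lit 5) (nat_lit 266) (nat_lit 5) (nat_lit 267) (nat_lit 5) (nat_lit 655) (nat_lit 594) (nat_lit 311)) (XT.nd (nat_lit 78) (nat_lit 76) (nat_lit 0) (XT.lf (nat_lit 0) (nat_lit 4109373919) (nat_lit 532) (nat_lit 30169434778) (nat_lit 608) (nat_lit 317552923) (nat_lit 252) (nat_lit 5) (nat_lit 259) (nat_lit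 5) (nat_lit 260) (nat_lit 5) (nat_lit 656) (nat_lit 594) (nat_lit 310)) (XT.lf (nat_lit 0) (nat_lit 6016995113) (nat_lit 608) (nat_lit 10413566322) (nat_lit 76) (nat_lit 18574288519) (nat_lit 251) (nat_lit 5) (nat_lit 259) (nat_lit 5) (nat_lit 252) (nat_lit 5) (nat_lit 657) (nat_lit 594) (nat_lit 309)))) (XT.nd (nat_lit 156) (nat_lit 988) (nat_lit 0) (XT.nd (nat_lit 78) (nat_lit 0) (nat_lit 0) (XT.lf (nat_lit 0) (nat_lit 10190092218) (nat_lit 532) (nat_lit 2347980417) (nat_lit 608) (nat_lit 22882111716) (nat_lit 244) (nat_lit 5) (nat_lit 251) (nat_lit 5) (nat_lit 252) (nat_lit 5) (nat_lit 658) (nat_lit 594) (nat_lit 308)) (XT.lf (nat_lit 0) (nat_lit 19335876446) (nat_lit 608) (nat_lit 4576716993) (nat_lit 76) (nat_lit 11928305988) (nat_lit 244) (nat_lit 5) (nat_lit 252) (nat_lit 5) (nat_lit 245) (nat_lit 5) (nat_lit 659) (nat_lit 594) (nat_lit 307))) (XT.nd (nat_lit 78) (nat_lit 456) (nat_lit 0) (XT.lf (nat_lit 0) (nat_lit 16690336142) (nat_lit 532) (nat_lit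 9701198740) (nat_lit 608) (nat_lit 9876056037) (nat_lit 237) (nat_lit 5) (nat_lit 244) (nat_lit 5) (nat_lit 245) (nat_lit 5) (nat_lit 660) (nat_lit 594) (nat_lit 306)) (XT.lf (nat_lit 0) (nat_lit 1731185808) (nat_lit 456) (nat_lit 31928406280) (nat_lit 532) (nat_lit 3041798523) (nat_lit 231) (nat_lit 5) (nat_lit 237) (nat_lit 5) (nat_lit 238) (nat_lit 5) (nat_lit 661) (nat_lit 594) (nat_lit 305))))) (XT.nd (nat_lit 234) (nat_lit 1444) (nat_lit 0) (XT.nd (nat_lit 78) (nat_lit 532) (nat_lit 0) (XT.lf (nat_lit 0) (nat_lit 4072112460) (nat_lit 532) (nat_lit 13503458150) (nat_lit 76) (nat_lit 19563895560) (nat_lit 230) (nat_lit 5) (nat_lit 237) (nat_lit 5) (nat_lit 231) (nat_lit 5) (nat_lit 662) (nat_lit 594) (nat_lit 304)) (XT.nd (nat_lit 78) (nat_lit 0) (nat_lit 0) (XT.lf (nat_lit 0) (nat_lit 8481000698) (nat_lit 532) (nat_lit 2859722355) (nat_lit 608) (nat_lit 26244115117) (nat_lit 223) (nat_lit 5) (nat_lit 230) (nat_lit 5) (nat_lit 231) (nat_lit 5) (nat_lit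 663) (nat_lit 594) (nat_lit 303)) (XT.lf (nat_lit 0) (nat_lit 18922874586) (nat_lit 608) (nat_lit 7031326648) (nat_lit 76) (nat_lit 12081553080) (nat_lit 223) (nat_lit 5) (nat_lit 231) (nat_lit 5) (nat_lit 224) (nat_lit 5) (nat_lit 664) (nat_lit 594) (nat_lit 302)))) (XT.nd (nat_lit 156) (nat_lit 988) (nat_lit 0) (XT.nd (nat_lit 78) (nat_lit 0) (nat_lit 0) (XT.lf (nat_lit 0) (nat_lit 15666493973) (nat_lit 456) (nat_lit 11108933530) (nat_lit 532) (nat_lit 11717886184) (nat_lit 217) (nat_lit 5) (nat_lit 223) (nat_lit 5) (nat_lit 224) (nat_lit 5) (nat_lit 665) (nat_lit 594) (nat_lit 301)) (XT.lf (nat_lit 0) (nat_lit 34856831796) (nat_lit 532) (nat_lit 74682784) (nat_lit 76) (nat_lit 4027073736) (nat_lit 217) (nat_lit 5) (nat_lit 224) (nat_lit 5) (nat_lit 218) (nat_lit 5) (nat_lit 666) (nat_lit 594) (nat_lit 300))) (XT.nd (nat_lit 78) (nat_lit 456) (nat_lit 0) (XT.lf (nat_lit 0) (nat_lit 3843495452) (nat_lit 532) (nat_lit 16091285764) (nat_lit 76) (nat_lit 19493413379)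 (nat_lit 210) (nat_lit 5) (nat_lit 217) (nat_lit 5) (nat_lit 211) (nat_lit 5) (nat_lit 667) (nat_lit 594) (nat_lit 299)) (XT.lf (nat_lit 0) (nat_lit 7377511489) (nat_lit 456) (nat_lit 4561835396) (nat_lit 532) (nat_lit 27966371592) (nat_lit 204) (nat_lit 5) (nat_lit 210) (nat_lit 5) (nat_lit 211) (nat_lit 5) (nat_lit 668) (nat_lit 594) (nat_lit 298)))))) (XT.nd (nat_lit 75660) (nat_lit 0) (nat_lit 21508) (XT.nd (nat_lit 234) (nat_lit 456) (nat_lit 0) (XT.nd (nat_lit 78) (nat_lit 456) (nat_lit 0) (XT.lf (nat_lit 0) (nat_lit 20376175804) (nat_lit 532) (nat_lit 8932385302) (nat_lit 76) (nat_lit 11080650589) (nat_lit 204) (nat_lit 5) (nat_lit 211) (nat_lit 5) (nat_lit 205) (nat_lit 5) (nat_lit 669) (nat_lit 594) (nat_lit 297)) (XT.nd (nat_lit 78) (nat_lit 0) (nat_lit 0) (XT.lf (nat_lit 0) (nat_lit 15303244681) (nat_lit 456) (nat_lit 13806277273) (nat_lit 532) (nat_lit 11770297278) (nat_lit 198) (nat_lit 5) (nat_lit 204) (nat_lit 5) (nat_lit 205) (nat_lit 5) (nat_lit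 670) (nat_lit 594) (nat_lit 296)) (XT.lf (nat_lit 0) (nat_lit 38089121631) (nat_lit 532) (nat_lit 1250408768) (nat_lit 76) (nat_lit 2039276854) (nat_lit 198) (nat_lit 5) (nat_lit 205) (nat_lit 5) (nat_lit 199) (nat_lit 5) (nat_lit 671) (nat_lit 594) (nat_lit 295)))) (XT.nd (nat_lit 75270) (nat_lit 0) (nat_lit 23104) (XT.nd (nat_lit 75192) (nat_lit 0) (nat_lit 23104) (XT.lf (nat_lit 0) (nat_lit 5535937999) (nat_lit 456) (nat_lit 18139148720) (nat_lit 76) (nat_lit 18207078211) (nat_lit 192) (nat_lit 5) (nat_lit 198) (nat_lit 5) (nat_lit 193) (nat_lit 5) (nat_lit 672) (nat_lit 594) (nat_lit 294)) (XT.lf (nat_lit 0) (nat_lit 3680761913) (nat_lit 0) (nat_lit 3680761913) (nat_lit 1748) (nat_lit 1673955858) (nat_lit 496) (nat_lit 5) (nat_lit 496) (nat_lit 3) (nat_lit 519) (nat_lit 3) (nat_lit 595) (nat_lit 595) (nat_lit 370))) (XT.nd (nat_lit 78) (nat_lit 0) (nat_lit 0) (XT.lf (nat_lit 0) (nat_lit 15082771438) (nat_lit 1748) (nat_lit 1754254139) (nat_lit 1824) (nat_lit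 1410380866) (nat_lit 496) (nat_lit 5) (nat_lit 519) (nat_lit 3) (nat_lit 520) (nat_lit 5) (nat_lit 596) (nat_lit 595) (nat_lit 369)) (XT.lf (nat_lit 76) (nat_lit 7425881412) (nat_lit 0) (nat_lit 8115460762) (nat_lit 1824) (nat_lit 2884207566) (nat_lit 497) (nat_lit 5) (nat_lit 496) (nat_lit 5) (nat_lit 520) (nat_lit 5) (nat_lit 597) (nat_lit 595) (nat_lit 368))))) (XT.nd (nat_lit 312) (nat_lit 1672) (nat_lit 0) (XT.nd (nat_lit 156) (nat_lit 0) (nat_lit 76) (XT.nd (nat_lit 78) (nat_lit 0) (nat_lit 0) (XT.lf (nat_lit 0) (nat_lit 16020791054) (nat_lit 1748) (nat_lit 1801659020) (nat_lit 1824) (nat_lit 784572019) (nat_lit 497) (nat_lit 5) (nat_lit 520) (nat_lit 5) (nat_lit 521) (nat_lit 5) (nat_lit 598) (nat_lit 595) (nat_lit 367)) (XT.lf (nat_lit 76) (nat_lit 7623716927) (nat_lit 0) (nat_lit 8984246205) (nat_lit 1824) (nat_lit 2182198396) (nat_lit 498) (nat_lit 5) (nat_lit 497) (nat_lit 5) (nat_lit 521) (nat_lit 5) (nat_lit 599) (nat_lit 595) (nat_lit 366)))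 (XT.nd (nat_lit 78) (nat_lit 0) (nat_lit 0) (XT.lf (nat_lit 0) (nat_lit 17214235724) (nat_lit 1748) (nat_lit 1717910867) (nat_lit 1824) (nat_lit 44670331) (nat_lit 498) (nat_lit 5) (nat_lit 521) (nat_lit 5) (nat_lit 522) (nat_lit 5) (nat_lit 600) (nat_lit 595) (nat_lit 365)) (XT.lf (nat_lit 76) (nat_lit 7961639297) (nat_lit 0) (nat_lit 9977270776) (nat_lit 1824) (nat_lit 1226170133) (nat_lit 499) (nat_lit 5) (nat_lit 498) (nat_lit 5) (nat_lit 522) (nat_lit 5) (nat_lit 601) (nat_lit 595) (nat_lit 364)))) (XT.nd (nat_lit 156) (nat_lit 0) (nat_lit 0) (XT.nd (nat_lit 78) (nat_lit 1748) (nat_lit 0) (XT.lf (nat_lit 76) (nat_lit 17855211854) (nat_lit 0) (nat_lit 829557704) (nat_lit 1824) (nat_lit 672205665) (nat_lit 499) (nat_lit 5) (nat_lit 498) (nat_lit 5) (nat_lit 522) (nat_lit 5) (nat_lit 602) (nat_lit 595) (nat_lit 363)) (XT.lf (nat_lit 0) (nat_lit 247583) (nat_lit 1824) (nat_lit 11103979141) (nat_lit 1900) (nat_lit 8446375540) (nat_lit 475) (nat_lit 5) (nat_lit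 499) (nat_lit 5) (nat_lit 500) (nat_lit 5) (nat_lit 603) (nat_lit 595) (nat_lit 362))) (XT.nd (nat_lit 78) (nat_lit 0) (nat_lit 76) (XT.lf (nat_lit 0) (nat_lit 688109465) (nat_lit 1824) (nat_lit 1146528869) (nat_lit 1900) (nat_lit 17913155720) (nat_lit 475) (nat_lit 5) (nat_lit 499) (nat_lit 5) (nat_lit 500) (nat_lit 5) (nat_lit 604) (nat_lit 595) (nat_lit 361)) (XT.lf (nat_lit 0) (nat_lit 1494271882) (nat_lit 1824) (nat_lit 10870838106) (nat_lit 1900) (nat_lit 7581729107) (nat_lit 476) (nat_lit 5) (nat_lit 500) (nat_lit 5) (nat_lit 501) (nat_lit 5) (nat_lit 605) (nat_lit 595) (nat_lit 360))))))))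
noncomputable def xc211 : XT := (XT.nd (nat_lit 2262) (nat_lit 11552) (nat_lit 0) (XT.nd (nat_lit 1092) (nat_lit 7676) (nat_lit 0) (XT.nd (nat_lit 546) (nat_lit 0) (nat_lit 304) (XT.nd (nat_lit 234) (nat_lit 0) (nat_lit 152) (XT.nd (nat_lit 78) (nat_lit 0) (nat_lit 76) (XT.lf (nat_lit 0) (nat_lit 2331940119) (nat_lit 1824) (nat_lit 646364169) (nat_lit 1900) (nat_lit 17171253367) (nat_lit 476) (nat_lit 5) (nat_lit 500) (nat_lit 5) (nat_lit 501) (nat_lit 5) (nat_lit 606) (nat_lit 595) (nat_lit 359)) (XT.nd (nat_lit 78) (nat_lit 0) (nat_lit 0) (XT.lf (nat_lit 0) (nat_lit 3289541120) (nat_lit 1824) (nat_lit 10488746220) (nat_lit 1900) (nat_lit 6575979925) (nat_lit 477) (nat_lit 5) (nat_lit 501) (nat_lit 5) (nat_lit 502) (nat_lit 5) (nat_lit 607) (nat_lit 595) (nat_lit 358)) (XT.lf (nat_lit 76) (nat_lit 10816142) (nat_lit 0) (nat_lit 4275292013) (nat_lit 1900) (nat_lit 16276566894) (nat_lit 478) (nat_lit 5) (nat_lit 477) (nat_lit 5) (nat_lit 502) (nat_lit 5) (nat_lit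 608) (nat_lit 595) (nat_lit 357)))) (XT.nd (nat_lit 156) (nat_lit 0) (nat_lit 76) (XT.nd (nat_lit 78) (nat_lit 0) (nat_lit 0) (XT.lf (nat_lit 0) (nat_lit 5404361512) (nat_lit 1824) (nat_lit 9950006702) (nat_lit 1900) (nat_lit 5418847932) (nat_lit 478) (nat_lit 5) (nat_lit 502) (nat_lit 5) (nat_lit 503) (nat_lit 5) (nat_lit 609) (nat_lit 595) (nat_lit 356)) (XT.lf (nat_lit 76) (nat_lit 843624781) (nat_lit 0) (nat_lit 5730957614) (nat_lit 1900) (nat_lit 14412793873) (nat_lit 479) (nat_lit 5) (nat_lit 478) (nat_lit 5) (nat_lit 503) (nat_lit 5) (nat_lit 610) (nat_lit 595) (nat_lit 355))) (XT.nd (nat_lit 78) (nat_lit 0) (nat_lit 0) (XT.lf (nat_lit 0) (nat_lit 7857823666) (nat_lit 1824) (nat_lit 9246523746) (nat_lit 1900) (nat_lit 4099680106) (nat_lit 479) (nat_lit 5) (nat_lit 503) (nat_lit 5) (nat_lit 504) (nat_lit 5) (nat_lit 611) (nat_lit 595) (nat_lit 354)) (XT.lf (nat_lit 76) (nat_lit 1851965220) (nat_lit 0) (nat_lit 7360704823) (nat_lit 1900) (nat_lit 12211423187)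 (nat_lit 480) (nat_lit 5) (nat_lit 479) (nat_lit 5) (nat_lit 504) (nat_lit 5) (nat_lit 612) (nat_lit 595) (nat_lit 353))))) (XT.nd (nat_lit 234) (nat_lit 0) (nat_lit 76) (XT.nd (nat_lit 78) (nat_lit 0) (nat_lit 0) (XT.lf (nat_lit 0) (nat_lit 10669838943) (nat_lit 1824) (nat_lit 8369789132) (nat_lit 1900) (nat_lit 2607427907) (nat_lit 480) (nat_lit 5) (nat_lit 504) (nat_lit 5) (nat_lit 505) (nat_lit 5) (nat_lit 613) (nat_lit 595) (nat_lit 352)) (XT.nd (nat_lit 78) (nat_lit 0) (nat_lit 76) (XT.lf (nat_lit 76) (nat_lit 3044758070) (nat_lit 0) (nat_lit 9176014773) (nat_lit 1900) (nat_lit 9652412946) (nat_lit 481) (nat_lit 5) (nat_lit 480) (nat_lit 5) (nat_lit 505) (nat_lit 5) (nat_lit 614) (nat_lit 595) (nat_lit 351)) (XT.lf (nat_lit 0) (nat_lit 13861177114) (nat_lit 1824) (nat_lit 7310868168) (nat_lit 1900) (nat_lit 930624104) (nat_lit 481) (nat_lit 5) (nat_lit 505) (nat_lit 5) (nat_lit 506) (nat_lit 5) (nat_lit 615) (nat_lit 595) (nat_lit 350)))) (XT.nd (nat_lit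 156) (nat_lit 0) (nat_lit 76) (XT.nd (nat_lit 78) (nat_lit 0) (nat_lit 0) (XT.lf (nat_lit 76) (nat_lit 4431365880) (nat_lit 0) (nat_lit 11188807261) (nat_lit 1900) (nat_lit 6714854062) (nat_lit 482) (nat_lit 5) (nat_lit 481) (nat_lit 5) (nat_lit 506) (nat_lit 5) (nat_lit 616) (nat_lit 595) (nat_lit 349)) (XT.lf (nat_lit 76) (nat_lit 16504538720) (nat_lit 0) (nat_lit 955168266) (nat_lit 1900) (nat_lit 5111418253) (nat_lit 482) (nat_lit 5) (nat_lit 481) (nat_lit 5) (nat_lit 506) (nat_lit 5) (nat_lit 617) (nat_lit 595) (nat_lit 348))) (XT.nd (nat_lit 78) (nat_lit 0) (nat_lit 0) (XT.lf (nat_lit 76) (nat_lit 6021608495) (nat_lit 0) (nat_lit 13411465281) (nat_lit 1900) (nat_lit 3376930830) (nat_lit 483) (nat_lit 5) (nat_lit 482) (nat_lit 5) (nat_lit 507) (nat_lit 5) (nat_lit 618) (nat_lit 595) (nat_lit 347)) (XT.lf (nat_lit 76) (nat_lit 18424386902) (nat_lit 0) (nat_lit 3064941688) (nat_lit 1900) (nat_lit 1563464766) (nat_lit 483) (nat_lit 5) (nat_lit 482) (nat_lit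 5) (nat_lit 507) (nat_lit 5) (nat_lit 619) (nat_lit 595) (nat_lit 346)))))) (XT.nd (nat_lit 546) (nat_lit 3420) (nat_lit 0) (XT.nd (nat_lit 234) (nat_lit 1824) (nat_lit 0) (XT.nd (nat_lit 78) (nat_lit 1064) (nat_lit 0) (XT.lf (nat_lit 0) (nat_lit 379082148) (nat_lit 1900) (nat_lit 15475234295) (nat_lit 76) (nat_lit 7444153146) (nat_lit 458) (nat_lit 5) (nat_lit 483) (nat_lit 5) (nat_lit 459) (nat_lit 5) (nat_lit 620) (nat_lit 595) (nat_lit 345)) (XT.nd (nat_lit 78) (nat_lit 1064) (nat_lit 0) (XT.lf (nat_lit 0) (nat_lit 2387653609) (nat_lit 1900) (nat_lit 2995692870) (nat_lit 76) (nat_lit 18164544210) (nat_lit 458) (nat_lit 5) (nat_lit 483) (nat_lit 5) (nat_lit 459) (nat_lit 5) (nat_lit 621) (nat_lit 595) (nat_lit 344)) (XT.lf (nat_lit 0) (nat_lit 4531825797) (nat_lit 1140) (nat_lit 13976141523) (nat_lit 76) (nat_lit 5292424498) (nat_lit 444) (nat_lit 5) (nat_lit 459) (nat_lit 5) (nat_lit 445) (nat_lit 5) (nat_lit 622) (nat_lit 595) (nat_lit 343)))) (XT.nd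 (nat_lit 156) (nat_lit 912) (nat_lit 0) (XT.nd (nat_lit 78) (nat_lit 912) (nat_lit 0) (XT.lf (nat_lit 0) (nat_lit 6771413163) (nat_lit 1140) (nat_lit 1155162582) (nat_lit 76) (nat_lit 16130316781) (nat_lit 444) (nat_lit 5) (nat_lit 459) (nat_lit 5) (nat_lit 445) (nat_lit 5) (nat_lit 623) (nat_lit 595) (nat_lit 342)) (XT.lf (nat_lit 0) (nat_lit 9150051061) (nat_lit 988) (nat_lit 12258493904) (nat_lit 76) (nat_lit 2908093294) (nat_lit 432) (nat_lit 5) (nat_lit 445) (nat_lit 5) (nat_lit 433) (nat_lit 5) (nat_lit 624) (nat_lit 595) (nat_lit 341))) (XT.nd (nat_lit 78) (nat_lit 0) (nat_lit 0) (XT.lf (nat_lit 0) (nat_lit 926533777) (nat_lit 912) (nat_lit 10712798152) (nat_lit 988) (nat_lit 12940985757) (nat_lit 420) (nat_lit 5) (nat_lit 432) (nat_lit 5) (nat_lit 433) (nat_lit 5) (nat_lit 625) (nat_lit 595) (nat_lit 340)) (XT.lf (nat_lit 0) (nat_lit 14259285204) (nat_lit 988) (nat_lit 10311089563) (nat_lit 76) (nat_lit 277278379) (nat_lit 420) (nat_lit 5) (nat_lit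 433) (nat_lit 5) (nat_lit 421) (nat_lit 5) (nat_lit 626) (nat_lit 595) (nat_lit 339))))) (XT.nd (nat_lit 312) (nat_lit 1672) (nat_lit 0) (XT.nd (nat_lit 156) (nat_lit 912) (nat_lit 0) (XT.nd (nat_lit 78) (nat_lit 0) (nat_lit 0) (XT.lf (nat_lit 0) (nat_lit 3267354874) (nat_lit 836) (nat_lit 13753307774) (nat_lit 912) (nat_lit 8097892340) (nat_lit 409) (nat_lit 5) (nat_lit 420) (nat_lit 5) (nat_lit 421) (nat_lit 5) (nat_lit 627) (nat_lit 595) (nat_lit 338)) (XT.lf (nat_lit 0) (nat_lit 17254147477) (nat_lit 836) (nat_lit 2649220635) (nat_lit 912) (nat_lit 5490184919) (nat_lit 409) (nat_lit 5) (nat_lit 420) (nat_lit 5) (nat_lit 421) (nat_lit 5) (nat_lit 628) (nat_lit 595) (nat_lit 337))) (XT.nd (nat_lit 78) (nat_lit 76) (nat_lit 0) (XT.lf (nat_lit 0) (nat_lit 5864205424) (nat_lit 836) (nat_lit 17070901993) (nat_lit 912) (nat_lit 2737116193) (nat_lit 398) (nat_lit 5) (nat_lit 409) (nat_lit 5) (nat_lit 410) (nat_lit 5) (nat_lit 629) (nat_lit 595) (nat_lit 336))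 (XT.lf (nat_lit 0) (nat_lit 139597542) (nat_lit 912) (nat_lit 5718535658) (nat_lit 76) (nat_lit 20096935041) (nat_lit 397) (nat_lit 5) (nat_lit 409) (nat_lit 5) (nat_lit 398) (nat_lit 5) (nat_lit 630) (nat_lit 595) (nat_lit 335)))) (XT.nd (nat_lit 156) (nat_lit 836) (nat_lit 0) (XT.nd (nat_lit 78) (nat_lit 0) (nat_lit 0) (XT.lf (nat_lit 0) (nat_lit 3127783105) (nat_lit 912) (nat_lit 17532483042) (nat_lit 76) (nat_lit 5581130180) (nat_lit 386) (nat_lit 5) (nat_lit 398) (nat_lit 5) (nat_lit 387) (nat_lit 5) (nat_lit 631) (nat_lit 595) (nat_lit 334)) (XT.lf (nat_lit 0) (nat_lit 6250243274) (nat_lit 912) (nat_lit 3072299052) (nat_lit 76) (nat_lit 17209418587) (nat_lit 386) (nat_lit 5) (nat_lit 398) (nat_lit 5) (nat_lit 387) (nat_lit 5) (nat_lit 632) (nat_lit 595) (nat_lit 333))) (XT.nd (nat_lit 78) (nat_lit 0) (nat_lit 0) (XT.lf (nat_lit 0) (nat_lit 9524164464) (nat_lit 912) (nat_lit 15012624892) (nat_lit 76) (nat_lit 2289767351) (nat_lit 375) (nat_lit 5) (nat_lit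 387) (nat_lit 5) (nat_lit 376) (nat_lit 5) (nat_lit 633) (nat_lit 595) (nat_lit 332)) (XT.lf (nat_lit 0) (nat_lit 12943236410) (nat_lit 912) (nat_lit 151945402) (nat_lit 76) (nat_lit 14030269310) (nat_lit 375) (nat_lit 5) (nat_lit 387) (nat_lit 5) (nat_lit 376) (nat_lit 5) (nat_lit 634) (nat_lit 595) (nat_lit 331))))))) (XT.nd (nat_lit 1170) (nat_lit 5168) (nat_lit 0) (XT.nd (nat_lit 546) (nat_lit 3344) (nat_lit 0) (XT.nd (nat_lit 234) (nat_lit 1520) (nat_lit 0) (XT.nd (nat_lit 78) (nat_lit 760) (nat_lit 0) (XT.lf (nat_lit 0) (nat_lit 15202417153) (nat_lit 760) (nat_lit 1324212465) (nat_lit 836) (nat_lit 10901775158) (nat_lit 365) (nat_lit 5) (nat_lit 375) (nat_lit 5) (nat_lit 376) (nat_lit 5) (nat_lit 635) (nat_lit 595) (nat_lit 330)) (XT.nd (nat_lit 78) (nat_lit 0) (nat_lit 0) (XT.lf (nat_lit 0) (nat_lit 3096835086) (nat_lit 760) (nat_lit 17172614466) (nat_lit 836) (nat_lit 7466212918) (nat_lit 355) (nat_lit 5) (nat_lit 365) (nat_lit 5) (nat_lit 366) (nat_lit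 5) (nat_lit 636) (nat_lit 595) (nat_lit 329)) (XT.lf (nat_lit 0) (nat_lit 18880026511) (nat_lit 760) (nat_lit 5295158621) (nat_lit 836) (nat_lit 3872119143) (nat_lit 355) (nat_lit 5) (nat_lit 365) (nat_lit 5) (nat_lit 366) (nat_lit 5) (nat_lit 637) (nat_lit 595) (nat_lit 328)))) (XT.nd (nat_lit 156) (nat_lit 760) (nat_lit 0) (XT.nd (nat_lit 78) (nat_lit 76) (nat_lit 0) (XT.lf (nat_lit 0) (nat_lit 6653767080) (nat_lit 684) (nat_lit 21590103863) (nat_lit 760) (nat_lit 119611401) (nat_lit 346) (nat_lit 5) (nat_lit 355) (nat_lit 5) (nat_lit 356) (nat_lit 5) (nat_lit 638) (nat_lit 595) (nat_lit 327)) (XT.lf (nat_lit 0) (nat_lit 3753679499) (nat_lit 760) (nat_lit 5831743062) (nat_lit 76) (nat_lit 19098192790) (nat_lit 345) (nat_lit 5) (nat_lit 355) (nat_lit 5) (nat_lit 346) (nat_lit 5) (nat_lit 639) (nat_lit 595) (nat_lit 326))) (XT.nd (nat_lit 78) (nat_lit 0) (nat_lit 0) (XT.lf (nat_lit 0) (nat_lit 7786138709) (nat_lit 836) (nat_lit 18528748055) (nat_lit 76) (nat_lit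 2693582492) (nat_lit 335) (nat_lit 5) (nat_lit 346) (nat_lit 5) (nat_lit 336) (nat_lit 5) (nat_lit 640) (nat_lit 595) (nat_lit 325)) (XT.lf (nat_lit 0) (nat_lit 11999572846) (nat_lit 836) (nat_lit 2209221192) (nat_lit 76) (nat_lit 15129019812) (nat_lit 335) (nat_lit 5) (nat_lit 346) (nat_lit 5) (nat_lit 336) (nat_lit 5) (nat_lit 641) (nat_lit 595) (nat_lit 324))))) (XT.nd (nat_lit 312) (nat_lit 1368) (nat_lit 0) (XT.nd (nat_lit 156) (nat_lit 608) (nat_lit 0) (XT.nd (nat_lit 78) (nat_lit 684) (nat_lit 0) (XT.lf (nat_lit 0) (nat_lit 14625661036) (nat_lit 684) (nat_lit 1764076958) (nat_lit 760) (nat_lit 13282158223) (nat_lit 326) (nat_lit 5) (nat_lit 335) (nat_lit 5) (nat_lit 336) (nat_lit 5) (nat_lit 642) (nat_lit 595) (nat_lit 323)) (XT.lf (nat_lit 0) (nat_lit 1764017554) (nat_lit 684) (nat_lit 19198558073) (nat_lit 760) (nat_lit 9048187344) (nat_lit 317) (nat_lit 5) (nat_lit 326) (nat_lit 5) (nat_lit 327) (nat_lit 5) (nat_lit 643) (nat_lit 595) (nat_lit 322)))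 (XT.nd (nat_lit 78) (nat_lit 608) (nat_lit 0) (XT.lf (nat_lit 0) (nat_lit 19099730456) (nat_lit 684) (nat_lit 6637274315) (nat_lit 760) (nat_lit 4617199714) (nat_lit 317) (nat_lit 5) (nat_lit 326) (nat_lit 5) (nat_lit 327) (nat_lit 5) (nat_lit 644) (nat_lit 595) (nat_lit 321)) (XT.lf (nat_lit 0) (nat_lit 6114895213) (nat_lit 608) (nat_lit 24569428926) (nat_lit 684) (nat_lit 18642776) (nat_lit 309) (nat_lit 5) (nat_lit 317) (nat_lit 5) (nat_lit 318) (nat_lit 5) (nat_lit 645) (nat_lit 595) (nat_lit 320)))) (XT.nd (nat_lit 156) (nat_lit 608) (nat_lit 0) (XT.nd (nat_lit 78) (nat_lit 684) (nat_lit 0) (XT.lf (nat_lit 0) (nat_lit 4728210473) (nat_lit 684) (nat_lit 7150638317) (nat_lit 76) (nat_lit 19176897303) (nat_lit 308) (nat_lit 5) (nat_lit 317) (nat_lit 5) (nat_lit 309) (nat_lit 5) (nat_lit 646) (nat_lit 595) (nat_lit 319)) (XT.lf (nat_lit 0) (nat_lit 9644747414) (nat_lit 760) (nat_lit 20647691907) (nat_lit 76) (nat_lit 1121639255) (nat_lit 299) (nat_lit 5)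 (nat_lit 309) (nat_lit 5) (nat_lit 300) (nat_lit 5) (nat_lit 647) (nat_lit 595) (nat_lit 318))) (XT.nd (nat_lit 78) (nat_lit 608) (nat_lit 0) (XT.lf (nat_lit 0) (nat_lit 14784275237) (nat_lit 760) (nat_lit 2721755986) (nat_lit 76) (nat_lit 14271053392) (nat_lit 299) (nat_lit 5) (nat_lit 309) (nat_lit 5) (nat_lit 300) (nat_lit 5) (nat_lit 648) (nat_lit 595) (nat_lit 317)) (XT.lf (nat_lit 0) (nat_lit 15766704108) (nat_lit 608) (nat_lit 4359992650) (nat_lit 684) (nat_lit 12018652063) (nat_lit 291) (nat_lit 5) (nat_lit 299) (nat_lit 5) (nat_lit 300) (nat_lit 5) (nat_lit 649) (nat_lit 595) (nat_lit 316)))))) (XT.nd (nat_lit 546) (nat_lit 2736) (nat_lit 0) (XT.nd (nat_lit 234) (nat_lit 1140) (nat_lit 0) (XT.nd (nat_lit 78) (nat_lit 684) (nat_lit 0) (XT.lf (nat_lit 0) (nat_lit 2107176735) (nat_lit 608) (nat_lit 23557366777) (nat_lit 684) (nat_lit 6854663367) (nat_lit 283) (nat_lit 5) (nat_lit 291) (nat_lit 5) (nat_lit 292) (nat_lit 5) (nat_lit 650) (nat_lit 595)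 (nat_lit 315)) (XT.nd (nat_lit 78) (nat_lit 684) (nat_lit 0) (XT.lf (nat_lit 0) (nat_lit 21152691119) (nat_lit 608) (nat_lit 10296833807) (nat_lit 684) (nat_lit 1448289722) (nat_lit 283) (nat_lit 5) (nat_lit 291) (nat_lit 5) (nat_lit 292) (nat_lit 5) (nat_lit 651) (nat_lit 595) (nat_lit 314)) (XT.lf (nat_lit 0) (nat_lit 4079949822) (nat_lit 684) (nat_lit 25941481863) (nat_lit 76) (nat_lit 3260693624) (nat_lit 274) (nat_lit 5) (nat_lit 283) (nat_lit 5) (nat_lit 275) (nat_lit 5) (nat_lit 652) (nat_lit 595) (nat_lit 313)))) (XT.nd (nat_lit 156) (nat_lit 532) (nat_lit 0) (XT.nd (nat_lit 78) (nat_lit 608) (nat_lit 0) (XT.lf (nat_lit 0) (nat_lit 9844743102) (nat_lit 684) (nat_lit 6786294633) (nat_lit 76) (nat_lit 17039985450) (nat_lit 274) (nat_lit 5) (nat_lit 283) (nat_lit 5) (nat_lit 275) (nat_lit 5) (nat_lit 653) (nat_lit 595) (nat_lit 312)) (XT.lf (nat_lit 0) (nat_lit 12918703403) (nat_lit 608) (nat_lit 2887882640) (nat_lit 684) (nat_lit 18259477997) (nat_lit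 266) (nat_lit 5) (nat_lit 274) (nat_lit 5) (nat_lit 275) (nat_lit 5) (nat_lit 654) (nat_lit 595) (nat_lit 311))) (XT.nd (nat_lit 78) (nat_lit 532) (nat_lit 0) (XT.lf (nat_lit 0) (nat_lit 22003668380) (nat_lit 684) (nat_lit 1433613582) (nat_lit 76) (nat_lit 11029403792) (nat_lit 266) (nat_lit 5) (nat_lit 275) (nat_lit 5) (nat_lit 267) (nat_lit 5) (nat_lit 655) (nat_lit 595) (nat_lit 310)) (XT.lf (nat_lit 0) (nat_lit 18900476052) (nat_lit 532) (nat_lit 9563994141) (nat_lit 608) (nat_lit 6408054244) (nat_lit 259) (nat_lit 5) (nat_lit 266) (nat_lit 5) (nat_lit 267) (nat_lit 5) (nat_lit 656) (nat_lit 595) (nat_lit 309))))) (XT.nd (nat_lit 312) (nat_lit 1596) (nat_lit 0) (XT.nd (nat_lit 156) (nat_lit 532) (nat_lit 0) (XT.nd (nat_lit 78) (nat_lit 76) (nat_lit 0) (XT.lf (nat_lit 0) (nat_lit 4399540267) (nat_lit 532) (nat_lit 30720934111) (nat_lit 608) (nat_lit 164685879) (nat_lit 252) (nat_lit 5) (nat_lit 259) (nat_lit 5) (nat_lit 260) (nat_lit 5) (nat_lit 657) (nat_lit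 595) (nat_lit 308)) (XT.lf (nat_lit 0) (nat_lit 6291383965) (nat_lit 608) (nat_lit 10415883025) (nat_lit 76) (nat_lit 18994592443) (nat_lit 251) (nat_lit 5) (nat_lit 259) (nat_lit 5) (nat_lit 252) (nat_lit 5) (nat_lit 658) (nat_lit 595) (nat_lit 307))) (XT.nd (nat_lit 78) (nat_lit 0) (nat_lit 0) (XT.lf (nat_lit 0) (nat_lit 10598493721) (nat_lit 532) (nat_lit 2342697145) (nat_lit 608) (nat_lit 23184343624) (nat_lit 244) (nat_lit 5) (nat_lit 251) (nat_lit 5) (nat_lit 252) (nat_lit 5) (nat_lit 659) (nat_lit 595) (nat_lit 306)) (XT.lf (nat_lit 0) (nat_lit 19872295910) (nat_lit 608) (nat_lit 4465002301) (nat_lit 76) (nat_lit 12217418878) (nat_lit 244) (nat_lit 5) (nat_lit 252) (nat_lit 5) (nat_lit 245) (nat_lit 5) (nat_lit 660) (nat_lit 595) (nat_lit 305)))) (XT.nd (nat_lit 156) (nat_lit 608) (nat_lit 0) (XT.nd (nat_lit 78) (nat_lit 456) (nat_lit 0) (XT.lf (nat_lit 0) (nat_lit 17226054731) (nat_lit 532) (nat_lit 9841388397) (nat_lit 608) (nat_lit 9922531894) (nat_lit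 237) (nat_lit 5) (nat_lit 244) (nat_lit 5) (nat_lit 245) (nat_lit 5) (nat_lit 661) (nat_lit 595) (nat_lit 304)) (XT.lf (nat_lit 0) (nat_lit 1968993985) (nat_lit 456) (nat_lit 32510625895) (nat_lit 532) (nat_lit 2952855781) (nat_lit 231) (nat_lit 5) (nat_lit 237) (nat_lit 5) (nat_lit 238) (nat_lit 5) (nat_lit 662) (nat_lit 595) (nat_lit 303))) (XT.nd (nat_lit 78) (nat_lit 532) (nat_lit 0) (XT.lf (nat_lit 0) (nat_lit 4298470726) (nat_lit 532) (nat_lit 13572395196) (nat_lit 76) (nat_lit 20008485443) (nat_lit 230) (nat_lit 5) (nat_lit 237) (nat_lit 5) (nat_lit 231) (nat_lit 5) (nat_lit 663) (nat_lit 595) (nat_lit 302)) (XT.lf (nat_lit 0) (nat_lit 8850429592) (nat_lit 532) (nat_lit 2860479741) (nat_lit 608) (nat_lit 26622752470) (nat_lit 223) (nat_lit 5) (nat_lit 230) (nat_lit 5) (nat_lit 231) (nat_lit 5) (nat_lit 664) (nat_lit 595) (nat_lit 301))))))))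
noncomputable def xc212 : XT := (XT.nd (nat_lit 77376) (nat_lit 0) (nat_lit 9956) (XT.nd (nat_lit 76206) (nat_lit 0) (nat_lit 21964) (XT.nd (nat_lit 546) (nat_lit 912) (nat_lit 0) (XT.nd (nat_lit 234) (nat_lit 988) (nat_lit 0) (XT.nd (nat_lit 78) (nat_lit 912) (nat_lit 0) (XT.lf (nat_lit 0) (nat_lit 19442251925) (nat_lit 608) (nat_lit 6973604570) (nat_lit 76) (nat_lit 12377788925) (nat_lit 223) (nat_lit 5) (nat_lit 231) (nat_lit 5) (nat_lit 224) (nat_lit 5) (nat_lit 665) (nat_lit 595) (nat_lit 300)) (XT.nd (nat_lit 78) (nat_lit 456) (nat_lit 0) (XT.lf (nat_lit 0) (nat_lit 16176867539) (nat_lit 456) (nat_lit 11273504567) (nat_lit 532) (nat_lit 11810013661) (nat_lit 217) (nat_lit 5) (nat_lit 223) (nat_lit 5) (nat_lit 224) (nat_lit 5) (nat_lit 666) (nat_lit 595) (nat_lit 299)) (XT.lf (nat_lit 0) (nat_lit 120962806) (nat_lit 456) (nat_lit 35570859702) (nat_lit 532) (nat_lit 4043175128) (nat_lit 211) (nat_lit 5) (nat_lit 217) (nat_lit 5) (nat_lit 218) (nat_lit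 5) (nat_lit 667) (nat_lit 595) (nat_lit 298)))) (XT.nd (nat_lit 156) (nat_lit 456) (nat_lit 0) (XT.nd (nat_lit 78) (nat_lit 456) (nat_lit 0) (XT.lf (nat_lit 0) (nat_lit 4056911235) (nat_lit 532) (nat_lit 16217025433) (nat_lit 76) (nat_lit 19940085743) (nat_lit 210) (nat_lit 5) (nat_lit 217) (nat_lit 5) (nat_lit 211) (nat_lit 5) (nat_lit 668) (nat_lit 595) (nat_lit 297)) (XT.lf (nat_lit 0) (nat_lit 7719857725) (nat_lit 456) (nat_lit 4593409346) (nat_lit 532) (nat_lit 28387858053) (nat_lit 204) (nat_lit 5) (nat_lit 210) (nat_lit 5) (nat_lit 211) (nat_lit 5) (nat_lit 669) (nat_lit 595) (nat_lit 296))) (XT.nd (nat_lit 78) (nat_lit 456) (nat_lit 0) (XT.lf (nat_lit 0) (nat_lit 20916562672) (nat_lit 532) (nat_lit 8917781677) (nat_lit 76) (nat_lit 11359989355) (nat_lit 204) (nat_lit 5) (nat_lit 211) (nat_lit 5) (nat_lit 205) (nat_lit 5) (nat_lit 670) (nat_lit 595) (nat_lit 295)) (XT.lf (nat_lit 0) (nat_lit 15801289515) (nat_lit 456) (nat_lit 14021927527) (nat_lit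 532) (nat_lit 11871563621) (nat_lit 198) (nat_lit 5) (nat_lit 204) (nat_lit 5) (nat_lit 205) (nat_lit 5) (nat_lit 671) (nat_lit 595) (nat_lit 294))))) (XT.nd (nat_lit 75348) (nat_lit 0) (nat_lit 23560) (XT.nd (nat_lit 156) (nat_lit 912) (nat_lit 0) (XT.lf (nat_lit 0) (nat_lit 38980215137) (nat_lit 532) (nat_lit 1085002974) (nat_lit 76) (nat_lit 2138574299) (nat_lit 198) (nat_lit 5) (nat_lit 205) (nat_lit 5) (nat_lit 199) (nat_lit 5) (nat_lit 672) (nat_lit 595) (nat_lit 293)) (XT.nd (nat_lit 75114) (nat_lit 0) (nat_lit 23560) (XT.lf (nat_lit 0) (nat_lit 7252345513) (nat_lit 456) (nat_lit 7711864345) (nat_lit 532) (nat_lit 28275237594) (nat_lit 186) (nat_lit 5) (nat_lit 192) (nat_lit 5) (nat_lit 193) (nat_lit 5) (nat_lit 674) (nat_lit 595) (nat_lit 291)) (XT.lf (nat_lit 0) (nat_lit 3855324693) (nat_lit 0) (nat_lit 3855324693) (nat_lit 1748) (nat_lit 1501489418) (nat_lit 496) (nat_lit 5) (nat_lit 496) (nat_lit 3) (nat_lit 519) (nat_lit 3) (nat_lit 596) (nat_lit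 596) (nat_lit 368)))) (XT.nd (nat_lit 156) (nat_lit 0) (nat_lit 76) (XT.nd (nat_lit 78) (nat_lit 0) (nat_lit 0) (XT.lf (nat_lit 0) (nat_lit 15779014445) (nat_lit 1748) (nat_lit 1582175625) (nat_lit 1824) (nat_lit 1243248098) (nat_lit 496) (nat_lit 5) (nat_lit 519) (nat_lit 3) (nat_lit 520) (nat_lit 5) (nat_lit 597) (nat_lit 596) (nat_lit 367)) (XT.lf (nat_lit 76) (nat_lit 7780199719) (nat_lit 0) (nat_lit 8460156060) (nat_lit 1824) (nat_lit 2545917051) (nat_lit 497) (nat_lit 5) (nat_lit 496) (nat_lit 5) (nat_lit 520) (nat_lit 5) (nat_lit 598) (nat_lit 596) (nat_lit 366))) (XT.nd (nat_lit 78) (nat_lit 0) (nat_lit 0) (XT.lf (nat_lit 0) (nat_lit 16720621178) (nat_lit 1748) (nat_lit 1627130677) (nat_lit 1824) (nat_lit 623798698) (nat_lit 497) (nat_lit 5) (nat_lit 520) (nat_lit 5) (nat_lit 521) (nat_lit 5) (nat_lit 599) (nat_lit 596) (nat_lit 365)) (XT.lf (nat_lit 76) (nat_lit 7985367516) (nat_lit 0) (nat_lit 9328087797) (nat_lit 1824) (nat_lit 1845019556) (nat_lit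 498) (nat_lit 5) (nat_lit 497) (nat_lit 5) (nat_lit 521) (nat_lit 5) (nat_lit 600) (nat_lit 596) (nat_lit 364)))))) (XT.nd (nat_lit 546) (nat_lit 0) (nat_lit 152) (XT.nd (nat_lit 234) (nat_lit 1672) (nat_lit 0) (XT.nd (nat_lit 78) (nat_lit 0) (nat_lit 76) (XT.lf (nat_lit 76) (nat_lit 17809464689) (nat_lit 0) (nat_lit 114768653) (nat_lit 1824) (nat_lit 1424782886) (nat_lit 498) (nat_lit 5) (nat_lit 497) (nat_lit 5) (nat_lit 521) (nat_lit 5) (nat_lit 601) (nat_lit 596) (nat_lit 363)) (XT.nd (nat_lit 78) (nat_lit 0) (nat_lit 0) (XT.lf (nat_lit 76) (nat_lit 8332930423) (nat_lit 0) (nat_lit 10323946195) (nat_lit 1824) (nat_lit 884299098) (nat_lit 499) (nat_lit 5) (nat_lit 498) (nat_lit 5) (nat_lit 522) (nat_lit 5) (nat_lit 602) (nat_lit 596) (nat_lit 362)) (XT.lf (nat_lit 76) (nat_lit 18420216424) (nat_lit 0) (nat_lit 990393959) (nat_lit 1824) (nat_lit 326439545) (nat_lit 499) (nat_lit 5) (nat_lit 498) (nat_lit 5) (nat_lit 522) (nat_lit 5) (nat_lit 603) (nat_lit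 596) (nat_lit 361)))) (XT.nd (nat_lit 156) (nat_lit 0) (nat_lit 76) (XT.nd (nat_lit 78) (nat_lit 0) (nat_lit 0) (XT.lf (nat_lit 0) (nat_lit 348278223) (nat_lit 1824) (nat_lit 11106931343) (nat_lit 1900) (nat_lit 8479423189) (nat_lit 475) (nat_lit 5) (nat_lit 499) (nat_lit 5) (nat_lit 500) (nat_lit 5) (nat_lit 604) (nat_lit 596) (nat_lit 360)) (XT.lf (nat_lit 0) (nat_lit 1043073309) (nat_lit 1824) (nat_lit 954628682) (nat_lit 1900) (nat_lit 18138203284) (nat_lit 475) (nat_lit 5) (nat_lit 499) (nat_lit 5) (nat_lit 500) (nat_lit 5) (nat_lit 605) (nat_lit 596) (nat_lit 359))) (XT.nd (nat_lit 78) (nat_lit 0) (nat_lit 0) (XT.lf (nat_lit 0) (nat_lit 1859259174) (nat_lit 1824) (nat_lit 10867304079) (nat_lit 1900) (nat_lit 7612490362) (nat_lit 476) (nat_lit 5) (nat_lit 500) (nat_lit 5) (nat_lit 501) (nat_lit 5) (nat_lit 606) (nat_lit 596) (nat_lit 358)) (XT.lf (nat_lit 0) (nat_lit 2707110151) (nat_lit 1824) (nat_lit 442673032) (nat_lit 1900) (nat_lit 17396175173) (nat_lit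 476) (nat_lit 5) (nat_lit 500) (nat_lit 5) (nat_lit 501) (nat_lit 5) (nat_lit 607) (nat_lit 596) (nat_lit 357))))) (XT.nd (nat_lit 312) (nat_lit 0) (nat_lit 152) (XT.nd (nat_lit 156) (nat_lit 0) (nat_lit 76) (XT.nd (nat_lit 78) (nat_lit 0) (nat_lit 0) (XT.lf (nat_lit 0) (nat_lit 3678115449) (nat_lit 1824) (nat_lit 10476135562) (nat_lit 1900) (nat_lit 6600626491) (nat_lit 477) (nat_lit 5) (nat_lit 501) (nat_lit 5) (nat_lit 502) (nat_lit 5) (nat_lit 608) (nat_lit 596) (nat_lit 356)) (XT.lf (nat_lit 76) (nat_lit 231954984) (nat_lit 0) (nat_lit 4457764128) (nat_lit 1900) (nat_lit 16277832605) (nat_lit 478) (nat_lit 5) (nat_lit 477) (nat_lit 5) (nat_lit 502) (nat_lit 5) (nat_lit 609) (nat_lit 596) (nat_lit 355))) (XT.nd (nat_lit 78) (nat_lit 0) (nat_lit 0) (XT.lf (nat_lit 0) (nat_lit 5823487197) (nat_lit 1824) (nat_lit 9925547110) (nat_lit 1900) (nat_lit 5433406710) (nat_lit 478) (nat_lit 5) (nat_lit 502) (nat_lit 5) (nat_lit 503) (nat_lit 5) (nat_lit 610) (nat_lit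 596) (nat_lit 354)) (XT.lf (nat_lit 76) (nat_lit 1082486873) (nat_lit 0) (nat_lit 5929968135) (nat_lit 1900) (nat_lit 14388522848) (nat_lit 479) (nat_lit 5) (nat_lit 478) (nat_lit 5) (nat_lit 503) (nat_lit 5) (nat_lit 611) (nat_lit 596) (nat_lit 353)))) (XT.nd (nat_lit 156) (nat_lit 0) (nat_lit 76) (XT.nd (nat_lit 78) (nat_lit 0) (nat_lit 0) (XT.lf (nat_lit 0) (nat_lit 8314816455) (nat_lit 1824) (nat_lit 9207254752) (nat_lit 1900) (nat_lit 4100022178) (nat_lit 479) (nat_lit 5) (nat_lit 503) (nat_lit 5) (nat_lit 504) (nat_lit 5) (nat_lit 612) (nat_lit 596) (nat_lit 352)) (XT.lf (nat_lit 76) (nat_lit 2111728996) (nat_lit 0) (nat_lit 7580597694) (nat_lit 1900) (nat_lit 12154322734) (nat_lit 480) (nat_lit 5) (nat_lit 479) (nat_lit 5) (nat_lit 504) (nat_lit 5) (nat_lit 613) (nat_lit 596) (nat_lit 351))) (XT.nd (nat_lit 78) (nat_lit 0) (nat_lit 0) (XT.lf (nat_lit 0) (nat_lit 11172384121) (nat_lit 1824) (nat_lit 8312555481) (nat_lit 1900) (nat_lit 2589257270) (nat_lit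 480) (nat_lit 5) (nat_lit 504) (nat_lit 5) (nat_lit 505) (nat_lit 5) (nat_lit 614) (nat_lit 596) (nat_lit 350)) (XT.lf (nat_lit 76) (nat_lit 3328804839) (nat_lit 0) (nat_lit 9421311132) (nat_lit 1900) (nat_lit 9554818058) (nat_lit 481) (nat_lit 5) (nat_lit 480) (nat_lit 5) (nat_lit 505) (nat_lit 5) (nat_lit 615) (nat_lit 596) (nat_lit 349))))))) (XT.nd (nat_lit 1092) (nat_lit 6992) (nat_lit 0) (XT.nd (nat_lit 546) (nat_lit 3724) (nat_lit 0) (XT.nd (nat_lit 234) (nat_lit 1748) (nat_lit 0) (XT.nd (nat_lit 78) (nat_lit 0) (nat_lit 0) (XT.lf (nat_lit 0) (nat_lit 14417348283) (nat_lit 1824) (nat_lit 7232312811) (nat_lit 1900) (nat_lit 889466135) (nat_lit 481) (nat_lit 5) (nat_lit 505) (nat_lit 5) (nat_lit 506) (nat_lit 5) (nat_lit 616) (nat_lit 596) (nat_lit 348)) (XT.nd (nat_lit 78) (nat_lit 0) (nat_lit 0) (XT.lf (nat_lit 76) (nat_lit 4743287150) (nat_lit 0) (nat_lit 11464217293) (nat_lit 1900) (nat_lit 6568708483) (nat_lit 482) (nat_lit 5) (nat_lit 481) (nat_lit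 5) (nat_lit 506) (nat_lit 5) (nat_lit 617) (nat_lit 596) (nat_lit 347)) (XT.lf (nat_lit 76) (nat_lit 17053545134) (nat_lit 0) (nat_lit 1024893089) (nat_lit 1900) (nat_lit 4938702834) (nat_lit 482) (nat_lit 5) (nat_lit 481) (nat_lit 5) (nat_lit 506) (nat_lit 5) (nat_lit 618) (nat_lit 596) (nat_lit 346)))) (XT.nd (nat_lit 156) (nat_lit 1824) (nat_lit 0) (XT.nd (nat_lit 78) (nat_lit 0) (nat_lit 0) (XT.lf (nat_lit 76) (nat_lit 6365213694) (nat_lit 0) (nat_lit 13721900377) (nat_lit 1900) (nat_lit 3173767417) (nat_lit 483) (nat_lit 5) (nat_lit 482) (nat_lit 5) (nat_lit 507) (nat_lit 5) (nat_lit 619) (nat_lit 596) (nat_lit 345)) (XT.lf (nat_lit 76) (nat_lit 19011671727) (nat_lit 0) (nat_lit 3167618748) (nat_lit 1900) (nat_lit 1329339915) (nat_lit 483) (nat_lit 5) (nat_lit 482) (nat_lit 5) (nat_lit 507) (nat_lit 5) (nat_lit 620) (nat_lit 596) (nat_lit 344))) (XT.nd (nat_lit 78) (nat_lit 0) (nat_lit 0) (XT.lf (nat_lit 0) (nat_lit 644632760) (nat_lit 1900) (nat_lit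 15558486959) (nat_lit 76) (nat_lit 7556145151) (nat_lit 458) (nat_lit 5) (nat_lit 483) (nat_lit 5) (nat_lit 459) (nat_lit 5) (nat_lit 621) (nat_lit 596) (nat_lit 343)) (XT.lf (nat_lit 0) (nat_lit 2688317435) (nat_lit 1900) (nat_lit 2833791019) (nat_lit 76) (nat_lit 18491667390) (nat_lit 458) (nat_lit 5) (nat_lit 483) (nat_lit 5) (nat_lit 459) (nat_lit 5) (nat_lit 622) (nat_lit 596) (nat_lit 342))))) (XT.nd (nat_lit 234) (nat_lit 1748) (nat_lit 0) (XT.nd (nat_lit 78) (nat_lit 912) (nat_lit 0) (XT.lf (nat_lit 0) (nat_lit 4871656276) (nat_lit 1140) (nat_lit 14030117695) (nat_lit 76) (nat_lit 5369627644) (nat_lit 444) (nat_lit 5) (nat_lit 459) (nat_lit 5) (nat_lit 445) (nat_lit 5) (nat_lit 623) (nat_lit 596) (nat_lit 341)) (XT.nd (nat_lit 78) (nat_lit 912) (nat_lit 0) (XT.lf (nat_lit 0) (nat_lit 7151149233) (nat_lit 1140) (nat_lit 957141659) (nat_lit 76) (nat_lit 16424839446) (nat_lit 444) (nat_lit 5) (nat_lit 459) (nat_lit 5) (nat_lit 445) (nat_lit 5) (nat_lit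 624) (nat_lit 596) (nat_lit 340)) (XT.lf (nat_lit 0) (nat_lit 9573857653) (nat_lit 988) (nat_lit 12279023761) (nat_lit 76) (nat_lit 2945259889) (nat_lit 432) (nat_lit 5) (nat_lit 445) (nat_lit 5) (nat_lit 433) (nat_lit 5) (nat_lit 625) (nat_lit 596) (nat_lit 339)))) (XT.nd (nat_lit 156) (nat_lit 836) (nat_lit 0) (XT.nd (nat_lit 78) (nat_lit 0) (nat_lit 0) (XT.lf (nat_lit 0) (nat_lit 1168226579) (nat_lit 912) (nat_lit 10941424798) (nat_lit 988) (nat_lit 12957508664) (nat_lit 420) (nat_lit 5) (nat_lit 432) (nat_lit 5) (nat_lit 433) (nat_lit 5) (nat_lit 626) (nat_lit 596) (nat_lit 338)) (XT.lf (nat_lit 0) (nat_lit 14777254737) (nat_lit 988) (nat_lit 10293762894) (nat_lit 76) (nat_lit 268919820) (nat_lit 420) (nat_lit 5) (nat_lit 433) (nat_lit 5) (nat_lit 421) (nat_lit 5) (nat_lit 627) (nat_lit 596) (nat_lit 337))) (XT.nd (nat_lit 78) (nat_lit 0) (nat_lit 0) (XT.lf (nat_lit 0) (nat_lit 3554779718) (nat_lit 836) (nat_lit 14035957499) (nat_lit 912) (nat_lit 8025582820)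 (nat_lit 409) (nat_lit 5) (nat_lit 420) (nat_lit 5) (nat_lit 421) (nat_lit 5) (nat_lit 628) (nat_lit 596) (nat_lit 336)) (XT.lf (nat_lit 0) (nat_lit 17816953708) (nat_lit 836) (nat_lit 2709639920) (nat_lit 912) (nat_lit 5370314728) (nat_lit 409) (nat_lit 5) (nat_lit 420) (nat_lit 5) (nat_lit 421) (nat_lit 5) (nat_lit 629) (nat_lit 596) (nat_lit 335)))))) (XT.nd (nat_lit 546) (nat_lit 3648) (nat_lit 0) (XT.nd (nat_lit 234) (nat_lit 1596) (nat_lit 0) (XT.nd (nat_lit 78) (nat_lit 912) (nat_lit 0) (XT.lf (nat_lit 0) (nat_lit 6202314406) (nat_lit 836) (nat_lit 17413624862) (nat_lit 912) (nat_lit 2565273893) (nat_lit 398) (nat_lit 5) (nat_lit 409) (nat_lit 5) (nat_lit 410) (nat_lit 5) (nat_lit 630) (nat_lit 596) (nat_lit 334)) (XT.nd (nat_lit 78) (nat_lit 836) (nat_lit 0) (XT.lf (nat_lit 0) (nat_lit 361617851) (nat_lit 912) (nat_lit 5613486120) (nat_lit 76) (nat_lit 20494669219) (nat_lit 397) (nat_lit 5) (nat_lit 409) (nat_lit 5) (nat_lit 398) (nat_lit 5) (nat_lit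 631) (nat_lit 596) (nat_lit 333)) (XT.lf (nat_lit 0) (nat_lit 3406694374) (nat_lit 912) (nat_lit 17660828083) (nat_lit 76) (nat_lit 5694363068) (nat_lit 386) (nat_lit 5) (nat_lit 398) (nat_lit 5) (nat_lit 387) (nat_lit 5) (nat_lit 632) (nat_lit 596) (nat_lit 332)))) (XT.nd (nat_lit 156) (nat_lit 760) (nat_lit 0) (XT.nd (nat_lit 78) (nat_lit 836) (nat_lit 0) (XT.lf (nat_lit 0) (nat_lit 6587361480) (nat_lit 912) (nat_lit 2915799328) (nat_lit 76) (nat_lit 17555185669) (nat_lit 386) (nat_lit 5) (nat_lit 398) (nat_lit 5) (nat_lit 387) (nat_lit 5) (nat_lit 633) (nat_lit 596) (nat_lit 331)) (XT.lf (nat_lit 0) (nat_lit 9924054182) (nat_lit 912) (nat_lit 15092213608) (nat_lit 76) (nat_lit 2342620759) (nat_lit 375) (nat_lit 5) (nat_lit 387) (nat_lit 5) (nat_lit 376) (nat_lit 5) (nat_lit 634) (nat_lit 596) (nat_lit 330))) (XT.nd (nat_lit 78) (nat_lit 0) (nat_lit 0) (XT.lf (nat_lit 0) (nat_lit 62168075) (nat_lit 760) (nat_lit 13345637118) (nat_lit 836) (nat_lit 14256029924)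 (nat_lit 365) (nat_lit 5) (nat_lit 375) (nat_lit 5) (nat_lit 376) (nat_lit 5) (nat_lit 635) (nat_lit 596) (nat_lit 329)) (XT.lf (nat_lit 0) (nat_lit 15721379268) (nat_lit 760) (nat_lit 1338453227) (nat_lit 836) (nat_lit 10913076240) (nat_lit 365) (nat_lit 5) (nat_lit 375) (nat_lit 5) (nat_lit 376) (nat_lit 5) (nat_lit 636) (nat_lit 596) (nat_lit 328))))) (XT.nd (nat_lit 312) (nat_lit 2128) (nat_lit 0) (XT.nd (nat_lit 156) (nat_lit 760) (nat_lit 0) (XT.nd (nat_lit 78) (nat_lit 0) (nat_lit 0) (XT.lf (nat_lit 0) (nat_lit 3376230082) (nat_lit 760) (nat_lit 17498794636) (nat_lit 836) (nat_lit 7411336757) (nat_lit 355) (nat_lit 5) (nat_lit 365) (nat_lit 5) (nat_lit 366) (nat_lit 5) (nat_lit 637) (nat_lit 596) (nat_lit 327)) (XT.lf (nat_lit 0) (nat_lit 19470821448) (nat_lit 760) (nat_lit 5384128342) (nat_lit 836) (nat_lit 3749365036) (nat_lit 355) (nat_lit 5) (nat_lit 365) (nat_lit 5) (nat_lit 366) (nat_lit 5) (nat_lit 638) (nat_lit 596) (nat_lit 326))) (XT.nd (nat_lit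 78) (nat_lit 0) (nat_lit 0) (XT.lf (nat_lit 0) (nat_lit 74810946) (nat_lit 760) (nat_lit 21924920995) (nat_lit 76) (nat_lit 6927121688) (nat_lit 345) (nat_lit 5) (nat_lit 355) (nat_lit 5) (nat_lit 346) (nat_lit 5) (nat_lit 639) (nat_lit 596) (nat_lit 325)) (XT.lf (nat_lit 0) (nat_lit 4020139830) (nat_lit 760) (nat_lit 5734459840) (nat_lit 76) (nat_lit 19498850533) (nat_lit 345) (nat_lit 5) (nat_lit 355) (nat_lit 5) (nat_lit 346) (nat_lit 5) (nat_lit 640) (nat_lit 596) (nat_lit 324)))) (XT.nd (nat_lit 156) (nat_lit 1368) (nat_lit 0) (XT.nd (nat_lit 78) (nat_lit 0) (nat_lit 0) (XT.lf (nat_lit 0) (nat_lit 8131027861) (nat_lit 836) (nat_lit 18683175040) (nat_lit 76) (nat_lit 2770642882) (nat_lit 335) (nat_lit 5) (nat_lit 346) (nat_lit 5) (nat_lit 336) (nat_lit 5) (nat_lit 641) (nat_lit 596) (nat_lit 323)) (XT.lf (nat_lit 0) (nat_lit 12425021537) (nat_lit 836) (nat_lit 2041495836) (nat_lit 76) (nat_lit 15454334268) (nat_lit 335) (nat_lit 5) (nat_lit 346) (nat_lit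 5) (nat_lit 336) (nat_lit 5) (nat_lit 642) (nat_lit 596) (nat_lit 322))) (XT.nd (nat_lit 78) (nat_lit 684) (nat_lit 0) (XT.lf (nat_lit 0) (nat_lit 15128689893) (nat_lit 684) (nat_lit 1772030485) (nat_lit 760) (nat_lit 13360940851) (nat_lit 326) (nat_lit 5) (nat_lit 335) (nat_lit 5) (nat_lit 336) (nat_lit 5) (nat_lit 643) (nat_lit 596) (nat_lit 321)) (XT.lf (nat_lit 0) (nat_lit 2011901054) (nat_lit 684) (nat_lit 19551076110) (nat_lit 760) (nat_lit 9044369087) (nat_lit 317) (nat_lit 5) (nat_lit 326) (nat_lit 5) (nat_lit 327) (nat_lit 5) (nat_lit 644) (nat_lit 596) (nat_lit 320))))))))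
noncomputable def xc213 : XT := (XT.nd (nat_lit 77532) (nat_lit 0) (nat_lit 16872) (XT.nd (nat_lit 1092) (nat_lit 4104) (nat_lit 0) (XT.nd (nat_lit 546) (nat_lit 2356) (nat_lit 0) (XT.nd (nat_lit 234) (nat_lit 1900) (nat_lit 0) (XT.nd (nat_lit 78) (nat_lit 684) (nat_lit 0) (XT.lf (nat_lit 0) (nat_lit 19690159525) (nat_lit 684) (nat_lit 6739183404) (nat_lit 760) (nat_lit 4528384881) (nat_lit 317) (nat_lit 5) (nat_lit 326) (nat_lit 5) (nat_lit 327) (nat_lit 5) (nat_lit 645) (nat_lit 596) (nat_lit 319)) (XT.nd (nat_lit 78) (nat_lit 0) (nat_lit 0) (XT.lf (nat_lit 0) (nat_lit 158083809) (nat_lit 684) (nat_lit 24866949343) (nat_lit 76) (nat_lit 6288450109) (nat_lit 308) (nat_lit 5) (nat_lit 317) (nat_lit 5) (nat_lit 309) (nat_lit 5) (nat_lit 646) (nat_lit 596) (nat_lit 318)) (XT.lf (nat_lit 0) (nat_lit 4996157082) (nat_lit 684) (nat_lit 7085062524) (nat_lit 76) (nat_lit 19592165466) (nat_lit 308) (nat_lit 5) (nat_lit 317) (nat_lit 5) (nat_lit 309) (nat_lit 5) (nat_lit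 647) (nat_lit 596) (nat_lit 317)))) (XT.nd (nat_lit 156) (nat_lit 1216) (nat_lit 0) (XT.nd (nat_lit 78) (nat_lit 0) (nat_lit 0) (XT.lf (nat_lit 0) (nat_lit 10009203502) (nat_lit 760) (nat_lit 20850227792) (nat_lit 76) (nat_lit 1179489498) (nat_lit 299) (nat_lit 5) (nat_lit 309) (nat_lit 5) (nat_lit 300) (nat_lit 5) (nat_lit 648) (nat_lit 596) (nat_lit 316)) (XT.lf (nat_lit 0) (nat_lit 15248157938) (nat_lit 760) (nat_lit 2569898995) (nat_lit 76) (nat_lit 14591197458) (nat_lit 299) (nat_lit 5) (nat_lit 309) (nat_lit 5) (nat_lit 300) (nat_lit 5) (nat_lit 649) (nat_lit 596) (nat_lit 315))) (XT.nd (nat_lit 78) (nat_lit 608) (nat_lit 0) (XT.lf (nat_lit 0) (nat_lit 16286973116) (nat_lit 608) (nat_lit 4408487363) (nat_lit 684) (nat_lit 12089462906) (nat_lit 291) (nat_lit 5) (nat_lit 299) (nat_lit 5) (nat_lit 300) (nat_lit 5) (nat_lit 650) (nat_lit 596) (nat_lit 314)) (XT.lf (nat_lit 0) (nat_lit 2355967783) (nat_lit 608) (nat_lit 23986425042) (nat_lit 684) (nat_lit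 6823899359) (nat_lit 283) (nat_lit 5) (nat_lit 291) (nat_lit 5) (nat_lit 292) (nat_lit 5) (nat_lit 651) (nat_lit 596) (nat_lit 313))))) (XT.nd (nat_lit 234) (nat_lit 1672) (nat_lit 0) (XT.nd (nat_lit 78) (nat_lit 684) (nat_lit 0) (XT.lf (nat_lit 0) (nat_lit 21778340542) (nat_lit 608) (nat_lit 10461506688) (nat_lit 684) (nat_lit 1312689560) (nat_lit 283) (nat_lit 5) (nat_lit 291) (nat_lit 5) (nat_lit 292) (nat_lit 5) (nat_lit 652) (nat_lit 596) (nat_lit 312)) (XT.nd (nat_lit 78) (nat_lit 0) (nat_lit 0) (XT.lf (nat_lit 0) (nat_lit 4322371041) (nat_lit 684) (nat_lit 26253957577) (nat_lit 76) (nat_lit 3368215531) (nat_lit 274) (nat_lit 5) (nat_lit 283) (nat_lit 5) (nat_lit 275) (nat_lit 5) (nat_lit 653) (nat_lit 596) (nat_lit 311)) (XT.lf (nat_lit 0) (nat_lit 10199306810) (nat_lit 684) (nat_lit 6719712759) (nat_lit 76) (nat_lit 17422263624) (nat_lit 274) (nat_lit 5) (nat_lit 283) (nat_lit 5) (nat_lit 275) (nat_lit 5) (nat_lit 654) (nat_lit 596) (nat_lit 310))))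 (XT.nd (nat_lit 156) (nat_lit 1064) (nat_lit 0) (XT.nd (nat_lit 78) (nat_lit 0) (nat_lit 0) (XT.lf (nat_lit 0) (nat_lit 13378054266) (nat_lit 608) (nat_lit 2900545672) (nat_lit 684) (nat_lit 18465660798) (nat_lit 266) (nat_lit 5) (nat_lit 274) (nat_lit 5) (nat_lit 275) (nat_lit 5) (nat_lit 655) (nat_lit 596) (nat_lit 309)) (XT.lf (nat_lit 0) (nat_lit 22596854452) (nat_lit 684) (nat_lit 1262473505) (nat_lit 76) (nat_lit 11293622453) (nat_lit 266) (nat_lit 5) (nat_lit 275) (nat_lit 5) (nat_lit 267) (nat_lit 5) (nat_lit 656) (nat_lit 596) (nat_lit 308))) (XT.nd (nat_lit 78) (nat_lit 532) (nat_lit 0) (XT.lf (nat_lit 0) (nat_lit 19476983366) (nat_lit 532) (nat_lit 9708175504) (nat_lit 608) (nat_lit 6381781398) (nat_lit 259) (nat_lit 5) (nat_lit 266) (nat_lit 5) (nat_lit 267) (nat_lit 5) (nat_lit 657) (nat_lit 596) (nat_lit 307)) (XT.lf (nat_lit 0) (nat_lit 4687433869) (nat_lit 532) (nat_lit 31285478357) (nat_lit 608) (nat_lit 14944128) (nat_lit 252) (nat_lit 5)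 (nat_lit 259) (nat_lit 5) (nat_lit 260) (nat_lit 5) (nat_lit 658) (nat_lit 596) (nat_lit 306)))))) (XT.nd (nat_lit 546) (nat_lit 1900) (nat_lit 0) (XT.nd (nat_lit 234) (nat_lit 1596) (nat_lit 0) (XT.nd (nat_lit 78) (nat_lit 532) (nat_lit 0) (XT.lf (nat_lit 0) (nat_lit 6565278685) (nat_lit 608) (nat_lit 10426243531) (nat_lit 76) (nat_lit 19421406778) (nat_lit 251) (nat_lit 5) (nat_lit 259) (nat_lit 5) (nat_lit 252) (nat_lit 5) (nat_lit 659) (nat_lit 596) (nat_lit 305)) (XT.nd (nat_lit 78) (nat_lit 0) (nat_lit 0) (XT.lf (nat_lit 0) (nat_lit 11007118400) (nat_lit 532) (nat_lit 2339336862) (nat_lit 608) (nat_lit 23498654942) (nat_lit 244) (nat_lit 5) (nat_lit 251) (nat_lit 5) (nat_lit 252) (nat_lit 5) (nat_lit 660) (nat_lit 596) (nat_lit 304)) (XT.lf (nat_lit 0) (nat_lit 20413630654) (nat_lit 608) (nat_lit 4358945724) (nat_lit 76) (nat_lit 12510351234) (nat_lit 244) (nat_lit 5) (nat_lit 252) (nat_lit 5) (nat_lit 245) (nat_lit 5) (nat_lit 661) (nat_lit 596) (nat_lit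 303)))) (XT.nd (nat_lit 156) (nat_lit 608) (nat_lit 0) (XT.nd (nat_lit 78) (nat_lit 456) (nat_lit 0) (XT.lf (nat_lit 0) (nat_lit 17764647208) (nat_lit 532) (nat_lit 9986472300) (nat_lit 608) (nat_lit 9975802540) (nat_lit 237) (nat_lit 5) (nat_lit 244) (nat_lit 5) (nat_lit 245) (nat_lit 5) (nat_lit 662) (nat_lit 596) (nat_lit 302)) (XT.lf (nat_lit 0) (nat_lit 2203668425) (nat_lit 456) (nat_lit 33106677984) (nat_lit 532) (nat_lit 2867950275) (nat_lit 231) (nat_lit 5) (nat_lit 237) (nat_lit 5) (nat_lit 238) (nat_lit 5) (nat_lit 663) (nat_lit 596) (nat_lit 301))) (XT.nd (nat_lit 78) (nat_lit 532) (nat_lit 0) (XT.lf (nat_lit 0) (nat_lit 4523728892) (nat_lit 532) (nat_lit 13650521187) (nat_lit 76) (nat_lit 20459896955) (nat_lit 230) (nat_lit 5) (nat_lit 237) (nat_lit 5) (nat_lit 231) (nat_lit 5) (nat_lit 664) (nat_lit 596) (nat_lit 300)) (XT.lf (nat_lit 0) (nat_lit 9219488241) (nat_lit 532) (nat_lit 2863443794) (nat_lit 608) (nat_lit 27014641440) (nat_lit 223) (nat_lit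 5) (nat_lit 230) (nat_lit 5) (nat_lit 231) (nat_lit 5) (nat_lit 665) (nat_lit 596) (nat_lit 299))))) (XT.nd (nat_lit 312) (nat_lit 912) (nat_lit 0) (XT.nd (nat_lit 156) (nat_lit 532) (nat_lit 0) (XT.nd (nat_lit 78) (nat_lit 456) (nat_lit 0) (XT.lf (nat_lit 0) (nat_lit 19966544722) (nat_lit 608) (nat_lit 6922430168) (nat_lit 76) (nat_lit 12677829117) (nat_lit 223) (nat_lit 5) (nat_lit 231) (nat_lit 5) (nat_lit 224) (nat_lit 5) (nat_lit 666) (nat_lit 596) (nat_lit 298)) (XT.lf (nat_lit 0) (nat_lit 16689797130) (nat_lit 456) (nat_lit 11443603998) (nat_lit 532) (nat_lit 11909506662) (nat_lit 217) (nat_lit 5) (nat_lit 223) (nat_lit 5) (nat_lit 224) (nat_lit 5) (nat_lit 667) (nat_lit 596) (nat_lit 297))) (XT.nd (nat_lit 78) (nat_lit 76) (nat_lit 0) (XT.lf (nat_lit 0) (nat_lit 313839185) (nat_lit 456) (nat_lit 36224802506) (nat_lit 532) (nat_lit 3988391084) (nat_lit 211) (nat_lit 5) (nat_lit 217) (nat_lit 5) (nat_lit 218) (nat_lit 5) (nat_lit 668) (nat_lit 596) (nat_lit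 296)) (XT.lf (nat_lit 0) (nat_lit 4269293092) (nat_lit 532) (nat_lit 16352894155) (nat_lit 76) (nat_lit 20393485783) (nat_lit 210) (nat_lit 5) (nat_lit 217) (nat_lit 5) (nat_lit 211) (nat_lit 5) (nat_lit 669) (nat_lit 596) (nat_lit 295)))) (XT.nd (nat_lit 156) (nat_lit 456) (nat_lit 0) (XT.nd (nat_lit 78) (nat_lit 0) (nat_lit 0) (XT.lf (nat_lit 0) (nat_lit 8061486720) (nat_lit 456) (nat_lit 4627931553) (nat_lit 532) (nat_lit 28823126776) (nat_lit 204) (nat_lit 5) (nat_lit 210) (nat_lit 5) (nat_lit 211) (nat_lit 5) (nat_lit 670) (nat_lit 596) (nat_lit 294)) (XT.lf (nat_lit 0) (nat_lit 21462598032) (nat_lit 532) (nat_lit 8910390164) (nat_lit 76) (nat_lit 11642673335) (nat_lit 204) (nat_lit 5) (nat_lit 211) (nat_lit 5) (nat_lit 205) (nat_lit 5) (nat_lit 671) (nat_lit 596) (nat_lit 293))) (XT.nd (nat_lit 75348) (nat_lit 0) (nat_lit 22648) (XT.lf (nat_lit 0) (nat_lit 16301840432) (nat_lit 456) (nat_lit 14244239115) (nat_lit 532) (nat_lit 11980064095) (nat_lit 198)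 (nat_lit 5) (nat_lit 204) (nat_lit 5) (nat_lit 205) (nat_lit 5) (nat_lit 672) (nat_lit 596) (nat_lit 292)) (XT.lf (nat_lit 0) (nat_lit 4029458812) (nat_lit 0) (nat_lit 4029458812) (nat_lit 1748) (nat_lit 1333570766) (nat_lit 496) (nat_lit 5) (nat_lit 496) (nat_lit 3) (nat_lit 519) (nat_lit 3) (nat_lit 597) (nat_lit 597) (nat_lit 366))))))) (XT.nd (nat_lit 1170) (nat_lit 4104) (nat_lit 0) (XT.nd (nat_lit 546) (nat_lit 0) (nat_lit 76) (XT.nd (nat_lit 234) (nat_lit 1672) (nat_lit 0) (XT.nd (nat_lit 78) (nat_lit 0) (nat_lit 0) (XT.lf (nat_lit 0) (nat_lit 16473859995) (nat_lit 1748) (nat_lit 1414699955) (nat_lit 1824) (nat_lit 1080357980) (nat_lit 496) (nat_lit 5) (nat_lit 519) (nat_lit 3) (nat_lit 520) (nat_lit 5) (nat_lit 598) (nat_lit 597) (nat_lit 365)) (XT.nd (nat_lit 78) (nat_lit 0) (nat_lit 76) (XT.lf (nat_lit 76) (nat_lit 8133612900) (nat_lit 0) (nat_lit 8804662990) (nat_lit 1824) (nat_lit 2216236906) (nat_lit 497) (nat_lit 5) (nat_lit 496) (nat_lit 5)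 (nat_lit 520) (nat_lit 5) (nat_lit 599) (nat_lit 597) (nat_lit 364)) (XT.lf (nat_lit 0) (nat_lit 17419714786) (nat_lit 1748) (nat_lit 1457288127) (nat_lit 1824) (nat_lit 466662253) (nat_lit 497) (nat_lit 5) (nat_lit 520) (nat_lit 5) (nat_lit 521) (nat_lit 5) (nat_lit 600) (nat_lit 597) (nat_lit 363)))) (XT.nd (nat_lit 156) (nat_lit 1748) (nat_lit 0) (XT.nd (nat_lit 78) (nat_lit 0) (nat_lit 0) (XT.lf (nat_lit 76) (nat_lit 8346128548) (nat_lit 0) (nat_lit 9672431818) (nat_lit 1824) (nat_lit 1515884954) (nat_lit 498) (nat_lit 5) (nat_lit 497) (nat_lit 5) (nat_lit 521) (nat_lit 5) (nat_lit 601) (nat_lit 597) (nat_lit 362)) (XT.lf (nat_lit 76) (nat_lit 18362765436) (nat_lit 0) (nat_lit 271752521) (nat_lit 1824) (nat_lit 1094420707) (nat_lit 498) (nat_lit 5) (nat_lit 497) (nat_lit 5) (nat_lit 521) (nat_lit 5) (nat_lit 602) (nat_lit 597) (nat_lit 361))) (XT.nd (nat_lit 78) (nat_lit 1824) (nat_lit 0) (XT.lf (nat_lit 76) (nat_lit 8703412887) (nat_lit 0) (nat_lit 10671841884)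 (nat_lit 1824) (nat_lit 549818185) (nat_lit 499) (nat_lit 5) (nat_lit 498) (nat_lit 5) (nat_lit 522) (nat_lit 5) (nat_lit 603) (nat_lit 597) (nat_lit 360)) (XT.lf (nat_lit 0) (nat_lit 12132096) (nat_lit 1824) (nat_lit 1136632217) (nat_lit 1900) (nat_lit 18976234553) (nat_lit 474) (nat_lit 5) (nat_lit 498) (nat_lit 5) (nat_lit 499) (nat_lit 5) (nat_lit 604) (nat_lit 597) (nat_lit 359))))) (XT.nd (nat_lit 312) (nat_lit 0) (nat_lit 152) (XT.nd (nat_lit 156) (nat_lit 0) (nat_lit 76) (XT.nd (nat_lit 78) (nat_lit 0) (nat_lit 0) (XT.lf (nat_lit 0) (nat_lit 689755213) (nat_lit 1824) (nat_lit 11118451573) (nat_lit 1900) (nat_lit 8518408171) (nat_lit 475) (nat_lit 5) (nat_lit 499) (nat_lit 5) (nat_lit 500) (nat_lit 5) (nat_lit 605) (nat_lit 597) (nat_lit 358)) (XT.lf (nat_lit 0) (nat_lit 1391887154) (nat_lit 1824) (nat_lit 767232631) (nat_lit 1900) (nat_lit 18372924720) (nat_lit 475) (nat_lit 5) (nat_lit 499) (nat_lit 5) (nat_lit 500) (nat_lit 5) (nat_lit 606) (nat_lit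 597) (nat_lit 357))) (XT.nd (nat_lit 78) (nat_lit 0) (nat_lit 0) (XT.lf (nat_lit 0) (nat_lit 2218533798) (nat_lit 1824) (nat_lit 10872279160) (nat_lit 1900) (nat_lit 7648560502) (nat_lit 476) (nat_lit 5) (nat_lit 500) (nat_lit 5) (nat_lit 501) (nat_lit 5) (nat_lit 607) (nat_lit 597) (nat_lit 356)) (XT.lf (nat_lit 0) (nat_lit 3077026315) (nat_lit 1824) (nat_lit 243319629) (nat_lit 1900) (nat_lit 17630197042) (nat_lit 476) (nat_lit 5) (nat_lit 500) (nat_lit 5) (nat_lit 501) (nat_lit 5) (nat_lit 608) (nat_lit 597) (nat_lit 355)))) (XT.nd (nat_lit 156) (nat_lit 0) (nat_lit 76) (XT.nd (nat_lit 78) (nat_lit 0) (nat_lit 0) (XT.lf (nat_lit 0) (nat_lit 4061927188) (nat_lit 1824) (nat_lit 10471908195) (nat_lit 1900) (nat_lit 6629915997) (nat_lit 477) (nat_lit 5) (nat_lit 501) (nat_lit 5) (nat_lit 502) (nat_lit 5) (nat_lit 609) (nat_lit 597) (nat_lit 354)) (XT.lf (nat_lit 76) (nat_lit 448937912) (nat_lit 0) (nat_lit 4640120367) (nat_lit 1900) (nat_lit 16291715260) (nat_lit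 478) (nat_lit 5) (nat_lit 477) (nat_lit 5) (nat_lit 502) (nat_lit 5) (nat_lit 610) (nat_lit 597) (nat_lit 353))) (XT.nd (nat_lit 78) (nat_lit 0) (nat_lit 0) (XT.lf (nat_lit 0) (nat_lit 6238917394) (nat_lit 1824) (nat_lit 9909275539) (nat_lit 1900) (nat_lit 5451899737) (nat_lit 478) (nat_lit 5) (nat_lit 502) (nat_lit 5) (nat_lit 503) (nat_lit 5) (nat_lit 611) (nat_lit 597) (nat_lit 352)) (XT.lf (nat_lit 76) (nat_lit 1317506081) (nat_lit 0) (nat_lit 6129681847) (nat_lit 1900) (nat_lit 14375902203) (nat_lit 479) (nat_lit 5) (nat_lit 478) (nat_lit 5) (nat_lit 503) (nat_lit 5) (nat_lit 612) (nat_lit 597) (nat_lit 351)))))) (XT.nd (nat_lit 546) (nat_lit 4484) (nat_lit 0) (XT.nd (nat_lit 234) (nat_lit 0) (nat_lit 76) (XT.nd (nat_lit 78) (nat_lit 0) (nat_lit 0) (XT.lf (nat_lit 0) (nat_lit 8769306089) (nat_lit 1824) (nat_lit 9175906317) (nat_lit 1900) (nat_lit 4103541720) (nat_lit 479) (nat_lit 5) (nat_lit 503) (nat_lit 5) (nat_lit 504) (nat_lit 5) (nat_lit 613) (nat_lit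 597) (nat_lit 350)) (XT.nd (nat_lit 78) (nat_lit 0) (nat_lit 76) (XT.lf (nat_lit 76) (nat_lit 2368039386) (nat_lit 0) (nat_lit 7802066217) (nat_lit 1900) (nat_lit 12107781241) (nat_lit 480) (nat_lit 5) (nat_lit 479) (nat_lit 5) (nat_lit 504) (nat_lit 5) (nat_lit 614) (nat_lit 597) (nat_lit 349)) (XT.lf (nat_lit 0) (nat_lit 11673752219) (nat_lit 1824) (nat_lit 8262899793) (nat_lit 1900) (nat_lit 2573453801) (nat_lit 480) (nat_lit 5) (nat_lit 504) (nat_lit 5) (nat_lit 505) (nat_lit 5) (nat_lit 615) (nat_lit 597) (nat_lit 348)))) (XT.nd (nat_lit 156) (nat_lit 0) (nat_lit 76) (XT.nd (nat_lit 78) (nat_lit 0) (nat_lit 76) (XT.lf (nat_lit 76) (nat_lit 3609867295) (nat_lit 0) (nat_lit 9669114578) (nat_lit 1900) (nat_lit 9466557300) (nat_lit 481) (nat_lit 5) (nat_lit 480) (nat_lit 5) (nat_lit 505) (nat_lit 5) (nat_lit 616) (nat_lit 597) (nat_lit 347)) (XT.lf (nat_lit 0) (nat_lit 14973811000) (nat_lit 1824) (nat_lit 7160914546) (nat_lit 1900) (nat_lit 849805967) (nat_lit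 481) (nat_lit 5) (nat_lit 505) (nat_lit 5) (nat_lit 506) (nat_lit 5) (nat_lit 617) (nat_lit 597) (nat_lit 346))) (XT.nd (nat_lit 78) (nat_lit 0) (nat_lit 0) (XT.lf (nat_lit 76) (nat_lit 5052776069) (nat_lit 0) (nat_lit 11743130518) (nat_lit 1900) (nat_lit 6430529922) (nat_lit 482) (nat_lit 5) (nat_lit 481) (nat_lit 5) (nat_lit 506) (nat_lit 5) (nat_lit 618) (nat_lit 597) (nat_lit 345)) (XT.lf (nat_lit 76) (nat_lit 17605030915) (nat_lit 0) (nat_lit 1094046715) (nat_lit 1900) (nat_lit 4773209508) (nat_lit 482) (nat_lit 5) (nat_lit 481) (nat_lit 5) (nat_lit 506) (nat_lit 5) (nat_lit 619) (nat_lit 597) (nat_lit 344))))) (XT.nd (nat_lit 312) (nat_lit 2888) (nat_lit 0) (XT.nd (nat_lit 156) (nat_lit 1824) (nat_lit 0) (XT.nd (nat_lit 78) (nat_lit 0) (nat_lit 0) (XT.lf (nat_lit 76) (nat_lit 6707024915) (nat_lit 0) (nat_lit 14036905273) (nat_lit 1900) (nat_lit 2977052426) (nat_lit 483) (nat_lit 5) (nat_lit 482) (nat_lit 5) (nat_lit 507) (nat_lit 5) (nat_lit 620) (nat_lit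 597) (nat_lit 343)) (XT.lf (nat_lit 76) (nat_lit 19602206091) (nat_lit 0) (nat_lit 3270742582) (nat_lit 1900) (nat_lit 1100838145) (nat_lit 483) (nat_lit 5) (nat_lit 482) (nat_lit 5) (nat_lit 507) (nat_lit 5) (nat_lit 621) (nat_lit 597) (nat_lit 342))) (XT.nd (nat_lit 78) (nat_lit 0) (nat_lit 0) (XT.lf (nat_lit 0) (nat_lit 905477135) (nat_lit 1900) (nat_lit 15652190318) (nat_lit 76) (nat_lit 7671809521) (nat_lit 458) (nat_lit 5) (nat_lit 483) (nat_lit 5) (nat_lit 459) (nat_lit 5) (nat_lit 622) (nat_lit 597) (nat_lit 341)) (XT.lf (nat_lit 0) (nat_lit 2985173705) (nat_lit 1900) (nat_lit 2677264506) (nat_lit 76) (nat_lit 18826737470) (nat_lit 458) (nat_lit 5) (nat_lit 483) (nat_lit 5) (nat_lit 459) (nat_lit 5) (nat_lit 623) (nat_lit 597) (nat_lit 340)))) (XT.nd (nat_lit 156) (nat_lit 1824) (nat_lit 0) (XT.nd (nat_lit 78) (nat_lit 0) (nat_lit 0) (XT.lf (nat_lit 0) (nat_lit 5208606860) (nat_lit 1140) (nat_lit 14093931642) (nat_lit 76) (nat_lit 5449487187) (nat_lit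 444) (nat_lit 5) (nat_lit 459) (nat_lit 5) (nat_lit 445) (nat_lit 5) (nat_lit 624) (nat_lit 597) (nat_lit 339)) (XT.lf (nat_lit 0) (nat_lit 7528993255) (nat_lit 1140) (nat_lit 763746839) (nat_lit 76) (nat_lit 16726343087) (nat_lit 444) (nat_lit 5) (nat_lit 459) (nat_lit 5) (nat_lit 445) (nat_lit 5) (nat_lit 625) (nat_lit 597) (nat_lit 338))) (XT.nd (nat_lit 78) (nat_lit 912) (nat_lit 0) (XT.lf (nat_lit 0) (nat_lit 9996789604) (nat_lit 988) (nat_lit 12308687261) (nat_lit 76) (nat_lit 2983985087) (nat_lit 432) (nat_lit 5) (nat_lit 445) (nat_lit 5) (nat_lit 433) (nat_lit 5) (nat_lit 626) (nat_lit 597) (nat_lit 337)) (XT.lf (nat_lit 0) (nat_lit 1406087580) (nat_lit 912) (nat_lit 11174065946) (nat_lit 988) (nat_lit 12983770709) (nat_lit 420) (nat_lit 5) (nat_lit 432) (nat_lit 5) (nat_lit 433) (nat_lit 5) (nat_lit 627) (nat_lit 597) (nat_lit 336))))))))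
noncomputable def xc214 : XT := (XT.nd (nat_lit 2262) (nat_lit 5168) (nat_lit 0) (XT.nd (nat_lit 1092) (nat_lit 6004) (nat_lit 0) (XT.nd (nat_lit 546) (nat_lit 3116) (nat_lit 0) (XT.nd (nat_lit 234) (nat_lit 1748) (nat_lit 0) (XT.nd (nat_lit 78) (nat_lit 836) (nat_lit 0) (XT.lf (nat_lit 0) (nat_lit 15296544380) (nat_lit 988) (nat_lit 10284770351) (nat_lit 76) (nat_lit 260934004) (nat_lit 420) (nat_lit 5) (nat_lit 433) (nat_lit 5) (nat_lit 421) (nat_lit 5) (nat_lit 628) (nat_lit 597) (nat_lit 335)) (XT.nd (nat_lit 78) (nat_lit 0) (nat_lit 0) (XT.lf (nat_lit 0) (nat_lit 3839329510) (nat_lit 836) (nat_lit 14323965739) (nat_lit 912) (nat_lit 7960923996) (nat_lit 409) (nat_lit 5) (nat_lit 420) (nat_lit 5) (nat_lit 421) (nat_lit 5) (nat_lit 629) (nat_lit 597) (nat_lit 334)) (XT.lf (nat_lit 0) (nat_lit 18382561603) (nat_lit 836) (nat_lit 2770978885) (nat_lit 912) (nat_lit 5256965650) (nat_lit 409) (nat_lit 5) (nat_lit 420) (nat_lit 5) (nat_lit 421) (nat_lit 5) (nat_lit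 630) (nat_lit 597) (nat_lit 333)))) (XT.nd (nat_lit 156) (nat_lit 836) (nat_lit 0) (XT.nd (nat_lit 78) (nat_lit 76) (nat_lit 0) (XT.lf (nat_lit 0) (nat_lit 6538610668) (nat_lit 836) (nat_lit 17763151521) (nat_lit 912) (nat_lit 2398793303) (nat_lit 398) (nat_lit 5) (nat_lit 409) (nat_lit 5) (nat_lit 410) (nat_lit 5) (nat_lit 631) (nat_lit 597) (nat_lit 332)) (XT.lf (nat_lit 0) (nat_lit 579565663) (nat_lit 912) (nat_lit 5514855947) (nat_lit 76) (nat_lit 20900521347) (nat_lit 397) (nat_lit 5) (nat_lit 409) (nat_lit 5) (nat_lit 398) (nat_lit 5) (nat_lit 632) (nat_lit 597) (nat_lit 331))) (XT.nd (nat_lit 78) (nat_lit 0) (nat_lit 0) (XT.lf (nat_lit 0) (nat_lit 3682782516) (nat_lit 912) (nat_lit 17800372384) (nat_lit 76) (nat_lit 5809798085) (nat_lit 386) (nat_lit 5) (nat_lit 398) (nat_lit 5) (nat_lit 387) (nat_lit 5) (nat_lit 633) (nat_lit 597) (nat_lit 330)) (XT.lf (nat_lit 0) (nat_lit 6922985430) (nat_lit 912) (nat_lit 2764632706) (nat_lit 76) (nat_lit 17907806789)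 (nat_lit 386) (nat_lit 5) (nat_lit 398) (nat_lit 5) (nat_lit 387) (nat_lit 5) (nat_lit 634) (nat_lit 597) (nat_lit 329))))) (XT.nd (nat_lit 234) (nat_lit 1520) (nat_lit 0) (XT.nd (nat_lit 78) (nat_lit 760) (nat_lit 0) (XT.lf (nat_lit 0) (nat_lit 10323810187) (nat_lit 912) (nat_lit 15181962741) (nat_lit 76) (nat_lit 2396257161) (nat_lit 375) (nat_lit 5) (nat_lit 387) (nat_lit 5) (nat_lit 376) (nat_lit 5) (nat_lit 635) (nat_lit 597) (nat_lit 328)) (XT.nd (nat_lit 78) (nat_lit 0) (nat_lit 0) (XT.lf (nat_lit 0) (nat_lit 274111213) (nat_lit 760) (nat_lit 13600546442) (nat_lit 836) (nat_lit 14338469718) (nat_lit 365) (nat_lit 5) (nat_lit 375) (nat_lit 5) (nat_lit 376) (nat_lit 5) (nat_lit 636) (nat_lit 597) (nat_lit 327)) (XT.lf (nat_lit 0) (nat_lit 16242375261) (nat_lit 760) (nat_lit 1353454234) (nat_lit 836) (nat_lit 10932631093) (nat_lit 365) (nat_lit 5) (nat_lit 375) (nat_lit 5) (nat_lit 376) (nat_lit 5) (nat_lit 637) (nat_lit 597) (nat_lit 326)))) (XT.nd (nat_lit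 156) (nat_lit 760) (nat_lit 0) (XT.nd (nat_lit 78) (nat_lit 0) (nat_lit 0) (XT.lf (nat_lit 0) (nat_lit 3652768807) (nat_lit 760) (nat_lit 17832169106) (nat_lit 836) (nat_lit 7363292425) (nat_lit 355) (nat_lit 5) (nat_lit 365) (nat_lit 5) (nat_lit 366) (nat_lit 5) (nat_lit 638) (nat_lit 597) (nat_lit 325)) (XT.lf (nat_lit 0) (nat_lit 20065153684) (nat_lit 760) (nat_lit 5475535005) (nat_lit 836) (nat_lit 3631929721) (nat_lit 355) (nat_lit 5) (nat_lit 365) (nat_lit 5) (nat_lit 366) (nat_lit 5) (nat_lit 639) (nat_lit 597) (nat_lit 324))) (XT.nd (nat_lit 78) (nat_lit 0) (nat_lit 0) (XT.lf (nat_lit 0) (nat_lit 263941226) (nat_lit 760) (nat_lit 22153695804) (nat_lit 76) (nat_lit 7083991462) (nat_lit 345) (nat_lit 5) (nat_lit 355) (nat_lit 5) (nat_lit 346) (nat_lit 5) (nat_lit 640) (nat_lit 597) (nat_lit 323)) (XT.lf (nat_lit 0) (nat_lit 4284497588) (nat_lit 760) (nat_lit 5643537653) (nat_lit 76) (nat_lit 19906795525) (nat_lit 345) (nat_lit 5) (nat_lit 355) (nat_lit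 5) (nat_lit 346) (nat_lit 5) (nat_lit 641) (nat_lit 597) (nat_lit 322)))))) (XT.nd (nat_lit 546) (nat_lit 3192) (nat_lit 0) (XT.nd (nat_lit 234) (nat_lit 1368) (nat_lit 0) (XT.nd (nat_lit 78) (nat_lit 684) (nat_lit 0) (XT.lf (nat_lit 0) (nat_lit 8475469236) (nat_lit 836) (nat_lit 18849083854) (nat_lit 76) (nat_lit 2848344033) (nat_lit 335) (nat_lit 5) (nat_lit 346) (nat_lit 5) (nat_lit 336) (nat_lit 5) (nat_lit 642) (nat_lit 597) (nat_lit 321)) (XT.nd (nat_lit 78) (nat_lit 684) (nat_lit 0) (XT.lf (nat_lit 0) (nat_lit 12851777671) (nat_lit 836) (nat_lit 1878644688) (nat_lit 76) (nat_lit 15785272221) (nat_lit 335) (nat_lit 5) (nat_lit 346) (nat_lit 5) (nat_lit 336) (nat_lit 5) (nat_lit 643) (nat_lit 597) (nat_lit 320)) (XT.lf (nat_lit 0) (nat_lit 15633604749) (nat_lit 684) (nat_lit 1781204263) (nat_lit 760) (nat_lit 13448555154) (nat_lit 326) (nat_lit 5) (nat_lit 335) (nat_lit 5) (nat_lit 336) (nat_lit 5) (nat_lit 644) (nat_lit 597) (nat_lit 319)))) (XT.nd (nat_lit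 156) (nat_lit 684) (nat_lit 0) (XT.nd (nat_lit 78) (nat_lit 0) (nat_lit 0) (XT.lf (nat_lit 0) (nat_lit 2256486585) (nat_lit 684) (nat_lit 19911865870) (nat_lit 760) (nat_lit 9047649775) (nat_lit 317) (nat_lit 5) (nat_lit 326) (nat_lit 5) (nat_lit 327) (nat_lit 5) (nat_lit 645) (nat_lit 597) (nat_lit 318)) (XT.lf (nat_lit 0) (nat_lit 20284303411) (nat_lit 684) (nat_lit 6844328090) (nat_lit 760) (nat_lit 4444828369) (nat_lit 317) (nat_lit 5) (nat_lit 326) (nat_lit 5) (nat_lit 327) (nat_lit 5) (nat_lit 646) (nat_lit 597) (nat_lit 317))) (XT.nd (nat_lit 78) (nat_lit 0) (nat_lit 0) (XT.lf (nat_lit 0) (nat_lit 331228230) (nat_lit 684) (nat_lit 25159789742) (nat_lit 76) (nat_lit 6445327167) (nat_lit 308) (nat_lit 5) (nat_lit 317) (nat_lit 5) (nat_lit 309) (nat_lit 5) (nat_lit 647) (nat_lit 597) (nat_lit 316)) (XT.lf (nat_lit 0) (nat_lit 5262729973) (nat_lit 684) (nat_lit 7026274962) (nat_lit 76) (nat_lit 20014506869) (nat_lit 308) (nat_lit 5) (nat_lit 317) (nat_lit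 5) (nat_lit 309) (nat_lit 5) (nat_lit 648) (nat_lit 597) (nat_lit 315))))) (XT.nd (nat_lit 312) (nat_lit 1292) (nat_lit 0) (XT.nd (nat_lit 156) (nat_lit 1216) (nat_lit 0) (XT.nd (nat_lit 78) (nat_lit 0) (nat_lit 0) (XT.lf (nat_lit 0) (nat_lit 10374286784) (nat_lit 760) (nat_lit 21064985181) (nat_lit 76) (nat_lit 1237121442) (nat_lit 299) (nat_lit 5) (nat_lit 309) (nat_lit 5) (nat_lit 300) (nat_lit 5) (nat_lit 649) (nat_lit 597) (nat_lit 314)) (XT.lf (nat_lit 0) (nat_lit 15714786991) (nat_lit 760) (nat_lit 2423015438) (nat_lit 76) (nat_lit 14916396068) (nat_lit 299) (nat_lit 5) (nat_lit 309) (nat_lit 5) (nat_lit 300) (nat_lit 5) (nat_lit 650) (nat_lit 597) (nat_lit 313))) (XT.nd (nat_lit 78) (nat_lit 608) (nat_lit 0) (XT.lf (nat_lit 0) (nat_lit 16809689631) (nat_lit 608) (nat_lit 4459454937) (nat_lit 684) (nat_lit 12168274273) (nat_lit 291) (nat_lit 5) (nat_lit 299) (nat_lit 5) (nat_lit 300) (nat_lit 5) (nat_lit 651) (nat_lit 597) (nat_lit 312)) (XT.lf (nat_lit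 0) (nat_lit 2601710277) (nat_lit 608) (nat_lit 24425698842) (nat_lit 684) (nat_lit 6799038174) (nat_lit 283) (nat_lit 5) (nat_lit 291) (nat_lit 5) (nat_lit 292) (nat_lit 5) (nat_lit 652) (nat_lit 597) (nat_lit 311)))) (XT.nd (nat_lit 156) (nat_lit 608) (nat_lit 0) (XT.nd (nat_lit 78) (nat_lit 684) (nat_lit 0) (XT.lf (nat_lit 0) (nat_lit 22408635920) (nat_lit 608) (nat_lit 10631075351) (nat_lit 684) (nat_lit 1180767692) (nat_lit 283) (nat_lit 5) (nat_lit 291) (nat_lit 5) (nat_lit 292) (nat_lit 5) (nat_lit 653) (nat_lit 597) (nat_lit 310)) (XT.lf (nat_lit 0) (nat_lit 4563395761) (nat_lit 684) (nat_lit 26580695781) (nat_lit 76) (nat_lit 3476245003) (nat_lit 274) (nat_lit 5) (nat_lit 283) (nat_lit 5) (nat_lit 275) (nat_lit 5) (nat_lit 654) (nat_lit 597) (nat_lit 309))) (XT.nd (nat_lit 78) (nat_lit 608) (nat_lit 0) (XT.lf (nat_lit 0) (nat_lit 10554839318) (nat_lit 684) (nat_lit 6659655104) (nat_lit 76) (nat_lit 17810576702) (nat_lit 274) (nat_lit 5) (nat_lit 283)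 (nat_lit 5) (nat_lit 275) (nat_lit 5) (nat_lit 655) (nat_lit 597) (nat_lit 308)) (XT.lf (nat_lit 0) (nat_lit 13838787973) (nat_lit 608) (nat_lit 2915213043) (nat_lit 684) (nat_lit 18682141681) (nat_lit 266) (nat_lit 5) (nat_lit 274) (nat_lit 5) (nat_lit 275) (nat_lit 5) (nat_lit 656) (nat_lit 597) (nat_lit 307))))))) (XT.nd (nat_lit 1248) (nat_lit 456) (nat_lit 0) (XT.nd (nat_lit 546) (nat_lit 2508) (nat_lit 0) (XT.nd (nat_lit 234) (nat_lit 1064) (nat_lit 0) (XT.nd (nat_lit 78) (nat_lit 1140) (nat_lit 0) (XT.lf (nat_lit 0) (nat_lit 23195958692) (nat_lit 684) (nat_lit 1095669583) (nat_lit 76) (nat_lit 11561431258) (nat_lit 266) (nat_lit 5) (nat_lit 275) (nat_lit 5) (nat_lit 267) (nat_lit 5) (nat_lit 657) (nat_lit 597) (nat_lit 306)) (XT.nd (nat_lit 78) (nat_lit 608) (nat_lit 0) (XT.lf (nat_lit 0) (nat_lit 20057312916) (nat_lit 532) (nat_lit 9857069387) (nat_lit 608) (nat_lit 6360979953) (nat_lit 259) (nat_lit 5) (nat_lit 266) (nat_lit 5) (nat_lit 267) (nat_lit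 5) (nat_lit 658) (nat_lit 597) (nat_lit 305)) (XT.lf (nat_lit 0) (nat_lit 130120669) (nat_lit 608) (nat_lit 31732256326) (nat_lit 76) (nat_lit 4842329027) (nat_lit 251) (nat_lit 5) (nat_lit 259) (nat_lit 5) (nat_lit 252) (nat_lit 5) (nat_lit 659) (nat_lit 597) (nat_lit 304)))) (XT.nd (nat_lit 156) (nat_lit 532) (nat_lit 0) (XT.nd (nat_lit 78) (nat_lit 532) (nat_lit 0) (XT.lf (nat_lit 0) (nat_lit 6838901675) (nat_lit 608) (nat_lit 10444498165) (nat_lit 76) (nat_lit 19854935342) (nat_lit 251) (nat_lit 5) (nat_lit 259) (nat_lit 5) (nat_lit 252) (nat_lit 5) (nat_lit 660) (nat_lit 597) (nat_lit 303)) (XT.lf (nat_lit 0) (nat_lit 11416279227) (nat_lit 532) (nat_lit 2337859253) (nat_lit 608) (nat_lit 23825052922) (nat_lit 244) (nat_lit 5) (nat_lit 251) (nat_lit 5) (nat_lit 252) (nat_lit 5) (nat_lit 661) (nat_lit 597) (nat_lit 302))) (XT.nd (nat_lit 78) (nat_lit 532) (nat_lit 0) (XT.lf (nat_lit 0) (nat_lit 20960204715) (nat_lit 608) (nat_lit 4258353951) (nat_lit 76)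 (nat_lit 12807255661) (nat_lit 244) (nat_lit 5) (nat_lit 252) (nat_lit 5) (nat_lit 245) (nat_lit 5) (nat_lit 662) (nat_lit 597) (nat_lit 301)) (XT.lf (nat_lit 0) (nat_lit 18306475506) (nat_lit 532) (nat_lit 10136467158) (nat_lit 608) (nat_lit 10035776115) (nat_lit 237) (nat_lit 5) (nat_lit 244) (nat_lit 5) (nat_lit 245) (nat_lit 5) (nat_lit 663) (nat_lit 597) (nat_lit 300))))) (XT.nd (nat_lit 312) (nat_lit 1444) (nat_lit 0) (XT.nd (nat_lit 156) (nat_lit 532) (nat_lit 0) (XT.nd (nat_lit 78) (nat_lit 76) (nat_lit 0) (XT.lf (nat_lit 0) (nat_lit 2435452828) (nat_lit 456) (nat_lit 33716754230) (nat_lit 532) (nat_lit 2786936902) (nat_lit 231) (nat_lit 5) (nat_lit 237) (nat_lit 5) (nat_lit 238) (nat_lit 5) (nat_lit 664) (nat_lit 597) (nat_lit 299)) (XT.lf (nat_lit 0) (nat_lit 4748083469) (nat_lit 532) (nat_lit 13737716625) (nat_lit 76) (nat_lit 20918346915) (nat_lit 230) (nat_lit 5) (nat_lit 237) (nat_lit 5) (nat_lit 231) (nat_lit 5) (nat_lit 665) (nat_lit 597) (nat_lit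 298))) (XT.nd (nat_lit 78) (nat_lit 0) (nat_lit 0) (XT.lf (nat_lit 0) (nat_lit 9588470526) (nat_lit 532) (nat_lit 2868573549) (nat_lit 608) (nat_lit 27419826542) (nat_lit 223) (nat_lit 5) (nat_lit 230) (nat_lit 5) (nat_lit 231) (nat_lit 5) (nat_lit 666) (nat_lit 597) (nat_lit 297)) (XT.lf (nat_lit 0) (nat_lit 20496063774) (nat_lit 608) (nat_lit 6877635314) (nat_lit 76) (nat_lit 12981832079) (nat_lit 223) (nat_lit 5) (nat_lit 231) (nat_lit 5) (nat_lit 224) (nat_lit 5) (nat_lit 667) (nat_lit 597) (nat_lit 296)))) (XT.nd (nat_lit 156) (nat_lit 532) (nat_lit 0) (XT.nd (nat_lit 78) (nat_lit 456) (nat_lit 0) (XT.lf (nat_lit 0) (nat_lit 17205630981) (nat_lit 456) (nat_lit 11619255529) (nat_lit 532) (nat_lit 12016298033) (nat_lit 217) (nat_lit 5) (nat_lit 223) (nat_lit 5) (nat_lit 224) (nat_lit 5) (nat_lit 668) (nat_lit 597) (nat_lit 295)) (XT.lf (nat_lit 0) (nat_lit 503177410) (nat_lit 456) (nat_lit 36894055967) (nat_lit 532) (nat_lit 3937778719) (nat_lit 211) (nat_lit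 5) (nat_lit 217) (nat_lit 5) (nat_lit 218) (nat_lit 5) (nat_lit 669) (nat_lit 597) (nat_lit 294))) (XT.nd (nat_lit 78) (nat_lit 456) (nat_lit 0) (XT.lf (nat_lit 0) (nat_lit 4480826235) (nat_lit 532) (nat_lit 16498798841) (nat_lit 76) (nat_lit 20853833704) (nat_lit 210) (nat_lit 5) (nat_lit 217) (nat_lit 5) (nat_lit 211) (nat_lit 5) (nat_lit 670) (nat_lit 597) (nat_lit 293)) (XT.lf (nat_lit 0) (nat_lit 8402677854) (nat_lit 456) (nat_lit 4665371019) (nat_lit 532) (nat_lit 29272245562) (nat_lit 204) (nat_lit 5) (nat_lit 210) (nat_lit 5) (nat_lit 211) (nat_lit 5) (nat_lit 671) (nat_lit 597) (nat_lit 292)))))) (XT.nd (nat_lit 75816) (nat_lit 0) (nat_lit 20976) (XT.nd (nat_lit 75504) (nat_lit 0) (nat_lit 22648) (XT.nd (nat_lit 75348) (nat_lit 0) (nat_lit 22648) (XT.lf (nat_lit 0) (nat_lit 16805237031) (nat_lit 456) (nat_lit 14473254077) (nat_lit 532) (nat_lit 12095741118) (nat_lit 198) (nat_lit 5) (nat_lit 204) (nat_lit 5) (nat_lit 205) (nat_lit 5) (nat_lit 673)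 (nat_lit 597) (nat_lit 290)) (XT.nd (nat_lit 78) (nat_lit 0) (nat_lit 0) (XT.lf (nat_lit 0) (nat_lit 4203307913) (nat_lit 0) (nat_lit 4203307913) (nat_lit 1748) (nat_lit 1169980320) (nat_lit 496) (nat_lit 5) (nat_lit 496) (nat_lit 3) (nat_lit 519) (nat_lit 3) (nat_lit 598) (nat_lit 598) (nat_lit 364)) (XT.lf (nat_lit 0) (nat_lit 17167875124) (nat_lit 1748) (nat_lit 1251606813) (nat_lit 1824) (nat_lit 921500818) (nat_lit 496) (nat_lit 5) (nat_lit 519) (nat_lit 3) (nat_lit 520) (nat_lit 5) (nat_lit 599) (nat_lit 598) (nat_lit 363)))) (XT.nd (nat_lit 156) (nat_lit 0) (nat_lit 76) (XT.nd (nat_lit 78) (nat_lit 0) (nat_lit 76) (XT.lf (nat_lit 76) (nat_lit 8486413174) (nat_lit 0) (nat_lit 9149252798) (nat_lit 1824) (nat_lit 1894742260) (nat_lit 497) (nat_lit 5) (nat_lit 496) (nat_lit 5) (nat_lit 520) (nat_lit 5) (nat_lit 600) (nat_lit 598) (nat_lit 362)) (XT.lf (nat_lit 0) (nat_lit 18118629251) (nat_lit 1748) (nat_lit 1291907589) (nat_lit 1824) (nat_lit 312969335)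 (nat_lit 497) (nat_lit 5) (nat_lit 520) (nat_lit 5) (nat_lit 521) (nat_lit 5) (nat_lit 601) (nat_lit 598) (nat_lit 361))) (XT.nd (nat_lit 78) (nat_lit 0) (nat_lit 0) (XT.lf (nat_lit 76) (nat_lit 8706297641) (nat_lit 0) (nat_lit 10017535841) (nat_lit 1824) (nat_lit 1194381244) (nat_lit 498) (nat_lit 5) (nat_lit 497) (nat_lit 5) (nat_lit 521) (nat_lit 5) (nat_lit 602) (nat_lit 598) (nat_lit 360)) (XT.lf (nat_lit 76) (nat_lit 18919478119) (nat_lit 0) (nat_lit 425869323) (nat_lit 1824) (nat_lit 771386171) (nat_lit 498) (nat_lit 5) (nat_lit 497) (nat_lit 5) (nat_lit 521) (nat_lit 5) (nat_lit 603) (nat_lit 598) (nat_lit 359))))) (XT.nd (nat_lit 312) (nat_lit 0) (nat_lit 152) (XT.nd (nat_lit 156) (nat_lit 0) (nat_lit 76) (XT.nd (nat_lit 78) (nat_lit 1824) (nat_lit 0) (XT.lf (nat_lit 76) (nat_lit 9073390271) (nat_lit 0) (nat_lit 11021204102) (nat_lit 1824) (nat_lit 222322723) (nat_lit 499) (nat_lit 5) (nat_lit 498) (nat_lit 5) (nat_lit 522) (nat_lit 5) (nat_lit 604)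 (nat_lit 598) (nat_lit 358)) (XT.lf (nat_lit 0) (nat_lit 339877134) (nat_lit 1824) (nat_lit 962924929) (nat_lit 1900) (nat_lit 19218126906) (nat_lit 474) (nat_lit 5) (nat_lit 498) (nat_lit 5) (nat_lit 499) (nat_lit 5) (nat_lit 605) (nat_lit 598) (nat_lit 357))) (XT.nd (nat_lit 78) (nat_lit 0) (nat_lit 0) (XT.lf (nat_lit 0) (nat_lit 1025072258) (nat_lit 1824) (nat_lit 11138380777) (nat_lit 1900) (nat_lit 8563244345) (nat_lit 475) (nat_lit 5) (nat_lit 499) (nat_lit 5) (nat_lit 500) (nat_lit 5) (nat_lit 606) (nat_lit 598) (nat_lit 356)) (XT.lf (nat_lit 0) (nat_lit 1734942486) (nat_lit 1824) (nat_lit 584106865) (nat_lit 1900) (nat_lit 18617312637) (nat_lit 475) (nat_lit 5) (nat_lit 499) (nat_lit 5) (nat_lit 500) (nat_lit 5) (nat_lit 607) (nat_lit 598) (nat_lit 355)))) (XT.nd (nat_lit 156) (nat_lit 0) (nat_lit 76) (XT.nd (nat_lit 78) (nat_lit 0) (nat_lit 0) (XT.lf (nat_lit 0) (nat_lit 2572486790) (nat_lit 1824) (nat_lit 10885600368) (nat_lit 1900) (nat_lit 7689863442)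 (nat_lit 476) (nat_lit 5) (nat_lit 500) (nat_lit 5) (nat_lit 501) (nat_lit 5) (nat_lit 608) (nat_lit 598) (nat_lit 354)) (XT.lf (nat_lit 0) (nat_lit 3442078916) (nat_lit 1824) (nat_lit 48064085) (nat_lit 1900) (nat_lit 17873322287) (nat_lit 476) (nat_lit 5) (nat_lit 500) (nat_lit 5) (nat_lit 501) (nat_lit 5) (nat_lit 609) (nat_lit 598) (nat_lit 353))) (XT.nd (nat_lit 78) (nat_lit 0) (nat_lit 0) (XT.lf (nat_lit 0) (nat_lit 4441367798) (nat_lit 1824) (nat_lit 10475896456) (nat_lit 1900) (nat_lit 6663780155) (nat_lit 477) (nat_lit 5) (nat_lit 501) (nat_lit 5) (nat_lit 502) (nat_lit 5) (nat_lit 610) (nat_lit 598) (nat_lit 352)) (XT.lf (nat_lit 76) (nat_lit 662014928) (nat_lit 0) (nat_lit 4822504624) (nat_lit 1900) (nat_lit 16317978249) (nat_lit 478) (nat_lit 5) (nat_lit 477) (nat_lit 5) (nat_lit 502) (nat_lit 5) (nat_lit 611) (nat_lit 598) (nat_lit 351))))))))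
noncomputable def xc215 : XT := (XT.nd (nat_lit 2262) (nat_lit 10944) (nat_lit 0) (XT.nd (nat_lit 1092) (nat_lit 6764) (nat_lit 0) (XT.nd (nat_lit 546) (nat_lit 2584) (nat_lit 0) (XT.nd (nat_lit 234) (nat_lit 0) (nat_lit 76) (XT.nd (nat_lit 78) (nat_lit 0) (nat_lit 0) (XT.lf (nat_lit 0) (nat_lit 6651047196) (nat_lit 1824) (nat_lit 9901018803) (nat_lit 1900) (nat_lit 5474264234) (nat_lit 478) (nat_lit 5) (nat_lit 502) (nat_lit 5) (nat_lit 503) (nat_lit 5) (nat_lit 612) (nat_lit 598) (nat_lit 350)) (XT.nd (nat_lit 78) (nat_lit 0) (nat_lit 76) (XT.lf (nat_lit 76) (nat_lit 1548940276) (nat_lit 0) (nat_lit 6330240064) (nat_lit 1900) (nat_lit 14374693698) (nat_lit 479) (nat_lit 5) (nat_lit 478) (nat_lit 5) (nat_lit 503) (nat_lit 5) (nat_lit 613) (nat_lit 598) (nat_lit 349)) (XT.lf (nat_lit 0) (nat_lit 9221694618) (nat_lit 1824) (nat_lit 9152298790) (nat_lit 1900) (nat_lit 4110179161) (nat_lit 479) (nat_lit 5) (nat_lit 503) (nat_lit 5) (nat_lit 504) (nat_lit 5) (nat_lit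 614) (nat_lit 598) (nat_lit 348)))) (XT.nd (nat_lit 156) (nat_lit 0) (nat_lit 76) (XT.nd (nat_lit 78) (nat_lit 0) (nat_lit 76) (XT.lf (nat_lit 76) (nat_lit 2621163158) (nat_lit 0) (nat_lit 8025251494) (nat_lit 1900) (nat_lit 12071555524) (nat_lit 480) (nat_lit 5) (nat_lit 479) (nat_lit 5) (nat_lit 504) (nat_lit 5) (nat_lit 615) (nat_lit 598) (nat_lit 347)) (XT.lf (nat_lit 0) (nat_lit 12174355689) (nat_lit 1824) (nat_lit 8220634914) (nat_lit 1900) (nat_lit 2559958810) (nat_lit 480) (nat_lit 5) (nat_lit 504) (nat_lit 5) (nat_lit 505) (nat_lit 5) (nat_lit 616) (nat_lit 598) (nat_lit 346))) (XT.nd (nat_lit 78) (nat_lit 0) (nat_lit 76) (XT.lf (nat_lit 76) (nat_lit 3888222233) (nat_lit 0) (nat_lit 9919568403) (nat_lit 1900) (nat_lit 9387379104) (nat_lit 481) (nat_lit 5) (nat_lit 480) (nat_lit 5) (nat_lit 505) (nat_lit 5) (nat_lit 617) (nat_lit 598) (nat_lit 345)) (XT.lf (nat_lit 0) (nat_lit 15530991710) (nat_lit 1824) (nat_lit 7096477587) (nat_lit 1900) (nat_lit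 811583430) (nat_lit 481) (nat_lit 5) (nat_lit 505) (nat_lit 5) (nat_lit 506) (nat_lit 5) (nat_lit 618) (nat_lit 598) (nat_lit 344))))) (XT.nd (nat_lit 234) (nat_lit 2812) (nat_lit 0) (XT.nd (nat_lit 78) (nat_lit 0) (nat_lit 0) (XT.lf (nat_lit 76) (nat_lit 5360120687) (nat_lit 0) (nat_lit 12025694859) (nat_lit 1900) (nat_lit 6300054852) (nat_lit 482) (nat_lit 5) (nat_lit 481) (nat_lit 5) (nat_lit 506) (nat_lit 5) (nat_lit 619) (nat_lit 598) (nat_lit 343)) (XT.nd (nat_lit 78) (nat_lit 0) (nat_lit 76) (XT.lf (nat_lit 76) (nat_lit 18159375746) (nat_lit 0) (nat_lit 1162694051) (nat_lit 1900) (nat_lit 4614668140) (nat_lit 482) (nat_lit 5) (nat_lit 481) (nat_lit 5) (nat_lit 506) (nat_lit 5) (nat_lit 620) (nat_lit 598) (nat_lit 342)) (XT.lf (nat_lit 76) (nat_lit 7047342795) (nat_lit 0) (nat_lit 14356635005) (nat_lit 1900) (nat_lit 2786506643) (nat_lit 483) (nat_lit 5) (nat_lit 482) (nat_lit 5) (nat_lit 507) (nat_lit 5) (nat_lit 621) (nat_lit 598) (nat_lit 341))))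 (XT.nd (nat_lit 156) (nat_lit 1064) (nat_lit 0) (XT.nd (nat_lit 78) (nat_lit 1824) (nat_lit 0) (XT.lf (nat_lit 76) (nat_lit 20196384901) (nat_lit 0) (nat_lit 3374384519) (nat_lit 1900) (nat_lit 877671740) (nat_lit 483) (nat_lit 5) (nat_lit 482) (nat_lit 5) (nat_lit 507) (nat_lit 5) (nat_lit 622) (nat_lit 598) (nat_lit 340)) (XT.lf (nat_lit 0) (nat_lit 1161910130) (nat_lit 1900) (nat_lit 15756212228) (nat_lit 76) (nat_lit 7791164076) (nat_lit 458) (nat_lit 5) (nat_lit 483) (nat_lit 5) (nat_lit 459) (nat_lit 5) (nat_lit 623) (nat_lit 598) (nat_lit 339))) (XT.nd (nat_lit 78) (nat_lit 1064) (nat_lit 0) (XT.lf (nat_lit 0) (nat_lit 3278527623) (nat_lit 1900) (nat_lit 2525886369) (nat_lit 76) (nat_lit 19169858851) (nat_lit 458) (nat_lit 5) (nat_lit 483) (nat_lit 5) (nat_lit 459) (nat_lit 5) (nat_lit 624) (nat_lit 598) (nat_lit 338)) (XT.lf (nat_lit 0) (nat_lit 5542995700) (nat_lit 1140) (nat_lit 14167440026) (nat_lit 76) (nat_lit 5532013061) (nat_lit 444) (nat_lit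 5) (nat_lit 459) (nat_lit 5) (nat_lit 445) (nat_lit 5) (nat_lit 625) (nat_lit 598) (nat_lit 337)))))) (XT.nd (nat_lit 546) (nat_lit 3268) (nat_lit 0) (XT.nd (nat_lit 234) (nat_lit 1672) (nat_lit 0) (XT.nd (nat_lit 78) (nat_lit 1824) (nat_lit 0) (XT.lf (nat_lit 0) (nat_lit 7905275771) (nat_lit 1140) (nat_lit 574737218) (nat_lit 76) (nat_lit 17034924979) (nat_lit 444) (nat_lit 5) (nat_lit 459) (nat_lit 5) (nat_lit 445) (nat_lit 5) (nat_lit 626) (nat_lit 598) (nat_lit 336)) (XT.nd (nat_lit 78) (nat_lit 912) (nat_lit 0) (XT.lf (nat_lit 0) (nat_lit 10419192521) (nat_lit 988) (nat_lit 12347328350) (nat_lit 76) (nat_lit 3024268404) (nat_lit 432) (nat_lit 5) (nat_lit 445) (nat_lit 5) (nat_lit 433) (nat_lit 5) (nat_lit 627) (nat_lit 598) (nat_lit 335)) (XT.lf (nat_lit 0) (nat_lit 1640376641) (nat_lit 912) (nat_lit 11410823555) (nat_lit 988) (nat_lit 13019601325) (nat_lit 420) (nat_lit 5) (nat_lit 432) (nat_lit 5) (nat_lit 433) (nat_lit 5) (nat_lit 628) (nat_lit 598)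 (nat_lit 334)))) (XT.nd (nat_lit 156) (nat_lit 836) (nat_lit 0) (XT.nd (nat_lit 78) (nat_lit 836) (nat_lit 0) (XT.lf (nat_lit 0) (nat_lit 15817531544) (nat_lit 988) (nat_lit 10283941535) (nat_lit 76) (nat_lit 253307421) (nat_lit 420) (nat_lit 5) (nat_lit 433) (nat_lit 5) (nat_lit 421) (nat_lit 5) (nat_lit 629) (nat_lit 598) (nat_lit 333)) (XT.lf (nat_lit 0) (nat_lit 4121281610) (nat_lit 836) (nat_lit 14617451100) (nat_lit 912) (nat_lit 7903715640) (nat_lit 409) (nat_lit 5) (nat_lit 420) (nat_lit 5) (nat_lit 421) (nat_lit 5) (nat_lit 630) (nat_lit 598) (nat_lit 332))) (XT.nd (nat_lit 78) (nat_lit 836) (nat_lit 0) (XT.lf (nat_lit 0) (nat_lit 18951355492) (nat_lit 836) (nat_lit 2833267135) (nat_lit 912) (nat_lit 5149921791) (nat_lit 409) (nat_lit 5) (nat_lit 420) (nat_lit 5) (nat_lit 421) (nat_lit 5) (nat_lit 631) (nat_lit 598) (nat_lit 331)) (XT.lf (nat_lit 0) (nat_lit 6873390931) (nat_lit 836) (nat_lit 18119620013) (nat_lit 912) (nat_lit 2237440001) (nat_lit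 398) (nat_lit 5) (nat_lit 409) (nat_lit 5) (nat_lit 410) (nat_lit 5) (nat_lit 632) (nat_lit 598) (nat_lit 330))))) (XT.nd (nat_lit 312) (nat_lit 1520) (nat_lit 0) (XT.nd (nat_lit 156) (nat_lit 836) (nat_lit 0) (XT.nd (nat_lit 78) (nat_lit 836) (nat_lit 0) (XT.lf (nat_lit 0) (nat_lit 793690093) (nat_lit 912) (nat_lit 5422442670) (nat_lit 76) (nat_lit 21314647445) (nat_lit 397) (nat_lit 5) (nat_lit 409) (nat_lit 5) (nat_lit 398) (nat_lit 5) (nat_lit 633) (nat_lit 598) (nat_lit 329)) (XT.lf (nat_lit 0) (nat_lit 3956317304) (nat_lit 912) (nat_lit 17951004726) (nat_lit 76) (nat_lit 5927481701) (nat_lit 386) (nat_lit 5) (nat_lit 398) (nat_lit 5) (nat_lit 387) (nat_lit 5) (nat_lit 634) (nat_lit 598) (nat_lit 328))) (XT.nd (nat_lit 78) (nat_lit 836) (nat_lit 0) (XT.lf (nat_lit 0) (nat_lit 7257405078) (nat_lit 912) (nat_lit 2618577217) (nat_lit 76) (nat_lit 18267421409) (nat_lit 386) (nat_lit 5) (nat_lit 398) (nat_lit 5) (nat_lit 387) (nat_lit 5) (nat_lit 635) (nat_lit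 598) (nat_lit 327)) (XT.lf (nat_lit 0) (nat_lit 10723745561) (nat_lit 912) (nat_lit 15281742770) (nat_lit 76) (nat_lit 2450702862) (nat_lit 375) (nat_lit 5) (nat_lit 387) (nat_lit 5) (nat_lit 376) (nat_lit 5) (nat_lit 636) (nat_lit 598) (nat_lit 326)))) (XT.nd (nat_lit 156) (nat_lit 760) (nat_lit 0) (XT.nd (nat_lit 78) (nat_lit 0) (nat_lit 0) (XT.lf (nat_lit 0) (nat_lit 482111484) (nat_lit 760) (nat_lit 13861020059) (nat_lit 836) (nat_lit 14430428650) (nat_lit 365) (nat_lit 5) (nat_lit 375) (nat_lit 5) (nat_lit 376) (nat_lit 5) (nat_lit 637) (nat_lit 598) (nat_lit 325)) (XT.lf (nat_lit 0) (nat_lit 16765769871) (nat_lit 760) (nat_lit 1369212229) (nat_lit 836) (nat_lit 10960293066) (nat_lit 365) (nat_lit 5) (nat_lit 375) (nat_lit 5) (nat_lit 376) (nat_lit 5) (nat_lit 638) (nat_lit 598) (nat_lit 324))) (XT.nd (nat_lit 78) (nat_lit 0) (nat_lit 0) (XT.lf (nat_lit 0) (nat_lit 3926722034) (nat_lit 760) (nat_lit 18172855720) (nat_lit 836) (nat_lit 7321908650) (nat_lit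 355) (nat_lit 5) (nat_lit 365) (nat_lit 5) (nat_lit 366) (nat_lit 5) (nat_lit 639) (nat_lit 598) (nat_lit 323)) (XT.lf (nat_lit 0) (nat_lit 20663415435) (nat_lit 760) (nat_lit 5569401814) (nat_lit 836) (nat_lit 3519617705) (nat_lit 355) (nat_lit 5) (nat_lit 365) (nat_lit 5) (nat_lit 366) (nat_lit 5) (nat_lit 640) (nat_lit 598) (nat_lit 322))))))) (XT.nd (nat_lit 1170) (nat_lit 4788) (nat_lit 0) (XT.nd (nat_lit 546) (nat_lit 3268) (nat_lit 0) (XT.nd (nat_lit 234) (nat_lit 1368) (nat_lit 0) (XT.nd (nat_lit 78) (nat_lit 760) (nat_lit 0) (XT.lf (nat_lit 0) (nat_lit 449568052) (nat_lit 760) (nat_lit 22395189932) (nat_lit 76) (nat_lit 7243286959) (nat_lit 345) (nat_lit 5) (nat_lit 355) (nat_lit 5) (nat_lit 346) (nat_lit 5) (nat_lit 641) (nat_lit 598) (nat_lit 321)) (XT.nd (nat_lit 78) (nat_lit 760) (nat_lit 0) (XT.lf (nat_lit 0) (nat_lit 4546999306) (nat_lit 760) (nat_lit 5558781163) (nat_lit 76) (nat_lit 20322201698) (nat_lit 345) (nat_lit 5) (nat_lit 355) (nat_lit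 5) (nat_lit 346) (nat_lit 5) (nat_lit 642) (nat_lit 598) (nat_lit 320)) (XT.lf (nat_lit 0) (nat_lit 8819739115) (nat_lit 836) (nat_lit 19026378213) (nat_lit 76) (nat_lit 2926733726) (nat_lit 335) (nat_lit 5) (nat_lit 346) (nat_lit 5) (nat_lit 336) (nat_lit 5) (nat_lit 643) (nat_lit 598) (nat_lit 319)))) (XT.nd (nat_lit 156) (nat_lit 684) (nat_lit 0) (XT.nd (nat_lit 78) (nat_lit 684) (nat_lit 0) (XT.lf (nat_lit 0) (nat_lit 13280147042) (nat_lit 836) (nat_lit 1720445700) (nat_lit 76) (nat_lit 16121980422) (nat_lit 335) (nat_lit 5) (nat_lit 346) (nat_lit 5) (nat_lit 336) (nat_lit 5) (nat_lit 644) (nat_lit 598) (nat_lit 318)) (XT.lf (nat_lit 0) (nat_lit 16140760753) (nat_lit 684) (nat_lit 1791581489) (nat_lit 760) (nat_lit 13544896006) (nat_lit 326) (nat_lit 5) (nat_lit 335) (nat_lit 5) (nat_lit 336) (nat_lit 5) (nat_lit 645) (nat_lit 598) (nat_lit 317))) (XT.nd (nat_lit 78) (nat_lit 0) (nat_lit 0) (XT.lf (nat_lit 0) (nat_lit 2498028763) (nat_lit 684) (nat_lit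 20281045361) (nat_lit 760) (nat_lit 9057892762) (nat_lit 317) (nat_lit 5) (nat_lit 326) (nat_lit 5) (nat_lit 327) (nat_lit 5) (nat_lit 646) (nat_lit 598) (nat_lit 316)) (XT.lf (nat_lit 0) (nat_lit 20882550702) (nat_lit 684) (nat_lit 6952726587) (nat_lit 760) (nat_lit 4366362183) (nat_lit 317) (nat_lit 5) (nat_lit 326) (nat_lit 5) (nat_lit 327) (nat_lit 5) (nat_lit 647) (nat_lit 598) (nat_lit 315))))) (XT.nd (nat_lit 312) (nat_lit 1900) (nat_lit 0) (XT.nd (nat_lit 156) (nat_lit 684) (nat_lit 0) (XT.nd (nat_lit 78) (nat_lit 0) (nat_lit 0) (XT.lf (nat_lit 0) (nat_lit 501234902) (nat_lit 684) (nat_lit 25466427877) (nat_lit 76) (nat_lit 6604133802) (nat_lit 308) (nat_lit 5) (nat_lit 317) (nat_lit 5) (nat_lit 309) (nat_lit 5) (nat_lit 648) (nat_lit 598) (nat_lit 314)) (XT.lf (nat_lit 0) (nat_lit 5528163110) (nat_lit 684) (nat_lit 6974096874) (nat_lit 76) (nat_lit 20444110822) (nat_lit 308) (nat_lit 5) (nat_lit 317) (nat_lit 5) (nat_lit 309) (nat_lit 5) (nat_lit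 649) (nat_lit 598) (nat_lit 313))) (XT.nd (nat_lit 78) (nat_lit 0) (nat_lit 0) (XT.lf (nat_lit 0) (nat_lit 10740268494) (nat_lit 760) (nat_lit 21291891221) (nat_lit 76) (nat_lit 1294584127) (nat_lit 299) (nat_lit 5) (nat_lit 309) (nat_lit 5) (nat_lit 300) (nat_lit 5) (nat_lit 650) (nat_lit 598) (nat_lit 312)) (XT.lf (nat_lit 0) (nat_lit 16184470941) (nat_lit 760) (nat_lit 2280893724) (nat_lit 76) (nat_lit 15246802672) (nat_lit 299) (nat_lit 5) (nat_lit 309) (nat_lit 5) (nat_lit 300) (nat_lit 5) (nat_lit 651) (nat_lit 598) (nat_lit 311)))) (XT.nd (nat_lit 156) (nat_lit 684) (nat_lit 0) (XT.nd (nat_lit 78) (nat_lit 608) (nat_lit 0) (XT.lf (nat_lit 0) (nat_lit 17335211618) (nat_lit 608) (nat_lit 4512886469) (nat_lit 684) (nat_lit 12254990497) (nat_lit 291) (nat_lit 5) (nat_lit 299) (nat_lit 5) (nat_lit 300) (nat_lit 5) (nat_lit 652) (nat_lit 598) (nat_lit 310)) (XT.lf (nat_lit 0) (nat_lit 2844654842) (nat_lit 608) (nat_lit 24875329024) (nat_lit 684) (nat_lit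 6779944762) (nat_lit 283) (nat_lit 5) (nat_lit 291) (nat_lit 5) (nat_lit 292) (nat_lit 5) (nat_lit 653) (nat_lit 598) (nat_lit 309))) (XT.nd (nat_lit 78) (nat_lit 684) (nat_lit 0) (XT.lf (nat_lit 0) (nat_lit 23043975657) (nat_lit 608) (nat_lit 10805575490) (nat_lit 684) (nat_lit 1052349540) (nat_lit 283) (nat_lit 5) (nat_lit 291) (nat_lit 5) (nat_lit 292) (nat_lit 5) (nat_lit 654) (nat_lit 598) (nat_lit 308)) (XT.lf (nat_lit 0) (nat_lit 4803238551) (nat_lit 684) (nat_lit 26921670569) (nat_lit 76) (nat_lit 3584855986) (nat_lit 274) (nat_lit 5) (nat_lit 283) (nat_lit 5) (nat_lit 275) (nat_lit 5) (nat_lit 655) (nat_lit 598) (nat_lit 307)))))) (XT.nd (nat_lit 546) (nat_lit 2508) (nat_lit 0) (XT.nd (nat_lit 234) (nat_lit 1672) (nat_lit 0) (XT.nd (nat_lit 78) (nat_lit 608) (nat_lit 0) (XT.lf (nat_lit 0) (nat_lit 10911597746) (nat_lit 684) (nat_lit 6605947101) (nat_lit 76) (nat_lit 18205107926) (nat_lit 274) (nat_lit 5) (nat_lit 283) (nat_lit 5) (nat_lit 275) (nat_lit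 5) (nat_lit 656) (nat_lit 598) (nat_lit 306)) (XT.nd (nat_lit 78) (nat_lit 0) (nat_lit 0) (XT.lf (nat_lit 0) (nat_lit 14301235225) (nat_lit 608) (nat_lit 2931856845) (nat_lit 684) (nat_lit 18908886848) (nat_lit 266) (nat_lit 5) (nat_lit 274) (nat_lit 5) (nat_lit 275) (nat_lit 5) (nat_lit 657) (nat_lit 598) (nat_lit 305)) (XT.lf (nat_lit 0) (nat_lit 23801330338) (nat_lit 684) (nat_lit 932987250) (nat_lit 76) (nat_lit 11832967800) (nat_lit 266) (nat_lit 5) (nat_lit 275) (nat_lit 5) (nat_lit 267) (nat_lit 5) (nat_lit 658) (nat_lit 598) (nat_lit 304)))) (XT.nd (nat_lit 156) (nat_lit 532) (nat_lit 0) (XT.nd (nat_lit 78) (nat_lit 608) (nat_lit 0) (XT.lf (nat_lit 0) (nat_lit 20641840454) (nat_lit 532) (nat_lit 10010699022) (nat_lit 608) (nat_lit 6345526471) (nat_lit 259) (nat_lit 5) (nat_lit 266) (nat_lit 5) (nat_lit 267) (nat_lit 5) (nat_lit 659) (nat_lit 598) (nat_lit 303)) (XT.lf (nat_lit 0) (nat_lit 272249962) (nat_lit 608) (nat_lit 32180362005) (nat_lit 76)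 (nat_lit 4983391713) (nat_lit 251) (nat_lit 5) (nat_lit 259) (nat_lit 5) (nat_lit 252) (nat_lit 5) (nat_lit 660) (nat_lit 598) (nat_lit 302))) (XT.nd (nat_lit 78) (nat_lit 532) (nat_lit 0) (XT.lf (nat_lit 0) (nat_lit 7112470767) (nat_lit 608) (nat_lit 10470506317) (nat_lit 76) (nat_lit 20295383173) (nat_lit 251) (nat_lit 5) (nat_lit 259) (nat_lit 5) (nat_lit 252) (nat_lit 5) (nat_lit 661) (nat_lit 598) (nat_lit 301)) (XT.lf (nat_lit 0) (nat_lit 11826283453) (nat_lit 532) (nat_lit 2338226255) (nat_lit 608) (nat_lit 24163554058) (nat_lit 244) (nat_lit 5) (nat_lit 251) (nat_lit 5) (nat_lit 252) (nat_lit 5) (nat_lit 662) (nat_lit 598) (nat_lit 300))))) (XT.nd (nat_lit 312) (nat_lit 1444) (nat_lit 0) (XT.nd (nat_lit 156) (nat_lit 532) (nat_lit 0) (XT.nd (nat_lit 78) (nat_lit 532) (nat_lit 0) (XT.lf (nat_lit 0) (nat_lit 21512339843) (nat_lit 608) (nat_lit 4163041707) (nat_lit 76) (nat_lit 13108284860) (nat_lit 244) (nat_lit 5) (nat_lit 252) (nat_lit 5) (nat_lit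 245) (nat_lit 5) (nat_lit 663) (nat_lit 598) (nat_lit 299)) (XT.lf (nat_lit 0) (nat_lit 18851896975) (nat_lit 532) (nat_lit 10291393167) (nat_lit 608) (nat_lit 10102367767) (nat_lit 237) (nat_lit 5) (nat_lit 244) (nat_lit 5) (nat_lit 245) (nat_lit 5) (nat_lit 664) (nat_lit 598) (nat_lit 298))) (XT.nd (nat_lit 78) (nat_lit 76) (nat_lit 0) (XT.lf (nat_lit 0) (nat_lit 2664583871) (nat_lit 456) (nat_lit 34341053450) (nat_lit 532) (nat_lit 2709676430) (nat_lit 231) (nat_lit 5) (nat_lit 237) (nat_lit 5) (nat_lit 238) (nat_lit 5) (nat_lit 665) (nat_lit 598) (nat_lit 297)) (XT.lf (nat_lit 0) (nat_lit 4971726414) (nat_lit 532) (nat_lit 13833871393) (nat_lit 76) (nat_lit 21384053359) (nat_lit 230) (nat_lit 5) (nat_lit 237) (nat_lit 5) (nat_lit 231) (nat_lit 5) (nat_lit 666) (nat_lit 598) (nat_lit 296)))) (XT.nd (nat_lit 156) (nat_lit 912) (nat_lit 0) (XT.nd (nat_lit 78) (nat_lit 0) (nat_lit 0) (XT.lf (nat_lit 0) (nat_lit 9957664503) (nat_lit 532) (nat_lit 2875830524)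 (nat_lit 608) (nat_lit 27838361743) (nat_lit 223) (nat_lit 5) (nat_lit 230) (nat_lit 5) (nat_lit 231) (nat_lit 5) (nat_lit 667) (nat_lit 598) (nat_lit 295)) (XT.lf (nat_lit 0) (nat_lit 21031117842) (nat_lit 608) (nat_lit 6839060130) (nat_lit 76) (nat_lit 13289956205) (nat_lit 223) (nat_lit 5) (nat_lit 231) (nat_lit 5) (nat_lit 224) (nat_lit 5) (nat_lit 668) (nat_lit 598) (nat_lit 294))) (XT.nd (nat_lit 78) (nat_lit 456) (nat_lit 0) (XT.lf (nat_lit 0) (nat_lit 17724712755) (nat_lit 456) (nat_lit 11800486709) (nat_lit 532) (nat_lit 12130327605) (nat_lit 217) (nat_lit 5) (nat_lit 223) (nat_lit 5) (nat_lit 224) (nat_lit 5) (nat_lit 669) (nat_lit 598) (nat_lit 293)) (XT.lf (nat_lit 0) (nat_lit 689193901) (nat_lit 456) (nat_lit 37578839635) (nat_lit 532) (nat_lit 3891216928) (nat_lit 211) (nat_lit 5) (nat_lit 217) (nat_lit 5) (nat_lit 218) (nat_lit 5) (nat_lit 670) (nat_lit 598) (nat_lit 292))))))))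
noncomputable def xc216 : XT := (XT.nd (nat_lit 77610) (nat_lit 0) (nat_lit 7068) (XT.nd (nat_lit 76440) (nat_lit 0) (nat_lit 19760) (XT.nd (nat_lit 75894) (nat_lit 0) (nat_lit 20976) (XT.nd (nat_lit 75582) (nat_lit 0) (nat_lit 22648) (XT.nd (nat_lit 156) (nat_lit 912) (nat_lit 0) (XT.lf (nat_lit 0) (nat_lit 4691691589) (nat_lit 532) (nat_lit 16654656020) (nat_lit 76) (nat_lit 21321350790) (nat_lit 210) (nat_lit 5) (nat_lit 217) (nat_lit 5) (nat_lit 211) (nat_lit 5) (nat_lit 671) (nat_lit 598) (nat_lit 291)) (XT.nd (nat_lit 78) (nat_lit 456) (nat_lit 0) (XT.lf (nat_lit 0) (nat_lit 22572865952) (nat_lit 532) (nat_lit 8916663229) (nat_lit 76) (nat_lit 12218692424) (nat_lit 204) (nat_lit 5) (nat_lit 211) (nat_lit 5) (nat_lit 205) (nat_lit 5) (nat_lit 673) (nat_lit 598) (nat_lit 289)) (XT.lf (nat_lit 0) (nat_lit 17311814465) (nat_lit 456) (nat_lit 14709018830) (nat_lit 532) (nat_lit 12218543812) (nat_lit 198) (nat_lit 5) (nat_lit 204) (nat_lit 5) (nat_lit 205)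 (nat_lit 5) (nat_lit 674) (nat_lit 598) (nat_lit 288)))) (XT.nd (nat_lit 156) (nat_lit 0) (nat_lit 0) (XT.nd (nat_lit 78) (nat_lit 0) (nat_lit 0) (XT.lf (nat_lit 0) (nat_lit 4377012599) (nat_lit 0) (nat_lit 4377012599) (nat_lit 1748) (nat_lit 1010506165) (nat_lit 496) (nat_lit 5) (nat_lit 496) (nat_lit 3) (nat_lit 519) (nat_lit 3) (nat_lit 599) (nat_lit 599) (nat_lit 362)) (XT.lf (nat_lit 0) (nat_lit 17861615104) (nat_lit 1748) (nat_lit 1092683604) (nat_lit 1824) (nat_lit 766474163) (nat_lit 496) (nat_lit 5) (nat_lit 519) (nat_lit 3) (nat_lit 520) (nat_lit 5) (nat_lit 600) (nat_lit 599) (nat_lit 361))) (XT.nd (nat_lit 78) (nat_lit 0) (nat_lit 76) (XT.lf (nat_lit 76) (nat_lit 8838886550) (nat_lit 0) (nat_lit 9494191476) (nat_lit 1824) (nat_lit 1581022935) (nat_lit 497) (nat_lit 5) (nat_lit 496) (nat_lit 5) (nat_lit 520) (nat_lit 5) (nat_lit 601) (nat_lit 599) (nat_lit 360)) (XT.lf (nat_lit 0) (nat_lit 18817910879) (nat_lit 1748) (nat_lit 1130773134) (nat_lit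 1824) (nat_lit 162533064) (nat_lit 497) (nat_lit 5) (nat_lit 520) (nat_lit 5) (nat_lit 521) (nat_lit 5) (nat_lit 602) (nat_lit 599) (nat_lit 359))))) (XT.nd (nat_lit 234) (nat_lit 0) (nat_lit 0) (XT.nd (nat_lit 78) (nat_lit 1748) (nat_lit 0) (XT.lf (nat_lit 76) (nat_lit 9066166118) (nat_lit 0) (nat_lit 10363652981) (nat_lit 1824) (nat_lit 880109114) (nat_lit 498) (nat_lit 5) (nat_lit 497) (nat_lit 5) (nat_lit 521) (nat_lit 5) (nat_lit 603) (nat_lit 599) (nat_lit 358)) (XT.nd (nat_lit 78) (nat_lit 1748) (nat_lit 0) (XT.lf (nat_lit 76) (nat_lit 19479968195) (nat_lit 0) (nat_lit 577294968) (nat_lit 1824) (nat_lit 455284724) (nat_lit 498) (nat_lit 5) (nat_lit 497) (nat_lit 5) (nat_lit 521) (nat_lit 5) (nat_lit 604) (nat_lit 599) (nat_lit 357)) (XT.lf (nat_lit 0) (nat_lit 97285721) (nat_lit 1824) (nat_lit 11274336857) (nat_lit 1900) (nat_lit 9345221254) (nat_lit 474) (nat_lit 5) (nat_lit 498) (nat_lit 5) (nat_lit 499) (nat_lit 5) (nat_lit 605) (nat_lit 599) (nat_lit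 356)))) (XT.nd (nat_lit 156) (nat_lit 0) (nat_lit 76) (XT.nd (nat_lit 78) (nat_lit 0) (nat_lit 76) (XT.lf (nat_lit 0) (nat_lit 661459756) (nat_lit 1824) (nat_lit 793371496) (nat_lit 1900) (nat_lit 19470201537) (nat_lit 474) (nat_lit 5) (nat_lit 498) (nat_lit 5) (nat_lit 499) (nat_lit 5) (nat_lit 606) (nat_lit 599) (nat_lit 355)) (XT.lf (nat_lit 0) (nat_lit 1354610554) (nat_lit 1824) (nat_lit 11166569550) (nat_lit 1900) (nat_lit 8613851803) (nat_lit 475) (nat_lit 5) (nat_lit 499) (nat_lit 5) (nat_lit 500) (nat_lit 5) (nat_lit 607) (nat_lit 599) (nat_lit 354))) (XT.nd (nat_lit 78) (nat_lit 0) (nat_lit 76) (XT.lf (nat_lit 0) (nat_lit 2072618640) (nat_lit 1824) (nat_lit 405025431) (nat_lit 1900) (nat_lit 18871367293) (nat_lit 475) (nat_lit 5) (nat_lit 499) (nat_lit 5) (nat_lit 500) (nat_lit 5) (nat_lit 608) (nat_lit 599) (nat_lit 353)) (XT.lf (nat_lit 0) (nat_lit 2921497382) (nat_lit 1824) (nat_lit 10907114398) (nat_lit 1900) (nat_lit 7736328657) (nat_lit 476)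 (nat_lit 5) (nat_lit 500) (nat_lit 5) (nat_lit 501) (nat_lit 5) (nat_lit 609) (nat_lit 599) (nat_lit 352)))))) (XT.nd (nat_lit 546) (nat_lit 1368) (nat_lit 0) (XT.nd (nat_lit 234) (nat_lit 0) (nat_lit 152) (XT.nd (nat_lit 78) (nat_lit 0) (nat_lit 76) (XT.lf (nat_lit 76) (nat_lit 145230312) (nat_lit 0) (nat_lit 3658359443) (nat_lit 1900) (nat_lit 17981273847) (nat_lit 477) (nat_lit 5) (nat_lit 476) (nat_lit 5) (nat_lit 501) (nat_lit 5) (nat_lit 610) (nat_lit 599) (nat_lit 351)) (XT.nd (nat_lit 78) (nat_lit 0) (nat_lit 0) (XT.lf (nat_lit 0) (nat_lit 4816817670) (nat_lit 1824) (nat_lit 10487942353) (nat_lit 1900) (nat_lit 6702155563) (nat_lit 477) (nat_lit 5) (nat_lit 501) (nat_lit 5) (nat_lit 502) (nat_lit 5) (nat_lit 611) (nat_lit 599) (nat_lit 350)) (XT.lf (nat_lit 76) (nat_lit 871428101) (nat_lit 0) (nat_lit 5005057994) (nat_lit 1900) (nat_lit 16356399217) (nat_lit 478) (nat_lit 5) (nat_lit 477) (nat_lit 5) (nat_lit 502) (nat_lit 5) (nat_lit 612) (nat_lit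 599) (nat_lit 349)))) (XT.nd (nat_lit 156) (nat_lit 0) (nat_lit 76) (XT.nd (nat_lit 78) (nat_lit 0) (nat_lit 0) (XT.lf (nat_lit 0) (nat_lit 7060261387) (nat_lit 1824) (nat_lit 9900613337) (nat_lit 1900) (nat_lit 5500441659) (nat_lit 478) (nat_lit 5) (nat_lit 502) (nat_lit 5) (nat_lit 503) (nat_lit 5) (nat_lit 613) (nat_lit 599) (nat_lit 348)) (XT.lf (nat_lit 76) (nat_lit 1777039491) (nat_lit 0) (nat_lit 6531781986) (nat_lit 1900) (nat_lit 14384672627) (nat_lit 479) (nat_lit 5) (nat_lit 478) (nat_lit 5) (nat_lit 503) (nat_lit 5) (nat_lit 614) (nat_lit 599) (nat_lit 347))) (XT.nd (nat_lit 78) (nat_lit 0) (nat_lit 0) (XT.lf (nat_lit 0) (nat_lit 9672374578) (nat_lit 1824) (nat_lit 9136262053) (nat_lit 1900) (nat_lit 4119878522) (nat_lit 479) (nat_lit 5) (nat_lit 503) (nat_lit 5) (nat_lit 504) (nat_lit 5) (nat_lit 615) (nat_lit 599) (nat_lit 346)) (XT.lf (nat_lit 76) (nat_lit 2871359379) (nat_lit 0) (nat_lit 8250293195) (nat_lit 1900) (nat_lit 12045415179) (nat_lit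 480) (nat_lit 5) (nat_lit 479) (nat_lit 5) (nat_lit 504) (nat_lit 5) (nat_lit 616) (nat_lit 599) (nat_lit 345))))) (XT.nd (nat_lit 312) (nat_lit 1672) (nat_lit 0) (XT.nd (nat_lit 156) (nat_lit 0) (nat_lit 76) (XT.nd (nat_lit 78) (nat_lit 0) (nat_lit 0) (XT.lf (nat_lit 0) (nat_lit 12674598307) (nat_lit 1824) (nat_lit 8185583104) (nat_lit 1900) (nat_lit 2548716553) (nat_lit 480) (nat_lit 5) (nat_lit 504) (nat_lit 5) (nat_lit 505) (nat_lit 5) (nat_lit 617) (nat_lit 599) (nat_lit 344)) (XT.lf (nat_lit 76) (nat_lit 4164138919) (nat_lit 0) (nat_lit 10172815147) (nat_lit 1900) (nat_lit 9317043890) (nat_lit 481) (nat_lit 5) (nat_lit 480) (nat_lit 5) (nat_lit 505) (nat_lit 5) (nat_lit 618) (nat_lit 599) (nat_lit 343))) (XT.nd (nat_lit 78) (nat_lit 0) (nat_lit 0) (XT.lf (nat_lit 0) (nat_lit 16089309055) (nat_lit 1824) (nat_lit 7038815396) (nat_lit 1900) (nat_lit 774740649) (nat_lit 481) (nat_lit 5) (nat_lit 505) (nat_lit 5) (nat_lit 506) (nat_lit 5) (nat_lit 619) (nat_lit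 599) (nat_lit 342)) (XT.lf (nat_lit 76) (nat_lit 5665601740) (nat_lit 0) (nat_lit 12312058169) (nat_lit 1900) (nat_lit 6177030892) (nat_lit 482) (nat_lit 5) (nat_lit 481) (nat_lit 5) (nat_lit 506) (nat_lit 5) (nat_lit 620) (nat_lit 599) (nat_lit 341)))) (XT.nd (nat_lit 156) (nat_lit 1748) (nat_lit 0) (XT.nd (nat_lit 78) (nat_lit 0) (nat_lit 76) (XT.lf (nat_lit 76) (nat_lit 18716954084) (nat_lit 0) (nat_lit 1230898337) (nat_lit 1900) (nat_lit 4462819290) (nat_lit 482) (nat_lit 5) (nat_lit 481) (nat_lit 5) (nat_lit 506) (nat_lit 5) (nat_lit 621) (nat_lit 599) (nat_lit 340)) (XT.lf (nat_lit 76) (nat_lit 7386460914) (nat_lit 0) (nat_lit 14681245240) (nat_lit 1900) (nat_lit 2601861121) (nat_lit 483) (nat_lit 5) (nat_lit 482) (nat_lit 5) (nat_lit 507) (nat_lit 5) (nat_lit 622) (nat_lit 599) (nat_lit 339))) (XT.nd (nat_lit 78) (nat_lit 1824) (nat_lit 0) (XT.lf (nat_lit 76) (nat_lit 20794598151) (nat_lit 0) (nat_lit 3478614890) (nat_lit 1900) (nat_lit 659562768) (nat_lit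 483) (nat_lit 5) (nat_lit 482) (nat_lit 5) (nat_lit 507) (nat_lit 5) (nat_lit 623) (nat_lit 599) (nat_lit 338)) (XT.lf (nat_lit 0) (nat_lit 1414217395) (nat_lit 1900) (nat_lit 15870431152) (nat_lit 76) (nat_lit 7914229153) (nat_lit 458) (nat_lit 5) (nat_lit 483) (nat_lit 5) (nat_lit 459) (nat_lit 5) (nat_lit 624) (nat_lit 599) (nat_lit 337))))))) (XT.nd (nat_lit 1092) (nat_lit 5624) (nat_lit 0) (XT.nd (nat_lit 546) (nat_lit 3344) (nat_lit 0) (XT.nd (nat_lit 234) (nat_lit 2660) (nat_lit 0) (XT.nd (nat_lit 78) (nat_lit 1064) (nat_lit 0) (XT.lf (nat_lit 0) (nat_lit 3568675687) (nat_lit 1900) (nat_lit 2379438096) (nat_lit 76) (nat_lit 19521140142) (nat_lit 458) (nat_lit 5) (nat_lit 483) (nat_lit 5) (nat_lit 459) (nat_lit 5) (nat_lit 625) (nat_lit 599) (nat_lit 336)) (XT.nd (nat_lit 78) (nat_lit 0) (nat_lit 0) (XT.lf (nat_lit 0) (nat_lit 5875132722) (nat_lit 1140) (nat_lit 14250509849) (nat_lit 76) (nat_lit 5617217076) (nat_lit 444) (nat_lit 5) (nat_lit 459) (nat_lit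 5) (nat_lit 445) (nat_lit 5) (nat_lit 626) (nat_lit 599) (nat_lit 335)) (XT.lf (nat_lit 0) (nat_lit 8280319627) (nat_lit 1140) (nat_lit 389880023) (nat_lit 76) (nat_lit 17350685982) (nat_lit 444) (nat_lit 5) (nat_lit 459) (nat_lit 5) (nat_lit 445) (nat_lit 5) (nat_lit 627) (nat_lit 599) (nat_lit 334)))) (XT.nd (nat_lit 156) (nat_lit 836) (nat_lit 0) (XT.nd (nat_lit 78) (nat_lit 912) (nat_lit 0) (XT.lf (nat_lit 0) (nat_lit 10841404827) (nat_lit 988) (nat_lit 12394801007) (nat_lit 76) (nat_lit 3066110573) (nat_lit 432) (nat_lit 5) (nat_lit 445) (nat_lit 5) (nat_lit 433) (nat_lit 5) (nat_lit 628) (nat_lit 599) (nat_lit 333)) (XT.lf (nat_lit 0) (nat_lit 1871345755) (nat_lit 912) (nat_lit 11651800781) (nat_lit 988) (nat_lit 13064840719) (nat_lit 420) (nat_lit 5) (nat_lit 432) (nat_lit 5) (nat_lit 433) (nat_lit 5) (nat_lit 629) (nat_lit 599) (nat_lit 332))) (XT.nd (nat_lit 78) (nat_lit 836) (nat_lit 0) (XT.lf (nat_lit 0) (nat_lit 16340587553) (nat_lit 988) (nat_lit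 10291115731) (nat_lit 76) (nat_lit 246027103) (nat_lit 420) (nat_lit 5) (nat_lit 433) (nat_lit 5) (nat_lit 421) (nat_lit 5) (nat_lit 630) (nat_lit 599) (nat_lit 331)) (XT.lf (nat_lit 0) (nat_lit 4400905926) (nat_lit 836) (nat_lit 14916534115) (nat_lit 912) (nat_lit 7853767235) (nat_lit 409) (nat_lit 5) (nat_lit 420) (nat_lit 5) (nat_lit 421) (nat_lit 5) (nat_lit 631) (nat_lit 599) (nat_lit 330))))) (XT.nd (nat_lit 234) (nat_lit 2432) (nat_lit 0) (XT.nd (nat_lit 78) (nat_lit 912) (nat_lit 0) (XT.lf (nat_lit 0) (nat_lit 19523714645) (nat_lit 836) (nat_lit 2896534431) (nat_lit 912) (nat_lit 5048976385) (nat_lit 409) (nat_lit 5) (nat_lit 420) (nat_lit 5) (nat_lit 421) (nat_lit 5) (nat_lit 632) (nat_lit 599) (nat_lit 329)) (XT.nd (nat_lit 78) (nat_lit 76) (nat_lit 0) (XT.lf (nat_lit 0) (nat_lit 7206944917) (nat_lit 836) (nat_lit 18483171065) (nat_lit 912) (nat_lit 2080988139) (nat_lit 398) (nat_lit 5) (nat_lit 409) (nat_lit 5) (nat_lit 410) (nat_lit 5) (nat_lit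 633) (nat_lit 599) (nat_lit 328)) (XT.lf (nat_lit 0) (nat_lit 1004232404) (nat_lit 912) (nat_lit 5336052619) (nat_lit 76) (nat_lit 21737206898) (nat_lit 397) (nat_lit 5) (nat_lit 409) (nat_lit 5) (nat_lit 398) (nat_lit 5) (nat_lit 634) (nat_lit 599) (nat_lit 327)))) (XT.nd (nat_lit 156) (nat_lit 1596) (nat_lit 0) (XT.nd (nat_lit 78) (nat_lit 0) (nat_lit 0) (XT.lf (nat_lit 0) (nat_lit 4227561238) (nat_lit 912) (nat_lit 18112624681) (nat_lit 76) (nat_lit 6047461221) (nat_lit 386) (nat_lit 5) (nat_lit 398) (nat_lit 5) (nat_lit 387) (nat_lit 5) (nat_lit 635) (nat_lit 599) (nat_lit 326)) (XT.lf (nat_lit 0) (nat_lit 7590903755) (nat_lit 912) (nat_lit 2477419212) (nat_lit 76) (nat_lit 18634171687) (nat_lit 386) (nat_lit 5) (nat_lit 398) (nat_lit 5) (nat_lit 387) (nat_lit 5) (nat_lit 636) (nat_lit 599) (nat_lit 325))) (XT.nd (nat_lit 78) (nat_lit 760) (nat_lit 0) (XT.lf (nat_lit 0) (nat_lit 11124167388) (nat_lit 912) (nat_lit 15391434502) (nat_lit 76) (nat_lit 2505984275)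 (nat_lit 375) (nat_lit 5) (nat_lit 387) (nat_lit 5) (nat_lit 376) (nat_lit 5) (nat_lit 637) (nat_lit 599) (nat_lit 324)) (XT.lf (nat_lit 0) (nat_lit 686407738) (nat_lit 760) (nat_lit 14127151157) (nat_lit 836) (nat_lit 14531791488) (nat_lit 365) (nat_lit 5) (nat_lit 375) (nat_lit 5) (nat_lit 376) (nat_lit 5) (nat_lit 638) (nat_lit 599) (nat_lit 323)))))) (XT.nd (nat_lit 546) (nat_lit 3344) (nat_lit 0) (XT.nd (nat_lit 234) (nat_lit 1520) (nat_lit 0) (XT.nd (nat_lit 78) (nat_lit 760) (nat_lit 0) (XT.lf (nat_lit 0) (nat_lit 17291922547) (nat_lit 760) (nat_lit 1385724607) (nat_lit 836) (nat_lit 10995924677) (nat_lit 365) (nat_lit 5) (nat_lit 375) (nat_lit 5) (nat_lit 376) (nat_lit 5) (nat_lit 639) (nat_lit 599) (nat_lit 322)) (XT.nd (nat_lit 78) (nat_lit 0) (nat_lit 0) (XT.lf (nat_lit 0) (nat_lit 4198353217) (nat_lit 760) (nat_lit 18520975686) (nat_lit 836) (nat_lit 7287022695) (nat_lit 355) (nat_lit 5) (nat_lit 365) (nat_lit 5) (nat_lit 366) (nat_lit 5) (nat_lit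 640) (nat_lit 599) (nat_lit 321)) (XT.lf (nat_lit 0) (nat_lit 21265994275) (nat_lit 760) (nat_lit 5665753431) (nat_lit 836) (nat_lit 3412241306) (nat_lit 355) (nat_lit 5) (nat_lit 365) (nat_lit 5) (nat_lit 366) (nat_lit 5) (nat_lit 641) (nat_lit 599) (nat_lit 320)))) (XT.nd (nat_lit 156) (nat_lit 760) (nat_lit 0) (XT.nd (nat_lit 78) (nat_lit 0) (nat_lit 0) (XT.lf (nat_lit 0) (nat_lit 631904281) (nat_lit 760) (nat_lit 22649341532) (nat_lit 76) (nat_lit 7405084328) (nat_lit 345) (nat_lit 5) (nat_lit 355) (nat_lit 5) (nat_lit 346) (nat_lit 5) (nat_lit 642) (nat_lit 599) (nat_lit 319)) (XT.lf (nat_lit 0) (nat_lit 4807885242) (nat_lit 760) (nat_lit 5480003650) (nat_lit 76) (nat_lit 20745245369) (nat_lit 345) (nat_lit 5) (nat_lit 355) (nat_lit 5) (nat_lit 346) (nat_lit 5) (nat_lit 643) (nat_lit 599) (nat_lit 318))) (XT.nd (nat_lit 78) (nat_lit 0) (nat_lit 0) (XT.lf (nat_lit 0) (nat_lit 9164108227) (nat_lit 836) (nat_lit 19214972560) (nat_lit 76) (nat_lit 3005859338)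 (nat_lit 335) (nat_lit 5) (nat_lit 346) (nat_lit 5) (nat_lit 336) (nat_lit 5) (nat_lit 644) (nat_lit 599) (nat_lit 317)) (XT.lf (nat_lit 0) (nat_lit 13710430699) (nat_lit 836) (nat_lit 1566684794) (nat_lit 76) (nat_lit 16464607225) (nat_lit 335) (nat_lit 5) (nat_lit 346) (nat_lit 5) (nat_lit 336) (nat_lit 5) (nat_lit 645) (nat_lit 599) (nat_lit 316))))) (XT.nd (nat_lit 312) (nat_lit 1292) (nat_lit 0) (XT.nd (nat_lit 156) (nat_lit 684) (nat_lit 0) (XT.nd (nat_lit 78) (nat_lit 684) (nat_lit 0) (XT.lf (nat_lit 0) (nat_lit 16650507829) (nat_lit 684) (nat_lit 1803146626) (nat_lit 760) (nat_lit 13649867117) (nat_lit 326) (nat_lit 5) (nat_lit 335) (nat_lit 5) (nat_lit 336) (nat_lit 5) (nat_lit 646) (nat_lit 599) (nat_lit 315)) (XT.lf (nat_lit 0) (nat_lit 2736774850) (nat_lit 684) (nat_lit 20658736793) (nat_lit 760) (nat_lit 9074969486) (nat_lit 317) (nat_lit 5) (nat_lit 326) (nat_lit 5) (nat_lit 327) (nat_lit 5) (nat_lit 647) (nat_lit 599) (nat_lit 314))) (XT.nd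 (nat_lit 78) (nat_lit 684) (nat_lit 0) (XT.lf (nat_lit 0) (nat_lit 21485285551) (nat_lit 684) (nat_lit 7064399280) (nat_lit 760) (nat_lit 4292825573) (nat_lit 317) (nat_lit 5) (nat_lit 326) (nat_lit 5) (nat_lit 327) (nat_lit 5) (nat_lit 648) (nat_lit 599) (nat_lit 313)) (XT.lf (nat_lit 0) (nat_lit 668297382) (nat_lit 684) (nat_lit 25786831349) (nat_lit 76) (nat_lit 6764955513) (nat_lit 308) (nat_lit 5) (nat_lit 317) (nat_lit 5) (nat_lit 309) (nat_lit 5) (nat_lit 649) (nat_lit 599) (nat_lit 312)))) (XT.nd (nat_lit 156) (nat_lit 608) (nat_lit 0) (XT.nd (nat_lit 78) (nat_lit 684) (nat_lit 0) (XT.lf (nat_lit 0) (nat_lit 5792684981) (nat_lit 684) (nat_lit 6928358139) (nat_lit 76) (nat_lit 20881168563) (nat_lit 308) (nat_lit 5) (nat_lit 317) (nat_lit 5) (nat_lit 309) (nat_lit 5) (nat_lit 650) (nat_lit 599) (nat_lit 311)) (XT.lf (nat_lit 0) (nat_lit 11107415247) (nat_lit 760) (nat_lit 21530883925) (nat_lit 76) (nat_lit 1351925498) (nat_lit 299) (nat_lit 5) (nat_lit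 309) (nat_lit 5) (nat_lit 300) (nat_lit 5) (nat_lit 651) (nat_lit 599) (nat_lit 310))) (XT.nd (nat_lit 78) (nat_lit 608) (nat_lit 0) (XT.lf (nat_lit 0) (nat_lit 16657514656) (nat_lit 760) (nat_lit 2143330108) (nat_lit 76) (nat_lit 15582571753) (nat_lit 299) (nat_lit 5) (nat_lit 309) (nat_lit 5) (nat_lit 300) (nat_lit 5) (nat_lit 652) (nat_lit 599) (nat_lit 309)) (XT.lf (nat_lit 0) (nat_lit 17863892200) (nat_lit 608) (nat_lit 4568775141) (nat_lit 684) (nat_lit 12349523928) (nat_lit 291) (nat_lit 5) (nat_lit 299) (nat_lit 5) (nat_lit 300) (nat_lit 5) (nat_lit 653) (nat_lit 599) (nat_lit 308))))))))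
noncomputable def xc217 : XT := (XT.nd (nat_lit 77766) (nat_lit 0) (nat_lit 12236) (XT.nd (nat_lit 1092) (nat_lit 1976) (nat_lit 0) (XT.nd (nat_lit 546) (nat_lit 2204) (nat_lit 0) (XT.nd (nat_lit 234) (nat_lit 1140) (nat_lit 0) (XT.nd (nat_lit 78) (nat_lit 684) (nat_lit 0) (XT.lf (nat_lit 0) (nat_lit 3085045016) (nat_lit 608) (nat_lit 25335461715) (nat_lit 684) (nat_lit 6766491200) (nat_lit 283) (nat_lit 5) (nat_lit 291) (nat_lit 5) (nat_lit 292) (nat_lit 5) (nat_lit 654) (nat_lit 599) (nat_lit 307)) (XT.nd (nat_lit 78) (nat_lit 684) (nat_lit 0) (XT.lf (nat_lit 0) (nat_lit 23684754266) (nat_lit 608) (nat_lit 10985045932) (nat_lit 684) (nat_lit 927266671) (nat_lit 283) (nat_lit 5) (nat_lit 291) (nat_lit 5) (nat_lit 292) (nat_lit 5) (nat_lit 655) (nat_lit 599) (nat_lit 306)) (XT.lf (nat_lit 0) (nat_lit 5042108853) (nat_lit 684) (nat_lit 27276867602) (nat_lit 76) (nat_lit 3694121429) (nat_lit 274) (nat_lit 5) (nat_lit 283) (nat_lit 5) (nat_lit 275) (nat_lit 5)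 (nat_lit 656) (nat_lit 599) (nat_lit 305)))) (XT.nd (nat_lit 156) (nat_lit 532) (nat_lit 0) (XT.nd (nat_lit 78) (nat_lit 608) (nat_lit 0) (XT.lf (nat_lit 0) (nat_lit 11269835124) (nat_lit 684) (nat_lit 6558422535) (nat_lit 76) (nat_lit 18606041774) (nat_lit 274) (nat_lit 5) (nat_lit 283) (nat_lit 5) (nat_lit 275) (nat_lit 5) (nat_lit 657) (nat_lit 599) (nat_lit 304)) (XT.lf (nat_lit 0) (nat_lit 14765721572) (nat_lit 608) (nat_lit 2950451249) (nat_lit 684) (nat_lit 19145871133) (nat_lit 266) (nat_lit 5) (nat_lit 274) (nat_lit 5) (nat_lit 275) (nat_lit 5) (nat_lit 658) (nat_lit 599) (nat_lit 303))) (XT.nd (nat_lit 78) (nat_lit 532) (nat_lit 0) (XT.lf (nat_lit 0) (nat_lit 24413316644) (nat_lit 684) (nat_lit 774219347) (nat_lit 76) (nat_lit 12108369867) (nat_lit 266) (nat_lit 5) (nat_lit 275) (nat_lit 5) (nat_lit 267) (nat_lit 5) (nat_lit 659) (nat_lit 599) (nat_lit 302)) (XT.lf (nat_lit 0) (nat_lit 21230937623) (nat_lit 532) (nat_lit 10169090864) (nat_lit 608)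 (nat_lit 6335304090) (nat_lit 259) (nat_lit 5) (nat_lit 266) (nat_lit 5) (nat_lit 267) (nat_lit 5) (nat_lit 660) (nat_lit 599) (nat_lit 301))))) (XT.nd (nat_lit 234) (nat_lit 1064) (nat_lit 0) (XT.nd (nat_lit 78) (nat_lit 532) (nat_lit 0) (XT.lf (nat_lit 0) (nat_lit 411803841) (nat_lit 608) (nat_lit 32644673351) (nat_lit 76) (nat_lit 5125558689) (nat_lit 251) (nat_lit 5) (nat_lit 259) (nat_lit 5) (nat_lit 252) (nat_lit 5) (nat_lit 661) (nat_lit 599) (nat_lit 300)) (XT.nd (nat_lit 78) (nat_lit 532) (nat_lit 0) (XT.lf (nat_lit 0) (nat_lit 7386199477) (nat_lit 608) (nat_lit 10504136155) (nat_lit 76) (nat_lit 20742956661) (nat_lit 251) (nat_lit 5) (nat_lit 259) (nat_lit 5) (nat_lit 252) (nat_lit 5) (nat_lit 662) (nat_lit 599) (nat_lit 299)) (XT.lf (nat_lit 0) (nat_lit 12237432961) (nat_lit 532) (nat_lit 2340401984) (nat_lit 608) (nat_lit 24514183922) (nat_lit 244) (nat_lit 5) (nat_lit 251) (nat_lit 5) (nat_lit 252) (nat_lit 5) (nat_lit 663) (nat_lit 599) (nat_lit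 298)))) (XT.nd (nat_lit 156) (nat_lit 532) (nat_lit 0) (XT.nd (nat_lit 78) (nat_lit 532) (nat_lit 0) (XT.lf (nat_lit 0) (nat_lit 22070355800) (nat_lit 608) (nat_lit 4072831450) (nat_lit 76) (nat_lit 13413591739) (nat_lit 244) (nat_lit 5) (nat_lit 252) (nat_lit 5) (nat_lit 245) (nat_lit 5) (nat_lit 664) (nat_lit 599) (nat_lit 297)) (XT.lf (nat_lit 0) (nat_lit 19401264748) (nat_lit 532) (nat_lit 10451273959) (nat_lit 608) (nat_lit 10175499444) (nat_lit 237) (nat_lit 5) (nat_lit 244) (nat_lit 5) (nat_lit 245) (nat_lit 5) (nat_lit 665) (nat_lit 599) (nat_lit 296))) (XT.nd (nat_lit 78) (nat_lit 76) (nat_lit 0) (XT.lf (nat_lit 0) (nat_lit 2891291529) (nat_lit 456) (nat_lit 34979781608) (nat_lit 532) (nat_lit 2636035270) (nat_lit 231) (nat_lit 5) (nat_lit 237) (nat_lit 5) (nat_lit 238) (nat_lit 5) (nat_lit 666) (nat_lit 599) (nat_lit 295)) (XT.lf (nat_lit 0) (nat_lit 5194845367) (nat_lit 532) (nat_lit 13938884495) (nat_lit 76) (nat_lit 21857235681) (nat_lit 230)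 (nat_lit 5) (nat_lit 237) (nat_lit 5) (nat_lit 231) (nat_lit 5) (nat_lit 667) (nat_lit 599) (nat_lit 294)))))) (XT.nd (nat_lit 76050) (nat_lit 0) (nat_lit 20520) (XT.nd (nat_lit 234) (nat_lit 988) (nat_lit 0) (XT.nd (nat_lit 78) (nat_lit 456) (nat_lit 0) (XT.lf (nat_lit 0) (nat_lit 10327352748) (nat_lit 532) (nat_lit 2885178646) (nat_lit 608) (nat_lit 28270310323) (nat_lit 223) (nat_lit 5) (nat_lit 230) (nat_lit 5) (nat_lit 231) (nat_lit 5) (nat_lit 668) (nat_lit 599) (nat_lit 293)) (XT.nd (nat_lit 78) (nat_lit 456) (nat_lit 0) (XT.lf (nat_lit 0) (nat_lit 21572013932) (nat_lit 608) (nat_lit 6806552703) (nat_lit 76) (nat_lit 13602359987) (nat_lit 223) (nat_lit 5) (nat_lit 231) (nat_lit 5) (nat_lit 224) (nat_lit 5) (nat_lit 669) (nat_lit 599) (nat_lit 292)) (XT.lf (nat_lit 0) (nat_lit 18247381899) (nat_lit 456) (nat_lit 11987328882) (nat_lit 532) (nat_lit 12251542011) (nat_lit 217) (nat_lit 5) (nat_lit 223) (nat_lit 5) (nat_lit 224) (nat_lit 5) (nat_lit 670)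 (nat_lit 599) (nat_lit 291)))) (XT.nd (nat_lit 75660) (nat_lit 0) (nat_lit 22192) (XT.nd (nat_lit 156) (nat_lit 532) (nat_lit 0) (XT.lf (nat_lit 0) (nat_lit 872098254) (nat_lit 456) (nat_lit 38279380814) (nat_lit 532) (nat_lit 3848590128) (nat_lit 211) (nat_lit 5) (nat_lit 217) (nat_lit 5) (nat_lit 218) (nat_lit 5) (nat_lit 671) (nat_lit 599) (nat_lit 290)) (XT.lf (nat_lit 0) (nat_lit 9084835301) (nat_lit 456) (nat_lit 4748892021) (nat_lit 532) (nat_lit 30212351527) (nat_lit 204) (nat_lit 5) (nat_lit 210) (nat_lit 5) (nat_lit 211) (nat_lit 5) (nat_lit 673) (nat_lit 599) (nat_lit 288))) (XT.nd (nat_lit 78) (nat_lit 0) (nat_lit 0) (XT.lf (nat_lit 0) (nat_lit 4550710606) (nat_lit 0) (nat_lit 4550710606) (nat_lit 1748) (nat_lit 854943737) (nat_lit 496) (nat_lit 5) (nat_lit 496) (nat_lit 3) (nat_lit 519) (nat_lit 3) (nat_lit 600) (nat_lit 600) (nat_lit 360)) (XT.lf (nat_lit 0) (nat_lit 18555624104) (nat_lit 1748) (nat_lit 937725141) (nat_lit 1824) (nat_lit 615082508)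 (nat_lit 496) (nat_lit 5) (nat_lit 519) (nat_lit 3) (nat_lit 520) (nat_lit 5) (nat_lit 601) (nat_lit 600) (nat_lit 359))))) (XT.nd (nat_lit 312) (nat_lit 1672) (nat_lit 0) (XT.nd (nat_lit 156) (nat_lit 0) (nat_lit 76) (XT.nd (nat_lit 78) (nat_lit 0) (nat_lit 76) (XT.lf (nat_lit 76) (nat_lit 9191313178) (nat_lit 0) (nat_lit 9839740071) (nat_lit 1824) (nat_lit 1274682829) (nat_lit 497) (nat_lit 5) (nat_lit 496) (nat_lit 5) (nat_lit 520) (nat_lit 5) (nat_lit 602) (nat_lit 600) (nat_lit 358)) (XT.lf (nat_lit 0) (nat_lit 19518095552) (nat_lit 1748) (nat_lit 973676364) (nat_lit 1824) (nat_lit 15172750) (nat_lit 497) (nat_lit 5) (nat_lit 520) (nat_lit 5) (nat_lit 521) (nat_lit 5) (nat_lit 603) (nat_lit 600) (nat_lit 357))) (XT.nd (nat_lit 78) (nat_lit 0) (nat_lit 0) (XT.lf (nat_lit 76) (nat_lit 9426019356) (nat_lit 0) (nat_lit 10711032177) (nat_lit 1824) (nat_lit 572682697) (nat_lit 498) (nat_lit 5) (nat_lit 497) (nat_lit 5) (nat_lit 521) (nat_lit 5) (nat_lit 604)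 (nat_lit 600) (nat_lit 356)) (XT.lf (nat_lit 76) (nat_lit 20044596888) (nat_lit 0) (nat_lit 726199824) (nat_lit 1824) (nat_lit 145734929) (nat_lit 498) (nat_lit 5) (nat_lit 497) (nat_lit 5) (nat_lit 521) (nat_lit 5) (nat_lit 605) (nat_lit 600) (nat_lit 355)))) (XT.nd (nat_lit 156) (nat_lit 0) (nat_lit 76) (XT.nd (nat_lit 78) (nat_lit 0) (nat_lit 0) (XT.lf (nat_lit 0) (nat_lit 407844258) (nat_lit 1824) (nat_lit 11314713858) (nat_lit 1900) (nat_lit 9402431652) (nat_lit 474) (nat_lit 5) (nat_lit 498) (nat_lit 5) (nat_lit 499) (nat_lit 5) (nat_lit 606) (nat_lit 600) (nat_lit 354)) (XT.lf (nat_lit 0) (nat_lit 977250542) (nat_lit 1824) (nat_lit 627758793) (nat_lit 1900) (nat_lit 19732454561) (nat_lit 474) (nat_lit 5) (nat_lit 498) (nat_lit 5) (nat_lit 499) (nat_lit 5) (nat_lit 607) (nat_lit 600) (nat_lit 353))) (XT.nd (nat_lit 78) (nat_lit 0) (nat_lit 0) (XT.lf (nat_lit 0) (nat_lit 1678739339) (nat_lit 1824) (nat_lit 11202877832) (nat_lit 1900) (nat_lit 8670156685)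 (nat_lit 475) (nat_lit 5) (nat_lit 499) (nat_lit 5) (nat_lit 500) (nat_lit 5) (nat_lit 608) (nat_lit 600) (nat_lit 352)) (XT.lf (nat_lit 0) (nat_lit 2405283340) (nat_lit 1824) (nat_lit 229769950) (nat_lit 1900) (nat_lit 19135096448) (nat_lit 475) (nat_lit 5) (nat_lit 499) (nat_lit 5) (nat_lit 500) (nat_lit 5) (nat_lit 609) (nat_lit 600) (nat_lit 351))))))) (XT.nd (nat_lit 1170) (nat_lit 8436) (nat_lit 0) (XT.nd (nat_lit 546) (nat_lit 0) (nat_lit 228) (XT.nd (nat_lit 234) (nat_lit 0) (nat_lit 76) (XT.nd (nat_lit 78) (nat_lit 0) (nat_lit 0) (XT.lf (nat_lit 0) (nat_lit 3265933536) (nat_lit 1824) (nat_lit 10936677315) (nat_lit 1900) (nat_lit 7787891010) (nat_lit 476) (nat_lit 5) (nat_lit 500) (nat_lit 5) (nat_lit 501) (nat_lit 5) (nat_lit 610) (nat_lit 600) (nat_lit 350)) (XT.nd (nat_lit 78) (nat_lit 0) (nat_lit 76) (XT.lf (nat_lit 76) (nat_lit 335473635) (nat_lit 0) (nat_lit 3825802484) (nat_lit 1900) (nat_lit 18053635542) (nat_lit 477) (nat_lit 5) (nat_lit 476)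 (nat_lit 5) (nat_lit 501) (nat_lit 5) (nat_lit 611) (nat_lit 600) (nat_lit 349)) (XT.lf (nat_lit 0) (nat_lit 5188646638) (nat_lit 1824) (nat_lit 10507897247) (nat_lit 1900) (nat_lit 6744983569) (nat_lit 477) (nat_lit 5) (nat_lit 501) (nat_lit 5) (nat_lit 502) (nat_lit 5) (nat_lit 612) (nat_lit 600) (nat_lit 348)))) (XT.nd (nat_lit 156) (nat_lit 0) (nat_lit 76) (XT.nd (nat_lit 78) (nat_lit 0) (nat_lit 76) (XT.lf (nat_lit 76) (nat_lit 1077411906) (nat_lit 0) (nat_lit 5187918935) (nat_lit 1900) (nat_lit 16406769612) (nat_lit 478) (nat_lit 5) (nat_lit 477) (nat_lit 5) (nat_lit 502) (nat_lit 5) (nat_lit 613) (nat_lit 600) (nat_lit 347)) (XT.lf (nat_lit 0) (nat_lit 7466934942) (nat_lit 1824) (nat_lit 9907904878) (nat_lit 1900) (nat_lit 5530377578) (nat_lit 478) (nat_lit 5) (nat_lit 502) (nat_lit 5) (nat_lit 503) (nat_lit 5) (nat_lit 614) (nat_lit 600) (nat_lit 346))) (XT.nd (nat_lit 78) (nat_lit 0) (nat_lit 76) (XT.lf (nat_lit 76) (nat_lit 2002046264) (nat_lit 0)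 (nat_lit 6734444846) (nat_lit 1900) (nat_lit 14405627378) (nat_lit 479) (nat_lit 5) (nat_lit 478) (nat_lit 5) (nat_lit 503) (nat_lit 5) (nat_lit 615) (nat_lit 600) (nat_lit 345)) (XT.lf (nat_lit 0) (nat_lit 10121729477) (nat_lit 1824) (nat_lit 9127635207) (nat_lit 1900) (nat_lit 4132587298) (nat_lit 479) (nat_lit 5) (nat_lit 503) (nat_lit 5) (nat_lit 504) (nat_lit 5) (nat_lit 616) (nat_lit 600) (nat_lit 344))))) (XT.nd (nat_lit 312) (nat_lit 0) (nat_lit 152) (XT.nd (nat_lit 156) (nat_lit 0) (nat_lit 76) (XT.nd (nat_lit 78) (nat_lit 0) (nat_lit 76) (XT.lf (nat_lit 76) (nat_lit 3118879759) (nat_lit 0) (nat_lit 8477329693) (nat_lit 1900) (nat_lit 12029142154) (nat_lit 480) (nat_lit 5) (nat_lit 479) (nat_lit 5) (nat_lit 504) (nat_lit 5) (nat_lit 617) (nat_lit 600) (nat_lit 343)) (XT.lf (nat_lit 0) (nat_lit 13174875648) (nat_lit 1824) (nat_lit 8157575708) (nat_lit 1900) (nat_lit 2539674129) (nat_lit 480) (nat_lit 5) (nat_lit 504) (nat_lit 5) (nat_lit 505) (nat_lit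 5) (nat_lit 618) (nat_lit 600) (nat_lit 342))) (XT.nd (nat_lit 78) (nat_lit 0) (nat_lit 76) (XT.lf (nat_lit 76) (nat_lit 4437879446) (nat_lit 0) (nat_lit 10428996726) (nat_lit 1900) (nat_lit 9255323640) (nat_lit 481) (nat_lit 5) (nat_lit 480) (nat_lit 5) (nat_lit 505) (nat_lit 5) (nat_lit 619) (nat_lit 600) (nat_lit 341)) (XT.lf (nat_lit 0) (nat_lit 16649174350) (nat_lit 1824) (nat_lit 6987750352) (nat_lit 1900) (nat_lit 739221958) (nat_lit 481) (nat_lit 5) (nat_lit 505) (nat_lit 5) (nat_lit 506) (nat_lit 5) (nat_lit 620) (nat_lit 600) (nat_lit 340)))) (XT.nd (nat_lit 156) (nat_lit 0) (nat_lit 76) (XT.nd (nat_lit 78) (nat_lit 0) (nat_lit 0) (XT.lf (nat_lit 76) (nat_lit 5969493013) (nat_lit 0) (nat_lit 12602368357) (nat_lit 1900) (nat_lit 6061216399) (nat_lit 482) (nat_lit 5) (nat_lit 481) (nat_lit 5) (nat_lit 506) (nat_lit 5) (nat_lit 621) (nat_lit 600) (nat_lit 339)) (XT.lf (nat_lit 76) (nat_lit 19278135556) (nat_lit 0) (nat_lit 1298721230) (nat_lit 1900)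 (nat_lit 4317413803) (nat_lit 482) (nat_lit 5) (nat_lit 481) (nat_lit 5) (nat_lit 506) (nat_lit 5) (nat_lit 622) (nat_lit 600) (nat_lit 338))) (XT.nd (nat_lit 78) (nat_lit 0) (nat_lit 0) (XT.lf (nat_lit 76) (nat_lit 7724666163) (nat_lit 0) (nat_lit 15010892381) (nat_lit 1900) (nat_lit 2422856768) (nat_lit 483) (nat_lit 5) (nat_lit 482) (nat_lit 5) (nat_lit 507) (nat_lit 5) (nat_lit 623) (nat_lit 600) (nat_lit 337)) (XT.lf (nat_lit 76) (nat_lit 21397231320) (nat_lit 0) (nat_lit 3583503105) (nat_lit 1900) (nat_lit 446242675) (nat_lit 483) (nat_lit 5) (nat_lit 482) (nat_lit 5) (nat_lit 507) (nat_lit 5) (nat_lit 624) (nat_lit 600) (nat_lit 336)))))) (XT.nd (nat_lit 546) (nat_lit 4180) (nat_lit 0) (XT.nd (nat_lit 234) (nat_lit 1824) (nat_lit 0) (XT.nd (nat_lit 78) (nat_lit 1064) (nat_lit 0) (XT.lf (nat_lit 0) (nat_lit 1662675774) (nat_lit 1900) (nat_lit 15994735853) (nat_lit 76) (nat_lit 8041027573) (nat_lit 458) (nat_lit 5) (nat_lit 483) (nat_lit 5) (nat_lit 459)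 (nat_lit 5) (nat_lit 625) (nat_lit 600) (nat_lit 335)) (XT.nd (nat_lit 78) (nat_lit 1064) (nat_lit 0) (XT.lf (nat_lit 0) (nat_lit 3855906094) (nat_lit 1900) (nat_lit 2237709287) (nat_lit 76) (nat_lit 19880694158) (nat_lit 458) (nat_lit 5) (nat_lit 483) (nat_lit 5) (nat_lit 459) (nat_lit 5) (nat_lit 626) (nat_lit 600) (nat_lit 334)) (XT.lf (nat_lit 0) (nat_lit 6205320025) (nat_lit 1140) (nat_lit 14343018145) (nat_lit 76) (nat_lit 5705112892) (nat_lit 444) (nat_lit 5) (nat_lit 459) (nat_lit 5) (nat_lit 445) (nat_lit 5) (nat_lit 627) (nat_lit 600) (nat_lit 333)))) (XT.nd (nat_lit 156) (nat_lit 912) (nat_lit 0) (XT.nd (nat_lit 78) (nat_lit 912) (nat_lit 0) (XT.lf (nat_lit 0) (nat_lit 8654440381) (nat_lit 1140) (nat_lit 208950269) (nat_lit 76) (nat_lit 17673730560) (nat_lit 444) (nat_lit 5) (nat_lit 459) (nat_lit 5) (nat_lit 445) (nat_lit 5) (nat_lit 628) (nat_lit 600) (nat_lit 332)) (XT.lf (nat_lit 0) (nat_lit 11263758159) (nat_lit 988) (nat_lit 12450968932) (nat_lit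 76) (nat_lit 3109513523) (nat_lit 432) (nat_lit 5) (nat_lit 445) (nat_lit 5) (nat_lit 433) (nat_lit 5) (nat_lit 629) (nat_lit 600) (nat_lit 331))) (XT.nd (nat_lit 78) (nat_lit 0) (nat_lit 0) (XT.lf (nat_lit 0) (nat_lit 2099239397) (nat_lit 912) (nat_lit 11897102037) (nat_lit 988) (nat_lit 13119339540) (nat_lit 420) (nat_lit 5) (nat_lit 432) (nat_lit 5) (nat_lit 433) (nat_lit 5) (nat_lit 630) (nat_lit 600) (nat_lit 330)) (XT.lf (nat_lit 0) (nat_lit 16866078060) (nat_lit 988) (nat_lit 10306141587) (nat_lit 76) (nat_lit 239080606) (nat_lit 420) (nat_lit 5) (nat_lit 433) (nat_lit 5) (nat_lit 421) (nat_lit 5) (nat_lit 631) (nat_lit 600) (nat_lit 329))))) (XT.nd (nat_lit 312) (nat_lit 2432) (nat_lit 0) (XT.nd (nat_lit 156) (nat_lit 912) (nat_lit 0) (XT.nd (nat_lit 78) (nat_lit 0) (nat_lit 0) (XT.lf (nat_lit 0) (nat_lit 4678465263) (nat_lit 836) (nat_lit 15221337300) (nat_lit 912) (nat_lit 7810897637) (nat_lit 409) (nat_lit 5) (nat_lit 420) (nat_lit 5) (nat_lit 421)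 (nat_lit 5) (nat_lit 632) (nat_lit 600) (nat_lit 328)) (XT.lf (nat_lit 0) (nat_lit 20100013662) (nat_lit 836) (nat_lit 2960810712) (nat_lit 912) (nat_lit 4953931460) (nat_lit 409) (nat_lit 5) (nat_lit 420) (nat_lit 5) (nat_lit 421) (nat_lit 5) (nat_lit 633) (nat_lit 600) (nat_lit 327))) (XT.nd (nat_lit 78) (nat_lit 76) (nat_lit 0) (XT.lf (nat_lit 0) (nat_lit 7539555719) (nat_lit 836) (nat_lit 18853948146) (nat_lit 912) (nat_lit 1929220107) (nat_lit 398) (nat_lit 5) (nat_lit 409) (nat_lit 5) (nat_lit 410) (nat_lit 5) (nat_lit 634) (nat_lit 600) (nat_lit 326)) (XT.lf (nat_lit 0) (nat_lit 1211426345) (nat_lit 912) (nat_lit 5255500599) (nat_lit 76) (nat_lit 22168362517) (nat_lit 397) (nat_lit 5) (nat_lit 409) (nat_lit 5) (nat_lit 398) (nat_lit 5) (nat_lit 635) (nat_lit 600) (nat_lit 325)))) (XT.nd (nat_lit 156) (nat_lit 1596) (nat_lit 0) (XT.nd (nat_lit 78) (nat_lit 0) (nat_lit 0) (XT.lf (nat_lit 0) (nat_lit 4496769890) (nat_lit 912) (nat_lit 18285142322) (nat_lit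 76) (nat_lit 6169784808) (nat_lit 386) (nat_lit 5) (nat_lit 398) (nat_lit 5) (nat_lit 387) (nat_lit 5) (nat_lit 636) (nat_lit 600) (nat_lit 324)) (XT.lf (nat_lit 0) (nat_lit 7923758524) (nat_lit 912) (nat_lit 2340953036) (nat_lit 76) (nat_lit 19008202535) (nat_lit 386) (nat_lit 5) (nat_lit 398) (nat_lit 5) (nat_lit 387) (nat_lit 5) (nat_lit 637) (nat_lit 600) (nat_lit 323))) (XT.nd (nat_lit 78) (nat_lit 760) (nat_lit 0) (XT.lf (nat_lit 0) (nat_lit 11525377106) (nat_lit 912) (nat_lit 15510928779) (nat_lit 76) (nat_lit 2562127947) (nat_lit 375) (nat_lit 5) (nat_lit 387) (nat_lit 5) (nat_lit 376) (nat_lit 5) (nat_lit 638) (nat_lit 600) (nat_lit 322)) (XT.lf (nat_lit 0) (nat_lit 887231263) (nat_lit 760) (nat_lit 14399035487) (nat_lit 836) (nat_lit 14642452563) (nat_lit 365) (nat_lit 5) (nat_lit 375) (nat_lit 5) (nat_lit 376) (nat_lit 5) (nat_lit 639) (nat_lit 600) (nat_lit 321))))))))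
noncomputable def xc218 : XT := (XT.nd (nat_lit 2262) (nat_lit 1976) (nat_lit 0) (XT.nd (nat_lit 1092) (nat_lit 5244) (nat_lit 0) (XT.nd (nat_lit 546) (nat_lit 2736) (nat_lit 0) (XT.nd (nat_lit 234) (nat_lit 1520) (nat_lit 0) (XT.nd (nat_lit 78) (nat_lit 760) (nat_lit 0) (XT.lf (nat_lit 0) (nat_lit 17821187832) (nat_lit 760) (nat_lit 1402989401) (nat_lit 836) (nat_lit 11039397333) (nat_lit 365) (nat_lit 5) (nat_lit 375) (nat_lit 5) (nat_lit 376) (nat_lit 5) (nat_lit 640) (nat_lit 600) (nat_lit 320)) (XT.nd (nat_lit 78) (nat_lit 0) (nat_lit 0) (XT.lf (nat_lit 0) (nat_lit 4467918841) (nat_lit 760) (nat_lit 18876653612) (nat_lit 836) (nat_lit 7258480057) (nat_lit 355) (nat_lit 5) (nat_lit 365) (nat_lit 5) (nat_lit 366) (nat_lit 5) (nat_lit 641) (nat_lit 600) (nat_lit 319)) (XT.lf (nat_lit 0) (nat_lit 21873273533) (nat_lit 760) (nat_lit 5764615963) (nat_lit 836) (nat_lit 3309620356) (nat_lit 355) (nat_lit 5) (nat_lit 365) (nat_lit 5) (nat_lit 366) (nat_lit 5)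 (nat_lit 642) (nat_lit 600) (nat_lit 318)))) (XT.nd (nat_lit 156) (nat_lit 760) (nat_lit 0) (XT.nd (nat_lit 78) (nat_lit 0) (nat_lit 0) (XT.lf (nat_lit 0) (nat_lit 811156043) (nat_lit 760) (nat_lit 22916099797) (nat_lit 76) (nat_lit 7569460169) (nat_lit 345) (nat_lit 5) (nat_lit 355) (nat_lit 5) (nat_lit 346) (nat_lit 5) (nat_lit 643) (nat_lit 600) (nat_lit 317)) (XT.lf (nat_lit 0) (nat_lit 5067389688) (nat_lit 760) (nat_lit 5407026698) (nat_lit 76) (nat_lit 21176105329) (nat_lit 345) (nat_lit 5) (nat_lit 355) (nat_lit 5) (nat_lit 346) (nat_lit 5) (nat_lit 644) (nat_lit 600) (nat_lit 316))) (XT.nd (nat_lit 78) (nat_lit 0) (nat_lit 0) (XT.lf (nat_lit 0) (nat_lit 9508842075) (nat_lit 836) (nat_lit 19414791795) (nat_lit 76) (nat_lit 3085767892) (nat_lit 335) (nat_lit 5) (nat_lit 346) (nat_lit 5) (nat_lit 336) (nat_lit 5) (nat_lit 645) (nat_lit 600) (nat_lit 315)) (XT.lf (nat_lit 0) (nat_lit 14142925276) (nat_lit 836) (nat_lit 1417155533) (nat_lit 76) (nat_lit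 16813302670) (nat_lit 335) (nat_lit 5) (nat_lit 346) (nat_lit 5) (nat_lit 336) (nat_lit 5) (nat_lit 646) (nat_lit 600) (nat_lit 314))))) (XT.nd (nat_lit 234) (nat_lit 1368) (nat_lit 0) (XT.nd (nat_lit 78) (nat_lit 684) (nat_lit 0) (XT.lf (nat_lit 0) (nat_lit 17163191054) (nat_lit 684) (nat_lit 1815885363) (nat_lit 760) (nat_lit 13763380791) (nat_lit 326) (nat_lit 5) (nat_lit 335) (nat_lit 5) (nat_lit 336) (nat_lit 5) (nat_lit 647) (nat_lit 600) (nat_lit 313)) (XT.nd (nat_lit 78) (nat_lit 0) (nat_lit 0) (XT.lf (nat_lit 0) (nat_lit 2972965088) (nat_lit 684) (nat_lit 21045066589) (nat_lit 760) (nat_lit 9098759215) (nat_lit 317) (nat_lit 5) (nat_lit 326) (nat_lit 5) (nat_lit 327) (nat_lit 5) (nat_lit 648) (nat_lit 600) (nat_lit 312)) (XT.lf (nat_lit 0) (nat_lit 22092888067) (nat_lit 684) (nat_lit 7179368698) (nat_lit 760) (nat_lit 4224064769) (nat_lit 317) (nat_lit 5) (nat_lit 326) (nat_lit 5) (nat_lit 327) (nat_lit 5) (nat_lit 649) (nat_lit 600) (nat_lit 311))))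 (XT.nd (nat_lit 156) (nat_lit 684) (nat_lit 0) (XT.nd (nat_lit 78) (nat_lit 0) (nat_lit 0) (XT.lf (nat_lit 0) (nat_lit 832603142) (nat_lit 684) (nat_lit 26120979082) (nat_lit 76) (nat_lit 6927877686) (nat_lit 308) (nat_lit 5) (nat_lit 317) (nat_lit 5) (nat_lit 309) (nat_lit 5) (nat_lit 650) (nat_lit 600) (nat_lit 310)) (XT.lf (nat_lit 0) (nat_lit 6056518890) (nat_lit 684) (nat_lit 6888896974) (nat_lit 76) (nat_lit 21325873369) (nat_lit 308) (nat_lit 5) (nat_lit 317) (nat_lit 5) (nat_lit 309) (nat_lit 5) (nat_lit 651) (nat_lit 600) (nat_lit 309))) (XT.nd (nat_lit 78) (nat_lit 0) (nat_lit 0) (XT.lf (nat_lit 0) (nat_lit 11475989333) (nat_lit 760) (nat_lit 21781911906) (nat_lit 76) (nat_lit 1409192467) (nat_lit 299) (nat_lit 5) (nat_lit 309) (nat_lit 5) (nat_lit 300) (nat_lit 5) (nat_lit 652) (nat_lit 600) (nat_lit 308)) (XT.lf (nat_lit 0) (nat_lit 17134219637) (nat_lit 760) (nat_lit 2010128380) (nat_lit 76) (nat_lit 15923858932) (nat_lit 299) (nat_lit 5) (nat_lit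 309) (nat_lit 5) (nat_lit 300) (nat_lit 5) (nat_lit 653) (nat_lit 600) (nat_lit 307)))))) (XT.nd (nat_lit 546) (nat_lit 2736) (nat_lit 0) (XT.nd (nat_lit 234) (nat_lit 1292) (nat_lit 0) (XT.nd (nat_lit 78) (nat_lit 608) (nat_lit 0) (XT.lf (nat_lit 0) (nat_lit 18396080030) (nat_lit 608) (nat_lit 4627116179) (nat_lit 684) (nat_lit 12451794703) (nat_lit 291) (nat_lit 5) (nat_lit 299) (nat_lit 5) (nat_lit 300) (nat_lit 5) (nat_lit 654) (nat_lit 600) (nat_lit 306)) (XT.nd (nat_lit 78) (nat_lit 0) (nat_lit 0) (XT.lf (nat_lit 0) (nat_lit 3323117579) (nat_lit 608) (nat_lit 25806248333) (nat_lit 684) (nat_lit 6758556456) (nat_lit 283) (nat_lit 5) (nat_lit 291) (nat_lit 5) (nat_lit 292) (nat_lit 5) (nat_lit 655) (nat_lit 600) (nat_lit 305)) (XT.lf (nat_lit 0) (nat_lit 24331362746) (nat_lit 608) (nat_lit 11169528599) (nat_lit 684) (nat_lit 805356546) (nat_lit 283) (nat_lit 5) (nat_lit 291) (nat_lit 5) (nat_lit 292) (nat_lit 5) (nat_lit 656) (nat_lit 600) (nat_lit 304))))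 (XT.nd (nat_lit 156) (nat_lit 608) (nat_lit 0) (XT.nd (nat_lit 78) (nat_lit 0) (nat_lit 0) (XT.lf (nat_lit 0) (nat_lit 5280211248) (nat_lit 684) (nat_lit 27646283868) (nat_lit 76) (nat_lit 3804113358) (nat_lit 274) (nat_lit 5) (nat_lit 283) (nat_lit 5) (nat_lit 275) (nat_lit 5) (nat_lit 657) (nat_lit 600) (nat_lit 303)) (XT.lf (nat_lit 0) (nat_lit 11629800667) (nat_lit 684) (nat_lit 6516923254) (nat_lit 76) (nat_lit 19013564079) (nat_lit 274) (nat_lit 5) (nat_lit 283) (nat_lit 5) (nat_lit 275) (nat_lit 5) (nat_lit 658) (nat_lit 600) (nat_lit 302))) (XT.nd (nat_lit 78) (nat_lit 0) (nat_lit 0) (XT.lf (nat_lit 0) (nat_lit 15232567763) (nat_lit 608) (nat_lit 2970972449) (nat_lit 684) (nat_lit 19393077818) (nat_lit 266) (nat_lit 5) (nat_lit 274) (nat_lit 5) (nat_lit 275) (nat_lit 5) (nat_lit 659) (nat_lit 600) (nat_lit 301)) (XT.lf (nat_lit 0) (nat_lit 25032263196) (nat_lit 684) (nat_lit 619165819) (nat_lit 76) (nat_lit 12387775549) (nat_lit 266) (nat_lit 5) (nat_lit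 275) (nat_lit 5) (nat_lit 267) (nat_lit 5) (nat_lit 660) (nat_lit 600) (nat_lit 300))))) (XT.nd (nat_lit 312) (nat_lit 1064) (nat_lit 0) (XT.nd (nat_lit 156) (nat_lit 532) (nat_lit 0) (XT.nd (nat_lit 78) (nat_lit 608) (nat_lit 0) (XT.lf (nat_lit 0) (nat_lit 21824972331) (nat_lit 532) (nat_lit 10332274548) (nat_lit 608) (nat_lit 6330202298) (nat_lit 259) (nat_lit 5) (nat_lit 266) (nat_lit 5) (nat_lit 267) (nat_lit 5) (nat_lit 661) (nat_lit 600) (nat_lit 299)) (XT.lf (nat_lit 0) (nat_lit 548941188) (nat_lit 608) (nat_lit 33125233202) (nat_lit 76) (nat_lit 5268918710) (nat_lit 251) (nat_lit 5) (nat_lit 259) (nat_lit 5) (nat_lit 252) (nat_lit 5) (nat_lit 662) (nat_lit 600) (nat_lit 298))) (XT.nd (nat_lit 78) (nat_lit 532) (nat_lit 0) (XT.lf (nat_lit 0) (nat_lit 7660297260) (nat_lit 608) (nat_lit 10545264353) (nat_lit 76) (nat_lit 21197863684) (nat_lit 251) (nat_lit 5) (nat_lit 259) (nat_lit 5) (nat_lit 252) (nat_lit 5) (nat_lit 663) (nat_lit 600) (nat_lit 297))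 (XT.lf (nat_lit 0) (nat_lit 12650024602) (nat_lit 532) (nat_lit 2344352666) (nat_lit 608) (nat_lit 24876977003) (nat_lit 244) (nat_lit 5) (nat_lit 251) (nat_lit 5) (nat_lit 252) (nat_lit 5) (nat_lit 664) (nat_lit 600) (nat_lit 296)))) (XT.nd (nat_lit 156) (nat_lit 532) (nat_lit 0) (XT.nd (nat_lit 78) (nat_lit 532) (nat_lit 0) (XT.lf (nat_lit 0) (nat_lit 22634570644) (nat_lit 608) (nat_lit 3987553082) (nat_lit 76) (nat_lit 13723329531) (nat_lit 244) (nat_lit 5) (nat_lit 252) (nat_lit 5) (nat_lit 245) (nat_lit 5) (nat_lit 665) (nat_lit 600) (nat_lit 295)) (XT.lf (nat_lit 0) (nat_lit 19954928099) (nat_lit 532) (nat_lit 10616136547) (nat_lit 608) (nat_lit 10255099708) (nat_lit 237) (nat_lit 5) (nat_lit 244) (nat_lit 5) (nat_lit 245) (nat_lit 5) (nat_lit 666) (nat_lit 600) (nat_lit 294))) (XT.nd (nat_lit 78) (nat_lit 76) (nat_lit 0) (XT.lf (nat_lit 0) (nat_lit 3115799386) (nat_lit 456) (nat_lit 35633151836) (nat_lit 532) (nat_lit 2565885264) (nat_lit 231) (nat_lit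 5) (nat_lit 237) (nat_lit 5) (nat_lit 238) (nat_lit 5) (nat_lit 667) (nat_lit 600) (nat_lit 293)) (XT.lf (nat_lit 0) (nat_lit 5417623883) (nat_lit 532) (nat_lit 14052663795) (nat_lit 76) (nat_lit 22338114780) (nat_lit 230) (nat_lit 5) (nat_lit 237) (nat_lit 5) (nat_lit 231) (nat_lit 5) (nat_lit 668) (nat_lit 600) (nat_lit 292))))))) (XT.nd (nat_lit 76596) (nat_lit 0) (nat_lit 20596) (XT.nd (nat_lit 76050) (nat_lit 0) (nat_lit 20444) (XT.nd (nat_lit 312) (nat_lit 988) (nat_lit 0) (XT.nd (nat_lit 78) (nat_lit 456) (nat_lit 0) (XT.lf (nat_lit 0) (nat_lit 10697812678) (nat_lit 532) (nat_lit 2896584172) (nat_lit 608) (nat_lit 28715744734) (nat_lit 223) (nat_lit 5) (nat_lit 230) (nat_lit 5) (nat_lit 231) (nat_lit 5) (nat_lit 669) (nat_lit 600) (nat_lit 291)) (XT.nd (nat_lit 78) (nat_lit 456) (nat_lit 0) (XT.lf (nat_lit 0) (nat_lit 22119057568) (nat_lit 608) (nat_lit 6779968810) (nat_lit 76) (nat_lit 13919202128) (nat_lit 223) (nat_lit 5) (nat_lit 231) (nat_lit 5)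 (nat_lit 224) (nat_lit 5) (nat_lit 670) (nat_lit 600) (nat_lit 290)) (XT.lf (nat_lit 0) (nat_lit 18773973990) (nat_lit 456) (nat_lit 12179817135) (nat_lit 532) (nat_lit 12379894510) (nat_lit 217) (nat_lit 5) (nat_lit 223) (nat_lit 5) (nat_lit 224) (nat_lit 5) (nat_lit 671) (nat_lit 600) (nat_lit 289)))) (XT.nd (nat_lit 75582) (nat_lit 0) (nat_lit 22192) (XT.nd (nat_lit 78) (nat_lit 456) (nat_lit 0) (XT.lf (nat_lit 0) (nat_lit 5112122506) (nat_lit 532) (nat_lit 16995940565) (nat_lit 76) (nat_lit 22278783892) (nat_lit 210) (nat_lit 5) (nat_lit 217) (nat_lit 5) (nat_lit 211) (nat_lit 5) (nat_lit 673) (nat_lit 600) (nat_lit 287)) (XT.lf (nat_lit 0) (nat_lit 9426332580) (nat_lit 456) (nat_lit 4794925620) (nat_lit 532) (nat_lit 30703520952) (nat_lit 204) (nat_lit 5) (nat_lit 210) (nat_lit 5) (nat_lit 211) (nat_lit 5) (nat_lit 674) (nat_lit 600) (nat_lit 286))) (XT.nd (nat_lit 78) (nat_lit 0) (nat_lit 0) (XT.lf (nat_lit 0) (nat_lit 4724536962) (nat_lit 0) (nat_lit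 4724536962) (nat_lit 1748) (nat_lit 703095524) (nat_lit 496) (nat_lit 5) (nat_lit 496) (nat_lit 3) (nat_lit 519) (nat_lit 3) (nat_lit 601) (nat_lit 601) (nat_lit 358)) (XT.lf (nat_lit 0) (nat_lit 19250435835) (nat_lit 1748) (nat_lit 786533339) (nat_lit 1824) (nat_lit 467137006) (nat_lit 496) (nat_lit 5) (nat_lit 519) (nat_lit 3) (nat_lit 520) (nat_lit 5) (nat_lit 602) (nat_lit 601) (nat_lit 357))))) (XT.nd (nat_lit 234) (nat_lit 1748) (nat_lit 0) (XT.nd (nat_lit 78) (nat_lit 0) (nat_lit 0) (XT.lf (nat_lit 76) (nat_lit 9543967679) (nat_lit 0) (nat_lit 10186154986) (nat_lit 1824) (nat_lit 975339342) (nat_lit 497) (nat_lit 5) (nat_lit 496) (nat_lit 5) (nat_lit 520) (nat_lit 5) (nat_lit 603) (nat_lit 601) (nat_lit 356)) (XT.nd (nat_lit 78) (nat_lit 0) (nat_lit 76) (XT.lf (nat_lit 76) (nat_lit 20089555401) (nat_lit 0) (nat_lit 131004508) (nat_lit 1824) (nat_lit 690262163) (nat_lit 497) (nat_lit 5) (nat_lit 496) (nat_lit 5) (nat_lit 520) (nat_lit 5) (nat_lit 604)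 (nat_lit 601) (nat_lit 355)) (XT.lf (nat_lit 76) (nat_lit 9786137125) (nat_lit 0) (nat_lit 11059918464) (nat_lit 1824) (nat_lit 271729009) (nat_lit 498) (nat_lit 5) (nat_lit 497) (nat_lit 5) (nat_lit 521) (nat_lit 5) (nat_lit 605) (nat_lit 601) (nat_lit 354)))) (XT.nd (nat_lit 156) (nat_lit 0) (nat_lit 76) (XT.nd (nat_lit 78) (nat_lit 0) (nat_lit 76) (XT.lf (nat_lit 0) (nat_lit 155564707) (nat_lit 1824) (nat_lit 716140332) (nat_lit 1900) (nat_lit 20457112924) (nat_lit 473) (nat_lit 5) (nat_lit 497) (nat_lit 5) (nat_lit 498) (nat_lit 5) (nat_lit 606) (nat_lit 601) (nat_lit 353)) (XT.lf (nat_lit 0) (nat_lit 712630154) (nat_lit 1824) (nat_lit 11363086435) (nat_lit 1900) (nat_lit 9465822436) (nat_lit 474) (nat_lit 5) (nat_lit 498) (nat_lit 5) (nat_lit 499) (nat_lit 5) (nat_lit 607) (nat_lit 601) (nat_lit 352))) (XT.nd (nat_lit 78) (nat_lit 0) (nat_lit 76) (XT.lf (nat_lit 0) (nat_lit 1287608309) (nat_lit 1824) (nat_lit 465880930) (nat_lit 1900) (nat_lit 20004890075)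 (nat_lit 474) (nat_lit 5) (nat_lit 498) (nat_lit 5) (nat_lit 499) (nat_lit 5) (nat_lit 608) (nat_lit 601) (nat_lit 351)) (XT.lf (nat_lit 0) (nat_lit 1997816407) (nat_lit 1824) (nat_lit 11247174615) (nat_lit 1900) (nat_lit 8732091005) (nat_lit 475) (nat_lit 5) (nat_lit 499) (nat_lit 5) (nat_lit 500) (nat_lit 5) (nat_lit 609) (nat_lit 601) (nat_lit 350)))))) (XT.nd (nat_lit 546) (nat_lit 0) (nat_lit 304) (XT.nd (nat_lit 234) (nat_lit 0) (nat_lit 152) (XT.nd (nat_lit 78) (nat_lit 0) (nat_lit 76) (XT.lf (nat_lit 0) (nat_lit 2733293204) (nat_lit 1824) (nat_lit 58129297) (nat_lit 1900) (nat_lit 19408515226) (nat_lit 475) (nat_lit 5) (nat_lit 499) (nat_lit 5) (nat_lit 500) (nat_lit 5) (nat_lit 610) (nat_lit 601) (nat_lit 349)) (XT.nd (nat_lit 78) (nat_lit 0) (nat_lit 0) (XT.lf (nat_lit 0) (nat_lit 3606152443) (nat_lit 1824) (nat_lit 10974154257) (nat_lit 1900) (nat_lit 7844490602) (nat_lit 476) (nat_lit 5) (nat_lit 500) (nat_lit 5) (nat_lit 501) (nat_lit 5) (nat_lit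 611) (nat_lit 601) (nat_lit 348)) (XT.lf (nat_lit 76) (nat_lit 522247234) (nat_lit 0) (nat_lit 3992933539) (nat_lit 1900) (nat_lit 18138599274) (nat_lit 477) (nat_lit 5) (nat_lit 476) (nat_lit 5) (nat_lit 501) (nat_lit 5) (nat_lit 612) (nat_lit 601) (nat_lit 347)))) (XT.nd (nat_lit 156) (nat_lit 0) (nat_lit 76) (XT.nd (nat_lit 78) (nat_lit 0) (nat_lit 0) (XT.lf (nat_lit 0) (nat_lit 5557214472) (nat_lit 1824) (nat_lit 10535621558) (nat_lit 1900) (nat_lit 6792210130) (nat_lit 477) (nat_lit 5) (nat_lit 501) (nat_lit 5) (nat_lit 502) (nat_lit 5) (nat_lit 613) (nat_lit 601) (nat_lit 346)) (XT.lf (nat_lit 76) (nat_lit 1280193557) (nat_lit 0) (nat_lit 5371223433) (nat_lit 1900) (nat_lit 16468894248) (nat_lit 478) (nat_lit 5) (nat_lit 477) (nat_lit 5) (nat_lit 502) (nat_lit 5) (nat_lit 614) (nat_lit 601) (nat_lit 345))) (XT.nd (nat_lit 78) (nat_lit 0) (nat_lit 0) (XT.lf (nat_lit 0) (nat_lit 7871433508) (nat_lit 1824) (nat_lit 9922748169) (nat_lit 1900) (nat_lit 5564021544)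 (nat_lit 478) (nat_lit 5) (nat_lit 502) (nat_lit 5) (nat_lit 503) (nat_lit 5) (nat_lit 615) (nat_lit 601) (nat_lit 344)) (XT.lf (nat_lit 76) (nat_lit 2224195978) (nat_lit 0) (nat_lit 6938364059) (nat_lit 1900) (nat_lit 14437359013) (nat_lit 479) (nat_lit 5) (nat_lit 478) (nat_lit 5) (nat_lit 503) (nat_lit 5) (nat_lit 616) (nat_lit 601) (nat_lit 343))))) (XT.nd (nat_lit 312) (nat_lit 0) (nat_lit 152) (XT.nd (nat_lit 156) (nat_lit 0) (nat_lit 76) (XT.nd (nat_lit 78) (nat_lit 0) (nat_lit 0) (XT.lf (nat_lit 0) (nat_lit 10570134277) (nat_lit 1824) (nat_lit 9126266258) (nat_lit 1900) (nat_lit 4148256350) (nat_lit 479) (nat_lit 5) (nat_lit 503) (nat_lit 5) (nat_lit 504) (nat_lit 5) (nat_lit 617) (nat_lit 601) (nat_lit 342)) (XT.lf (nat_lit 76) (nat_lit 3363968996) (nat_lit 0) (nat_lit 8706498196) (nat_lit 1900) (nat_lit 12022530332) (nat_lit 480) (nat_lit 5) (nat_lit 479) (nat_lit 5) (nat_lit 504) (nat_lit 5) (nat_lit 618) (nat_lit 601) (nat_lit 341))) (XT.nd (nat_lit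 78) (nat_lit 0) (nat_lit 0) (XT.lf (nat_lit 0) (nat_lit 13675575559) (nat_lit 1824) (nat_lit 8136452849) (nat_lit 1900) (nat_lit 2532781379) (nat_lit 480) (nat_lit 5) (nat_lit 504) (nat_lit 5) (nat_lit 505) (nat_lit 5) (nat_lit 619) (nat_lit 601) (nat_lit 340)) (XT.lf (nat_lit 76) (nat_lit 4709699077) (nat_lit 0) (nat_lit 10688254549) (nat_lit 1900) (nat_lit 9202001501) (nat_lit 481) (nat_lit 5) (nat_lit 480) (nat_lit 5) (nat_lit 505) (nat_lit 5) (nat_lit 620) (nat_lit 601) (nat_lit 339)))) (XT.nd (nat_lit 156) (nat_lit 0) (nat_lit 0) (XT.nd (nat_lit 78) (nat_lit 0) (nat_lit 0) (XT.lf (nat_lit 0) (nat_lit 17210992049) (nat_lit 1824) (nat_lit 6943113440) (nat_lit 1900) (nat_lit 704973810) (nat_lit 481) (nat_lit 5) (nat_lit 505) (nat_lit 5) (nat_lit 506) (nat_lit 5) (nat_lit 621) (nat_lit 601) (nat_lit 338)) (XT.lf (nat_lit 76) (nat_lit 6272061688) (nat_lit 0) (nat_lit 12896773495) (nat_lit 1900) (nat_lit 5952380068) (nat_lit 482) (nat_lit 5) (nat_lit 481) (nat_lit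 5) (nat_lit 506) (nat_lit 5) (nat_lit 622) (nat_lit 601) (nat_lit 337))) (XT.nd (nat_lit 78) (nat_lit 0) (nat_lit 76) (XT.lf (nat_lit 76) (nat_lit 19843285340) (nat_lit 0) (nat_lit 1366222881) (nat_lit 1900) (nat_lit 4178212413) (nat_lit 482) (nat_lit 5) (nat_lit 481) (nat_lit 5) (nat_lit 506) (nat_lit 5) (nat_lit 623) (nat_lit 601) (nat_lit 336)) (XT.lf (nat_lit 76) (nat_lit 8062239101) (nat_lit 0) (nat_lit 15345733677) (nat_lit 1900) (nat_lit 2249243954) (nat_lit 483) (nat_lit 5) (nat_lit 482) (nat_lit 5) (nat_lit 507) (nat_lit 5) (nat_lit 624) (nat_lit 601) (nat_lit 335))))))))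
noncomputable def xc219 : XT := (XT.nd (nat_lit 2262) (nat_lit 6764) (nat_lit 0) (XT.nd (nat_lit 1092) (nat_lit 6612) (nat_lit 0) (XT.nd (nat_lit 546) (nat_lit 2584) (nat_lit 0) (XT.nd (nat_lit 234) (nat_lit 2888) (nat_lit 0) (XT.nd (nat_lit 78) (nat_lit 1824) (nat_lit 0) (XT.lf (nat_lit 76) (nat_lit 22004665765) (nat_lit 0) (nat_lit 3689117725) (nat_lit 1900) (nat_lit 237451891) (nat_lit 483) (nat_lit 5) (nat_lit 482) (nat_lit 5) (nat_lit 507) (nat_lit 5) (nat_lit 625) (nat_lit 601) (nat_lit 334)) (XT.nd (nat_lit 78) (nat_lit 0) (nat_lit 0) (XT.lf (nat_lit 0) (nat_lit 1907553695) (nat_lit 1900) (nat_lit 16129025108) (nat_lit 76) (nat_lit 8171584608) (nat_lit 458) (nat_lit 5) (nat_lit 483) (nat_lit 5) (nat_lit 459) (nat_lit 5) (nat_lit 626) (nat_lit 601) (nat_lit 333)) (XT.lf (nat_lit 0) (nat_lit 4140499123) (nat_lit 1900) (nat_lit 2100497334) (nat_lit 76) (nat_lit 20248637926) (nat_lit 458) (nat_lit 5) (nat_lit 483) (nat_lit 5) (nat_lit 459) (nat_lit 5) (nat_lit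 627) (nat_lit 601) (nat_lit 332)))) (XT.nd (nat_lit 156) (nat_lit 1824) (nat_lit 0) (XT.nd (nat_lit 78) (nat_lit 0) (nat_lit 0) (XT.lf (nat_lit 0) (nat_lit 6533852270) (nat_lit 1140) (nat_lit 14444851690) (nat_lit 76) (nat_lit 5795715991) (nat_lit 444) (nat_lit 5) (nat_lit 459) (nat_lit 5) (nat_lit 445) (nat_lit 5) (nat_lit 628) (nat_lit 601) (nat_lit 331)) (XT.lf (nat_lit 0) (nat_lit 9027946683) (nat_lit 1140) (nat_lit 31730434) (nat_lit 76) (nat_lit 18004166780) (nat_lit 444) (nat_lit 5) (nat_lit 459) (nat_lit 5) (nat_lit 445) (nat_lit 5) (nat_lit 629) (nat_lit 601) (nat_lit 330))) (XT.nd (nat_lit 78) (nat_lit 912) (nat_lit 0) (XT.lf (nat_lit 0) (nat_lit 11686577763) (nat_lit 988) (nat_lit 12515705251) (nat_lit 76) (nat_lit 3154480358) (nat_lit 432) (nat_lit 5) (nat_lit 445) (nat_lit 5) (nat_lit 433) (nat_lit 5) (nat_lit 630) (nat_lit 601) (nat_lit 329)) (XT.lf (nat_lit 0) (nat_lit 2324294855) (nat_lit 912) (nat_lit 12146833043) (nat_lit 988) (nat_lit 13182958556)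 (nat_lit 420) (nat_lit 5) (nat_lit 432) (nat_lit 5) (nat_lit 433) (nat_lit 5) (nat_lit 631) (nat_lit 601) (nat_lit 328))))) (XT.nd (nat_lit 234) (nat_lit 1748) (nat_lit 0) (XT.nd (nat_lit 78) (nat_lit 836) (nat_lit 0) (XT.lf (nat_lit 0) (nat_lit 17394363440) (nat_lit 988) (nat_lit 10328876819) (nat_lit 76) (nat_lit 232455992) (nat_lit 420) (nat_lit 5) (nat_lit 433) (nat_lit 5) (nat_lit 421) (nat_lit 5) (nat_lit 632) (nat_lit 601) (nat_lit 327)) (XT.nd (nat_lit 78) (nat_lit 0) (nat_lit 0) (XT.lf (nat_lit 0) (nat_lit 4954215671) (nat_lit 836) (nat_lit 15531985215) (nat_lit 912) (nat_lit 7774934754) (nat_lit 409) (nat_lit 5) (nat_lit 420) (nat_lit 5) (nat_lit 421) (nat_lit 5) (nat_lit 633) (nat_lit 601) (nat_lit 326)) (XT.lf (nat_lit 0) (nat_lit 20680622858) (nat_lit 836) (nat_lit 3026126110) (nat_lit 912) (nat_lit 4864597504) (nat_lit 409) (nat_lit 5) (nat_lit 420) (nat_lit 5) (nat_lit 421) (nat_lit 5) (nat_lit 634) (nat_lit 601) (nat_lit 325)))) (XT.nd (nat_lit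 156) (nat_lit 836) (nat_lit 0) (XT.nd (nat_lit 78) (nat_lit 76) (nat_lit 0) (XT.lf (nat_lit 0) (nat_lit 7871500143) (nat_lit 836) (nat_lit 19232097524) (nat_lit 912) (nat_lit 1781926198) (nat_lit 398) (nat_lit 5) (nat_lit 409) (nat_lit 5) (nat_lit 410) (nat_lit 5) (nat_lit 635) (nat_lit 601) (nat_lit 324)) (XT.lf (nat_lit 0) (nat_lit 1415498484) (nat_lit 912) (nat_lit 5180609581) (nat_lit 76) (nat_lit 22608280594) (nat_lit 397) (nat_lit 5) (nat_lit 409) (nat_lit 5) (nat_lit 398) (nat_lit 5) (nat_lit 636) (nat_lit 601) (nat_lit 323))) (XT.nd (nat_lit 78) (nat_lit 0) (nat_lit 0) (XT.lf (nat_lit 0) (nat_lit 4764192242) (nat_lit 912) (nat_lit 18468477952) (nat_lit 76) (nat_lit 6294501499) (nat_lit 386) (nat_lit 5) (nat_lit 398) (nat_lit 5) (nat_lit 387) (nat_lit 5) (nat_lit 637) (nat_lit 601) (nat_lit 322)) (XT.lf (nat_lit 0) (nat_lit 8256240512) (nat_lit 912) (nat_lit 2208980708) (nat_lit 76) (nat_lit 19389661678) (nat_lit 386) (nat_lit 5) (nat_lit 398) (nat_lit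 5) (nat_lit 387) (nat_lit 5) (nat_lit 638) (nat_lit 601) (nat_lit 321)))))) (XT.nd (nat_lit 546) (nat_lit 3496) (nat_lit 0) (XT.nd (nat_lit 234) (nat_lit 1520) (nat_lit 0) (XT.nd (nat_lit 78) (nat_lit 760) (nat_lit 0) (XT.lf (nat_lit 0) (nat_lit 11927670856) (nat_lit 912) (nat_lit 15640126196) (nat_lit 76) (nat_lit 2619160574) (nat_lit 375) (nat_lit 5) (nat_lit 387) (nat_lit 5) (nat_lit 376) (nat_lit 5) (nat_lit 639) (nat_lit 601) (nat_lit 320)) (XT.nd (nat_lit 78) (nat_lit 0) (nat_lit 0) (XT.lf (nat_lit 0) (nat_lit 1084806119) (nat_lit 760) (nat_lit 14676771395) (nat_lit 836) (nat_lit 14762315499) (nat_lit 365) (nat_lit 5) (nat_lit 375) (nat_lit 5) (nat_lit 376) (nat_lit 5) (nat_lit 640) (nat_lit 601) (nat_lit 319)) (XT.lf (nat_lit 0) (nat_lit 18353915736) (nat_lit 760) (nat_lit 1421005265) (nat_lit 836) (nat_lit 11090591049) (nat_lit 365) (nat_lit 5) (nat_lit 375) (nat_lit 5) (nat_lit 376) (nat_lit 5) (nat_lit 641) (nat_lit 601) (nat_lit 318)))) (XT.nd (nat_lit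 156) (nat_lit 760) (nat_lit 0) (XT.nd (nat_lit 78) (nat_lit 0) (nat_lit 0) (XT.lf (nat_lit 0) (nat_lit 4735668760) (nat_lit 760) (nat_lit 19240017530) (nat_lit 836) (nat_lit 7236134192) (nat_lit 355) (nat_lit 5) (nat_lit 365) (nat_lit 5) (nat_lit 366) (nat_lit 5) (nat_lit 642) (nat_lit 601) (nat_lit 317)) (XT.lf (nat_lit 0) (nat_lit 22485632673) (nat_lit 760) (nat_lit 5866016954) (nat_lit 836) (nat_lit 3211581914) (nat_lit 355) (nat_lit 5) (nat_lit 365) (nat_lit 5) (nat_lit 366) (nat_lit 5) (nat_lit 643) (nat_lit 601) (nat_lit 316))) (XT.nd (nat_lit 78) (nat_lit 0) (nat_lit 0) (XT.lf (nat_lit 0) (nat_lit 987523028) (nat_lit 760) (nat_lit 23195424710) (nat_lit 76) (nat_lit 7736491581) (nat_lit 345) (nat_lit 5) (nat_lit 355) (nat_lit 5) (nat_lit 346) (nat_lit 5) (nat_lit 644) (nat_lit 601) (nat_lit 315)) (XT.lf (nat_lit 0) (nat_lit 5325741270) (nat_lit 760) (nat_lit 5339679896) (nat_lit 76) (nat_lit 21614962935) (nat_lit 345) (nat_lit 5) (nat_lit 355) (nat_lit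 5) (nat_lit 346) (nat_lit 5) (nat_lit 645) (nat_lit 601) (nat_lit 314))))) (XT.nd (nat_lit 312) (nat_lit 1368) (nat_lit 0) (XT.nd (nat_lit 156) (nat_lit 1368) (nat_lit 0) (XT.nd (nat_lit 78) (nat_lit 0) (nat_lit 0) (XT.lf (nat_lit 0) (nat_lit 9854201233) (nat_lit 836) (nat_lit 19625771007) (nat_lit 76) (nat_lit 3166506093) (nat_lit 335) (nat_lit 5) (nat_lit 346) (nat_lit 5) (nat_lit 336) (nat_lit 5) (nat_lit 646) (nat_lit 601) (nat_lit 313)) (XT.lf (nat_lit 0) (nat_lit 14577923308) (nat_lit 836) (nat_lit 1271658816) (nat_lit 76) (nat_lit 17168218570) (nat_lit 335) (nat_lit 5) (nat_lit 346) (nat_lit 5) (nat_lit 336) (nat_lit 5) (nat_lit 647) (nat_lit 601) (nat_lit 312))) (XT.nd (nat_lit 78) (nat_lit 684) (nat_lit 0) (XT.lf (nat_lit 0) (nat_lit 17679151020) (nat_lit 684) (nat_lit 1829784582) (nat_lit 760) (nat_lit 13885357684) (nat_lit 326) (nat_lit 5) (nat_lit 335) (nat_lit 5) (nat_lit 336) (nat_lit 5) (nat_lit 648) (nat_lit 601) (nat_lit 311)) (XT.lf (nat_lit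 0) (nat_lit 3206833021) (nat_lit 684) (nat_lit 21440165403) (nat_lit 760) (nat_lit 9129148797) (nat_lit 317) (nat_lit 5) (nat_lit 326) (nat_lit 5) (nat_lit 327) (nat_lit 5) (nat_lit 649) (nat_lit 601) (nat_lit 310)))) (XT.nd (nat_lit 156) (nat_lit 684) (nat_lit 0) (XT.nd (nat_lit 78) (nat_lit 684) (nat_lit 0) (XT.lf (nat_lit 0) (nat_lit 22705734683) (nat_lit 684) (nat_lit 7297659486) (nat_lit 760) (nat_lit 4159932729) (nat_lit 317) (nat_lit 5) (nat_lit 326) (nat_lit 5) (nat_lit 327) (nat_lit 5) (nat_lit 650) (nat_lit 601) (nat_lit 309)) (XT.lf (nat_lit 0) (nat_lit 994333841) (nat_lit 684) (nat_lit 26468861088) (nat_lit 76) (nat_lit 7092985666) (nat_lit 308) (nat_lit 5) (nat_lit 317) (nat_lit 5) (nat_lit 309) (nat_lit 5) (nat_lit 651) (nat_lit 601) (nat_lit 308))) (XT.nd (nat_lit 78) (nat_lit 684) (nat_lit 0) (XT.lf (nat_lit 0) (nat_lit 6319883224) (nat_lit 684) (nat_lit 6855559643) (nat_lit 76) (nat_lit 21778420666) (nat_lit 308) (nat_lit 5) (nat_lit 317)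 (nat_lit 5) (nat_lit 309) (nat_lit 5) (nat_lit 652) (nat_lit 601) (nat_lit 307)) (XT.lf (nat_lit 0) (nat_lit 11846249009) (nat_lit 760) (nat_lit 22044934134) (nat_lit 76) (nat_lit 1466430967) (nat_lit 299) (nat_lit 5) (nat_lit 309) (nat_lit 5) (nat_lit 300) (nat_lit 5) (nat_lit 653) (nat_lit 601) (nat_lit 306))))))) (XT.nd (nat_lit 1170) (nat_lit 1596) (nat_lit 0) (XT.nd (nat_lit 546) (nat_lit 2660) (nat_lit 0) (XT.nd (nat_lit 234) (nat_lit 1292) (nat_lit 0) (XT.nd (nat_lit 78) (nat_lit 1216) (nat_lit 0) (XT.lf (nat_lit 0) (nat_lit 17614884313) (nat_lit 760) (nat_lit 1881099565) (nat_lit 76) (nat_lit 16270821063) (nat_lit 299) (nat_lit 5) (nat_lit 309) (nat_lit 5) (nat_lit 300) (nat_lit 5) (nat_lit 654) (nat_lit 601) (nat_lit 305)) (XT.nd (nat_lit 78) (nat_lit 608) (nat_lit 0) (XT.lf (nat_lit 0) (nat_lit 18932119648) (nat_lit 608) (nat_lit 4687906806) (nat_lit 684) (nat_lit 12561730536) (nat_lit 291) (nat_lit 5) (nat_lit 299) (nat_lit 5) (nat_lit 300) (nat_lit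 5) (nat_lit 655) (nat_lit 601) (nat_lit 304)) (XT.lf (nat_lit 0) (nat_lit 3559102866) (nat_lit 608) (nat_lit 26287845602) (nat_lit 684) (nat_lit 6756026155) (nat_lit 283) (nat_lit 5) (nat_lit 291) (nat_lit 5) (nat_lit 292) (nat_lit 5) (nat_lit 656) (nat_lit 601) (nat_lit 303)))) (XT.nd (nat_lit 156) (nat_lit 608) (nat_lit 0) (XT.nd (nat_lit 78) (nat_lit 684) (nat_lit 0) (XT.lf (nat_lit 0) (nat_lit 24984188957) (nat_lit 608) (nat_lit 11359068487) (nat_lit 684) (nat_lit 686462275) (nat_lit 283) (nat_lit 5) (nat_lit 291) (nat_lit 5) (nat_lit 292) (nat_lit 5) (nat_lit 657) (nat_lit 601) (nat_lit 302)) (XT.lf (nat_lit 0) (nat_lit 5517745710) (nat_lit 684) (nat_lit 28029927456) (nat_lit 76) (nat_lit 3914902949) (nat_lit 274) (nat_lit 5) (nat_lit 283) (nat_lit 5) (nat_lit 275) (nat_lit 5) (nat_lit 658) (nat_lit 601) (nat_lit 301))) (XT.nd (nat_lit 78) (nat_lit 608) (nat_lit 0) (XT.lf (nat_lit 0) (nat_lit 11991740050) (nat_lit 684) (nat_lit 6481298886) (nat_lit 76)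 (nat_lit 19427862149) (nat_lit 274) (nat_lit 5) (nat_lit 283) (nat_lit 5) (nat_lit 275) (nat_lit 5) (nat_lit 659) (nat_lit 601) (nat_lit 300)) (XT.lf (nat_lit 0) (nat_lit 15702090090) (nat_lit 608) (nat_lit 2993398602) (nat_lit 684) (nat_lit 19650498450) (nat_lit 266) (nat_lit 5) (nat_lit 274) (nat_lit 5) (nat_lit 275) (nat_lit 5) (nat_lit 660) (nat_lit 601) (nat_lit 299))))) (XT.nd (nat_lit 312) (nat_lit 1520) (nat_lit 0) (XT.nd (nat_lit 156) (nat_lit 608) (nat_lit 0) (XT.nd (nat_lit 78) (nat_lit 532) (nat_lit 0) (XT.lf (nat_lit 0) (nat_lit 25658514206) (nat_lit 684) (nat_lit 467633414) (nat_lit 76) (nat_lit 12671323336) (nat_lit 266) (nat_lit 5) (nat_lit 275) (nat_lit 5) (nat_lit 267) (nat_lit 5) (nat_lit 661) (nat_lit 601) (nat_lit 298)) (XT.lf (nat_lit 0) (nat_lit 22424309106) (nat_lit 532) (nat_lit 10500282848) (nat_lit 608) (nat_lit 6330116731) (nat_lit 259) (nat_lit 5) (nat_lit 266) (nat_lit 5) (nat_lit 267) (nat_lit 5) (nat_lit 662) (nat_lit 601) (nat_lit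 297))) (XT.nd (nat_lit 78) (nat_lit 0) (nat_lit 0) (XT.lf (nat_lit 0) (nat_lit 683815887) (nat_lit 608) (nat_lit 33622096175) (nat_lit 76) (nat_lit 5413559721) (nat_lit 251) (nat_lit 5) (nat_lit 259) (nat_lit 5) (nat_lit 252) (nat_lit 5) (nat_lit 663) (nat_lit 601) (nat_lit 296)) (XT.lf (nat_lit 0) (nat_lit 7934969750) (nat_lit 608) (nat_lit 10593775825) (nat_lit 76) (nat_lit 21660313739) (nat_lit 251) (nat_lit 5) (nat_lit 259) (nat_lit 5) (nat_lit 252) (nat_lit 5) (nat_lit 664) (nat_lit 601) (nat_lit 295)))) (XT.nd (nat_lit 156) (nat_lit 988) (nat_lit 0) (XT.nd (nat_lit 78) (nat_lit 0) (nat_lit 0) (XT.lf (nat_lit 0) (nat_lit 13064350529) (nat_lit 532) (nat_lit 2350046564) (nat_lit 608) (nat_lit 25251976561) (nat_lit 244) (nat_lit 5) (nat_lit 251) (nat_lit 5) (nat_lit 252) (nat_lit 5) (nat_lit 665) (nat_lit 601) (nat_lit 294)) (XT.lf (nat_lit 0) (nat_lit 23205301011) (nat_lit 608) (nat_lit 3907043670) (nat_lit 76) (nat_lit 14037651905) (nat_lit 244) (nat_lit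 5) (nat_lit 252) (nat_lit 5) (nat_lit 245) (nat_lit 5) (nat_lit 666) (nat_lit 601) (nat_lit 293))) (XT.nd (nat_lit 78) (nat_lit 456) (nat_lit 0) (XT.lf (nat_lit 0) (nat_lit 20513232790) (nat_lit 532) (nat_lit 10786011286) (nat_lit 608) (nat_lit 10341103543) (nat_lit 237) (nat_lit 5) (nat_lit 244) (nat_lit 5) (nat_lit 245) (nat_lit 5) (nat_lit 667) (nat_lit 601) (nat_lit 292)) (XT.lf (nat_lit 0) (nat_lit 3338324934) (nat_lit 456) (nat_lit 36301384456) (nat_lit 532) (nat_lit 2499103477) (nat_lit 231) (nat_lit 5) (nat_lit 237) (nat_lit 5) (nat_lit 238) (nat_lit 5) (nat_lit 668) (nat_lit 601) (nat_lit 291)))))) (XT.nd (nat_lit 76050) (nat_lit 0) (nat_lit 19988) (XT.nd (nat_lit 234) (nat_lit 988) (nat_lit 0) (XT.nd (nat_lit 78) (nat_lit 532) (nat_lit 0) (XT.lf (nat_lit 0) (nat_lit 5640241651) (nat_lit 532) (nat_lit 14175125769) (nat_lit 76) (nat_lit 22826913201) (nat_lit 230) (nat_lit 5) (nat_lit 237) (nat_lit 5) (nat_lit 231) (nat_lit 5) (nat_lit 669) (nat_lit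 601) (nat_lit 290)) (XT.nd (nat_lit 78) (nat_lit 0) (nat_lit 0) (XT.lf (nat_lit 0) (nat_lit 11069316870) (nat_lit 532) (nat_lit 2910015617) (nat_lit 608) (nat_lit 29174746484) (nat_lit 223) (nat_lit 5) (nat_lit 230) (nat_lit 5) (nat_lit 231) (nat_lit 5) (nat_lit 670) (nat_lit 601) (nat_lit 289)) (XT.lf (nat_lit 0) (nat_lit 22672553058) (nat_lit 608) (nat_lit 6759171660) (nat_lit 76) (nat_lit 14240641670) (nat_lit 223) (nat_lit 5) (nat_lit 231) (nat_lit 5) (nat_lit 224) (nat_lit 5) (nat_lit 671) (nat_lit 601) (nat_lit 288)))) (XT.nd (nat_lit 156) (nat_lit 76) (nat_lit 0) (XT.nd (nat_lit 78) (nat_lit 456) (nat_lit 0) (XT.lf (nat_lit 0) (nat_lit 19304821072) (nat_lit 456) (nat_lit 12377990251) (nat_lit 532) (nat_lit 12515344822) (nat_lit 217) (nat_lit 5) (nat_lit 223) (nat_lit 5) (nat_lit 224) (nat_lit 5) (nat_lit 672) (nat_lit 601) (nat_lit 287)) (XT.lf (nat_lit 0) (nat_lit 1229376589) (nat_lit 456) (nat_lit 39728683867) (nat_lit 532) (nat_lit 3774705583) (nat_lit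 211) (nat_lit 5) (nat_lit 217) (nat_lit 5) (nat_lit 218) (nat_lit 5) (nat_lit 673) (nat_lit 601) (nat_lit 286))) (XT.nd (nat_lit 75582) (nat_lit 0) (nat_lit 21736) (XT.lf (nat_lit 0) (nat_lit 5322030446) (nat_lit 532) (nat_lit 17181246866) (nat_lit 76) (nat_lit 22769149212) (nat_lit 210) (nat_lit 5) (nat_lit 217) (nat_lit 5) (nat_lit 211) (nat_lit 5) (nat_lit 674) (nat_lit 601) (nat_lit 285)) (XT.lf (nat_lit 0) (nat_lit 4898624149) (nat_lit 0) (nat_lit 4898624149) (nat_lit 1748) (nat_lit 554770768) (nat_lit 496) (nat_lit 5) (nat_lit 496) (nat_lit 3) (nat_lit 519) (nat_lit 3) (nat_lit 602) (nat_lit 602) (nat_lit 356))))) (XT.nd (nat_lit 312) (nat_lit 0) (nat_lit 0) (XT.nd (nat_lit 156) (nat_lit 1748) (nat_lit 0) (XT.nd (nat_lit 78) (nat_lit 0) (nat_lit 0) (XT.lf (nat_lit 0) (nat_lit 19946574164) (nat_lit 1748) (nat_lit 638916924) (nat_lit 1824) (nat_lit 322455185) (nat_lit 496) (nat_lit 5) (nat_lit 519) (nat_lit 3) (nat_lit 520) (nat_lit 5) (nat_lit 603) (nat_lit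 602) (nat_lit 355)) (XT.lf (nat_lit 76) (nat_lit 9897119463) (nat_lit 0) (nat_lit 10533688267) (nat_lit 1824) (nat_lit 682622807) (nat_lit 497) (nat_lit 5) (nat_lit 496) (nat_lit 5) (nat_lit 520) (nat_lit 5) (nat_lit 604) (nat_lit 602) (nat_lit 354))) (XT.nd (nat_lit 78) (nat_lit 1748) (nat_lit 0) (XT.lf (nat_lit 76) (nat_lit 20650437128) (nat_lit 0) (nat_lit 274614972) (nat_lit 1824) (nat_lit 397966110) (nat_lit 497) (nat_lit 5) (nat_lit 496) (nat_lit 5) (nat_lit 520) (nat_lit 5) (nat_lit 605) (nat_lit 602) (nat_lit 353)) (XT.lf (nat_lit 0) (nat_lit 22809469) (nat_lit 1824) (nat_lit 11387590712) (nat_lit 1900) (nat_lit 10123831380) (nat_lit 473) (nat_lit 5) (nat_lit 497) (nat_lit 5) (nat_lit 498) (nat_lit 5) (nat_lit 606) (nat_lit 602) (nat_lit 352)))) (XT.nd (nat_lit 156) (nat_lit 0) (nat_lit 76) (XT.nd (nat_lit 78) (nat_lit 0) (nat_lit 76) (XT.lf (nat_lit 0) (nat_lit 449203461) (nat_lit 1824) (nat_lit 564884531) (nat_lit 1900) (nat_lit 20735478176) (nat_lit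 473) (nat_lit 5) (nat_lit 497) (nat_lit 5) (nat_lit 498) (nat_lit 5) (nat_lit 607) (nat_lit 602) (nat_lit 351)) (XT.lf (nat_lit 0) (nat_lit 1011993302) (nat_lit 1824) (nat_lit 11419335381) (nat_lit 1900) (nat_lit 9535321652) (nat_lit 474) (nat_lit 5) (nat_lit 498) (nat_lit 5) (nat_lit 499) (nat_lit 5) (nat_lit 608) (nat_lit 602) (nat_lit 350))) (XT.nd (nat_lit 78) (nat_lit 0) (nat_lit 76) (XT.lf (nat_lit 0) (nat_lit 1592880617) (nat_lit 1824) (nat_lit 307538957) (nat_lit 1900) (nat_lit 20287520001) (nat_lit 474) (nat_lit 5) (nat_lit 498) (nat_lit 5) (nat_lit 499) (nat_lit 5) (nat_lit 609) (nat_lit 602) (nat_lit 349)) (XT.lf (nat_lit 0) (nat_lit 2312188615) (nat_lit 1824) (nat_lit 11299337664) (nat_lit 1900) (nat_lit 8799592481) (nat_lit 475) (nat_lit 5) (nat_lit 499) (nat_lit 5) (nat_lit 500) (nat_lit 5) (nat_lit 610) (nat_lit 602) (nat_lit 348))))))))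
noncomputable def xc220 : XT := (XT.nd (nat_lit 2262) (nat_lit 11324) (nat_lit 0) (XT.nd (nat_lit 1092) (nat_lit 6764) (nat_lit 0) (XT.nd (nat_lit 546) (nat_lit 0) (nat_lit 304) (XT.nd (nat_lit 234) (nat_lit 0) (nat_lit 152) (XT.nd (nat_lit 78) (nat_lit 0) (nat_lit 76) (XT.lf (nat_lit 76) (nat_lit 111563889) (nat_lit 0) (nat_lit 2946154702) (nat_lit 1900) (nat_lit 19580806435) (nat_lit 476) (nat_lit 5) (nat_lit 475) (nat_lit 5) (nat_lit 500) (nat_lit 5) (nat_lit 611) (nat_lit 602) (nat_lit 347)) (XT.nd (nat_lit 78) (nat_lit 0) (nat_lit 0) (XT.lf (nat_lit 0) (nat_lit 3942501017) (nat_lit 1824) (nat_lit 11019419153) (nat_lit 1900) (nat_lit 7906072621) (nat_lit 476) (nat_lit 5) (nat_lit 500) (nat_lit 5) (nat_lit 501) (nat_lit 5) (nat_lit 612) (nat_lit 602) (nat_lit 346)) (XT.lf (nat_lit 76) (nat_lit 705764196) (nat_lit 0) (nat_lit 4159888524) (nat_lit 1900) (nat_lit 18235983928) (nat_lit 477) (nat_lit 5) (nat_lit 476) (nat_lit 5) (nat_lit 501) (nat_lit 5) (nat_lit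 613) (nat_lit 602) (nat_lit 345)))) (XT.nd (nat_lit 156) (nat_lit 0) (nat_lit 76) (XT.nd (nat_lit 78) (nat_lit 0) (nat_lit 0) (XT.lf (nat_lit 0) (nat_lit 5922871353) (nat_lit 1824) (nat_lit 10570984475) (nat_lit 1900) (nat_lit 6843785675) (nat_lit 477) (nat_lit 5) (nat_lit 501) (nat_lit 5) (nat_lit 502) (nat_lit 5) (nat_lit 614) (nat_lit 602) (nat_lit 344)) (XT.lf (nat_lit 76) (nat_lit 1479993326) (nat_lit 0) (nat_lit 5555105148) (nat_lit 1900) (nat_lit 16542590900) (nat_lit 478) (nat_lit 5) (nat_lit 477) (nat_lit 5) (nat_lit 502) (nat_lit 5) (nat_lit 615) (nat_lit 602) (nat_lit 343))) (XT.nd (nat_lit 78) (nat_lit 0) (nat_lit 0) (XT.lf (nat_lit 0) (nat_lit 8274113878) (nat_lit 1824) (nat_lit 9945006663) (nat_lit 1900) (nat_lit 5601326979) (nat_lit 478) (nat_lit 5) (nat_lit 502) (nat_lit 5) (nat_lit 503) (nat_lit 5) (nat_lit 616) (nat_lit 602) (nat_lit 342)) (XT.lf (nat_lit 76) (nat_lit 2443717180) (nat_lit 0) (nat_lit 7143673359) (nat_lit 1900) (nat_lit 14479680864)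 (nat_lit 479) (nat_lit 5) (nat_lit 478) (nat_lit 5) (nat_lit 503) (nat_lit 5) (nat_lit 617) (nat_lit 602) (nat_lit 341))))) (XT.nd (nat_lit 234) (nat_lit 0) (nat_lit 76) (XT.nd (nat_lit 78) (nat_lit 0) (nat_lit 0) (XT.lf (nat_lit 0) (nat_lit 11017955851) (nat_lit 1824) (nat_lit 9132011832) (nat_lit 1900) (nat_lit 4166839803) (nat_lit 479) (nat_lit 5) (nat_lit 503) (nat_lit 5) (nat_lit 504) (nat_lit 5) (nat_lit 618) (nat_lit 602) (nat_lit 340)) (XT.nd (nat_lit 78) (nat_lit 0) (nat_lit 76) (XT.lf (nat_lit 76) (nat_lit 3606865102) (nat_lit 0) (nat_lit 8937934877) (nat_lit 1900) (nat_lit 12025385144) (nat_lit 480) (nat_lit 5) (nat_lit 479) (nat_lit 5) (nat_lit 504) (nat_lit 5) (nat_lit 619) (nat_lit 602) (nat_lit 339)) (XT.lf (nat_lit 0) (nat_lit 14177078610) (nat_lit 1824) (nat_lit 8122063131) (nat_lit 1900) (nat_lit 2527990801) (nat_lit 480) (nat_lit 5) (nat_lit 504) (nat_lit 5) (nat_lit 505) (nat_lit 5) (nat_lit 620) (nat_lit 602) (nat_lit 338)))) (XT.nd (nat_lit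 156) (nat_lit 0) (nat_lit 76) (XT.nd (nat_lit 78) (nat_lit 0) (nat_lit 76) (XT.lf (nat_lit 76) (nat_lit 4979846579) (nat_lit 0) (nat_lit 10950729644) (nat_lit 1900) (nat_lit 9156871394) (nat_lit 481) (nat_lit 5) (nat_lit 480) (nat_lit 5) (nat_lit 505) (nat_lit 5) (nat_lit 621) (nat_lit 602) (nat_lit 337)) (XT.lf (nat_lit 0) (nat_lit 17775160190) (nat_lit 1824) (nat_lit 6904743953) (nat_lit 1900) (nat_lit 671944694) (nat_lit 481) (nat_lit 5) (nat_lit 505) (nat_lit 5) (nat_lit 506) (nat_lit 5) (nat_lit 622) (nat_lit 602) (nat_lit 336))) (XT.nd (nat_lit 78) (nat_lit 0) (nat_lit 0) (XT.lf (nat_lit 76) (nat_lit 6573568679) (nat_lit 0) (nat_lit 13195421932) (nat_lit 1900) (nat_lit 5850300545) (nat_lit 482) (nat_lit 5) (nat_lit 481) (nat_lit 5) (nat_lit 506) (nat_lit 5) (nat_lit 623) (nat_lit 602) (nat_lit 335)) (XT.lf (nat_lit 76) (nat_lit 20412764534) (nat_lit 0) (nat_lit 1433462012) (nat_lit 1900) (nat_lit 4044985363) (nat_lit 482) (nat_lit 5) (nat_lit 481) (nat_lit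 5) (nat_lit 506) (nat_lit 5) (nat_lit 624) (nat_lit 602) (nat_lit 334)))))) (XT.nd (nat_lit 546) (nat_lit 3496) (nat_lit 0) (XT.nd (nat_lit 234) (nat_lit 1976) (nat_lit 0) (XT.nd (nat_lit 78) (nat_lit 1824) (nat_lit 0) (XT.lf (nat_lit 76) (nat_lit 8399454293) (nat_lit 0) (nat_lit 15685927328) (nat_lit 1900) (nat_lit 2080782131) (nat_lit 483) (nat_lit 5) (nat_lit 482) (nat_lit 5) (nat_lit 507) (nat_lit 5) (nat_lit 625) (nat_lit 602) (nat_lit 333)) (XT.nd (nat_lit 78) (nat_lit 1824) (nat_lit 0) (XT.lf (nat_lit 76) (nat_lit 22617279090) (nat_lit 0) (nat_lit 3795526529) (nat_lit 1900) (nat_lit 32939456) (nat_lit 483) (nat_lit 5) (nat_lit 482) (nat_lit 5) (nat_lit 507) (nat_lit 5) (nat_lit 626) (nat_lit 602) (nat_lit 332)) (XT.lf (nat_lit 0) (nat_lit 2149111541) (nat_lit 1900) (nat_lit 16273207435) (nat_lit 76) (nat_lit 8305927953) (nat_lit 458) (nat_lit 5) (nat_lit 483) (nat_lit 5) (nat_lit 459) (nat_lit 5) (nat_lit 627) (nat_lit 602) (nat_lit 331)))) (XT.nd (nat_lit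 156) (nat_lit 912) (nat_lit 0) (XT.nd (nat_lit 78) (nat_lit 1064) (nat_lit 0) (XT.lf (nat_lit 0) (nat_lit 4422727509) (nat_lit 1900) (nat_lit 1967607108) (nat_lit 76) (nat_lit 20625092697) (nat_lit 458) (nat_lit 5) (nat_lit 483) (nat_lit 5) (nat_lit 459) (nat_lit 5) (nat_lit 628) (nat_lit 602) (nat_lit 330)) (XT.lf (nat_lit 0) (nat_lit 6861017055) (nat_lit 1140) (nat_lit 14555906723) (nat_lit 76) (nat_lit 5889043653) (nat_lit 444) (nat_lit 5) (nat_lit 459) (nat_lit 5) (nat_lit 445) (nat_lit 5) (nat_lit 629) (nat_lit 602) (nat_lit 329))) (XT.nd (nat_lit 78) (nat_lit 0) (nat_lit 0) (XT.lf (nat_lit 0) (nat_lit 143876830) (nat_lit 912) (nat_lit 9258197969) (nat_lit 988) (nat_lit 18199163646) (nat_lit 432) (nat_lit 5) (nat_lit 444) (nat_lit 5) (nat_lit 445) (nat_lit 5) (nat_lit 630) (nat_lit 602) (nat_lit 328)) (XT.lf (nat_lit 0) (nat_lit 12110182867) (nat_lit 988) (nat_lit 12588892233) (nat_lit 76) (nat_lit 3201015338) (nat_lit 432) (nat_lit 5) (nat_lit 445) (nat_lit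 5) (nat_lit 433) (nat_lit 5) (nat_lit 631) (nat_lit 602) (nat_lit 327))))) (XT.nd (nat_lit 312) (nat_lit 1748) (nat_lit 0) (XT.nd (nat_lit 156) (nat_lit 836) (nat_lit 0) (XT.nd (nat_lit 78) (nat_lit 0) (nat_lit 0) (XT.lf (nat_lit 0) (nat_lit 2546742566) (nat_lit 912) (nat_lit 12401100889) (nat_lit 988) (nat_lit 13255568347) (nat_lit 420) (nat_lit 5) (nat_lit 432) (nat_lit 5) (nat_lit 433) (nat_lit 5) (nat_lit 632) (nat_lit 602) (nat_lit 326)) (XT.lf (nat_lit 0) (nat_lit 17925799169) (nat_lit 988) (nat_lit 10359187920) (nat_lit 76) (nat_lit 226141803) (nat_lit 420) (nat_lit 5) (nat_lit 433) (nat_lit 5) (nat_lit 421) (nat_lit 5) (nat_lit 633) (nat_lit 602) (nat_lit 325))) (XT.nd (nat_lit 78) (nat_lit 0) (nat_lit 0) (XT.lf (nat_lit 0) (nat_lit 5228406772) (nat_lit 836) (nat_lit 15848604512) (nat_lit 912) (nat_lit 7745715228) (nat_lit 409) (nat_lit 5) (nat_lit 420) (nat_lit 5) (nat_lit 421) (nat_lit 5) (nat_lit 634) (nat_lit 602) (nat_lit 324)) (XT.lf (nat_lit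 0) (nat_lit 21265908637) (nat_lit 836) (nat_lit 3092510978) (nat_lit 912) (nat_lit 4780793160) (nat_lit 409) (nat_lit 5) (nat_lit 420) (nat_lit 5) (nat_lit 421) (nat_lit 5) (nat_lit 635) (nat_lit 602) (nat_lit 323)))) (XT.nd (nat_lit 156) (nat_lit 836) (nat_lit 0) (XT.nd (nat_lit 78) (nat_lit 76) (nat_lit 0) (XT.lf (nat_lit 0) (nat_lit 8203049051) (nat_lit 836) (nat_lit 19617768324) (nat_lit 912) (nat_lit 1638904292) (nat_lit 398) (nat_lit 5) (nat_lit 409) (nat_lit 5) (nat_lit 410) (nat_lit 5) (nat_lit 636) (nat_lit 602) (nat_lit 322)) (XT.lf (nat_lit 0) (nat_lit 1616668518) (nat_lit 912) (nat_lit 5111210402) (nat_lit 76) (nat_lit 23057130968) (nat_lit 397) (nat_lit 5) (nat_lit 409) (nat_lit 5) (nat_lit 398) (nat_lit 5) (nat_lit 637) (nat_lit 602) (nat_lit 321))) (XT.nd (nat_lit 78) (nat_lit 0) (nat_lit 0) (XT.lf (nat_lit 0) (nat_lit 5030071006) (nat_lit 912) (nat_lit 18662561835) (nat_lit 76) (nat_lit 6421661227) (nat_lit 386) (nat_lit 5) (nat_lit 398) (nat_lit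 5) (nat_lit 387) (nat_lit 5) (nat_lit 638) (nat_lit 602) (nat_lit 320)) (XT.lf (nat_lit 0) (nat_lit 8588615243) (nat_lit 912) (nat_lit 2081311620) (nat_lit 76) (nat_lit 19778699714) (nat_lit 386) (nat_lit 5) (nat_lit 398) (nat_lit 5) (nat_lit 387) (nat_lit 5) (nat_lit 639) (nat_lit 602) (nat_lit 319))))))) (XT.nd (nat_lit 1092) (nat_lit 5396) (nat_lit 0) (XT.nd (nat_lit 546) (nat_lit 2812) (nat_lit 0) (XT.nd (nat_lit 234) (nat_lit 1520) (nat_lit 0) (XT.nd (nat_lit 78) (nat_lit 760) (nat_lit 0) (XT.lf (nat_lit 0) (nat_lit 12331339812) (nat_lit 912) (nat_lit 15778936834) (nat_lit 76) (nat_lit 2677109018) (nat_lit 375) (nat_lit 5) (nat_lit 387) (nat_lit 5) (nat_lit 376) (nat_lit 5) (nat_lit 640) (nat_lit 602) (nat_lit 318)) (XT.nd (nat_lit 78) (nat_lit 0) (nat_lit 0) (XT.lf (nat_lit 0) (nat_lit 1279349444) (nat_lit 760) (nat_lit 14960459838) (nat_lit 836) (nat_lit 14891292955) (nat_lit 365) (nat_lit 5) (nat_lit 375) (nat_lit 5) (nat_lit 376) (nat_lit 5) (nat_lit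 641) (nat_lit 602) (nat_lit 317)) (XT.lf (nat_lit 0) (nat_lit 18890452092) (nat_lit 760) (nat_lit 1439771464) (nat_lit 836) (nat_lit 11149394190) (nat_lit 365) (nat_lit 5) (nat_lit 375) (nat_lit 5) (nat_lit 376) (nat_lit 5) (nat_lit 642) (nat_lit 602) (nat_lit 316)))) (XT.nd (nat_lit 156) (nat_lit 760) (nat_lit 0) (XT.nd (nat_lit 78) (nat_lit 0) (nat_lit 0) (XT.lf (nat_lit 0) (nat_lit 5001846517) (nat_lit 760) (nat_lit 19611198932) (nat_lit 836) (nat_lit 7219846239) (nat_lit 355) (nat_lit 5) (nat_lit 365) (nat_lit 5) (nat_lit 366) (nat_lit 5) (nat_lit 643) (nat_lit 602) (nat_lit 315)) (XT.lf (nat_lit 0) (nat_lit 23103447661) (nat_lit 760) (nat_lit 5969985383) (nat_lit 836) (nat_lit 3117959987) (nat_lit 355) (nat_lit 5) (nat_lit 365) (nat_lit 5) (nat_lit 366) (nat_lit 5) (nat_lit 644) (nat_lit 602) (nat_lit 314))) (XT.nd (nat_lit 78) (nat_lit 0) (nat_lit 0) (XT.lf (nat_lit 0) (nat_lit 1161198771) (nat_lit 760) (nat_lit 23487286796) (nat_lit 76) (nat_lit 7906256215)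 (nat_lit 345) (nat_lit 5) (nat_lit 355) (nat_lit 5) (nat_lit 346) (nat_lit 5) (nat_lit 645) (nat_lit 602) (nat_lit 313)) (XT.lf (nat_lit 0) (nat_lit 5583163235) (nat_lit 760) (nat_lit 5277800545) (nat_lit 76) (nat_lit 22062002196) (nat_lit 345) (nat_lit 5) (nat_lit 355) (nat_lit 5) (nat_lit 346) (nat_lit 5) (nat_lit 646) (nat_lit 602) (nat_lit 312))))) (XT.nd (nat_lit 234) (nat_lit 1368) (nat_lit 0) (XT.nd (nat_lit 78) (nat_lit 684) (nat_lit 0) (XT.lf (nat_lit 0) (nat_lit 10200441657) (nat_lit 836) (nat_lit 19847855223) (nat_lit 76) (nat_lit 3248120379) (nat_lit 335) (nat_lit 5) (nat_lit 346) (nat_lit 5) (nat_lit 336) (nat_lit 5) (nat_lit 647) (nat_lit 602) (nat_lit 311)) (XT.nd (nat_lit 78) (nat_lit 684) (nat_lit 0) (XT.lf (nat_lit 0) (nat_lit 15015713538) (nat_lit 836) (nat_lit 1130002576) (nat_lit 76) (nat_lit 17529508593) (nat_lit 335) (nat_lit 5) (nat_lit 346) (nat_lit 5) (nat_lit 336) (nat_lit 5) (nat_lit 648) (nat_lit 602) (nat_lit 310)) (XT.lf (nat_lit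 0) (nat_lit 18198724184) (nat_lit 684) (nat_lit 1844832323) (nat_lit 760) (nat_lit 14015726580) (nat_lit 326) (nat_lit 5) (nat_lit 335) (nat_lit 5) (nat_lit 336) (nat_lit 5) (nat_lit 649) (nat_lit 602) (nat_lit 309)))) (XT.nd (nat_lit 156) (nat_lit 684) (nat_lit 0) (XT.nd (nat_lit 78) (nat_lit 0) (nat_lit 0) (XT.lf (nat_lit 0) (nat_lit 3438605814) (nat_lit 684) (nat_lit 21844168137) (nat_lit 760) (nat_lit 9166032424) (nat_lit 317) (nat_lit 5) (nat_lit 326) (nat_lit 5) (nat_lit 327) (nat_lit 5) (nat_lit 650) (nat_lit 602) (nat_lit 308)) (XT.lf (nat_lit 0) (nat_lit 23324198526) (nat_lit 684) (nat_lit 7419298387) (nat_lit 760) (nat_lit 4100288885) (nat_lit 317) (nat_lit 5) (nat_lit 326) (nat_lit 5) (nat_lit 327) (nat_lit 5) (nat_lit 651) (nat_lit 602) (nat_lit 307))) (XT.nd (nat_lit 78) (nat_lit 0) (nat_lit 0) (XT.lf (nat_lit 0) (nat_lit 1153665574) (nat_lit 684) (nat_lit 26830478240) (nat_lit 76) (nat_lit 7260364820) (nat_lit 308) (nat_lit 5) (nat_lit 317) (nat_lit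 5) (nat_lit 309) (nat_lit 5) (nat_lit 652) (nat_lit 602) (nat_lit 306)) (XT.lf (nat_lit 0) (nat_lit 6582991728) (nat_lit 684) (nat_lit 6828200180) (nat_lit 76) (nat_lit 22239008139) (nat_lit 308) (nat_lit 5) (nat_lit 317) (nat_lit 5) (nat_lit 309) (nat_lit 5) (nat_lit 653) (nat_lit 602) (nat_lit 305)))))) (XT.nd (nat_lit 546) (nat_lit 2812) (nat_lit 0) (XT.nd (nat_lit 234) (nat_lit 1292) (nat_lit 0) (XT.nd (nat_lit 78) (nat_lit 608) (nat_lit 0) (XT.lf (nat_lit 0) (nat_lit 12218448777) (nat_lit 760) (nat_lit 22319919697) (nat_lit 76) (nat_lit 1523686010) (nat_lit 299) (nat_lit 5) (nat_lit 309) (nat_lit 5) (nat_lit 300) (nat_lit 5) (nat_lit 654) (nat_lit 602) (nat_lit 304)) (XT.nd (nat_lit 78) (nat_lit 608) (nat_lit 0) (XT.lf (nat_lit 0) (nat_lit 18099804341) (nat_lit 760) (nat_lit 1756061635) (nat_lit 76) (nat_lit 16623616330) (nat_lit 299) (nat_lit 5) (nat_lit 309) (nat_lit 5) (nat_lit 300) (nat_lit 5) (nat_lit 655) (nat_lit 602) (nat_lit 303)) (XT.lf (nat_lit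 0) (nat_lit 19472351832) (nat_lit 608) (nat_lit 4751146203) (nat_lit 684) (nat_lit 12679266511) (nat_lit 291) (nat_lit 5) (nat_lit 299) (nat_lit 5) (nat_lit 300) (nat_lit 5) (nat_lit 656) (nat_lit 602) (nat_lit 302)))) (XT.nd (nat_lit 156) (nat_lit 684) (nat_lit 0) (XT.nd (nat_lit 78) (nat_lit 0) (nat_lit 0) (XT.lf (nat_lit 0) (nat_lit 3793225077) (nat_lit 608) (nat_lit 26780415569) (nat_lit 684) (nat_lit 6758792362) (nat_lit 283) (nat_lit 5) (nat_lit 291) (nat_lit 5) (nat_lit 292) (nat_lit 5) (nat_lit 657) (nat_lit 602) (nat_lit 301)) (XT.lf (nat_lit 0) (nat_lit 25643617985) (nat_lit 608) (nat_lit 11553713637) (nat_lit 684) (nat_lit 570432387) (nat_lit 283) (nat_lit 5) (nat_lit 291) (nat_lit 5) (nat_lit 292) (nat_lit 5) (nat_lit 658) (nat_lit 602) (nat_lit 300))) (XT.nd (nat_lit 78) (nat_lit 0) (nat_lit 0) (XT.lf (nat_lit 0) (nat_lit 5754907849) (nat_lit 684) (nat_lit 28427817346) (nat_lit 76) (nat_lit 4026560604) (nat_lit 274) (nat_lit 5) (nat_lit 283) (nat_lit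 5) (nat_lit 275) (nat_lit 5) (nat_lit 659) (nat_lit 602) (nat_lit 299)) (XT.lf (nat_lit 0) (nat_lit 12355895660) (nat_lit 684) (nat_lit 6451406570) (nat_lit 76) (nat_lit 19849124878) (nat_lit 274) (nat_lit 5) (nat_lit 283) (nat_lit 5) (nat_lit 275) (nat_lit 5) (nat_lit 660) (nat_lit 602) (nat_lit 298))))) (XT.nd (nat_lit 312) (nat_lit 1064) (nat_lit 0) (XT.nd (nat_lit 156) (nat_lit 1140) (nat_lit 0) (XT.nd (nat_lit 78) (nat_lit 0) (nat_lit 0) (XT.lf (nat_lit 0) (nat_lit 16174600724) (nat_lit 608) (nat_lit 3017709773) (nat_lit 684) (nat_lit 19918132675) (nat_lit 266) (nat_lit 5) (nat_lit 274) (nat_lit 5) (nat_lit 275) (nat_lit 5) (nat_lit 661) (nat_lit 602) (nat_lit 297)) (XT.lf (nat_lit 0) (nat_lit 26292412813) (nat_lit 684) (nat_lit 319435409) (nat_lit 76) (nat_lit 12959152222) (nat_lit 266) (nat_lit 5) (nat_lit 275) (nat_lit 5) (nat_lit 267) (nat_lit 5) (nat_lit 662) (nat_lit 602) (nat_lit 296))) (XT.nd (nat_lit 78) (nat_lit 608) (nat_lit 0) (XT.lf (nat_lit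 0) (nat_lit 23029309444) (nat_lit 532) (nat_lit 10673151643) (nat_lit 608) (nat_lit 6334948965) (nat_lit 259) (nat_lit 5) (nat_lit 266) (nat_lit 5) (nat_lit 267) (nat_lit 5) (nat_lit 663) (nat_lit 602) (nat_lit 295)) (XT.lf (nat_lit 0) (nat_lit 816577053) (nat_lit 608) (nat_lit 34135328476) (nat_lit 76) (nat_lit 5559568937) (nat_lit 251) (nat_lit 5) (nat_lit 259) (nat_lit 5) (nat_lit 252) (nat_lit 5) (nat_lit 664) (nat_lit 602) (nat_lit 294)))) (XT.nd (nat_lit 156) (nat_lit 532) (nat_lit 0) (XT.nd (nat_lit 78) (nat_lit 532) (nat_lit 0) (XT.lf (nat_lit 0) (nat_lit 8210418996) (nat_lit 608) (nat_lit 10649563477) (nat_lit 76) (nat_lit 22130518073) (nat_lit 251) (nat_lit 5) (nat_lit 259) (nat_lit 5) (nat_lit 252) (nat_lit 5) (nat_lit 665) (nat_lit 602) (nat_lit 293)) (XT.lf (nat_lit 0) (nat_lit 13480698511) (nat_lit 532) (nat_lit 2357453921) (nat_lit 608) (nat_lit 25639234487) (nat_lit 244) (nat_lit 5) (nat_lit 251) (nat_lit 5) (nat_lit 252) (nat_lit 5) (nat_lit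 666) (nat_lit 602) (nat_lit 292))) (XT.nd (nat_lit 78) (nat_lit 532) (nat_lit 0) (XT.lf (nat_lit 0) (nat_lit 23782862389) (nat_lit 608) (nat_lit 3831147179) (nat_lit 76) (nat_lit 14356713078) (nat_lit 244) (nat_lit 5) (nat_lit 252) (nat_lit 5) (nat_lit 245) (nat_lit 5) (nat_lit 667) (nat_lit 602) (nat_lit 291)) (XT.lf (nat_lit 0) (nat_lit 21076521406) (nat_lit 532) (nat_lit 10960931827) (nat_lit 608) (nat_lit 10433452181) (nat_lit 237) (nat_lit 5) (nat_lit 244) (nat_lit 5) (nat_lit 245) (nat_lit 5) (nat_lit 668) (nat_lit 602) (nat_lit 290))))))))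
noncomputable def xc221 : XT := (XT.nd (nat_lit 77844) (nat_lit 0) (nat_lit 6688) (XT.nd (nat_lit 76674) (nat_lit 0) (nat_lit 20064) (XT.nd (nat_lit 76128) (nat_lit 0) (nat_lit 19912) (XT.nd (nat_lit 234) (nat_lit 912) (nat_lit 0) (XT.nd (nat_lit 78) (nat_lit 608) (nat_lit 0) (XT.lf (nat_lit 0) (nat_lit 3559079861) (nat_lit 456) (nat_lit 36984707017) (nat_lit 532) (nat_lit 2435572001) (nat_lit 231) (nat_lit 5) (nat_lit 237) (nat_lit 5) (nat_lit 238) (nat_lit 5) (nat_lit 669) (nat_lit 602) (nat_lit 289)) (XT.nd (nat_lit 78) (nat_lit 532) (nat_lit 0) (XT.lf (nat_lit 0) (nat_lit 5862874714) (nat_lit 532) (nat_lit 14306195276) (nat_lit 76) (nat_lit 23323855277) (nat_lit 230) (nat_lit 5) (nat_lit 237) (nat_lit 5) (nat_lit 231) (nat_lit 5) (nat_lit 670) (nat_lit 602) (nat_lit 288)) (XT.lf (nat_lit 0) (nat_lit 11442133367) (nat_lit 532) (nat_lit 2925443690) (nat_lit 608) (nat_lit 29647406020) (nat_lit 223) (nat_lit 5) (nat_lit 230) (nat_lit 5) (nat_lit 231) (nat_lit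 5) (nat_lit 671) (nat_lit 602) (nat_lit 287)))) (XT.nd (nat_lit 156) (nat_lit 456) (nat_lit 0) (XT.nd (nat_lit 78) (nat_lit 456) (nat_lit 0) (XT.lf (nat_lit 0) (nat_lit 23232803753) (nat_lit 608) (nat_lit 6744031635) (nat_lit 76) (nat_lit 14566838105) (nat_lit 223) (nat_lit 5) (nat_lit 231) (nat_lit 5) (nat_lit 224) (nat_lit 5) (nat_lit 672) (nat_lit 602) (nat_lit 286)) (XT.lf (nat_lit 0) (nat_lit 19840251982) (nat_lit 456) (nat_lit 12581890669) (nat_lit 532) (nat_lit 12657858967) (nat_lit 217) (nat_lit 5) (nat_lit 223) (nat_lit 5) (nat_lit 224) (nat_lit 5) (nat_lit 673) (nat_lit 602) (nat_lit 285))) (XT.nd (nat_lit 75660) (nat_lit 0) (nat_lit 21660) (XT.lf (nat_lit 0) (nat_lit 1404138263) (nat_lit 456) (nat_lit 40477939380) (nat_lit 532) (nat_lit 3743242530) (nat_lit 211) (nat_lit 5) (nat_lit 217) (nat_lit 5) (nat_lit 218) (nat_lit 5) (nat_lit 674) (nat_lit 602) (nat_lit 284)) (XT.lf (nat_lit 0) (nat_lit 5073102253) (nat_lit 0) (nat_lit 5073102253) (nat_lit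 1748) (nat_lit 409785189) (nat_lit 496) (nat_lit 5) (nat_lit 496) (nat_lit 3) (nat_lit 519) (nat_lit 3) (nat_lit 603) (nat_lit 603) (nat_lit 354))))) (XT.nd (nat_lit 234) (nat_lit 1748) (nat_lit 0) (XT.nd (nat_lit 78) (nat_lit 0) (nat_lit 0) (XT.lf (nat_lit 0) (nat_lit 20644553718) (nat_lit 1748) (nat_lit 494691146) (nat_lit 1824) (nat_lit 180860690) (nat_lit 496) (nat_lit 5) (nat_lit 519) (nat_lit 3) (nat_lit 520) (nat_lit 5) (nat_lit 604) (nat_lit 603) (nat_lit 353)) (XT.nd (nat_lit 78) (nat_lit 0) (nat_lit 0) (XT.lf (nat_lit 76) (nat_lit 10251033046) (nat_lit 0) (nat_lit 10882587889) (nat_lit 1824) (nat_lit 396175954) (nat_lit 497) (nat_lit 5) (nat_lit 496) (nat_lit 5) (nat_lit 520) (nat_lit 5) (nat_lit 605) (nat_lit 603) (nat_lit 352)) (XT.lf (nat_lit 76) (nat_lit 21216358806) (nat_lit 0) (nat_lit 415622818) (nat_lit 1824) (nat_lit 111710423) (nat_lit 497) (nat_lit 5) (nat_lit 496) (nat_lit 5) (nat_lit 520) (nat_lit 5) (nat_lit 606) (nat_lit 603) (nat_lit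 351)))) (XT.nd (nat_lit 156) (nat_lit 0) (nat_lit 76) (XT.nd (nat_lit 78) (nat_lit 0) (nat_lit 0) (XT.lf (nat_lit 0) (nat_lit 308096501) (nat_lit 1824) (nat_lit 11453010558) (nat_lit 1900) (nat_lit 10198095256) (nat_lit 473) (nat_lit 5) (nat_lit 497) (nat_lit 5) (nat_lit 498) (nat_lit 5) (nat_lit 607) (nat_lit 603) (nat_lit 350)) (XT.lf (nat_lit 0) (nat_lit 737433454) (nat_lit 1824) (nat_lit 417033233) (nat_lit 1900) (nat_lit 21024488964) (nat_lit 473) (nat_lit 5) (nat_lit 497) (nat_lit 5) (nat_lit 498) (nat_lit 5) (nat_lit 608) (nat_lit 603) (nat_lit 349))) (XT.nd (nat_lit 78) (nat_lit 0) (nat_lit 0) (XT.lf (nat_lit 0) (nat_lit 1306272523) (nat_lit 1824) (nat_lit 11483349940) (nat_lit 1900) (nat_lit 9610863501) (nat_lit 474) (nat_lit 5) (nat_lit 498) (nat_lit 5) (nat_lit 499) (nat_lit 5) (nat_lit 609) (nat_lit 603) (nat_lit 348)) (XT.lf (nat_lit 0) (nat_lit 1893404263) (nat_lit 1824) (nat_lit 152540571) (nat_lit 1900) (nat_lit 20580363946) (nat_lit 474) (nat_lit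 5) (nat_lit 498) (nat_lit 5) (nat_lit 499) (nat_lit 5) (nat_lit 610) (nat_lit 603) (nat_lit 347)))))) (XT.nd (nat_lit 546) (nat_lit 0) (nat_lit 228) (XT.nd (nat_lit 234) (nat_lit 0) (nat_lit 76) (XT.nd (nat_lit 78) (nat_lit 0) (nat_lit 0) (XT.lf (nat_lit 0) (nat_lit 2622192364) (nat_lit 1824) (nat_lit 11359253248) (nat_lit 1900) (nat_lit 8872604377) (nat_lit 475) (nat_lit 5) (nat_lit 499) (nat_lit 5) (nat_lit 500) (nat_lit 5) (nat_lit 611) (nat_lit 603) (nat_lit 346)) (XT.nd (nat_lit 78) (nat_lit 0) (nat_lit 76) (XT.lf (nat_lit 76) (nat_lit 278773762) (nat_lit 0) (nat_lit 3099758564) (nat_lit 1900) (nat_lit 19707554380) (nat_lit 476) (nat_lit 5) (nat_lit 475) (nat_lit 5) (nat_lit 500) (nat_lit 5) (nat_lit 612) (nat_lit 603) (nat_lit 345)) (XT.lf (nat_lit 0) (nat_lit 4275316364) (nat_lit 1824) (nat_lit 11072354452) (nat_lit 1900) (nat_lit 7972587199) (nat_lit 476) (nat_lit 5) (nat_lit 500) (nat_lit 5) (nat_lit 501) (nat_lit 5) (nat_lit 613) (nat_lit 603) (nat_lit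 344)))) (XT.nd (nat_lit 156) (nat_lit 0) (nat_lit 76) (XT.nd (nat_lit 78) (nat_lit 0) (nat_lit 76) (XT.lf (nat_lit 76) (nat_lit 886230899) (nat_lit 0) (nat_lit 4326800552) (nat_lit 1900) (nat_lit 18345621589) (nat_lit 477) (nat_lit 5) (nat_lit 476) (nat_lit 5) (nat_lit 501) (nat_lit 5) (nat_lit 614) (nat_lit 603) (nat_lit 343)) (XT.lf (nat_lit 0) (nat_lit 6285958338) (nat_lit 1824) (nat_lit 10613863686) (nat_lit 1900) (nat_lit 6899664986) (nat_lit 477) (nat_lit 5) (nat_lit 501) (nat_lit 5) (nat_lit 502) (nat_lit 5) (nat_lit 615) (nat_lit 603) (nat_lit 342))) (XT.nd (nat_lit 78) (nat_lit 0) (nat_lit 76) (XT.lf (nat_lit 76) (nat_lit 1677024852) (nat_lit 0) (nat_lit 5739695568) (nat_lit 1900) (nat_lit 16627689898) (nat_lit 478) (nat_lit 5) (nat_lit 477) (nat_lit 5) (nat_lit 502) (nat_lit 5) (nat_lit 616) (nat_lit 603) (nat_lit 341)) (XT.lf (nat_lit 0) (nat_lit 8675324432) (nat_lit 1824) (nat_lit 9974552250) (nat_lit 1900) (nat_lit 5642251063) (nat_lit 478) (nat_lit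 5) (nat_lit 502) (nat_lit 5) (nat_lit 503) (nat_lit 5) (nat_lit 617) (nat_lit 603) (nat_lit 340))))) (XT.nd (nat_lit 312) (nat_lit 0) (nat_lit 152) (XT.nd (nat_lit 156) (nat_lit 0) (nat_lit 76) (XT.nd (nat_lit 78) (nat_lit 0) (nat_lit 76) (XT.lf (nat_lit 76) (nat_lit 2660831894) (nat_lit 0) (nat_lit 7350504936) (nat_lit 1900) (nat_lit 14532418147) (nat_lit 479) (nat_lit 5) (nat_lit 478) (nat_lit 5) (nat_lit 503) (nat_lit 5) (nat_lit 618) (nat_lit 603) (nat_lit 339)) (XT.lf (nat_lit 0) (nat_lit 11465553422) (nat_lit 1824) (nat_lit 9144736891) (nat_lit 1900) (nat_lit 4188294943) (nat_lit 479) (nat_lit 5) (nat_lit 503) (nat_lit 5) (nat_lit 504) (nat_lit 5) (nat_lit 619) (nat_lit 603) (nat_lit 338))) (XT.nd (nat_lit 78) (nat_lit 0) (nat_lit 76) (XT.lf (nat_lit 76) (nat_lit 3847799719) (nat_lit 0) (nat_lit 9171775002) (nat_lit 1900) (nat_lit 12037523187) (nat_lit 480) (nat_lit 5) (nat_lit 479) (nat_lit 5) (nat_lit 504) (nat_lit 5) (nat_lit 620) (nat_lit 603) (nat_lit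 337)) (XT.lf (nat_lit 0) (nat_lit 14679758532) (nat_lit 1824) (nat_lit 8114263357) (nat_lit 1900) (nat_lit 2525257456) (nat_lit 480) (nat_lit 5) (nat_lit 504) (nat_lit 5) (nat_lit 505) (nat_lit 5) (nat_lit 621) (nat_lit 603) (nat_lit 336)))) (XT.nd (nat_lit 156) (nat_lit 0) (nat_lit 76) (XT.nd (nat_lit 78) (nat_lit 0) (nat_lit 76) (XT.lf (nat_lit 76) (nat_lit 5248564540) (nat_lit 0) (nat_lit 11216562773) (nat_lit 1900) (nat_lit 9119737640) (nat_lit 481) (nat_lit 5) (nat_lit 480) (nat_lit 5) (nat_lit 505) (nat_lit 5) (nat_lit 622) (nat_lit 603) (nat_lit 335)) (XT.lf (nat_lit 0) (nat_lit 18342070834) (nat_lit 1824) (nat_lit 6872489201) (nat_lit 1900) (nat_lit 640085057) (nat_lit 481) (nat_lit 5) (nat_lit 505) (nat_lit 5) (nat_lit 506) (nat_lit 5) (nat_lit 623) (nat_lit 603) (nat_lit 334))) (XT.nd (nat_lit 78) (nat_lit 0) (nat_lit 0) (XT.lf (nat_lit 76) (nat_lit 6874268962) (nat_lit 0) (nat_lit 13498462404) (nat_lit 1900) (nat_lit 5754766068) (nat_lit 482) (nat_lit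 5) (nat_lit 481) (nat_lit 5) (nat_lit 506) (nat_lit 5) (nat_lit 624) (nat_lit 603) (nat_lit 333)) (XT.lf (nat_lit 76) (nat_lit 20986930521) (nat_lit 0) (nat_lit 1500495991) (nat_lit 1900) (nat_lit 3917512043) (nat_lit 482) (nat_lit 5) (nat_lit 481) (nat_lit 5) (nat_lit 506) (nat_lit 5) (nat_lit 625) (nat_lit 603) (nat_lit 332))))))) (XT.nd (nat_lit 1170) (nat_lit 6612) (nat_lit 0) (XT.nd (nat_lit 546) (nat_lit 3496) (nat_lit 0) (XT.nd (nat_lit 234) (nat_lit 1900) (nat_lit 0) (XT.nd (nat_lit 78) (nat_lit 1900) (nat_lit 0) (XT.lf (nat_lit 76) (nat_lit 8736580643) (nat_lit 0) (nat_lit 16031632590) (nat_lit 1900) (nat_lit 1917239466) (nat_lit 483) (nat_lit 5) (nat_lit 482) (nat_lit 5) (nat_lit 507) (nat_lit 5) (nat_lit 626) (nat_lit 603) (nat_lit 331)) (XT.nd (nat_lit 78) (nat_lit 0) (nat_lit 76) (XT.lf (nat_lit 0) (nat_lit 165340066) (nat_lit 1900) (nat_lit 3736346998) (nat_lit 1976) (nat_lit 23068995934) (nat_lit 457) (nat_lit 5) (nat_lit 482) (nat_lit 5) (nat_lit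 483) (nat_lit 5) (nat_lit 627) (nat_lit 603) (nat_lit 330)) (XT.lf (nat_lit 0) (nat_lit 2387602010) (nat_lit 1900) (nat_lit 16427200827) (nat_lit 76) (nat_lit 8444087700) (nat_lit 458) (nat_lit 5) (nat_lit 483) (nat_lit 5) (nat_lit 459) (nat_lit 5) (nat_lit 628) (nat_lit 603) (nat_lit 329)))) (XT.nd (nat_lit 156) (nat_lit 912) (nat_lit 0) (XT.nd (nat_lit 78) (nat_lit 1064) (nat_lit 0) (XT.lf (nat_lit 0) (nat_lit 4702856803) (nat_lit 1900) (nat_lit 1838850665) (nat_lit 76) (nat_lit 21010183951) (nat_lit 458) (nat_lit 5) (nat_lit 483) (nat_lit 5) (nat_lit 459) (nat_lit 5) (nat_lit 629) (nat_lit 603) (nat_lit 328)) (XT.lf (nat_lit 0) (nat_lit 7187095277) (nat_lit 1140) (nat_lit 14676088678) (nat_lit 76) (nat_lit 5985114935) (nat_lit 444) (nat_lit 5) (nat_lit 459) (nat_lit 5) (nat_lit 445) (nat_lit 5) (nat_lit 630) (nat_lit 603) (nat_lit 327))) (XT.nd (nat_lit 78) (nat_lit 0) (nat_lit 0) (XT.lf (nat_lit 0) (nat_lit 316565966) (nat_lit 912) (nat_lit 9459807644)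 (nat_lit 988) (nat_lit 18373153937) (nat_lit 432) (nat_lit 5) (nat_lit 444) (nat_lit 5) (nat_lit 445) (nat_lit 5) (nat_lit 631) (nat_lit 603) (nat_lit 326)) (XT.lf (nat_lit 0) (nat_lit 12534887053) (nat_lit 988) (nat_lit 12670421016) (nat_lit 76) (nat_lit 3249123853) (nat_lit 432) (nat_lit 5) (nat_lit 445) (nat_lit 5) (nat_lit 433) (nat_lit 5) (nat_lit 632) (nat_lit 603) (nat_lit 325))))) (XT.nd (nat_lit 312) (nat_lit 1748) (nat_lit 0) (XT.nd (nat_lit 156) (nat_lit 836) (nat_lit 0) (XT.nd (nat_lit 78) (nat_lit 0) (nat_lit 0) (XT.lf (nat_lit 0) (nat_lit 2766806420) (nat_lit 912) (nat_lit 12660014089) (nat_lit 988) (nat_lit 13337049014) (nat_lit 420) (nat_lit 5) (nat_lit 432) (nat_lit 5) (nat_lit 433) (nat_lit 5) (nat_lit 633) (nat_lit 603) (nat_lit 324)) (XT.lf (nat_lit 0) (nat_lit 18460736202) (nat_lit 988) (nat_lit 10396949884) (nat_lit 76) (nat_lit 220127049) (nat_lit 420) (nat_lit 5) (nat_lit 433) (nat_lit 5) (nat_lit 421) (nat_lit 5) (nat_lit 634) (nat_lit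 603) (nat_lit 323))) (XT.nd (nat_lit 78) (nat_lit 0) (nat_lit 0) (XT.lf (nat_lit 0) (nat_lit 5501282085) (nat_lit 836) (nat_lit 16171324000) (nat_lit 912) (nat_lit 7723084146) (nat_lit 409) (nat_lit 5) (nat_lit 420) (nat_lit 5) (nat_lit 421) (nat_lit 5) (nat_lit 635) (nat_lit 603) (nat_lit 322)) (XT.lf (nat_lit 0) (nat_lit 21856233847) (nat_lit 836) (nat_lit 3159995902) (nat_lit 912) (nat_lit 4702344918) (nat_lit 409) (nat_lit 5) (nat_lit 420) (nat_lit 5) (nat_lit 421) (nat_lit 5) (nat_lit 636) (nat_lit 603) (nat_lit 321)))) (XT.nd (nat_lit 156) (nat_lit 836) (nat_lit 0) (XT.nd (nat_lit 78) (nat_lit 76) (nat_lit 0) (XT.lf (nat_lit 0) (nat_lit 8534467688) (nat_lit 836) (nat_lit 20011112588) (nat_lit 912) (nat_lit 1499959550) (nat_lit 398) (nat_lit 5) (nat_lit 409) (nat_lit 5) (nat_lit 410) (nat_lit 5) (nat_lit 637) (nat_lit 603) (nat_lit 320)) (XT.lf (nat_lit 0) (nat_lit 1815149586) (nat_lit 912) (nat_lit 5047141481) (nat_lit 76) (nat_lit 23515087085) (nat_lit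 397) (nat_lit 5) (nat_lit 409) (nat_lit 5) (nat_lit 398) (nat_lit 5) (nat_lit 638) (nat_lit 603) (nat_lit 319))) (XT.nd (nat_lit 78) (nat_lit 0) (nat_lit 0) (XT.lf (nat_lit 0) (nat_lit 5294642937) (nat_lit 912) (nat_lit 18867333953) (nat_lit 76) (nat_lit 6551314846) (nat_lit 386) (nat_lit 5) (nat_lit 398) (nat_lit 5) (nat_lit 387) (nat_lit 5) (nat_lit 639) (nat_lit 603) (nat_lit 318)) (XT.lf (nat_lit 0) (nat_lit 8921142951) (nat_lit 912) (nat_lit 1957762246) (nat_lit 76) (nat_lit 20175470173) (nat_lit 386) (nat_lit 5) (nat_lit 398) (nat_lit 5) (nat_lit 387) (nat_lit 5) (nat_lit 640) (nat_lit 603) (nat_lit 317)))))) (XT.nd (nat_lit 546) (nat_lit 3496) (nat_lit 0) (XT.nd (nat_lit 234) (nat_lit 1520) (nat_lit 0) (XT.nd (nat_lit 78) (nat_lit 760) (nat_lit 0) (XT.lf (nat_lit 0) (nat_lit 12736670510) (nat_lit 912) (nat_lit 15927280001) (nat_lit 76) (nat_lit 2736000326) (nat_lit 375) (nat_lit 5) (nat_lit 387) (nat_lit 5) (nat_lit 376) (nat_lit 5) (nat_lit 641) (nat_lit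 603) (nat_lit 316)) (XT.nd (nat_lit 78) (nat_lit 0) (nat_lit 0) (XT.lf (nat_lit 0) (nat_lit 1471071768) (nat_lit 760) (nat_lit 15250204421) (nat_lit 836) (nat_lit 15029306383) (nat_lit 365) (nat_lit 5) (nat_lit 375) (nat_lit 5) (nat_lit 376) (nat_lit 5) (nat_lit 642) (nat_lit 603) (nat_lit 315)) (XT.lf (nat_lit 0) (nat_lit 19431138914) (nat_lit 760) (nat_lit 1459287860) (nat_lit 836) (nat_lit 11215703219) (nat_lit 365) (nat_lit 5) (nat_lit 375) (nat_lit 5) (nat_lit 376) (nat_lit 5) (nat_lit 643) (nat_lit 603) (nat_lit 314)))) (XT.nd (nat_lit 156) (nat_lit 760) (nat_lit 0) (XT.nd (nat_lit 78) (nat_lit 0) (nat_lit 0) (XT.lf (nat_lit 0) (nat_lit 5266689657) (nat_lit 760) (nat_lit 19990332803) (nat_lit 836) (nat_lit 7209484766) (nat_lit 355) (nat_lit 5) (nat_lit 365) (nat_lit 5) (nat_lit 366) (nat_lit 5) (nat_lit 644) (nat_lit 603) (nat_lit 313)) (XT.lf (nat_lit 0) (nat_lit 23727091330) (nat_lit 760) (nat_lit 6076551651) (nat_lit 836) (nat_lit 3028595267) (nat_lit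 355) (nat_lit 5) (nat_lit 365) (nat_lit 5) (nat_lit 366) (nat_lit 5) (nat_lit 645) (nat_lit 603) (nat_lit 312))) (XT.nd (nat_lit 78) (nat_lit 0) (nat_lit 0) (XT.lf (nat_lit 0) (nat_lit 1332370922) (nat_lit 760) (nat_lit 23791666896) (nat_lit 76) (nat_lit 8078832322) (nat_lit 345) (nat_lit 5) (nat_lit 355) (nat_lit 5) (nat_lit 346) (nat_lit 5) (nat_lit 646) (nat_lit 603) (nat_lit 311)) (XT.lf (nat_lit 0) (nat_lit 5839873731) (nat_lit 760) (nat_lit 5221233383) (nat_lit 76) (nat_lit 22517409870) (nat_lit 345) (nat_lit 5) (nat_lit 355) (nat_lit 5) (nat_lit 346) (nat_lit 5) (nat_lit 647) (nat_lit 603) (nat_lit 310))))) (XT.nd (nat_lit 312) (nat_lit 1368) (nat_lit 0) (XT.nd (nat_lit 156) (nat_lit 1368) (nat_lit 0) (XT.nd (nat_lit 78) (nat_lit 0) (nat_lit 0) (XT.lf (nat_lit 0) (nat_lit 10547814963) (nat_lit 836) (nat_lit 20080999175) (nat_lit 76) (nat_lit 3330656954) (nat_lit 335) (nat_lit 5) (nat_lit 346) (nat_lit 5) (nat_lit 336) (nat_lit 5) (nat_lit 648) (nat_lit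 603) (nat_lit 309)) (XT.lf (nat_lit 0) (nat_lit 15456581214) (nat_lit 836) (nat_lit 992001498) (nat_lit 76) (nat_lit 17897328340) (nat_lit 335) (nat_lit 5) (nat_lit 346) (nat_lit 5) (nat_lit 336) (nat_lit 5) (nat_lit 649) (nat_lit 603) (nat_lit 308))) (XT.nd (nat_lit 78) (nat_lit 684) (nat_lit 0) (XT.lf (nat_lit 0) (nat_lit 18722243211) (nat_lit 684) (nat_lit 1861017751) (nat_lit 760) (nat_lit 14154424178) (nat_lit 326) (nat_lit 5) (nat_lit 335) (nat_lit 5) (nat_lit 336) (nat_lit 5) (nat_lit 650) (nat_lit 603) (nat_lit 307)) (XT.lf (nat_lit 0) (nat_lit 3668504547) (nat_lit 684) (nat_lit 22257213962) (nat_lit 760) (nat_lit 9209311407) (nat_lit 317) (nat_lit 5) (nat_lit 326) (nat_lit 5) (nat_lit 327) (nat_lit 5) (nat_lit 651) (nat_lit 603) (nat_lit 306)))) (XT.nd (nat_lit 156) (nat_lit 684) (nat_lit 0) (XT.nd (nat_lit 78) (nat_lit 684) (nat_lit 0) (XT.lf (nat_lit 0) (nat_lit 23948649767) (nat_lit 684) (nat_lit 7544314219) (nat_lit 760) (nat_lit 4044998912) (nat_lit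 317) (nat_lit 5) (nat_lit 326) (nat_lit 5) (nat_lit 327) (nat_lit 5) (nat_lit 652) (nat_lit 603) (nat_lit 305)) (XT.lf (nat_lit 0) (nat_lit 1310769119) (nat_lit 684) (nat_lit 27205842063) (nat_lit 76) (nat_lit 7430100606) (nat_lit 308) (nat_lit 5) (nat_lit 317) (nat_lit 5) (nat_lit 309) (nat_lit 5) (nat_lit 653) (nat_lit 603) (nat_lit 304))) (XT.nd (nat_lit 78) (nat_lit 684) (nat_lit 0) (XT.lf (nat_lit 0) (nat_lit 6846053753) (nat_lit 684) (nat_lit 6806680123) (nat_lit 76) (nat_lit 22707835840) (nat_lit 308) (nat_lit 5) (nat_lit 317) (nat_lit 5) (nat_lit 309) (nat_lit 5) (nat_lit 654) (nat_lit 603) (nat_lit 303)) (XT.lf (nat_lit 0) (nat_lit 12592839655) (nat_lit 760) (nat_lit 22606847580) (nat_lit 76) (nat_lit 1581001736) (nat_lit 299) (nat_lit 5) (nat_lit 309) (nat_lit 5) (nat_lit 300) (nat_lit 5) (nat_lit 655) (nat_lit 603) (nat_lit 302))))))))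
noncomputable def xc222 : XT := (XT.nd (nat_lit 77922) (nat_lit 0) (nat_lit 11248) (XT.nd (nat_lit 1092) (nat_lit 1520) (nat_lit 0) (XT.nd (nat_lit 546) (nat_lit 2204) (nat_lit 0) (XT.nd (nat_lit 234) (nat_lit 1292) (nat_lit 0) (XT.nd (nat_lit 78) (nat_lit 1216) (nat_lit 0) (XT.lf (nat_lit 0) (nat_lit 18589272882) (nat_lit 760) (nat_lit 1634839229) (nat_lit 76) (nat_lit 16982404349) (nat_lit 299) (nat_lit 5) (nat_lit 309) (nat_lit 5) (nat_lit 300) (nat_lit 5) (nat_lit 656) (nat_lit 603) (nat_lit 301)) (XT.nd (nat_lit 78) (nat_lit 608) (nat_lit 0) (XT.lf (nat_lit 0) (nat_lit 20017113930) (nat_lit 608) (nat_lit 4816835467) (nat_lit 684) (nat_lit 12804344886) (nat_lit 291) (nat_lit 5) (nat_lit 299) (nat_lit 5) (nat_lit 300) (nat_lit 5) (nat_lit 657) (nat_lit 603) (nat_lit 300)) (XT.lf (nat_lit 0) (nat_lit 4025702567) (nat_lit 608) (nat_lit 27284125625) (nat_lit 684) (nat_lit 6766753373) (nat_lit 283) (nat_lit 5) (nat_lit 291) (nat_lit 5) (nat_lit 292) (nat_lit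 5) (nat_lit 658) (nat_lit 603) (nat_lit 299)))) (XT.nd (nat_lit 156) (nat_lit 608) (nat_lit 0) (XT.nd (nat_lit 78) (nat_lit 684) (nat_lit 0) (XT.lf (nat_lit 0) (nat_lit 26310032491) (nat_lit 608) (nat_lit 11753515110) (nat_lit 684) (nat_lit 457120607) (nat_lit 283) (nat_lit 5) (nat_lit 291) (nat_lit 5) (nat_lit 292) (nat_lit 5) (nat_lit 659) (nat_lit 603) (nat_lit 298)) (XT.lf (nat_lit 0) (nat_lit 5991889151) (nat_lit 684) (nat_lit 28839983208) (nat_lit 76) (nat_lit 4139156018) (nat_lit 274) (nat_lit 5) (nat_lit 283) (nat_lit 5) (nat_lit 275) (nat_lit 5) (nat_lit 660) (nat_lit 603) (nat_lit 297))) (XT.nd (nat_lit 78) (nat_lit 608) (nat_lit 0) (XT.lf (nat_lit 0) (nat_lit 12722506853) (nat_lit 684) (nat_lit 6427110698) (nat_lit 76) (nat_lit 20277542868) (nat_lit 274) (nat_lit 5) (nat_lit 283) (nat_lit 5) (nat_lit 275) (nat_lit 5) (nat_lit 661) (nat_lit 603) (nat_lit 296)) (XT.lf (nat_lit 0) (nat_lit 16650408032) (nat_lit 608) (nat_lit 3043887882) (nat_lit 684)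 (nat_lit 20195988077) (nat_lit 266) (nat_lit 5) (nat_lit 274) (nat_lit 5) (nat_lit 275) (nat_lit 5) (nat_lit 662) (nat_lit 603) (nat_lit 295))))) (XT.nd (nat_lit 234) (nat_lit 1064) (nat_lit 0) (XT.nd (nat_lit 78) (nat_lit 1140) (nat_lit 0) (XT.lf (nat_lit 0) (nat_lit 26934301363) (nat_lit 684) (nat_lit 174391329) (nat_lit 76) (nat_lit 13251401797) (nat_lit 266) (nat_lit 5) (nat_lit 275) (nat_lit 5) (nat_lit 267) (nat_lit 5) (nat_lit 663) (nat_lit 603) (nat_lit 294)) (XT.nd (nat_lit 78) (nat_lit 608) (nat_lit 0) (XT.lf (nat_lit 0) (nat_lit 23640332153) (nat_lit 532) (nat_lit 10850919884) (nat_lit 608) (nat_lit 6344606326) (nat_lit 259) (nat_lit 5) (nat_lit 266) (nat_lit 5) (nat_lit 267) (nat_lit 5) (nat_lit 664) (nat_lit 603) (nat_lit 293)) (XT.lf (nat_lit 0) (nat_lit 947369232) (nat_lit 608) (nat_lit 34665007727) (nat_lit 76) (nat_lit 5707032923) (nat_lit 251) (nat_lit 5) (nat_lit 259) (nat_lit 5) (nat_lit 252) (nat_lit 5) (nat_lit 665) (nat_lit 603) (nat_lit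 292)))) (XT.nd (nat_lit 156) (nat_lit 532) (nat_lit 0) (XT.nd (nat_lit 78) (nat_lit 532) (nat_lit 0) (XT.lf (nat_lit 0) (nat_lit 8486843688) (nat_lit 608) (nat_lit 10712527963) (nat_lit 76) (nat_lit 22608689815) (nat_lit 251) (nat_lit 5) (nat_lit 259) (nat_lit 5) (nat_lit 252) (nat_lit 5) (nat_lit 666) (nat_lit 603) (nat_lit 291)) (XT.lf (nat_lit 0) (nat_lit 13899352246) (nat_lit 532) (nat_lit 2366546892) (nat_lit 608) (nat_lit 26038811175) (nat_lit 244) (nat_lit 5) (nat_lit 251) (nat_lit 5) (nat_lit 252) (nat_lit 5) (nat_lit 667) (nat_lit 603) (nat_lit 290))) (XT.nd (nat_lit 78) (nat_lit 532) (nat_lit 0) (XT.lf (nat_lit 0) (nat_lit 24367569384) (nat_lit 608) (nat_lit 3759714217) (nat_lit 76) (nat_lit 14680667923) (nat_lit 244) (nat_lit 5) (nat_lit 252) (nat_lit 5) (nat_lit 245) (nat_lit 5) (nat_lit 668) (nat_lit 603) (nat_lit 289)) (XT.lf (nat_lit 0) (nat_lit 21645133688) (nat_lit 532) (nat_lit 11140935080) (nat_lit 608) (nat_lit 10532092935) (nat_lit 237)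 (nat_lit 5) (nat_lit 244) (nat_lit 5) (nat_lit 245) (nat_lit 5) (nat_lit 669) (nat_lit 603) (nat_lit 288)))))) (XT.nd (nat_lit 76206) (nat_lit 0) (nat_lit 19380) (XT.nd (nat_lit 234) (nat_lit 456) (nat_lit 0) (XT.nd (nat_lit 78) (nat_lit 608) (nat_lit 0) (XT.lf (nat_lit 0) (nat_lit 3778270328) (nat_lit 456) (nat_lit 37683354321) (nat_lit 532) (nat_lit 2375177766) (nat_lit 231) (nat_lit 5) (nat_lit 237) (nat_lit 5) (nat_lit 238) (nat_lit 5) (nat_lit 670) (nat_lit 603) (nat_lit 287)) (XT.nd (nat_lit 78) (nat_lit 532) (nat_lit 0) (XT.lf (nat_lit 0) (nat_lit 6085695674) (nat_lit 532) (nat_lit 14445805333) (nat_lit 76) (nat_lit 23829167265) (nat_lit 230) (nat_lit 5) (nat_lit 237) (nat_lit 5) (nat_lit 231) (nat_lit 5) (nat_lit 671) (nat_lit 603) (nat_lit 286)) (XT.lf (nat_lit 0) (nat_lit 11816525976) (nat_lit 532) (nat_lit 2942841223) (nat_lit 608) (nat_lit 30133822619) (nat_lit 223) (nat_lit 5) (nat_lit 230) (nat_lit 5) (nat_lit 231) (nat_lit 5) (nat_lit 672) (nat_lit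 603) (nat_lit 285)))) (XT.nd (nat_lit 75816) (nat_lit 0) (nat_lit 21204) (XT.nd (nat_lit 78) (nat_lit 456) (nat_lit 0) (XT.lf (nat_lit 0) (nat_lit 23800112301) (nat_lit 608) (nat_lit 6734426052) (nat_lit 76) (nat_lit 14897951493) (nat_lit 223) (nat_lit 5) (nat_lit 231) (nat_lit 5) (nat_lit 224) (nat_lit 5) (nat_lit 673) (nat_lit 603) (nat_lit 284)) (XT.lf (nat_lit 0) (nat_lit 20380592670) (nat_lit 456) (nat_lit 12791564442) (nat_lit 532) (nat_lit 12807409119) (nat_lit 217) (nat_lit 5) (nat_lit 223) (nat_lit 5) (nat_lit 224) (nat_lit 5) (nat_lit 674) (nat_lit 603) (nat_lit 283))) (XT.nd (nat_lit 78) (nat_lit 0) (nat_lit 0) (XT.lf (nat_lit 0) (nat_lit 5248099112) (nat_lit 0) (nat_lit 5248099112) (nat_lit 1748) (nat_lit 267960713) (nat_lit 496) (nat_lit 5) (nat_lit 496) (nat_lit 3) (nat_lit 519) (nat_lit 3) (nat_lit 604) (nat_lit 604) (nat_lit 352)) (XT.lf (nat_lit 0) (nat_lit 21344880462) (nat_lit 1748) (nat_lit 353677514) (nat_lit 1824) (nat_lit 42183018) (nat_lit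 496) (nat_lit 5) (nat_lit 519) (nat_lit 3) (nat_lit 520) (nat_lit 5) (nat_lit 605) (nat_lit 604) (nat_lit 351))))) (XT.nd (nat_lit 312) (nat_lit 0) (nat_lit 152) (XT.nd (nat_lit 156) (nat_lit 0) (nat_lit 76) (XT.nd (nat_lit 78) (nat_lit 1824) (nat_lit 0) (XT.lf (nat_lit 76) (nat_lit 10605968350) (nat_lit 0) (nat_lit 11233098026) (nat_lit 1824) (nat_lit 115653386) (nat_lit 497) (nat_lit 5) (nat_lit 496) (nat_lit 5) (nat_lit 520) (nat_lit 5) (nat_lit 606) (nat_lit 604) (nat_lit 350)) (XT.lf (nat_lit 0) (nat_lit 166631208) (nat_lit 1824) (nat_lit 386439195) (nat_lit 1900) (nat_lit 21619911730) (nat_lit 472) (nat_lit 5) (nat_lit 496) (nat_lit 5) (nat_lit 497) (nat_lit 5) (nat_lit 607) (nat_lit 604) (nat_lit 349))) (XT.nd (nat_lit 78) (nat_lit 0) (nat_lit 0) (XT.lf (nat_lit 0) (nat_lit 588028945) (nat_lit 1824) (nat_lit 11526042349) (nat_lit 1900) (nat_lit 10278823067) (nat_lit 473) (nat_lit 5) (nat_lit 497) (nat_lit 5) (nat_lit 498) (nat_lit 5) (nat_lit 608) (nat_lit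 604) (nat_lit 348)) (XT.lf (nat_lit 0) (nat_lit 1020584588) (nat_lit 1824) (nat_lit 272404858) (nat_lit 1900) (nat_lit 21324161004) (nat_lit 473) (nat_lit 5) (nat_lit 497) (nat_lit 5) (nat_lit 498) (nat_lit 5) (nat_lit 609) (nat_lit 604) (nat_lit 347)))) (XT.nd (nat_lit 156) (nat_lit 0) (nat_lit 76) (XT.nd (nat_lit 78) (nat_lit 0) (nat_lit 0) (XT.lf (nat_lit 0) (nat_lit 1595796046) (nat_lit 1824) (nat_lit 11555027561) (nat_lit 1900) (nat_lit 9692388168) (nat_lit 474) (nat_lit 5) (nat_lit 498) (nat_lit 5) (nat_lit 499) (nat_lit 5) (nat_lit 610) (nat_lit 604) (nat_lit 346)) (XT.lf (nat_lit 0) (nat_lit 2189505753) (nat_lit 1824) (nat_lit 699836) (nat_lit 1900) (nat_lit 20883449065) (nat_lit 474) (nat_lit 5) (nat_lit 498) (nat_lit 5) (nat_lit 499) (nat_lit 5) (nat_lit 611) (nat_lit 604) (nat_lit 345))) (XT.nd (nat_lit 78) (nat_lit 0) (nat_lit 0) (XT.lf (nat_lit 0) (nat_lit 2928154067) (nat_lit 1824) (nat_lit 11426815891) (nat_lit 1900) (nat_lit 8951075348) (nat_lit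 475) (nat_lit 5) (nat_lit 499) (nat_lit 5) (nat_lit 500) (nat_lit 5) (nat_lit 612) (nat_lit 604) (nat_lit 344)) (XT.lf (nat_lit 76) (nat_lit 442921512) (nat_lit 0) (nat_lit 3252757934) (nat_lit 1900) (nat_lit 19847122439) (nat_lit 476) (nat_lit 5) (nat_lit 475) (nat_lit 5) (nat_lit 500) (nat_lit 5) (nat_lit 613) (nat_lit 604) (nat_lit 343))))))) (XT.nd (nat_lit 1170) (nat_lit 6992) (nat_lit 0) (XT.nd (nat_lit 546) (nat_lit 1444) (nat_lit 0) (XT.nd (nat_lit 234) (nat_lit 0) (nat_lit 76) (XT.nd (nat_lit 78) (nat_lit 0) (nat_lit 0) (XT.lf (nat_lit 0) (nat_lit 4604926234) (nat_lit 1824) (nat_lit 11132850864) (nat_lit 1900) (nat_lit 8043989274) (nat_lit 476) (nat_lit 5) (nat_lit 500) (nat_lit 5) (nat_lit 501) (nat_lit 5) (nat_lit 614) (nat_lit 604) (nat_lit 342)) (XT.nd (nat_lit 78) (nat_lit 0) (nat_lit 76) (XT.lf (nat_lit 76) (nat_lit 1063847308) (nat_lit 0) (nat_lit 4493800095) (nat_lit 1900) (nat_lit 18467357149) (nat_lit 477) (nat_lit 5) (nat_lit 476) (nat_lit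 5) (nat_lit 501) (nat_lit 5) (nat_lit 615) (nat_lit 604) (nat_lit 341)) (XT.lf (nat_lit 0) (nat_lit 6646807799) (nat_lit 1824) (nat_lit 10664145114) (nat_lit 1900) (nat_lit 6959807072) (nat_lit 477) (nat_lit 5) (nat_lit 501) (nat_lit 5) (nat_lit 502) (nat_lit 5) (nat_lit 616) (nat_lit 604) (nat_lit 340)))) (XT.nd (nat_lit 156) (nat_lit 0) (nat_lit 76) (XT.nd (nat_lit 78) (nat_lit 0) (nat_lit 76) (XT.lf (nat_lit 76) (nat_lit 1871495433) (nat_lit 0) (nat_lit 5925124157) (nat_lit 1900) (nat_lit 16724033757) (nat_lit 478) (nat_lit 5) (nat_lit 477) (nat_lit 5) (nat_lit 502) (nat_lit 5) (nat_lit 617) (nat_lit 604) (nat_lit 339)) (XT.lf (nat_lit 0) (nat_lit 9075405582) (nat_lit 1824) (nat_lit 10011264993) (nat_lit 1900) (nat_lit 5686754623) (nat_lit 478) (nat_lit 5) (nat_lit 502) (nat_lit 5) (nat_lit 503) (nat_lit 5) (nat_lit 618) (nat_lit 604) (nat_lit 338))) (XT.nd (nat_lit 78) (nat_lit 0) (nat_lit 76) (XT.lf (nat_lit 76) (nat_lit 2875755925) (nat_lit 0) (nat_lit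 7558989575) (nat_lit 1900) (nat_lit 14595407597) (nat_lit 479) (nat_lit 5) (nat_lit 478) (nat_lit 5) (nat_lit 503) (nat_lit 5) (nat_lit 619) (nat_lit 604) (nat_lit 337)) (XT.lf (nat_lit 0) (nat_lit 11913278999) (nat_lit 1824) (nat_lit 9164314464) (nat_lit 1900) (nat_lit 4212582127) (nat_lit 479) (nat_lit 5) (nat_lit 503) (nat_lit 5) (nat_lit 504) (nat_lit 5) (nat_lit 620) (nat_lit 604) (nat_lit 336))))) (XT.nd (nat_lit 312) (nat_lit 1672) (nat_lit 0) (XT.nd (nat_lit 156) (nat_lit 0) (nat_lit 76) (XT.nd (nat_lit 78) (nat_lit 0) (nat_lit 76) (XT.lf (nat_lit 76) (nat_lit 4086998423) (nat_lit 0) (nat_lit 9408153051) (nat_lit 1900) (nat_lit 12058771862) (nat_lit 480) (nat_lit 5) (nat_lit 479) (nat_lit 5) (nat_lit 504) (nat_lit 5) (nat_lit 621) (nat_lit 604) (nat_lit 335)) (XT.lf (nat_lit 0) (nat_lit 15183982644) (nat_lit 1824) (nat_lit 8112918254) (nat_lit 1900) (nat_lit 2524538882) (nat_lit 480) (nat_lit 5) (nat_lit 504) (nat_lit 5) (nat_lit 505) (nat_lit 5) (nat_lit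 622) (nat_lit 604) (nat_lit 334))) (XT.nd (nat_lit 78) (nat_lit 0) (nat_lit 76) (XT.lf (nat_lit 76) (nat_lit 5516089686) (nat_lit 0) (nat_lit 11485894543) (nat_lit 1900) (nat_lit 9090414609) (nat_lit 481) (nat_lit 5) (nat_lit 480) (nat_lit 5) (nat_lit 505) (nat_lit 5) (nat_lit 623) (nat_lit 604) (nat_lit 333)) (XT.lf (nat_lit 0) (nat_lit 18912110483) (nat_lit 1824) (nat_lit 6846204238) (nat_lit 1900) (nat_lit 609347224) (nat_lit 481) (nat_lit 5) (nat_lit 505) (nat_lit 5) (nat_lit 506) (nat_lit 5) (nat_lit 624) (nat_lit 604) (nat_lit 332)))) (XT.nd (nat_lit 156) (nat_lit 1824) (nat_lit 0) (XT.nd (nat_lit 78) (nat_lit 0) (nat_lit 0) (XT.lf (nat_lit 76) (nat_lit 7174411886) (nat_lit 0) (nat_lit 13806044140) (nat_lit 1900) (nat_lit 5665574107) (nat_lit 482) (nat_lit 5) (nat_lit 481) (nat_lit 5) (nat_lit 506) (nat_lit 5) (nat_lit 625) (nat_lit 604) (nat_lit 331)) (XT.lf (nat_lit 76) (nat_lit 21566137312) (nat_lit 0) (nat_lit 1567380899) (nat_lit 1900) (nat_lit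 3795580635) (nat_lit 482) (nat_lit 5) (nat_lit 481) (nat_lit 5) (nat_lit 506) (nat_lit 5) (nat_lit 626) (nat_lit 604) (nat_lit 330))) (XT.nd (nat_lit 78) (nat_lit 1900) (nat_lit 0) (XT.lf (nat_lit 76) (nat_lit 9073881715) (nat_lit 0) (nat_lit 16383009873) (nat_lit 1900) (nat_lit 1758392496) (nat_lit 483) (nat_lit 5) (nat_lit 482) (nat_lit 5) (nat_lit 507) (nat_lit 5) (nat_lit 627) (nat_lit 604) (nat_lit 329)) (XT.lf (nat_lit 0) (nat_lit 359436627) (nat_lit 1900) (nat_lit 3649145674) (nat_lit 1976) (nat_lit 23497687615) (nat_lit 457) (nat_lit 5) (nat_lit 482) (nat_lit 5) (nat_lit 483) (nat_lit 5) (nat_lit 628) (nat_lit 604) (nat_lit 328)))))) (XT.nd (nat_lit 546) (nat_lit 4180) (nat_lit 0) (XT.nd (nat_lit 234) (nat_lit 1824) (nat_lit 0) (XT.nd (nat_lit 78) (nat_lit 1064) (nat_lit 0) (XT.lf (nat_lit 0) (nat_lit 2623270466) (nat_lit 1900) (nat_lit 16590932505) (nat_lit 76) (nat_lit 8586096317) (nat_lit 458) (nat_lit 5) (nat_lit 483) (nat_lit 5) (nat_lit 459)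 (nat_lit 5) (nat_lit 629) (nat_lit 604) (nat_lit 327)) (XT.nd (nat_lit 78) (nat_lit 1064) (nat_lit 0) (XT.lf (nat_lit 0) (nat_lit 4981145719) (nat_lit 1900) (nat_lit 1714046955) (nat_lit 76) (nat_lit 21404041417) (nat_lit 458) (nat_lit 5) (nat_lit 483) (nat_lit 5) (nat_lit 459) (nat_lit 5) (nat_lit 630) (nat_lit 604) (nat_lit 326)) (XT.lf (nat_lit 0) (nat_lit 7512361482) (nat_lit 1140) (nat_lit 14805311932) (nat_lit 76) (nat_lit 6083950653) (nat_lit 444) (nat_lit 5) (nat_lit 459) (nat_lit 5) (nat_lit 445) (nat_lit 5) (nat_lit 631) (nat_lit 604) (nat_lit 325)))) (XT.nd (nat_lit 156) (nat_lit 912) (nat_lit 0) (XT.nd (nat_lit 78) (nat_lit 0) (nat_lit 0) (XT.lf (nat_lit 0) (nat_lit 486114893) (nat_lit 912) (nat_lit 9664810905) (nat_lit 988) (nat_lit 18558001693) (nat_lit 432) (nat_lit 5) (nat_lit 444) (nat_lit 5) (nat_lit 445) (nat_lit 5) (nat_lit 632) (nat_lit 604) (nat_lit 324)) (XT.lf (nat_lit 0) (nat_lit 12960998604) (nat_lit 988) (nat_lit 12760191353) (nat_lit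 76) (nat_lit 3298812413) (nat_lit 432) (nat_lit 5) (nat_lit 445) (nat_lit 5) (nat_lit 433) (nat_lit 5) (nat_lit 633) (nat_lit 604) (nat_lit 323))) (XT.nd (nat_lit 78) (nat_lit 0) (nat_lit 0) (XT.lf (nat_lit 0) (nat_lit 2984704065) (nat_lit 912) (nat_lit 12923682635) (nat_lit 988) (nat_lit 13427289898) (nat_lit 420) (nat_lit 5) (nat_lit 432) (nat_lit 5) (nat_lit 433) (nat_lit 5) (nat_lit 634) (nat_lit 604) (nat_lit 322)) (XT.lf (nat_lit 0) (nat_lit 18999521332) (nat_lit 988) (nat_lit 10442045942) (nat_lit 76) (nat_lit 214401187) (nat_lit 420) (nat_lit 5) (nat_lit 433) (nat_lit 5) (nat_lit 421) (nat_lit 5) (nat_lit 635) (nat_lit 604) (nat_lit 321))))) (XT.nd (nat_lit 312) (nat_lit 2432) (nat_lit 0) (XT.nd (nat_lit 156) (nat_lit 912) (nat_lit 0) (XT.nd (nat_lit 78) (nat_lit 0) (nat_lit 0) (XT.lf (nat_lit 0) (nat_lit 5773079332) (nat_lit 836) (nat_lit 16500274699) (nat_lit 912) (nat_lit 7706894746) (nat_lit 409) (nat_lit 5) (nat_lit 420) (nat_lit 5) (nat_lit 421)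 (nat_lit 5) (nat_lit 636) (nat_lit 604) (nat_lit 320)) (XT.lf (nat_lit 0) (nat_lit 22451958136) (nat_lit 836) (nat_lit 3228611721) (nat_lit 912) (nat_lit 4629086833) (nat_lit 409) (nat_lit 5) (nat_lit 420) (nat_lit 5) (nat_lit 421) (nat_lit 5) (nat_lit 637) (nat_lit 604) (nat_lit 319))) (XT.nd (nat_lit 78) (nat_lit 76) (nat_lit 0) (XT.lf (nat_lit 0) (nat_lit 8866015997) (nat_lit 836) (nat_lit 20412285338) (nat_lit 912) (nat_lit 1364904120) (nat_lit 398) (nat_lit 5) (nat_lit 409) (nat_lit 5) (nat_lit 410) (nat_lit 5) (nat_lit 638) (nat_lit 604) (nat_lit 318)) (XT.lf (nat_lit 0) (nat_lit 2011148559) (nat_lit 912) (nat_lit 4988248547) (nat_lit 76) (nat_lit 23982326060) (nat_lit 397) (nat_lit 5) (nat_lit 409) (nat_lit 5) (nat_lit 398) (nat_lit 5) (nat_lit 639) (nat_lit 604) (nat_lit 317)))) (XT.nd (nat_lit 156) (nat_lit 1596) (nat_lit 0) (XT.nd (nat_lit 78) (nat_lit 0) (nat_lit 0) (XT.lf (nat_lit 0) (nat_lit 5558139132) (nat_lit 912) (nat_lit 19082743763) (nat_lit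 76) (nat_lit 6683514148) (nat_lit 386) (nat_lit 5) (nat_lit 398) (nat_lit 5) (nat_lit 387) (nat_lit 5) (nat_lit 640) (nat_lit 604) (nat_lit 316)) (XT.lf (nat_lit 0) (nat_lit 9254078885) (nat_lit 912) (nat_lit 1838155854) (nat_lit 76) (nat_lit 20580129582) (nat_lit 386) (nat_lit 5) (nat_lit 398) (nat_lit 5) (nat_lit 387) (nat_lit 5) (nat_lit 641) (nat_lit 604) (nat_lit 315))) (XT.nd (nat_lit 78) (nat_lit 760) (nat_lit 0) (XT.lf (nat_lit 0) (nat_lit 13143945157) (nat_lit 912) (nat_lit 16085083993) (nat_lit 76) (nat_lit 2795861747) (nat_lit 375) (nat_lit 5) (nat_lit 387) (nat_lit 5) (nat_lit 376) (nat_lit 5) (nat_lit 642) (nat_lit 604) (nat_lit 314)) (XT.lf (nat_lit 0) (nat_lit 1660177301) (nat_lit 760) (nat_lit 15546111418) (nat_lit 836) (nat_lit 15176285790) (nat_lit 365) (nat_lit 5) (nat_lit 375) (nat_lit 5) (nat_lit 376) (nat_lit 5) (nat_lit 643) (nat_lit 604) (nat_lit 313))))))))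
noncomputable def xc223 : XT := (XT.nd (nat_lit 2262) (nat_lit 532) (nat_lit 0) (XT.nd (nat_lit 1092) (nat_lit 5244) (nat_lit 0) (XT.nd (nat_lit 546) (nat_lit 2736) (nat_lit 0) (XT.nd (nat_lit 234) (nat_lit 1520) (nat_lit 0) (XT.nd (nat_lit 78) (nat_lit 760) (nat_lit 0) (XT.lf (nat_lit 0) (nat_lit 19976314729) (nat_lit 760) (nat_lit 1479554900) (nat_lit 836) (nat_lit 11289422460) (nat_lit 365) (nat_lit 5) (nat_lit 375) (nat_lit 5) (nat_lit 376) (nat_lit 5) (nat_lit 644) (nat_lit 604) (nat_lit 312)) (XT.nd (nat_lit 78) (nat_lit 0) (nat_lit 0) (XT.lf (nat_lit 0) (nat_lit 5530430034) (nat_lit 760) (nat_lit 20377557655) (nat_lit 836) (nat_lit 7204925521) (nat_lit 355) (nat_lit 5) (nat_lit 365) (nat_lit 5) (nat_lit 366) (nat_lit 5) (nat_lit 645) (nat_lit 604) (nat_lit 311)) (XT.lf (nat_lit 0) (nat_lit 24356933729) (nat_lit 760) (nat_lit 6185747583) (nat_lit 836) (nat_lit 2943334878) (nat_lit 355) (nat_lit 5) (nat_lit 365) (nat_lit 5) (nat_lit 366) (nat_lit 5) (nat_lit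 646) (nat_lit 604) (nat_lit 310)))) (XT.nd (nat_lit 156) (nat_lit 760) (nat_lit 0) (XT.nd (nat_lit 78) (nat_lit 0) (nat_lit 0) (XT.lf (nat_lit 0) (nat_lit 1501221509) (nat_lit 760) (nat_lit 24108555947) (nat_lit 76) (nat_lit 8254298802) (nat_lit 345) (nat_lit 5) (nat_lit 355) (nat_lit 5) (nat_lit 346) (nat_lit 5) (nat_lit 647) (nat_lit 604) (nat_lit 309)) (XT.lf (nat_lit 0) (nat_lit 6096086076) (nat_lit 760) (nat_lit 5169830318) (nat_lit 76) (nat_lit 22981375552) (nat_lit 345) (nat_lit 5) (nat_lit 355) (nat_lit 5) (nat_lit 346) (nat_lit 5) (nat_lit 648) (nat_lit 604) (nat_lit 308))) (XT.nd (nat_lit 78) (nat_lit 0) (nat_lit 0) (XT.lf (nat_lit 0) (nat_lit 10896568719) (nat_lit 836) (nat_lit 20325167071) (nat_lit 76) (nat_lit 3414161834) (nat_lit 335) (nat_lit 5) (nat_lit 346) (nat_lit 5) (nat_lit 336) (nat_lit 5) (nat_lit 649) (nat_lit 604) (nat_lit 307)) (XT.lf (nat_lit 0) (nat_lit 15900808384) (nat_lit 836) (nat_lit 857476736) (nat_lit 76) (nat_lit 18271835437)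 (nat_lit 335) (nat_lit 5) (nat_lit 346) (nat_lit 5) (nat_lit 336) (nat_lit 5) (nat_lit 650) (nat_lit 604) (nat_lit 306))))) (XT.nd (nat_lit 234) (nat_lit 1368) (nat_lit 0) (XT.nd (nat_lit 78) (nat_lit 684) (nat_lit 0) (XT.lf (nat_lit 0) (nat_lit 19250037309) (nat_lit 684) (nat_lit 1878331130) (nat_lit 760) (nat_lit 14301394886) (nat_lit 326) (nat_lit 5) (nat_lit 335) (nat_lit 5) (nat_lit 336) (nat_lit 5) (nat_lit 651) (nat_lit 604) (nat_lit 305)) (XT.nd (nat_lit 78) (nat_lit 0) (nat_lit 0) (XT.lf (nat_lit 0) (nat_lit 3896744512) (nat_lit 684) (nat_lit 22679446343) (nat_lit 760) (nat_lit 9258893958) (nat_lit 317) (nat_lit 5) (nat_lit 326) (nat_lit 5) (nat_lit 327) (nat_lit 5) (nat_lit 652) (nat_lit 604) (nat_lit 304)) (XT.lf (nat_lit 0) (nat_lit 24579455972) (nat_lit 684) (nat_lit 7672737859) (nat_lit 760) (nat_lit 3993934501) (nat_lit 317) (nat_lit 5) (nat_lit 326) (nat_lit 5) (nat_lit 327) (nat_lit 5) (nat_lit 653) (nat_lit 604) (nat_lit 303)))) (XT.nd (nat_lit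 156) (nat_lit 684) (nat_lit 0) (XT.nd (nat_lit 78) (nat_lit 0) (nat_lit 0) (XT.lf (nat_lit 0) (nat_lit 1465810179) (nat_lit 684) (nat_lit 27594974532) (nat_lit 76) (nat_lit 7602278637) (nat_lit 308) (nat_lit 5) (nat_lit 317) (nat_lit 5) (nat_lit 309) (nat_lit 5) (nat_lit 654) (nat_lit 604) (nat_lit 302)) (XT.lf (nat_lit 0) (nat_lit 7109274511) (nat_lit 684) (nat_lit 6790868262) (nat_lit 76) (nat_lit 23185106301) (nat_lit 308) (nat_lit 5) (nat_lit 317) (nat_lit 5) (nat_lit 309) (nat_lit 5) (nat_lit 655) (nat_lit 604) (nat_lit 301))) (XT.nd (nat_lit 78) (nat_lit 0) (nat_lit 0) (XT.lf (nat_lit 0) (nat_lit 12969669443) (nat_lit 760) (nat_lit 22905706454) (nat_lit 76) (nat_lit 1638421470) (nat_lit 299) (nat_lit 5) (nat_lit 309) (nat_lit 5) (nat_lit 300) (nat_lit 5) (nat_lit 656) (nat_lit 604) (nat_lit 300)) (XT.lf (nat_lit 0) (nat_lit 19083580882) (nat_lit 760) (nat_lit 1517263389) (nat_lit 76) (nat_lit 17347346259) (nat_lit 299) (nat_lit 5) (nat_lit 309) (nat_lit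 5) (nat_lit 300) (nat_lit 5) (nat_lit 657) (nat_lit 604) (nat_lit 299)))))) (XT.nd (nat_lit 546) (nat_lit 2736) (nat_lit 0) (XT.nd (nat_lit 234) (nat_lit 1292) (nat_lit 0) (XT.nd (nat_lit 78) (nat_lit 608) (nat_lit 0) (XT.lf (nat_lit 0) (nat_lit 20566740198) (nat_lit 608) (nat_lit 4884977579) (nat_lit 684) (nat_lit 12936914910) (nat_lit 291) (nat_lit 5) (nat_lit 299) (nat_lit 5) (nat_lit 300) (nat_lit 5) (nat_lit 658) (nat_lit 604) (nat_lit 298)) (XT.nd (nat_lit 78) (nat_lit 0) (nat_lit 0) (XT.lf (nat_lit 0) (nat_lit 4256748134) (nat_lit 608) (nat_lit 27799148531) (nat_lit 684) (nat_lit 6779813511) (nat_lit 283) (nat_lit 5) (nat_lit 291) (nat_lit 5) (nat_lit 292) (nat_lit 5) (nat_lit 659) (nat_lit 604) (nat_lit 297)) (XT.lf (nat_lit 0) (nat_lit 26983813058) (nat_lit 608) (nat_lit 11958526974) (nat_lit 684) (nat_lit 346385637) (nat_lit 283) (nat_lit 5) (nat_lit 291) (nat_lit 5) (nat_lit 292) (nat_lit 5) (nat_lit 660) (nat_lit 604) (nat_lit 296)))) (XT.nd (nat_lit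 156) (nat_lit 608) (nat_lit 0) (XT.nd (nat_lit 78) (nat_lit 0) (nat_lit 0) (XT.lf (nat_lit 0) (nat_lit 6228877209) (nat_lit 684) (nat_lit 29266465222) (nat_lit 76) (nat_lit 4252758249) (nat_lit 274) (nat_lit 5) (nat_lit 283) (nat_lit 5) (nat_lit 275) (nat_lit 5) (nat_lit 661) (nat_lit 604) (nat_lit 295)) (XT.lf (nat_lit 0) (nat_lit 13091810200) (nat_lit 684) (nat_lit 6408282666) (nat_lit 76) (nat_lit 20713308540) (nat_lit 274) (nat_lit 5) (nat_lit 283) (nat_lit 5) (nat_lit 275) (nat_lit 5) (nat_lit 662) (nat_lit 604) (nat_lit 294))) (XT.nd (nat_lit 78) (nat_lit 0) (nat_lit 0) (XT.lf (nat_lit 0) (nat_lit 17129816897) (nat_lit 608) (nat_lit 3071916652) (nat_lit 684) (nat_lit 20484080031) (nat_lit 266) (nat_lit 5) (nat_lit 274) (nat_lit 5) (nat_lit 275) (nat_lit 5) (nat_lit 663) (nat_lit 604) (nat_lit 293)) (XT.lf (nat_lit 0) (nat_lit 27584521699) (nat_lit 684) (nat_lit 32326686) (nat_lit 76) (nat_lit 13548212350) (nat_lit 266) (nat_lit 5) (nat_lit 275) (nat_lit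 5) (nat_lit 267) (nat_lit 5) (nat_lit 664) (nat_lit 604) (nat_lit 292))))) (XT.nd (nat_lit 312) (nat_lit 1064) (nat_lit 0) (XT.nd (nat_lit 156) (nat_lit 532) (nat_lit 0) (XT.nd (nat_lit 78) (nat_lit 608) (nat_lit 0) (XT.lf (nat_lit 0) (nat_lit 24257733683) (nat_lit 532) (nat_lit 11033629561) (nat_lit 608) (nat_lit 6359001702) (nat_lit 259) (nat_lit 5) (nat_lit 266) (nat_lit 5) (nat_lit 267) (nat_lit 5) (nat_lit 665) (nat_lit 604) (nat_lit 291)) (XT.lf (nat_lit 0) (nat_lit 1076332609) (nat_lit 608) (nat_lit 35211222800) (nat_lit 76) (nat_lit 5856037680) (nat_lit 251) (nat_lit 5) (nat_lit 259) (nat_lit 5) (nat_lit 252) (nat_lit 5) (nat_lit 666) (nat_lit 604) (nat_lit 290))) (XT.nd (nat_lit 78) (nat_lit 532) (nat_lit 0) (XT.lf (nat_lit 0) (nat_lit 8764439378) (nat_lit 608) (nat_lit 10782577462) (nat_lit 76) (nat_lit 23095044100) (nat_lit 251) (nat_lit 5) (nat_lit 259) (nat_lit 5) (nat_lit 252) (nat_lit 5) (nat_lit 667) (nat_lit 604) (nat_lit 289)) (XT.lf (nat_lit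 0) (nat_lit 14320591660) (nat_lit 532) (nat_lit 2377299487) (nat_lit 608) (nat_lit 26450775402) (nat_lit 244) (nat_lit 5) (nat_lit 251) (nat_lit 5) (nat_lit 252) (nat_lit 5) (nat_lit 668) (nat_lit 604) (nat_lit 288)))) (XT.nd (nat_lit 156) (nat_lit 532) (nat_lit 0) (XT.nd (nat_lit 78) (nat_lit 532) (nat_lit 0) (XT.lf (nat_lit 0) (nat_lit 24959735985) (nat_lit 608) (nat_lit 3692601787) (nat_lit 76) (nat_lit 15009672076) (nat_lit 244) (nat_lit 5) (nat_lit 252) (nat_lit 5) (nat_lit 245) (nat_lit 5) (nat_lit 669) (nat_lit 604) (nat_lit 287)) (XT.lf (nat_lit 0) (nat_lit 22219406848) (nat_lit 532) (nat_lit 11326061179) (nat_lit 608) (nat_lit 10636979037) (nat_lit 237) (nat_lit 5) (nat_lit 244) (nat_lit 5) (nat_lit 245) (nat_lit 5) (nat_lit 670) (nat_lit 604) (nat_lit 286))) (XT.nd (nat_lit 78) (nat_lit 76) (nat_lit 0) (XT.lf (nat_lit 0) (nat_lit 3996097239) (nat_lit 456) (nat_lit 38397568469) (nat_lit 532) (nat_lit 2317812352) (nat_lit 231) (nat_lit 5) (nat_lit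 237) (nat_lit 5) (nat_lit 238) (nat_lit 5) (nat_lit 671) (nat_lit 604) (nat_lit 285)) (XT.lf (nat_lit 0) (nat_lit 6308873895) (nat_lit 532) (nat_lit 14593896902) (nat_lit 76) (nat_lit 24343077487) (nat_lit 230) (nat_lit 5) (nat_lit 237) (nat_lit 5) (nat_lit 231) (nat_lit 5) (nat_lit 672) (nat_lit 604) (nat_lit 284))))))) (XT.nd (nat_lit 76986) (nat_lit 0) (nat_lit 15884) (XT.nd (nat_lit 76362) (nat_lit 0) (nat_lit 19076) (XT.nd (nat_lit 76050) (nat_lit 0) (nat_lit 18924) (XT.nd (nat_lit 75894) (nat_lit 0) (nat_lit 20748) (XT.lf (nat_lit 0) (nat_lit 12192754556) (nat_lit 532) (nat_lit 2962183109) (nat_lit 608) (nat_lit 30634104300) (nat_lit 223) (nat_lit 5) (nat_lit 230) (nat_lit 5) (nat_lit 231) (nat_lit 5) (nat_lit 673) (nat_lit 604) (nat_lit 283)) (XT.nd (nat_lit 78) (nat_lit 0) (nat_lit 0) (XT.lf (nat_lit 0) (nat_lit 5423740462) (nat_lit 0) (nat_lit 5423740462) (nat_lit 1748) (nat_lit 129125215) (nat_lit 496) (nat_lit 5) (nat_lit 496) (nat_lit 3) (nat_lit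 519) (nat_lit 3) (nat_lit 605) (nat_lit 605) (nat_lit 350)) (XT.lf (nat_lit 0) (nat_lit 21953680477) (nat_lit 0) (nat_lit 94988514) (nat_lit 1748) (nat_lit 121331744) (nat_lit 496) (nat_lit 5) (nat_lit 496) (nat_lit 3) (nat_lit 519) (nat_lit 3) (nat_lit 606) (nat_lit 605) (nat_lit 349)))) (XT.nd (nat_lit 156) (nat_lit 0) (nat_lit 76) (XT.nd (nat_lit 78) (nat_lit 0) (nat_lit 0) (XT.lf (nat_lit 0) (nat_lit 157189948) (nat_lit 1824) (nat_lit 11427214536) (nat_lit 1900) (nat_lit 10803936216) (nat_lit 472) (nat_lit 5) (nat_lit 496) (nat_lit 5) (nat_lit 497) (nat_lit 5) (nat_lit 607) (nat_lit 605) (nat_lit 348)) (XT.lf (nat_lit 0) (nat_lit 438208196) (nat_lit 1824) (nat_lit 249318972) (nat_lit 1900) (nat_lit 21923533456) (nat_lit 472) (nat_lit 5) (nat_lit 496) (nat_lit 5) (nat_lit 497) (nat_lit 5) (nat_lit 608) (nat_lit 605) (nat_lit 347))) (XT.nd (nat_lit 78) (nat_lit 0) (nat_lit 0) (XT.lf (nat_lit 0) (nat_lit 862929195) (nat_lit 1824) (nat_lit 11606593549) (nat_lit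 1900) (nat_lit 10365950765) (nat_lit 473) (nat_lit 5) (nat_lit 497) (nat_lit 5) (nat_lit 498) (nat_lit 5) (nat_lit 609) (nat_lit 605) (nat_lit 346)) (XT.lf (nat_lit 0) (nat_lit 1298976349) (nat_lit 1824) (nat_lit 130823889) (nat_lit 1900) (nat_lit 21634517985) (nat_lit 473) (nat_lit 5) (nat_lit 497) (nat_lit 5) (nat_lit 498) (nat_lit 5) (nat_lit 610) (nat_lit 605) (nat_lit 345))))) (XT.nd (nat_lit 312) (nat_lit 0) (nat_lit 152) (XT.nd (nat_lit 156) (nat_lit 0) (nat_lit 76) (XT.nd (nat_lit 78) (nat_lit 0) (nat_lit 0) (XT.lf (nat_lit 0) (nat_lit 1880881972) (nat_lit 1824) (nat_lit 11634273655) (nat_lit 1900) (nat_lit 9779841657) (nat_lit 474) (nat_lit 5) (nat_lit 498) (nat_lit 5) (nat_lit 499) (nat_lit 5) (nat_lit 611) (nat_lit 605) (nat_lit 344)) (XT.lf (nat_lit 76) (nat_lit 150132095) (nat_lit 0) (nat_lit 2332344417) (nat_lit 1900) (nat_lit 21047652597) (nat_lit 475) (nat_lit 5) (nat_lit 474) (nat_lit 5) (nat_lit 499) (nat_lit 5) (nat_lit 612) (nat_lit 605)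 (nat_lit 343))) (XT.nd (nat_lit 78) (nat_lit 0) (nat_lit 0) (XT.lf (nat_lit 0) (nat_lit 3230390596) (nat_lit 1824) (nat_lit 11501928119) (nat_lit 1900) (nat_lit 9034959295) (nat_lit 475) (nat_lit 5) (nat_lit 499) (nat_lit 5) (nat_lit 500) (nat_lit 5) (nat_lit 613) (nat_lit 605) (nat_lit 342)) (XT.lf (nat_lit 76) (nat_lit 604194663) (nat_lit 0) (nat_lit 3405283487) (nat_lit 1900) (nat_lit 19999367627) (nat_lit 476) (nat_lit 5) (nat_lit 475) (nat_lit 5) (nat_lit 500) (nat_lit 5) (nat_lit 614) (nat_lit 605) (nat_lit 341)))) (XT.nd (nat_lit 156) (nat_lit 0) (nat_lit 76) (XT.nd (nat_lit 78) (nat_lit 0) (nat_lit 0) (XT.lf (nat_lit 0) (nat_lit 4931649464) (nat_lit 1824) (nat_lit 11200807115) (nat_lit 1900) (nat_lit 8120238467) (nat_lit 476) (nat_lit 5) (nat_lit 500) (nat_lit 5) (nat_lit 501) (nat_lit 5) (nat_lit 615) (nat_lit 605) (nat_lit 340)) (XT.lf (nat_lit 76) (nat_lit 1238807252) (nat_lit 0) (nat_lit 4661015131) (nat_lit 1900) (nat_lit 18601047937) (nat_lit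 477) (nat_lit 5) (nat_lit 476) (nat_lit 5) (nat_lit 501) (nat_lit 5) (nat_lit 616) (nat_lit 605) (nat_lit 339))) (XT.nd (nat_lit 78) (nat_lit 0) (nat_lit 0) (XT.lf (nat_lit 0) (nat_lit 7005743854) (nat_lit 1824) (nat_lit 10721722666) (nat_lit 1900) (nat_lit 7024175058) (nat_lit 477) (nat_lit 5) (nat_lit 501) (nat_lit 5) (nat_lit 502) (nat_lit 5) (nat_lit 617) (nat_lit 605) (nat_lit 338)) (XT.lf (nat_lit 76) (nat_lit 2063606315) (nat_lit 0) (nat_lit 6111518486) (nat_lit 1900) (nat_lit 16831476814) (nat_lit 478) (nat_lit 5) (nat_lit 477) (nat_lit 5) (nat_lit 502) (nat_lit 5) (nat_lit 618) (nat_lit 605) (nat_lit 337)))))) (XT.nd (nat_lit 546) (nat_lit 3496) (nat_lit 0) (XT.nd (nat_lit 234) (nat_lit 0) (nat_lit 76) (XT.nd (nat_lit 78) (nat_lit 0) (nat_lit 0) (XT.lf (nat_lit 0) (nat_lit 9474690184) (nat_lit 1824) (nat_lit 10055032870) (nat_lit 1900) (nat_lit 5734802036) (nat_lit 478) (nat_lit 5) (nat_lit 502) (nat_lit 5) (nat_lit 503) (nat_lit 5) (nat_lit 619)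 (nat_lit 605) (nat_lit 336)) (XT.nd (nat_lit 78) (nat_lit 0) (nat_lit 76) (XT.lf (nat_lit 76) (nat_lit 3088699141) (nat_lit 0) (nat_lit 7769256774) (nat_lit 1900) (nat_lit 14668497108) (nat_lit 479) (nat_lit 5) (nat_lit 478) (nat_lit 5) (nat_lit 503) (nat_lit 5) (nat_lit 620) (nat_lit 605) (nat_lit 335)) (XT.lf (nat_lit 0) (nat_lit 12361477785) (nat_lit 1824) (nat_lit 9190625394) (nat_lit 1900) (nat_lit 4239664685) (nat_lit 479) (nat_lit 5) (nat_lit 503) (nat_lit 5) (nat_lit 504) (nat_lit 5) (nat_lit 621) (nat_lit 605) (nat_lit 334)))) (XT.nd (nat_lit 156) (nat_lit 0) (nat_lit 76) (XT.nd (nat_lit 78) (nat_lit 0) (nat_lit 76) (XT.lf (nat_lit 76) (nat_lit 4324681019) (nat_lit 0) (nat_lit 9647202837) (nat_lit 1900) (nat_lit 12088969033) (nat_lit 480) (nat_lit 5) (nat_lit 479) (nat_lit 5) (nat_lit 504) (nat_lit 5) (nat_lit 622) (nat_lit 605) (nat_lit 333)) (XT.lf (nat_lit 0) (nat_lit 15690112260) (nat_lit 1824) (nat_lit 8117900215) (nat_lit 1900) (nat_lit 2525795016)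 (nat_lit 480) (nat_lit 5) (nat_lit 504) (nat_lit 5) (nat_lit 505) (nat_lit 5) (nat_lit 623) (nat_lit 605) (nat_lit 332))) (XT.nd (nat_lit 78) (nat_lit 0) (nat_lit 76) (XT.lf (nat_lit 76) (nat_lit 5782653170) (nat_lit 0) (nat_lit 11758865524) (nat_lit 1900) (nat_lit 9068726377) (nat_lit 481) (nat_lit 5) (nat_lit 480) (nat_lit 5) (nat_lit 505) (nat_lit 5) (nat_lit 624) (nat_lit 605) (nat_lit 331)) (XT.lf (nat_lit 0) (nat_lit 19485660489) (nat_lit 1824) (nat_lit 6825751595) (nat_lit 1900) (nat_lit 579685327) (nat_lit 481) (nat_lit 5) (nat_lit 505) (nat_lit 5) (nat_lit 506) (nat_lit 5) (nat_lit 625) (nat_lit 605) (nat_lit 330))))) (XT.nd (nat_lit 312) (nat_lit 1900) (nat_lit 0) (XT.nd (nat_lit 156) (nat_lit 1824) (nat_lit 0) (XT.nd (nat_lit 78) (nat_lit 0) (nat_lit 0) (XT.lf (nat_lit 76) (nat_lit 7474241478) (nat_lit 0) (nat_lit 14118316973) (nat_lit 1900) (nat_lit 5582531031) (nat_lit 482) (nat_lit 5) (nat_lit 481) (nat_lit 5) (nat_lit 506) (nat_lit 5) (nat_lit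 626) (nat_lit 605) (nat_lit 329)) (XT.lf (nat_lit 76) (nat_lit 22150735896) (nat_lit 0) (nat_lit 1634171605) (nat_lit 1900) (nat_lit 3678987779) (nat_lit 482) (nat_lit 5) (nat_lit 481) (nat_lit 5) (nat_lit 506) (nat_lit 5) (nat_lit 627) (nat_lit 605) (nat_lit 328))) (XT.nd (nat_lit 78) (nat_lit 1900) (nat_lit 0) (XT.lf (nat_lit 76) (nat_lit 9411616037) (nat_lit 0) (nat_lit 16740220851) (nat_lit 1900) (nat_lit 1604025782) (nat_lit 483) (nat_lit 5) (nat_lit 482) (nat_lit 5) (nat_lit 507) (nat_lit 5) (nat_lit 628) (nat_lit 605) (nat_lit 327)) (XT.lf (nat_lit 0) (nat_lit 550006520) (nat_lit 1900) (nat_lit 3566488196) (nat_lit 1976) (nat_lit 23936222455) (nat_lit 457) (nat_lit 5) (nat_lit 482) (nat_lit 5) (nat_lit 483) (nat_lit 5) (nat_lit 629) (nat_lit 605) (nat_lit 326)))) (XT.nd (nat_lit 156) (nat_lit 1976) (nat_lit 0) (XT.nd (nat_lit 78) (nat_lit 0) (nat_lit 0) (XT.lf (nat_lit 0) (nat_lit 2856355268) (nat_lit 1900) (nat_lit 16764338681) (nat_lit 76) (nat_lit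 8731988623) (nat_lit 458) (nat_lit 5) (nat_lit 483) (nat_lit 5) (nat_lit 459) (nat_lit 5) (nat_lit 630) (nat_lit 605) (nat_lit 325)) (XT.lf (nat_lit 0) (nat_lit 5257846469) (nat_lit 1900) (nat_lit 1593021546) (nat_lit 76) (nat_lit 21806799089) (nat_lit 458) (nat_lit 5) (nat_lit 483) (nat_lit 5) (nat_lit 459) (nat_lit 5) (nat_lit 631) (nat_lit 605) (nat_lit 324))) (XT.nd (nat_lit 78) (nat_lit 912) (nat_lit 0) (XT.lf (nat_lit 0) (nat_lit 7837084201) (nat_lit 1140) (nat_lit 14943499564) (nat_lit 76) (nat_lit 6185573360) (nat_lit 444) (nat_lit 5) (nat_lit 459) (nat_lit 5) (nat_lit 445) (nat_lit 5) (nat_lit 632) (nat_lit 605) (nat_lit 323)) (XT.lf (nat_lit 0) (nat_lit 652716860) (nat_lit 912) (nat_lit 9873300423) (nat_lit 988) (nat_lit 18753637579) (nat_lit 432) (nat_lit 5) (nat_lit 444) (nat_lit 5) (nat_lit 445) (nat_lit 5) (nat_lit 633) (nat_lit 605) (nat_lit 322))))))))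
noncomputable def xc224 : XT := (XT.nd (nat_lit 2262) (nat_lit 3876) (nat_lit 0) (XT.nd (nat_lit 1092) (nat_lit 6156) (nat_lit 0) (XT.nd (nat_lit 546) (nat_lit 3192) (nat_lit 0) (XT.nd (nat_lit 234) (nat_lit 1748) (nat_lit 0) (XT.nd (nat_lit 78) (nat_lit 912) (nat_lit 0) (XT.lf (nat_lit 0) (nat_lit 13388820854) (nat_lit 988) (nat_lit 12858111363) (nat_lit 76) (nat_lit 3350088625) (nat_lit 432) (nat_lit 5) (nat_lit 445) (nat_lit 5) (nat_lit 433) (nat_lit 5) (nat_lit 634) (nat_lit 605) (nat_lit 321)) (XT.nd (nat_lit 78) (nat_lit 0) (nat_lit 0) (XT.lf (nat_lit 0) (nat_lit 3200647201) (nat_lit 912) (nat_lit 13192218056) (nat_lit 988) (nat_lit 13526189314) (nat_lit 420) (nat_lit 5) (nat_lit 432) (nat_lit 5) (nat_lit 433) (nat_lit 5) (nat_lit 635) (nat_lit 605) (nat_lit 320)) (XT.lf (nat_lit 0) (nat_lit 19542497539) (nat_lit 988) (nat_lit 10494367310) (nat_lit 76) (nat_lit 208954106) (nat_lit 420) (nat_lit 5) (nat_lit 433) (nat_lit 5) (nat_lit 421) (nat_lit 5) (nat_lit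 636) (nat_lit 605) (nat_lit 319)))) (XT.nd (nat_lit 156) (nat_lit 912) (nat_lit 0) (XT.nd (nat_lit 78) (nat_lit 0) (nat_lit 0) (XT.lf (nat_lit 0) (nat_lit 6044030735) (nat_lit 836) (nat_lit 16835589900) (nat_lit 912) (nat_lit 7697008148) (nat_lit 409) (nat_lit 5) (nat_lit 420) (nat_lit 5) (nat_lit 421) (nat_lit 5) (nat_lit 637) (nat_lit 605) (nat_lit 318)) (XT.lf (nat_lit 0) (nat_lit 23053438296) (nat_lit 836) (nat_lit 3298389551) (nat_lit 912) (nat_lit 4560860243) (nat_lit 409) (nat_lit 5) (nat_lit 420) (nat_lit 5) (nat_lit 421) (nat_lit 5) (nat_lit 638) (nat_lit 605) (nat_lit 317))) (XT.nd (nat_lit 78) (nat_lit 76) (nat_lit 0) (XT.lf (nat_lit 0) (nat_lit 9197948922) (nat_lit 836) (nat_lit 20821444634) (nat_lit 912) (nat_lit 1233556854) (nat_lit 398) (nat_lit 5) (nat_lit 409) (nat_lit 5) (nat_lit 410) (nat_lit 5) (nat_lit 639) (nat_lit 605) (nat_lit 316)) (XT.lf (nat_lit 0) (nat_lit 2204866320) (nat_lit 912) (nat_lit 4934384372) (nat_lit 76) (nat_lit 24459028745)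 (nat_lit 397) (nat_lit 5) (nat_lit 409) (nat_lit 5) (nat_lit 398) (nat_lit 5) (nat_lit 640) (nat_lit 605) (nat_lit 315))))) (XT.nd (nat_lit 234) (nat_lit 1520) (nat_lit 0) (XT.nd (nat_lit 78) (nat_lit 836) (nat_lit 0) (XT.lf (nat_lit 0) (nat_lit 5820785322) (nat_lit 912) (nat_lit 19308749975) (nat_lit 76) (nat_lit 6818311887) (nat_lit 386) (nat_lit 5) (nat_lit 398) (nat_lit 5) (nat_lit 387) (nat_lit 5) (nat_lit 641) (nat_lit 605) (nat_lit 314)) (XT.nd (nat_lit 78) (nat_lit 836) (nat_lit 0) (XT.lf (nat_lit 0) (nat_lit 9587673606) (nat_lit 912) (nat_lit 1722322242) (nat_lit 76) (nat_lit 20992837522) (nat_lit 386) (nat_lit 5) (nat_lit 398) (nat_lit 5) (nat_lit 387) (nat_lit 5) (nat_lit 642) (nat_lit 605) (nat_lit 313)) (XT.lf (nat_lit 0) (nat_lit 13553441934) (nat_lit 912) (nat_lit 16252285857) (nat_lit 76) (nat_lit 2856720750) (nat_lit 375) (nat_lit 5) (nat_lit 387) (nat_lit 5) (nat_lit 376) (nat_lit 5) (nat_lit 643) (nat_lit 605) (nat_lit 312)))) (XT.nd (nat_lit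 156) (nat_lit 760) (nat_lit 0) (XT.nd (nat_lit 78) (nat_lit 0) (nat_lit 0) (XT.lf (nat_lit 0) (nat_lit 1846864217) (nat_lit 760) (nat_lit 15848289807) (nat_lit 836) (nat_lit 15332169522) (nat_lit 365) (nat_lit 5) (nat_lit 375) (nat_lit 5) (nat_lit 376) (nat_lit 5) (nat_lit 644) (nat_lit 605) (nat_lit 311)) (XT.lf (nat_lit 0) (nat_lit 20526314916) (nat_lit 760) (nat_lit 1500573606) (nat_lit 836) (nat_lit 11370463866) (nat_lit 365) (nat_lit 5) (nat_lit 375) (nat_lit 5) (nat_lit 376) (nat_lit 5) (nat_lit 645) (nat_lit 605) (nat_lit 310))) (XT.nd (nat_lit 78) (nat_lit 0) (nat_lit 0) (XT.lf (nat_lit 0) (nat_lit 5793294098) (nat_lit 760) (nat_lit 20773015572) (nat_lit 836) (nat_lit 7206051194) (nat_lit 355) (nat_lit 5) (nat_lit 365) (nat_lit 5) (nat_lit 366) (nat_lit 5) (nat_lit 646) (nat_lit 605) (nat_lit 309)) (XT.lf (nat_lit 0) (nat_lit 24993342466) (nat_lit 760) (nat_lit 6297606421) (nat_lit 836) (nat_lit 2862032127) (nat_lit 355) (nat_lit 5) (nat_lit 365) (nat_lit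 5) (nat_lit 366) (nat_lit 5) (nat_lit 647) (nat_lit 605) (nat_lit 308)))))) (XT.nd (nat_lit 546) (nat_lit 3268) (nat_lit 0) (XT.nd (nat_lit 234) (nat_lit 1368) (nat_lit 0) (XT.nd (nat_lit 78) (nat_lit 760) (nat_lit 0) (XT.lf (nat_lit 0) (nat_lit 1667927185) (nat_lit 760) (nat_lit 24437954779) (nat_lit 76) (nat_lit 8432735253) (nat_lit 345) (nat_lit 5) (nat_lit 355) (nat_lit 5) (nat_lit 346) (nat_lit 5) (nat_lit 648) (nat_lit 605) (nat_lit 307)) (XT.nd (nat_lit 78) (nat_lit 760) (nat_lit 0) (XT.lf (nat_lit 0) (nat_lit 6352009019) (nat_lit 760) (nat_lit 5123450173) (nat_lit 76) (nat_lit 23454091763) (nat_lit 345) (nat_lit 5) (nat_lit 355) (nat_lit 5) (nat_lit 346) (nat_lit 5) (nat_lit 649) (nat_lit 605) (nat_lit 306)) (XT.lf (nat_lit 0) (nat_lit 11246946707) (nat_lit 836) (nat_lit 20580332380) (nat_lit 76) (nat_lit 3498680885) (nat_lit 335) (nat_lit 5) (nat_lit 346) (nat_lit 5) (nat_lit 336) (nat_lit 5) (nat_lit 650) (nat_lit 605) (nat_lit 305)))) (XT.nd (nat_lit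 156) (nat_lit 684) (nat_lit 0) (XT.nd (nat_lit 78) (nat_lit 684) (nat_lit 0) (XT.lf (nat_lit 0) (nat_lit 16348674173) (nat_lit 836) (nat_lit 726255651) (nat_lit 76) (nat_lit 18653189611) (nat_lit 335) (nat_lit 5) (nat_lit 346) (nat_lit 5) (nat_lit 336) (nat_lit 5) (nat_lit 651) (nat_lit 605) (nat_lit 304)) (XT.lf (nat_lit 0) (nat_lit 19782432552) (nat_lit 684) (nat_lit 1896763789) (nat_lit 760) (nat_lit 14456590628) (nat_lit 326) (nat_lit 5) (nat_lit 335) (nat_lit 5) (nat_lit 336) (nat_lit 5) (nat_lit 652) (nat_lit 605) (nat_lit 303))) (XT.nd (nat_lit 78) (nat_lit 0) (nat_lit 0) (XT.lf (nat_lit 0) (nat_lit 4123535490) (nat_lit 684) (nat_lit 23111013070) (nat_lit 760) (nat_lit 9314694985) (nat_lit 317) (nat_lit 5) (nat_lit 326) (nat_lit 5) (nat_lit 327) (nat_lit 5) (nat_lit 653) (nat_lit 605) (nat_lit 302)) (XT.lf (nat_lit 0) (nat_lit 25216982433) (nat_lit 684) (nat_lit 7804602223) (nat_lit 760) (nat_lit 3946973140) (nat_lit 317) (nat_lit 5) (nat_lit 326) (nat_lit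 5) (nat_lit 327) (nat_lit 5) (nat_lit 654) (nat_lit 605) (nat_lit 301))))) (XT.nd (nat_lit 312) (nat_lit 1900) (nat_lit 0) (XT.nd (nat_lit 156) (nat_lit 684) (nat_lit 0) (XT.nd (nat_lit 78) (nat_lit 0) (nat_lit 0) (XT.lf (nat_lit 0) (nat_lit 1618949601) (nat_lit 684) (nat_lit 27997907882) (nat_lit 76) (nat_lit 7776984743) (nat_lit 308) (nat_lit 5) (nat_lit 317) (nat_lit 5) (nat_lit 309) (nat_lit 5) (nat_lit 655) (nat_lit 605) (nat_lit 300)) (XT.lf (nat_lit 0) (nat_lit 7372855314) (nat_lit 684) (nat_lit 6780640391) (nat_lit 76) (nat_lit 23671024635) (nat_lit 308) (nat_lit 5) (nat_lit 317) (nat_lit 5) (nat_lit 309) (nat_lit 5) (nat_lit 656) (nat_lit 605) (nat_lit 299))) (XT.nd (nat_lit 78) (nat_lit 0) (nat_lit 0) (XT.lf (nat_lit 0) (nat_lit 13349182972) (nat_lit 760) (nat_lit 23216494481) (nat_lit 76) (nat_lit 1695987764) (nat_lit 299) (nat_lit 5) (nat_lit 309) (nat_lit 5) (nat_lit 300) (nat_lit 5) (nat_lit 657) (nat_lit 605) (nat_lit 298)) (XT.lf (nat_lit 0)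 (nat_lit 19583017344) (nat_lit 760) (nat_lit 1403171301) (nat_lit 76) (nat_lit 17718604816) (nat_lit 299) (nat_lit 5) (nat_lit 309) (nat_lit 5) (nat_lit 300) (nat_lit 5) (nat_lit 658) (nat_lit 605) (nat_lit 297)))) (XT.nd (nat_lit 156) (nat_lit 684) (nat_lit 0) (XT.nd (nat_lit 78) (nat_lit 608) (nat_lit 0) (XT.lf (nat_lit 0) (nat_lit 21121562111) (nat_lit 608) (nat_lit 4955577364) (nat_lit 684) (nat_lit 13076932646) (nat_lit 291) (nat_lit 5) (nat_lit 299) (nat_lit 5) (nat_lit 300) (nat_lit 5) (nat_lit 659) (nat_lit 605) (nat_lit 296)) (XT.lf (nat_lit 0) (nat_lit 4486569290) (nat_lit 608) (nat_lit 28325662444) (nat_lit 684) (nat_lit 6797882936) (nat_lit 283) (nat_lit 5) (nat_lit 291) (nat_lit 5) (nat_lit 292) (nat_lit 5) (nat_lit 660) (nat_lit 605) (nat_lit 295))) (XT.nd (nat_lit 78) (nat_lit 684) (nat_lit 0) (XT.lf (nat_lit 0) (nat_lit 27665338528) (nat_lit 608) (nat_lit 12168806281) (nat_lit 684) (nat_lit 238090953) (nat_lit 283) (nat_lit 5) (nat_lit 291)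 (nat_lit 5) (nat_lit 292) (nat_lit 5) (nat_lit 661) (nat_lit 605) (nat_lit 294)) (XT.lf (nat_lit 0) (nat_lit 6466055940) (nat_lit 684) (nat_lit 29707313893) (nat_lit 76) (nat_lit 4367435780) (nat_lit 274) (nat_lit 5) (nat_lit 283) (nat_lit 5) (nat_lit 275) (nat_lit 5) (nat_lit 662) (nat_lit 605) (nat_lit 293))))))) (XT.nd (nat_lit 76908) (nat_lit 0) (nat_lit 18924) (XT.nd (nat_lit 546) (nat_lit 1596) (nat_lit 0) (XT.nd (nat_lit 234) (nat_lit 1140) (nat_lit 0) (XT.nd (nat_lit 78) (nat_lit 1140) (nat_lit 0) (XT.lf (nat_lit 0) (nat_lit 13464039725) (nat_lit 684) (nat_lit 6394800639) (nat_lit 76) (nat_lit 21156616246) (nat_lit 274) (nat_lit 5) (nat_lit 283) (nat_lit 5) (nat_lit 275) (nat_lit 5) (nat_lit 663) (nat_lit 605) (nat_lit 292)) (XT.nd (nat_lit 78) (nat_lit 532) (nat_lit 0) (XT.lf (nat_lit 0) (nat_lit 17613129022) (nat_lit 608) (nat_lit 3101781563) (nat_lit 684) (nat_lit 20782431558) (nat_lit 266) (nat_lit 5) (nat_lit 274) (nat_lit 5) (nat_lit 275) (nat_lit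 5) (nat_lit 664) (nat_lit 605) (nat_lit 291)) (XT.lf (nat_lit 0) (nat_lit 108348275) (nat_lit 532) (nat_lit 28135770621) (nat_lit 608) (nat_lit 13742080154) (nat_lit 259) (nat_lit 5) (nat_lit 266) (nat_lit 5) (nat_lit 267) (nat_lit 5) (nat_lit 665) (nat_lit 605) (nat_lit 290)))) (XT.nd (nat_lit 156) (nat_lit 532) (nat_lit 0) (XT.nd (nat_lit 78) (nat_lit 608) (nat_lit 0) (XT.lf (nat_lit 0) (nat_lit 24881868448) (nat_lit 532) (nat_lit 11221325682) (nat_lit 608) (nat_lit 6378053371) (nat_lit 259) (nat_lit 5) (nat_lit 266) (nat_lit 5) (nat_lit 267) (nat_lit 5) (nat_lit 666) (nat_lit 605) (nat_lit 289)) (XT.lf (nat_lit 0) (nat_lit 1203603199) (nat_lit 608) (nat_lit 35774073668) (nat_lit 76) (nat_lit 6006668716) (nat_lit 251) (nat_lit 5) (nat_lit 259) (nat_lit 5) (nat_lit 252) (nat_lit 5) (nat_lit 667) (nat_lit 605) (nat_lit 288))) (XT.nd (nat_lit 78) (nat_lit 532) (nat_lit 0) (XT.lf (nat_lit 0) (nat_lit 9043398692) (nat_lit 608) (nat_lit 10859627454) (nat_lit 76)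 (nat_lit 23589798200) (nat_lit 251) (nat_lit 5) (nat_lit 259) (nat_lit 5) (nat_lit 252) (nat_lit 5) (nat_lit 668) (nat_lit 605) (nat_lit 287)) (XT.lf (nat_lit 0) (nat_lit 14744693198) (nat_lit 532) (nat_lit 2389687516) (nat_lit 608) (nat_lit 26875204215) (nat_lit 244) (nat_lit 5) (nat_lit 251) (nat_lit 5) (nat_lit 252) (nat_lit 5) (nat_lit 669) (nat_lit 605) (nat_lit 286))))) (XT.nd (nat_lit 234) (nat_lit 608) (nat_lit 0) (XT.nd (nat_lit 78) (nat_lit 988) (nat_lit 0) (XT.lf (nat_lit 0) (nat_lit 25559675815) (nat_lit 608) (nat_lit 3629673052) (nat_lit 76) (nat_lit 15343882045) (nat_lit 244) (nat_lit 5) (nat_lit 252) (nat_lit 5) (nat_lit 245) (nat_lit 5) (nat_lit 670) (nat_lit 605) (nat_lit 285)) (XT.nd (nat_lit 78) (nat_lit 456) (nat_lit 0) (XT.lf (nat_lit 0) (nat_lit 22799675883) (nat_lit 532) (nat_lit 11516353450) (nat_lit 608) (nat_lit 10748069485) (nat_lit 237) (nat_lit 5) (nat_lit 244) (nat_lit 5) (nat_lit 245) (nat_lit 5) (nat_lit 671) (nat_lit 605) (nat_lit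 284)) (XT.lf (nat_lit 0) (nat_lit 4212756501) (nat_lit 456) (nat_lit 39127598906) (nat_lit 532) (nat_lit 2263371819) (nat_lit 231) (nat_lit 5) (nat_lit 237) (nat_lit 5) (nat_lit 238) (nat_lit 5) (nat_lit 672) (nat_lit 605) (nat_lit 283)))) (XT.nd (nat_lit 75972) (nat_lit 0) (nat_lit 18848) (XT.nd (nat_lit 78) (nat_lit 532) (nat_lit 0) (XT.lf (nat_lit 0) (nat_lit 6532575698) (nat_lit 532) (nat_lit 14750418691) (nat_lit 76) (nat_lit 24865816466) (nat_lit 230) (nat_lit 5) (nat_lit 237) (nat_lit 5) (nat_lit 231) (nat_lit 5) (nat_lit 673) (nat_lit 605) (nat_lit 282)) (XT.lf (nat_lit 0) (nat_lit 12571075295) (nat_lit 532) (nat_lit 2983446247) (nat_lit 608) (nat_lit 31148367727) (nat_lit 223) (nat_lit 5) (nat_lit 230) (nat_lit 5) (nat_lit 231) (nat_lit 5) (nat_lit 674) (nat_lit 605) (nat_lit 281))) (XT.nd (nat_lit 78) (nat_lit 0) (nat_lit 0) (XT.lf (nat_lit 0) (nat_lit 6797403) (nat_lit 1900) (nat_lit 5593307056) (nat_lit 1900) (nat_lit 5593307056) (nat_lit 471)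 (nat_lit 3) (nat_lit 496) (nat_lit 3) (nat_lit 496) (nat_lit 5) (nat_lit 606) (nat_lit 606) (nat_lit 348)) (XT.lf (nat_lit 0) (nat_lit 146056405) (nat_lit 1900) (nat_lit 83057258) (nat_lit 1900) (nat_lit 22378923059) (nat_lit 471) (nat_lit 3) (nat_lit 496) (nat_lit 3) (nat_lit 496) (nat_lit 5) (nat_lit 607) (nat_lit 606) (nat_lit 347)))))) (XT.nd (nat_lit 546) (nat_lit 0) (nat_lit 228) (XT.nd (nat_lit 234) (nat_lit 0) (nat_lit 76) (XT.nd (nat_lit 78) (nat_lit 0) (nat_lit 0) (XT.lf (nat_lit 0) (nat_lit 423318418) (nat_lit 1824) (nat_lit 11513749996) (nat_lit 1900) (nat_lit 10893763461) (nat_lit 472) (nat_lit 5) (nat_lit 496) (nat_lit 5) (nat_lit 497) (nat_lit 5) (nat_lit 608) (nat_lit 606) (nat_lit 346)) (XT.nd (nat_lit 78) (nat_lit 0) (nat_lit 76) (XT.lf (nat_lit 0) (nat_lit 704800468) (nat_lit 1824) (nat_lit 115081007) (nat_lit 1900) (nat_lit 22238228165) (nat_lit 472) (nat_lit 5) (nat_lit 496) (nat_lit 5) (nat_lit 497) (nat_lit 5) (nat_lit 609) (nat_lit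 606) (nat_lit 345)) (XT.lf (nat_lit 0) (nat_lit 1133109416) (nat_lit 1824) (nat_lit 11694579278) (nat_lit 1900) (nat_lit 10459420526) (nat_lit 473) (nat_lit 5) (nat_lit 497) (nat_lit 5) (nat_lit 498) (nat_lit 5) (nat_lit 610) (nat_lit 606) (nat_lit 344)))) (XT.nd (nat_lit 156) (nat_lit 0) (nat_lit 76) (XT.nd (nat_lit 78) (nat_lit 0) (nat_lit 76) (XT.lf (nat_lit 76) (nat_lit 7984092) (nat_lit 0) (nat_lit 1564986011) (nat_lit 1900) (nat_lit 21947659174) (nat_lit 474) (nat_lit 5) (nat_lit 473) (nat_lit 5) (nat_lit 498) (nat_lit 5) (nat_lit 611) (nat_lit 606) (nat_lit 343)) (XT.lf (nat_lit 0) (nat_lit 2161838716) (nat_lit 1824) (nat_lit 11721001364) (nat_lit 1900) (nat_lit 9873175636) (nat_lit 474) (nat_lit 5) (nat_lit 498) (nat_lit 5) (nat_lit 499) (nat_lit 5) (nat_lit 612) (nat_lit 606) (nat_lit 342))) (XT.nd (nat_lit 78) (nat_lit 0) (nat_lit 76) (XT.lf (nat_lit 76) (nat_lit 298132252) (nat_lit 0) (nat_lit 2473502959) (nat_lit 1900) (nat_lit 21224291852) (nat_lit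 475) (nat_lit 5) (nat_lit 474) (nat_lit 5) (nat_lit 499) (nat_lit 5) (nat_lit 613) (nat_lit 606) (nat_lit 341)) (XT.lf (nat_lit 0) (nat_lit 3529209719) (nat_lit 1824) (nat_lit 11584500236) (nat_lit 1900) (nat_lit 9124215229) (nat_lit 475) (nat_lit 5) (nat_lit 499) (nat_lit 5) (nat_lit 500) (nat_lit 5) (nat_lit 614) (nat_lit 606) (nat_lit 340))))) (XT.nd (nat_lit 312) (nat_lit 0) (nat_lit 152) (XT.nd (nat_lit 156) (nat_lit 0) (nat_lit 76) (XT.nd (nat_lit 78) (nat_lit 0) (nat_lit 76) (XT.lf (nat_lit 76) (nat_lit 762774827) (nat_lit 0) (nat_lit 3557462969) (nat_lit 1900) (nat_lit 20164159613) (nat_lit 476) (nat_lit 5) (nat_lit 475) (nat_lit 5) (nat_lit 500) (nat_lit 5) (nat_lit 615) (nat_lit 606) (nat_lit 339)) (XT.lf (nat_lit 0) (nat_lit 5255796395) (nat_lit 1824) (nat_lit 11276129711) (nat_lit 1900) (nat_lit 8201298953) (nat_lit 476) (nat_lit 5) (nat_lit 500) (nat_lit 5) (nat_lit 501) (nat_lit 5) (nat_lit 616) (nat_lit 606) (nat_lit 338))) (XT.nd (nat_lit 78)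 (nat_lit 0) (nat_lit 76) (XT.lf (nat_lit 76) (nat_lit 1411298697) (nat_lit 0) (nat_lit 4828571300) (nat_lit 1900) (nat_lit 18746563364) (nat_lit 477) (nat_lit 5) (nat_lit 476) (nat_lit 5) (nat_lit 501) (nat_lit 5) (nat_lit 617) (nat_lit 606) (nat_lit 337)) (XT.lf (nat_lit 0) (nat_lit 7363082777) (nat_lit 1824) (nat_lit 10786497998) (nat_lit 1900) (nat_lit 7092736071) (nat_lit 477) (nat_lit 5) (nat_lit 501) (nat_lit 5) (nat_lit 502) (nat_lit 5) (nat_lit 618) (nat_lit 606) (nat_lit 336)))) (XT.nd (nat_lit 156) (nat_lit 0) (nat_lit 76) (XT.nd (nat_lit 78) (nat_lit 0) (nat_lit 76) (XT.lf (nat_lit 76) (nat_lit 2253552963) (nat_lit 0) (nat_lit 6299004379) (nat_lit 1900) (nat_lit 16949884879) (nat_lit 478) (nat_lit 5) (nat_lit 477) (nat_lit 5) (nat_lit 502) (nat_lit 5) (nat_lit 619) (nat_lit 606) (nat_lit 335)) (XT.lf (nat_lit 0) (nat_lit 9873503951) (nat_lit 1824) (nat_lit 10105751538) (nat_lit 1900) (nat_lit 5786361130) (nat_lit 478) (nat_lit 5) (nat_lit 502) (nat_lit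 5) (nat_lit 503) (nat_lit 5) (nat_lit 620) (nat_lit 606) (nat_lit 334))) (XT.nd (nat_lit 78) (nat_lit 0) (nat_lit 76) (XT.lf (nat_lit 76) (nat_lit 3299865759) (nat_lit 0) (nat_lit 7981434882) (nat_lit 1900) (nat_lit 14751545404) (nat_lit 479) (nat_lit 5) (nat_lit 478) (nat_lit 5) (nat_lit 503) (nat_lit 5) (nat_lit 621) (nat_lit 606) (nat_lit 333)) (XT.lf (nat_lit 0) (nat_lit 12810488585) (nat_lit 1824) (nat_lit 9223558087) (nat_lit 1900) (nat_lit 4269508839) (nat_lit 479) (nat_lit 5) (nat_lit 503) (nat_lit 5) (nat_lit 504) (nat_lit 5) (nat_lit 622) (nat_lit 606) (nat_lit 332))))))))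
noncomputable def xc225 : XT := (XT.nd (nat_lit 2262) (nat_lit 7980) (nat_lit 0) (XT.nd (nat_lit 1092) (nat_lit 6460) (nat_lit 0) (XT.nd (nat_lit 546) (nat_lit 4484) (nat_lit 0) (XT.nd (nat_lit 234) (nat_lit 0) (nat_lit 152) (XT.nd (nat_lit 78) (nat_lit 0) (nat_lit 76) (XT.lf (nat_lit 76) (nat_lit 4561061824) (nat_lit 0) (nat_lit 9889057625) (nat_lit 1900) (nat_lit 12127962691) (nat_lit 480) (nat_lit 5) (nat_lit 479) (nat_lit 5) (nat_lit 504) (nat_lit 5) (nat_lit 623) (nat_lit 606) (nat_lit 331)) (XT.nd (nat_lit 78) (nat_lit 0) (nat_lit 0) (XT.lf (nat_lit 0) (nat_lit 16198503089) (nat_lit 1824) (nat_lit 8129089050) (nat_lit 1900) (nat_lit 2528988113) (nat_lit 480) (nat_lit 5) (nat_lit 504) (nat_lit 5) (nat_lit 505) (nat_lit 5) (nat_lit 624) (nat_lit 606) (nat_lit 330)) (XT.lf (nat_lit 76) (nat_lit 6048480868) (nat_lit 0) (nat_lit 12035616354) (nat_lit 1900) (nat_lit 9054506398) (nat_lit 481) (nat_lit 5) (nat_lit 480) (nat_lit 5) (nat_lit 505) (nat_lit 5) (nat_lit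 625) (nat_lit 606) (nat_lit 329)))) (XT.nd (nat_lit 156) (nat_lit 0) (nat_lit 0) (XT.nd (nat_lit 78) (nat_lit 0) (nat_lit 0) (XT.lf (nat_lit 0) (nat_lit 20063097455) (nat_lit 1824) (nat_lit 6811001030) (nat_lit 1900) (nat_lit 551055234) (nat_lit 481) (nat_lit 5) (nat_lit 505) (nat_lit 5) (nat_lit 506) (nat_lit 5) (nat_lit 626) (nat_lit 606) (nat_lit 328)) (XT.lf (nat_lit 76) (nat_lit 7773996736) (nat_lit 0) (nat_lit 14435431437) (nat_lit 1900) (nat_lit 5505451781) (nat_lit 482) (nat_lit 5) (nat_lit 481) (nat_lit 5) (nat_lit 506) (nat_lit 5) (nat_lit 627) (nat_lit 606) (nat_lit 327))) (XT.nd (nat_lit 78) (nat_lit 0) (nat_lit 76) (XT.lf (nat_lit 76) (nat_lit 22741074563) (nat_lit 0) (nat_lit 1700921827) (nat_lit 1900) (nat_lit 3567538249) (nat_lit 482) (nat_lit 5) (nat_lit 481) (nat_lit 5) (nat_lit 506) (nat_lit 5) (nat_lit 628) (nat_lit 606) (nat_lit 326)) (XT.lf (nat_lit 76) (nat_lit 9750037409) (nat_lit 0) (nat_lit 17103428555) (nat_lit 1900) (nat_lit 1453931592)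 (nat_lit 483) (nat_lit 5) (nat_lit 482) (nat_lit 5) (nat_lit 507) (nat_lit 5) (nat_lit 629) (nat_lit 606) (nat_lit 325))))) (XT.nd (nat_lit 234) (nat_lit 2812) (nat_lit 0) (XT.nd (nat_lit 78) (nat_lit 0) (nat_lit 76) (XT.lf (nat_lit 0) (nat_lit 737266897) (nat_lit 1900) (nat_lit 3488221275) (nat_lit 1976) (nat_lit 24384748025) (nat_lit 457) (nat_lit 5) (nat_lit 482) (nat_lit 5) (nat_lit 483) (nat_lit 5) (nat_lit 630) (nat_lit 606) (nat_lit 324)) (XT.nd (nat_lit 78) (nat_lit 0) (nat_lit 0) (XT.lf (nat_lit 0) (nat_lit 3087088094) (nat_lit 1900) (nat_lit 16947364330) (nat_lit 76) (nat_lit 8881801771) (nat_lit 458) (nat_lit 5) (nat_lit 483) (nat_lit 5) (nat_lit 459) (nat_lit 5) (nat_lit 631) (nat_lit 606) (nat_lit 323)) (XT.lf (nat_lit 0) (nat_lit 5533205086) (nat_lit 1900) (nat_lit 1475606365) (nat_lit 76) (nat_lit 22218595242) (nat_lit 458) (nat_lit 5) (nat_lit 483) (nat_lit 5) (nat_lit 459) (nat_lit 5) (nat_lit 632) (nat_lit 606) (nat_lit 322)))) (XT.nd (nat_lit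 156) (nat_lit 912) (nat_lit 0) (XT.nd (nat_lit 78) (nat_lit 912) (nat_lit 0) (XT.lf (nat_lit 0) (nat_lit 8161526279) (nat_lit 1140) (nat_lit 15090583120) (nat_lit 76) (nat_lit 6290007332) (nat_lit 444) (nat_lit 5) (nat_lit 459) (nat_lit 5) (nat_lit 445) (nat_lit 5) (nat_lit 633) (nat_lit 606) (nat_lit 321)) (XT.lf (nat_lit 0) (nat_lit 816559037) (nat_lit 912) (nat_lit 10085369756) (nat_lit 988) (nat_lit 18960002000) (nat_lit 432) (nat_lit 5) (nat_lit 444) (nat_lit 5) (nat_lit 445) (nat_lit 5) (nat_lit 634) (nat_lit 606) (nat_lit 320))) (XT.nd (nat_lit 78) (nat_lit 912) (nat_lit 0) (XT.lf (nat_lit 0) (nat_lit 13818652517) (nat_lit 988) (nat_lit 12964097296) (nat_lit 76) (nat_lit 3402961182) (nat_lit 432) (nat_lit 5) (nat_lit 445) (nat_lit 5) (nat_lit 433) (nat_lit 5) (nat_lit 635) (nat_lit 606) (nat_lit 319)) (XT.lf (nat_lit 0) (nat_lit 3414841858) (nat_lit 912) (nat_lit 13465733475) (nat_lit 988) (nat_lit 13633654294) (nat_lit 420) (nat_lit 5) (nat_lit 432)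 (nat_lit 5) (nat_lit 433) (nat_lit 5) (nat_lit 636) (nat_lit 606) (nat_lit 318)))))) (XT.nd (nat_lit 546) (nat_lit 3876) (nat_lit 0) (XT.nd (nat_lit 234) (nat_lit 1748) (nat_lit 0) (XT.nd (nat_lit 78) (nat_lit 836) (nat_lit 0) (XT.lf (nat_lit 0) (nat_lit 20090004333) (nat_lit 988) (nat_lit 10553812951) (nat_lit 76) (nat_lit 203776110) (nat_lit 420) (nat_lit 5) (nat_lit 433) (nat_lit 5) (nat_lit 421) (nat_lit 5) (nat_lit 637) (nat_lit 606) (nat_lit 317)) (XT.nd (nat_lit 78) (nat_lit 0) (nat_lit 0) (XT.lf (nat_lit 0) (nat_lit 6314363307) (nat_lit 836) (nat_lit 17177405223) (nat_lit 912) (nat_lit 7693293088) (nat_lit 409) (nat_lit 5) (nat_lit 420) (nat_lit 5) (nat_lit 421) (nat_lit 5) (nat_lit 638) (nat_lit 606) (nat_lit 316)) (XT.lf (nat_lit 0) (nat_lit 23661028588) (nat_lit 836) (nat_lit 3369360797) (nat_lit 912) (nat_lit 4497513504) (nat_lit 409) (nat_lit 5) (nat_lit 420) (nat_lit 5) (nat_lit 421) (nat_lit 5) (nat_lit 639) (nat_lit 606) (nat_lit 315)))) (XT.nd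 (nat_lit 156) (nat_lit 836) (nat_lit 0) (XT.nd (nat_lit 78) (nat_lit 76) (nat_lit 0) (XT.lf (nat_lit 0) (nat_lit 9530516710) (nat_lit 836) (nat_lit 21238751639) (nat_lit 912) (nat_lit 1105743034) (nat_lit 398) (nat_lit 5) (nat_lit 409) (nat_lit 5) (nat_lit 410) (nat_lit 5) (nat_lit 640) (nat_lit 606) (nat_lit 314)) (XT.lf (nat_lit 0) (nat_lit 2396498048) (nat_lit 912) (nat_lit 4885408520) (nat_lit 76) (nat_lit 24945379796) (nat_lit 397) (nat_lit 5) (nat_lit 409) (nat_lit 5) (nat_lit 398) (nat_lit 5) (nat_lit 641) (nat_lit 606) (nat_lit 313))) (XT.nd (nat_lit 78) (nat_lit 0) (nat_lit 0) (XT.lf (nat_lit 0) (nat_lit 6082802149) (nat_lit 912) (nat_lit 19545320338) (nat_lit 76) (nat_lit 6955761800) (nat_lit 386) (nat_lit 5) (nat_lit 398) (nat_lit 5) (nat_lit 387) (nat_lit 5) (nat_lit 642) (nat_lit 606) (nat_lit 312)) (XT.lf (nat_lit 0) (nat_lit 9922173276) (nat_lit 912) (nat_lit 1610097475) (nat_lit 76) (nat_lit 21413756699) (nat_lit 386) (nat_lit 5) (nat_lit 398)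 (nat_lit 5) (nat_lit 387) (nat_lit 5) (nat_lit 643) (nat_lit 606) (nat_lit 311))))) (XT.nd (nat_lit 312) (nat_lit 1520) (nat_lit 0) (XT.nd (nat_lit 156) (nat_lit 760) (nat_lit 0) (XT.nd (nat_lit 78) (nat_lit 760) (nat_lit 0) (XT.lf (nat_lit 0) (nat_lit 13965435295) (nat_lit 912) (nat_lit 16428831174) (nat_lit 76) (nat_lit 2918605037) (nat_lit 375) (nat_lit 5) (nat_lit 387) (nat_lit 5) (nat_lit 376) (nat_lit 5) (nat_lit 644) (nat_lit 606) (nat_lit 310)) (XT.lf (nat_lit 0) (nat_lit 2031324925) (nat_lit 760) (nat_lit 16156851296) (nat_lit 836) (nat_lit 15496904047) (nat_lit 365) (nat_lit 5) (nat_lit 375) (nat_lit 5) (nat_lit 376) (nat_lit 5) (nat_lit 645) (nat_lit 606) (nat_lit 309))) (XT.nd (nat_lit 78) (nat_lit 760) (nat_lit 0) (XT.lf (nat_lit 0) (nat_lit 21081472021) (nat_lit 760) (nat_lit 1522345562) (nat_lit 836) (nat_lit 11458746804) (nat_lit 365) (nat_lit 5) (nat_lit 375) (nat_lit 5) (nat_lit 376) (nat_lit 5) (nat_lit 646) (nat_lit 606) (nat_lit 308))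 (XT.lf (nat_lit 0) (nat_lit 6055503179) (nat_lit 760) (nat_lit 21176852242) (nat_lit 836) (nat_lit 7212751190) (nat_lit 355) (nat_lit 5) (nat_lit 365) (nat_lit 5) (nat_lit 366) (nat_lit 5) (nat_lit 647) (nat_lit 606) (nat_lit 307)))) (XT.nd (nat_lit 156) (nat_lit 760) (nat_lit 0) (XT.nd (nat_lit 78) (nat_lit 760) (nat_lit 0) (XT.lf (nat_lit 0) (nat_lit 25636683039) (nat_lit 760) (nat_lit 6412162822) (nat_lit 836) (nat_lit 2784546271) (nat_lit 355) (nat_lit 5) (nat_lit 365) (nat_lit 5) (nat_lit 366) (nat_lit 5) (nat_lit 648) (nat_lit 606) (nat_lit 306)) (XT.lf (nat_lit 0) (nat_lit 1832659475) (nat_lit 760) (nat_lit 24779873922) (nat_lit 76) (nat_lit 8614222017) (nat_lit 345) (nat_lit 5) (nat_lit 355) (nat_lit 5) (nat_lit 346) (nat_lit 5) (nat_lit 649) (nat_lit 606) (nat_lit 305))) (XT.nd (nat_lit 78) (nat_lit 760) (nat_lit 0) (XT.lf (nat_lit 0) (nat_lit 6607846990) (nat_lit 760) (nat_lit 5081958438) (nat_lit 76) (nat_lit 23935754049) (nat_lit 345) (nat_lit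 5) (nat_lit 355) (nat_lit 5) (nat_lit 346) (nat_lit 5) (nat_lit 650) (nat_lit 606) (nat_lit 304)) (XT.lf (nat_lit 0) (nat_lit 11599189191) (nat_lit 836) (nat_lit 20846477637) (nat_lit 76) (nat_lit 3584259860) (nat_lit 335) (nat_lit 5) (nat_lit 346) (nat_lit 5) (nat_lit 336) (nat_lit 5) (nat_lit 651) (nat_lit 606) (nat_lit 303))))))) (XT.nd (nat_lit 1170) (nat_lit 2204) (nat_lit 0) (XT.nd (nat_lit 546) (nat_lit 3040) (nat_lit 0) (XT.nd (nat_lit 234) (nat_lit 1368) (nat_lit 0) (XT.nd (nat_lit 78) (nat_lit 1368) (nat_lit 0) (XT.lf (nat_lit 0) (nat_lit 16800455058) (nat_lit 836) (nat_lit 598171557) (nat_lit 76) (nat_lit 19041552773) (nat_lit 335) (nat_lit 5) (nat_lit 346) (nat_lit 5) (nat_lit 336) (nat_lit 5) (nat_lit 652) (nat_lit 606) (nat_lit 302)) (XT.nd (nat_lit 78) (nat_lit 684) (nat_lit 0) (XT.lf (nat_lit 0) (nat_lit 20319752192) (nat_lit 684) (nat_lit 1916308096) (nat_lit 760) (nat_lit 14619970656) (nat_lit 326) (nat_lit 5) (nat_lit 335) (nat_lit 5) (nat_lit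 336) (nat_lit 5) (nat_lit 653) (nat_lit 606) (nat_lit 301)) (XT.lf (nat_lit 0) (nat_lit 4349082024) (nat_lit 684) (nat_lit 23552066279) (nat_lit 760) (nat_lit 9376635893) (nat_lit 317) (nat_lit 5) (nat_lit 326) (nat_lit 5) (nat_lit 327) (nat_lit 5) (nat_lit 654) (nat_lit 606) (nat_lit 300)))) (XT.nd (nat_lit 156) (nat_lit 684) (nat_lit 0) (XT.nd (nat_lit 78) (nat_lit 684) (nat_lit 0) (XT.lf (nat_lit 0) (nat_lit 25861592498) (nat_lit 684) (nat_lit 7939942256) (nat_lit 760) (nat_lit 3903997905) (nat_lit 317) (nat_lit 5) (nat_lit 326) (nat_lit 5) (nat_lit 327) (nat_lit 5) (nat_lit 655) (nat_lit 606) (nat_lit 299)) (XT.lf (nat_lit 0) (nat_lit 1770343606) (nat_lit 684) (nat_lit 28414684436) (nat_lit 76) (nat_lit 7954305034) (nat_lit 308) (nat_lit 5) (nat_lit 317) (nat_lit 5) (nat_lit 309) (nat_lit 5) (nat_lit 656) (nat_lit 606) (nat_lit 298))) (XT.nd (nat_lit 78) (nat_lit 684) (nat_lit 0) (XT.lf (nat_lit 0) (nat_lit 7636993805) (nat_lit 684) (nat_lit 6775879078)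 (nat_lit 76) (nat_lit 24165798654) (nat_lit 308) (nat_lit 5) (nat_lit 317) (nat_lit 5) (nat_lit 309) (nat_lit 5) (nat_lit 657) (nat_lit 606) (nat_lit 297)) (XT.lf (nat_lit 0) (nat_lit 13731622361) (nat_lit 760) (nat_lit 23539219120) (nat_lit 76) (nat_lit 1753742453) (nat_lit 299) (nat_lit 5) (nat_lit 309) (nat_lit 5) (nat_lit 300) (nat_lit 5) (nat_lit 658) (nat_lit 606) (nat_lit 296))))) (XT.nd (nat_lit 312) (nat_lit 1824) (nat_lit 0) (XT.nd (nat_lit 156) (nat_lit 608) (nat_lit 0) (XT.nd (nat_lit 78) (nat_lit 608) (nat_lit 0) (XT.lf (nat_lit 0) (nat_lit 20087869582) (nat_lit 760) (nat_lit 1292406051) (nat_lit 76) (nat_lit 18096344494) (nat_lit 299) (nat_lit 5) (nat_lit 309) (nat_lit 5) (nat_lit 300) (nat_lit 5) (nat_lit 659) (nat_lit 606) (nat_lit 295)) (XT.lf (nat_lit 0) (nat_lit 21681908684) (nat_lit 608) (nat_lit 5028641461) (nat_lit 684) (nat_lit 13224360800) (nat_lit 291) (nat_lit 5) (nat_lit 299) (nat_lit 5) (nat_lit 300) (nat_lit 5) (nat_lit 660) (nat_lit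 606) (nat_lit 294))) (XT.nd (nat_lit 78) (nat_lit 0) (nat_lit 0) (XT.lf (nat_lit 0) (nat_lit 4715368528) (nat_lit 608) (nat_lit 28863850955) (nat_lit 684) (nat_lit 6820877461) (nat_lit 283) (nat_lit 5) (nat_lit 291) (nat_lit 5) (nat_lit 292) (nat_lit 5) (nat_lit 661) (nat_lit 606) (nat_lit 293)) (XT.lf (nat_lit 0) (nat_lit 28354986330) (nat_lit 608) (nat_lit 12384413056) (nat_lit 684) (nat_lit 132104601) (nat_lit 283) (nat_lit 5) (nat_lit 291) (nat_lit 5) (nat_lit 292) (nat_lit 5) (nat_lit 662) (nat_lit 606) (nat_lit 292)))) (XT.nd (nat_lit 156) (nat_lit 1140) (nat_lit 0) (XT.nd (nat_lit 78) (nat_lit 0) (nat_lit 0) (XT.lf (nat_lit 0) (nat_lit 6703605804) (nat_lit 684) (nat_lit 30162589896) (nat_lit 76) (nat_lit 4483256590) (nat_lit 274) (nat_lit 5) (nat_lit 283) (nat_lit 5) (nat_lit 275) (nat_lit 5) (nat_lit 663) (nat_lit 606) (nat_lit 291)) (XT.lf (nat_lit 0) (nat_lit 13839427132) (nat_lit 684) (nat_lit 6386549324) (nat_lit 76) (nat_lit 21607662389) (nat_lit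 274) (nat_lit 5) (nat_lit 283) (nat_lit 5) (nat_lit 275) (nat_lit 5) (nat_lit 664) (nat_lit 606) (nat_lit 290))) (XT.nd (nat_lit 78) (nat_lit 532) (nat_lit 0) (XT.lf (nat_lit 0) (nat_lit 18100643225) (nat_lit 608) (nat_lit 3133469807) (nat_lit 684) (nat_lit 21091073199) (nat_lit 266) (nat_lit 5) (nat_lit 274) (nat_lit 5) (nat_lit 275) (nat_lit 5) (nat_lit 665) (nat_lit 606) (nat_lit 289)) (XT.lf (nat_lit 0) (nat_lit 246770232) (nat_lit 532) (nat_lit 28666156160) (nat_lit 608) (nat_lit 13910913556) (nat_lit 259) (nat_lit 5) (nat_lit 266) (nat_lit 5) (nat_lit 267) (nat_lit 5) (nat_lit 666) (nat_lit 606) (nat_lit 288)))))) (XT.nd (nat_lit 546) (nat_lit 76) (nat_lit 0) (XT.nd (nat_lit 234) (nat_lit 1520) (nat_lit 0) (XT.nd (nat_lit 78) (nat_lit 608) (nat_lit 0) (XT.lf (nat_lit 0) (nat_lit 25513089142) (nat_lit 532) (nat_lit 11414056242) (nat_lit 608) (nat_lit 6401684830) (nat_lit 259) (nat_lit 5) (nat_lit 266) (nat_lit 5) (nat_lit 267) (nat_lit 5) (nat_lit 667)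 (nat_lit 606) (nat_lit 287)) (XT.nd (nat_lit 78) (nat_lit 0) (nat_lit 0) (XT.lf (nat_lit 0) (nat_lit 1329313034) (nat_lit 608) (nat_lit 36353671261) (nat_lit 76) (nat_lit 6159011128) (nat_lit 251) (nat_lit 5) (nat_lit 259) (nat_lit 5) (nat_lit 252) (nat_lit 5) (nat_lit 668) (nat_lit 606) (nat_lit 286)) (XT.lf (nat_lit 0) (nat_lit 9323911540) (nat_lit 608) (nat_lit 10943600513) (nat_lit 76) (nat_lit 24093171652) (nat_lit 251) (nat_lit 5) (nat_lit 259) (nat_lit 5) (nat_lit 252) (nat_lit 5) (nat_lit 669) (nat_lit 606) (nat_lit 285)))) (XT.nd (nat_lit 156) (nat_lit 988) (nat_lit 0) (XT.nd (nat_lit 78) (nat_lit 0) (nat_lit 0) (XT.lf (nat_lit 0) (nat_lit 15171930108) (nat_lit 532) (nat_lit 2403688532) (nat_lit 608) (nat_lit 27312182834) (nat_lit 244) (nat_lit 5) (nat_lit 251) (nat_lit 5) (nat_lit 252) (nat_lit 5) (nat_lit 670) (nat_lit 606) (nat_lit 284)) (XT.lf (nat_lit 0) (nat_lit 26167702387) (nat_lit 608) (nat_lit 3570797105) (nat_lit 76) (nat_lit 15683455310)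 (nat_lit 244) (nat_lit 5) (nat_lit 252) (nat_lit 5) (nat_lit 245) (nat_lit 5) (nat_lit 671) (nat_lit 606) (nat_lit 283))) (XT.nd (nat_lit 78) (nat_lit 456) (nat_lit 0) (XT.lf (nat_lit 0) (nat_lit 23386273878) (nat_lit 532) (nat_lit 11711858381) (nat_lit 608) (nat_lit 10865328902) (nat_lit 237) (nat_lit 5) (nat_lit 244) (nat_lit 5) (nat_lit 245) (nat_lit 5) (nat_lit 672) (nat_lit 606) (nat_lit 282)) (XT.lf (nat_lit 0) (nat_lit 4428439272) (nat_lit 456) (nat_lit 39873702468) (nat_lit 532) (nat_lit 2211756538) (nat_lit 231) (nat_lit 5) (nat_lit 237) (nat_lit 5) (nat_lit 238) (nat_lit 5) (nat_lit 673) (nat_lit 606) (nat_lit 281))))) (XT.nd (nat_lit 76206) (nat_lit 0) (nat_lit 18392) (XT.nd (nat_lit 76050) (nat_lit 0) (nat_lit 18316) (XT.nd (nat_lit 75972) (nat_lit 0) (nat_lit 18316) (XT.lf (nat_lit 0) (nat_lit 6756964549) (nat_lit 532) (nat_lit 14915326960) (nat_lit 76) (nat_lit 25397617060) (nat_lit 230) (nat_lit 5) (nat_lit 237) (nat_lit 5) (nat_lit 231) (nat_lit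 5) (nat_lit 674) (nat_lit 606) (nat_lit 280)) (XT.lf (nat_lit 0) (nat_lit 138399856) (nat_lit 1900) (nat_lit 5638121293) (nat_lit 1900) (nat_lit 5638121293) (nat_lit 471) (nat_lit 3) (nat_lit 496) (nat_lit 3) (nat_lit 496) (nat_lit 5) (nat_lit 607) (nat_lit 607) (nat_lit 346))) (XT.nd (nat_lit 78) (nat_lit 0) (nat_lit 76) (XT.lf (nat_lit 76) (nat_lit 47377280) (nat_lit 0) (nat_lit 359685319) (nat_lit 1900) (nat_lit 22647957523) (nat_lit 472) (nat_lit 5) (nat_lit 471) (nat_lit 3) (nat_lit 496) (nat_lit 5) (nat_lit 608) (nat_lit 607) (nat_lit 345)) (XT.lf (nat_lit 0) (nat_lit 684557441) (nat_lit 1824) (nat_lit 11607530541) (nat_lit 1900) (nat_lit 10990289749) (nat_lit 472) (nat_lit 5) (nat_lit 496) (nat_lit 5) (nat_lit 497) (nat_lit 5) (nat_lit 609) (nat_lit 607) (nat_lit 344)))) (XT.nd (nat_lit 156) (nat_lit 0) (nat_lit 76) (XT.nd (nat_lit 78) (nat_lit 0) (nat_lit 76) (XT.lf (nat_lit 76) (nat_lit 16653884) (nat_lit 0) (nat_lit 950167051) (nat_lit 1900) (nat_lit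 22547477384) (nat_lit 473) (nat_lit 5) (nat_lit 472) (nat_lit 5) (nat_lit 497) (nat_lit 5) (nat_lit 610) (nat_lit 607) (nat_lit 343)) (XT.lf (nat_lit 0) (nat_lit 1398871986) (nat_lit 1824) (nat_lit 11789922091) (nat_lit 1900) (nat_lit 10559180588) (nat_lit 473) (nat_lit 5) (nat_lit 497) (nat_lit 5) (nat_lit 498) (nat_lit 5) (nat_lit 611) (nat_lit 607) (nat_lit 342))) (XT.nd (nat_lit 78) (nat_lit 0) (nat_lit 76) (XT.lf (nat_lit 76) (nat_lit 145781041) (nat_lit 0) (nat_lit 1697875804) (nat_lit 1900) (nat_lit 22142586028) (nat_lit 474) (nat_lit 5) (nat_lit 473) (nat_lit 5) (nat_lit 498) (nat_lit 5) (nat_lit 612) (nat_lit 607) (nat_lit 341)) (XT.lf (nat_lit 0) (nat_lit 2438965441) (nat_lit 1824) (nat_lit 11815131346) (nat_lit 1900) (nat_lit 9972347285) (nat_lit 474) (nat_lit 5) (nat_lit 498) (nat_lit 5) (nat_lit 499) (nat_lit 5) (nat_lit 613) (nat_lit 607) (nat_lit 340))))))))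
noncomputable def xc226 : XT := (XT.nd (nat_lit 2262) (nat_lit 11628) (nat_lit 0) (XT.nd (nat_lit 1092) (nat_lit 5852) (nat_lit 0) (XT.nd (nat_lit 546) (nat_lit 0) (nat_lit 304) (XT.nd (nat_lit 234) (nat_lit 0) (nat_lit 152) (XT.nd (nat_lit 78) (nat_lit 0) (nat_lit 76) (XT.lf (nat_lit 76) (nat_lit 443461982) (nat_lit 0) (nat_lit 2613814670) (nat_lit 1900) (nat_lit 21413950896) (nat_lit 475) (nat_lit 5) (nat_lit 474) (nat_lit 5) (nat_lit 499) (nat_lit 5) (nat_lit 614) (nat_lit 607) (nat_lit 339)) (XT.nd (nat_lit 78) (nat_lit 0) (nat_lit 0) (XT.lf (nat_lit 0) (nat_lit 3824910514) (nat_lit 1824) (nat_lit 11674450098) (nat_lit 1900) (nat_lit 9218807135) (nat_lit 475) (nat_lit 5) (nat_lit 499) (nat_lit 5) (nat_lit 500) (nat_lit 5) (nat_lit 615) (nat_lit 607) (nat_lit 338)) (XT.lf (nat_lit 76) (nat_lit 918837966) (nat_lit 0) (nat_lit 3709421352) (nat_lit 1900) (nat_lit 20341380360) (nat_lit 476) (nat_lit 5) (nat_lit 475) (nat_lit 5) (nat_lit 500) (nat_lit 5) (nat_lit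 616) (nat_lit 607) (nat_lit 337)))) (XT.nd (nat_lit 156) (nat_lit 0) (nat_lit 76) (XT.nd (nat_lit 78) (nat_lit 0) (nat_lit 0) (XT.lf (nat_lit 0) (nat_lit 5577669283) (nat_lit 1824) (nat_lit 11358732710) (nat_lit 1900) (nat_lit 8287139346) (nat_lit 476) (nat_lit 5) (nat_lit 500) (nat_lit 5) (nat_lit 501) (nat_lit 5) (nat_lit 617) (nat_lit 607) (nat_lit 336)) (XT.lf (nat_lit 76) (nat_lit 1581504006) (nat_lit 0) (nat_lit 4996592039) (nat_lit 1900) (nat_lit 18903784585) (nat_lit 477) (nat_lit 5) (nat_lit 476) (nat_lit 5) (nat_lit 501) (nat_lit 5) (nat_lit 618) (nat_lit 607) (nat_lit 335))) (XT.nd (nat_lit 78) (nat_lit 0) (nat_lit 0) (XT.lf (nat_lit 0) (nat_lit 7719133405) (nat_lit 1824) (nat_lit 10858380283) (nat_lit 1900) (nat_lit 7165461143) (nat_lit 477) (nat_lit 5) (nat_lit 501) (nat_lit 5) (nat_lit 502) (nat_lit 5) (nat_lit 619) (nat_lit 607) (nat_lit 334)) (XT.lf (nat_lit 76) (nat_lit 2441525331) (nat_lit 0) (nat_lit 6487706039) (nat_lit 1900) (nat_lit 17079134912)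 (nat_lit 478) (nat_lit 5) (nat_lit 477) (nat_lit 5) (nat_lit 502) (nat_lit 5) (nat_lit 620) (nat_lit 607) (nat_lit 333))))) (XT.nd (nat_lit 234) (nat_lit 0) (nat_lit 76) (XT.nd (nat_lit 78) (nat_lit 0) (nat_lit 0) (XT.lf (nat_lit 0) (nat_lit 10272165845) (nat_lit 1824) (nat_lit 10163324094) (nat_lit 1900) (nat_lit 5841403091) (nat_lit 478) (nat_lit 5) (nat_lit 502) (nat_lit 5) (nat_lit 503) (nat_lit 5) (nat_lit 621) (nat_lit 607) (nat_lit 332)) (XT.nd (nat_lit 78) (nat_lit 0) (nat_lit 76) (XT.lf (nat_lit 76) (nat_lit 3509454611) (nat_lit 0) (nat_lit 8195651211) (nat_lit 1900) (nat_lit 14844421712) (nat_lit 479) (nat_lit 5) (nat_lit 478) (nat_lit 5) (nat_lit 503) (nat_lit 5) (nat_lit 622) (nat_lit 607) (nat_lit 331)) (XT.lf (nat_lit 0) (nat_lit 13260644190) (nat_lit 1824) (nat_lit 9263008280) (nat_lit 1900) (nat_lit 4302083619) (nat_lit 479) (nat_lit 5) (nat_lit 503) (nat_lit 5) (nat_lit 504) (nat_lit 5) (nat_lit 623) (nat_lit 607) (nat_lit 330)))) (XT.nd (nat_lit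 156) (nat_lit 0) (nat_lit 76) (XT.nd (nat_lit 78) (nat_lit 0) (nat_lit 76) (XT.lf (nat_lit 76) (nat_lit 4796349943) (nat_lit 0) (nat_lit 10133850246) (nat_lit 1900) (nat_lit 12175610639) (nat_lit 480) (nat_lit 5) (nat_lit 479) (nat_lit 5) (nat_lit 504) (nat_lit 5) (nat_lit 624) (nat_lit 607) (nat_lit 329)) (XT.lf (nat_lit 0) (nat_lit 16709505622) (nat_lit 1824) (nat_lit 8146371746) (nat_lit 1900) (nat_lit 2534082675) (nat_lit 480) (nat_lit 5) (nat_lit 504) (nat_lit 5) (nat_lit 505) (nat_lit 5) (nat_lit 625) (nat_lit 607) (nat_lit 328))) (XT.nd (nat_lit 78) (nat_lit 0) (nat_lit 76) (XT.lf (nat_lit 76) (nat_lit 6313793657) (nat_lit 0) (nat_lit 12316287850) (nat_lit 1900) (nat_lit 9047597193) (nat_lit 481) (nat_lit 5) (nat_lit 480) (nat_lit 5) (nat_lit 505) (nat_lit 5) (nat_lit 626) (nat_lit 607) (nat_lit 327)) (XT.lf (nat_lit 0) (nat_lit 20644793619) (nat_lit 1824) (nat_lit 6801829281) (nat_lit 1900) (nat_lit 523414478) (nat_lit 481) (nat_lit 5) (nat_lit 505)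 (nat_lit 5) (nat_lit 506) (nat_lit 5) (nat_lit 627) (nat_lit 607) (nat_lit 326)))))) (XT.nd (nat_lit 546) (nat_lit 3572) (nat_lit 0) (XT.nd (nat_lit 234) (nat_lit 2812) (nat_lit 0) (XT.nd (nat_lit 78) (nat_lit 0) (nat_lit 0) (XT.lf (nat_lit 76) (nat_lit 8073911916) (nat_lit 0) (nat_lit 14757538880) (nat_lit 1900) (nat_lit 5434159556) (nat_lit 482) (nat_lit 5) (nat_lit 481) (nat_lit 5) (nat_lit 506) (nat_lit 5) (nat_lit 628) (nat_lit 607) (nat_lit 325)) (XT.nd (nat_lit 78) (nat_lit 0) (nat_lit 76) (XT.lf (nat_lit 76) (nat_lit 23337499236) (nat_lit 0) (nat_lit 1767684198) (nat_lit 1900) (nat_lit 3461044641) (nat_lit 482) (nat_lit 5) (nat_lit 481) (nat_lit 5) (nat_lit 506) (nat_lit 5) (nat_lit 629) (nat_lit 607) (nat_lit 324)) (XT.lf (nat_lit 76) (nat_lit 10089395183) (nat_lit 0) (nat_lit 17472797479) (nat_lit 1900) (nat_lit 1307909585) (nat_lit 483) (nat_lit 5) (nat_lit 482) (nat_lit 5) (nat_lit 507) (nat_lit 5) (nat_lit 630) (nat_lit 607) (nat_lit 323)))) (XT.nd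 (nat_lit 156) (nat_lit 988) (nat_lit 0) (XT.nd (nat_lit 78) (nat_lit 0) (nat_lit 76) (XT.lf (nat_lit 0) (nat_lit 921428081) (nat_lit 1900) (nat_lit 3414198036) (nat_lit 1976) (nat_lit 24843416767) (nat_lit 457) (nat_lit 5) (nat_lit 482) (nat_lit 5) (nat_lit 483) (nat_lit 5) (nat_lit 631) (nat_lit 607) (nat_lit 322)) (XT.lf (nat_lit 0) (nat_lit 3315694255) (nat_lit 1900) (nat_lit 17139962976) (nat_lit 76) (nat_lit 9035575230) (nat_lit 458) (nat_lit 5) (nat_lit 483) (nat_lit 5) (nat_lit 459) (nat_lit 5) (nat_lit 632) (nat_lit 607) (nat_lit 321))) (XT.nd (nat_lit 78) (nat_lit 1064) (nat_lit 0) (XT.lf (nat_lit 0) (nat_lit 5807461736) (nat_lit 1900) (nat_lit 1361639433) (nat_lit 76) (nat_lit 22639572464) (nat_lit 458) (nat_lit 5) (nat_lit 483) (nat_lit 5) (nat_lit 459) (nat_lit 5) (nat_lit 633) (nat_lit 607) (nat_lit 320)) (XT.lf (nat_lit 0) (nat_lit 8485945188) (nat_lit 1140) (nat_lit 15246502399) (nat_lit 76) (nat_lit 6397278552) (nat_lit 444) (nat_lit 5) (nat_lit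 459) (nat_lit 5) (nat_lit 445) (nat_lit 5) (nat_lit 634) (nat_lit 607) (nat_lit 319))))) (XT.nd (nat_lit 312) (nat_lit 1748) (nat_lit 0) (XT.nd (nat_lit 156) (nat_lit 912) (nat_lit 0) (XT.nd (nat_lit 78) (nat_lit 0) (nat_lit 0) (XT.lf (nat_lit 0) (nat_lit 977822783) (nat_lit 912) (nat_lit 10301113411) (nat_lit 988) (nat_lit 19177044859) (nat_lit 432) (nat_lit 5) (nat_lit 444) (nat_lit 5) (nat_lit 445) (nat_lit 5) (nat_lit 635) (nat_lit 607) (nat_lit 318)) (XT.lf (nat_lit 0) (nat_lit 14250788010) (nat_lit 988) (nat_lit 13078073307) (nat_lit 76) (nat_lit 3457439845) (nat_lit 432) (nat_lit 5) (nat_lit 445) (nat_lit 5) (nat_lit 433) (nat_lit 5) (nat_lit 636) (nat_lit 607) (nat_lit 317))) (XT.nd (nat_lit 78) (nat_lit 0) (nat_lit 0) (XT.lf (nat_lit 0) (nat_lit 3627488670) (nat_lit 912) (nat_lit 13744343663) (nat_lit 988) (nat_lit 13749600346) (nat_lit 420) (nat_lit 5) (nat_lit 432) (nat_lit 5) (nat_lit 433) (nat_lit 5) (nat_lit 637) (nat_lit 607) (nat_lit 316))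 (XT.lf (nat_lit 0) (nat_lit 20642378087) (nat_lit 988) (nat_lit 10620289339) (nat_lit 76) (nat_lit 198857900) (nat_lit 420) (nat_lit 5) (nat_lit 433) (nat_lit 5) (nat_lit 421) (nat_lit 5) (nat_lit 638) (nat_lit 607) (nat_lit 315)))) (XT.nd (nat_lit 156) (nat_lit 912) (nat_lit 0) (XT.nd (nat_lit 78) (nat_lit 0) (nat_lit 0) (XT.lf (nat_lit 0) (nat_lit 6584299129) (nat_lit 836) (nat_lit 17525858676) (nat_lit 912) (nat_lit 7695625672) (nat_lit 409) (nat_lit 5) (nat_lit 420) (nat_lit 5) (nat_lit 421) (nat_lit 5) (nat_lit 639) (nat_lit 607) (nat_lit 314)) (XT.lf (nat_lit 0) (nat_lit 24275081077) (nat_lit 836) (nat_lit 3441557179) (nat_lit 912) (nat_lit 4438901737) (nat_lit 409) (nat_lit 5) (nat_lit 420) (nat_lit 5) (nat_lit 421) (nat_lit 5) (nat_lit 640) (nat_lit 607) (nat_lit 313))) (XT.nd (nat_lit 78) (nat_lit 76) (nat_lit 0) (XT.lf (nat_lit 0) (nat_lit 9863965192) (nat_lit 836) (nat_lit 21664370687) (nat_lit 912) (nat_lit 981294115) (nat_lit 398) (nat_lit 5)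 (nat_lit 409) (nat_lit 5) (nat_lit 410) (nat_lit 5) (nat_lit 641) (nat_lit 607) (nat_lit 312)) (XT.lf (nat_lit 0) (nat_lit 2586233469) (nat_lit 912) (nat_lit 4841187106) (nat_lit 76) (nat_lit 25441567743) (nat_lit 397) (nat_lit 5) (nat_lit 409) (nat_lit 5) (nat_lit 398) (nat_lit 5) (nat_lit 642) (nat_lit 607) (nat_lit 311))))))) (XT.nd (nat_lit 1092) (nat_lit 5548) (nat_lit 0) (XT.nd (nat_lit 546) (nat_lit 2888) (nat_lit 0) (XT.nd (nat_lit 234) (nat_lit 1520) (nat_lit 0) (XT.nd (nat_lit 78) (nat_lit 836) (nat_lit 0) (XT.lf (nat_lit 0) (nat_lit 6344405444) (nat_lit 912) (nat_lit 19792431439) (nat_lit 76) (nat_lit 7095918631) (nat_lit 386) (nat_lit 5) (nat_lit 398) (nat_lit 5) (nat_lit 387) (nat_lit 5) (nat_lit 643) (nat_lit 607) (nat_lit 310)) (XT.nd (nat_lit 78) (nat_lit 836) (nat_lit 0) (XT.lf (nat_lit 0) (nat_lit 10257819930) (nat_lit 912) (nat_lit 1501323635) (nat_lit 76) (nat_lit 21843053005) (nat_lit 386) (nat_lit 5) (nat_lit 398) (nat_lit 5) (nat_lit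 387) (nat_lit 5) (nat_lit 644) (nat_lit 607) (nat_lit 309)) (XT.lf (nat_lit 0) (nat_lit 14380196253) (nat_lit 912) (nat_lit 16614673850) (nat_lit 76) (nat_lit 2981542567) (nat_lit 375) (nat_lit 5) (nat_lit 387) (nat_lit 5) (nat_lit 376) (nat_lit 5) (nat_lit 645) (nat_lit 607) (nat_lit 308)))) (XT.nd (nat_lit 156) (nat_lit 760) (nat_lit 0) (XT.nd (nat_lit 78) (nat_lit 0) (nat_lit 0) (XT.lf (nat_lit 0) (nat_lit 2213746332) (nat_lit 760) (nat_lit 16471910366) (nat_lit 836) (nat_lit 15670443756) (nat_lit 365) (nat_lit 5) (nat_lit 375) (nat_lit 5) (nat_lit 376) (nat_lit 5) (nat_lit 646) (nat_lit 607) (nat_lit 307)) (XT.lf (nat_lit 0) (nat_lit 21642116078) (nat_lit 760) (nat_lit 1544872908) (nat_lit 836) (nat_lit 11554197847) (nat_lit 365) (nat_lit 5) (nat_lit 375) (nat_lit 5) (nat_lit 376) (nat_lit 5) (nat_lit 647) (nat_lit 607) (nat_lit 306))) (XT.nd (nat_lit 78) (nat_lit 0) (nat_lit 0) (XT.lf (nat_lit 0) (nat_lit 6317273756) (nat_lit 760) (nat_lit 21589217006)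 (nat_lit 836) (nat_lit 7224921411) (nat_lit 355) (nat_lit 5) (nat_lit 365) (nat_lit 5) (nat_lit 366) (nat_lit 5) (nat_lit 648) (nat_lit 607) (nat_lit 305)) (XT.lf (nat_lit 0) (nat_lit 26287319164) (nat_lit 760) (nat_lit 6529452862) (nat_lit 836) (nat_lit 2710742292) (nat_lit 355) (nat_lit 5) (nat_lit 365) (nat_lit 5) (nat_lit 366) (nat_lit 5) (nat_lit 649) (nat_lit 607) (nat_lit 304))))) (XT.nd (nat_lit 234) (nat_lit 1368) (nat_lit 0) (XT.nd (nat_lit 78) (nat_lit 760) (nat_lit 0) (XT.lf (nat_lit 0) (nat_lit 1995585009) (nat_lit 760) (nat_lit 25134333422) (nat_lit 76) (nat_lit 8798840233) (nat_lit 345) (nat_lit 5) (nat_lit 355) (nat_lit 5) (nat_lit 346) (nat_lit 5) (nat_lit 650) (nat_lit 607) (nat_lit 303)) (XT.nd (nat_lit 78) (nat_lit 760) (nat_lit 0) (XT.lf (nat_lit 0) (nat_lit 6863800346) (nat_lit 760) (nat_lit 5045227040) (nat_lit 76) (nat_lit 24426561066) (nat_lit 345) (nat_lit 5) (nat_lit 355) (nat_lit 5) (nat_lit 346) (nat_lit 5) (nat_lit 651) (nat_lit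 607) (nat_lit 302)) (XT.lf (nat_lit 0) (nat_lit 11953533173) (nat_lit 836) (nat_lit 21123594241) (nat_lit 76) (nat_lit 3670944440) (nat_lit 335) (nat_lit 5) (nat_lit 346) (nat_lit 5) (nat_lit 336) (nat_lit 5) (nat_lit 652) (nat_lit 607) (nat_lit 301)))) (XT.nd (nat_lit 156) (nat_lit 684) (nat_lit 0) (XT.nd (nat_lit 78) (nat_lit 684) (nat_lit 0) (XT.lf (nat_lit 0) (nat_lit 17256425138) (nat_lit 836) (nat_lit 473063470) (nat_lit 76) (nat_lit 19437089106) (nat_lit 335) (nat_lit 5) (nat_lit 346) (nat_lit 5) (nat_lit 336) (nat_lit 5) (nat_lit 653) (nat_lit 607) (nat_lit 300)) (XT.lf (nat_lit 0) (nat_lit 20862316968) (nat_lit 684) (nat_lit 1936957433) (nat_lit 760) (nat_lit 14791501380) (nat_lit 326) (nat_lit 5) (nat_lit 335) (nat_lit 5) (nat_lit 336) (nat_lit 5) (nat_lit 654) (nat_lit 607) (nat_lit 299))) (XT.nd (nat_lit 78) (nat_lit 0) (nat_lit 0) (XT.lf (nat_lit 0) (nat_lit 4573583681) (nat_lit 684) (nat_lit 24002762496) (nat_lit 760) (nat_lit 9444644398) (nat_lit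 317) (nat_lit 5) (nat_lit 326) (nat_lit 5) (nat_lit 327) (nat_lit 5) (nat_lit 655) (nat_lit 607) (nat_lit 298)) (XT.lf (nat_lit 0) (nat_lit 26513647893) (nat_lit 684) (nat_lit 8078794916) (nat_lit 760) (nat_lit 3864897262) (nat_lit 317) (nat_lit 5) (nat_lit 326) (nat_lit 5) (nat_lit 327) (nat_lit 5) (nat_lit 656) (nat_lit 607) (nat_lit 297)))))) (XT.nd (nat_lit 546) (nat_lit 2964) (nat_lit 0) (XT.nd (nat_lit 234) (nat_lit 1216) (nat_lit 0) (XT.nd (nat_lit 78) (nat_lit 684) (nat_lit 0) (XT.lf (nat_lit 0) (nat_lit 1920143992) (nat_lit 684) (nat_lit 28845356437) (nat_lit 76) (nat_lit 8134325965) (nat_lit 308) (nat_lit 5) (nat_lit 317) (nat_lit 5) (nat_lit 309) (nat_lit 5) (nat_lit 657) (nat_lit 607) (nat_lit 296)) (XT.nd (nat_lit 78) (nat_lit 684) (nat_lit 0) (XT.lf (nat_lit 0) (nat_lit 7901884185) (nat_lit 684) (nat_lit 6776473436) (nat_lit 76) (nat_lit 24669638970) (nat_lit 308) (nat_lit 5) (nat_lit 317) (nat_lit 5) (nat_lit 309) (nat_lit 5) (nat_lit 658) (nat_lit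 607) (nat_lit 295)) (XT.lf (nat_lit 0) (nat_lit 14117227250) (nat_lit 760) (nat_lit 23873896957) (nat_lit 76) (nat_lit 1811726696) (nat_lit 299) (nat_lit 5) (nat_lit 309) (nat_lit 5) (nat_lit 300) (nat_lit 5) (nat_lit 659) (nat_lit 607) (nat_lit 294)))) (XT.nd (nat_lit 156) (nat_lit 608) (nat_lit 0) (XT.nd (nat_lit 78) (nat_lit 608) (nat_lit 0) (XT.lf (nat_lit 0) (nat_lit 20598423486) (nat_lit 760) (nat_lit 1184816381) (nat_lit 76) (nat_lit 18480731574) (nat_lit 299) (nat_lit 5) (nat_lit 309) (nat_lit 5) (nat_lit 300) (nat_lit 5) (nat_lit 660) (nat_lit 607) (nat_lit 293)) (XT.lf (nat_lit 0) (nat_lit 22248106767) (nat_lit 608) (nat_lit 5104178294) (nat_lit 684) (nat_lit 13379168568) (nat_lit 291) (nat_lit 5) (nat_lit 299) (nat_lit 5) (nat_lit 300) (nat_lit 5) (nat_lit 661) (nat_lit 607) (nat_lit 292))) (XT.nd (nat_lit 78) (nat_lit 0) (nat_lit 0) (XT.lf (nat_lit 0) (nat_lit 4943343577) (nat_lit 608) (nat_lit 29413903121) (nat_lit 684) (nat_lit 6848718372) (nat_lit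 283) (nat_lit 5) (nat_lit 291) (nat_lit 5) (nat_lit 292) (nat_lit 5) (nat_lit 662) (nat_lit 607) (nat_lit 291)) (XT.lf (nat_lit 0) (nat_lit 29053132800) (nat_lit 608) (nat_lit 12605410284) (nat_lit 684) (nat_lit 28299009) (nat_lit 283) (nat_lit 5) (nat_lit 291) (nat_lit 5) (nat_lit 292) (nat_lit 5) (nat_lit 663) (nat_lit 607) (nat_lit 290))))) (XT.nd (nat_lit 312) (nat_lit 1140) (nat_lit 0) (XT.nd (nat_lit 156) (nat_lit 1140) (nat_lit 0) (XT.nd (nat_lit 78) (nat_lit 0) (nat_lit 0) (XT.lf (nat_lit 0) (nat_lit 6941704011) (nat_lit 684) (nat_lit 30632363922) (nat_lit 76) (nat_lit 4600288210) (nat_lit 274) (nat_lit 5) (nat_lit 283) (nat_lit 5) (nat_lit 275) (nat_lit 5) (nat_lit 664) (nat_lit 607) (nat_lit 289)) (XT.lf (nat_lit 0) (nat_lit 14218202039) (nat_lit 684) (nat_lit 6383419749) (nat_lit 76) (nat_lit 22066645527) (nat_lit 274) (nat_lit 5) (nat_lit 283) (nat_lit 5) (nat_lit 275) (nat_lit 5) (nat_lit 665) (nat_lit 607) (nat_lit 288))) (XT.nd (nat_lit 78)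 (nat_lit 532) (nat_lit 0) (XT.lf (nat_lit 0) (nat_lit 18592655725) (nat_lit 608) (nat_lit 3166970242) (nat_lit 684) (nat_lit 21410042884) (nat_lit 266) (nat_lit 5) (nat_lit 274) (nat_lit 5) (nat_lit 275) (nat_lit 5) (nat_lit 666) (nat_lit 607) (nat_lit 287)) (XT.lf (nat_lit 0) (nat_lit 382669681) (nat_lit 532) (nat_lit 29208404819) (nat_lit 608) (nat_lit 14087240054) (nat_lit 259) (nat_lit 5) (nat_lit 266) (nat_lit 5) (nat_lit 267) (nat_lit 5) (nat_lit 667) (nat_lit 607) (nat_lit 286)))) (XT.nd (nat_lit 156) (nat_lit 532) (nat_lit 0) (XT.nd (nat_lit 78) (nat_lit 608) (nat_lit 0) (XT.lf (nat_lit 0) (nat_lit 26151747047) (nat_lit 532) (nat_lit 11611872205) (nat_lit 608) (nat_lit 6429824632) (nat_lit 259) (nat_lit 5) (nat_lit 266) (nat_lit 5) (nat_lit 267) (nat_lit 5) (nat_lit 668) (nat_lit 607) (nat_lit 285)) (XT.lf (nat_lit 0) (nat_lit 1453590347) (nat_lit 608) (nat_lit 36950137343) (nat_lit 76) (nat_lit 6313149672) (nat_lit 251) (nat_lit 5) (nat_lit 259) (nat_lit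 5) (nat_lit 252) (nat_lit 5) (nat_lit 669) (nat_lit 607) (nat_lit 284))) (XT.nd (nat_lit 78) (nat_lit 532) (nat_lit 0) (XT.lf (nat_lit 0) (nat_lit 9606165312) (nat_lit 608) (nat_lit 11034426109) (nat_lit 76) (nat_lit 24605386380) (nat_lit 251) (nat_lit 5) (nat_lit 259) (nat_lit 5) (nat_lit 252) (nat_lit 5) (nat_lit 670) (nat_lit 607) (nat_lit 283)) (XT.lf (nat_lit 0) (nat_lit 15602572714) (nat_lit 532) (nat_lit 2419281781) (nat_lit 608) (nat_lit 27761804551) (nat_lit 244) (nat_lit 5) (nat_lit 251) (nat_lit 5) (nat_lit 252) (nat_lit 5) (nat_lit 671) (nat_lit 607) (nat_lit 282))))))))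
noncomputable def xc227 : XT := (XT.nd (nat_lit 78312) (nat_lit 0) (nat_lit 3420) (XT.nd (nat_lit 77142) (nat_lit 0) (nat_lit 16720) (XT.nd (nat_lit 76596) (nat_lit 0) (nat_lit 17936) (XT.nd (nat_lit 76284) (nat_lit 0) (nat_lit 17784) (XT.nd (nat_lit 78) (nat_lit 532) (nat_lit 0) (XT.lf (nat_lit 0) (nat_lit 26784129344) (nat_lit 608) (nat_lit 3515848757) (nat_lit 76) (nat_lit 16028550430) (nat_lit 244) (nat_lit 5) (nat_lit 252) (nat_lit 5) (nat_lit 245) (nat_lit 5) (nat_lit 672) (nat_lit 607) (nat_lit 281)) (XT.nd (nat_lit 76128) (nat_lit 0) (nat_lit 17784) (XT.lf (nat_lit 0) (nat_lit 23979532301) (nat_lit 532) (nat_lit 11912625596) (nat_lit 608) (nat_lit 10988727395) (nat_lit 237) (nat_lit 5) (nat_lit 244) (nat_lit 5) (nat_lit 245) (nat_lit 5) (nat_lit 673) (nat_lit 607) (nat_lit 280)) (XT.lf (nat_lit 0) (nat_lit 267529354) (nat_lit 1900) (nat_lit 5686435521) (nat_lit 1900) (nat_lit 5686435521) (nat_lit 471) (nat_lit 3) (nat_lit 496) (nat_lit 3) (nat_lit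 496) (nat_lit 5) (nat_lit 608) (nat_lit 608) (nat_lit 344)))) (XT.nd (nat_lit 156) (nat_lit 0) (nat_lit 76) (XT.nd (nat_lit 78) (nat_lit 0) (nat_lit 76) (XT.lf (nat_lit 76) (nat_lit 176373217) (nat_lit 0) (nat_lit 487429657) (nat_lit 1900) (nat_lit 22847330643) (nat_lit 472) (nat_lit 5) (nat_lit 471) (nat_lit 3) (nat_lit 496) (nat_lit 5) (nat_lit 609) (nat_lit 608) (nat_lit 343)) (XT.lf (nat_lit 0) (nat_lit 941205775) (nat_lit 1824) (nat_lit 11708486943) (nat_lit 1900) (nat_lit 11093458693) (nat_lit 472) (nat_lit 5) (nat_lit 496) (nat_lit 5) (nat_lit 497) (nat_lit 5) (nat_lit 610) (nat_lit 608) (nat_lit 342))) (XT.nd (nat_lit 78) (nat_lit 0) (nat_lit 76) (XT.lf (nat_lit 76) (nat_lit 147318050) (nat_lit 0) (nat_lit 1077878817) (nat_lit 1900) (nat_lit 22754592183) (nat_lit 473) (nat_lit 5) (nat_lit 472) (nat_lit 5) (nat_lit 497) (nat_lit 5) (nat_lit 611) (nat_lit 608) (nat_lit 341)) (XT.lf (nat_lit 0) (nat_lit 1660509923) (nat_lit 1824) (nat_lit 11892551779)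 (nat_lit 1900) (nat_lit 10665185087) (nat_lit 473) (nat_lit 5) (nat_lit 497) (nat_lit 5) (nat_lit 498) (nat_lit 5) (nat_lit 612) (nat_lit 608) (nat_lit 340))))) (XT.nd (nat_lit 234) (nat_lit 0) (nat_lit 152) (XT.nd (nat_lit 78) (nat_lit 0) (nat_lit 76) (XT.lf (nat_lit 76) (nat_lit 280989306) (nat_lit 0) (nat_lit 1829478526) (nat_lit 1900) (nat_lit 22350887259) (nat_lit 474) (nat_lit 5) (nat_lit 473) (nat_lit 5) (nat_lit 498) (nat_lit 5) (nat_lit 613) (nat_lit 608) (nat_lit 339)) (XT.nd (nat_lit 78) (nat_lit 0) (nat_lit 0) (XT.lf (nat_lit 0) (nat_lit 2712552468) (nat_lit 1824) (nat_lit 11916591560) (nat_lit 1900) (nat_lit 10077319160) (nat_lit 474) (nat_lit 5) (nat_lit 498) (nat_lit 5) (nat_lit 499) (nat_lit 5) (nat_lit 614) (nat_lit 608) (nat_lit 338)) (XT.lf (nat_lit 76) (nat_lit 586286513) (nat_lit 0) (nat_lit 2753405123) (nat_lit 1900) (nat_lit 21616521731) (nat_lit 475) (nat_lit 5) (nat_lit 474) (nat_lit 5) (nat_lit 499) (nat_lit 5) (nat_lit 615) (nat_lit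 608) (nat_lit 337)))) (XT.nd (nat_lit 156) (nat_lit 0) (nat_lit 76) (XT.nd (nat_lit 78) (nat_lit 0) (nat_lit 0) (XT.lf (nat_lit 0) (nat_lit 4117783773) (nat_lit 1824) (nat_lit 11771702899) (nat_lit 1900) (nat_lit 9318703847) (nat_lit 475) (nat_lit 5) (nat_lit 499) (nat_lit 5) (nat_lit 500) (nat_lit 5) (nat_lit 616) (nat_lit 608) (nat_lit 336)) (XT.lf (nat_lit 76) (nat_lit 1072554636) (nat_lit 0) (nat_lit 3861280986) (nat_lit 1900) (nat_lit 20530923803) (nat_lit 476) (nat_lit 5) (nat_lit 475) (nat_lit 5) (nat_lit 500) (nat_lit 5) (nat_lit 617) (nat_lit 608) (nat_lit 335))) (XT.nd (nat_lit 78) (nat_lit 0) (nat_lit 0) (XT.lf (nat_lit 0) (nat_lit 5897562692) (nat_lit 1824) (nat_lit 11448537511) (nat_lit 1900) (nat_lit 8377732589) (nat_lit 476) (nat_lit 5) (nat_lit 500) (nat_lit 5) (nat_lit 501) (nat_lit 5) (nat_lit 618) (nat_lit 608) (nat_lit 334)) (XT.lf (nat_lit 76) (nat_lit 1749600190) (nat_lit 0) (nat_lit 5165198729) (nat_lit 1900) (nat_lit 19072604177) (nat_lit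 477) (nat_lit 5) (nat_lit 476) (nat_lit 5) (nat_lit 501) (nat_lit 5) (nat_lit 619) (nat_lit 608) (nat_lit 333)))))) (XT.nd (nat_lit 546) (nat_lit 1520) (nat_lit 0) (XT.nd (nat_lit 234) (nat_lit 0) (nat_lit 76) (XT.nd (nat_lit 78) (nat_lit 0) (nat_lit 0) (XT.lf (nat_lit 0) (nat_lit 8074197515) (nat_lit 1824) (nat_lit 10937285994) (nat_lit 1900) (nat_lit 7242325105) (nat_lit 477) (nat_lit 5) (nat_lit 501) (nat_lit 5) (nat_lit 502) (nat_lit 5) (nat_lit 620) (nat_lit 608) (nat_lit 332)) (XT.nd (nat_lit 78) (nat_lit 0) (nat_lit 76) (XT.lf (nat_lit 76) (nat_lit 2627708115) (nat_lit 0) (nat_lit 6677746176) (nat_lit 1900) (nat_lit 17219114702) (nat_lit 478) (nat_lit 5) (nat_lit 477) (nat_lit 5) (nat_lit 502) (nat_lit 5) (nat_lit 621) (nat_lit 608) (nat_lit 331)) (XT.lf (nat_lit 0) (nat_lit 10670988453) (nat_lit 1824) (nat_lit 10227660862) (nat_lit 1900) (nat_lit 5899902374) (nat_lit 478) (nat_lit 5) (nat_lit 502) (nat_lit 5) (nat_lit 503) (nat_lit 5) (nat_lit 622)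 (nat_lit 608) (nat_lit 330)))) (XT.nd (nat_lit 156) (nat_lit 0) (nat_lit 76) (XT.nd (nat_lit 78) (nat_lit 0) (nat_lit 76) (XT.lf (nat_lit 76) (nat_lit 3717659405) (nat_lit 0) (nat_lit 8412032163) (nat_lit 1900) (nat_lit 14947005456) (nat_lit 479) (nat_lit 5) (nat_lit 478) (nat_lit 5) (nat_lit 503) (nat_lit 5) (nat_lit 623) (nat_lit 608) (nat_lit 329)) (XT.lf (nat_lit 0) (nat_lit 13712271753) (nat_lit 1824) (nat_lit 9308878818) (nat_lit 1900) (nat_lit 4337360780) (nat_lit 479) (nat_lit 5) (nat_lit 503) (nat_lit 5) (nat_lit 504) (nat_lit 5) (nat_lit 624) (nat_lit 608) (nat_lit 328))) (XT.nd (nat_lit 78) (nat_lit 0) (nat_lit 76) (XT.lf (nat_lit 76) (nat_lit 5030749533) (nat_lit 0) (nat_lit 10381713207) (nat_lit 1900) (nat_lit 12231780189) (nat_lit 480) (nat_lit 5) (nat_lit 479) (nat_lit 5) (nat_lit 504) (nat_lit 5) (nat_lit 625) (nat_lit 608) (nat_lit 327)) (XT.lf (nat_lit 0) (nat_lit 17223465508) (nat_lit 1824) (nat_lit 8169642235) (nat_lit 1900) (nat_lit 2541045374)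 (nat_lit 480) (nat_lit 5) (nat_lit 504) (nat_lit 5) (nat_lit 505) (nat_lit 5) (nat_lit 626) (nat_lit 608) (nat_lit 326))))) (XT.nd (nat_lit 312) (nat_lit 1748) (nat_lit 0) (XT.nd (nat_lit 156) (nat_lit 0) (nat_lit 76) (XT.nd (nat_lit 78) (nat_lit 0) (nat_lit 76) (XT.lf (nat_lit 76) (nat_lit 6578807679) (nat_lit 0) (nat_lit 12601021114) (nat_lit 1900) (nat_lit 9047850048) (nat_lit 481) (nat_lit 5) (nat_lit 480) (nat_lit 5) (nat_lit 505) (nat_lit 5) (nat_lit 627) (nat_lit 608) (nat_lit 325)) (XT.lf (nat_lit 0) (nat_lit 21231117225) (nat_lit 1824) (nat_lit 6798119837) (nat_lit 1900) (nat_lit 496722195) (nat_lit 481) (nat_lit 5) (nat_lit 505) (nat_lit 5) (nat_lit 506) (nat_lit 5) (nat_lit 628) (nat_lit 608) (nat_lit 324))) (XT.nd (nat_lit 78) (nat_lit 0) (nat_lit 0) (XT.lf (nat_lit 76) (nat_lit 8374216803) (nat_lit 0) (nat_lit 15084791554) (nat_lit 1900) (nat_lit 5368485519) (nat_lit 482) (nat_lit 5) (nat_lit 481) (nat_lit 5) (nat_lit 506) (nat_lit 5) (nat_lit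 629) (nat_lit 608) (nat_lit 323)) (XT.lf (nat_lit 76) (nat_lit 23940353778) (nat_lit 0) (nat_lit 1834510329) (nat_lit 1900) (nat_lit 3359327075) (nat_lit 482) (nat_lit 5) (nat_lit 481) (nat_lit 5) (nat_lit 506) (nat_lit 5) (nat_lit 630) (nat_lit 608) (nat_lit 322)))) (XT.nd (nat_lit 156) (nat_lit 0) (nat_lit 76) (XT.nd (nat_lit 78) (nat_lit 1900) (nat_lit 0) (XT.lf (nat_lit 76) (nat_lit 10429934554) (nat_lit 0) (nat_lit 17848493676) (nat_lit 1900) (nat_lit 1165766508) (nat_lit 483) (nat_lit 5) (nat_lit 482) (nat_lit 5) (nat_lit 507) (nat_lit 5) (nat_lit 631) (nat_lit 608) (nat_lit 321)) (XT.lf (nat_lit 0) (nat_lit 1102693865) (nat_lit 1900) (nat_lit 3344277783) (nat_lit 1976) (nat_lit 25312386007) (nat_lit 457) (nat_lit 5) (nat_lit 482) (nat_lit 5) (nat_lit 483) (nat_lit 5) (nat_lit 632) (nat_lit 608) (nat_lit 320))) (XT.nd (nat_lit 78) (nat_lit 0) (nat_lit 0) (XT.lf (nat_lit 0) (nat_lit 3542392992) (nat_lit 1900) (nat_lit 17342096492) (nat_lit 76) (nat_lit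 9193350771) (nat_lit 458) (nat_lit 5) (nat_lit 483) (nat_lit 5) (nat_lit 459) (nat_lit 5) (nat_lit 633) (nat_lit 608) (nat_lit 319)) (XT.lf (nat_lit 0) (nat_lit 6080851021) (nat_lit 1900) (nat_lit 1250964630) (nat_lit 76) (nat_lit 23069877675) (nat_lit 458) (nat_lit 5) (nat_lit 483) (nat_lit 5) (nat_lit 459) (nat_lit 5) (nat_lit 634) (nat_lit 608) (nat_lit 318))))))) (XT.nd (nat_lit 1170) (nat_lit 5548) (nat_lit 0) (XT.nd (nat_lit 546) (nat_lit 4104) (nat_lit 0) (XT.nd (nat_lit 234) (nat_lit 1748) (nat_lit 0) (XT.nd (nat_lit 78) (nat_lit 912) (nat_lit 0) (XT.lf (nat_lit 0) (nat_lit 8810593333) (nat_lit 1140) (nat_lit 15411205243) (nat_lit 76) (nat_lit 6507414697) (nat_lit 444) (nat_lit 5) (nat_lit 459) (nat_lit 5) (nat_lit 445) (nat_lit 5) (nat_lit 635) (nat_lit 608) (nat_lit 317)) (XT.nd (nat_lit 78) (nat_lit 0) (nat_lit 0) (XT.lf (nat_lit 0) (nat_lit 1136683895) (nat_lit 912) (nat_lit 10520626895) (nat_lit 988) (nat_lit 19404725336) (nat_lit 432) (nat_lit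 5) (nat_lit 444) (nat_lit 5) (nat_lit 445) (nat_lit 5) (nat_lit 636) (nat_lit 608) (nat_lit 316)) (XT.lf (nat_lit 0) (nat_lit 14685517768) (nat_lit 988) (nat_lit 13199971245) (nat_lit 76) (nat_lit 3513535431) (nat_lit 432) (nat_lit 5) (nat_lit 445) (nat_lit 5) (nat_lit 433) (nat_lit 5) (nat_lit 637) (nat_lit 608) (nat_lit 315)))) (XT.nd (nat_lit 156) (nat_lit 836) (nat_lit 0) (XT.nd (nat_lit 78) (nat_lit 0) (nat_lit 0) (XT.lf (nat_lit 0) (nat_lit 3838783133) (nat_lit 912) (nat_lit 14028165099) (nat_lit 988) (nat_lit 13873951221) (nat_lit 420) (nat_lit 5) (nat_lit 432) (nat_lit 5) (nat_lit 433) (nat_lit 5) (nat_lit 638) (nat_lit 608) (nat_lit 314)) (XT.lf (nat_lit 0) (nat_lit 21199952358) (nat_lit 988) (nat_lit 10693710245) (nat_lit 76) (nat_lit 194190564) (nat_lit 420) (nat_lit 5) (nat_lit 433) (nat_lit 5) (nat_lit 421) (nat_lit 5) (nat_lit 639) (nat_lit 608) (nat_lit 313))) (XT.nd (nat_lit 78) (nat_lit 0) (nat_lit 0) (XT.lf (nat_lit 0) (nat_lit 6854055618)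 (nat_lit 836) (nat_lit 17881090718) (nat_lit 912) (nat_lit 7703889129) (nat_lit 409) (nat_lit 5) (nat_lit 420) (nat_lit 5) (nat_lit 421) (nat_lit 5) (nat_lit 640) (nat_lit 608) (nat_lit 312)) (XT.lf (nat_lit 0) (nat_lit 24895945941) (nat_lit 836) (nat_lit 3515010742) (nat_lit 912) (nat_lit 4384886580) (nat_lit 409) (nat_lit 5) (nat_lit 420) (nat_lit 5) (nat_lit 421) (nat_lit 5) (nat_lit 641) (nat_lit 608) (nat_lit 311))))) (XT.nd (nat_lit 312) (nat_lit 2356) (nat_lit 0) (XT.nd (nat_lit 156) (nat_lit 836) (nat_lit 0) (XT.nd (nat_lit 78) (nat_lit 76) (nat_lit 0) (XT.lf (nat_lit 0) (nat_lit 10198536065) (nat_lit 836) (nat_lit 22098469342) (nat_lit 912) (nat_lit 860047468) (nat_lit 398) (nat_lit 5) (nat_lit 409) (nat_lit 5) (nat_lit 410) (nat_lit 5) (nat_lit 642) (nat_lit 608) (nat_lit 310)) (XT.lf (nat_lit 0) (nat_lit 2774257120) (nat_lit 912) (nat_lit 4801592563) (nat_lit 76) (nat_lit 25947785056) (nat_lit 397) (nat_lit 5) (nat_lit 409) (nat_lit 5) (nat_lit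 398) (nat_lit 5) (nat_lit 643) (nat_lit 608) (nat_lit 309))) (XT.nd (nat_lit 78) (nat_lit 0) (nat_lit 0) (XT.lf (nat_lit 0) (nat_lit 6605806483) (nat_lit 912) (nat_lit 20050068509) (nat_lit 76) (nat_lit 7238838152) (nat_lit 386) (nat_lit 5) (nat_lit 398) (nat_lit 5) (nat_lit 387) (nat_lit 5) (nat_lit 644) (nat_lit 608) (nat_lit 308)) (XT.lf (nat_lit 0) (nat_lit 10594851750) (nat_lit 912) (nat_lit 1395848579) (nat_lit 76) (nat_lit 22280895583) (nat_lit 386) (nat_lit 5) (nat_lit 398) (nat_lit 5) (nat_lit 387) (nat_lit 5) (nat_lit 645) (nat_lit 608) (nat_lit 307)))) (XT.nd (nat_lit 156) (nat_lit 760) (nat_lit 0) (XT.nd (nat_lit 78) (nat_lit 760) (nat_lit 0) (XT.lf (nat_lit 0) (nat_lit 14797992655) (nat_lit 912) (nat_lit 16809775912) (nat_lit 76) (nat_lit 3045561566) (nat_lit 375) (nat_lit 5) (nat_lit 387) (nat_lit 5) (nat_lit 376) (nat_lit 5) (nat_lit 646) (nat_lit 608) (nat_lit 306)) (XT.lf (nat_lit 0) (nat_lit 2394310099) (nat_lit 760) (nat_lit 16793584293)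 (nat_lit 836) (nat_lit 15852750775) (nat_lit 365) (nat_lit 5) (nat_lit 375) (nat_lit 5) (nat_lit 376) (nat_lit 5) (nat_lit 647) (nat_lit 608) (nat_lit 305))) (XT.nd (nat_lit 78) (nat_lit 760) (nat_lit 0) (XT.lf (nat_lit 0) (nat_lit 22208574910) (nat_lit 760) (nat_lit 1568158327) (nat_lit 836) (nat_lit 11656750572) (nat_lit 365) (nat_lit 5) (nat_lit 375) (nat_lit 5) (nat_lit 376) (nat_lit 5) (nat_lit 648) (nat_lit 608) (nat_lit 304)) (XT.lf (nat_lit 0) (nat_lit 6578817725) (nat_lit 760) (nat_lit 22010262898) (nat_lit 836) (nat_lit 7242464051) (nat_lit 355) (nat_lit 5) (nat_lit 365) (nat_lit 5) (nat_lit 366) (nat_lit 5) (nat_lit 649) (nat_lit 608) (nat_lit 303)))))) (XT.nd (nat_lit 546) (nat_lit 2660) (nat_lit 0) (XT.nd (nat_lit 234) (nat_lit 2128) (nat_lit 0) (XT.nd (nat_lit 78) (nat_lit 760) (nat_lit 0) (XT.lf (nat_lit 0) (nat_lit 26945613090) (nat_lit 760) (nat_lit 6649514029) (nat_lit 836) (nat_lit 2640490679) (nat_lit 355) (nat_lit 5) (nat_lit 365) (nat_lit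 5) (nat_lit 366) (nat_lit 5) (nat_lit 650) (nat_lit 608) (nat_lit 302)) (XT.nd (nat_lit 78) (nat_lit 0) (nat_lit 0) (XT.lf (nat_lit 0) (nat_lit 2156865744) (nat_lit 760) (nat_lit 25501362672) (nat_lit 76) (nat_lit 8986671877) (nat_lit 345) (nat_lit 5) (nat_lit 355) (nat_lit 5) (nat_lit 346) (nat_lit 5) (nat_lit 651) (nat_lit 608) (nat_lit 301)) (XT.lf (nat_lit 0) (nat_lit 7120065602) (nat_lit 760) (nat_lit 5013134112) (nat_lit 76) (nat_lit 24926714679) (nat_lit 345) (nat_lit 5) (nat_lit 355) (nat_lit 5) (nat_lit 346) (nat_lit 5) (nat_lit 652) (nat_lit 608) (nat_lit 300)))) (XT.nd (nat_lit 156) (nat_lit 1368) (nat_lit 0) (XT.nd (nat_lit 78) (nat_lit 0) (nat_lit 0) (XT.lf (nat_lit 0) (nat_lit 12310212639) (nat_lit 836) (nat_lit 21411682285) (nat_lit 76) (nat_lit 3758780267) (nat_lit 335) (nat_lit 5) (nat_lit 346) (nat_lit 5) (nat_lit 336) (nat_lit 5) (nat_lit 653) (nat_lit 608) (nat_lit 299)) (XT.lf (nat_lit 0) (nat_lit 17716856388) (nat_lit 836) (nat_lit 350775876)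 (nat_lit 76) (nat_lit 19839965141) (nat_lit 335) (nat_lit 5) (nat_lit 346) (nat_lit 5) (nat_lit 336) (nat_lit 5) (nat_lit 654) (nat_lit 608) (nat_lit 298))) (XT.nd (nat_lit 78) (nat_lit 684) (nat_lit 0) (XT.lf (nat_lit 0) (nat_lit 21410445402) (nat_lit 684) (nat_lit 1958706169) (nat_lit 760) (nat_lit 14971156197) (nat_lit 326) (nat_lit 5) (nat_lit 335) (nat_lit 5) (nat_lit 336) (nat_lit 5) (nat_lit 655) (nat_lit 608) (nat_lit 297)) (XT.lf (nat_lit 0) (nat_lit 4797235301) (nat_lit 684) (nat_lit 24463262662) (nat_lit 760) (nat_lit 9518654344) (nat_lit 317) (nat_lit 5) (nat_lit 326) (nat_lit 5) (nat_lit 327) (nat_lit 5) (nat_lit 656) (nat_lit 608) (nat_lit 296))))) (XT.nd (nat_lit 312) (nat_lit 1292) (nat_lit 0) (XT.nd (nat_lit 156) (nat_lit 684) (nat_lit 0) (XT.nd (nat_lit 78) (nat_lit 684) (nat_lit 0) (XT.lf (nat_lit 0) (nat_lit 27173509033) (nat_lit 684) (nat_lit 8221199163) (nat_lit 760) (nat_lit 3829564872) (nat_lit 317) (nat_lit 5) (nat_lit 326) (nat_lit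 5) (nat_lit 327) (nat_lit 5) (nat_lit 657) (nat_lit 608) (nat_lit 295)) (XT.lf (nat_lit 0) (nat_lit 2068498347) (nat_lit 684) (nat_lit 29289985896) (nat_lit 76) (nat_lit 8317134389) (nat_lit 308) (nat_lit 5) (nat_lit 317) (nat_lit 5) (nat_lit 309) (nat_lit 5) (nat_lit 658) (nat_lit 608) (nat_lit 294))) (XT.nd (nat_lit 78) (nat_lit 684) (nat_lit 0) (XT.lf (nat_lit 0) (nat_lit 8167717433) (nat_lit 684) (nat_lit 6782318915) (nat_lit 76) (nat_lit 25182759107) (nat_lit 308) (nat_lit 5) (nat_lit 317) (nat_lit 5) (nat_lit 309) (nat_lit 5) (nat_lit 659) (nat_lit 608) (nat_lit 293)) (XT.lf (nat_lit 0) (nat_lit 14506235042) (nat_lit 760) (nat_lit 24220553533) (nat_lit 76) (nat_lit 1869981024) (nat_lit 299) (nat_lit 5) (nat_lit 309) (nat_lit 5) (nat_lit 300) (nat_lit 5) (nat_lit 660) (nat_lit 608) (nat_lit 292)))) (XT.nd (nat_lit 156) (nat_lit 684) (nat_lit 0) (XT.nd (nat_lit 78) (nat_lit 608) (nat_lit 0) (XT.lf (nat_lit 0) (nat_lit 21114963766) (nat_lit 760) (nat_lit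 1080256471) (nat_lit 76) (nat_lit 18871934239) (nat_lit 299) (nat_lit 5) (nat_lit 309) (nat_lit 5) (nat_lit 300) (nat_lit 5) (nat_lit 661) (nat_lit 608) (nat_lit 291)) (XT.lf (nat_lit 0) (nat_lit 22820481350) (nat_lit 608) (nat_lit 5182198042) (nat_lit 684) (nat_lit 13541331477) (nat_lit 291) (nat_lit 5) (nat_lit 299) (nat_lit 5) (nat_lit 300) (nat_lit 5) (nat_lit 662) (nat_lit 608) (nat_lit 290))) (XT.nd (nat_lit 78) (nat_lit 76) (nat_lit 0) (XT.lf (nat_lit 0) (nat_lit 5170687647) (nat_lit 608) (nat_lit 29976013504) (nat_lit 684) (nat_lit 6881332265) (nat_lit 283) (nat_lit 5) (nat_lit 291) (nat_lit 5) (nat_lit 292) (nat_lit 5) (nat_lit 663) (nat_lit 608) (nat_lit 289)) (XT.lf (nat_lit 0) (nat_lit 72485901) (nat_lit 684) (nat_lit 12758891581) (nat_lit 76) (nat_lit 29687181174) (nat_lit 282) (nat_lit 5) (nat_lit 291) (nat_lit 5) (nat_lit 283) (nat_lit 5) (nat_lit 664) (nat_lit 608) (nat_lit 288))))))))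
noncomputable def xc228 : XT := (XT.nd (nat_lit 78390) (nat_lit 0) (nat_lit 5548) (XT.nd (nat_lit 77220) (nat_lit 0) (nat_lit 17404) (XT.nd (nat_lit 546) (nat_lit 532) (nat_lit 0) (XT.nd (nat_lit 234) (nat_lit 1140) (nat_lit 0) (XT.nd (nat_lit 78) (nat_lit 608) (nat_lit 0) (XT.lf (nat_lit 0) (nat_lit 7180524723) (nat_lit 684) (nat_lit 31116716532) (nat_lit 76) (nat_lit 4718597788) (nat_lit 274) (nat_lit 5) (nat_lit 283) (nat_lit 5) (nat_lit 275) (nat_lit 5) (nat_lit 665) (nat_lit 608) (nat_lit 287)) (XT.nd (nat_lit 78) (nat_lit 608) (nat_lit 0) (XT.lf (nat_lit 0) (nat_lit 14600592189) (nat_lit 684) (nat_lit 6385309058) (nat_lit 76) (nat_lit 22533766490) (nat_lit 274) (nat_lit 5) (nat_lit 283) (nat_lit 5) (nat_lit 275) (nat_lit 5) (nat_lit 666) (nat_lit 608) (nat_lit 286)) (XT.lf (nat_lit 0) (nat_lit 19089460432) (nat_lit 608) (nat_lit 3202273352) (nat_lit 684) (nat_lit 21739385823) (nat_lit 266) (nat_lit 5) (nat_lit 274) (nat_lit 5) (nat_lit 275) (nat_lit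 5) (nat_lit 667) (nat_lit 608) (nat_lit 285)))) (XT.nd (nat_lit 156) (nat_lit 608) (nat_lit 0) (XT.nd (nat_lit 78) (nat_lit 0) (nat_lit 0) (XT.lf (nat_lit 0) (nat_lit 516201625) (nat_lit 532) (nat_lit 29762705110) (nat_lit 608) (nat_lit 14271049664) (nat_lit 259) (nat_lit 5) (nat_lit 266) (nat_lit 5) (nat_lit 267) (nat_lit 5) (nat_lit 668) (nat_lit 608) (nat_lit 284)) (XT.lf (nat_lit 0) (nat_lit 26798192331) (nat_lit 532) (nat_lit 11814827487) (nat_lit 608) (nat_lit 6462406231) (nat_lit 259) (nat_lit 5) (nat_lit 266) (nat_lit 5) (nat_lit 267) (nat_lit 5) (nat_lit 669) (nat_lit 608) (nat_lit 283))) (XT.nd (nat_lit 78) (nat_lit 0) (nat_lit 0) (XT.lf (nat_lit 0) (nat_lit 1576559744) (nat_lit 608) (nat_lit 37563604389) (nat_lit 76) (nat_lit 6469168837) (nat_lit 251) (nat_lit 5) (nat_lit 259) (nat_lit 5) (nat_lit 252) (nat_lit 5) (nat_lit 670) (nat_lit 608) (nat_lit 282)) (XT.lf (nat_lit 0) (nat_lit 9890345079) (nat_lit 608) (nat_lit 11132040414) (nat_lit 76) (nat_lit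 25126666826) (nat_lit 251) (nat_lit 5) (nat_lit 259) (nat_lit 5) (nat_lit 252) (nat_lit 5) (nat_lit 671) (nat_lit 608) (nat_lit 281))))) (XT.nd (nat_lit 76362) (nat_lit 0) (nat_lit 17252) (XT.nd (nat_lit 78) (nat_lit 0) (nat_lit 0) (XT.lf (nat_lit 0) (nat_lit 16036888686) (nat_lit 532) (nat_lit 2436448154) (nat_lit 608) (nat_lit 28224170651) (nat_lit 244) (nat_lit 5) (nat_lit 251) (nat_lit 5) (nat_lit 252) (nat_lit 5) (nat_lit 672) (nat_lit 608) (nat_lit 280)) (XT.nd (nat_lit 76206) (nat_lit 0) (nat_lit 17252) (XT.lf (nat_lit 0) (nat_lit 27409270706) (nat_lit 608) (nat_lit 3464708322) (nat_lit 76) (nat_lit 16379327141) (nat_lit 244) (nat_lit 5) (nat_lit 252) (nat_lit 5) (nat_lit 245) (nat_lit 5) (nat_lit 673) (nat_lit 608) (nat_lit 279)) (XT.lf (nat_lit 0) (nat_lit 394334670) (nat_lit 1900) (nat_lit 5738218637) (nat_lit 1900) (nat_lit 5738218637) (nat_lit 471) (nat_lit 3) (nat_lit 496) (nat_lit 3) (nat_lit 496) (nat_lit 5) (nat_lit 609) (nat_lit 609) (nat_lit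 342)))) (XT.nd (nat_lit 156) (nat_lit 0) (nat_lit 76) (XT.nd (nat_lit 78) (nat_lit 0) (nat_lit 76) (XT.lf (nat_lit 76) (nat_lit 302976798) (nat_lit 0) (nat_lit 613047754) (nat_lit 1900) (nat_lit 23060538280) (nat_lit 472) (nat_lit 5) (nat_lit 471) (nat_lit 3) (nat_lit 496) (nat_lit 5) (nat_lit 610) (nat_lit 609) (nat_lit 341)) (XT.lf (nat_lit 0) (nat_lit 1193552752) (nat_lit 1824) (nat_lit 11816556904) (nat_lit 1900) (nat_lit 11203220166) (nat_lit 472) (nat_lit 5) (nat_lit 496) (nat_lit 5) (nat_lit 497) (nat_lit 5) (nat_lit 611) (nat_lit 609) (nat_lit 340))) (XT.nd (nat_lit 78) (nat_lit 0) (nat_lit 76) (XT.lf (nat_lit 76) (nat_lit 275534586) (nat_lit 0) (nat_lit 1203923538) (nat_lit 1900) (nat_lit 22975317680) (nat_lit 473) (nat_lit 5) (nat_lit 472) (nat_lit 5) (nat_lit 497) (nat_lit 5) (nat_lit 612) (nat_lit 609) (nat_lit 339)) (XT.lf (nat_lit 0) (nat_lit 1918307297) (nat_lit 1824) (nat_lit 12002405165) (nat_lit 1900) (nat_lit 10777393909) (nat_lit 473) (nat_lit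 5) (nat_lit 497) (nat_lit 5) (nat_lit 498) (nat_lit 5) (nat_lit 613) (nat_lit 609) (nat_lit 338)))))) (XT.nd (nat_lit 546) (nat_lit 0) (nat_lit 304) (XT.nd (nat_lit 234) (nat_lit 0) (nat_lit 152) (XT.nd (nat_lit 78) (nat_lit 0) (nat_lit 76) (XT.lf (nat_lit 76) (nat_lit 413764652) (nat_lit 0) (nat_lit 1959921621) (nat_lit 1900) (nat_lit 22572462396) (nat_lit 474) (nat_lit 5) (nat_lit 473) (nat_lit 5) (nat_lit 498) (nat_lit 5) (nat_lit 614) (nat_lit 609) (nat_lit 337)) (XT.nd (nat_lit 78) (nat_lit 0) (nat_lit 0) (XT.lf (nat_lit 0) (nat_lit 2982881679) (nat_lit 1824) (nat_lit 12025317074) (nat_lit 1900) (nat_lit 10188059055) (nat_lit 474) (nat_lit 5) (nat_lit 498) (nat_lit 5) (nat_lit 499) (nat_lit 5) (nat_lit 615) (nat_lit 609) (nat_lit 336)) (XT.lf (nat_lit 76) (nat_lit 726765888) (nat_lit 0) (nat_lit 2892396870) (nat_lit 1900) (nat_lit 21831908506) (nat_lit 475) (nat_lit 5) (nat_lit 474) (nat_lit 5) (nat_lit 499) (nat_lit 5) (nat_lit 616) (nat_lit 609) (nat_lit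 335)))) (XT.nd (nat_lit 156) (nat_lit 0) (nat_lit 76) (XT.nd (nat_lit 78) (nat_lit 0) (nat_lit 0) (XT.lf (nat_lit 0) (nat_lit 4408112390) (nat_lit 1824) (nat_lit 11876190974) (nat_lit 1900) (nat_lit 9423878933) (nat_lit 475) (nat_lit 5) (nat_lit 499) (nat_lit 5) (nat_lit 500) (nat_lit 5) (nat_lit 617) (nat_lit 609) (nat_lit 334)) (XT.lf (nat_lit 76) (nat_lit 1224090225) (nat_lit 0) (nat_lit 4013161745) (nat_lit 1900) (nat_lit 20732695524) (nat_lit 476) (nat_lit 5) (nat_lit 475) (nat_lit 5) (nat_lit 500) (nat_lit 5) (nat_lit 618) (nat_lit 609) (nat_lit 333))) (XT.nd (nat_lit 78) (nat_lit 0) (nat_lit 0) (XT.lf (nat_lit 0) (nat_lit 6215763873) (nat_lit 1824) (nat_lit 11545472646) (nat_lit 1900) (nat_lit 8473055845) (nat_lit 476) (nat_lit 5) (nat_lit 500) (nat_lit 5) (nat_lit 501) (nat_lit 5) (nat_lit 619) (nat_lit 609) (nat_lit 332)) (XT.lf (nat_lit 76) (nat_lit 1915759153) (nat_lit 0) (nat_lit 5334510825) (nat_lit 1900) (nat_lit 19252925831) (nat_lit 477) (nat_lit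 5) (nat_lit 476) (nat_lit 5) (nat_lit 501) (nat_lit 5) (nat_lit 620) (nat_lit 609) (nat_lit 331))))) (XT.nd (nat_lit 312) (nat_lit 0) (nat_lit 152) (XT.nd (nat_lit 156) (nat_lit 0) (nat_lit 76) (XT.nd (nat_lit 78) (nat_lit 0) (nat_lit 0) (XT.lf (nat_lit 0) (nat_lit 8428570203) (nat_lit 1824) (nat_lit 11023138696) (nat_lit 1900) (nat_lit 7323306496) (nat_lit 477) (nat_lit 5) (nat_lit 501) (nat_lit 5) (nat_lit 502) (nat_lit 5) (nat_lit 621) (nat_lit 609) (nat_lit 330)) (XT.lf (nat_lit 76) (nat_lit 2812280998) (nat_lit 0) (nat_lit 6869246137) (nat_lit 1900) (nat_lit 17369722575) (nat_lit 478) (nat_lit 5) (nat_lit 477) (nat_lit 5) (nat_lit 502) (nat_lit 5) (nat_lit 622) (nat_lit 609) (nat_lit 329))) (XT.nd (nat_lit 78) (nat_lit 0) (nat_lit 0) (XT.lf (nat_lit 0) (nat_lit 11070278360) (nat_lit 1824) (nat_lit 10298679176) (nat_lit 1900) (nat_lit 5961836620) (nat_lit 478) (nat_lit 5) (nat_lit 502) (nat_lit 5) (nat_lit 503) (nat_lit 5) (nat_lit 623) (nat_lit 609) (nat_lit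 328)) (XT.lf (nat_lit 76) (nat_lit 3924668978) (nat_lit 0) (nat_lit 8630703340) (nat_lit 1900) (nat_lit 15059185962) (nat_lit 479) (nat_lit 5) (nat_lit 478) (nat_lit 5) (nat_lit 503) (nat_lit 5) (nat_lit 624) (nat_lit 609) (nat_lit 327)))) (XT.nd (nat_lit 156) (nat_lit 0) (nat_lit 76) (XT.nd (nat_lit 78) (nat_lit 0) (nat_lit 0) (XT.lf (nat_lit 0) (nat_lit 14165693159) (nat_lit 1824) (nat_lit 9361079437) (nat_lit 1900) (nat_lit 4375314733) (nat_lit 479) (nat_lit 5) (nat_lit 503) (nat_lit 5) (nat_lit 504) (nat_lit 5) (nat_lit 625) (nat_lit 609) (nat_lit 326)) (XT.lf (nat_lit 76) (nat_lit 5264460054) (nat_lit 0) (nat_lit 10632778801) (nat_lit 1900) (nat_lit 12296347874) (nat_lit 480) (nat_lit 5) (nat_lit 479) (nat_lit 5) (nat_lit 504) (nat_lit 5) (nat_lit 626) (nat_lit 609) (nat_lit 325))) (XT.nd (nat_lit 78) (nat_lit 0) (nat_lit 0) (XT.lf (nat_lit 0) (nat_lit 17740723912) (nat_lit 1824) (nat_lit 8198801184) (nat_lit 1900) (nat_lit 2549844988) (nat_lit 480) (nat_lit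 5) (nat_lit 504) (nat_lit 5) (nat_lit 505) (nat_lit 5) (nat_lit 627) (nat_lit 609) (nat_lit 324)) (XT.lf (nat_lit 76) (nat_lit 6843734611) (nat_lit 0) (nat_lit 12889957632) (nat_lit 1900) (nat_lit 9055124725) (nat_lit 481) (nat_lit 5) (nat_lit 480) (nat_lit 5) (nat_lit 505) (nat_lit 5) (nat_lit 628) (nat_lit 609) (nat_lit 323))))))) (XT.nd (nat_lit 1092) (nat_lit 6992) (nat_lit 0) (XT.nd (nat_lit 546) (nat_lit 3648) (nat_lit 0) (XT.nd (nat_lit 234) (nat_lit 1824) (nat_lit 0) (XT.nd (nat_lit 78) (nat_lit 0) (nat_lit 0) (XT.lf (nat_lit 0) (nat_lit 21822432894) (nat_lit 1824) (nat_lit 6799762712) (nat_lit 1900) (nat_lit 470939056) (nat_lit 481) (nat_lit 5) (nat_lit 505) (nat_lit 5) (nat_lit 506) (nat_lit 5) (nat_lit 629) (nat_lit 609) (nat_lit 322)) (XT.nd (nat_lit 78) (nat_lit 0) (nat_lit 0) (XT.lf (nat_lit 76) (nat_lit 8675136979) (nat_lit 0) (nat_lit 15417342726) (nat_lit 1900) (nat_lit 5308268505) (nat_lit 482) (nat_lit 5) (nat_lit 481) (nat_lit 5) (nat_lit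 506) (nat_lit 5) (nat_lit 630) (nat_lit 609) (nat_lit 321)) (XT.lf (nat_lit 76) (nat_lit 24549980305) (nat_lit 0) (nat_lit 1901450870) (nat_lit 1900) (nat_lit 3262212906) (nat_lit 482) (nat_lit 5) (nat_lit 481) (nat_lit 5) (nat_lit 506) (nat_lit 5) (nat_lit 631) (nat_lit 609) (nat_lit 320)))) (XT.nd (nat_lit 156) (nat_lit 0) (nat_lit 76) (XT.nd (nat_lit 78) (nat_lit 1900) (nat_lit 0) (XT.lf (nat_lit 76) (nat_lit 10771896824) (nat_lit 0) (nat_lit 18230684855) (nat_lit 1900) (nat_lit 1027315913) (nat_lit 483) (nat_lit 5) (nat_lit 482) (nat_lit 5) (nat_lit 507) (nat_lit 5) (nat_lit 632) (nat_lit 609) (nat_lit 319)) (XT.lf (nat_lit 0) (nat_lit 1281261797) (nat_lit 1900) (nat_lit 3278325763) (nat_lit 1976) (nat_lit 25791817987) (nat_lit 457) (nat_lit 5) (nat_lit 482) (nat_lit 5) (nat_lit 483) (nat_lit 5) (nat_lit 633) (nat_lit 609) (nat_lit 318))) (XT.nd (nat_lit 78) (nat_lit 0) (nat_lit 0) (XT.lf (nat_lit 0) (nat_lit 3767397764) (nat_lit 1900) (nat_lit 17553734900)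 (nat_lit 76) (nat_lit 9355172454) (nat_lit 458) (nat_lit 5) (nat_lit 483) (nat_lit 5) (nat_lit 459) (nat_lit 5) (nat_lit 634) (nat_lit 609) (nat_lit 317)) (XT.lf (nat_lit 0) (nat_lit 6353602269) (nat_lit 1900) (nat_lit 1143431451) (nat_lit 76) (nat_lit 23509662158) (nat_lit 458) (nat_lit 5) (nat_lit 483) (nat_lit 5) (nat_lit 459) (nat_lit 5) (nat_lit 635) (nat_lit 609) (nat_lit 316))))) (XT.nd (nat_lit 234) (nat_lit 1748) (nat_lit 0) (XT.nd (nat_lit 78) (nat_lit 912) (nat_lit 0) (XT.lf (nat_lit 0) (nat_lit 9135718350) (nat_lit 1140) (nat_lit 15584647337) (nat_lit 76) (nat_lit 6620445127) (nat_lit 444) (nat_lit 5) (nat_lit 459) (nat_lit 5) (nat_lit 445) (nat_lit 5) (nat_lit 636) (nat_lit 609) (nat_lit 315)) (XT.nd (nat_lit 78) (nat_lit 0) (nat_lit 0) (XT.lf (nat_lit 0) (nat_lit 1293312860) (nat_lit 912) (nat_lit 10744006767) (nat_lit 988) (nat_lit 19643011673) (nat_lit 432) (nat_lit 5) (nat_lit 444) (nat_lit 5) (nat_lit 445) (nat_lit 5) (nat_lit 637) (nat_lit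 609) (nat_lit 314)) (XT.lf (nat_lit 0) (nat_lit 15123128545) (nat_lit 988) (nat_lit 13329730447) (nat_lit 76) (nat_lit 3571259801) (nat_lit 432) (nat_lit 5) (nat_lit 445) (nat_lit 5) (nat_lit 433) (nat_lit 5) (nat_lit 638) (nat_lit 609) (nat_lit 313)))) (XT.nd (nat_lit 156) (nat_lit 836) (nat_lit 0) (XT.nd (nat_lit 78) (nat_lit 0) (nat_lit 0) (XT.lf (nat_lit 0) (nat_lit 4048915859) (nat_lit 912) (nat_lit 14317316024) (nat_lit 988) (nat_lit 14006638691) (nat_lit 420) (nat_lit 5) (nat_lit 432) (nat_lit 5) (nat_lit 433) (nat_lit 5) (nat_lit 639) (nat_lit 609) (nat_lit 312)) (XT.lf (nat_lit 0) (nat_lit 21763058199) (nat_lit 988) (nat_lit 10773996521) (nat_lit 76) (nat_lit 189765557) (nat_lit 420) (nat_lit 5) (nat_lit 433) (nat_lit 5) (nat_lit 421) (nat_lit 5) (nat_lit 640) (nat_lit 609) (nat_lit 311))) (XT.nd (nat_lit 78) (nat_lit 0) (nat_lit 0) (XT.lf (nat_lit 0) (nat_lit 7123845792) (nat_lit 836) (nat_lit 18243244316) (nat_lit 912) (nat_lit 7717973586) (nat_lit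 409) (nat_lit 5) (nat_lit 420) (nat_lit 5) (nat_lit 421) (nat_lit 5) (nat_lit 641) (nat_lit 609) (nat_lit 310)) (XT.lf (nat_lit 0) (nat_lit 25523971783) (nat_lit 836) (nat_lit 3589753882) (nat_lit 912) (nat_lit 4335335952) (nat_lit 409) (nat_lit 5) (nat_lit 420) (nat_lit 5) (nat_lit 421) (nat_lit 5) (nat_lit 642) (nat_lit 609) (nat_lit 309)))))) (XT.nd (nat_lit 546) (nat_lit 3648) (nat_lit 0) (XT.nd (nat_lit 234) (nat_lit 1596) (nat_lit 0) (XT.nd (nat_lit 78) (nat_lit 912) (nat_lit 0) (XT.lf (nat_lit 0) (nat_lit 10534467156) (nat_lit 836) (nat_lit 22541218468) (nat_lit 912) (nat_lit 741846139) (nat_lit 398) (nat_lit 5) (nat_lit 409) (nat_lit 5) (nat_lit 410) (nat_lit 5) (nat_lit 643) (nat_lit 609) (nat_lit 308)) (XT.nd (nat_lit 78) (nat_lit 836) (nat_lit 0) (XT.lf (nat_lit 0) (nat_lit 2960748588) (nat_lit 912) (nat_lit 4766503417) (nat_lit 76) (nat_lit 26464228221) (nat_lit 397) (nat_lit 5) (nat_lit 409) (nat_lit 5) (nat_lit 398) (nat_lit 5) (nat_lit 644)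 (nat_lit 609) (nat_lit 307)) (XT.lf (nat_lit 0) (nat_lit 6867212242) (nat_lit 912) (nat_lit 20318225244) (nat_lit 76) (nat_lit 7384577187) (nat_lit 386) (nat_lit 5) (nat_lit 398) (nat_lit 5) (nat_lit 387) (nat_lit 5) (nat_lit 645) (nat_lit 609) (nat_lit 306)))) (XT.nd (nat_lit 156) (nat_lit 760) (nat_lit 0) (XT.nd (nat_lit 78) (nat_lit 836) (nat_lit 0) (XT.lf (nat_lit 0) (nat_lit 10933503323) (nat_lit 912) (nat_lit 1293525712) (nat_lit 76) (nat_lit 22727456899) (nat_lit 386) (nat_lit 5) (nat_lit 398) (nat_lit 5) (nat_lit 387) (nat_lit 5) (nat_lit 646) (nat_lit 609) (nat_lit 305)) (XT.lf (nat_lit 0) (nat_lit 15219089451) (nat_lit 912) (nat_lit 17014107325) (nat_lit 76) (nat_lit 3110690548) (nat_lit 375) (nat_lit 5) (nat_lit 387) (nat_lit 5) (nat_lit 376) (nat_lit 5) (nat_lit 647) (nat_lit 609) (nat_lit 304))) (XT.nd (nat_lit 78) (nat_lit 0) (nat_lit 0) (XT.lf (nat_lit 0) (nat_lit 2573192879) (nat_lit 760) (nat_lit 17121993196) (nat_lit 836) (nat_lit 16043794779)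 (nat_lit 365) (nat_lit 5) (nat_lit 375) (nat_lit 5) (nat_lit 376) (nat_lit 5) (nat_lit 648) (nat_lit 609) (nat_lit 303)) (XT.lf (nat_lit 0) (nat_lit 22781174425) (nat_lit 760) (nat_lit 1592205039) (nat_lit 836) (nat_lit 11766345376) (nat_lit 365) (nat_lit 5) (nat_lit 375) (nat_lit 5) (nat_lit 376) (nat_lit 5) (nat_lit 649) (nat_lit 609) (nat_lit 302))))) (XT.nd (nat_lit 312) (nat_lit 2128) (nat_lit 0) (XT.nd (nat_lit 156) (nat_lit 760) (nat_lit 0) (XT.nd (nat_lit 78) (nat_lit 0) (nat_lit 0) (XT.lf (nat_lit 0) (nat_lit 6840342652) (nat_lit 760) (nat_lit 22440146695) (nat_lit 836) (nat_lit 7265287392) (nat_lit 355) (nat_lit 5) (nat_lit 365) (nat_lit 5) (nat_lit 366) (nat_lit 5) (nat_lit 650) (nat_lit 609) (nat_lit 301)) (XT.lf (nat_lit 0) (nat_lit 27611925913) (nat_lit 760) (nat_lit 6772385230) (nat_lit 836) (nat_lit 2573667218) (nat_lit 355) (nat_lit 5) (nat_lit 365) (nat_lit 5) (nat_lit 366) (nat_lit 5) (nat_lit 651) (nat_lit 609) (nat_lit 300))) (XT.nd (nat_lit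 78) (nat_lit 0) (nat_lit 0) (XT.lf (nat_lit 0) (nat_lit 2316659186) (nat_lit 760) (nat_lit 25881000250) (nat_lit 76) (nat_lit 9177799816) (nat_lit 345) (nat_lit 5) (nat_lit 355) (nat_lit 5) (nat_lit 346) (nat_lit 5) (nat_lit 652) (nat_lit 609) (nat_lit 299)) (XT.lf (nat_lit 0) (nat_lit 7376835667) (nat_lit 760) (nat_lit 4985563779) (nat_lit 76) (nat_lit 25436420052) (nat_lit 345) (nat_lit 5) (nat_lit 355) (nat_lit 5) (nat_lit 346) (nat_lit 5) (nat_lit 653) (nat_lit 609) (nat_lit 298)))) (XT.nd (nat_lit 156) (nat_lit 1368) (nat_lit 0) (XT.nd (nat_lit 78) (nat_lit 0) (nat_lit 0) (XT.lf (nat_lit 0) (nat_lit 12669458801) (nat_lit 836) (nat_lit 21710750378) (nat_lit 76) (nat_lit 3847812983) (nat_lit 335) (nat_lit 5) (nat_lit 346) (nat_lit 5) (nat_lit 336) (nat_lit 5) (nat_lit 654) (nat_lit 609) (nat_lit 297)) (XT.lf (nat_lit 0) (nat_lit 18182018917) (nat_lit 836) (nat_lit 231158499) (nat_lit 76) (nat_lit 20250349847) (nat_lit 335) (nat_lit 5) (nat_lit 346) (nat_lit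 5) (nat_lit 336) (nat_lit 5) (nat_lit 655) (nat_lit 609) (nat_lit 296))) (XT.nd (nat_lit 78) (nat_lit 684) (nat_lit 0) (XT.lf (nat_lit 0) (nat_lit 21964454094) (nat_lit 684) (nat_lit 1981549639) (nat_lit 760) (nat_lit 15158915335) (nat_lit 326) (nat_lit 5) (nat_lit 335) (nat_lit 5) (nat_lit 336) (nat_lit 5) (nat_lit 656) (nat_lit 609) (nat_lit 295)) (XT.lf (nat_lit 0) (nat_lit 5020227244) (nat_lit 684) (nat_lit 24933732179) (nat_lit 760) (nat_lit 9598605533) (nat_lit 317) (nat_lit 5) (nat_lit 326) (nat_lit 5) (nat_lit 327) (nat_lit 5) (nat_lit 657) (nat_lit 609) (nat_lit 294))))))))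
noncomputable def xc229 : XT := (XT.nd (nat_lit 78468) (nat_lit 0) (nat_lit 8436) (XT.nd (nat_lit 1092) (nat_lit 532) (nat_lit 0) (XT.nd (nat_lit 546) (nat_lit 2432) (nat_lit 0) (XT.nd (nat_lit 234) (nat_lit 1900) (nat_lit 0) (XT.nd (nat_lit 78) (nat_lit 684) (nat_lit 0) (XT.lf (nat_lit 0) (nat_lit 27841535329) (nat_lit 684) (nat_lit 8367195954) (nat_lit 760) (nat_lit 3797899407) (nat_lit 317) (nat_lit 5) (nat_lit 326) (nat_lit 5) (nat_lit 327) (nat_lit 5) (nat_lit 658) (nat_lit 609) (nat_lit 293)) (XT.nd (nat_lit 78) (nat_lit 0) (nat_lit 0) (XT.lf (nat_lit 0) (nat_lit 2215550239) (nat_lit 684) (nat_lit 29748644447) (nat_lit 76) (nat_lit 8502817623) (nat_lit 308) (nat_lit 5) (nat_lit 317) (nat_lit 5) (nat_lit 309) (nat_lit 5) (nat_lit 659) (nat_lit 609) (nat_lit 292)) (XT.lf (nat_lit 0) (nat_lit 8434681512) (nat_lit 684) (nat_lit 6793317091) (nat_lit 76) (nat_lit 25705375610) (nat_lit 308) (nat_lit 5) (nat_lit 317) (nat_lit 5) (nat_lit 309) (nat_lit 5) (nat_lit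 660) (nat_lit 609) (nat_lit 291)))) (XT.nd (nat_lit 156) (nat_lit 1216) (nat_lit 0) (XT.nd (nat_lit 78) (nat_lit 0) (nat_lit 0) (XT.lf (nat_lit 0) (nat_lit 14898881127) (nat_lit 760) (nat_lit 24579223194) (nat_lit 76) (nat_lit 1928545383) (nat_lit 299) (nat_lit 5) (nat_lit 309) (nat_lit 5) (nat_lit 300) (nat_lit 5) (nat_lit 661) (nat_lit 609) (nat_lit 290)) (XT.lf (nat_lit 0) (nat_lit 21637774202) (nat_lit 760) (nat_lit 978585708) (nat_lit 76) (nat_lit 19270122668) (nat_lit 299) (nat_lit 5) (nat_lit 309) (nat_lit 5) (nat_lit 300) (nat_lit 5) (nat_lit 662) (nat_lit 609) (nat_lit 289))) (XT.nd (nat_lit 78) (nat_lit 608) (nat_lit 0) (XT.lf (nat_lit 0) (nat_lit 23399355843) (nat_lit 608) (nat_lit 5262712613) (nat_lit 684) (nat_lit 13710831249) (nat_lit 291) (nat_lit 5) (nat_lit 299) (nat_lit 5) (nat_lit 300) (nat_lit 5) (nat_lit 663) (nat_lit 609) (nat_lit 288)) (XT.lf (nat_lit 0) (nat_lit 5397589673) (nat_lit 608) (nat_lit 30550382217) (nat_lit 684) (nat_lit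 6918650880) (nat_lit 283) (nat_lit 5) (nat_lit 291) (nat_lit 5) (nat_lit 292) (nat_lit 5) (nat_lit 664) (nat_lit 609) (nat_lit 287))))) (XT.nd (nat_lit 234) (nat_lit 1748) (nat_lit 0) (XT.nd (nat_lit 78) (nat_lit 608) (nat_lit 0) (XT.lf (nat_lit 0) (nat_lit 170987063) (nat_lit 684) (nat_lit 12891708314) (nat_lit 76) (nat_lit 30304289021) (nat_lit 282) (nat_lit 5) (nat_lit 291) (nat_lit 5) (nat_lit 283) (nat_lit 5) (nat_lit 665) (nat_lit 609) (nat_lit 286)) (XT.nd (nat_lit 78) (nat_lit 0) (nat_lit 0) (XT.lf (nat_lit 0) (nat_lit 7420239246) (nat_lit 684) (nat_lit 31615738033) (nat_lit 76) (nat_lit 4838252148) (nat_lit 274) (nat_lit 5) (nat_lit 283) (nat_lit 5) (nat_lit 275) (nat_lit 5) (nat_lit 666) (nat_lit 609) (nat_lit 285)) (XT.lf (nat_lit 0) (nat_lit 14986823668) (nat_lit 684) (nat_lit 6392120309) (nat_lit 76) (nat_lit 23009228491) (nat_lit 274) (nat_lit 5) (nat_lit 283) (nat_lit 5) (nat_lit 275) (nat_lit 5) (nat_lit 667) (nat_lit 609) (nat_lit 284))))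 (XT.nd (nat_lit 156) (nat_lit 608) (nat_lit 0) (XT.nd (nat_lit 78) (nat_lit 532) (nat_lit 0) (XT.lf (nat_lit 0) (nat_lit 19591349210) (nat_lit 608) (nat_lit 3239371208) (nat_lit 684) (nat_lit 22079154394) (nat_lit 266) (nat_lit 5) (nat_lit 274) (nat_lit 5) (nat_lit 275) (nat_lit 5) (nat_lit 668) (nat_lit 609) (nat_lit 283)) (XT.lf (nat_lit 0) (nat_lit 647516191) (nat_lit 532) (nat_lit 30329251210) (nat_lit 608) (nat_lit 14462338409) (nat_lit 259) (nat_lit 5) (nat_lit 266) (nat_lit 5) (nat_lit 267) (nat_lit 5) (nat_lit 669) (nat_lit 609) (nat_lit 282))) (XT.nd (nat_lit 78) (nat_lit 608) (nat_lit 0) (XT.lf (nat_lit 0) (nat_lit 27452774348) (nat_lit 532) (nat_lit 12022978937) (nat_lit 608) (nat_lit 6499367838) (nat_lit 259) (nat_lit 5) (nat_lit 266) (nat_lit 5) (nat_lit 267) (nat_lit 5) (nat_lit 670) (nat_lit 609) (nat_lit 281)) (XT.lf (nat_lit 0) (nat_lit 1698342371) (nat_lit 608) (nat_lit 38194215481) (nat_lit 76) (nat_lit 6627152918) (nat_lit 251) (nat_lit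 5) (nat_lit 259) (nat_lit 5) (nat_lit 252) (nat_lit 5) (nat_lit 671) (nat_lit 609) (nat_lit 280)))))) (XT.nd (nat_lit 76752) (nat_lit 0) (nat_lit 17404) (XT.nd (nat_lit 76440) (nat_lit 0) (nat_lit 17252) (XT.nd (nat_lit 78) (nat_lit 532) (nat_lit 0) (XT.lf (nat_lit 0) (nat_lit 10176633777) (nat_lit 608) (nat_lit 11236386128) (nat_lit 76) (nat_lit 25657240068) (nat_lit 251) (nat_lit 5) (nat_lit 259) (nat_lit 5) (nat_lit 252) (nat_lit 5) (nat_lit 672) (nat_lit 609) (nat_lit 279)) (XT.nd (nat_lit 76284) (nat_lit 0) (nat_lit 17252) (XT.lf (nat_lit 0) (nat_lit 16475143297) (nat_lit 532) (nat_lit 2455170136) (nat_lit 608) (nat_lit 28699390327) (nat_lit 244) (nat_lit 5) (nat_lit 251) (nat_lit 5) (nat_lit 252) (nat_lit 5) (nat_lit 673) (nat_lit 609) (nat_lit 278)) (XT.lf (nat_lit 0) (nat_lit 518959858) (nat_lit 1900) (nat_lit 5793442837) (nat_lit 1900) (nat_lit 5793442837) (nat_lit 471) (nat_lit 3) (nat_lit 496) (nat_lit 3) (nat_lit 496) (nat_lit 5) (nat_lit 610)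 (nat_lit 610) (nat_lit 340)))) (XT.nd (nat_lit 156) (nat_lit 0) (nat_lit 76) (XT.nd (nat_lit 78) (nat_lit 0) (nat_lit 76) (XT.lf (nat_lit 76) (nat_lit 427333255) (nat_lit 0) (nat_lit 736678859) (nat_lit 1900) (nat_lit 23287474751) (nat_lit 472) (nat_lit 5) (nat_lit 471) (nat_lit 3) (nat_lit 496) (nat_lit 5) (nat_lit 611) (nat_lit 610) (nat_lit 339)) (XT.lf (nat_lit 0) (nat_lit 1441878691) (nat_lit 1824) (nat_lit 11931684872) (nat_lit 1900) (nat_lit 11319530147) (nat_lit 472) (nat_lit 5) (nat_lit 496) (nat_lit 5) (nat_lit 497) (nat_lit 5) (nat_lit 612) (nat_lit 610) (nat_lit 338))) (XT.nd (nat_lit 78) (nat_lit 0) (nat_lit 76) (XT.lf (nat_lit 76) (nat_lit 401451058) (nat_lit 0) (nat_lit 1328431791) (nat_lit 1900) (nat_lit 23209558417) (nat_lit 473) (nat_lit 5) (nat_lit 472) (nat_lit 5) (nat_lit 497) (nat_lit 5) (nat_lit 613) (nat_lit 610) (nat_lit 337)) (XT.lf (nat_lit 0) (nat_lit 2172539625) (nat_lit 1824) (nat_lit 12119425923) (nat_lit 1900) (nat_lit 10895772545)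 (nat_lit 473) (nat_lit 5) (nat_lit 497) (nat_lit 5) (nat_lit 498) (nat_lit 5) (nat_lit 614) (nat_lit 610) (nat_lit 336))))) (XT.nd (nat_lit 312) (nat_lit 0) (nat_lit 152) (XT.nd (nat_lit 156) (nat_lit 0) (nat_lit 76) (XT.nd (nat_lit 78) (nat_lit 0) (nat_lit 76) (XT.lf (nat_lit 76) (nat_lit 544257899) (nat_lit 0) (nat_lit 2089329131) (nat_lit 1900) (nat_lit 22807223246) (nat_lit 474) (nat_lit 5) (nat_lit 473) (nat_lit 5) (nat_lit 498) (nat_lit 5) (nat_lit 615) (nat_lit 610) (nat_lit 335)) (XT.lf (nat_lit 0) (nat_lit 3250226895) (nat_lit 1824) (nat_lit 12141249869) (nat_lit 1900) (nat_lit 10304539874) (nat_lit 474) (nat_lit 5) (nat_lit 498) (nat_lit 5) (nat_lit 499) (nat_lit 5) (nat_lit 616) (nat_lit 610) (nat_lit 334))) (XT.nd (nat_lit 78) (nat_lit 0) (nat_lit 76) (XT.lf (nat_lit 76) (nat_lit 865055189) (nat_lit 0) (nat_lit 3030909595) (nat_lit 1900) (nat_lit 22060027204) (nat_lit 475) (nat_lit 5) (nat_lit 474) (nat_lit 5) (nat_lit 499) (nat_lit 5) (nat_lit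 617) (nat_lit 610) (nat_lit 333)) (XT.lf (nat_lit 0) (nat_lit 4696171737) (nat_lit 1824) (nat_lit 11987853602) (nat_lit 1900) (nat_lit 9534310577) (nat_lit 475) (nat_lit 5) (nat_lit 499) (nat_lit 5) (nat_lit 500) (nat_lit 5) (nat_lit 618) (nat_lit 610) (nat_lit 332)))) (XT.nd (nat_lit 156) (nat_lit 0) (nat_lit 76) (XT.nd (nat_lit 78) (nat_lit 0) (nat_lit 76) (XT.lf (nat_lit 76) (nat_lit 1373605186) (nat_lit 0) (nat_lit 4165181169) (nat_lit 1900) (nat_lit 20946612453) (nat_lit 476) (nat_lit 5) (nat_lit 475) (nat_lit 5) (nat_lit 500) (nat_lit 5) (nat_lit 619) (nat_lit 610) (nat_lit 331)) (XT.lf (nat_lit 0) (nat_lit 6532553128) (nat_lit 1824) (nat_lit 11649473589) (nat_lit 1900) (nat_lit 8573090399) (nat_lit 476) (nat_lit 5) (nat_lit 500) (nat_lit 5) (nat_lit 501) (nat_lit 5) (nat_lit 620) (nat_lit 610) (nat_lit 330))) (XT.nd (nat_lit 78) (nat_lit 0) (nat_lit 76) (XT.lf (nat_lit 76) (nat_lit 2080147922) (nat_lit 0) (nat_lit 5504645987) (nat_lit 1900) (nat_lit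 19444664057) (nat_lit 477) (nat_lit 5) (nat_lit 476) (nat_lit 5) (nat_lit 501) (nat_lit 5) (nat_lit 621) (nat_lit 610) (nat_lit 329)) (XT.lf (nat_lit 0) (nat_lit 8782540239) (nat_lit 1824) (nat_lit 11115868851) (nat_lit 1900) (nat_lit 7408387476) (nat_lit 477) (nat_lit 5) (nat_lit 501) (nat_lit 5) (nat_lit 502) (nat_lit 5) (nat_lit 622) (nat_lit 610) (nat_lit 328))))))) (XT.nd (nat_lit 1170) (nat_lit 6764) (nat_lit 0) (XT.nd (nat_lit 546) (nat_lit 2508) (nat_lit 0) (XT.nd (nat_lit 234) (nat_lit 0) (nat_lit 152) (XT.nd (nat_lit 78) (nat_lit 0) (nat_lit 76) (XT.lf (nat_lit 76) (nat_lit 2995418891) (nat_lit 0) (nat_lit 7062326021) (nat_lit 1900) (nat_lit 17530867102) (nat_lit 478) (nat_lit 5) (nat_lit 477) (nat_lit 5) (nat_lit 502) (nat_lit 5) (nat_lit 623) (nat_lit 610) (nat_lit 327)) (XT.nd (nat_lit 78) (nat_lit 0) (nat_lit 0) (XT.lf (nat_lit 0) (nat_lit 11470336500) (nat_lit 1824) (nat_lit 10376303179) (nat_lit 1900) (nat_lit 6027186576) (nat_lit 478) (nat_lit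 5) (nat_lit 502) (nat_lit 5) (nat_lit 503) (nat_lit 5) (nat_lit 624) (nat_lit 610) (nat_lit 326)) (XT.lf (nat_lit 76) (nat_lit 4130667533) (nat_lit 0) (nat_lit 8851789661) (nat_lit 1900) (nat_lit 15180862182) (nat_lit 479) (nat_lit 5) (nat_lit 478) (nat_lit 5) (nat_lit 503) (nat_lit 5) (nat_lit 625) (nat_lit 610) (nat_lit 325)))) (XT.nd (nat_lit 156) (nat_lit 0) (nat_lit 76) (XT.nd (nat_lit 78) (nat_lit 0) (nat_lit 0) (XT.lf (nat_lit 0) (nat_lit 14621225371) (nat_lit 1824) (nat_lit 9419526556) (nat_lit 1900) (nat_lit 4415922466) (nat_lit 479) (nat_lit 5) (nat_lit 503) (nat_lit 5) (nat_lit 504) (nat_lit 5) (nat_lit 626) (nat_lit 610) (nat_lit 324)) (XT.lf (nat_lit 76) (nat_lit 5497676524) (nat_lit 0) (nat_lit 10887179215) (nat_lit 1900) (nat_lit 12369199169) (nat_lit 480) (nat_lit 5) (nat_lit 479) (nat_lit 5) (nat_lit 504) (nat_lit 5) (nat_lit 627) (nat_lit 610) (nat_lit 323))) (XT.nd (nat_lit 78) (nat_lit 0) (nat_lit 0) (XT.lf (nat_lit 0) (nat_lit 18261617873)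 (nat_lit 1824) (nat_lit 8233755777) (nat_lit 1900) (nat_lit 2560452331) (nat_lit 480) (nat_lit 5) (nat_lit 504) (nat_lit 5) (nat_lit 505) (nat_lit 5) (nat_lit 628) (nat_lit 610) (nat_lit 322)) (XT.lf (nat_lit 76) (nat_lit 7108781908) (nat_lit 0) (nat_lit 13183239383) (nat_lit 1900) (nat_lit 9069289192) (nat_lit 481) (nat_lit 5) (nat_lit 480) (nat_lit 5) (nat_lit 505) (nat_lit 5) (nat_lit 629) (nat_lit 610) (nat_lit 321))))) (XT.nd (nat_lit 312) (nat_lit 2812) (nat_lit 0) (XT.nd (nat_lit 156) (nat_lit 0) (nat_lit 0) (XT.nd (nat_lit 78) (nat_lit 0) (nat_lit 0) (XT.lf (nat_lit 0) (nat_lit 22419101970) (nat_lit 1824) (nat_lit 6806654236) (nat_lit 1900) (nat_lit 446027211) (nat_lit 481) (nat_lit 5) (nat_lit 505) (nat_lit 5) (nat_lit 506) (nat_lit 5) (nat_lit 630) (nat_lit 610) (nat_lit 320)) (XT.lf (nat_lit 76) (nat_lit 8976894083) (nat_lit 0) (nat_lit 15755346771) (nat_lit 1900) (nat_lit 5253354748) (nat_lit 482) (nat_lit 5) (nat_lit 481) (nat_lit 5) (nat_lit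 506) (nat_lit 5) (nat_lit 631) (nat_lit 610) (nat_lit 319))) (XT.nd (nat_lit 78) (nat_lit 0) (nat_lit 76) (XT.lf (nat_lit 76) (nat_lit 25166719483) (nat_lit 0) (nat_lit 1968555564) (nat_lit 1900) (nat_lit 3169536451) (nat_lit 482) (nat_lit 5) (nat_lit 481) (nat_lit 5) (nat_lit 506) (nat_lit 5) (nat_lit 632) (nat_lit 610) (nat_lit 318)) (XT.lf (nat_lit 76) (nat_lit 11115519669) (nat_lit 0) (nat_lit 18619540485) (nat_lit 1900) (nat_lit 892377874) (nat_lit 483) (nat_lit 5) (nat_lit 482) (nat_lit 5) (nat_lit 507) (nat_lit 5) (nat_lit 633) (nat_lit 610) (nat_lit 317)))) (XT.nd (nat_lit 156) (nat_lit 988) (nat_lit 0) (XT.nd (nat_lit 78) (nat_lit 0) (nat_lit 76) (XT.lf (nat_lit 0) (nat_lit 1457323457) (nat_lit 1900) (nat_lit 3216212948) (nat_lit 1976) (nat_lit 26281879895) (nat_lit 457) (nat_lit 5) (nat_lit 482) (nat_lit 5) (nat_lit 483) (nat_lit 5) (nat_lit 634) (nat_lit 610) (nat_lit 316)) (XT.lf (nat_lit 0) (nat_lit 3990916530) (nat_lit 1900) (nat_lit 17774856194)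 (nat_lit 76) (nat_lit 9521086618) (nat_lit 458) (nat_lit 5) (nat_lit 483) (nat_lit 5) (nat_lit 459) (nat_lit 5) (nat_lit 635) (nat_lit 610) (nat_lit 315))) (XT.nd (nat_lit 78) (nat_lit 1064) (nat_lit 0) (XT.lf (nat_lit 0) (nat_lit 6625939816) (nat_lit 1900) (nat_lit 1038894781) (nat_lit 76) (nat_lit 23959081592) (nat_lit 458) (nat_lit 5) (nat_lit 483) (nat_lit 5) (nat_lit 459) (nat_lit 5) (nat_lit 636) (nat_lit 610) (nat_lit 314)) (XT.lf (nat_lit 0) (nat_lit 9461563388) (nat_lit 1140) (nat_lit 15766792022) (nat_lit 76) (nat_lit 6736400873) (nat_lit 444) (nat_lit 5) (nat_lit 459) (nat_lit 5) (nat_lit 445) (nat_lit 5) (nat_lit 637) (nat_lit 610) (nat_lit 313)))))) (XT.nd (nat_lit 546) (nat_lit 3268) (nat_lit 0) (XT.nd (nat_lit 234) (nat_lit 1672) (nat_lit 0) (XT.nd (nat_lit 78) (nat_lit 912) (nat_lit 0) (XT.lf (nat_lit 0) (nat_lit 1447875087) (nat_lit 912) (nat_lit 10971350700) (nat_lit 988) (nat_lit 19891880971) (nat_lit 432) (nat_lit 5) (nat_lit 444) (nat_lit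 5) (nat_lit 445) (nat_lit 5) (nat_lit 638) (nat_lit 610) (nat_lit 312)) (XT.nd (nat_lit 78) (nat_lit 912) (nat_lit 0) (XT.lf (nat_lit 0) (nat_lit 15563903707) (nat_lit 988) (nat_lit 13467297544) (nat_lit 76) (nat_lit 3630625848) (nat_lit 432) (nat_lit 5) (nat_lit 445) (nat_lit 5) (nat_lit 433) (nat_lit 5) (nat_lit 639) (nat_lit 610) (nat_lit 311)) (XT.lf (nat_lit 0) (nat_lit 4258072823) (nat_lit 912) (nat_lit 14611916499) (nat_lit 988) (nat_lit 14147602344) (nat_lit 420) (nat_lit 5) (nat_lit 432) (nat_lit 5) (nat_lit 433) (nat_lit 5) (nat_lit 640) (nat_lit 610) (nat_lit 310)))) (XT.nd (nat_lit 156) (nat_lit 836) (nat_lit 0) (XT.nd (nat_lit 78) (nat_lit 836) (nat_lit 0) (XT.lf (nat_lit 0) (nat_lit 22332024470) (nat_lit 988) (nat_lit 10861075904) (nat_lit 76) (nat_lit 185574692) (nat_lit 420) (nat_lit 5) (nat_lit 433) (nat_lit 5) (nat_lit 421) (nat_lit 5) (nat_lit 641) (nat_lit 610) (nat_lit 309)) (XT.lf (nat_lit 0) (nat_lit 7393878514) (nat_lit 836) (nat_lit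 18612465012) (nat_lit 912) (nat_lit 7737775843) (nat_lit 409) (nat_lit 5) (nat_lit 420) (nat_lit 5) (nat_lit 421) (nat_lit 5) (nat_lit 642) (nat_lit 610) (nat_lit 308))) (XT.nd (nat_lit 78) (nat_lit 836) (nat_lit 0) (XT.lf (nat_lit 0) (nat_lit 26159505931) (nat_lit 836) (nat_lit 3665819361) (nat_lit 912) (nat_lit 4290123834) (nat_lit 409) (nat_lit 5) (nat_lit 420) (nat_lit 5) (nat_lit 421) (nat_lit 5) (nat_lit 643) (nat_lit 610) (nat_lit 307)) (XT.lf (nat_lit 0) (nat_lit 10871992687) (nat_lit 836) (nat_lit 22992792298) (nat_lit 912) (nat_lit 626538620) (nat_lit 398) (nat_lit 5) (nat_lit 409) (nat_lit 5) (nat_lit 410) (nat_lit 5) (nat_lit 644) (nat_lit 610) (nat_lit 306))))) (XT.nd (nat_lit 312) (nat_lit 1520) (nat_lit 0) (XT.nd (nat_lit 156) (nat_lit 836) (nat_lit 0) (XT.nd (nat_lit 78) (nat_lit 836) (nat_lit 0) (XT.lf (nat_lit 0) (nat_lit 3145882751) (nat_lit 912) (nat_lit 4735804077) (nat_lit 76) (nat_lit 26991097815) (nat_lit 397) (nat_lit 5) (nat_lit 409)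 (nat_lit 5) (nat_lit 398) (nat_lit 5) (nat_lit 645) (nat_lit 610) (nat_lit 305)) (XT.lf (nat_lit 0) (nat_lit 7128825642) (nat_lit 912) (nat_lit 20596903632) (nat_lit 76) (nat_lit 7533193638) (nat_lit 386) (nat_lit 5) (nat_lit 398) (nat_lit 5) (nat_lit 387) (nat_lit 5) (nat_lit 646) (nat_lit 610) (nat_lit 304))) (XT.nd (nat_lit 78) (nat_lit 836) (nat_lit 0) (XT.lf (nat_lit 0) (nat_lit 11274005894) (nat_lit 912) (nat_lit 1194213759) (nat_lit 76) (nat_lit 23182912808) (nat_lit 386) (nat_lit 5) (nat_lit 398) (nat_lit 5) (nat_lit 387) (nat_lit 5) (nat_lit 647) (nat_lit 610) (nat_lit 303)) (XT.lf (nat_lit 0) (nat_lit 15643748964) (nat_lit 912) (nat_lit 17227645810) (nat_lit 76) (nat_lit 3176958330) (nat_lit 375) (nat_lit 5) (nat_lit 387) (nat_lit 5) (nat_lit 376) (nat_lit 5) (nat_lit 648) (nat_lit 610) (nat_lit 302)))) (XT.nd (nat_lit 156) (nat_lit 760) (nat_lit 0) (XT.nd (nat_lit 78) (nat_lit 0) (nat_lit 0) (XT.lf (nat_lit 0) (nat_lit 2750566558) (nat_lit 760)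 (nat_lit 17457260065) (nat_lit 836) (nat_lit 16243552824) (nat_lit 365) (nat_lit 5) (nat_lit 375) (nat_lit 5) (nat_lit 376) (nat_lit 5) (nat_lit 649) (nat_lit 610) (nat_lit 301)) (XT.lf (nat_lit 0) (nat_lit 23360238915) (nat_lit 760) (nat_lit 1617016793) (nat_lit 836) (nat_lit 11882929293) (nat_lit 365) (nat_lit 5) (nat_lit 375) (nat_lit 5) (nat_lit 376) (nat_lit 5) (nat_lit 650) (nat_lit 610) (nat_lit 300))) (XT.nd (nat_lit 78) (nat_lit 0) (nat_lit 0) (XT.lf (nat_lit 0) (nat_lit 7102052015) (nat_lit 760) (nat_lit 22879028963) (nat_lit 836) (nat_lit 7293305615) (nat_lit 355) (nat_lit 5) (nat_lit 365) (nat_lit 5) (nat_lit 366) (nat_lit 5) (nat_lit 651) (nat_lit 610) (nat_lit 299)) (XT.lf (nat_lit 0) (nat_lit 28286617873) (nat_lit 760) (nat_lit 6898106791) (nat_lit 836) (nat_lit 2510152793) (nat_lit 355) (nat_lit 5) (nat_lit 365) (nat_lit 5) (nat_lit 366) (nat_lit 5) (nat_lit 652) (nat_lit 610) (nat_lit 298))))))))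
noncomputable def xc230 : XT := (XT.nd (nat_lit 78546) (nat_lit 0) (nat_lit 10260) (XT.nd (nat_lit 1092) (nat_lit 2356) (nat_lit 0) (XT.nd (nat_lit 546) (nat_lit 2660) (nat_lit 0) (XT.nd (nat_lit 234) (nat_lit 1368) (nat_lit 0) (XT.nd (nat_lit 78) (nat_lit 760) (nat_lit 0) (XT.lf (nat_lit 0) (nat_lit 2475118597) (nat_lit 760) (nat_lit 26273293769) (nat_lit 76) (nat_lit 9372307851) (nat_lit 345) (nat_lit 5) (nat_lit 355) (nat_lit 5) (nat_lit 346) (nat_lit 5) (nat_lit 653) (nat_lit 610) (nat_lit 297)) (XT.nd (nat_lit 78) (nat_lit 760) (nat_lit 0) (XT.lf (nat_lit 0) (nat_lit 7634300054) (nat_lit 760) (nat_lit 4962405951) (nat_lit 76) (nat_lit 25955885746) (nat_lit 345) (nat_lit 5) (nat_lit 355) (nat_lit 5) (nat_lit 346) (nat_lit 5) (nat_lit 654) (nat_lit 610) (nat_lit 296)) (XT.lf (nat_lit 0) (nat_lit 13031500331) (nat_lit 836) (nat_lit 22020815488) (nat_lit 76) (nat_lit 3938088265) (nat_lit 335) (nat_lit 5) (nat_lit 346) (nat_lit 5) (nat_lit 336) (nat_lit 5)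 (nat_lit 655) (nat_lit 610) (nat_lit 295)))) (XT.nd (nat_lit 156) (nat_lit 684) (nat_lit 0) (XT.nd (nat_lit 78) (nat_lit 684) (nat_lit 0) (XT.lf (nat_lit 0) (nat_lit 18652181211) (nat_lit 836) (nat_lit 114066083) (nat_lit 76) (nat_lit 20668414709) (nat_lit 335) (nat_lit 5) (nat_lit 346) (nat_lit 5) (nat_lit 336) (nat_lit 5) (nat_lit 656) (nat_lit 610) (nat_lit 294)) (XT.lf (nat_lit 0) (nat_lit 22524658001) (nat_lit 684) (nat_lit 2005484117) (nat_lit 760) (nat_lit 15354765705) (nat_lit 326) (nat_lit 5) (nat_lit 335) (nat_lit 5) (nat_lit 336) (nat_lit 5) (nat_lit 657) (nat_lit 610) (nat_lit 293))) (XT.nd (nat_lit 78) (nat_lit 0) (nat_lit 0) (XT.lf (nat_lit 0) (nat_lit 5242745628) (nat_lit 684) (nat_lit 25414340948) (nat_lit 760) (nat_lit 9684443563) (nat_lit 317) (nat_lit 5) (nat_lit 326) (nat_lit 5) (nat_lit 327) (nat_lit 5) (nat_lit 658) (nat_lit 610) (nat_lit 292)) (XT.lf (nat_lit 0) (nat_lit 28518085486) (nat_lit 684) (nat_lit 8516828232) (nat_lit 760) (nat_lit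 3769804375) (nat_lit 317) (nat_lit 5) (nat_lit 326) (nat_lit 5) (nat_lit 327) (nat_lit 5) (nat_lit 659) (nat_lit 610) (nat_lit 291))))) (XT.nd (nat_lit 234) (nat_lit 1292) (nat_lit 0) (XT.nd (nat_lit 78) (nat_lit 684) (nat_lit 0) (XT.lf (nat_lit 0) (nat_lit 2361439411) (nat_lit 684) (nat_lit 30221413216) (nat_lit 76) (nat_lit 8691463505) (nat_lit 308) (nat_lit 5) (nat_lit 317) (nat_lit 5) (nat_lit 309) (nat_lit 5) (nat_lit 660) (nat_lit 610) (nat_lit 290)) (XT.nd (nat_lit 78) (nat_lit 684) (nat_lit 0) (XT.lf (nat_lit 0) (nat_lit 8702961580) (nat_lit 684) (nat_lit 6809375471) (nat_lit 76) (nat_lit 26237708151) (nat_lit 308) (nat_lit 5) (nat_lit 317) (nat_lit 5) (nat_lit 309) (nat_lit 5) (nat_lit 661) (nat_lit 610) (nat_lit 289)) (XT.lf (nat_lit 0) (nat_lit 15295399102) (nat_lit 760) (nat_lit 24949948940) (nat_lit 76) (nat_lit 1987459177) (nat_lit 299) (nat_lit 5) (nat_lit 309) (nat_lit 5) (nat_lit 300) (nat_lit 5) (nat_lit 662) (nat_lit 610) (nat_lit 288))))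 (XT.nd (nat_lit 156) (nat_lit 684) (nat_lit 0) (XT.nd (nat_lit 78) (nat_lit 608) (nat_lit 0) (XT.lf (nat_lit 0) (nat_lit 22167137875) (nat_lit 760) (nat_lit 879668484) (nat_lit 76) (nat_lit 19675469128) (nat_lit 299) (nat_lit 5) (nat_lit 309) (nat_lit 5) (nat_lit 300) (nat_lit 5) (nat_lit 663) (nat_lit 610) (nat_lit 287)) (XT.lf (nat_lit 0) (nat_lit 23985052367) (nat_lit 608) (nat_lit 5345735617) (nat_lit 684) (nat_lit 13887655663) (nat_lit 291) (nat_lit 5) (nat_lit 299) (nat_lit 5) (nat_lit 300) (nat_lit 5) (nat_lit 664) (nat_lit 610) (nat_lit 286))) (XT.nd (nat_lit 78) (nat_lit 76) (nat_lit 0) (XT.lf (nat_lit 0) (nat_lit 5624234539) (nat_lit 608) (nat_lit 31137214971) (nat_lit 684) (nat_lit 6960610950) (nat_lit 283) (nat_lit 5) (nat_lit 291) (nat_lit 5) (nat_lit 292) (nat_lit 5) (nat_lit 665) (nat_lit 610) (nat_lit 285)) (XT.lf (nat_lit 0) (nat_lit 267689622) (nat_lit 684) (nat_lit 13031932813) (nat_lit 76) (nat_lit 30932831765) (nat_lit 282) (nat_lit 5)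 (nat_lit 291) (nat_lit 5) (nat_lit 283) (nat_lit 5) (nat_lit 666) (nat_lit 610) (nat_lit 284)))))) (XT.nd (nat_lit 76830) (nat_lit 0) (nat_lit 16720) (XT.nd (nat_lit 234) (nat_lit 1140) (nat_lit 0) (XT.nd (nat_lit 78) (nat_lit 608) (nat_lit 0) (XT.lf (nat_lit 0) (nat_lit 7661016223) (nat_lit 684) (nat_lit 32129528352) (nat_lit 76) (nat_lit 4959317849) (nat_lit 274) (nat_lit 5) (nat_lit 283) (nat_lit 5) (nat_lit 275) (nat_lit 5) (nat_lit 667) (nat_lit 610) (nat_lit 283)) (XT.nd (nat_lit 78) (nat_lit 608) (nat_lit 0) (XT.lf (nat_lit 0) (nat_lit 15377121114) (nat_lit 684) (nat_lit 6403762281) (nat_lit 76) (nat_lit 23493237236) (nat_lit 274) (nat_lit 5) (nat_lit 283) (nat_lit 5) (nat_lit 275) (nat_lit 5) (nat_lit 668) (nat_lit 610) (nat_lit 282)) (XT.lf (nat_lit 0) (nat_lit 20098612151) (nat_lit 608) (nat_lit 3278257429) (nat_lit 684) (nat_lit 22429408046) (nat_lit 266) (nat_lit 5) (nat_lit 274) (nat_lit 5) (nat_lit 275) (nat_lit 5) (nat_lit 669) (nat_lit 610)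 (nat_lit 281)))) (XT.nd (nat_lit 156) (nat_lit 608) (nat_lit 0) (XT.nd (nat_lit 78) (nat_lit 0) (nat_lit 0) (XT.lf (nat_lit 0) (nat_lit 776758838) (nat_lit 532) (nat_lit 30908242999) (nat_lit 608) (nat_lit 14661108199) (nat_lit 259) (nat_lit 5) (nat_lit 266) (nat_lit 5) (nat_lit 267) (nat_lit 5) (nat_lit 670) (nat_lit 610) (nat_lit 280)) (XT.lf (nat_lit 0) (nat_lit 28115841916) (nat_lit 532) (nat_lit 12236386324) (nat_lit 608) (nat_lit 6540652274) (nat_lit 259) (nat_lit 5) (nat_lit 266) (nat_lit 5) (nat_lit 267) (nat_lit 5) (nat_lit 671) (nat_lit 610) (nat_lit 279))) (XT.nd (nat_lit 78) (nat_lit 0) (nat_lit 0) (XT.lf (nat_lit 0) (nat_lit 1819056078) (nat_lit 608) (nat_lit 38842124207) (nat_lit 76) (nat_lit 6787186080) (nat_lit 251) (nat_lit 5) (nat_lit 259) (nat_lit 5) (nat_lit 252) (nat_lit 5) (nat_lit 672) (nat_lit 610) (nat_lit 278)) (XT.lf (nat_lit 0) (nat_lit 10465212393) (nat_lit 608) (nat_lit 11347412299) (nat_lit 76) (nat_lit 26197335951) (nat_lit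 251) (nat_lit 5) (nat_lit 259) (nat_lit 5) (nat_lit 252) (nat_lit 5) (nat_lit 673) (nat_lit 610) (nat_lit 277))))) (XT.nd (nat_lit 312) (nat_lit 0) (nat_lit 152) (XT.nd (nat_lit 156) (nat_lit 0) (nat_lit 76) (XT.nd (nat_lit 78) (nat_lit 0) (nat_lit 0) (XT.lf (nat_lit 0) (nat_lit 641544452) (nat_lit 1900) (nat_lit 5852083540) (nat_lit 1900) (nat_lit 5852083540) (nat_lit 471) (nat_lit 3) (nat_lit 496) (nat_lit 3) (nat_lit 496) (nat_lit 5) (nat_lit 611) (nat_lit 611) (nat_lit 338)) (XT.lf (nat_lit 76) (nat_lit 549583227) (nat_lit 0) (nat_lit 858457947) (nat_lit 1900) (nat_lit 23528047108) (nat_lit 472) (nat_lit 5) (nat_lit 471) (nat_lit 3) (nat_lit 496) (nat_lit 5) (nat_lit 612) (nat_lit 611) (nat_lit 337))) (XT.nd (nat_lit 78) (nat_lit 0) (nat_lit 0) (XT.lf (nat_lit 0) (nat_lit 1686455293) (nat_lit 1824) (nat_lit 12053821867) (nat_lit 1900) (nat_lit 11442350564) (nat_lit 472) (nat_lit 5) (nat_lit 496) (nat_lit 5) (nat_lit 497) (nat_lit 5) (nat_lit 613) (nat_lit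 611) (nat_lit 336)) (XT.lf (nat_lit 76) (nat_lit 525210356) (nat_lit 0) (nat_lit 1451530397) (nat_lit 1900) (nat_lit 23457231307) (nat_lit 473) (nat_lit 5) (nat_lit 472) (nat_lit 5) (nat_lit 497) (nat_lit 5) (nat_lit 614) (nat_lit 611) (nat_lit 335)))) (XT.nd (nat_lit 156) (nat_lit 0) (nat_lit 76) (XT.nd (nat_lit 78) (nat_lit 0) (nat_lit 0) (XT.lf (nat_lit 0) (nat_lit 2423474252) (nat_lit 1824) (nat_lit 12243564399) (nat_lit 1900) (nat_lit 11020291954) (nat_lit 473) (nat_lit 5) (nat_lit 497) (nat_lit 5) (nat_lit 498) (nat_lit 5) (nat_lit 615) (nat_lit 611) (nat_lit 334)) (XT.lf (nat_lit 76) (nat_lit 672615139) (nat_lit 0) (nat_lit 2217821862) (nat_lit 1900) (nat_lit 23055093589) (nat_lit 474) (nat_lit 5) (nat_lit 473) (nat_lit 5) (nat_lit 498) (nat_lit 5) (nat_lit 616) (nat_lit 611) (nat_lit 333))) (XT.nd (nat_lit 78) (nat_lit 0) (nat_lit 0) (XT.lf (nat_lit 0) (nat_lit 3514854254) (nat_lit 1824) (nat_lit 12264338663) (nat_lit 1900) (nat_lit 10426739513) (nat_lit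 474) (nat_lit 5) (nat_lit 498) (nat_lit 5) (nat_lit 499) (nat_lit 5) (nat_lit 617) (nat_lit 611) (nat_lit 332)) (XT.lf (nat_lit 76) (nat_lit 1001304758) (nat_lit 0) (nat_lit 3169060261) (nat_lit 1900) (nat_lit 22300805341) (nat_lit 475) (nat_lit 5) (nat_lit 474) (nat_lit 5) (nat_lit 499) (nat_lit 5) (nat_lit 618) (nat_lit 611) (nat_lit 331))))))) (XT.nd (nat_lit 1170) (nat_lit 6764) (nat_lit 0) (XT.nd (nat_lit 546) (nat_lit 0) (nat_lit 228) (XT.nd (nat_lit 234) (nat_lit 0) (nat_lit 76) (XT.nd (nat_lit 78) (nat_lit 0) (nat_lit 0) (XT.lf (nat_lit 0) (nat_lit 4982230022) (nat_lit 1824) (nat_lit 12106636827) (nat_lit 1900) (nat_lit 9649981472) (nat_lit 475) (nat_lit 5) (nat_lit 499) (nat_lit 5) (nat_lit 500) (nat_lit 5) (nat_lit 619) (nat_lit 611) (nat_lit 330)) (XT.nd (nat_lit 78) (nat_lit 0) (nat_lit 76) (XT.lf (nat_lit 76) (nat_lit 1521255257) (nat_lit 0) (nat_lit 4317454602) (nat_lit 1900) (nat_lit 21172602583) (nat_lit 476) (nat_lit 5) (nat_lit 475) (nat_lit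 5) (nat_lit 500) (nat_lit 5) (nat_lit 620) (nat_lit 611) (nat_lit 329)) (XT.lf (nat_lit 0) (nat_lit 6848204169) (nat_lit 1824) (nat_lit 11760482562) (nat_lit 1900) (nat_lit 8677821562) (nat_lit 476) (nat_lit 5) (nat_lit 500) (nat_lit 5) (nat_lit 501) (nat_lit 5) (nat_lit 621) (nat_lit 611) (nat_lit 328)))) (XT.nd (nat_lit 156) (nat_lit 0) (nat_lit 76) (XT.nd (nat_lit 78) (nat_lit 0) (nat_lit 76) (XT.lf (nat_lit 76) (nat_lit 2242928876) (nat_lit 0) (nat_lit 5675720207) (nat_lit 1900) (nat_lit 19647743910) (nat_lit 477) (nat_lit 5) (nat_lit 476) (nat_lit 5) (nat_lit 501) (nat_lit 5) (nat_lit 622) (nat_lit 611) (nat_lit 327)) (XT.lf (nat_lit 0) (nat_lit 9136390421) (nat_lit 1824) (nat_lit 11215413622) (nat_lit 1900) (nat_lit 7497553735) (nat_lit 477) (nat_lit 5) (nat_lit 501) (nat_lit 5) (nat_lit 502) (nat_lit 5) (nat_lit 623) (nat_lit 611) (nat_lit 326))) (XT.nd (nat_lit 78) (nat_lit 0) (nat_lit 76) (XT.lf (nat_lit 76) (nat_lit 3177292161) (nat_lit 0) (nat_lit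 7257104799) (nat_lit 1900) (nat_lit 17702466831) (nat_lit 478) (nat_lit 5) (nat_lit 477) (nat_lit 5) (nat_lit 502) (nat_lit 5) (nat_lit 624) (nat_lit 611) (nat_lit 325)) (XT.lf (nat_lit 0) (nat_lit 11871458507) (nat_lit 1824) (nat_lit 10460463633) (nat_lit 1900) (nat_lit 6095936021) (nat_lit 478) (nat_lit 5) (nat_lit 502) (nat_lit 5) (nat_lit 503) (nat_lit 5) (nat_lit 625) (nat_lit 611) (nat_lit 324))))) (XT.nd (nat_lit 312) (nat_lit 0) (nat_lit 152) (XT.nd (nat_lit 156) (nat_lit 0) (nat_lit 76) (XT.nd (nat_lit 78) (nat_lit 0) (nat_lit 76) (XT.lf (nat_lit 76) (nat_lit 4335834878) (nat_lit 0) (nat_lit 9075415472) (nat_lit 1900) (nat_lit 15311942421) (nat_lit 479) (nat_lit 5) (nat_lit 478) (nat_lit 5) (nat_lit 503) (nat_lit 5) (nat_lit 626) (nat_lit 611) (nat_lit 323)) (XT.lf (nat_lit 0) (nat_lit 15079180780) (nat_lit 1824) (nat_lit 9484143087) (nat_lit 1900) (nat_lit 4459163483) (nat_lit 479) (nat_lit 5) (nat_lit 503) (nat_lit 5) (nat_lit 504) (nat_lit 5) (nat_lit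 627) (nat_lit 611) (nat_lit 322))) (XT.nd (nat_lit 78) (nat_lit 0) (nat_lit 76) (XT.lf (nat_lit 76) (nat_lit 5730589752) (nat_lit 0) (nat_lit 11145046635) (nat_lit 1900) (nat_lit 12450228230) (nat_lit 480) (nat_lit 5) (nat_lit 479) (nat_lit 5) (nat_lit 504) (nat_lit 5) (nat_lit 628) (nat_lit 611) (nat_lit 321)) (XT.lf (nat_lit 0) (nat_lit 18786480644) (nat_lit 1824) (nat_lit 8274419522) (nat_lit 1900) (nat_lit 2572840197) (nat_lit 480) (nat_lit 5) (nat_lit 504) (nat_lit 5) (nat_lit 505) (nat_lit 5) (nat_lit 629) (nat_lit 611) (nat_lit 320)))) (XT.nd (nat_lit 156) (nat_lit 0) (nat_lit 76) (XT.nd (nat_lit 78) (nat_lit 0) (nat_lit 76) (XT.lf (nat_lit 76) (nat_lit 7374153053) (nat_lit 0) (nat_lit 13481008937) (nat_lit 1900) (nat_lit 9090219355) (nat_lit 481) (nat_lit 5) (nat_lit 480) (nat_lit 5) (nat_lit 505) (nat_lit 5) (nat_lit 630) (nat_lit 611) (nat_lit 319)) (XT.lf (nat_lit 0) (nat_lit 23021482874) (nat_lit 1824) (nat_lit 6818696845) (nat_lit 1900) (nat_lit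 421950230) (nat_lit 481) (nat_lit 5) (nat_lit 505) (nat_lit 5) (nat_lit 506) (nat_lit 5) (nat_lit 631) (nat_lit 611) (nat_lit 318))) (XT.nd (nat_lit 78) (nat_lit 0) (nat_lit 0) (XT.lf (nat_lit 76) (nat_lit 9279706055) (nat_lit 0) (nat_lit 16098959272) (nat_lit 1900) (nat_lit 5203597614) (nat_lit 482) (nat_lit 5) (nat_lit 481) (nat_lit 5) (nat_lit 506) (nat_lit 5) (nat_lit 632) (nat_lit 611) (nat_lit 317)) (XT.lf (nat_lit 76) (nat_lit 25790910825) (nat_lit 0) (nat_lit 2035873309) (nat_lit 1900) (nat_lit 3081138720) (nat_lit 482) (nat_lit 5) (nat_lit 481) (nat_lit 5) (nat_lit 506) (nat_lit 5) (nat_lit 633) (nat_lit 611) (nat_lit 316)))))) (XT.nd (nat_lit 546) (nat_lit 3496) (nat_lit 0) (XT.nd (nat_lit 234) (nat_lit 1900) (nat_lit 0) (XT.nd (nat_lit 78) (nat_lit 1900) (nat_lit 0) (XT.lf (nat_lit 76) (nat_lit 11461037395) (nat_lit 0) (nat_lit 19015231883) (nat_lit 1900) (nat_lit 760778722) (nat_lit 483) (nat_lit 5) (nat_lit 482) (nat_lit 5) (nat_lit 507) (nat_lit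 5) (nat_lit 634) (nat_lit 611) (nat_lit 315)) (XT.nd (nat_lit 78) (nat_lit 0) (nat_lit 76) (XT.lf (nat_lit 0) (nat_lit 1631064719) (nat_lit 1900) (nat_lit 3157815821) (nat_lit 1976) (nat_lit 26782743895) (nat_lit 457) (nat_lit 5) (nat_lit 482) (nat_lit 5) (nat_lit 483) (nat_lit 5) (nat_lit 635) (nat_lit 611) (nat_lit 314)) (XT.lf (nat_lit 0) (nat_lit 4213152019) (nat_lit 1900) (nat_lit 18005446163) (nat_lit 76) (nat_lit 9691141871) (nat_lit 458) (nat_lit 5) (nat_lit 483) (nat_lit 5) (nat_lit 459) (nat_lit 5) (nat_lit 636) (nat_lit 611) (nat_lit 313)))) (XT.nd (nat_lit 156) (nat_lit 912) (nat_lit 0) (XT.nd (nat_lit 78) (nat_lit 1064) (nat_lit 0) (XT.lf (nat_lit 0) (nat_lit 6898083277) (nat_lit 1900) (nat_lit 937214682) (nat_lit 76) (nat_lit 24418296087) (nat_lit 458) (nat_lit 5) (nat_lit 483) (nat_lit 5) (nat_lit 459) (nat_lit 5) (nat_lit 637) (nat_lit 611) (nat_lit 312)) (XT.lf (nat_lit 0) (nat_lit 9788367389) (nat_lit 1140) (nat_lit 15957610119) (nat_lit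 76) (nat_lit 6855314630) (nat_lit 444) (nat_lit 5) (nat_lit 459) (nat_lit 5) (nat_lit 445) (nat_lit 5) (nat_lit 638) (nat_lit 611) (nat_lit 311))) (XT.nd (nat_lit 78) (nat_lit 0) (nat_lit 0) (XT.lf (nat_lit 0) (nat_lit 1600531138) (nat_lit 912) (nat_lit 11202757527) (nat_lit 988) (nat_lit 20151318998) (nat_lit 432) (nat_lit 5) (nat_lit 444) (nat_lit 5) (nat_lit 445) (nat_lit 5) (nat_lit 639) (nat_lit 611) (nat_lit 310)) (XT.lf (nat_lit 0) (nat_lit 16008123527) (nat_lit 988) (nat_lit 13612626279) (nat_lit 76) (nat_lit 3691647487) (nat_lit 432) (nat_lit 5) (nat_lit 445) (nat_lit 5) (nat_lit 433) (nat_lit 5) (nat_lit 640) (nat_lit 611) (nat_lit 309))))) (XT.nd (nat_lit 312) (nat_lit 1748) (nat_lit 0) (XT.nd (nat_lit 156) (nat_lit 836) (nat_lit 0) (XT.nd (nat_lit 78) (nat_lit 0) (nat_lit 0) (XT.lf (nat_lit 0) (nat_lit 4466435593) (nat_lit 912) (nat_lit 14912088465) (nat_lit 988) (nat_lit 14296789376) (nat_lit 420) (nat_lit 5) (nat_lit 432) (nat_lit 5) (nat_lit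 433) (nat_lit 5) (nat_lit 641) (nat_lit 611) (nat_lit 308)) (XT.lf (nat_lit 0) (nat_lit 22907178135) (nat_lit 988) (nat_lit 10954882825) (nat_lit 76) (nat_lit 181610122) (nat_lit 420) (nat_lit 5) (nat_lit 433) (nat_lit 5) (nat_lit 421) (nat_lit 5) (nat_lit 642) (nat_lit 611) (nat_lit 307))) (XT.nd (nat_lit 78) (nat_lit 0) (nat_lit 0) (XT.lf (nat_lit 0) (nat_lit 7664358744) (nat_lit 836) (nat_lit 18988900980) (nat_lit 912) (nat_lit 7763199166) (nat_lit 409) (nat_lit 5) (nat_lit 420) (nat_lit 5) (nat_lit 421) (nat_lit 5) (nat_lit 643) (nat_lit 611) (nat_lit 306)) (XT.lf (nat_lit 0) (nat_lit 26802894735) (nat_lit 836) (nat_lit 3743240325) (nat_lit 912) (nat_lit 4249130042) (nat_lit 409) (nat_lit 5) (nat_lit 420) (nat_lit 5) (nat_lit 421) (nat_lit 5) (nat_lit 644) (nat_lit 611) (nat_lit 305)))) (XT.nd (nat_lit 156) (nat_lit 836) (nat_lit 0) (XT.nd (nat_lit 78) (nat_lit 76) (nat_lit 0) (XT.lf (nat_lit 0) (nat_lit 11211343525) (nat_lit 836) (nat_lit 23453368503)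 (nat_lit 912) (nat_lit 513978617) (nat_lit 398) (nat_lit 5) (nat_lit 409) (nat_lit 5) (nat_lit 410) (nat_lit 5) (nat_lit 645) (nat_lit 611) (nat_lit 304)) (XT.lf (nat_lit 0) (nat_lit 3329830001) (nat_lit 912) (nat_lit 4709384625) (nat_lit 76) (nat_lit 27528598577) (nat_lit 397) (nat_lit 5) (nat_lit 409) (nat_lit 5) (nat_lit 398) (nat_lit 5) (nat_lit 646) (nat_lit 611) (nat_lit 303))) (XT.nd (nat_lit 78) (nat_lit 0) (nat_lit 0) (XT.lf (nat_lit 0) (nat_lit 7390845787) (nat_lit 912) (nat_lit 20886113796) (nat_lit 76) (nat_lit 7684746502) (nat_lit 386) (nat_lit 5) (nat_lit 398) (nat_lit 5) (nat_lit 387) (nat_lit 5) (nat_lit 647) (nat_lit 611) (nat_lit 302)) (XT.lf (nat_lit 0) (nat_lit 11616587612) (nat_lit 912) (nat_lit 1097776555) (nat_lit 76) (nat_lit 23647442624) (nat_lit 386) (nat_lit 5) (nat_lit 398) (nat_lit 5) (nat_lit 387) (nat_lit 5) (nat_lit 648) (nat_lit 611) (nat_lit 301))))))))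
noncomputable def xc231 : XT := (XT.nd (nat_lit 78624) (nat_lit 0) (nat_lit 12008) (XT.nd (nat_lit 1092) (nat_lit 4332) (nat_lit 0) (XT.nd (nat_lit 546) (nat_lit 2812) (nat_lit 0) (XT.nd (nat_lit 234) (nat_lit 1520) (nat_lit 0) (XT.nd (nat_lit 78) (nat_lit 760) (nat_lit 0) (XT.lf (nat_lit 0) (nat_lit 16072231136) (nat_lit 912) (nat_lit 17450376676) (nat_lit 76) (nat_lit 3244394046) (nat_lit 375) (nat_lit 5) (nat_lit 387) (nat_lit 5) (nat_lit 376) (nat_lit 5) (nat_lit 649) (nat_lit 611) (nat_lit 300)) (XT.nd (nat_lit 78) (nat_lit 0) (nat_lit 0) (XT.lf (nat_lit 0) (nat_lit 2926598478) (nat_lit 760) (nat_lit 17799510808) (nat_lit 836) (nat_lit 16452009184) (nat_lit 365) (nat_lit 5) (nat_lit 375) (nat_lit 5) (nat_lit 376) (nat_lit 5) (nat_lit 650) (nat_lit 611) (nat_lit 299)) (XT.lf (nat_lit 0) (nat_lit 23946091330) (nat_lit 760) (nat_lit 1642597856) (nat_lit 836) (nat_lit 12006455823) (nat_lit 365) (nat_lit 5) (nat_lit 375) (nat_lit 5) (nat_lit 376) (nat_lit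 5) (nat_lit 651) (nat_lit 611) (nat_lit 298)))) (XT.nd (nat_lit 156) (nat_lit 760) (nat_lit 0) (XT.nd (nat_lit 78) (nat_lit 0) (nat_lit 0) (XT.lf (nat_lit 0) (nat_lit 7364145449) (nat_lit 760) (nat_lit 23327074108) (nat_lit 836) (nat_lit 7326438621) (nat_lit 355) (nat_lit 5) (nat_lit 365) (nat_lit 5) (nat_lit 366) (nat_lit 5) (nat_lit 652) (nat_lit 611) (nat_lit 297)) (XT.lf (nat_lit 0) (nat_lit 28970048656) (nat_lit 760) (nat_lit 7026720462) (nat_lit 836) (nat_lit 2449833195) (nat_lit 355) (nat_lit 5) (nat_lit 365) (nat_lit 5) (nat_lit 366) (nat_lit 5) (nat_lit 653) (nat_lit 611) (nat_lit 296))) (XT.nd (nat_lit 78) (nat_lit 0) (nat_lit 0) (XT.lf (nat_lit 0) (nat_lit 2632393199) (nat_lit 760) (nat_lit 26678299739) (nat_lit 76) (nat_lit 9570280766) (nat_lit 345) (nat_lit 5) (nat_lit 355) (nat_lit 5) (nat_lit 346) (nat_lit 5) (nat_lit 654) (nat_lit 611) (nat_lit 295)) (XT.lf (nat_lit 0) (nat_lit 7892645104) (nat_lit 760) (nat_lit 4943556123) (nat_lit 76) (nat_lit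 26485323812) (nat_lit 345) (nat_lit 5) (nat_lit 355) (nat_lit 5) (nat_lit 346) (nat_lit 5) (nat_lit 655) (nat_lit 611) (nat_lit 294))))) (XT.nd (nat_lit 234) (nat_lit 1368) (nat_lit 0) (XT.nd (nat_lit 78) (nat_lit 684) (nat_lit 0) (XT.lf (nat_lit 0) (nat_lit 13396563588) (nat_lit 836) (nat_lit 22341902793) (nat_lit 76) (nat_lit 4029651859) (nat_lit 335) (nat_lit 5) (nat_lit 346) (nat_lit 5) (nat_lit 336) (nat_lit 5) (nat_lit 656) (nat_lit 611) (nat_lit 293)) (XT.nd (nat_lit 78) (nat_lit 0) (nat_lit 0) (XT.lf (nat_lit 0) (nat_lit 650344) (nat_lit 684) (nat_lit 19126964253) (nat_lit 760) (nat_lit 21093687693) (nat_lit 326) (nat_lit 5) (nat_lit 335) (nat_lit 5) (nat_lit 336) (nat_lit 5) (nat_lit 657) (nat_lit 611) (nat_lit 292)) (XT.lf (nat_lit 0) (nat_lit 23091370715) (nat_lit 684) (nat_lit 2030506799) (nat_lit 760) (nat_lit 15558700757) (nat_lit 326) (nat_lit 5) (nat_lit 335) (nat_lit 5) (nat_lit 336) (nat_lit 5) (nat_lit 658) (nat_lit 611) (nat_lit 291))))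 (XT.nd (nat_lit 156) (nat_lit 684) (nat_lit 0) (XT.nd (nat_lit 78) (nat_lit 0) (nat_lit 0) (XT.lf (nat_lit 0) (nat_lit 5464972550) (nat_lit 684) (nat_lit 25905263412) (nat_lit 760) (nat_lit 9776119669) (nat_lit 317) (nat_lit 5) (nat_lit 326) (nat_lit 5) (nat_lit 327) (nat_lit 5) (nat_lit 659) (nat_lit 611) (nat_lit 290)) (XT.lf (nat_lit 0) (nat_lit 29203517793) (nat_lit 684) (nat_lit 8670140919) (nat_lit 760) (nat_lit 3745187948) (nat_lit 317) (nat_lit 5) (nat_lit 326) (nat_lit 5) (nat_lit 327) (nat_lit 5) (nat_lit 660) (nat_lit 611) (nat_lit 289))) (XT.nd (nat_lit 78) (nat_lit 0) (nat_lit 0) (XT.lf (nat_lit 0) (nat_lit 2506301962) (nat_lit 684) (nat_lit 30708382695) (nat_lit 76) (nat_lit 8883160451) (nat_lit 308) (nat_lit 5) (nat_lit 317) (nat_lit 5) (nat_lit 309) (nat_lit 5) (nat_lit 661) (nat_lit 611) (nat_lit 288)) (XT.lf (nat_lit 0) (nat_lit 8972740188) (nat_lit 684) (nat_lit 6830407309) (nat_lit 76) (nat_lit 26779979643) (nat_lit 308) (nat_lit 5) (nat_lit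 317) (nat_lit 5) (nat_lit 309) (nat_lit 5) (nat_lit 662) (nat_lit 611) (nat_lit 287)))))) (XT.nd (nat_lit 546) (nat_lit 1748) (nat_lit 0) (XT.nd (nat_lit 234) (nat_lit 1292) (nat_lit 0) (XT.nd (nat_lit 78) (nat_lit 608) (nat_lit 0) (XT.lf (nat_lit 0) (nat_lit 15696020995) (nat_lit 760) (nat_lit 25332782292) (nat_lit 76) (nat_lit 2046761308) (nat_lit 299) (nat_lit 5) (nat_lit 309) (nat_lit 5) (nat_lit 300) (nat_lit 5) (nat_lit 663) (nat_lit 611) (nat_lit 286)) (XT.nd (nat_lit 78) (nat_lit 608) (nat_lit 0) (XT.lf (nat_lit 0) (nat_lit 22703337408) (nat_lit 760) (nat_lit 783373984) (nat_lit 76) (nat_lit 20088148066) (nat_lit 299) (nat_lit 5) (nat_lit 309) (nat_lit 5) (nat_lit 300) (nat_lit 5) (nat_lit 664) (nat_lit 611) (nat_lit 285)) (XT.lf (nat_lit 0) (nat_lit 24577892021) (nat_lit 608) (nat_lit 5431282348) (nat_lit 684) (nat_lit 14071798422) (nat_lit 291) (nat_lit 5) (nat_lit 299) (nat_lit 5) (nat_lit 300) (nat_lit 5) (nat_lit 665) (nat_lit 611) (nat_lit 284))))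 (XT.nd (nat_lit 156) (nat_lit 608) (nat_lit 0) (XT.nd (nat_lit 78) (nat_lit 76) (nat_lit 0) (XT.lf (nat_lit 0) (nat_lit 5850803306) (nat_lit 608) (nat_lit 31736723120) (nat_lit 684) (nat_lit 7007154054) (nat_lit 283) (nat_lit 5) (nat_lit 291) (nat_lit 5) (nat_lit 292) (nat_lit 5) (nat_lit 666) (nat_lit 611) (nat_lit 283)) (XT.lf (nat_lit 0) (nat_lit 362703947) (nat_lit 684) (nat_lit 13179528727) (nat_lit 76) (nat_lit 31573073332) (nat_lit 282) (nat_lit 5) (nat_lit 291) (nat_lit 5) (nat_lit 283) (nat_lit 5) (nat_lit 667) (nat_lit 611) (nat_lit 282))) (XT.nd (nat_lit 78) (nat_lit 0) (nat_lit 0) (XT.lf (nat_lit 0) (nat_lit 7903021815) (nat_lit 684) (nat_lit 32658196926) (nat_lit 76) (nat_lit 5081861240) (nat_lit 274) (nat_lit 5) (nat_lit 283) (nat_lit 5) (nat_lit 275) (nat_lit 5) (nat_lit 668) (nat_lit 611) (nat_lit 281)) (XT.lf (nat_lit 0) (nat_lit 15771707916) (nat_lit 684) (nat_lit 6420149298) (nat_lit 76) (nat_lit 23986001033) (nat_lit 274) (nat_lit 5) (nat_lit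 283) (nat_lit 5) (nat_lit 275) (nat_lit 5) (nat_lit 669) (nat_lit 611) (nat_lit 280))))) (XT.nd (nat_lit 76674) (nat_lit 0) (nat_lit 16720) (XT.nd (nat_lit 156) (nat_lit 608) (nat_lit 0) (XT.nd (nat_lit 78) (nat_lit 532) (nat_lit 0) (XT.lf (nat_lit 0) (nat_lit 20611537832) (nat_lit 608) (nat_lit 3318927150) (nat_lit 684) (nat_lit 22790213204) (nat_lit 266) (nat_lit 5) (nat_lit 274) (nat_lit 5) (nat_lit 275) (nat_lit 5) (nat_lit 670) (nat_lit 611) (nat_lit 279)) (XT.lf (nat_lit 0) (nat_lit 904070566) (nat_lit 532) (nat_lit 31499886103) (nat_lit 608) (nat_lit 14867366716) (nat_lit 259) (nat_lit 5) (nat_lit 266) (nat_lit 5) (nat_lit 267) (nat_lit 5) (nat_lit 671) (nat_lit 611) (nat_lit 278))) (XT.nd (nat_lit 78) (nat_lit 608) (nat_lit 0) (XT.lf (nat_lit 0) (nat_lit 28787743608) (nat_lit 532) (nat_lit 12455112329) (nat_lit 608) (nat_lit 6586206842) (nat_lit 259) (nat_lit 5) (nat_lit 266) (nat_lit 5) (nat_lit 267) (nat_lit 5) (nat_lit 672) (nat_lit 611) (nat_lit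 277)) (XT.lf (nat_lit 0) (nat_lit 1938815572) (nat_lit 608) (nat_lit 39507494582) (nat_lit 76) (nat_lit 6949352430) (nat_lit 251) (nat_lit 5) (nat_lit 259) (nat_lit 5) (nat_lit 252) (nat_lit 5) (nat_lit 673) (nat_lit 611) (nat_lit 276)))) (XT.nd (nat_lit 156) (nat_lit 0) (nat_lit 76) (XT.nd (nat_lit 78) (nat_lit 0) (nat_lit 0) (XT.lf (nat_lit 0) (nat_lit 762223665) (nat_lit 1900) (nat_lit 5914119295) (nat_lit 1900) (nat_lit 5914119295) (nat_lit 471) (nat_lit 3) (nat_lit 496) (nat_lit 3) (nat_lit 496) (nat_lit 5) (nat_lit 612) (nat_lit 612) (nat_lit 336)) (XT.lf (nat_lit 76) (nat_lit 669862961) (nat_lit 0) (nat_lit 978515910) (nat_lit 1900) (nat_lit 23782174815) (nat_lit 472) (nat_lit 5) (nat_lit 471) (nat_lit 3) (nat_lit 496) (nat_lit 5) (nat_lit 613) (nat_lit 612) (nat_lit 335))) (XT.nd (nat_lit 78) (nat_lit 0) (nat_lit 0) (XT.lf (nat_lit 0) (nat_lit 1927546017) (nat_lit 1824) (nat_lit 12182925310) (nat_lit 1900) (nat_lit 11571649146) (nat_lit 472) (nat_lit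 5) (nat_lit 496) (nat_lit 5) (nat_lit 497) (nat_lit 5) (nat_lit 614) (nat_lit 612) (nat_lit 334)) (XT.lf (nat_lit 76) (nat_lit 646950893) (nat_lit 0) (nat_lit 1573342600) (nat_lit 1900) (nat_lit 23718265324) (nat_lit 473) (nat_lit 5) (nat_lit 472) (nat_lit 5) (nat_lit 497) (nat_lit 5) (nat_lit 615) (nat_lit 612) (nat_lit 333))))))) (XT.nd (nat_lit 1170) (nat_lit 4864) (nat_lit 0) (XT.nd (nat_lit 546) (nat_lit 0) (nat_lit 228) (XT.nd (nat_lit 234) (nat_lit 0) (nat_lit 76) (XT.nd (nat_lit 78) (nat_lit 0) (nat_lit 0) (XT.lf (nat_lit 0) (nat_lit 2671370722) (nat_lit 1824) (nat_lit 12374777437) (nat_lit 1900) (nat_lit 11150928433) (nat_lit 473) (nat_lit 5) (nat_lit 497) (nat_lit 5) (nat_lit 498) (nat_lit 5) (nat_lit 616) (nat_lit 612) (nat_lit 332)) (XT.nd (nat_lit 78) (nat_lit 0) (nat_lit 76) (XT.lf (nat_lit 76) (nat_lit 798977940) (nat_lit 0) (nat_lit 2345517543) (nat_lit 1900) (nat_lit 23316008876) (nat_lit 474) (nat_lit 5) (nat_lit 473) (nat_lit 5) (nat_lit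 498) (nat_lit 5) (nat_lit 617) (nat_lit 612) (nat_lit 331)) (XT.lf (nat_lit 0) (nat_lit 3777022562) (nat_lit 1824) (nat_lit 12394538736) (nat_lit 1900) (nat_lit 10554640740) (nat_lit 474) (nat_lit 5) (nat_lit 498) (nat_lit 5) (nat_lit 499) (nat_lit 5) (nat_lit 618) (nat_lit 612) (nat_lit 330)))) (XT.nd (nat_lit 156) (nat_lit 0) (nat_lit 76) (XT.nd (nat_lit 78) (nat_lit 0) (nat_lit 76) (XT.lf (nat_lit 76) (nat_lit 1135660404) (nat_lit 0) (nat_lit 3306963261) (nat_lit 1900) (nat_lit 22554181687) (nat_lit 475) (nat_lit 5) (nat_lit 474) (nat_lit 5) (nat_lit 499) (nat_lit 5) (nat_lit 619) (nat_lit 612) (nat_lit 329)) (XT.lf (nat_lit 0) (nat_lit 5266548643) (nat_lit 1824) (nat_lit 12232493278) (nat_lit 1900) (nat_lit 9770878721) (nat_lit 475) (nat_lit 5) (nat_lit 499) (nat_lit 5) (nat_lit 500) (nat_lit 5) (nat_lit 620) (nat_lit 612) (nat_lit 328))) (XT.nd (nat_lit 78) (nat_lit 0) (nat_lit 76) (XT.lf (nat_lit 76) (nat_lit 1667191672) (nat_lit 0) (nat_lit 4470095321)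 (nat_lit 1900) (nat_lit 21410604693) (nat_lit 476) (nat_lit 5) (nat_lit 475) (nat_lit 5) (nat_lit 500) (nat_lit 5) (nat_lit 621) (nat_lit 612) (nat_lit 327)) (XT.lf (nat_lit 0) (nat_lit 7162984457) (nat_lit 1824) (nat_lit 11878448367) (nat_lit 1900) (nat_lit 8787238581) (nat_lit 476) (nat_lit 5) (nat_lit 500) (nat_lit 5) (nat_lit 501) (nat_lit 5) (nat_lit 622) (nat_lit 612) (nat_lit 326))))) (XT.nd (nat_lit 312) (nat_lit 0) (nat_lit 152) (XT.nd (nat_lit 156) (nat_lit 0) (nat_lit 76) (XT.nd (nat_lit 78) (nat_lit 0) (nat_lit 76) (XT.lf (nat_lit 76) (nat_lit 2404259959) (nat_lit 0) (nat_lit 5847847934) (nat_lit 1900) (nat_lit 19862100723) (nat_lit 477) (nat_lit 5) (nat_lit 476) (nat_lit 5) (nat_lit 501) (nat_lit 5) (nat_lit 623) (nat_lit 612) (nat_lit 325)) (XT.lf (nat_lit 0) (nat_lit 9490397908) (nat_lit 1824) (nat_lit 11321716699) (nat_lit 1900) (nat_lit 7590794419) (nat_lit 477) (nat_lit 5) (nat_lit 501) (nat_lit 5) (nat_lit 502) (nat_lit 5) (nat_lit 624)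 (nat_lit 612) (nat_lit 324))) (XT.nd (nat_lit 78) (nat_lit 0) (nat_lit 76) (XT.lf (nat_lit 76) (nat_lit 3358066850) (nat_lit 0) (nat_lit 7453700429) (nat_lit 1900) (nat_lit 17884450027) (nat_lit 478) (nat_lit 5) (nat_lit 477) (nat_lit 5) (nat_lit 502) (nat_lit 5) (nat_lit 625) (nat_lit 612) (nat_lit 323)) (XT.lf (nat_lit 0) (nat_lit 12273935040) (nat_lit 1824) (nat_lit 10551097732) (nat_lit 1900) (nat_lit 6168071690) (nat_lit 478) (nat_lit 5) (nat_lit 502) (nat_lit 5) (nat_lit 503) (nat_lit 5) (nat_lit 626) (nat_lit 612) (nat_lit 322)))) (XT.nd (nat_lit 156) (nat_lit 0) (nat_lit 76) (XT.nd (nat_lit 78) (nat_lit 0) (nat_lit 76) (XT.lf (nat_lit 76) (nat_lit 4540346648) (nat_lit 0) (nat_lit 9301704653) (nat_lit 1900) (nat_lit 15452344087) (nat_lit 479) (nat_lit 5) (nat_lit 478) (nat_lit 5) (nat_lit 503) (nat_lit 5) (nat_lit 627) (nat_lit 612) (nat_lit 321)) (XT.lf (nat_lit 0) (nat_lit 15539867529) (nat_lit 1824) (nat_lit 9554858244) (nat_lit 1900) (nat_lit 4505019731)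 (nat_lit 479) (nat_lit 5) (nat_lit 503) (nat_lit 5) (nat_lit 504) (nat_lit 5) (nat_lit 628) (nat_lit 612) (nat_lit 320))) (XT.nd (nat_lit 78) (nat_lit 0) (nat_lit 76) (XT.lf (nat_lit 76) (nat_lit 5963386569) (nat_lit 0) (nat_lit 11406513345) (nat_lit 1900) (nat_lit 12539337636) (nat_lit 480) (nat_lit 5) (nat_lit 479) (nat_lit 5) (nat_lit 504) (nat_lit 5) (nat_lit 629) (nat_lit 612) (nat_lit 319)) (XT.lf (nat_lit 0) (nat_lit 19315642027) (nat_lit 1824) (nat_lit 8320712054) (nat_lit 1900) (nat_lit 2586983295) (nat_lit 480) (nat_lit 5) (nat_lit 504) (nat_lit 5) (nat_lit 505) (nat_lit 5) (nat_lit 630) (nat_lit 612) (nat_lit 318)))))) (XT.nd (nat_lit 546) (nat_lit 3648) (nat_lit 0) (XT.nd (nat_lit 234) (nat_lit 1748) (nat_lit 0) (XT.nd (nat_lit 78) (nat_lit 0) (nat_lit 76) (XT.lf (nat_lit 76) (nat_lit 7640047789) (nat_lit 0) (nat_lit 13783409552) (nat_lit 1900) (nat_lit 9117798809) (nat_lit 481) (nat_lit 5) (nat_lit 480) (nat_lit 5) (nat_lit 505) (nat_lit 5) (nat_lit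 631) (nat_lit 612) (nat_lit 317)) (XT.nd (nat_lit 78) (nat_lit 0) (nat_lit 0) (XT.lf (nat_lit 0) (nat_lit 23629931433) (nat_lit 1824) (nat_lit 6835798891) (nat_lit 1900) (nat_lit 398673043) (nat_lit 481) (nat_lit 5) (nat_lit 505) (nat_lit 5) (nat_lit 506) (nat_lit 5) (nat_lit 632) (nat_lit 612) (nat_lit 316)) (XT.lf (nat_lit 76) (nat_lit 9583787384) (nat_lit 0) (nat_lit 16448337117) (nat_lit 1900) (nat_lit 5158857351) (nat_lit 482) (nat_lit 5) (nat_lit 481) (nat_lit 5) (nat_lit 506) (nat_lit 5) (nat_lit 633) (nat_lit 612) (nat_lit 315)))) (XT.nd (nat_lit 156) (nat_lit 1824) (nat_lit 0) (XT.nd (nat_lit 78) (nat_lit 0) (nat_lit 76) (XT.lf (nat_lit 76) (nat_lit 26422892970) (nat_lit 0) (nat_lit 2103452206) (nat_lit 1900) (nat_lit 2996867166) (nat_lit 482) (nat_lit 5) (nat_lit 481) (nat_lit 5) (nat_lit 506) (nat_lit 5) (nat_lit 634) (nat_lit 612) (nat_lit 314)) (XT.lf (nat_lit 76) (nat_lit 11808681184) (nat_lit 0) (nat_lit 19417932319) (nat_lit 1900) (nat_lit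 632350784) (nat_lit 483) (nat_lit 5) (nat_lit 482) (nat_lit 5) (nat_lit 507) (nat_lit 5) (nat_lit 635) (nat_lit 612) (nat_lit 313))) (XT.nd (nat_lit 78) (nat_lit 0) (nat_lit 76) (XT.lf (nat_lit 0) (nat_lit 1802666015) (nat_lit 1900) (nat_lit 3103016171) (nat_lit 1976) (nat_lit 27294587163) (nat_lit 457) (nat_lit 5) (nat_lit 482) (nat_lit 5) (nat_lit 483) (nat_lit 5) (nat_lit 636) (nat_lit 612) (nat_lit 312)) (XT.lf (nat_lit 0) (nat_lit 4434301986) (nat_lit 1900) (nat_lit 18245498229) (nat_lit 76) (nat_lit 9865389085) (nat_lit 458) (nat_lit 5) (nat_lit 483) (nat_lit 5) (nat_lit 459) (nat_lit 5) (nat_lit 637) (nat_lit 612) (nat_lit 311))))) (XT.nd (nat_lit 312) (nat_lit 1748) (nat_lit 0) (XT.nd (nat_lit 156) (nat_lit 912) (nat_lit 0) (XT.nd (nat_lit 78) (nat_lit 1064) (nat_lit 0) (XT.lf (nat_lit 0) (nat_lit 7170247811) (nat_lit 1900) (nat_lit 838256174) (nat_lit 76) (nat_lit 24887470221) (nat_lit 458) (nat_lit 5) (nat_lit 483) (nat_lit 5) (nat_lit 459) (nat_lit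 5) (nat_lit 638) (nat_lit 612) (nat_lit 310)) (XT.lf (nat_lit 0) (nat_lit 10116365353) (nat_lit 1140) (nat_lit 16157079753) (nat_lit 76) (nat_lit 6977220749) (nat_lit 444) (nat_lit 5) (nat_lit 459) (nat_lit 5) (nat_lit 445) (nat_lit 5) (nat_lit 639) (nat_lit 612) (nat_lit 309))) (XT.nd (nat_lit 78) (nat_lit 0) (nat_lit 0) (XT.lf (nat_lit 0) (nat_lit 1751436943) (nat_lit 912) (nat_lit 11438327299) (nat_lit 988) (nat_lit 20421320010) (nat_lit 432) (nat_lit 5) (nat_lit 444) (nat_lit 5) (nat_lit 445) (nat_lit 5) (nat_lit 640) (nat_lit 612) (nat_lit 308)) (XT.lf (nat_lit 0) (nat_lit 16456065453) (nat_lit 988) (nat_lit 13765677328) (nat_lit 76) (nat_lit 3754339646) (nat_lit 432) (nat_lit 5) (nat_lit 445) (nat_lit 5) (nat_lit 433) (nat_lit 5) (nat_lit 641) (nat_lit 612) (nat_lit 307)))) (XT.nd (nat_lit 156) (nat_lit 836) (nat_lit 0) (XT.nd (nat_lit 78) (nat_lit 0) (nat_lit 0) (XT.lf (nat_lit 0) (nat_lit 4674181561) (nat_lit 912) (nat_lit 15217955797) (nat_lit 988)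 (nat_lit 14454154408) (nat_lit 420) (nat_lit 5) (nat_lit 432) (nat_lit 5) (nat_lit 433) (nat_lit 5) (nat_lit 642) (nat_lit 612) (nat_lit 306)) (XT.lf (nat_lit 0) (nat_lit 23488844550) (nat_lit 988) (nat_lit 11055358224) (nat_lit 76) (nat_lit 177864332) (nat_lit 420) (nat_lit 5) (nat_lit 433) (nat_lit 5) (nat_lit 421) (nat_lit 5) (nat_lit 643) (nat_lit 612) (nat_lit 305))) (XT.nd (nat_lit 78) (nat_lit 0) (nat_lit 0) (XT.lf (nat_lit 0) (nat_lit 7935487767) (nat_lit 836) (nat_lit 19372703094) (nat_lit 912) (nat_lit 7794153083) (nat_lit 409) (nat_lit 5) (nat_lit 420) (nat_lit 5) (nat_lit 421) (nat_lit 5) (nat_lit 644) (nat_lit 612) (nat_lit 304)) (XT.lf (nat_lit 0) (nat_lit 27454483853) (nat_lit 836) (nat_lit 3822050322) (nat_lit 912) (nat_lit 4212240028) (nat_lit 409) (nat_lit 5) (nat_lit 420) (nat_lit 5) (nat_lit 421) (nat_lit 5) (nat_lit 645) (nat_lit 612) (nat_lit 303))))))))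
noncomputable def xc232 : XT := (XT.nd (nat_lit 78702) (nat_lit 0) (nat_lit 13148) (XT.nd (nat_lit 1092) (nat_lit 5092) (nat_lit 0) (XT.nd (nat_lit 546) (nat_lit 2964) (nat_lit 0) (XT.nd (nat_lit 234) (nat_lit 1596) (nat_lit 0) (XT.nd (nat_lit 78) (nat_lit 912) (nat_lit 0) (XT.lf (nat_lit 0) (nat_lit 11552747428) (nat_lit 836) (nat_lit 23923128259) (nat_lit 912) (nat_lit 404024842) (nat_lit 398) (nat_lit 5) (nat_lit 409) (nat_lit 5) (nat_lit 410) (nat_lit 5) (nat_lit 646) (nat_lit 612) (nat_lit 302)) (XT.nd (nat_lit 78) (nat_lit 836) (nat_lit 0) (XT.lf (nat_lit 0) (nat_lit 3512756469) (nat_lit 912) (nat_lit 4687140625) (nat_lit 76) (nat_lit 28076939488) (nat_lit 397) (nat_lit 5) (nat_lit 409) (nat_lit 5) (nat_lit 398) (nat_lit 5) (nat_lit 647) (nat_lit 612) (nat_lit 301)) (XT.lf (nat_lit 0) (nat_lit 7653468193) (nat_lit 912) (nat_lit 21185873837) (nat_lit 76) (nat_lit 7839295902) (nat_lit 386) (nat_lit 5) (nat_lit 398) (nat_lit 5) (nat_lit 387) (nat_lit 5)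 (nat_lit 648) (nat_lit 612) (nat_lit 300)))) (XT.nd (nat_lit 156) (nat_lit 760) (nat_lit 0) (XT.nd (nat_lit 78) (nat_lit 836) (nat_lit 0) (XT.lf (nat_lit 0) (nat_lit 11961473767) (nat_lit 912) (nat_lit 1004082837) (nat_lit 76) (nat_lit 24121229193) (nat_lit 386) (nat_lit 5) (nat_lit 398) (nat_lit 5) (nat_lit 387) (nat_lit 5) (nat_lit 649) (nat_lit 612) (nat_lit 299)) (XT.lf (nat_lit 0) (nat_lit 16504793784) (nat_lit 912) (nat_lit 17682292658) (nat_lit 76) (nat_lit 3313027169) (nat_lit 375) (nat_lit 5) (nat_lit 387) (nat_lit 5) (nat_lit 376) (nat_lit 5) (nat_lit 650) (nat_lit 612) (nat_lit 298))) (XT.nd (nat_lit 78) (nat_lit 0) (nat_lit 0) (XT.lf (nat_lit 0) (nat_lit 3101451660) (nat_lit 760) (nat_lit 18148874286) (nat_lit 836) (nat_lit 16669155195) (nat_lit 365) (nat_lit 5) (nat_lit 375) (nat_lit 5) (nat_lit 376) (nat_lit 5) (nat_lit 651) (nat_lit 612) (nat_lit 297)) (XT.lf (nat_lit 0) (nat_lit 24539053561) (nat_lit 760) (nat_lit 1668953011) (nat_lit 836)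 (nat_lit 12136884771) (nat_lit 365) (nat_lit 5) (nat_lit 375) (nat_lit 5) (nat_lit 376) (nat_lit 5) (nat_lit 652) (nat_lit 612) (nat_lit 296))))) (XT.nd (nat_lit 234) (nat_lit 1444) (nat_lit 0) (XT.nd (nat_lit 78) (nat_lit 760) (nat_lit 0) (XT.lf (nat_lit 0) (nat_lit 7626818971) (nat_lit 760) (nat_lit 23784450428) (nat_lit 836) (nat_lit 7364611850) (nat_lit 355) (nat_lit 5) (nat_lit 365) (nat_lit 5) (nat_lit 366) (nat_lit 5) (nat_lit 653) (nat_lit 612) (nat_lit 295)) (XT.nd (nat_lit 78) (nat_lit 760) (nat_lit 0) (XT.lf (nat_lit 0) (nat_lit 29662577681) (nat_lit 760) (nat_lit 7158269419) (nat_lit 836) (nat_lit 2392598935) (nat_lit 355) (nat_lit 5) (nat_lit 365) (nat_lit 5) (nat_lit 366) (nat_lit 5) (nat_lit 654) (nat_lit 612) (nat_lit 294)) (XT.lf (nat_lit 0) (nat_lit 2788628365) (nat_lit 760) (nat_lit 27096083433) (nat_lit 76) (nat_lit 9771804373) (nat_lit 345) (nat_lit 5) (nat_lit 355) (nat_lit 5) (nat_lit 346) (nat_lit 5) (nat_lit 655) (nat_lit 612) (nat_lit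 293)))) (XT.nd (nat_lit 156) (nat_lit 684) (nat_lit 0) (XT.nd (nat_lit 78) (nat_lit 760) (nat_lit 0) (XT.lf (nat_lit 0) (nat_lit 8152054185) (nat_lit 760) (nat_lit 4928915186) (nat_lit 76) (nat_lit 27024949888) (nat_lit 345) (nat_lit 5) (nat_lit 355) (nat_lit 5) (nat_lit 346) (nat_lit 5) (nat_lit 656) (nat_lit 612) (nat_lit 292)) (XT.lf (nat_lit 0) (nat_lit 13764872841) (nat_lit 836) (nat_lit 22674045534) (nat_lit 76) (nat_lit 4122549614) (nat_lit 335) (nat_lit 5) (nat_lit 346) (nat_lit 5) (nat_lit 336) (nat_lit 5) (nat_lit 657) (nat_lit 612) (nat_lit 291))) (XT.nd (nat_lit 78) (nat_lit 0) (nat_lit 0) (XT.lf (nat_lit 0) (nat_lit 114604091) (nat_lit 684) (nat_lit 19494712362) (nat_lit 760) (nat_lit 21414423935) (nat_lit 326) (nat_lit 5) (nat_lit 335) (nat_lit 5) (nat_lit 336) (nat_lit 5) (nat_lit 658) (nat_lit 612) (nat_lit 290)) (XT.lf (nat_lit 0) (nat_lit 23664904738) (nat_lit 684) (nat_lit 2056615782) (nat_lit 760) (nat_lit 15770720348) (nat_lit 326) (nat_lit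 5) (nat_lit 335) (nat_lit 5) (nat_lit 336) (nat_lit 5) (nat_lit 659) (nat_lit 612) (nat_lit 289)))))) (XT.nd (nat_lit 546) (nat_lit 2432) (nat_lit 0) (XT.nd (nat_lit 234) (nat_lit 1292) (nat_lit 0) (XT.nd (nat_lit 78) (nat_lit 684) (nat_lit 0) (XT.lf (nat_lit 0) (nat_lit 5687086312) (nat_lit 684) (nat_lit 26406678604) (nat_lit 760) (nat_lit 9873590578) (nat_lit 317) (nat_lit 5) (nat_lit 326) (nat_lit 5) (nat_lit 327) (nat_lit 5) (nat_lit 660) (nat_lit 612) (nat_lit 288)) (XT.nd (nat_lit 78) (nat_lit 684) (nat_lit 0) (XT.lf (nat_lit 0) (nat_lit 29898190415) (nat_lit 684) (nat_lit 8827180918) (nat_lit 760) (nat_lit 3723962800) (nat_lit 317) (nat_lit 5) (nat_lit 326) (nat_lit 5) (nat_lit 327) (nat_lit 5) (nat_lit 661) (nat_lit 612) (nat_lit 287)) (XT.lf (nat_lit 0) (nat_lit 2650270526) (nat_lit 684) (nat_lit 31209652631) (nat_lit 76) (nat_lit 9077997512) (nat_lit 308) (nat_lit 5) (nat_lit 317) (nat_lit 5) (nat_lit 309) (nat_lit 5) (nat_lit 662) (nat_lit 612)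 (nat_lit 286)))) (XT.nd (nat_lit 156) (nat_lit 608) (nat_lit 0) (XT.nd (nat_lit 78) (nat_lit 684) (nat_lit 0) (XT.lf (nat_lit 0) (nat_lit 9244197467) (nat_lit 684) (nat_lit 6856331418) (nat_lit 76) (nat_lit 27332416346) (nat_lit 308) (nat_lit 5) (nat_lit 317) (nat_lit 5) (nat_lit 309) (nat_lit 5) (nat_lit 663) (nat_lit 612) (nat_lit 285)) (XT.lf (nat_lit 0) (nat_lit 16100977469) (nat_lit 760) (nat_lit 25727783165) (nat_lit 76) (nat_lit 2106490217) (nat_lit 299) (nat_lit 5) (nat_lit 309) (nat_lit 5) (nat_lit 300) (nat_lit 5) (nat_lit 664) (nat_lit 612) (nat_lit 284))) (XT.nd (nat_lit 78) (nat_lit 608) (nat_lit 0) (XT.lf (nat_lit 0) (nat_lit 23246655190) (nat_lit 760) (nat_lit 689576000) (nat_lit 76) (nat_lit 20508336206) (nat_lit 299) (nat_lit 5) (nat_lit 309) (nat_lit 5) (nat_lit 300) (nat_lit 5) (nat_lit 665) (nat_lit 612) (nat_lit 283)) (XT.lf (nat_lit 0) (nat_lit 25178195158) (nat_lit 608) (nat_lit 5519369759) (nat_lit 684) (nat_lit 14263259042) (nat_lit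 291) (nat_lit 5) (nat_lit 299) (nat_lit 5) (nat_lit 300) (nat_lit 5) (nat_lit 666) (nat_lit 612) (nat_lit 282))))) (XT.nd (nat_lit 312) (nat_lit 1140) (nat_lit 0) (XT.nd (nat_lit 156) (nat_lit 608) (nat_lit 0) (XT.nd (nat_lit 78) (nat_lit 76) (nat_lit 0) (XT.lf (nat_lit 0) (nat_lit 6077473425) (nat_lit 608) (nat_lit 32349123720) (nat_lit 684) (nat_lit 7058226474) (nat_lit 283) (nat_lit 5) (nat_lit 291) (nat_lit 5) (nat_lit 292) (nat_lit 5) (nat_lit 667) (nat_lit 612) (nat_lit 281)) (XT.lf (nat_lit 0) (nat_lit 456136931) (nat_lit 684) (nat_lit 13334466148) (nat_lit 76) (nat_lit 32225281561) (nat_lit 282) (nat_lit 5) (nat_lit 291) (nat_lit 5) (nat_lit 283) (nat_lit 5) (nat_lit 668) (nat_lit 612) (nat_lit 280))) (XT.nd (nat_lit 78) (nat_lit 0) (nat_lit 0) (XT.lf (nat_lit 0) (nat_lit 8146419878) (nat_lit 684) (nat_lit 33201862601) (nat_lit 76) (nat_lit 5205948517) (nat_lit 274) (nat_lit 5) (nat_lit 283) (nat_lit 5) (nat_lit 275) (nat_lit 5) (nat_lit 669) (nat_lit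 612) (nat_lit 279)) (XT.lf (nat_lit 0) (nat_lit 16170806415) (nat_lit 684) (nat_lit 6441201045) (nat_lit 76) (nat_lit 24487730909) (nat_lit 274) (nat_lit 5) (nat_lit 283) (nat_lit 5) (nat_lit 275) (nat_lit 5) (nat_lit 670) (nat_lit 612) (nat_lit 278)))) (XT.nd (nat_lit 156) (nat_lit 0) (nat_lit 0) (XT.nd (nat_lit 78) (nat_lit 532) (nat_lit 0) (XT.lf (nat_lit 0) (nat_lit 21130413570) (nat_lit 608) (nat_lit 3361376985) (nat_lit 684) (nat_lit 23161643186) (nat_lit 266) (nat_lit 5) (nat_lit 274) (nat_lit 5) (nat_lit 275) (nat_lit 5) (nat_lit 671) (nat_lit 612) (nat_lit 277)) (XT.lf (nat_lit 0) (nat_lit 1029588108) (nat_lit 532) (nat_lit 32104391941) (nat_lit 608) (nat_lit 15081127307) (nat_lit 259) (nat_lit 5) (nat_lit 266) (nat_lit 5) (nat_lit 267) (nat_lit 5) (nat_lit 672) (nat_lit 612) (nat_lit 276))) (XT.nd (nat_lit 76518) (nat_lit 0) (nat_lit 16112) (XT.lf (nat_lit 0) (nat_lit 29468828020) (nat_lit 532) (nat_lit 12679222532) (nat_lit 608) (nat_lit 6635983192)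 (nat_lit 259) (nat_lit 5) (nat_lit 266) (nat_lit 5) (nat_lit 267) (nat_lit 5) (nat_lit 673) (nat_lit 612) (nat_lit 275)) (XT.lf (nat_lit 0) (nat_lit 881128580) (nat_lit 1900) (nat_lit 5979531712) (nat_lit 1900) (nat_lit 5979531712) (nat_lit 471) (nat_lit 3) (nat_lit 496) (nat_lit 3) (nat_lit 496) (nat_lit 5) (nat_lit 613) (nat_lit 613) (nat_lit 334))))))) (XT.nd (nat_lit 1092) (nat_lit 2964) (nat_lit 0) (XT.nd (nat_lit 546) (nat_lit 0) (nat_lit 304) (XT.nd (nat_lit 234) (nat_lit 0) (nat_lit 152) (XT.nd (nat_lit 78) (nat_lit 0) (nat_lit 76) (XT.lf (nat_lit 76) (nat_lit 788304500) (nat_lit 0) (nat_lit 1096979734) (nat_lit 1900) (nat_lit 24049789443) (nat_lit 472) (nat_lit 5) (nat_lit 471) (nat_lit 3) (nat_lit 496) (nat_lit 5) (nat_lit 614) (nat_lit 613) (nat_lit 333)) (XT.nd (nat_lit 78) (nat_lit 0) (nat_lit 0) (XT.lf (nat_lit 0) (nat_lit 2165406451) (nat_lit 1824) (nat_lit 12318958870) (nat_lit 1900) (nat_lit 11707399285) (nat_lit 472) (nat_lit 5) (nat_lit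 496) (nat_lit 5) (nat_lit 497) (nat_lit 5) (nat_lit 615) (nat_lit 613) (nat_lit 332)) (XT.lf (nat_lit 76) (nat_lit 766806798) (nat_lit 0) (nat_lit 1693988224) (nat_lit 1900) (nat_lit 23992601210) (nat_lit 473) (nat_lit 5) (nat_lit 472) (nat_lit 5) (nat_lit 497) (nat_lit 5) (nat_lit 616) (nat_lit 613) (nat_lit 331)))) (XT.nd (nat_lit 156) (nat_lit 0) (nat_lit 76) (XT.nd (nat_lit 78) (nat_lit 0) (nat_lit 0) (XT.lf (nat_lit 0) (nat_lit 2916481128) (nat_lit 1824) (nat_lit 12513028225) (nat_lit 1900) (nat_lit 11287663495) (nat_lit 473) (nat_lit 5) (nat_lit 497) (nat_lit 5) (nat_lit 498) (nat_lit 5) (nat_lit 617) (nat_lit 613) (nat_lit 330)) (XT.lf (nat_lit 76) (nat_lit 923483545) (nat_lit 0) (nat_lit 2472530973) (nat_lit 1900) (nat_lit 23589915958) (nat_lit 474) (nat_lit 5) (nat_lit 473) (nat_lit 5) (nat_lit 498) (nat_lit 5) (nat_lit 618) (nat_lit 613) (nat_lit 329))) (XT.nd (nat_lit 78) (nat_lit 0) (nat_lit 0) (XT.lf (nat_lit 0) (nat_lit 4036983644) (nat_lit 1824)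 (nat_lit 12531811767) (nat_lit 1900) (nat_lit 10688231091) (nat_lit 474) (nat_lit 5) (nat_lit 498) (nat_lit 5) (nat_lit 499) (nat_lit 5) (nat_lit 619) (nat_lit 613) (nat_lit 328)) (XT.lf (nat_lit 76) (nat_lit 1268263608) (nat_lit 0) (nat_lit 3444730549) (nat_lit 1900) (nat_lit 22820105996) (nat_lit 475) (nat_lit 5) (nat_lit 474) (nat_lit 5) (nat_lit 499) (nat_lit 5) (nat_lit 620) (nat_lit 613) (nat_lit 327))))) (XT.nd (nat_lit 234) (nat_lit 0) (nat_lit 76) (XT.nd (nat_lit 78) (nat_lit 0) (nat_lit 0) (XT.lf (nat_lit 0) (nat_lit 5549382519) (nat_lit 1824) (nat_lit 12365382008) (nat_lit 1900) (nat_lit 9896993739) (nat_lit 475) (nat_lit 5) (nat_lit 499) (nat_lit 5) (nat_lit 500) (nat_lit 5) (nat_lit 621) (nat_lit 613) (nat_lit 326)) (XT.nd (nat_lit 78) (nat_lit 0) (nat_lit 76) (XT.lf (nat_lit 76) (nat_lit 1811561370) (nat_lit 0) (nat_lit 4623214670) (nat_lit 1900) (nat_lit 21660568092) (nat_lit 476) (nat_lit 5) (nat_lit 475) (nat_lit 5) (nat_lit 500) (nat_lit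 5) (nat_lit 622) (nat_lit 613) (nat_lit 325)) (XT.lf (nat_lit 0) (nat_lit 7477155530) (nat_lit 1824) (nat_lit 12003326208) (nat_lit 1900) (nat_lit 8901334552) (nat_lit 476) (nat_lit 5) (nat_lit 500) (nat_lit 5) (nat_lit 501) (nat_lit 5) (nat_lit 623) (nat_lit 613) (nat_lit 324)))) (XT.nd (nat_lit 156) (nat_lit 0) (nat_lit 76) (XT.nd (nat_lit 78) (nat_lit 0) (nat_lit 76) (XT.lf (nat_lit 76) (nat_lit 2564294895) (nat_lit 0) (nat_lit 6021142189) (nat_lit 1900) (nat_lit 20087679852) (nat_lit 477) (nat_lit 5) (nat_lit 476) (nat_lit 5) (nat_lit 501) (nat_lit 5) (nat_lit 624) (nat_lit 613) (nat_lit 323)) (XT.lf (nat_lit 0) (nat_lit 9844834546) (nat_lit 1824) (nat_lit 11434728123) (nat_lit 1900) (nat_lit 7688102050) (nat_lit 477) (nat_lit 5) (nat_lit 501) (nat_lit 5) (nat_lit 502) (nat_lit 5) (nat_lit 625) (nat_lit 613) (nat_lit 322))) (XT.nd (nat_lit 78) (nat_lit 0) (nat_lit 76) (XT.lf (nat_lit 76) (nat_lit 3537904894) (nat_lit 0) (nat_lit 7652229969) (nat_lit 1900)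 (nat_lit 18076754425) (nat_lit 478) (nat_lit 5) (nat_lit 477) (nat_lit 5) (nat_lit 502) (nat_lit 5) (nat_lit 626) (nat_lit 613) (nat_lit 321)) (XT.lf (nat_lit 0) (nat_lit 12678052114) (nat_lit 1824) (nat_lit 10648148932) (nat_lit 1900) (nat_lit 6243583209) (nat_lit 478) (nat_lit 5) (nat_lit 502) (nat_lit 5) (nat_lit 503) (nat_lit 5) (nat_lit 627) (nat_lit 613) (nat_lit 320)))))) (XT.nd (nat_lit 546) (nat_lit 3496) (nat_lit 0) (XT.nd (nat_lit 234) (nat_lit 0) (nat_lit 152) (XT.nd (nat_lit 78) (nat_lit 0) (nat_lit 76) (XT.lf (nat_lit 76) (nat_lit 4744374528) (nat_lit 0) (nat_lit 9530780721) (nat_lit 1900) (nat_lit 15601993446) (nat_lit 479) (nat_lit 5) (nat_lit 478) (nat_lit 5) (nat_lit 503) (nat_lit 5) (nat_lit 628) (nat_lit 613) (nat_lit 319)) (XT.nd (nat_lit 78) (nat_lit 0) (nat_lit 0) (XT.lf (nat_lit 0) (nat_lit 16003589846) (nat_lit 1824) (nat_lit 9631607365) (nat_lit 1900) (nat_lit 4553475546) (nat_lit 479) (nat_lit 5) (nat_lit 503) (nat_lit 5) (nat_lit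 504) (nat_lit 5) (nat_lit 629) (nat_lit 613) (nat_lit 318)) (XT.lf (nat_lit 76) (nat_lit 6196250055) (nat_lit 0) (nat_lit 11671711834) (nat_lit 1900) (nat_lit 12636438154) (nat_lit 480) (nat_lit 5) (nat_lit 479) (nat_lit 5) (nat_lit 504) (nat_lit 5) (nat_lit 630) (nat_lit 613) (nat_lit 317)))) (XT.nd (nat_lit 156) (nat_lit 0) (nat_lit 76) (XT.nd (nat_lit 78) (nat_lit 0) (nat_lit 0) (XT.lf (nat_lit 0) (nat_lit 19849428696) (nat_lit 1824) (nat_lit 8372558958) (nat_lit 1900) (nat_lit 2602858190) (nat_lit 480) (nat_lit 5) (nat_lit 504) (nat_lit 5) (nat_lit 505) (nat_lit 5) (nat_lit 631) (nat_lit 613) (nat_lit 316)) (XT.lf (nat_lit 76) (nat_lit 7906662350) (nat_lit 0) (nat_lit 14090585276) (nat_lit 1900) (nat_lit 9151918594) (nat_lit 481) (nat_lit 5) (nat_lit 480) (nat_lit 5) (nat_lit 505) (nat_lit 5) (nat_lit 632) (nat_lit 613) (nat_lit 315))) (XT.nd (nat_lit 78) (nat_lit 0) (nat_lit 0) (XT.lf (nat_lit 0) (nat_lit 24244801208) (nat_lit 1824) (nat_lit 6857874450)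 (nat_lit 1900) (nat_lit 376161891) (nat_lit 481) (nat_lit 5) (nat_lit 505) (nat_lit 5) (nat_lit 506) (nat_lit 5) (nat_lit 633) (nat_lit 613) (nat_lit 314)) (XT.lf (nat_lit 76) (nat_lit 9889349336) (nat_lit 0) (nat_lit 16803638595) (nat_lit 1900) (nat_lit 5119000842) (nat_lit 482) (nat_lit 5) (nat_lit 481) (nat_lit 5) (nat_lit 506) (nat_lit 5) (nat_lit 634) (nat_lit 613) (nat_lit 313))))) (XT.nd (nat_lit 312) (nat_lit 1900) (nat_lit 0) (XT.nd (nat_lit 156) (nat_lit 1824) (nat_lit 0) (XT.nd (nat_lit 78) (nat_lit 0) (nat_lit 76) (XT.lf (nat_lit 76) (nat_lit 27063003972) (nat_lit 0) (nat_lit 2171339619) (nat_lit 1900) (nat_lit 2916575435) (nat_lit 482) (nat_lit 5) (nat_lit 481) (nat_lit 5) (nat_lit 506) (nat_lit 5) (nat_lit 635) (nat_lit 613) (nat_lit 312)) (XT.lf (nat_lit 76) (nat_lit 12158679338) (nat_lit 0) (nat_lit 19827817107) (nat_lit 1900) (nat_lit 506932141) (nat_lit 483) (nat_lit 5) (nat_lit 482) (nat_lit 5) (nat_lit 507) (nat_lit 5) (nat_lit 636) (nat_lit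 613) (nat_lit 311))) (XT.nd (nat_lit 78) (nat_lit 0) (nat_lit 76) (XT.lf (nat_lit 0) (nat_lit 1972302574) (nat_lit 1900) (nat_lit 3051700903) (nat_lit 1976) (nat_lit 27817591931) (nat_lit 457) (nat_lit 5) (nat_lit 482) (nat_lit 5) (nat_lit 483) (nat_lit 5) (nat_lit 637) (nat_lit 613) (nat_lit 310)) (XT.lf (nat_lit 0) (nat_lit 4654559466) (nat_lit 1900) (nat_lit 18495013290) (nat_lit 76) (nat_lit 10043881388) (nat_lit 458) (nat_lit 5) (nat_lit 483) (nat_lit 5) (nat_lit 459) (nat_lit 5) (nat_lit 638) (nat_lit 613) (nat_lit 309)))) (XT.nd (nat_lit 156) (nat_lit 912) (nat_lit 0) (XT.nd (nat_lit 78) (nat_lit 1064) (nat_lit 0) (XT.lf (nat_lit 0) (nat_lit 7442644376) (nat_lit 1900) (nat_lit 741889039) (nat_lit 76) (nat_lit 25366773077) (nat_lit 458) (nat_lit 5) (nat_lit 483) (nat_lit 5) (nat_lit 459) (nat_lit 5) (nat_lit 639) (nat_lit 613) (nat_lit 308)) (XT.lf (nat_lit 0) (nat_lit 10445788600) (nat_lit 1140) (nat_lit 16365186199) (nat_lit 76) (nat_lit 7102155232)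 (nat_lit 444) (nat_lit 5) (nat_lit 459) (nat_lit 5) (nat_lit 445) (nat_lit 5) (nat_lit 640) (nat_lit 613) (nat_lit 307))) (XT.nd (nat_lit 78) (nat_lit 0) (nat_lit 0) (XT.lf (nat_lit 0) (nat_lit 1900744021) (nat_lit 912) (nat_lit 11678161340) (nat_lit 988) (nat_lit 20701886580) (nat_lit 432) (nat_lit 5) (nat_lit 444) (nat_lit 5) (nat_lit 445) (nat_lit 5) (nat_lit 641) (nat_lit 613) (nat_lit 306)) (XT.lf (nat_lit 0) (nat_lit 16908004386) (nat_lit 988) (nat_lit 13926418137) (nat_lit 76) (nat_lit 3818718260) (nat_lit 432) (nat_lit 5) (nat_lit 445) (nat_lit 5) (nat_lit 433) (nat_lit 5) (nat_lit 642) (nat_lit 613) (nat_lit 305))))))))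
noncomputable def xc233 : XT := (XT.nd (nat_lit 2262) (nat_lit 608) (nat_lit 0) (XT.nd (nat_lit 1092) (nat_lit 5396) (nat_lit 0) (XT.nd (nat_lit 546) (nat_lit 3116) (nat_lit 0) (XT.nd (nat_lit 234) (nat_lit 1748) (nat_lit 0) (XT.nd (nat_lit 78) (nat_lit 836) (nat_lit 0) (XT.lf (nat_lit 0) (nat_lit 4881484162) (nat_lit 912) (nat_lit 15529644366) (nat_lit 988) (nat_lit 14619659299) (nat_lit 420) (nat_lit 5) (nat_lit 432) (nat_lit 5) (nat_lit 433) (nat_lit 5) (nat_lit 643) (nat_lit 613) (nat_lit 304)) (XT.nd (nat_lit 78) (nat_lit 836) (nat_lit 0) (XT.lf (nat_lit 0) (nat_lit 24077347750) (nat_lit 988) (nat_lit 11162449377) (nat_lit 76) (nat_lit 174330123) (nat_lit 420) (nat_lit 5) (nat_lit 433) (nat_lit 5) (nat_lit 421) (nat_lit 5) (nat_lit 644) (nat_lit 613) (nat_lit 303)) (XT.lf (nat_lit 0) (nat_lit 8207463428) (nat_lit 836) (nat_lit 19764024990) (nat_lit 912) (nat_lit 7830553189) (nat_lit 409) (nat_lit 5) (nat_lit 420) (nat_lit 5) (nat_lit 421) (nat_lit 5)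 (nat_lit 645) (nat_lit 613) (nat_lit 302)))) (XT.nd (nat_lit 156) (nat_lit 912) (nat_lit 0) (XT.nd (nat_lit 78) (nat_lit 836) (nat_lit 0) (XT.lf (nat_lit 0) (nat_lit 28114618536) (nat_lit 836) (nat_lit 3902283322) (nat_lit 912) (nat_lit 4179344676) (nat_lit 409) (nat_lit 5) (nat_lit 420) (nat_lit 5) (nat_lit 421) (nat_lit 5) (nat_lit 646) (nat_lit 613) (nat_lit 301)) (XT.lf (nat_lit 0) (nat_lit 11896429281) (nat_lit 836) (nat_lit 24402256324) (nat_lit 912) (nat_lit 296540799) (nat_lit 398) (nat_lit 5) (nat_lit 409) (nat_lit 5) (nat_lit 410) (nat_lit 5) (nat_lit 647) (nat_lit 613) (nat_lit 300))) (XT.nd (nat_lit 78) (nat_lit 836) (nat_lit 0) (XT.lf (nat_lit 0) (nat_lit 3694824236) (nat_lit 912) (nat_lit 4668972929) (nat_lit 76) (nat_lit 28636333853) (nat_lit 397) (nat_lit 5) (nat_lit 409) (nat_lit 5) (nat_lit 398) (nat_lit 5) (nat_lit 648) (nat_lit 613) (nat_lit 299)) (XT.lf (nat_lit 0) (nat_lit 7916885010) (nat_lit 912) (nat_lit 21496209697) (nat_lit 76) (nat_lit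 7996903111) (nat_lit 386) (nat_lit 5) (nat_lit 398) (nat_lit 5) (nat_lit 387) (nat_lit 5) (nat_lit 649) (nat_lit 613) (nat_lit 298))))) (XT.nd (nat_lit 234) (nat_lit 1520) (nat_lit 0) (XT.nd (nat_lit 78) (nat_lit 1596) (nat_lit 0) (XT.lf (nat_lit 0) (nat_lit 12308887020) (nat_lit 912) (nat_lit 913006045) (nat_lit 76) (nat_lit 24604458964) (nat_lit 386) (nat_lit 5) (nat_lit 398) (nat_lit 5) (nat_lit 387) (nat_lit 5) (nat_lit 650) (nat_lit 613) (nat_lit 297)) (XT.nd (nat_lit 78) (nat_lit 760) (nat_lit 0) (XT.lf (nat_lit 0) (nat_lit 16941692836) (nat_lit 912) (nat_lit 17923393767) (nat_lit 76) (nat_lit 3382887522) (nat_lit 375) (nat_lit 5) (nat_lit 387) (nat_lit 5) (nat_lit 376) (nat_lit 5) (nat_lit 651) (nat_lit 613) (nat_lit 296)) (XT.lf (nat_lit 0) (nat_lit 3275285012) (nat_lit 760) (nat_lit 18505482358) (nat_lit 836) (nat_lit 16894989114) (nat_lit 365) (nat_lit 5) (nat_lit 375) (nat_lit 5) (nat_lit 376) (nat_lit 5) (nat_lit 652) (nat_lit 613) (nat_lit 295))))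 (XT.nd (nat_lit 156) (nat_lit 760) (nat_lit 0) (XT.nd (nat_lit 78) (nat_lit 760) (nat_lit 0) (XT.lf (nat_lit 0) (nat_lit 25139446709) (nat_lit 760) (nat_lit 1696087548) (nat_lit 836) (nat_lit 12274182088) (nat_lit 365) (nat_lit 5) (nat_lit 375) (nat_lit 5) (nat_lit 376) (nat_lit 5) (nat_lit 653) (nat_lit 613) (nat_lit 294)) (XT.lf (nat_lit 0) (nat_lit 7890265206) (nat_lit 760) (nat_lit 24251330169) (nat_lit 836) (nat_lit 7407756122) (nat_lit 355) (nat_lit 5) (nat_lit 365) (nat_lit 5) (nat_lit 366) (nat_lit 5) (nat_lit 654) (nat_lit 613) (nat_lit 293))) (XT.nd (nat_lit 78) (nat_lit 760) (nat_lit 0) (XT.lf (nat_lit 0) (nat_lit 30364564387) (nat_lit 760) (nat_lit 7292798270) (nat_lit 836) (nat_lit 2338345066) (nat_lit 355) (nat_lit 5) (nat_lit 365) (nat_lit 5) (nat_lit 366) (nat_lit 5) (nat_lit 655) (nat_lit 613) (nat_lit 292)) (XT.lf (nat_lit 0) (nat_lit 2943965814) (nat_lit 760) (nat_lit 27526718769) (nat_lit 76) (nat_lit 9976965557) (nat_lit 345) (nat_lit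 5) (nat_lit 355) (nat_lit 5) (nat_lit 346) (nat_lit 5) (nat_lit 656) (nat_lit 613) (nat_lit 291)))))) (XT.nd (nat_lit 546) (nat_lit 2584) (nat_lit 0) (XT.nd (nat_lit 234) (nat_lit 1368) (nat_lit 0) (XT.nd (nat_lit 78) (nat_lit 1444) (nat_lit 0) (XT.lf (nat_lit 0) (nat_lit 8412707898) (nat_lit 760) (nat_lit 4918389242) (nat_lit 76) (nat_lit 27574983295) (nat_lit 345) (nat_lit 5) (nat_lit 355) (nat_lit 5) (nat_lit 346) (nat_lit 5) (nat_lit 657) (nat_lit 613) (nat_lit 290)) (XT.nd (nat_lit 78) (nat_lit 684) (nat_lit 0) (XT.lf (nat_lit 0) (nat_lit 14136650479) (nat_lit 836) (nat_lit 23017284890) (nat_lit 76) (nat_lit 4216827518) (nat_lit 335) (nat_lit 5) (nat_lit 346) (nat_lit 5) (nat_lit 336) (nat_lit 5) (nat_lit 658) (nat_lit 613) (nat_lit 289)) (XT.lf (nat_lit 0) (nat_lit 226412455) (nat_lit 684) (nat_lit 19870389792) (nat_lit 760) (nat_lit 21745502195) (nat_lit 326) (nat_lit 5) (nat_lit 335) (nat_lit 5) (nat_lit 336) (nat_lit 5) (nat_lit 659) (nat_lit 613)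 (nat_lit 288)))) (XT.nd (nat_lit 156) (nat_lit 684) (nat_lit 0) (XT.nd (nat_lit 78) (nat_lit 684) (nat_lit 0) (XT.lf (nat_lit 0) (nat_lit 24245571736) (nat_lit 684) (nat_lit 2083810041) (nat_lit 760) (nat_lit 15990830619) (nat_lit 326) (nat_lit 5) (nat_lit 335) (nat_lit 5) (nat_lit 336) (nat_lit 5) (nat_lit 660) (nat_lit 613) (nat_lit 287)) (XT.lf (nat_lit 0) (nat_lit 5909261632) (nat_lit 684) (nat_lit 26918770197) (nat_lit 760) (nat_lit 9976818363) (nat_lit 317) (nat_lit 5) (nat_lit 326) (nat_lit 5) (nat_lit 327) (nat_lit 5) (nat_lit 661) (nat_lit 613) (nat_lit 286))) (XT.nd (nat_lit 78) (nat_lit 684) (nat_lit 0) (XT.lf (nat_lit 0) (nat_lit 30602461668) (nat_lit 684) (nat_lit 8987997105) (nat_lit 760) (nat_lit 3706045952) (nat_lit 317) (nat_lit 5) (nat_lit 326) (nat_lit 5) (nat_lit 327) (nat_lit 5) (nat_lit 662) (nat_lit 613) (nat_lit 285)) (XT.lf (nat_lit 0) (nat_lit 2793474442) (nat_lit 684) (nat_lit 31725331922) (nat_lit 76) (nat_lit 9276064433) (nat_lit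 308) (nat_lit 5) (nat_lit 317) (nat_lit 5) (nat_lit 309) (nat_lit 5) (nat_lit 663) (nat_lit 613) (nat_lit 284))))) (XT.nd (nat_lit 312) (nat_lit 1292) (nat_lit 0) (XT.nd (nat_lit 156) (nat_lit 608) (nat_lit 0) (XT.nd (nat_lit 78) (nat_lit 684) (nat_lit 0) (XT.lf (nat_lit 0) (nat_lit 9517511324) (nat_lit 684) (nat_lit 6887072006) (nat_lit 76) (nat_lit 27895247977) (nat_lit 308) (nat_lit 5) (nat_lit 317) (nat_lit 5) (nat_lit 309) (nat_lit 5) (nat_lit 664) (nat_lit 613) (nat_lit 283)) (XT.lf (nat_lit 0) (nat_lit 16510498032) (nat_lit 760) (nat_lit 26135019745) (nat_lit 76) (nat_lit 2166683922) (nat_lit 299) (nat_lit 5) (nat_lit 309) (nat_lit 5) (nat_lit 300) (nat_lit 5) (nat_lit 665) (nat_lit 613) (nat_lit 282))) (XT.nd (nat_lit 78) (nat_lit 608) (nat_lit 0) (XT.lf (nat_lit 0) (nat_lit 23797373601) (nat_lit 760) (nat_lit 598152733) (nat_lit 76) (nat_lit 20936212637) (nat_lit 299) (nat_lit 5) (nat_lit 309) (nat_lit 5) (nat_lit 300) (nat_lit 5) (nat_lit 666) (nat_lit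 613) (nat_lit 281)) (XT.lf (nat_lit 0) (nat_lit 25786281645) (nat_lit 608) (nat_lit 5610016442) (nat_lit 684) (nat_lit 14462042726) (nat_lit 291) (nat_lit 5) (nat_lit 299) (nat_lit 5) (nat_lit 300) (nat_lit 5) (nat_lit 667) (nat_lit 613) (nat_lit 280)))) (XT.nd (nat_lit 156) (nat_lit 608) (nat_lit 0) (XT.nd (nat_lit 78) (nat_lit 76) (nat_lit 0) (XT.lf (nat_lit 0) (nat_lit 6304418945) (nat_lit 608) (nat_lit 32974639583) (nat_lit 684) (nat_lit 7113779066) (nat_lit 283) (nat_lit 5) (nat_lit 291) (nat_lit 5) (nat_lit 292) (nat_lit 5) (nat_lit 668) (nat_lit 613) (nat_lit 279)) (XT.lf (nat_lit 0) (nat_lit 548092142) (nat_lit 684) (nat_lit 13496721451) (nat_lit 76) (nat_lit 32889728333) (nat_lit 282) (nat_lit 5) (nat_lit 291) (nat_lit 5) (nat_lit 283) (nat_lit 5) (nat_lit 669) (nat_lit 613) (nat_lit 278))) (XT.nd (nat_lit 78) (nat_lit 0) (nat_lit 0) (XT.lf (nat_lit 0) (nat_lit 8391372139) (nat_lit 684) (nat_lit 33760653540) (nat_lit 76) (nat_lit 5331645776) (nat_lit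 274) (nat_lit 5) (nat_lit 283) (nat_lit 5) (nat_lit 275) (nat_lit 5) (nat_lit 670) (nat_lit 613) (nat_lit 277)) (XT.lf (nat_lit 0) (nat_lit 16574638095) (nat_lit 684) (nat_lit 6466842407) (nat_lit 76) (nat_lit 24998640712) (nat_lit 274) (nat_lit 5) (nat_lit 283) (nat_lit 5) (nat_lit 275) (nat_lit 5) (nat_lit 671) (nat_lit 613) (nat_lit 276))))))) (XT.nd (nat_lit 77766) (nat_lit 0) (nat_lit 12616) (XT.nd (nat_lit 77142) (nat_lit 0) (nat_lit 15808) (XT.nd (nat_lit 76830) (nat_lit 0) (nat_lit 15656) (XT.nd (nat_lit 76674) (nat_lit 0) (nat_lit 15580) (XT.lf (nat_lit 0) (nat_lit 21655525667) (nat_lit 608) (nat_lit 3405604998) (nat_lit 684) (nat_lit 23543778125) (nat_lit 266) (nat_lit 5) (nat_lit 274) (nat_lit 5) (nat_lit 275) (nat_lit 5) (nat_lit 672) (nat_lit 613) (nat_lit 275)) (XT.nd (nat_lit 78) (nat_lit 0) (nat_lit 0) (XT.lf (nat_lit 0) (nat_lit 998386333) (nat_lit 1900) (nat_lit 6048305382) (nat_lit 1900) (nat_lit 6048305382) (nat_lit 471) (nat_lit 3) (nat_lit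 496) (nat_lit 3) (nat_lit 496) (nat_lit 5) (nat_lit 614) (nat_lit 614) (nat_lit 332)) (XT.lf (nat_lit 76) (nat_lit 905035873) (nat_lit 0) (nat_lit 1213972679) (nat_lit 1900) (nat_lit 24330834377) (nat_lit 472) (nat_lit 5) (nat_lit 471) (nat_lit 3) (nat_lit 496) (nat_lit 5) (nat_lit 615) (nat_lit 614) (nat_lit 331)))) (XT.nd (nat_lit 156) (nat_lit 0) (nat_lit 76) (XT.nd (nat_lit 78) (nat_lit 0) (nat_lit 0) (XT.lf (nat_lit 0) (nat_lit 2400284662) (nat_lit 1824) (nat_lit 12461892309) (nat_lit 1900) (nat_lit 11849579910) (nat_lit 472) (nat_lit 5) (nat_lit 496) (nat_lit 5) (nat_lit 497) (nat_lit 5) (nat_lit 616) (nat_lit 614) (nat_lit 330)) (XT.lf (nat_lit 76) (nat_lit 884908109) (nat_lit 0) (nat_lit 1813583840) (nat_lit 1900) (nat_lit 24280191199) (nat_lit 473) (nat_lit 5) (nat_lit 472) (nat_lit 5) (nat_lit 497) (nat_lit 5) (nat_lit 617) (nat_lit 614) (nat_lit 329))) (XT.nd (nat_lit 78) (nat_lit 0) (nat_lit 0) (XT.lf (nat_lit 0) (nat_lit 3159050458) (nat_lit 1824)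 (nat_lit 12658286135) (nat_lit 1900) (nat_lit 11430483753) (nat_lit 473) (nat_lit 5) (nat_lit 497) (nat_lit 5) (nat_lit 498) (nat_lit 5) (nat_lit 618) (nat_lit 614) (nat_lit 328)) (XT.lf (nat_lit 76) (nat_lit 1046265063) (nat_lit 0) (nat_lit 2598974171) (nat_lit 1900) (nat_lit 23876772817) (nat_lit 474) (nat_lit 5) (nat_lit 473) (nat_lit 5) (nat_lit 498) (nat_lit 5) (nat_lit 619) (nat_lit 614) (nat_lit 327))))) (XT.nd (nat_lit 312) (nat_lit 0) (nat_lit 152) (XT.nd (nat_lit 156) (nat_lit 0) (nat_lit 76) (XT.nd (nat_lit 78) (nat_lit 0) (nat_lit 0) (XT.lf (nat_lit 0) (nat_lit 4294982669) (nat_lit 1824) (nat_lit 12676125680) (nat_lit 1900) (nat_lit 10827502765) (nat_lit 474) (nat_lit 5) (nat_lit 498) (nat_lit 5) (nat_lit 499) (nat_lit 5) (nat_lit 620) (nat_lit 614) (nat_lit 326)) (XT.lf (nat_lit 76) (nat_lit 1399251713) (nat_lit 0) (nat_lit 3582471779) (nat_lit 1900) (nat_lit 23098538754) (nat_lit 475) (nat_lit 5) (nat_lit 474) (nat_lit 5) (nat_lit 499) (nat_lit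 5) (nat_lit 621) (nat_lit 614) (nat_lit 325))) (XT.nd (nat_lit 78) (nat_lit 0) (nat_lit 0) (XT.lf (nat_lit 0) (nat_lit 5830980419) (nat_lit 1824) (nat_lit 12505268333) (nat_lit 1900) (nat_lit 10028322160) (nat_lit 475) (nat_lit 5) (nat_lit 499) (nat_lit 5) (nat_lit 500) (nat_lit 5) (nat_lit 622) (nat_lit 614) (nat_lit 324)) (XT.lf (nat_lit 76) (nat_lit 1954507193) (nat_lit 0) (nat_lit 4776922180) (nat_lit 1900) (nat_lit 21922452373) (nat_lit 476) (nat_lit 5) (nat_lit 475) (nat_lit 5) (nat_lit 500) (nat_lit 5) (nat_lit 623) (nat_lit 614) (nat_lit 323)))) (XT.nd (nat_lit 156) (nat_lit 0) (nat_lit 76) (XT.nd (nat_lit 78) (nat_lit 0) (nat_lit 0) (XT.lf (nat_lit 0) (nat_lit 7790973327) (nat_lit 1824) (nat_lit 12135077541) (nat_lit 1900) (nat_lit 9020106340) (nat_lit 476) (nat_lit 5) (nat_lit 500) (nat_lit 5) (nat_lit 501) (nat_lit 5) (nat_lit 624) (nat_lit 614) (nat_lit 322)) (XT.lf (nat_lit 76) (nat_lit 2723183384) (nat_lit 0) (nat_lit 6195714683) (nat_lit 1900)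 (nat_lit 20324436442) (nat_lit 477) (nat_lit 5) (nat_lit 476) (nat_lit 5) (nat_lit 501) (nat_lit 5) (nat_lit 625) (nat_lit 614) (nat_lit 321))) (XT.nd (nat_lit 78) (nat_lit 0) (nat_lit 0) (XT.lf (nat_lit 0) (nat_lit 10199967184) (nat_lit 1824) (nat_lit 11554404124) (nat_lit 1900) (nat_lit 7789472456) (nat_lit 477) (nat_lit 5) (nat_lit 501) (nat_lit 5) (nat_lit 502) (nat_lit 5) (nat_lit 626) (nat_lit 614) (nat_lit 320)) (XT.lf (nat_lit 76) (nat_lit 3716964325) (nat_lit 0) (nat_lit 7852809681) (nat_lit 1900) (nat_lit 18279326996) (nat_lit 478) (nat_lit 5) (nat_lit 477) (nat_lit 5) (nat_lit 502) (nat_lit 5) (nat_lit 627) (nat_lit 614) (nat_lit 319)))))) (XT.nd (nat_lit 546) (nat_lit 3496) (nat_lit 0) (XT.nd (nat_lit 234) (nat_lit 0) (nat_lit 76) (XT.nd (nat_lit 78) (nat_lit 0) (nat_lit 0) (XT.lf (nat_lit 0) (nat_lit 13084091407) (nat_lit 1824) (nat_lit 10751566780) (nat_lit 1900) (nat_lit 6322463029) (nat_lit 478) (nat_lit 5) (nat_lit 502) (nat_lit 5) (nat_lit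 503) (nat_lit 5) (nat_lit 628) (nat_lit 614) (nat_lit 318)) (XT.nd (nat_lit 78) (nat_lit 0) (nat_lit 76) (XT.lf (nat_lit 76) (nat_lit 4948086458) (nat_lit 0) (nat_lit 9762766938) (nat_lit 1900) (nat_lit 15760825392) (nat_lit 479) (nat_lit 5) (nat_lit 478) (nat_lit 5) (nat_lit 503) (nat_lit 5) (nat_lit 629) (nat_lit 614) (nat_lit 317)) (XT.lf (nat_lit 0) (nat_lit 16470648345) (nat_lit 1824) (nat_lit 9714331743) (nat_lit 1900) (nat_lit 4604517586) (nat_lit 479) (nat_lit 5) (nat_lit 503) (nat_lit 5) (nat_lit 504) (nat_lit 5) (nat_lit 630) (nat_lit 614) (nat_lit 316)))) (XT.nd (nat_lit 156) (nat_lit 0) (nat_lit 76) (XT.nd (nat_lit 78) (nat_lit 0) (nat_lit 76) (XT.lf (nat_lit 76) (nat_lit 6429359748) (nat_lit 0) (nat_lit 11940774888) (nat_lit 1900) (nat_lit 12741448506) (nat_lit 480) (nat_lit 5) (nat_lit 479) (nat_lit 5) (nat_lit 504) (nat_lit 5) (nat_lit 631) (nat_lit 614) (nat_lit 315)) (XT.lf (nat_lit 0) (nat_lit 20388164509) (nat_lit 1824) (nat_lit 8429891589)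 (nat_lit 1900) (nat_lit 2620443257) (nat_lit 480) (nat_lit 5) (nat_lit 504) (nat_lit 5) (nat_lit 505) (nat_lit 5) (nat_lit 632) (nat_lit 614) (nat_lit 314))) (XT.nd (nat_lit 78) (nat_lit 0) (nat_lit 76) (XT.lf (nat_lit 76) (nat_lit 8174189681) (nat_lit 0) (nat_lit 14402681038) (nat_lit 1900) (nat_lit 9192476967) (nat_lit 481) (nat_lit 5) (nat_lit 480) (nat_lit 5) (nat_lit 505) (nat_lit 5) (nat_lit 633) (nat_lit 614) (nat_lit 313)) (XT.lf (nat_lit 0) (nat_lit 24866443817) (nat_lit 1824) (nat_lit 6884843148) (nat_lit 1900) (nat_lit 354384270) (nat_lit 481) (nat_lit 5) (nat_lit 505) (nat_lit 5) (nat_lit 506) (nat_lit 5) (nat_lit 634) (nat_lit 614) (nat_lit 312))))) (XT.nd (nat_lit 312) (nat_lit 1900) (nat_lit 0) (XT.nd (nat_lit 156) (nat_lit 1824) (nat_lit 0) (XT.nd (nat_lit 78) (nat_lit 0) (nat_lit 0) (XT.lf (nat_lit 76) (nat_lit 10196600188) (nat_lit 0) (nat_lit 17165023494) (nat_lit 1900) (nat_lit 5083901374) (nat_lit 482) (nat_lit 5) (nat_lit 481) (nat_lit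 5) (nat_lit 506) (nat_lit 5) (nat_lit 635) (nat_lit 614) (nat_lit 311)) (XT.lf (nat_lit 76) (nat_lit 27711581566) (nat_lit 0) (nat_lit 2239582221) (nat_lit 1900) (nat_lit 2840123135) (nat_lit 482) (nat_lit 5) (nat_lit 481) (nat_lit 5) (nat_lit 506) (nat_lit 5) (nat_lit 636) (nat_lit 614) (nat_lit 310))) (XT.nd (nat_lit 78) (nat_lit 1900) (nat_lit 0) (XT.lf (nat_lit 76) (nat_lit 12511257510) (nat_lit 0) (nat_lit 20245063705) (nat_lit 1900) (nat_lit 384366382) (nat_lit 483) (nat_lit 5) (nat_lit 482) (nat_lit 5) (nat_lit 507) (nat_lit 5) (nat_lit 637) (nat_lit 614) (nat_lit 309)) (XT.lf (nat_lit 0) (nat_lit 2140144664) (nat_lit 1900) (nat_lit 3003761842) (nat_lit 1976) (nat_lit 28351945523) (nat_lit 457) (nat_lit 5) (nat_lit 482) (nat_lit 5) (nat_lit 483) (nat_lit 5) (nat_lit 638) (nat_lit 614) (nat_lit 308)))) (XT.nd (nat_lit 156) (nat_lit 1976) (nat_lit 0) (XT.nd (nat_lit 78) (nat_lit 0) (nat_lit 0) (XT.lf (nat_lit 0) (nat_lit 4874113016) (nat_lit 1900) (nat_lit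 18753999576) (nat_lit 76) (nat_lit 10226674165) (nat_lit 458) (nat_lit 5) (nat_lit 483) (nat_lit 5) (nat_lit 459) (nat_lit 5) (nat_lit 639) (nat_lit 614) (nat_lit 307)) (XT.lf (nat_lit 0) (nat_lit 7715479970) (nat_lit 1900) (nat_lit 647987624) (nat_lit 76) (nat_lit 25856378293) (nat_lit 458) (nat_lit 5) (nat_lit 483) (nat_lit 5) (nat_lit 459) (nat_lit 5) (nat_lit 640) (nat_lit 614) (nat_lit 306))) (XT.nd (nat_lit 78) (nat_lit 912) (nat_lit 0) (XT.lf (nat_lit 0) (nat_lit 10776865022) (nat_lit 1140) (nat_lit 16581921730) (nat_lit 76) (nat_lit 7230155725) (nat_lit 444) (nat_lit 5) (nat_lit 459) (nat_lit 5) (nat_lit 445) (nat_lit 5) (nat_lit 641) (nat_lit 614) (nat_lit 305)) (XT.lf (nat_lit 0) (nat_lit 2048599672) (nat_lit 912) (nat_lit 11922362298) (nat_lit 988) (nat_lit 20993029434) (nat_lit 432) (nat_lit 5) (nat_lit 444) (nat_lit 5) (nat_lit 445) (nat_lit 5) (nat_lit 642) (nat_lit 614) (nat_lit 304))))))))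
noncomputable def xc234 : XT := (XT.nd (nat_lit 2262) (nat_lit 0) (nat_lit 0) (XT.nd (nat_lit 1092) (nat_lit 6156) (nat_lit 0) (XT.nd (nat_lit 546) (nat_lit 3192) (nat_lit 0) (XT.nd (nat_lit 234) (nat_lit 1748) (nat_lit 0) (XT.nd (nat_lit 78) (nat_lit 912) (nat_lit 0) (XT.lf (nat_lit 0) (nat_lit 17364212939) (nat_lit 988) (nat_lit 14094822760) (nat_lit 76) (nat_lit 3884800257) (nat_lit 432) (nat_lit 5) (nat_lit 445) (nat_lit 5) (nat_lit 433) (nat_lit 5) (nat_lit 643) (nat_lit 614) (nat_lit 303)) (XT.nd (nat_lit 78) (nat_lit 0) (nat_lit 0) (XT.lf (nat_lit 0) (nat_lit 5088513086) (nat_lit 912) (nat_lit 15847282095) (nat_lit 988) (nat_lit 14793272980) (nat_lit 420) (nat_lit 5) (nat_lit 432) (nat_lit 5) (nat_lit 433) (nat_lit 5) (nat_lit 644) (nat_lit 614) (nat_lit 302)) (XT.lf (nat_lit 0) (nat_lit 24673010727) (nat_lit 988) (nat_lit 11276109734) (nat_lit 76) (nat_lit 171000601) (nat_lit 420) (nat_lit 5) (nat_lit 433) (nat_lit 5) (nat_lit 421) (nat_lit 5) (nat_lit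 645) (nat_lit 614) (nat_lit 301)))) (XT.nd (nat_lit 156) (nat_lit 912) (nat_lit 0) (XT.nd (nat_lit 78) (nat_lit 0) (nat_lit 0) (XT.lf (nat_lit 0) (nat_lit 8480480349) (nat_lit 836) (nat_lit 20163023131) (nat_lit 912) (nat_lit 7872320966) (nat_lit 409) (nat_lit 5) (nat_lit 420) (nat_lit 5) (nat_lit 421) (nat_lit 5) (nat_lit 646) (nat_lit 614) (nat_lit 300)) (XT.lf (nat_lit 0) (nat_lit 28783643900) (nat_lit 836) (nat_lit 3983973735) (nat_lit 912) (nat_lit 4150340112) (nat_lit 409) (nat_lit 5) (nat_lit 420) (nat_lit 5) (nat_lit 421) (nat_lit 5) (nat_lit 647) (nat_lit 614) (nat_lit 299))) (XT.nd (nat_lit 78) (nat_lit 76) (nat_lit 0) (XT.lf (nat_lit 0) (nat_lit 12242611332) (nat_lit 836) (nat_lit 24890941108) (nat_lit 912) (nat_lit 191394586) (nat_lit 398) (nat_lit 5) (nat_lit 409) (nat_lit 5) (nat_lit 410) (nat_lit 5) (nat_lit 648) (nat_lit 614) (nat_lit 298)) (XT.lf (nat_lit 0) (nat_lit 3876191538) (nat_lit 912) (nat_lit 4654787500) (nat_lit 76) (nat_lit 29206999376)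 (nat_lit 397) (nat_lit 5) (nat_lit 409) (nat_lit 5) (nat_lit 398) (nat_lit 5) (nat_lit 649) (nat_lit 614) (nat_lit 297))))) (XT.nd (nat_lit 234) (nat_lit 1520) (nat_lit 0) (XT.nd (nat_lit 78) (nat_lit 836) (nat_lit 0) (XT.lf (nat_lit 0) (nat_lit 8181285237) (nat_lit 912) (nat_lit 21817155020) (nat_lit 76) (nat_lit 8157630572) (nat_lit 386) (nat_lit 5) (nat_lit 398) (nat_lit 5) (nat_lit 387) (nat_lit 5) (nat_lit 650) (nat_lit 614) (nat_lit 296)) (XT.nd (nat_lit 78) (nat_lit 836) (nat_lit 0) (XT.lf (nat_lit 0) (nat_lit 12659047630) (nat_lit 912) (nat_lit 824424136) (nat_lit 76) (nat_lit 25097322064) (nat_lit 386) (nat_lit 5) (nat_lit 398) (nat_lit 5) (nat_lit 387) (nat_lit 5) (nat_lit 651) (nat_lit 614) (nat_lit 295)) (XT.lf (nat_lit 0) (nat_lit 17383182571) (nat_lit 912) (nat_lit 18173687148) (nat_lit 76) (nat_lit 3454005297) (nat_lit 375) (nat_lit 5) (nat_lit 387) (nat_lit 5) (nat_lit 376) (nat_lit 5) (nat_lit 652) (nat_lit 614) (nat_lit 294)))) (XT.nd (nat_lit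 156) (nat_lit 760) (nat_lit 0) (XT.nd (nat_lit 78) (nat_lit 0) (nat_lit 0) (XT.lf (nat_lit 0) (nat_lit 3448253532) (nat_lit 760) (nat_lit 18869469923) (nat_lit 836) (nat_lit 17129515977) (nat_lit 365) (nat_lit 5) (nat_lit 375) (nat_lit 5) (nat_lit 376) (nat_lit 5) (nat_lit 653) (nat_lit 614) (nat_lit 293)) (XT.lf (nat_lit 0) (nat_lit 25747591350) (nat_lit 760) (nat_lit 1724007258) (nat_lit 836) (nat_lit 12418319731) (nat_lit 365) (nat_lit 5) (nat_lit 375) (nat_lit 5) (nat_lit 376) (nat_lit 5) (nat_lit 654) (nat_lit 614) (nat_lit 292))) (XT.nd (nat_lit 78) (nat_lit 0) (nat_lit 0) (XT.lf (nat_lit 0) (nat_lit 8154673600) (nat_lit 760) (nat_lit 24727889579) (nat_lit 836) (nat_lit 7455807472) (nat_lit 355) (nat_lit 5) (nat_lit 365) (nat_lit 5) (nat_lit 366) (nat_lit 5) (nat_lit 655) (nat_lit 614) (nat_lit 291)) (XT.lf (nat_lit 0) (nat_lit 31076368508) (nat_lit 760) (nat_lit 7430353066) (nat_lit 836) (nat_lit 2286971013) (nat_lit 355) (nat_lit 5) (nat_lit 365) (nat_lit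 5) (nat_lit 366) (nat_lit 5) (nat_lit 656) (nat_lit 614) (nat_lit 290)))))) (XT.nd (nat_lit 546) (nat_lit 3268) (nat_lit 0) (XT.nd (nat_lit 234) (nat_lit 1368) (nat_lit 0) (XT.nd (nat_lit 78) (nat_lit 760) (nat_lit 0) (XT.lf (nat_lit 0) (nat_lit 3098543786) (nat_lit 760) (nat_lit 27970288196) (nat_lit 76) (nat_lit 10185852328) (nat_lit 345) (nat_lit 5) (nat_lit 355) (nat_lit 5) (nat_lit 346) (nat_lit 5) (nat_lit 657) (nat_lit 614) (nat_lit 289)) (XT.nd (nat_lit 78) (nat_lit 760) (nat_lit 0) (XT.lf (nat_lit 0) (nat_lit 8674784267) (nat_lit 760) (nat_lit 4911889430) (nat_lit 76) (nat_lit 28135647137) (nat_lit 345) (nat_lit 5) (nat_lit 355) (nat_lit 5) (nat_lit 346) (nat_lit 5) (nat_lit 658) (nat_lit 614) (nat_lit 288)) (XT.lf (nat_lit 0) (nat_lit 14512117226) (nat_lit 836) (nat_lit 23371669846) (nat_lit 76) (nat_lit 4312531725) (nat_lit 335) (nat_lit 5) (nat_lit 346) (nat_lit 5) (nat_lit 336) (nat_lit 5) (nat_lit 659) (nat_lit 614) (nat_lit 287)))) (XT.nd (nat_lit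 156) (nat_lit 684) (nat_lit 0) (XT.nd (nat_lit 78) (nat_lit 0) (nat_lit 0) (XT.lf (nat_lit 0) (nat_lit 336204336) (nat_lit 684) (nat_lit 20254132827) (nat_lit 760) (nat_lit 22086976811) (nat_lit 326) (nat_lit 5) (nat_lit 335) (nat_lit 5) (nat_lit 336) (nat_lit 5) (nat_lit 660) (nat_lit 614) (nat_lit 286)) (XT.lf (nat_lit 0) (nat_lit 24833682810) (nat_lit 684) (nat_lit 2112089418) (nat_lit 760) (nat_lit 16219043870) (nat_lit 326) (nat_lit 5) (nat_lit 335) (nat_lit 5) (nat_lit 336) (nat_lit 5) (nat_lit 661) (nat_lit 614) (nat_lit 285))) (XT.nd (nat_lit 78) (nat_lit 0) (nat_lit 0) (XT.lf (nat_lit 0) (nat_lit 6131669850) (nat_lit 684) (nat_lit 27441726551) (nat_lit 760) (nat_lit 10085770314) (nat_lit 317) (nat_lit 5) (nat_lit 326) (nat_lit 5) (nat_lit 327) (nat_lit 5) (nat_lit 662) (nat_lit 614) (nat_lit 284)) (XT.lf (nat_lit 0) (nat_lit 31316690299) (nat_lit 684) (nat_lit 9152640331) (nat_lit 760) (nat_lit 3691358620) (nat_lit 317) (nat_lit 5) (nat_lit 326) (nat_lit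 5) (nat_lit 327) (nat_lit 5) (nat_lit 663) (nat_lit 614) (nat_lit 283))))) (XT.nd (nat_lit 312) (nat_lit 1900) (nat_lit 0) (XT.nd (nat_lit 156) (nat_lit 684) (nat_lit 0) (XT.nd (nat_lit 78) (nat_lit 0) (nat_lit 0) (XT.lf (nat_lit 0) (nat_lit 2936039919) (nat_lit 684) (nat_lit 32255538521) (nat_lit 76) (nat_lit 9477451706) (nat_lit 308) (nat_lit 5) (nat_lit 317) (nat_lit 5) (nat_lit 309) (nat_lit 5) (nat_lit 664) (nat_lit 614) (nat_lit 282)) (XT.lf (nat_lit 0) (nat_lit 9792857616) (nat_lit 684) (nat_lit 6922558505) (nat_lit 76) (nat_lit 28468707824) (nat_lit 308) (nat_lit 5) (nat_lit 317) (nat_lit 5) (nat_lit 309) (nat_lit 5) (nat_lit 665) (nat_lit 614) (nat_lit 281))) (XT.nd (nat_lit 78) (nat_lit 0) (nat_lit 0) (XT.lf (nat_lit 0) (nat_lit 16924811235) (nat_lit 760) (nat_lit 26554568388) (nat_lit 76) (nat_lit 2227380058) (nat_lit 299) (nat_lit 5) (nat_lit 309) (nat_lit 5) (nat_lit 300) (nat_lit 5) (nat_lit 666) (nat_lit 614) (nat_lit 280)) (XT.lf (nat_lit 0)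 (nat_lit 24355775232) (nat_lit 760) (nat_lit 508986619) (nat_lit 76) (nat_lit 21371958907) (nat_lit 299) (nat_lit 5) (nat_lit 309) (nat_lit 5) (nat_lit 300) (nat_lit 5) (nat_lit 667) (nat_lit 614) (nat_lit 279)))) (XT.nd (nat_lit 156) (nat_lit 684) (nat_lit 0) (XT.nd (nat_lit 78) (nat_lit 608) (nat_lit 0) (XT.lf (nat_lit 0) (nat_lit 26402471123) (nat_lit 608) (nat_lit 5703242615) (nat_lit 684) (nat_lit 14668160265) (nat_lit 291) (nat_lit 5) (nat_lit 299) (nat_lit 5) (nat_lit 300) (nat_lit 5) (nat_lit 668) (nat_lit 614) (nat_lit 278)) (XT.lf (nat_lit 0) (nat_lit 6531810719) (nat_lit 608) (nat_lit 33613499338) (nat_lit 684) (nat_lit 7173767125) (nat_lit 283) (nat_lit 5) (nat_lit 291) (nat_lit 5) (nat_lit 292) (nat_lit 5) (nat_lit 669) (nat_lit 614) (nat_lit 277))) (XT.nd (nat_lit 78) (nat_lit 608) (nat_lit 0) (XT.lf (nat_lit 0) (nat_lit 638669972) (nat_lit 684) (nat_lit 13666277161) (nat_lit 76) (nat_lit 33566689701) (nat_lit 282) (nat_lit 5) (nat_lit 291) (nat_lit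 5) (nat_lit 283) (nat_lit 5) (nat_lit 670) (nat_lit 614) (nat_lit 276)) (XT.lf (nat_lit 0) (nat_lit 8638038358) (nat_lit 684) (nat_lit 34334707141) (nat_lit 76) (nat_lit 5459019069) (nat_lit 274) (nat_lit 5) (nat_lit 283) (nat_lit 5) (nat_lit 275) (nat_lit 5) (nat_lit 671) (nat_lit 614) (nat_lit 275))))))) (XT.nd (nat_lit 77766) (nat_lit 0) (nat_lit 12920) (XT.nd (nat_lit 77220) (nat_lit 0) (nat_lit 15200) (XT.nd (nat_lit 76908) (nat_lit 0) (nat_lit 15048) (XT.nd (nat_lit 76752) (nat_lit 0) (nat_lit 14972) (XT.lf (nat_lit 0) (nat_lit 16983423775) (nat_lit 684) (nat_lit 6497003304) (nat_lit 76) (nat_lit 25518947230) (nat_lit 274) (nat_lit 5) (nat_lit 283) (nat_lit 5) (nat_lit 275) (nat_lit 5) (nat_lit 672) (nat_lit 614) (nat_lit 274)) (XT.nd (nat_lit 78) (nat_lit 0) (nat_lit 0) (XT.lf (nat_lit 0) (nat_lit 1114120285) (nat_lit 1900) (nat_lit 6120427811) (nat_lit 1900) (nat_lit 6120427811) (nat_lit 471) (nat_lit 3) (nat_lit 496) (nat_lit 3) (nat_lit 496) (nat_lit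 5) (nat_lit 615) (nat_lit 615) (nat_lit 330)) (XT.lf (nat_lit 76) (nat_lit 1020181269) (nat_lit 0) (nat_lit 1329614446) (nat_lit 1900) (nat_lit 24625264546) (nat_lit 472) (nat_lit 5) (nat_lit 471) (nat_lit 3) (nat_lit 496) (nat_lit 5) (nat_lit 616) (nat_lit 615) (nat_lit 329)))) (XT.nd (nat_lit 156) (nat_lit 0) (nat_lit 76) (XT.nd (nat_lit 78) (nat_lit 0) (nat_lit 0) (XT.lf (nat_lit 0) (nat_lit 2632421538) (nat_lit 1824) (nat_lit 12611701341) (nat_lit 1900) (nat_lit 11998175351) (nat_lit 472) (nat_lit 5) (nat_lit 496) (nat_lit 5) (nat_lit 497) (nat_lit 5) (nat_lit 617) (nat_lit 615) (nat_lit 328)) (XT.lf (nat_lit 76) (nat_lit 1001380948) (nat_lit 0) (nat_lit 1932242917) (nat_lit 1900) (nat_lit 24580998758) (nat_lit 473) (nat_lit 5) (nat_lit 472) (nat_lit 5) (nat_lit 497) (nat_lit 5) (nat_lit 618) (nat_lit 615) (nat_lit 327))) (XT.nd (nat_lit 78) (nat_lit 0) (nat_lit 0) (XT.lf (nat_lit 0) (nat_lit 3399316923) (nat_lit 1824) (nat_lit 12810526585) (nat_lit 1900)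 (nat_lit 11579380805) (nat_lit 473) (nat_lit 5) (nat_lit 497) (nat_lit 5) (nat_lit 498) (nat_lit 5) (nat_lit 619) (nat_lit 615) (nat_lit 326)) (XT.lf (nat_lit 76) (nat_lit 1167451655) (nat_lit 0) (nat_lit 2724956518) (nat_lit 1900) (nat_lit 24176548315) (nat_lit 474) (nat_lit 5) (nat_lit 473) (nat_lit 5) (nat_lit 498) (nat_lit 5) (nat_lit 620) (nat_lit 615) (nat_lit 325))))) (XT.nd (nat_lit 234) (nat_lit 0) (nat_lit 76) (XT.nd (nat_lit 78) (nat_lit 0) (nat_lit 0) (XT.lf (nat_lit 0) (nat_lit 4551258477) (nat_lit 1824) (nat_lit 12827454497) (nat_lit 1900) (nat_lit 10972452523) (nat_lit 474) (nat_lit 5) (nat_lit 498) (nat_lit 5) (nat_lit 499) (nat_lit 5) (nat_lit 621) (nat_lit 615) (nat_lit 324)) (XT.nd (nat_lit 78) (nat_lit 0) (nat_lit 76) (XT.lf (nat_lit 76) (nat_lit 1528758117) (nat_lit 0) (nat_lit 3720294435) (nat_lit 1900) (nat_lit 23389450935) (nat_lit 475) (nat_lit 5) (nat_lit 474) (nat_lit 5) (nat_lit 499) (nat_lit 5) (nat_lit 622) (nat_lit 615) (nat_lit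 323)) (XT.lf (nat_lit 0) (nat_lit 6111585273) (nat_lit 1824) (nat_lit 12652123686) (nat_lit 1900) (nat_lit 10164863753) (nat_lit 475) (nat_lit 5) (nat_lit 499) (nat_lit 5) (nat_lit 500) (nat_lit 5) (nat_lit 623) (nat_lit 615) (nat_lit 322)))) (XT.nd (nat_lit 156) (nat_lit 0) (nat_lit 76) (XT.nd (nat_lit 78) (nat_lit 0) (nat_lit 76) (XT.lf (nat_lit 76) (nat_lit 2096168075) (nat_lit 0) (nat_lit 4931325692) (nat_lit 1900) (nat_lit 22196227179) (nat_lit 476) (nat_lit 5) (nat_lit 475) (nat_lit 5) (nat_lit 500) (nat_lit 5) (nat_lit 624) (nat_lit 615) (nat_lit 321)) (XT.lf (nat_lit 0) (nat_lit 8104688494) (nat_lit 1824) (nat_lit 12273669911) (nat_lit 1900) (nat_lit 9143554504) (nat_lit 476) (nat_lit 5) (nat_lit 500) (nat_lit 5) (nat_lit 501) (nat_lit 5) (nat_lit 625) (nat_lit 615) (nat_lit 320))) (XT.nd (nat_lit 78) (nat_lit 0) (nat_lit 76) (XT.lf (nat_lit 76) (nat_lit 2881071304) (nat_lit 0) (nat_lit 6371675930) (nat_lit 1900) (nat_lit 20572335200) (nat_lit 477)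 (nat_lit 5) (nat_lit 476) (nat_lit 5) (nat_lit 501) (nat_lit 5) (nat_lit 626) (nat_lit 615) (nat_lit 319)) (XT.lf (nat_lit 0) (nat_lit 10556057981) (nat_lit 1824) (nat_lit 11680706970) (nat_lit 1900) (nat_lit 7894904702) (nat_lit 477) (nat_lit 5) (nat_lit 501) (nat_lit 5) (nat_lit 502) (nat_lit 5) (nat_lit 627) (nat_lit 615) (nat_lit 318)))))) (XT.nd (nat_lit 546) (nat_lit 2508) (nat_lit 0) (XT.nd (nat_lit 234) (nat_lit 0) (nat_lit 152) (XT.nd (nat_lit 78) (nat_lit 0) (nat_lit 76) (XT.lf (nat_lit 76) (nat_lit 3895399472) (nat_lit 0) (nat_lit 8055555141) (nat_lit 1900) (nat_lit 18492123727) (nat_lit 478) (nat_lit 5) (nat_lit 477) (nat_lit 5) (nat_lit 502) (nat_lit 5) (nat_lit 628) (nat_lit 615) (nat_lit 317)) (XT.nd (nat_lit 78) (nat_lit 0) (nat_lit 0) (XT.lf (nat_lit 0) (nat_lit 13492330571) (nat_lit 1824) (nat_lit 10861306755) (nat_lit 1900) (nat_lit 6404706365) (nat_lit 478) (nat_lit 5) (nat_lit 502) (nat_lit 5) (nat_lit 503) (nat_lit 5) (nat_lit 629) (nat_lit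 615) (nat_lit 316)) (XT.lf (nat_lit 76) (nat_lit 5151646841) (nat_lit 0) (nat_lit 9997786408) (nat_lit 1900) (nat_lit 15928783228) (nat_lit 479) (nat_lit 5) (nat_lit 478) (nat_lit 5) (nat_lit 503) (nat_lit 5) (nat_lit 630) (nat_lit 615) (nat_lit 315)))) (XT.nd (nat_lit 156) (nat_lit 0) (nat_lit 76) (XT.nd (nat_lit 78) (nat_lit 0) (nat_lit 0) (XT.lf (nat_lit 0) (nat_lit 16941340342) (nat_lit 1824) (nat_lit 9802978460) (nat_lit 1900) (nat_lit 4658134783) (nat_lit 479) (nat_lit 5) (nat_lit 503) (nat_lit 5) (nat_lit 504) (nat_lit 5) (nat_lit 631) (nat_lit 615) (nat_lit 314)) (XT.lf (nat_lit 76) (nat_lit 6662891861) (nat_lit 0) (nat_lit 12213835693) (nat_lit 1900) (nat_lit 12854295151) (nat_lit 480) (nat_lit 5) (nat_lit 479) (nat_lit 5) (nat_lit 504) (nat_lit 5) (nat_lit 632) (nat_lit 615) (nat_lit 313))) (XT.nd (nat_lit 78) (nat_lit 0) (nat_lit 0) (XT.lf (nat_lit 0) (nat_lit 20932170820) (nat_lit 1824) (nat_lit 8492646910) (nat_lit 1900) (nat_lit 2639718618) (nat_lit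 480) (nat_lit 5) (nat_lit 504) (nat_lit 5) (nat_lit 505) (nat_lit 5) (nat_lit 633) (nat_lit 615) (nat_lit 312)) (XT.lf (nat_lit 76) (nat_lit 8442819653) (nat_lit 0) (nat_lit 14719842748) (nat_lit 1900) (nat_lit 9239379179) (nat_lit 481) (nat_lit 5) (nat_lit 480) (nat_lit 5) (nat_lit 505) (nat_lit 5) (nat_lit 634) (nat_lit 615) (nat_lit 311))))) (XT.nd (nat_lit 312) (nat_lit 2812) (nat_lit 0) (XT.nd (nat_lit 156) (nat_lit 0) (nat_lit 0) (XT.nd (nat_lit 78) (nat_lit 0) (nat_lit 0) (XT.lf (nat_lit 0) (nat_lit 25495209242) (nat_lit 1824) (nat_lit 6916629985) (nat_lit 1900) (nat_lit 333308885) (nat_lit 481) (nat_lit 5) (nat_lit 505) (nat_lit 5) (nat_lit 506) (nat_lit 5) (nat_lit 635) (nat_lit 615) (nat_lit 310)) (XT.lf (nat_lit 76) (nat_lit 10505745441) (nat_lit 0) (nat_lit 17532653189) (nat_lit 1900) (nat_lit 5053438413) (nat_lit 482) (nat_lit 5) (nat_lit 481) (nat_lit 5) (nat_lit 506) (nat_lit 5) (nat_lit 636) (nat_lit 615) (nat_lit 309))) (XT.nd (nat_lit 78)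 (nat_lit 0) (nat_lit 76) (XT.lf (nat_lit 76) (nat_lit 28368963442) (nat_lit 0) (nat_lit 2308226048) (nat_lit 1900) (nat_lit 2767375609) (nat_lit 482) (nat_lit 5) (nat_lit 481) (nat_lit 5) (nat_lit 506) (nat_lit 5) (nat_lit 637) (nat_lit 615) (nat_lit 308)) (XT.lf (nat_lit 76) (nat_lit 12866638932) (nat_lit 0) (nat_lit 20669851807) (nat_lit 1900) (nat_lit 264502382) (nat_lit 483) (nat_lit 5) (nat_lit 482) (nat_lit 5) (nat_lit 507) (nat_lit 5) (nat_lit 638) (nat_lit 615) (nat_lit 307)))) (XT.nd (nat_lit 156) (nat_lit 988) (nat_lit 0) (XT.nd (nat_lit 78) (nat_lit 0) (nat_lit 76) (XT.lf (nat_lit 0) (nat_lit 2306357822) (nat_lit 1900) (nat_lit 2959095557) (nat_lit 1976) (nat_lit 28897840405) (nat_lit 457) (nat_lit 5) (nat_lit 482) (nat_lit 5) (nat_lit 483) (nat_lit 5) (nat_lit 639) (nat_lit 615) (nat_lit 306)) (XT.lf (nat_lit 0) (nat_lit 5093146949) (nat_lit 1900) (nat_lit 19022472514) (nat_lit 76) (nat_lit 10413825054) (nat_lit 458) (nat_lit 5) (nat_lit 483) (nat_lit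 5) (nat_lit 459) (nat_lit 5) (nat_lit 640) (nat_lit 615) (nat_lit 305))) (XT.nd (nat_lit 78) (nat_lit 1064) (nat_lit 0) (XT.lf (nat_lit 0) (nat_lit 7988957876) (nat_lit 1900) (nat_lit 556430657) (nat_lit 76) (nat_lit 26356464100) (nat_lit 458) (nat_lit 5) (nat_lit 483) (nat_lit 5) (nat_lit 459) (nat_lit 5) (nat_lit 641) (nat_lit 615) (nat_lit 304)) (XT.lf (nat_lit 0) (nat_lit 11109819325) (nat_lit 1140) (nat_lit 16807285469) (nat_lit 76) (nat_lit 7361261521) (nat_lit 444) (nat_lit 5) (nat_lit 459) (nat_lit 5) (nat_lit 445) (nat_lit 5) (nat_lit 642) (nat_lit 615) (nat_lit 303))))))))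
noncomputable def xc235 : XT := (XT.nd (nat_lit 2262) (nat_lit 608) (nat_lit 0) (XT.nd (nat_lit 1092) (nat_lit 5548) (nat_lit 0) (XT.nd (nat_lit 546) (nat_lit 3268) (nat_lit 0) (XT.nd (nat_lit 234) (nat_lit 1672) (nat_lit 0) (XT.nd (nat_lit 78) (nat_lit 912) (nat_lit 0) (XT.lf (nat_lit 0) (nat_lit 2195147186) (nat_lit 912) (nat_lit 12171034199) (nat_lit 988) (nat_lit 21294767303) (nat_lit 432) (nat_lit 5) (nat_lit 444) (nat_lit 5) (nat_lit 445) (nat_lit 5) (nat_lit 643) (nat_lit 615) (nat_lit 302)) (XT.nd (nat_lit 78) (nat_lit 912) (nat_lit 0) (XT.lf (nat_lit 0) (nat_lit 17824961698) (nat_lit 988) (nat_lit 14270871716) (nat_lit 76) (nat_lit 3952603560) (nat_lit 432) (nat_lit 5) (nat_lit 445) (nat_lit 5) (nat_lit 433) (nat_lit 5) (nat_lit 644) (nat_lit 615) (nat_lit 301)) (XT.lf (nat_lit 0) (nat_lit 5295434483) (nat_lit 912) (nat_lit 16170999019) (nat_lit 988) (nat_lit 14974971288) (nat_lit 420) (nat_lit 5) (nat_lit 432) (nat_lit 5) (nat_lit 433) (nat_lit 5)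 (nat_lit 645) (nat_lit 615) (nat_lit 300)))) (XT.nd (nat_lit 156) (nat_lit 836) (nat_lit 0) (XT.nd (nat_lit 78) (nat_lit 836) (nat_lit 0) (XT.lf (nat_lit 0) (nat_lit 25276155700) (nat_lit 988) (nat_lit 11396298758) (nat_lit 76) (nat_lit 167869166) (nat_lit 420) (nat_lit 5) (nat_lit 433) (nat_lit 5) (nat_lit 421) (nat_lit 5) (nat_lit 646) (nat_lit 615) (nat_lit 299)) (XT.lf (nat_lit 0) (nat_lit 8754730145) (nat_lit 836) (nat_lit 20569856874) (nat_lit 912) (nat_lit 7919383603) (nat_lit 409) (nat_lit 5) (nat_lit 420) (nat_lit 5) (nat_lit 421) (nat_lit 5) (nat_lit 647) (nat_lit 615) (nat_lit 298))) (XT.nd (nat_lit 78) (nat_lit 836) (nat_lit 0) (XT.lf (nat_lit 0) (nat_lit 29461905198) (nat_lit 836) (nat_lit 4067156426) (nat_lit 912) (nat_lit 4125127520) (nat_lit 409) (nat_lit 5) (nat_lit 420) (nat_lit 5) (nat_lit 421) (nat_lit 5) (nat_lit 648) (nat_lit 615) (nat_lit 297)) (XT.lf (nat_lit 0) (nat_lit 12591513410) (nat_lit 836) (nat_lit 25389374750) (nat_lit 912)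 (nat_lit 88458706) (nat_lit 398) (nat_lit 5) (nat_lit 409) (nat_lit 5) (nat_lit 410) (nat_lit 5) (nat_lit 649) (nat_lit 615) (nat_lit 296))))) (XT.nd (nat_lit 234) (nat_lit 2356) (nat_lit 0) (XT.nd (nat_lit 78) (nat_lit 836) (nat_lit 0) (XT.lf (nat_lit 0) (nat_lit 4057012963) (nat_lit 912) (nat_lit 4644495239) (nat_lit 76) (nat_lit 29789158246) (nat_lit 397) (nat_lit 5) (nat_lit 409) (nat_lit 5) (nat_lit 398) (nat_lit 5) (nat_lit 650) (nat_lit 615) (nat_lit 295)) (XT.nd (nat_lit 78) (nat_lit 0) (nat_lit 0) (XT.lf (nat_lit 0) (nat_lit 8446854932) (nat_lit 912) (nat_lit 22148751031) (nat_lit 76) (nat_lit 8321541929) (nat_lit 386) (nat_lit 5) (nat_lit 398) (nat_lit 5) (nat_lit 387) (nat_lit 5) (nat_lit 651) (nat_lit 615) (nat_lit 294)) (XT.lf (nat_lit 0) (nat_lit 13012173671) (nat_lit 912) (nat_lit 738219394) (nat_lit 76) (nat_lit 25600012373) (nat_lit 386) (nat_lit 5) (nat_lit 398) (nat_lit 5) (nat_lit 387) (nat_lit 5) (nat_lit 652) (nat_lit 615) (nat_lit 293))))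 (XT.nd (nat_lit 156) (nat_lit 760) (nat_lit 0) (XT.nd (nat_lit 78) (nat_lit 760) (nat_lit 0) (XT.lf (nat_lit 0) (nat_lit 17829515849) (nat_lit 912) (nat_lit 18433186944) (nat_lit 76) (nat_lit 3526411071) (nat_lit 375) (nat_lit 5) (nat_lit 387) (nat_lit 5) (nat_lit 376) (nat_lit 5) (nat_lit 653) (nat_lit 615) (nat_lit 292)) (XT.lf (nat_lit 0) (nat_lit 3620508511) (nat_lit 760) (nat_lit 19240974968) (nat_lit 836) (nat_lit 17372747474) (nat_lit 365) (nat_lit 5) (nat_lit 375) (nat_lit 5) (nat_lit 376) (nat_lit 5) (nat_lit 654) (nat_lit 615) (nat_lit 291))) (XT.nd (nat_lit 78) (nat_lit 760) (nat_lit 0) (XT.lf (nat_lit 0) (nat_lit 26363807792) (nat_lit 760) (nat_lit 1752718429) (nat_lit 836) (nat_lit 12569275515) (nat_lit 365) (nat_lit 5) (nat_lit 375) (nat_lit 5) (nat_lit 376) (nat_lit 5) (nat_lit 655) (nat_lit 615) (nat_lit 290)) (XT.lf (nat_lit 0) (nat_lit 8420230634) (nat_lit 760) (nat_lit 25214308969) (nat_lit 836) (nat_lit 7508707000) (nat_lit 355) (nat_lit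 5) (nat_lit 365) (nat_lit 5) (nat_lit 366) (nat_lit 5) (nat_lit 656) (nat_lit 615) (nat_lit 289)))))) (XT.nd (nat_lit 546) (nat_lit 2660) (nat_lit 0) (XT.nd (nat_lit 234) (nat_lit 2128) (nat_lit 0) (XT.nd (nat_lit 78) (nat_lit 760) (nat_lit 0) (XT.lf (nat_lit 0) (nat_lit 31798350351) (nat_lit 760) (nat_lit 7570981302) (nat_lit 836) (nat_lit 2238380413) (nat_lit 355) (nat_lit 5) (nat_lit 365) (nat_lit 5) (nat_lit 366) (nat_lit 5) (nat_lit 657) (nat_lit 615) (nat_lit 288)) (XT.nd (nat_lit 78) (nat_lit 0) (nat_lit 0) (XT.lf (nat_lit 0) (nat_lit 3252497222) (nat_lit 760) (nat_lit 28426882590) (nat_lit 76) (nat_lit 10398553862) (nat_lit 345) (nat_lit 5) (nat_lit 355) (nat_lit 5) (nat_lit 346) (nat_lit 5) (nat_lit 658) (nat_lit 615) (nat_lit 287)) (XT.lf (nat_lit 0) (nat_lit 8938458933) (nat_lit 760) (nat_lit 4909331759) (nat_lit 76) (nat_lit 28707168400) (nat_lit 345) (nat_lit 5) (nat_lit 355) (nat_lit 5) (nat_lit 346) (nat_lit 5) (nat_lit 659) (nat_lit 615) (nat_lit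 286)))) (XT.nd (nat_lit 156) (nat_lit 684) (nat_lit 0) (XT.nd (nat_lit 78) (nat_lit 684) (nat_lit 0) (XT.lf (nat_lit 0) (nat_lit 14891492345) (nat_lit 836) (nat_lit 23737257086) (nat_lit 76) (nat_lit 4409708597) (nat_lit 335) (nat_lit 5) (nat_lit 346) (nat_lit 5) (nat_lit 336) (nat_lit 5) (nat_lit 660) (nat_lit 615) (nat_lit 285)) (XT.lf (nat_lit 0) (nat_lit 444104539) (nat_lit 684) (nat_lit 20646081343) (nat_lit 760) (nat_lit 22438909130) (nat_lit 326) (nat_lit 5) (nat_lit 335) (nat_lit 5) (nat_lit 336) (nat_lit 5) (nat_lit 661) (nat_lit 615) (nat_lit 284))) (XT.nd (nat_lit 78) (nat_lit 684) (nat_lit 0) (XT.lf (nat_lit 0) (nat_lit 25429548737) (nat_lit 684) (nat_lit 2141454597) (nat_lit 760) (nat_lit 16455378457) (nat_lit 326) (nat_lit 5) (nat_lit 335) (nat_lit 5) (nat_lit 336) (nat_lit 5) (nat_lit 662) (nat_lit 615) (nat_lit 283)) (XT.lf (nat_lit 0) (nat_lit 6354479127) (nat_lit 684) (nat_lit 27975740772) (nat_lit 760) (nat_lit 10200418808) (nat_lit 317)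 (nat_lit 5) (nat_lit 326) (nat_lit 5) (nat_lit 327) (nat_lit 5) (nat_lit 663) (nat_lit 615) (nat_lit 282))))) (XT.nd (nat_lit 312) (nat_lit 1292) (nat_lit 0) (XT.nd (nat_lit 156) (nat_lit 684) (nat_lit 0) (XT.nd (nat_lit 78) (nat_lit 684) (nat_lit 0) (XT.lf (nat_lit 0) (nat_lit 32041235752) (nat_lit 684) (nat_lit 9321163423) (nat_lit 760) (nat_lit 3679826074) (nat_lit 317) (nat_lit 5) (nat_lit 326) (nat_lit 5) (nat_lit 327) (nat_lit 5) (nat_lit 664) (nat_lit 615) (nat_lit 281)) (XT.lf (nat_lit 0) (nat_lit 3078090194) (nat_lit 684) (nat_lit 32800399349) (nat_lit 76) (nat_lit 9682250629) (nat_lit 308) (nat_lit 5) (nat_lit 317) (nat_lit 5) (nat_lit 309) (nat_lit 5) (nat_lit 665) (nat_lit 615) (nat_lit 280))) (XT.nd (nat_lit 78) (nat_lit 684) (nat_lit 0) (XT.lf (nat_lit 0) (nat_lit 10070410334) (nat_lit 684) (nat_lit 6962725418) (nat_lit 76) (nat_lit 29053032852) (nat_lit 308) (nat_lit 5) (nat_lit 317) (nat_lit 5) (nat_lit 309) (nat_lit 5) (nat_lit 666) (nat_lit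 615) (nat_lit 279)) (XT.lf (nat_lit 0) (nat_lit 17344144871) (nat_lit 760) (nat_lit 26986513512) (nat_lit 76) (nat_lit 2288615911) (nat_lit 299) (nat_lit 5) (nat_lit 309) (nat_lit 5) (nat_lit 300) (nat_lit 5) (nat_lit 667) (nat_lit 615) (nat_lit 278)))) (XT.nd (nat_lit 156) (nat_lit 684) (nat_lit 0) (XT.nd (nat_lit 78) (nat_lit 608) (nat_lit 0) (XT.lf (nat_lit 0) (nat_lit 24922143101) (nat_lit 760) (nat_lit 421964152) (nat_lit 76) (nat_lit 21815759117) (nat_lit 299) (nat_lit 5) (nat_lit 309) (nat_lit 5) (nat_lit 300) (nat_lit 5) (nat_lit 668) (nat_lit 615) (nat_lit 277)) (XT.lf (nat_lit 0) (nat_lit 27027083257) (nat_lit 608) (nat_lit 5799070101) (nat_lit 684) (nat_lit 14881627935) (nat_lit 291) (nat_lit 5) (nat_lit 299) (nat_lit 5) (nat_lit 300) (nat_lit 5) (nat_lit 669) (nat_lit 615) (nat_lit 276))) (XT.nd (nat_lit 78) (nat_lit 76) (nat_lit 0) (XT.lf (nat_lit 0) (nat_lit 6759816594) (nat_lit 608) (nat_lit 34265937494) (nat_lit 684) (nat_lit 7238150270) (nat_lit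 283) (nat_lit 5) (nat_lit 291) (nat_lit 5) (nat_lit 292) (nat_lit 5) (nat_lit 670) (nat_lit 615) (nat_lit 275)) (XT.lf (nat_lit 0) (nat_lit 727967772) (nat_lit 684) (nat_lit 13843121813) (nat_lit 76) (nat_lit 34256446026) (nat_lit 282) (nat_lit 5) (nat_lit 291) (nat_lit 5) (nat_lit 283) (nat_lit 5) (nat_lit 671) (nat_lit 615) (nat_lit 274))))))) (XT.nd (nat_lit 77922) (nat_lit 0) (nat_lit 12008) (XT.nd (nat_lit 77298) (nat_lit 0) (nat_lit 15200) (XT.nd (nat_lit 76986) (nat_lit 0) (nat_lit 15048) (XT.nd (nat_lit 76830) (nat_lit 0) (nat_lit 14972) (XT.lf (nat_lit 0) (nat_lit 8886576496) (nat_lit 684) (nat_lit 34924169959) (nat_lit 76) (nat_lit 5588134454) (nat_lit 274) (nat_lit 5) (nat_lit 283) (nat_lit 5) (nat_lit 275) (nat_lit 5) (nat_lit 672) (nat_lit 615) (nat_lit 273)) (XT.nd (nat_lit 78) (nat_lit 0) (nat_lit 0) (XT.lf (nat_lit 0) (nat_lit 1228450197) (nat_lit 1900) (nat_lit 6195889348) (nat_lit 1900) (nat_lit 6195889348) (nat_lit 471) (nat_lit 3) (nat_lit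 496) (nat_lit 3) (nat_lit 496) (nat_lit 5) (nat_lit 616) (nat_lit 616) (nat_lit 328)) (XT.lf (nat_lit 76) (nat_lit 1133861209) (nat_lit 0) (nat_lit 1444021338) (nat_lit 1900) (nat_lit 24933046155) (nat_lit 472) (nat_lit 5) (nat_lit 471) (nat_lit 3) (nat_lit 496) (nat_lit 5) (nat_lit 617) (nat_lit 616) (nat_lit 327)))) (XT.nd (nat_lit 156) (nat_lit 0) (nat_lit 76) (XT.nd (nat_lit 78) (nat_lit 0) (nat_lit 0) (XT.lf (nat_lit 0) (nat_lit 2862051113) (nat_lit 1824) (nat_lit 12768367495) (nat_lit 1900) (nat_lit 12153175232) (nat_lit 472) (nat_lit 5) (nat_lit 496) (nat_lit 5) (nat_lit 497) (nat_lit 5) (nat_lit 618) (nat_lit 616) (nat_lit 326)) (XT.lf (nat_lit 76) (nat_lit 1116347703) (nat_lit 0) (nat_lit 2050075973) (nat_lit 1900) (nat_lit 24894998332) (nat_lit 473) (nat_lit 5) (nat_lit 472) (nat_lit 5) (nat_lit 497) (nat_lit 5) (nat_lit 619) (nat_lit 616) (nat_lit 325))) (XT.nd (nat_lit 78) (nat_lit 0) (nat_lit 0) (XT.lf (nat_lit 0) (nat_lit 3637512272) (nat_lit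 1824) (nat_lit 12969730895) (nat_lit 1900) (nat_lit 11734351137) (nat_lit 473) (nat_lit 5) (nat_lit 497) (nat_lit 5) (nat_lit 498) (nat_lit 5) (nat_lit 620) (nat_lit 616) (nat_lit 324)) (XT.lf (nat_lit 76) (nat_lit 1287168711) (nat_lit 0) (nat_lit 2850584890) (nat_lit 1900) (nat_lit 24489221959) (nat_lit 474) (nat_lit 5) (nat_lit 473) (nat_lit 5) (nat_lit 498) (nat_lit 5) (nat_lit 621) (nat_lit 616) (nat_lit 323))))) (XT.nd (nat_lit 312) (nat_lit 0) (nat_lit 152) (XT.nd (nat_lit 156) (nat_lit 0) (nat_lit 76) (XT.nd (nat_lit 78) (nat_lit 0) (nat_lit 0) (XT.lf (nat_lit 0) (nat_lit 4806043889) (nat_lit 1824) (nat_lit 12985778196) (nat_lit 1900) (nat_lit 11123081604) (nat_lit 474) (nat_lit 5) (nat_lit 498) (nat_lit 5) (nat_lit 499) (nat_lit 5) (nat_lit 622) (nat_lit 616) (nat_lit 322)) (XT.lf (nat_lit 76) (nat_lit 1656912451) (nat_lit 0) (nat_lit 3858303958) (nat_lit 1900) (nat_lit 23692823772) (nat_lit 475) (nat_lit 5) (nat_lit 474) (nat_lit 5) (nat_lit 499)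 (nat_lit 5) (nat_lit 623) (nat_lit 616) (nat_lit 321))) (XT.nd (nat_lit 78) (nat_lit 0) (nat_lit 0) (XT.lf (nat_lit 0) (nat_lit 6391434476) (nat_lit 1824) (nat_lit 12805925469) (nat_lit 1900) (nat_lit 10306622341) (nat_lit 475) (nat_lit 5) (nat_lit 499) (nat_lit 5) (nat_lit 500) (nat_lit 5) (nat_lit 624) (nat_lit 616) (nat_lit 320)) (XT.lf (nat_lit 76) (nat_lit 2236679227) (nat_lit 0) (nat_lit 5086531471) (nat_lit 1900) (nat_lit 22481871983) (nat_lit 476) (nat_lit 5) (nat_lit 475) (nat_lit 5) (nat_lit 500) (nat_lit 5) (nat_lit 625) (nat_lit 616) (nat_lit 319)))) (XT.nd (nat_lit 156) (nat_lit 0) (nat_lit 76) (XT.nd (nat_lit 78) (nat_lit 0) (nat_lit 0) (XT.lf (nat_lit 0) (nat_lit 8418546682) (nat_lit 1824) (nat_lit 12419076815) (nat_lit 1900) (nat_lit 9271683224) (nat_lit 476) (nat_lit 5) (nat_lit 500) (nat_lit 5) (nat_lit 501) (nat_lit 5) (nat_lit 626) (nat_lit 616) (nat_lit 318)) (XT.lf (nat_lit 76) (nat_lit 3038100893) (nat_lit 0) (nat_lit 6549135355) (nat_lit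 1900) (nat_lit 20831350174) (nat_lit 477) (nat_lit 5) (nat_lit 476) (nat_lit 5) (nat_lit 501) (nat_lit 5) (nat_lit 627) (nat_lit 616) (nat_lit 317))) (XT.nd (nat_lit 78) (nat_lit 0) (nat_lit 0) (XT.lf (nat_lit 0) (nat_lit 10913364697) (nat_lit 1824) (nat_lit 11813604811) (nat_lit 1900) (nat_lit 8004401023) (nat_lit 477) (nat_lit 5) (nat_lit 501) (nat_lit 5) (nat_lit 502) (nat_lit 5) (nat_lit 628) (nat_lit 616) (nat_lit 316)) (XT.lf (nat_lit 76) (nat_lit 4073361152) (nat_lit 0) (nat_lit 8260581341) (nat_lit 1900) (nat_lit 18715109407) (nat_lit 478) (nat_lit 5) (nat_lit 477) (nat_lit 5) (nat_lit 502) (nat_lit 5) (nat_lit 629) (nat_lit 616) (nat_lit 315)))))) (XT.nd (nat_lit 546) (nat_lit 3496) (nat_lit 0) (XT.nd (nat_lit 234) (nat_lit 0) (nat_lit 76) (XT.nd (nat_lit 78) (nat_lit 0) (nat_lit 0) (XT.lf (nat_lit 0) (nat_lit 13903043517) (nat_lit 1824) (nat_lit 10977330122) (nat_lit 1900) (nat_lit 6490311137) (nat_lit 478) (nat_lit 5) (nat_lit 502) (nat_lit 5) (nat_lit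 503) (nat_lit 5) (nat_lit 630) (nat_lit 616) (nat_lit 314)) (XT.nd (nat_lit 78) (nat_lit 0) (nat_lit 76) (XT.lf (nat_lit 76) (nat_lit 5355216739) (nat_lit 0) (nat_lit 10235962179) (nat_lit 1900) (nat_lit 16105818454) (nat_lit 479) (nat_lit 5) (nat_lit 478) (nat_lit 5) (nat_lit 503) (nat_lit 5) (nat_lit 631) (nat_lit 616) (nat_lit 313)) (XT.lf (nat_lit 0) (nat_lit 17415960142) (nat_lit 1824) (nat_lit 9897500239) (nat_lit 1900) (nat_lit 4714318283) (nat_lit 479) (nat_lit 5) (nat_lit 503) (nat_lit 5) (nat_lit 504) (nat_lit 5) (nat_lit 632) (nat_lit 616) (nat_lit 312)))) (XT.nd (nat_lit 156) (nat_lit 0) (nat_lit 76) (XT.nd (nat_lit 78) (nat_lit 0) (nat_lit 76) (XT.lf (nat_lit 76) (nat_lit 6897019477) (nat_lit 0) (nat_lit 12491027928) (nat_lit 1900) (nat_lit 12974912075) (nat_lit 480) (nat_lit 5) (nat_lit 479) (nat_lit 5) (nat_lit 504) (nat_lit 5) (nat_lit 633) (nat_lit 616) (nat_lit 311)) (XT.lf (nat_lit 0) (nat_lit 21481766776) (nat_lit 1824) (nat_lit 8560767331)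 (nat_lit 1900) (nat_lit 2660666101) (nat_lit 480) (nat_lit 5) (nat_lit 504) (nat_lit 5) (nat_lit 505) (nat_lit 5) (nat_lit 634) (nat_lit 616) (nat_lit 310))) (XT.nd (nat_lit 78) (nat_lit 0) (nat_lit 76) (XT.lf (nat_lit 76) (nat_lit 8712739271) (nat_lit 0) (nat_lit 15042217390) (nat_lit 1900) (nat_lit 9292537268) (nat_lit 481) (nat_lit 5) (nat_lit 480) (nat_lit 5) (nat_lit 505) (nat_lit 5) (nat_lit 635) (nat_lit 616) (nat_lit 309)) (XT.lf (nat_lit 0) (nat_lit 26131446134) (nat_lit 1824) (nat_lit 6953165175) (nat_lit 1900) (nat_lit 312905599) (nat_lit 481) (nat_lit 5) (nat_lit 505) (nat_lit 5) (nat_lit 506) (nat_lit 5) (nat_lit 636) (nat_lit 616) (nat_lit 308))))) (XT.nd (nat_lit 312) (nat_lit 1900) (nat_lit 0) (XT.nd (nat_lit 156) (nat_lit 1824) (nat_lit 0) (XT.nd (nat_lit 78) (nat_lit 0) (nat_lit 0) (XT.lf (nat_lit 76) (nat_lit 10816988041) (nat_lit 0) (nat_lit 17906690745) (nat_lit 1900) (nat_lit 5027497389) (nat_lit 482) (nat_lit 5) (nat_lit 481) (nat_lit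 5) (nat_lit 506) (nat_lit 5) (nat_lit 637) (nat_lit 616) (nat_lit 307)) (XT.lf (nat_lit 76) (nat_lit 29035487505) (nat_lit 0) (nat_lit 2377316542) (nat_lit 1900) (nat_lit 2698203717) (nat_lit 482) (nat_lit 5) (nat_lit 481) (nat_lit 5) (nat_lit 506) (nat_lit 5) (nat_lit 638) (nat_lit 616) (nat_lit 306))) (XT.nd (nat_lit 78) (nat_lit 1900) (nat_lit 0) (XT.lf (nat_lit 76) (nat_lit 13225044637) (nat_lit 0) (nat_lit 21102363441) (nat_lit 1900) (nat_lit 147194075) (nat_lit 483) (nat_lit 5) (nat_lit 482) (nat_lit 5) (nat_lit 507) (nat_lit 5) (nat_lit 639) (nat_lit 616) (nat_lit 305)) (XT.lf (nat_lit 0) (nat_lit 2471103071) (nat_lit 1900) (nat_lit 2917603187) (nat_lit 1976) (nat_lit 29455474234) (nat_lit 457) (nat_lit 5) (nat_lit 482) (nat_lit 5) (nat_lit 483) (nat_lit 5) (nat_lit 640) (nat_lit 616) (nat_lit 304)))) (XT.nd (nat_lit 156) (nat_lit 1976) (nat_lit 0) (XT.nd (nat_lit 78) (nat_lit 0) (nat_lit 0) (XT.lf (nat_lit 0) (nat_lit 5311841562) (nat_lit 1900) (nat_lit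 19300454592) (nat_lit 76) (nat_lit 10605393948) (nat_lit 458) (nat_lit 5) (nat_lit 483) (nat_lit 5) (nat_lit 459) (nat_lit 5) (nat_lit 641) (nat_lit 616) (nat_lit 303)) (XT.lf (nat_lit 0) (nat_lit 8263277890) (nat_lit 1900) (nat_lit 467101062) (nat_lit 76) (nat_lit 26867213376) (nat_lit 458) (nat_lit 5) (nat_lit 483) (nat_lit 5) (nat_lit 459) (nat_lit 5) (nat_lit 642) (nat_lit 616) (nat_lit 302))) (XT.nd (nat_lit 78) (nat_lit 912) (nat_lit 0) (XT.lf (nat_lit 0) (nat_lit 11444873269) (nat_lit 1140) (nat_lit 17041283258) (nat_lit 76) (nat_lit 7495513550) (nat_lit 444) (nat_lit 5) (nat_lit 459) (nat_lit 5) (nat_lit 445) (nat_lit 5) (nat_lit 643) (nat_lit 616) (nat_lit 301)) (XT.lf (nat_lit 0) (nat_lit 2340526023) (nat_lit 912) (nat_lit 12424282502) (nat_lit 988) (nat_lit 21607126779) (nat_lit 432) (nat_lit 5) (nat_lit 444) (nat_lit 5) (nat_lit 445) (nat_lit 5) (nat_lit 644) (nat_lit 616) (nat_lit 300))))))))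
noncomputable def xc236 : XT := (XT.nd (nat_lit 79092) (nat_lit 0) (nat_lit 11400) (XT.nd (nat_lit 1092) (nat_lit 5548) (nat_lit 0) (XT.nd (nat_lit 546) (nat_lit 3192) (nat_lit 0) (XT.nd (nat_lit 234) (nat_lit 1748) (nat_lit 0) (XT.nd (nat_lit 78) (nat_lit 912) (nat_lit 0) (XT.lf (nat_lit 0) (nat_lit 18290519467) (nat_lit 988) (nat_lit 14454551838) (nat_lit 76) (nat_lit 4022147074) (nat_lit 432) (nat_lit 5) (nat_lit 445) (nat_lit 5) (nat_lit 433) (nat_lit 5) (nat_lit 645) (nat_lit 616) (nat_lit 299)) (XT.nd (nat_lit 78) (nat_lit 0) (nat_lit 0) (XT.lf (nat_lit 0) (nat_lit 5502411161) (nat_lit 912) (nat_lit 16500927344) (nat_lit 988) (nat_lit 15164736812) (nat_lit 420) (nat_lit 5) (nat_lit 432) (nat_lit 5) (nat_lit 433) (nat_lit 5) (nat_lit 646) (nat_lit 616) (nat_lit 298)) (XT.lf (nat_lit 0) (nat_lit 25887104378) (nat_lit 988) (nat_lit 11522981778) (nat_lit 76) (nat_lit 164929504) (nat_lit 420) (nat_lit 5) (nat_lit 433) (nat_lit 5) (nat_lit 421) (nat_lit 5)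 (nat_lit 647) (nat_lit 616) (nat_lit 297)))) (XT.nd (nat_lit 156) (nat_lit 912) (nat_lit 0) (XT.nd (nat_lit 78) (nat_lit 0) (nat_lit 0) (XT.lf (nat_lit 0) (nat_lit 9030401631) (nat_lit 836) (nat_lit 20984688537) (nat_lit 912) (nat_lit 7971673830) (nat_lit 409) (nat_lit 5) (nat_lit 420) (nat_lit 5) (nat_lit 421) (nat_lit 5) (nat_lit 648) (nat_lit 616) (nat_lit 296)) (XT.lf (nat_lit 0) (nat_lit 30149748089) (nat_lit 836) (nat_lit 4151866737) (nat_lit 912) (nat_lit 4103612968) (nat_lit 409) (nat_lit 5) (nat_lit 420) (nat_lit 5) (nat_lit 421) (nat_lit 5) (nat_lit 649) (nat_lit 616) (nat_lit 295))) (XT.nd (nat_lit 78) (nat_lit 0) (nat_lit 0) (XT.lf (nat_lit 0) (nat_lit 12227625) (nat_lit 912) (nat_lit 25885443511) (nat_lit 76) (nat_lit 12931043468) (nat_lit 397) (nat_lit 5) (nat_lit 409) (nat_lit 5) (nat_lit 398) (nat_lit 5) (nat_lit 650) (nat_lit 616) (nat_lit 294)) (XT.lf (nat_lit 0) (nat_lit 4237439644) (nat_lit 912) (nat_lit 4638011815) (nat_lit 76) (nat_lit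 30383037223) (nat_lit 397) (nat_lit 5) (nat_lit 409) (nat_lit 5) (nat_lit 398) (nat_lit 5) (nat_lit 651) (nat_lit 616) (nat_lit 293))))) (XT.nd (nat_lit 234) (nat_lit 1520) (nat_lit 0) (XT.nd (nat_lit 78) (nat_lit 836) (nat_lit 0) (XT.lf (nat_lit 0) (nat_lit 8713777412) (nat_lit 912) (nat_lit 22491046421) (nat_lit 76) (nat_lit 8488702050) (nat_lit 386) (nat_lit 5) (nat_lit 398) (nat_lit 5) (nat_lit 387) (nat_lit 5) (nat_lit 652) (nat_lit 616) (nat_lit 292)) (XT.nd (nat_lit 78) (nat_lit 836) (nat_lit 0) (XT.lf (nat_lit 0) (nat_lit 13368481243) (nat_lit 912) (nat_lit 654278261) (nat_lit 76) (nat_lit 26112727603) (nat_lit 386) (nat_lit 5) (nat_lit 398) (nat_lit 5) (nat_lit 387) (nat_lit 5) (nat_lit 653) (nat_lit 616) (nat_lit 291)) (XT.lf (nat_lit 0) (nat_lit 18280944330) (nat_lit 912) (nat_lit 18701914171) (nat_lit 76) (nat_lit 3600135820) (nat_lit 375) (nat_lit 5) (nat_lit 387) (nat_lit 5) (nat_lit 376) (nat_lit 5) (nat_lit 654) (nat_lit 616) (nat_lit 290))))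 (XT.nd (nat_lit 156) (nat_lit 760) (nat_lit 0) (XT.nd (nat_lit 78) (nat_lit 0) (nat_lit 0) (XT.lf (nat_lit 0) (nat_lit 3792197716) (nat_lit 760) (nat_lit 19620138610) (nat_lit 836) (nat_lit 17624701825) (nat_lit 365) (nat_lit 5) (nat_lit 375) (nat_lit 5) (nat_lit 376) (nat_lit 5) (nat_lit 655) (nat_lit 616) (nat_lit 289)) (XT.lf (nat_lit 0) (nat_lit 26988416335) (nat_lit 760) (nat_lit 1782227839) (nat_lit 836) (nat_lit 12727032988) (nat_lit 365) (nat_lit 5) (nat_lit 375) (nat_lit 5) (nat_lit 376) (nat_lit 5) (nat_lit 656) (nat_lit 616) (nat_lit 288))) (XT.nd (nat_lit 78) (nat_lit 0) (nat_lit 0) (XT.lf (nat_lit 0) (nat_lit 8687120024) (nat_lit 760) (nat_lit 25710772771) (nat_lit 836) (nat_lit 7566400728) (nat_lit 355) (nat_lit 5) (nat_lit 365) (nat_lit 5) (nat_lit 366) (nat_lit 5) (nat_lit 657) (nat_lit 616) (nat_lit 287)) (XT.lf (nat_lit 0) (nat_lit 32530871061) (nat_lit 760) (nat_lit 7714731931) (nat_lit 836) (nat_lit 2192480950) (nat_lit 355) (nat_lit 5)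 (nat_lit 365) (nat_lit 5) (nat_lit 366) (nat_lit 5) (nat_lit 658) (nat_lit 616) (nat_lit 286)))))) (XT.nd (nat_lit 546) (nat_lit 2660) (nat_lit 0) (XT.nd (nat_lit 234) (nat_lit 1368) (nat_lit 0) (XT.nd (nat_lit 78) (nat_lit 760) (nat_lit 0) (XT.lf (nat_lit 0) (nat_lit 3405957932) (nat_lit 760) (nat_lit 28896601163) (nat_lit 76) (nat_lit 10615160547) (nat_lit 345) (nat_lit 5) (nat_lit 355) (nat_lit 5) (nat_lit 346) (nat_lit 5) (nat_lit 659) (nat_lit 616) (nat_lit 285)) (XT.nd (nat_lit 78) (nat_lit 760) (nat_lit 0) (XT.lf (nat_lit 0) (nat_lit 9203905332) (nat_lit 760) (nat_lit 4910636944) (nat_lit 76) (nat_lit 29289778050) (nat_lit 345) (nat_lit 5) (nat_lit 355) (nat_lit 5) (nat_lit 346) (nat_lit 5) (nat_lit 660) (nat_lit 616) (nat_lit 284)) (XT.lf (nat_lit 0) (nat_lit 15274993831) (nat_lit 836) (nat_lit 24114110881) (nat_lit 76) (nat_lit 4508404728) (nat_lit 335) (nat_lit 5) (nat_lit 346) (nat_lit 5) (nat_lit 336) (nat_lit 5) (nat_lit 661) (nat_lit 616) (nat_lit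 283)))) (XT.nd (nat_lit 156) (nat_lit 684) (nat_lit 0) (XT.nd (nat_lit 78) (nat_lit 0) (nat_lit 0) (XT.lf (nat_lit 0) (nat_lit 550233954) (nat_lit 684) (nat_lit 21046378843) (nat_lit 760) (nat_lit 22801367420) (nat_lit 326) (nat_lit 5) (nat_lit 335) (nat_lit 5) (nat_lit 336) (nat_lit 5) (nat_lit 662) (nat_lit 616) (nat_lit 282)) (XT.lf (nat_lit 0) (nat_lit 26033480226) (nat_lit 684) (nat_lit 2171907094) (nat_lit 760) (nat_lit 16699858681) (nat_lit 326) (nat_lit 5) (nat_lit 335) (nat_lit 5) (nat_lit 336) (nat_lit 5) (nat_lit 663) (nat_lit 616) (nat_lit 281))) (XT.nd (nat_lit 78) (nat_lit 0) (nat_lit 0) (XT.lf (nat_lit 0) (nat_lit 6577854638) (nat_lit 684) (nat_lit 28521010768) (nat_lit 760) (nat_lit 10320741186) (nat_lit 317) (nat_lit 5) (nat_lit 326) (nat_lit 5) (nat_lit 327) (nat_lit 5) (nat_lit 664) (nat_lit 616) (nat_lit 280)) (XT.lf (nat_lit 0) (nat_lit 32776458436) (nat_lit 684) (nat_lit 9493621182) (nat_lit 760) (nat_lit 3671377499) (nat_lit 317) (nat_lit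 5) (nat_lit 326) (nat_lit 5) (nat_lit 327) (nat_lit 5) (nat_lit 665) (nat_lit 616) (nat_lit 279))))) (XT.nd (nat_lit 312) (nat_lit 1292) (nat_lit 0) (XT.nd (nat_lit 156) (nat_lit 684) (nat_lit 0) (XT.nd (nat_lit 78) (nat_lit 0) (nat_lit 0) (XT.lf (nat_lit 0) (nat_lit 3219745689) (nat_lit 684) (nat_lit 33360050221) (nat_lit 76) (nat_lit 9890553359) (nat_lit 308) (nat_lit 5) (nat_lit 317) (nat_lit 5) (nat_lit 309) (nat_lit 5) (nat_lit 666) (nat_lit 616) (nat_lit 278)) (XT.lf (nat_lit 0) (nat_lit 10350341768) (nat_lit 684) (nat_lit 7007512167) (nat_lit 76) (nat_lit 29648463820) (nat_lit 308) (nat_lit 5) (nat_lit 317) (nat_lit 5) (nat_lit 309) (nat_lit 5) (nat_lit 667) (nat_lit 616) (nat_lit 277))) (XT.nd (nat_lit 78) (nat_lit 0) (nat_lit 0) (XT.lf (nat_lit 0) (nat_lit 17768726165) (nat_lit 760) (nat_lit 27430947509) (nat_lit 76) (nat_lit 2350428456) (nat_lit 299) (nat_lit 5) (nat_lit 309) (nat_lit 5) (nat_lit 300) (nat_lit 5) (nat_lit 668) (nat_lit 616) (nat_lit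 276)) (XT.lf (nat_lit 0) (nat_lit 25496760861) (nat_lit 760) (nat_lit 336975715) (nat_lit 76) (nat_lit 22267800012) (nat_lit 299) (nat_lit 5) (nat_lit 309) (nat_lit 5) (nat_lit 300) (nat_lit 5) (nat_lit 669) (nat_lit 616) (nat_lit 275)))) (XT.nd (nat_lit 156) (nat_lit 76) (nat_lit 0) (XT.nd (nat_lit 78) (nat_lit 608) (nat_lit 0) (XT.lf (nat_lit 0) (nat_lit 27660437986) (nat_lit 608) (nat_lit 5897522315) (nat_lit 684) (nat_lit 15102467400) (nat_lit 291) (nat_lit 5) (nat_lit 299) (nat_lit 5) (nat_lit 300) (nat_lit 5) (nat_lit 670) (nat_lit 616) (nat_lit 274)) (XT.lf (nat_lit 0) (nat_lit 6988601603) (nat_lit 608) (nat_lit 34932194507) (nat_lit 684) (nat_lit 7306892324) (nat_lit 283) (nat_lit 5) (nat_lit 291) (nat_lit 5) (nat_lit 292) (nat_lit 5) (nat_lit 671) (nat_lit 616) (nat_lit 273))) (XT.nd (nat_lit 76908) (nat_lit 0) (nat_lit 14364) (XT.lf (nat_lit 0) (nat_lit 816079993) (nat_lit 684) (nat_lit 14027249829) (nat_lit 76) (nat_lit 34959282109) (nat_lit 282)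 (nat_lit 5) (nat_lit 291) (nat_lit 5) (nat_lit 283) (nat_lit 5) (nat_lit 672) (nat_lit 616) (nat_lit 272)) (XT.lf (nat_lit 0) (nat_lit 1341492390) (nat_lit 1900) (nat_lit 6274683126) (nat_lit 1900) (nat_lit 6274683126) (nat_lit 471) (nat_lit 3) (nat_lit 496) (nat_lit 3) (nat_lit 496) (nat_lit 5) (nat_lit 617) (nat_lit 617) (nat_lit 326))))))) (XT.nd (nat_lit 1092) (nat_lit 2964) (nat_lit 0) (XT.nd (nat_lit 546) (nat_lit 0) (nat_lit 304) (XT.nd (nat_lit 234) (nat_lit 0) (nat_lit 152) (XT.nd (nat_lit 78) (nat_lit 0) (nat_lit 76) (XT.lf (nat_lit 76) (nat_lit 1246192715) (nat_lit 0) (nat_lit 1557306420) (nat_lit 1900) (nat_lit 25254156441) (nat_lit 472) (nat_lit 5) (nat_lit 471) (nat_lit 3) (nat_lit 496) (nat_lit 5) (nat_lit 618) (nat_lit 617) (nat_lit 325)) (XT.nd (nat_lit 78) (nat_lit 0) (nat_lit 0) (XT.lf (nat_lit 0) (nat_lit 3089400886) (nat_lit 1824) (nat_lit 12931877990) (nat_lit 1900) (nat_lit 12314574351) (nat_lit 472) (nat_lit 5) (nat_lit 496) (nat_lit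 5) (nat_lit 497) (nat_lit 5) (nat_lit 619) (nat_lit 617) (nat_lit 324)) (XT.lf (nat_lit 76) (nat_lit 1229927191) (nat_lit 0) (nat_lit 2167190716) (nat_lit 1900) (nat_lit 25222175114) (nat_lit 473) (nat_lit 5) (nat_lit 472) (nat_lit 5) (nat_lit 497) (nat_lit 5) (nat_lit 620) (nat_lit 617) (nat_lit 323)))) (XT.nd (nat_lit 156) (nat_lit 0) (nat_lit 76) (XT.nd (nat_lit 78) (nat_lit 0) (nat_lit 0) (XT.lf (nat_lit 0) (nat_lit 3873862106) (nat_lit 1824) (nat_lit 13135886161) (nat_lit 1900) (nat_lit 11895396018) (nat_lit 473) (nat_lit 5) (nat_lit 497) (nat_lit 5) (nat_lit 498) (nat_lit 5) (nat_lit 621) (nat_lit 617) (nat_lit 322)) (XT.lf (nat_lit 76) (nat_lit 1405538020) (nat_lit 0) (nat_lit 2975963795) (nat_lit 1900) (nat_lit 24814783674) (nat_lit 474) (nat_lit 5) (nat_lit 473) (nat_lit 5) (nat_lit 498) (nat_lit 5) (nat_lit 622) (nat_lit 617) (nat_lit 321))) (XT.nd (nat_lit 78) (nat_lit 0) (nat_lit 0) (XT.lf (nat_lit 0) (nat_lit 5059565998) (nat_lit 1824) (nat_lit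 13151082581) (nat_lit 1900) (nat_lit 11279395630) (nat_lit 474) (nat_lit 5) (nat_lit 498) (nat_lit 5) (nat_lit 499) (nat_lit 5) (nat_lit 623) (nat_lit 617) (nat_lit 320)) (XT.lf (nat_lit 76) (nat_lit 1783840753) (nat_lit 0) (nat_lit 3996603864) (nat_lit 1900) (nat_lit 24008648548) (nat_lit 475) (nat_lit 5) (nat_lit 474) (nat_lit 5) (nat_lit 499) (nat_lit 5) (nat_lit 624) (nat_lit 617) (nat_lit 319))))) (XT.nd (nat_lit 234) (nat_lit 0) (nat_lit 76) (XT.nd (nat_lit 78) (nat_lit 0) (nat_lit 0) (XT.lf (nat_lit 0) (nat_lit 6670760185) (nat_lit 1824) (nat_lit 12966656926) (nat_lit 1900) (nat_lit 10453605722) (nat_lit 475) (nat_lit 5) (nat_lit 499) (nat_lit 5) (nat_lit 500) (nat_lit 5) (nat_lit 625) (nat_lit 617) (nat_lit 318)) (XT.nd (nat_lit 78) (nat_lit 0) (nat_lit 76) (XT.lf (nat_lit 76) (nat_lit 2376172318) (nat_lit 0) (nat_lit 5242644324) (nat_lit 1900) (nat_lit 22779375878) (nat_lit 476) (nat_lit 5) (nat_lit 475) (nat_lit 5) (nat_lit 500) (nat_lit 5) (nat_lit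 626) (nat_lit 617) (nat_lit 317)) (XT.lf (nat_lit 0) (nat_lit 8732788836) (nat_lit 1824) (nat_lit 12571277560) (nat_lit 1900) (nat_lit 9404500230) (nat_lit 476) (nat_lit 5) (nat_lit 500) (nat_lit 5) (nat_lit 501) (nat_lit 5) (nat_lit 627) (nat_lit 617) (nat_lit 316)))) (XT.nd (nat_lit 156) (nat_lit 0) (nat_lit 76) (XT.nd (nat_lit 78) (nat_lit 0) (nat_lit 76) (XT.lf (nat_lit 76) (nat_lit 3194410933) (nat_lit 0) (nat_lit 6728201401) (nat_lit 1900) (nat_lit 21101464558) (nat_lit 477) (nat_lit 5) (nat_lit 476) (nat_lit 5) (nat_lit 501) (nat_lit 5) (nat_lit 628) (nat_lit 617) (nat_lit 315)) (XT.lf (nat_lit 0) (nat_lit 11272140984) (nat_lit 1824) (nat_lit 11953071545) (nat_lit 1900) (nat_lit 8117966771) (nat_lit 477) (nat_lit 5) (nat_lit 501) (nat_lit 5) (nat_lit 502) (nat_lit 5) (nat_lit 629) (nat_lit 617) (nat_lit 314))) (XT.nd (nat_lit 78) (nat_lit 0) (nat_lit 76) (XT.lf (nat_lit 76) (nat_lit 4250996860) (nat_lit 0) (nat_lit 8468002787) (nat_lit 1900) (nat_lit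 18948257430) (nat_lit 478) (nat_lit 5) (nat_lit 477) (nat_lit 5) (nat_lit 502) (nat_lit 5) (nat_lit 630) (nat_lit 617) (nat_lit 313)) (XT.lf (nat_lit 0) (nat_lit 14316500711) (nat_lit 1824) (nat_lit 11099603783) (nat_lit 1900) (nat_lit 6579277918) (nat_lit 478) (nat_lit 5) (nat_lit 502) (nat_lit 5) (nat_lit 503) (nat_lit 5) (nat_lit 631) (nat_lit 617) (nat_lit 312)))))) (XT.nd (nat_lit 546) (nat_lit 3496) (nat_lit 0) (XT.nd (nat_lit 234) (nat_lit 0) (nat_lit 152) (XT.nd (nat_lit 78) (nat_lit 0) (nat_lit 76) (XT.lf (nat_lit 76) (nat_lit 5558954062) (nat_lit 0) (nat_lit 10477417334) (nat_lit 1900) (nat_lit 16291890573) (nat_lit 479) (nat_lit 5) (nat_lit 478) (nat_lit 5) (nat_lit 503) (nat_lit 5) (nat_lit 632) (nat_lit 617) (nat_lit 311)) (XT.nd (nat_lit 78) (nat_lit 0) (nat_lit 0) (XT.lf (nat_lit 0) (nat_lit 17894799330) (nat_lit 1824) (nat_lit 9997855290) (nat_lit 1900) (nat_lit 4773061401) (nat_lit 479) (nat_lit 5) (nat_lit 503) (nat_lit 5) (nat_lit 504) (nat_lit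 5) (nat_lit 633) (nat_lit 617) (nat_lit 310)) (XT.lf (nat_lit 76) (nat_lit 7131912749) (nat_lit 0) (nat_lit 12772485857) (nat_lit 1900) (nat_lit 13103240595) (nat_lit 480) (nat_lit 5) (nat_lit 479) (nat_lit 5) (nat_lit 504) (nat_lit 5) (nat_lit 634) (nat_lit 617) (nat_lit 309)))) (XT.nd (nat_lit 156) (nat_lit 0) (nat_lit 76) (XT.nd (nat_lit 78) (nat_lit 0) (nat_lit 0) (XT.lf (nat_lit 0) (nat_lit 22037269603) (nat_lit 1824) (nat_lit 8634200558) (nat_lit 1900) (nat_lit 2683269187) (nat_lit 480) (nat_lit 5) (nat_lit 504) (nat_lit 5) (nat_lit 505) (nat_lit 5) (nat_lit 635) (nat_lit 617) (nat_lit 308)) (XT.lf (nat_lit 76) (nat_lit 8984132872) (nat_lit 0) (nat_lit 15369953113) (nat_lit 1900) (nat_lit 9351869851) (nat_lit 481) (nat_lit 5) (nat_lit 480) (nat_lit 5) (nat_lit 505) (nat_lit 5) (nat_lit 636) (nat_lit 617) (nat_lit 307))) (XT.nd (nat_lit 78) (nat_lit 0) (nat_lit 0) (XT.lf (nat_lit 0) (nat_lit 26775502110) (nat_lit 1824) (nat_lit 6994383985) (nat_lit 1900)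 (nat_lit 293145387) (nat_lit 481) (nat_lit 5) (nat_lit 505) (nat_lit 5) (nat_lit 506) (nat_lit 5) (nat_lit 637) (nat_lit 617) (nat_lit 306)) (XT.lf (nat_lit 76) (nat_lit 11130528581) (nat_lit 0) (nat_lit 18287301004) (nat_lit 1900) (nat_lit 5005969489) (nat_lit 482) (nat_lit 5) (nat_lit 481) (nat_lit 5) (nat_lit 506) (nat_lit 5) (nat_lit 638) (nat_lit 617) (nat_lit 305))))) (XT.nd (nat_lit 312) (nat_lit 1900) (nat_lit 0) (XT.nd (nat_lit 156) (nat_lit 1824) (nat_lit 0) (XT.nd (nat_lit 78) (nat_lit 0) (nat_lit 76) (XT.lf (nat_lit 76) (nat_lit 29711492137) (nat_lit 0) (nat_lit 2446898602) (nat_lit 1900) (nat_lit 2632483626) (nat_lit 482) (nat_lit 5) (nat_lit 481) (nat_lit 5) (nat_lit 506) (nat_lit 5) (nat_lit 639) (nat_lit 617) (nat_lit 304)) (XT.lf (nat_lit 76) (nat_lit 13586693670) (nat_lit 0) (nat_lit 21542783065) (nat_lit 1900) (nat_lit 32300246) (nat_lit 483) (nat_lit 5) (nat_lit 482) (nat_lit 5) (nat_lit 507) (nat_lit 5) (nat_lit 640) (nat_lit 617) (nat_lit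 303))) (XT.nd (nat_lit 78) (nat_lit 0) (nat_lit 76) (XT.lf (nat_lit 0) (nat_lit 2634537141) (nat_lit 1900) (nat_lit 2879190275) (nat_lit 1976) (nat_lit 30025049906) (nat_lit 457) (nat_lit 5) (nat_lit 482) (nat_lit 5) (nat_lit 483) (nat_lit 5) (nat_lit 641) (nat_lit 617) (nat_lit 302)) (XT.lf (nat_lit 0) (nat_lit 5530373350) (nat_lit 1900) (nat_lit 19587975244) (nat_lit 76) (nat_lit 10801442997) (nat_lit 458) (nat_lit 5) (nat_lit 483) (nat_lit 5) (nat_lit 459) (nat_lit 5) (nat_lit 642) (nat_lit 617) (nat_lit 301)))) (XT.nd (nat_lit 156) (nat_lit 912) (nat_lit 0) (XT.nd (nat_lit 78) (nat_lit 1064) (nat_lit 0) (XT.lf (nat_lit 0) (nat_lit 8538636543) (nat_lit 1900) (nat_lit 379885790) (nat_lit 76) (nat_lit 27388813692) (nat_lit 458) (nat_lit 5) (nat_lit 483) (nat_lit 5) (nat_lit 459) (nat_lit 5) (nat_lit 643) (nat_lit 617) (nat_lit 300)) (XT.lf (nat_lit 0) (nat_lit 11782245895) (nat_lit 1140) (nat_lit 17283927532) (nat_lit 76) (nat_lit 7632954384) (nat_lit 444)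 (nat_lit 5) (nat_lit 459) (nat_lit 5) (nat_lit 445) (nat_lit 5) (nat_lit 644) (nat_lit 617) (nat_lit 299))) (XT.nd (nat_lit 78) (nat_lit 0) (nat_lit 0) (XT.lf (nat_lit 0) (nat_lit 2484872005) (nat_lit 912) (nat_lit 12682214153) (nat_lit 988) (nat_lit 21930142180) (nat_lit 432) (nat_lit 5) (nat_lit 444) (nat_lit 5) (nat_lit 445) (nat_lit 5) (nat_lit 645) (nat_lit 617) (nat_lit 298)) (XT.lf (nat_lit 0) (nat_lit 18761153515) (nat_lit 988) (nat_lit 14645856146) (nat_lit 76) (nat_lit 4093450687) (nat_lit 432) (nat_lit 5) (nat_lit 445) (nat_lit 5) (nat_lit 433) (nat_lit 5) (nat_lit 646) (nat_lit 617) (nat_lit 297))))))))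
noncomputable def xc237 : XT := (XT.nd (nat_lit 79170) (nat_lit 0) (nat_lit 9576) (XT.nd (nat_lit 1092) (nat_lit 4712) (nat_lit 0) (XT.nd (nat_lit 546) (nat_lit 3116) (nat_lit 0) (XT.nd (nat_lit 234) (nat_lit 1748) (nat_lit 0) (XT.nd (nat_lit 78) (nat_lit 836) (nat_lit 0) (XT.lf (nat_lit 0) (nat_lit 5709602779) (nat_lit 912) (nat_lit 16837201508) (nat_lit 988) (nat_lit 15362558747) (nat_lit 420) (nat_lit 5) (nat_lit 432) (nat_lit 5) (nat_lit 433) (nat_lit 5) (nat_lit 647) (nat_lit 617) (nat_lit 296)) (XT.nd (nat_lit 78) (nat_lit 836) (nat_lit 0) (XT.lf (nat_lit 0) (nat_lit 26506178228) (nat_lit 988) (nat_lit 11656129846) (nat_lit 76) (nat_lit 162175570) (nat_lit 420) (nat_lit 5) (nat_lit 433) (nat_lit 5) (nat_lit 421) (nat_lit 5) (nat_lit 648) (nat_lit 617) (nat_lit 295)) (XT.lf (nat_lit 0) (nat_lit 9307681024) (nat_lit 836) (nat_lit 21407683467) (nat_lit 912) (nat_lit 8029129754) (nat_lit 409) (nat_lit 5) (nat_lit 420) (nat_lit 5) (nat_lit 421) (nat_lit 5)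 (nat_lit 649) (nat_lit 617) (nat_lit 294)))) (XT.nd (nat_lit 156) (nat_lit 836) (nat_lit 0) (XT.nd (nat_lit 78) (nat_lit 912) (nat_lit 0) (XT.lf (nat_lit 0) (nat_lit 30847518894) (nat_lit 836) (nat_lit 4238140502) (nat_lit 912) (nat_lit 4085707235) (nat_lit 409) (nat_lit 5) (nat_lit 420) (nat_lit 5) (nat_lit 421) (nat_lit 5) (nat_lit 650) (nat_lit 617) (nat_lit 293)) (XT.lf (nat_lit 0) (nat_lit 109811807) (nat_lit 912) (nat_lit 26305727549) (nat_lit 76) (nat_lit 13187797486) (nat_lit 397) (nat_lit 5) (nat_lit 409) (nat_lit 5) (nat_lit 398) (nat_lit 5) (nat_lit 651) (nat_lit 617) (nat_lit 292))) (XT.nd (nat_lit 78) (nat_lit 836) (nat_lit 0) (XT.lf (nat_lit 0) (nat_lit 4417619447) (nat_lit 912) (nat_lit 4635257510) (nat_lit 76) (nat_lit 30988867721) (nat_lit 397) (nat_lit 5) (nat_lit 409) (nat_lit 5) (nat_lit 398) (nat_lit 5) (nat_lit 652) (nat_lit 617) (nat_lit 291)) (XT.lf (nat_lit 0) (nat_lit 8982233449) (nat_lit 912) (nat_lit 22844097230) (nat_lit 76) (nat_lit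 8659177054) (nat_lit 386) (nat_lit 5) (nat_lit 398) (nat_lit 5) (nat_lit 387) (nat_lit 5) (nat_lit 653) (nat_lit 617) (nat_lit 290))))) (XT.nd (nat_lit 234) (nat_lit 1520) (nat_lit 0) (XT.nd (nat_lit 78) (nat_lit 1596) (nat_lit 0) (XT.lf (nat_lit 0) (nat_lit 13728184681) (nat_lit 912) (nat_lit 572491161) (nat_lit 76) (nat_lit 26635669374) (nat_lit 386) (nat_lit 5) (nat_lit 398) (nat_lit 5) (nat_lit 387) (nat_lit 5) (nat_lit 654) (nat_lit 617) (nat_lit 289)) (XT.nd (nat_lit 78) (nat_lit 760) (nat_lit 0) (XT.lf (nat_lit 0) (nat_lit 18737718699) (nat_lit 912) (nat_lit 18979896599) (nat_lit 76) (nat_lit 3675210940) (nat_lit 375) (nat_lit 5) (nat_lit 387) (nat_lit 5) (nat_lit 376) (nat_lit 5) (nat_lit 655) (nat_lit 617) (nat_lit 288)) (XT.lf (nat_lit 0) (nat_lit 3963465579) (nat_lit 760) (nat_lit 20007105149) (nat_lit 836) (nat_lit 17885403668) (nat_lit 365) (nat_lit 5) (nat_lit 375) (nat_lit 5) (nat_lit 376) (nat_lit 5) (nat_lit 656) (nat_lit 617) (nat_lit 287))))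 (XT.nd (nat_lit 156) (nat_lit 760) (nat_lit 0) (XT.nd (nat_lit 78) (nat_lit 760) (nat_lit 0) (XT.lf (nat_lit 0) (nat_lit 27621737514) (nat_lit 760) (nat_lit 1812542755) (nat_lit 836) (nat_lit 12891581300) (nat_lit 365) (nat_lit 5) (nat_lit 375) (nat_lit 5) (nat_lit 376) (nat_lit 5) (nat_lit 657) (nat_lit 617) (nat_lit 286)) (XT.lf (nat_lit 0) (nat_lit 8955522918) (nat_lit 760) (nat_lit 26217469602) (nat_lit 836) (nat_lit 7628839457) (nat_lit 355) (nat_lit 5) (nat_lit 365) (nat_lit 5) (nat_lit 366) (nat_lit 5) (nat_lit 658) (nat_lit 617) (nat_lit 285))) (XT.nd (nat_lit 78) (nat_lit 760) (nat_lit 0) (XT.lf (nat_lit 0) (nat_lit 33274292887) (nat_lit 760) (nat_lit 7861655369) (nat_lit 836) (nat_lit 2149184211) (nat_lit 355) (nat_lit 5) (nat_lit 365) (nat_lit 5) (nat_lit 366) (nat_lit 5) (nat_lit 659) (nat_lit 617) (nat_lit 284)) (XT.lf (nat_lit 0) (nat_lit 3559054758) (nat_lit 760) (nat_lit 29379551373) (nat_lit 76) (nat_lit 10835764035) (nat_lit 345) (nat_lit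 5) (nat_lit 355) (nat_lit 5) (nat_lit 346) (nat_lit 5) (nat_lit 660) (nat_lit 617) (nat_lit 283)))))) (XT.nd (nat_lit 546) (nat_lit 1900) (nat_lit 0) (XT.nd (nat_lit 234) (nat_lit 1368) (nat_lit 0) (XT.nd (nat_lit 78) (nat_lit 1444) (nat_lit 0) (XT.lf (nat_lit 0) (nat_lit 9471294878) (nat_lit 760) (nat_lit 4915730258) (nat_lit 76) (nat_lit 29883711138) (nat_lit 345) (nat_lit 5) (nat_lit 355) (nat_lit 5) (nat_lit 346) (nat_lit 5) (nat_lit 661) (nat_lit 617) (nat_lit 282)) (XT.nd (nat_lit 78) (nat_lit 684) (nat_lit 0) (XT.lf (nat_lit 0) (nat_lit 15662838613) (nat_lit 836) (nat_lit 24502302993) (nat_lit 76) (nat_lit 4608666977) (nat_lit 335) (nat_lit 5) (nat_lit 346) (nat_lit 5) (nat_lit 336) (nat_lit 5) (nat_lit 662) (nat_lit 617) (nat_lit 281)) (XT.lf (nat_lit 0) (nat_lit 654709725) (nat_lit 684) (nat_lit 21455172503) (nat_lit 760) (nat_lit 23174426783) (nat_lit 326) (nat_lit 5) (nat_lit 335) (nat_lit 5) (nat_lit 336) (nat_lit 5) (nat_lit 663) (nat_lit 617)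 (nat_lit 280)))) (XT.nd (nat_lit 156) (nat_lit 684) (nat_lit 0) (XT.nd (nat_lit 78) (nat_lit 684) (nat_lit 0) (XT.lf (nat_lit 0) (nat_lit 26645788156) (nat_lit 684) (nat_lit 2203449240) (nat_lit 760) (nat_lit 16952514691) (nat_lit 326) (nat_lit 5) (nat_lit 335) (nat_lit 5) (nat_lit 336) (nat_lit 5) (nat_lit 664) (nat_lit 617) (nat_lit 279)) (XT.lf (nat_lit 0) (nat_lit 6801958760) (nat_lit 684) (nat_lit 29077739308) (nat_lit 760) (nat_lit 10446719640) (nat_lit 317) (nat_lit 5) (nat_lit 326) (nat_lit 5) (nat_lit 327) (nat_lit 5) (nat_lit 665) (nat_lit 617) (nat_lit 278))) (XT.nd (nat_lit 78) (nat_lit 684) (nat_lit 0) (XT.lf (nat_lit 0) (nat_lit 33522719986) (nat_lit 684) (nat_lit 9670070395) (nat_lit 760) (nat_lit 3665945864) (nat_lit 317) (nat_lit 5) (nat_lit 326) (nat_lit 5) (nat_lit 327) (nat_lit 5) (nat_lit 666) (nat_lit 617) (nat_lit 277)) (XT.lf (nat_lit 0) (nat_lit 3361124159) (nat_lit 684) (nat_lit 33934635775) (nat_lit 76) (nat_lit 10102452967) (nat_lit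 308) (nat_lit 5) (nat_lit 317) (nat_lit 5) (nat_lit 309) (nat_lit 5) (nat_lit 667) (nat_lit 617) (nat_lit 276))))) (XT.nd (nat_lit 312) (nat_lit 608) (nat_lit 0) (XT.nd (nat_lit 156) (nat_lit 608) (nat_lit 0) (XT.nd (nat_lit 78) (nat_lit 684) (nat_lit 0) (XT.lf (nat_lit 0) (nat_lit 10632822678) (nat_lit 684) (nat_lit 7056862949) (nat_lit 76) (nat_lit 30255245391) (nat_lit 308) (nat_lit 5) (nat_lit 317) (nat_lit 5) (nat_lit 309) (nat_lit 5) (nat_lit 668) (nat_lit 617) (nat_lit 275)) (XT.lf (nat_lit 0) (nat_lit 18198781960) (nat_lit 760) (nat_lit 27887970655) (nat_lit 76) (nat_lit 2412854391) (nat_lit 299) (nat_lit 5) (nat_lit 309) (nat_lit 5) (nat_lit 300) (nat_lit 5) (nat_lit 669) (nat_lit 617) (nat_lit 274))) (XT.nd (nat_lit 78) (nat_lit 608) (nat_lit 0) (XT.lf (nat_lit 0) (nat_lit 26079913012) (nat_lit 760) (nat_lit 253915422) (nat_lit 76) (nat_lit 22728271076) (nat_lit 299) (nat_lit 5) (nat_lit 309) (nat_lit 5) (nat_lit 300) (nat_lit 5) (nat_lit 670) (nat_lit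 617) (nat_lit 273)) (XT.lf (nat_lit 0) (nat_lit 28302855765) (nat_lit 608) (nat_lit 5998624254) (nat_lit 684) (nat_lit 15330705623) (nat_lit 291) (nat_lit 5) (nat_lit 299) (nat_lit 5) (nat_lit 300) (nat_lit 5) (nat_lit 671) (nat_lit 617) (nat_lit 272)))) (XT.nd (nat_lit 77064) (nat_lit 0) (nat_lit 14288) (XT.nd (nat_lit 76986) (nat_lit 0) (nat_lit 14288) (XT.lf (nat_lit 0) (nat_lit 7218328151) (nat_lit 608) (nat_lit 35612516851) (nat_lit 684) (nat_lit 7379961206) (nat_lit 283) (nat_lit 5) (nat_lit 291) (nat_lit 5) (nat_lit 292) (nat_lit 5) (nat_lit 672) (nat_lit 617) (nat_lit 271)) (XT.lf (nat_lit 0) (nat_lit 1453359906) (nat_lit 1900) (nat_lit 6356804999) (nat_lit 1900) (nat_lit 6356804999) (nat_lit 471) (nat_lit 3) (nat_lit 496) (nat_lit 3) (nat_lit 496) (nat_lit 5) (nat_lit 618) (nat_lit 618) (nat_lit 324))) (XT.nd (nat_lit 78) (nat_lit 0) (nat_lit 76) (XT.lf (nat_lit 76) (nat_lit 1357289466) (nat_lit 0) (nat_lit 1669579668) (nat_lit 1900) (nat_lit 25588583441)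 (nat_lit 472) (nat_lit 5) (nat_lit 471) (nat_lit 3) (nat_lit 496) (nat_lit 5) (nat_lit 619) (nat_lit 618) (nat_lit 323)) (XT.lf (nat_lit 0) (nat_lit 3314692125) (nat_lit 1824) (nat_lit 13102225608) (nat_lit 1900) (nat_lit 12482372581) (nat_lit 472) (nat_lit 5) (nat_lit 496) (nat_lit 5) (nat_lit 497) (nat_lit 5) (nat_lit 620) (nat_lit 618) (nat_lit 322))))))) (XT.nd (nat_lit 1170) (nat_lit 4788) (nat_lit 0) (XT.nd (nat_lit 546) (nat_lit 0) (nat_lit 304) (XT.nd (nat_lit 234) (nat_lit 0) (nat_lit 152) (XT.nd (nat_lit 78) (nat_lit 0) (nat_lit 76) (XT.lf (nat_lit 76) (nat_lit 1342234822) (nat_lit 0) (nat_lit 2283692184) (nat_lit 1900) (nat_lit 25562524821) (nat_lit 473) (nat_lit 5) (nat_lit 472) (nat_lit 5) (nat_lit 497) (nat_lit 5) (nat_lit 621) (nat_lit 618) (nat_lit 321)) (XT.nd (nat_lit 78) (nat_lit 0) (nat_lit 0) (XT.lf (nat_lit 0) (nat_lit 4108586164) (nat_lit 1824) (nat_lit 13308985130) (nat_lit 1900) (nat_lit 12062521410) (nat_lit 473) (nat_lit 5) (nat_lit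 497) (nat_lit 5) (nat_lit 498) (nat_lit 5) (nat_lit 622) (nat_lit 618) (nat_lit 320)) (XT.lf (nat_lit 76) (nat_lit 1522677938) (nat_lit 0) (nat_lit 3101195496) (nat_lit 1900) (nat_lit 25153233592) (nat_lit 474) (nat_lit 5) (nat_lit 473) (nat_lit 5) (nat_lit 498) (nat_lit 5) (nat_lit 623) (nat_lit 618) (nat_lit 319)))) (XT.nd (nat_lit 156) (nat_lit 0) (nat_lit 76) (XT.nd (nat_lit 78) (nat_lit 0) (nat_lit 0) (XT.lf (nat_lit 0) (nat_lit 5312046469) (nat_lit 1824) (nat_lit 13323359155) (nat_lit 1900) (nat_lit 11441404528) (nat_lit 474) (nat_lit 5) (nat_lit 498) (nat_lit 5) (nat_lit 499) (nat_lit 5) (nat_lit 624) (nat_lit 618) (nat_lit 318)) (XT.lf (nat_lit 76) (nat_lit 1909665639) (nat_lit 0) (nat_lit 4135295868) (nat_lit 1900) (nat_lit 24336926382) (nat_lit 475) (nat_lit 5) (nat_lit 474) (nat_lit 5) (nat_lit 499) (nat_lit 5) (nat_lit 625) (nat_lit 618) (nat_lit 317))) (XT.nd (nat_lit 78) (nat_lit 0) (nat_lit 0) (XT.lf (nat_lit 0) (nat_lit 6949789593) (nat_lit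 1824) (nat_lit 13134307006) (nat_lit 1900) (nat_lit 10605825602) (nat_lit 475) (nat_lit 5) (nat_lit 499) (nat_lit 5) (nat_lit 500) (nat_lit 5) (nat_lit 626) (nat_lit 618) (nat_lit 316)) (XT.lf (nat_lit 76) (nat_lit 2514775645) (nat_lit 0) (nat_lit 5399767707) (nat_lit 1900) (nat_lit 23088737382) (nat_lit 476) (nat_lit 5) (nat_lit 475) (nat_lit 5) (nat_lit 500) (nat_lit 5) (nat_lit 627) (nat_lit 618) (nat_lit 315))))) (XT.nd (nat_lit 312) (nat_lit 0) (nat_lit 152) (XT.nd (nat_lit 156) (nat_lit 0) (nat_lit 76) (XT.nd (nat_lit 78) (nat_lit 0) (nat_lit 0) (XT.lf (nat_lit 0) (nat_lit 9047651477) (nat_lit 1824) (nat_lit 12730257138) (nat_lit 1900) (nat_lit 9542016746) (nat_lit 476) (nat_lit 5) (nat_lit 500) (nat_lit 5) (nat_lit 501) (nat_lit 5) (nat_lit 628) (nat_lit 618) (nat_lit 314)) (XT.lf (nat_lit 76) (nat_lit 3350136927) (nat_lit 0) (nat_lit 6908981634) (nat_lit 1900) (nat_lit 21382670493) (nat_lit 477) (nat_lit 5) (nat_lit 476) (nat_lit 5) (nat_lit 501) (nat_lit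 5) (nat_lit 629) (nat_lit 618) (nat_lit 313))) (XT.nd (nat_lit 78) (nat_lit 0) (nat_lit 0) (XT.lf (nat_lit 0) (nat_lit 11632636661) (nat_lit 1824) (nat_lit 12099086684) (nat_lit 1900) (nat_lit 8235610351) (nat_lit 477) (nat_lit 5) (nat_lit 501) (nat_lit 5) (nat_lit 502) (nat_lit 5) (nat_lit 630) (nat_lit 618) (nat_lit 312)) (XT.lf (nat_lit 76) (nat_lit 4428450942) (nat_lit 0) (nat_lit 8677933604) (nat_lit 1900) (nat_lit 19191549601) (nat_lit 478) (nat_lit 5) (nat_lit 477) (nat_lit 5) (nat_lit 502) (nat_lit 5) (nat_lit 631) (nat_lit 618) (nat_lit 311)))) (XT.nd (nat_lit 156) (nat_lit 0) (nat_lit 76) (XT.nd (nat_lit 78) (nat_lit 0) (nat_lit 0) (XT.lf (nat_lit 0) (nat_lit 14732969445) (nat_lit 1824) (nat_lit 11228100144) (nat_lit 1900) (nat_lit 6671609880) (nat_lit 478) (nat_lit 5) (nat_lit 502) (nat_lit 5) (nat_lit 503) (nat_lit 5) (nat_lit 632) (nat_lit 618) (nat_lit 310)) (XT.lf (nat_lit 76) (nat_lit 5763013754) (nat_lit 0) (nat_lit 10722275091) (nat_lit 1900)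 (nat_lit 16486966897) (nat_lit 479) (nat_lit 5) (nat_lit 478) (nat_lit 5) (nat_lit 503) (nat_lit 5) (nat_lit 633) (nat_lit 618) (nat_lit 309))) (XT.nd (nat_lit 78) (nat_lit 0) (nat_lit 0) (XT.lf (nat_lit 0) (nat_lit 18378147053) (nat_lit 1824) (nat_lit 10104007172) (nat_lit 1900) (nat_lit 4834359568) (nat_lit 479) (nat_lit 5) (nat_lit 503) (nat_lit 5) (nat_lit 504) (nat_lit 5) (nat_lit 634) (nat_lit 618) (nat_lit 308)) (XT.lf (nat_lit 76) (nat_lit 7367739087) (nat_lit 0) (nat_lit 13058344426) (nat_lit 1900) (nat_lit 13239229166) (nat_lit 480) (nat_lit 5) (nat_lit 479) (nat_lit 5) (nat_lit 504) (nat_lit 5) (nat_lit 635) (nat_lit 618) (nat_lit 307)))))) (XT.nd (nat_lit 546) (nat_lit 3648) (nat_lit 0) (XT.nd (nat_lit 234) (nat_lit 1748) (nat_lit 0) (XT.nd (nat_lit 78) (nat_lit 0) (nat_lit 0) (XT.lf (nat_lit 0) (nat_lit 22598994899) (nat_lit 1824) (nat_lit 8712899448) (nat_lit 1900) (nat_lit 2707512968) (nat_lit 480) (nat_lit 5) (nat_lit 504) (nat_lit 5) (nat_lit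 505) (nat_lit 5) (nat_lit 636) (nat_lit 618) (nat_lit 306)) (XT.nd (nat_lit 78) (nat_lit 0) (nat_lit 76) (XT.lf (nat_lit 76) (nat_lit 9257182327) (nat_lit 0) (nat_lit 15703199326) (nat_lit 1900) (nat_lit 9417301941) (nat_lit 481) (nat_lit 5) (nat_lit 480) (nat_lit 5) (nat_lit 505) (nat_lit 5) (nat_lit 637) (nat_lit 618) (nat_lit 305)) (XT.lf (nat_lit 0) (nat_lit 27427724046) (nat_lit 1824) (nat_lit 7040226593) (nat_lit 1900) (nat_lit 274000294) (nat_lit 481) (nat_lit 5) (nat_lit 505) (nat_lit 5) (nat_lit 506) (nat_lit 5) (nat_lit 638) (nat_lit 618) (nat_lit 304)))) (XT.nd (nat_lit 156) (nat_lit 1824) (nat_lit 0) (XT.nd (nat_lit 78) (nat_lit 0) (nat_lit 0) (XT.lf (nat_lit 76) (nat_lit 11446565507) (nat_lit 0) (nat_lit 18674650680) (nat_lit 1900) (nat_lit 4988751462) (nat_lit 482) (nat_lit 5) (nat_lit 481) (nat_lit 5) (nat_lit 506) (nat_lit 5) (nat_lit 639) (nat_lit 618) (nat_lit 303)) (XT.lf (nat_lit 76) (nat_lit 30397316445) (nat_lit 0) (nat_lit 2517016629)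 (nat_lit 1900) (nat_lit 2570096616) (nat_lit 482) (nat_lit 5) (nat_lit 481) (nat_lit 5) (nat_lit 506) (nat_lit 5) (nat_lit 640) (nat_lit 618) (nat_lit 302))) (XT.nd (nat_lit 78) (nat_lit 0) (nat_lit 0) (XT.lf (nat_lit 0) (nat_lit 79262323) (nat_lit 1900) (nat_lit 21911503445) (nat_lit 1976) (nat_lit 13872009088) (nat_lit 457) (nat_lit 5) (nat_lit 482) (nat_lit 5) (nat_lit 483) (nat_lit 5) (nat_lit 641) (nat_lit 618) (nat_lit 301)) (XT.lf (nat_lit 0) (nat_lit 2796812666) (nat_lit 1900) (nat_lit 2843766607) (nat_lit 1976) (nat_lit 30606775612) (nat_lit 457) (nat_lit 5) (nat_lit 482) (nat_lit 5) (nat_lit 483) (nat_lit 5) (nat_lit 642) (nat_lit 618) (nat_lit 300))))) (XT.nd (nat_lit 312) (nat_lit 1748) (nat_lit 0) (XT.nd (nat_lit 156) (nat_lit 1976) (nat_lit 0) (XT.nd (nat_lit 78) (nat_lit 0) (nat_lit 0) (XT.lf (nat_lit 0) (nat_lit 5748915224) (nat_lit 1900) (nat_lit 19885070736) (nat_lit 76) (nat_lit 11002036611) (nat_lit 458) (nat_lit 5) (nat_lit 483) (nat_lit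 5) (nat_lit 459) (nat_lit 5) (nat_lit 643) (nat_lit 618) (nat_lit 299)) (XT.lf (nat_lit 0) (nat_lit 8815227321) (nat_lit 1900) (nat_lit 294675650) (nat_lit 76) (nat_lit 27921457372) (nat_lit 458) (nat_lit 5) (nat_lit 483) (nat_lit 5) (nat_lit 459) (nat_lit 5) (nat_lit 644) (nat_lit 618) (nat_lit 298))) (XT.nd (nat_lit 78) (nat_lit 912) (nat_lit 0) (XT.lf (nat_lit 0) (nat_lit 12122153751) (nat_lit 1140) (nat_lit 17535237194) (nat_lit 76) (nat_lit 7773628239) (nat_lit 444) (nat_lit 5) (nat_lit 459) (nat_lit 5) (nat_lit 445) (nat_lit 5) (nat_lit 645) (nat_lit 618) (nat_lit 297)) (XT.lf (nat_lit 0) (nat_lit 2628317486) (nat_lit 912) (nat_lit 12944937637) (nat_lit 988) (nat_lit 22263855429) (nat_lit 432) (nat_lit 5) (nat_lit 444) (nat_lit 5) (nat_lit 445) (nat_lit 5) (nat_lit 646) (nat_lit 618) (nat_lit 296)))) (XT.nd (nat_lit 156) (nat_lit 836) (nat_lit 0) (XT.nd (nat_lit 78) (nat_lit 912) (nat_lit 0) (XT.lf (nat_lit 0) (nat_lit 19237129814) (nat_lit 988) (nat_lit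 14844783718) (nat_lit 76) (nat_lit 4166535264) (nat_lit 432) (nat_lit 5) (nat_lit 445) (nat_lit 5) (nat_lit 433) (nat_lit 5) (nat_lit 647) (nat_lit 618) (nat_lit 295)) (XT.lf (nat_lit 0) (nat_lit 5917166033) (nat_lit 912) (nat_lit 17179958243) (nat_lit 988) (nat_lit 15568432758) (nat_lit 420) (nat_lit 5) (nat_lit 432) (nat_lit 5) (nat_lit 433) (nat_lit 5) (nat_lit 648) (nat_lit 618) (nat_lit 294))) (XT.nd (nat_lit 78) (nat_lit 836) (nat_lit 0) (XT.lf (nat_lit 0) (nat_lit 27133698718) (nat_lit 988) (nat_lit 11795719602) (nat_lit 76) (nat_lit 159601585) (nat_lit 420) (nat_lit 5) (nat_lit 433) (nat_lit 5) (nat_lit 421) (nat_lit 5) (nat_lit 649) (nat_lit 618) (nat_lit 293)) (XT.lf (nat_lit 0) (nat_lit 9586752137) (nat_lit 836) (nat_lit 21839010107) (nat_lit 912) (nat_lit 8091694710) (nat_lit 409) (nat_lit 5) (nat_lit 420) (nat_lit 5) (nat_lit 421) (nat_lit 5) (nat_lit 650) (nat_lit 618) (nat_lit 292))))))))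
noncomputable def xc238 : XT := (XT.nd (nat_lit 79326) (nat_lit 0) (nat_lit 6612) (XT.nd (nat_lit 1092) (nat_lit 2052) (nat_lit 0) (XT.nd (nat_lit 546) (nat_lit 2964) (nat_lit 0) (XT.nd (nat_lit 234) (nat_lit 2432) (nat_lit 0) (XT.nd (nat_lit 78) (nat_lit 912) (nat_lit 0) (XT.lf (nat_lit 0) (nat_lit 31555564854) (nat_lit 836) (nat_lit 4326014068) (nat_lit 912) (nat_lit 4071325654) (nat_lit 409) (nat_lit 5) (nat_lit 420) (nat_lit 5) (nat_lit 421) (nat_lit 5) (nat_lit 651) (nat_lit 618) (nat_lit 291)) (XT.nd (nat_lit 78) (nat_lit 0) (nat_lit 0) (XT.lf (nat_lit 0) (nat_lit 205567857) (nat_lit 912) (nat_lit 26738200393) (nat_lit 76) (nat_lit 13449759077) (nat_lit 397) (nat_lit 5) (nat_lit 409) (nat_lit 5) (nat_lit 398) (nat_lit 5) (nat_lit 652) (nat_lit 618) (nat_lit 290)) (XT.lf (nat_lit 0) (nat_lit 4597697143) (nat_lit 912) (nat_lit 4636157065) (nat_lit 76) (nat_lit 31606885900) (nat_lit 397) (nat_lit 5) (nat_lit 409) (nat_lit 5) (nat_lit 398) (nat_lit 5) (nat_lit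 653) (nat_lit 618) (nat_lit 289)))) (XT.nd (nat_lit 156) (nat_lit 1596) (nat_lit 0) (XT.nd (nat_lit 78) (nat_lit 0) (nat_lit 0) (XT.lf (nat_lit 0) (nat_lit 9252401463) (nat_lit 912) (nat_lit 23207966758) (nat_lit 76) (nat_lit 8833034340) (nat_lit 386) (nat_lit 5) (nat_lit 398) (nat_lit 5) (nat_lit 387) (nat_lit 5) (nat_lit 654) (nat_lit 618) (nat_lit 288)) (XT.lf (nat_lit 0) (nat_lit 14091496752) (nat_lit 912) (nat_lit 492752340) (nat_lit 76) (nat_lit 27169043295) (nat_lit 386) (nat_lit 5) (nat_lit 398) (nat_lit 5) (nat_lit 387) (nat_lit 5) (nat_lit 655) (nat_lit 618) (nat_lit 287))) (XT.nd (nat_lit 78) (nat_lit 760) (nat_lit 0) (XT.lf (nat_lit 0) (nat_lit 19200088878) (nat_lit 912) (nat_lit 19267168641) (nat_lit 76) (nat_lit 3751668256) (nat_lit 375) (nat_lit 5) (nat_lit 387) (nat_lit 5) (nat_lit 376) (nat_lit 5) (nat_lit 656) (nat_lit 618) (nat_lit 286)) (XT.lf (nat_lit 0) (nat_lit 4134453373) (nat_lit 760) (nat_lit 20402022114) (nat_lit 836) (nat_lit 18154883950)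 (nat_lit 365) (nat_lit 5) (nat_lit 375) (nat_lit 5) (nat_lit 376) (nat_lit 5) (nat_lit 657) (nat_lit 618) (nat_lit 285))))) (XT.nd (nat_lit 234) (nat_lit 2204) (nat_lit 0) (XT.nd (nat_lit 78) (nat_lit 760) (nat_lit 0) (XT.lf (nat_lit 0) (nat_lit 28264092345) (nat_lit 760) (nat_lit 1843670926) (nat_lit 836) (nat_lit 13062915092) (nat_lit 365) (nat_lit 5) (nat_lit 375) (nat_lit 5) (nat_lit 376) (nat_lit 5) (nat_lit 658) (nat_lit 618) (nat_lit 284)) (XT.nd (nat_lit 78) (nat_lit 0) (nat_lit 0) (XT.lf (nat_lit 0) (nat_lit 9225618087) (nat_lit 760) (nat_lit 26734592326) (nat_lit 836) (nat_lit 7695978640) (nat_lit 355) (nat_lit 5) (nat_lit 365) (nat_lit 5) (nat_lit 366) (nat_lit 5) (nat_lit 659) (nat_lit 618) (nat_lit 283)) (XT.lf (nat_lit 0) (nat_lit 34028979442) (nat_lit 760) (nat_lit 8011803508) (nat_lit 836) (nat_lit 2108405536) (nat_lit 355) (nat_lit 5) (nat_lit 365) (nat_lit 5) (nat_lit 366) (nat_lit 5) (nat_lit 660) (nat_lit 618) (nat_lit 282)))) (XT.nd (nat_lit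 156) (nat_lit 1444) (nat_lit 0) (XT.nd (nat_lit 78) (nat_lit 0) (nat_lit 0) (XT.lf (nat_lit 0) (nat_lit 3711913734) (nat_lit 760) (nat_lit 29875848847) (nat_lit 76) (nat_lit 11060457282) (nat_lit 345) (nat_lit 5) (nat_lit 355) (nat_lit 5) (nat_lit 346) (nat_lit 5) (nat_lit 661) (nat_lit 618) (nat_lit 281)) (XT.lf (nat_lit 0) (nat_lit 9740797130) (nat_lit 760) (nat_lit 4924541379) (nat_lit 76) (nat_lit 30489206897) (nat_lit 345) (nat_lit 5) (nat_lit 355) (nat_lit 5) (nat_lit 346) (nat_lit 5) (nat_lit 662) (nat_lit 618) (nat_lit 280))) (XT.nd (nat_lit 78) (nat_lit 684) (nat_lit 0) (XT.lf (nat_lit 0) (nat_lit 16055242738) (nat_lit 836) (nat_lit 24901912580) (nat_lit 76) (nat_lit 4710542502) (nat_lit 335) (nat_lit 5) (nat_lit 346) (nat_lit 5) (nat_lit 336) (nat_lit 5) (nat_lit 663) (nat_lit 618) (nat_lit 279)) (XT.lf (nat_lit 0) (nat_lit 757645416) (nat_lit 684) (nat_lit 21872613212) (nat_lit 760) (nat_lit 23558169080) (nat_lit 326) (nat_lit 5) (nat_lit 335) (nat_lit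 5) (nat_lit 336) (nat_lit 5) (nat_lit 664) (nat_lit 618) (nat_lit 278)))))) (XT.nd (nat_lit 77610) (nat_lit 0) (nat_lit 13072) (XT.nd (nat_lit 234) (nat_lit 1368) (nat_lit 0) (XT.nd (nat_lit 78) (nat_lit 684) (nat_lit 0) (XT.lf (nat_lit 0) (nat_lit 27266783817) (nat_lit 684) (nat_lit 2236084164) (nat_lit 760) (nat_lit 17213382399) (nat_lit 326) (nat_lit 5) (nat_lit 335) (nat_lit 5) (nat_lit 336) (nat_lit 5) (nat_lit 665) (nat_lit 618) (nat_lit 277)) (XT.nd (nat_lit 78) (nat_lit 0) (nat_lit 0) (XT.lf (nat_lit 0) (nat_lit 7026951249) (nat_lit 684) (nat_lit 29646134084) (nat_lit 760) (nat_lit 10578341106) (nat_lit 317) (nat_lit 5) (nat_lit 326) (nat_lit 5) (nat_lit 327) (nat_lit 5) (nat_lit 666) (nat_lit 618) (nat_lit 276)) (XT.lf (nat_lit 0) (nat_lit 34280383517) (nat_lit 684) (nat_lit 9850569831) (nat_lit 760) (nat_lit 3663467794) (nat_lit 317) (nat_lit 5) (nat_lit 326) (nat_lit 5) (nat_lit 327) (nat_lit 5) (nat_lit 667) (nat_lit 618) (nat_lit 275)))) (XT.nd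 (nat_lit 156) (nat_lit 684) (nat_lit 0) (XT.nd (nat_lit 78) (nat_lit 0) (nat_lit 0) (XT.lf (nat_lit 0) (nat_lit 3502340833) (nat_lit 684) (nat_lit 34524309410) (nat_lit 76) (nat_lit 10318043491) (nat_lit 308) (nat_lit 5) (nat_lit 317) (nat_lit 5) (nat_lit 309) (nat_lit 5) (nat_lit 668) (nat_lit 618) (nat_lit 274)) (XT.lf (nat_lit 0) (nat_lit 10918022455) (nat_lit 684) (nat_lit 7110726600) (nat_lit 76) (nat_lit 30873626245) (nat_lit 308) (nat_lit 5) (nat_lit 317) (nat_lit 5) (nat_lit 309) (nat_lit 5) (nat_lit 669) (nat_lit 618) (nat_lit 273))) (XT.nd (nat_lit 78) (nat_lit 0) (nat_lit 0) (XT.lf (nat_lit 0) (nat_lit 18634538907) (nat_lit 760) (nat_lit 28357691041) (nat_lit 76) (nat_lit 2475930169) (nat_lit 299) (nat_lit 5) (nat_lit 309) (nat_lit 5) (nat_lit 300) (nat_lit 5) (nat_lit 670) (nat_lit 618) (nat_lit 272)) (XT.lf (nat_lit 0) (nat_lit 26671885103) (nat_lit 760) (nat_lit 172680959) (nat_lit 76) (nat_lit 23197364626) (nat_lit 299) (nat_lit 5) (nat_lit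 309) (nat_lit 5) (nat_lit 300) (nat_lit 5) (nat_lit 671) (nat_lit 618) (nat_lit 271))))) (XT.nd (nat_lit 312) (nat_lit 0) (nat_lit 152) (XT.nd (nat_lit 156) (nat_lit 0) (nat_lit 76) (XT.nd (nat_lit 78) (nat_lit 0) (nat_lit 0) (XT.lf (nat_lit 0) (nat_lit 1564162655) (nat_lit 1900) (nat_lit 6442253489) (nat_lit 1900) (nat_lit 6442253489) (nat_lit 471) (nat_lit 3) (nat_lit 496) (nat_lit 3) (nat_lit 496) (nat_lit 5) (nat_lit 619) (nat_lit 619) (nat_lit 322)) (XT.lf (nat_lit 76) (nat_lit 1467261953) (nat_lit 0) (nat_lit 1780948116) (nat_lit 1900) (nat_lit 25936325767) (nat_lit 472) (nat_lit 5) (nat_lit 471) (nat_lit 3) (nat_lit 496) (nat_lit 5) (nat_lit 620) (nat_lit 619) (nat_lit 321))) (XT.nd (nat_lit 78) (nat_lit 0) (nat_lit 0) (XT.lf (nat_lit 0) (nat_lit 3538140159) (nat_lit 1824) (nat_lit 13279408585) (nat_lit 1900) (nat_lit 12656574764) (nat_lit 472) (nat_lit 5) (nat_lit 496) (nat_lit 5) (nat_lit 497) (nat_lit 5) (nat_lit 621) (nat_lit 619) (nat_lit 320))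 (XT.lf (nat_lit 76) (nat_lit 1453382754) (nat_lit 0) (nat_lit 2399682881) (nat_lit 1900) (nat_lit 25916053484) (nat_lit 473) (nat_lit 5) (nat_lit 472) (nat_lit 5) (nat_lit 497) (nat_lit 5) (nat_lit 622) (nat_lit 619) (nat_lit 319)))) (XT.nd (nat_lit 156) (nat_lit 0) (nat_lit 76) (XT.nd (nat_lit 78) (nat_lit 0) (nat_lit 0) (XT.lf (nat_lit 0) (nat_lit 4341898618) (nat_lit 1824) (nat_lit 13489026084) (nat_lit 1900) (nat_lit 12235737883) (nat_lit 473) (nat_lit 5) (nat_lit 497) (nat_lit 5) (nat_lit 498) (nat_lit 5) (nat_lit 623) (nat_lit 619) (nat_lit 318)) (XT.lf (nat_lit 76) (nat_lit 1638703543) (nat_lit 0) (nat_lit 3226380137) (nat_lit 1900) (nat_lit 25504581851) (nat_lit 474) (nat_lit 5) (nat_lit 473) (nat_lit 5) (nat_lit 498) (nat_lit 5) (nat_lit 624) (nat_lit 619) (nat_lit 317))) (XT.nd (nat_lit 78) (nat_lit 0) (nat_lit 0) (XT.lf (nat_lit 0) (nat_lit 5563701806) (nat_lit 1824) (nat_lit 13502605002) (nat_lit 1900) (nat_lit 11609122455) (nat_lit 474) (nat_lit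 5) (nat_lit 498) (nat_lit 5) (nat_lit 499) (nat_lit 5) (nat_lit 625) (nat_lit 619) (nat_lit 316)) (XT.lf (nat_lit 76) (nat_lit 2034506463) (nat_lit 0) (nat_lit 4274479992) (nat_lit 1900) (nat_lit 24677668046) (nat_lit 475) (nat_lit 5) (nat_lit 474) (nat_lit 5) (nat_lit 499) (nat_lit 5) (nat_lit 626) (nat_lit 619) (nat_lit 315))))))) (XT.nd (nat_lit 1170) (nat_lit 6764) (nat_lit 0) (XT.nd (nat_lit 546) (nat_lit 0) (nat_lit 228) (XT.nd (nat_lit 234) (nat_lit 0) (nat_lit 76) (XT.nd (nat_lit 78) (nat_lit 0) (nat_lit 0) (XT.lf (nat_lit 0) (nat_lit 7228745213) (nat_lit 1824) (nat_lit 13308870254) (nat_lit 1900) (nat_lit 10763297521) (nat_lit 475) (nat_lit 5) (nat_lit 499) (nat_lit 5) (nat_lit 500) (nat_lit 5) (nat_lit 627) (nat_lit 619) (nat_lit 314)) (XT.nd (nat_lit 78) (nat_lit 0) (nat_lit 76) (XT.lf (nat_lit 76) (nat_lit 2652614294) (nat_lit 0) (nat_lit 5558003829) (nat_lit 1900) (nat_lit 23409964250) (nat_lit 476) (nat_lit 5) (nat_lit 475) (nat_lit 5) (nat_lit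 500) (nat_lit 5) (nat_lit 628) (nat_lit 619) (nat_lit 313)) (XT.lf (nat_lit 0) (nat_lit 9363366966) (nat_lit 1824) (nat_lit 12896006098) (nat_lit 1900) (nat_lit 9684247422) (nat_lit 476) (nat_lit 5) (nat_lit 500) (nat_lit 5) (nat_lit 501) (nat_lit 5) (nat_lit 629) (nat_lit 619) (nat_lit 312)))) (XT.nd (nat_lit 156) (nat_lit 0) (nat_lit 76) (XT.nd (nat_lit 78) (nat_lit 0) (nat_lit 76) (XT.lf (nat_lit 76) (nat_lit 3505411269) (nat_lit 0) (nat_lit 7091582840) (nat_lit 1900) (nat_lit 21674968889) (nat_lit 477) (nat_lit 5) (nat_lit 476) (nat_lit 5) (nat_lit 501) (nat_lit 5) (nat_lit 630) (nat_lit 619) (nat_lit 311)) (XT.lf (nat_lit 0) (nat_lit 11995097984) (nat_lit 1824) (nat_lit 12251635227) (nat_lit 1900) (nat_lit 8357343169) (nat_lit 477) (nat_lit 5) (nat_lit 501) (nat_lit 5) (nat_lit 502) (nat_lit 5) (nat_lit 631) (nat_lit 619) (nat_lit 310))) (XT.nd (nat_lit 78) (nat_lit 0) (nat_lit 76) (XT.lf (nat_lit 76) (nat_lit 4605864776) (nat_lit 0) (nat_lit 8890487625)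 (nat_lit 1900) (nat_lit 19444975962) (nat_lit 478) (nat_lit 5) (nat_lit 477) (nat_lit 5) (nat_lit 502) (nat_lit 5) (nat_lit 632) (nat_lit 619) (nat_lit 309)) (XT.lf (nat_lit 0) (nat_lit 15152714108) (nat_lit 1824) (nat_lit 11362796985) (nat_lit 1900) (nat_lit 6767312747) (nat_lit 478) (nat_lit 5) (nat_lit 502) (nat_lit 5) (nat_lit 503) (nat_lit 5) (nat_lit 633) (nat_lit 619) (nat_lit 308))))) (XT.nd (nat_lit 312) (nat_lit 0) (nat_lit 152) (XT.nd (nat_lit 156) (nat_lit 0) (nat_lit 76) (XT.nd (nat_lit 78) (nat_lit 0) (nat_lit 76) (XT.lf (nat_lit 76) (nat_lit 5967547973) (nat_lit 0) (nat_lit 10970658897) (nat_lit 1900) (nat_lit 16691022377) (nat_lit 479) (nat_lit 5) (nat_lit 478) (nat_lit 5) (nat_lit 503) (nat_lit 5) (nat_lit 634) (nat_lit 619) (nat_lit 307)) (XT.lf (nat_lit 0) (nat_lit 18866290285) (nat_lit 1824) (nat_lit 10215924664) (nat_lit 1900) (nat_lit 4898210292) (nat_lit 479) (nat_lit 5) (nat_lit 503) (nat_lit 5) (nat_lit 504) (nat_lit 5) (nat_lit 635)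 (nat_lit 619) (nat_lit 306))) (XT.nd (nat_lit 78) (nat_lit 0) (nat_lit 76) (XT.lf (nat_lit 76) (nat_lit 7604663346) (nat_lit 0) (nat_lit 13348739355) (nat_lit 1900) (nat_lit 13382833202) (nat_lit 480) (nat_lit 5) (nat_lit 479) (nat_lit 5) (nat_lit 504) (nat_lit 5) (nat_lit 636) (nat_lit 619) (nat_lit 305)) (XT.lf (nat_lit 0) (nat_lit 23167256904) (nat_lit 1824) (nat_lit 8796821873) (nat_lit 1900) (nat_lit 2733384101) (nat_lit 480) (nat_lit 5) (nat_lit 504) (nat_lit 5) (nat_lit 505) (nat_lit 5) (nat_lit 637) (nat_lit 619) (nat_lit 304)))) (XT.nd (nat_lit 156) (nat_lit 0) (nat_lit 76) (XT.nd (nat_lit 78) (nat_lit 0) (nat_lit 76) (XT.lf (nat_lit 76) (nat_lit 9532067225) (nat_lit 0) (nat_lit 16042106787) (nat_lit 1900) (nat_lit 9488764755) (nat_lit 481) (nat_lit 5) (nat_lit 480) (nat_lit 5) (nat_lit 505) (nat_lit 5) (nat_lit 638) (nat_lit 619) (nat_lit 303)) (XT.lf (nat_lit 0) (nat_lit 28088458355) (nat_lit 1824) (nat_lit 7090637937) (nat_lit 1900) (nat_lit 255443391)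 (nat_lit 481) (nat_lit 5) (nat_lit 505) (nat_lit 5) (nat_lit 506) (nat_lit 5) (nat_lit 639) (nat_lit 619) (nat_lit 302))) (XT.nd (nat_lit 78) (nat_lit 0) (nat_lit 0) (XT.lf (nat_lit 76) (nat_lit 11765295312) (nat_lit 0) (nat_lit 19068908454) (nat_lit 1900) (nat_lit 4975745430) (nat_lit 482) (nat_lit 5) (nat_lit 481) (nat_lit 5) (nat_lit 506) (nat_lit 5) (nat_lit 640) (nat_lit 619) (nat_lit 301)) (XT.lf (nat_lit 76) (nat_lit 31093300515) (nat_lit 0) (nat_lit 2587714569) (nat_lit 1900) (nat_lit 2510928881) (nat_lit 482) (nat_lit 5) (nat_lit 481) (nat_lit 5) (nat_lit 506) (nat_lit 5) (nat_lit 641) (nat_lit 619) (nat_lit 300)))))) (XT.nd (nat_lit 546) (nat_lit 3496) (nat_lit 0) (XT.nd (nat_lit 234) (nat_lit 1900) (nat_lit 0) (XT.nd (nat_lit 78) (nat_lit 0) (nat_lit 0) (XT.lf (nat_lit 0) (nat_lit 188283631) (nat_lit 1900) (nat_lit 22258549716) (nat_lit 1976) (nat_lit 14131042121) (nat_lit 457) (nat_lit 5) (nat_lit 482) (nat_lit 5) (nat_lit 483) (nat_lit 5) (nat_lit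 642) (nat_lit 619) (nat_lit 299)) (XT.nd (nat_lit 78) (nat_lit 0) (nat_lit 76) (XT.lf (nat_lit 0) (nat_lit 2958078391) (nat_lit 1900) (nat_lit 2811246059) (nat_lit 1976) (nat_lit 31200864900) (nat_lit 457) (nat_lit 5) (nat_lit 482) (nat_lit 5) (nat_lit 483) (nat_lit 5) (nat_lit 643) (nat_lit 619) (nat_lit 298)) (XT.lf (nat_lit 0) (nat_lit 5967636712) (nat_lit 1900) (nat_lit 20191784057) (nat_lit 76) (nat_lit 11207241467) (nat_lit 458) (nat_lit 5) (nat_lit 483) (nat_lit 5) (nat_lit 459) (nat_lit 5) (nat_lit 644) (nat_lit 619) (nat_lit 297)))) (XT.nd (nat_lit 156) (nat_lit 912) (nat_lit 0) (XT.nd (nat_lit 78) (nat_lit 1064) (nat_lit 0) (XT.lf (nat_lit 0) (nat_lit 9093240870) (nat_lit 1900) (nat_lit 211365149) (nat_lit 76) (nat_lit 28465341542) (nat_lit 458) (nat_lit 5) (nat_lit 483) (nat_lit 5) (nat_lit 459) (nat_lit 5) (nat_lit 645) (nat_lit 619) (nat_lit 296)) (XT.lf (nat_lit 0) (nat_lit 12464811108) (nat_lit 1140) (nat_lit 17795237509) (nat_lit 76) (nat_lit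 7917580972) (nat_lit 444) (nat_lit 5) (nat_lit 459) (nat_lit 5) (nat_lit 445) (nat_lit 5) (nat_lit 646) (nat_lit 619) (nat_lit 295))) (XT.nd (nat_lit 78) (nat_lit 0) (nat_lit 0) (XT.lf (nat_lit 0) (nat_lit 2770991525) (nat_lit 912) (nat_lit 13212563034) (nat_lit 988) (nat_lit 22608315934) (nat_lit 432) (nat_lit 5) (nat_lit 444) (nat_lit 5) (nat_lit 445) (nat_lit 5) (nat_lit 647) (nat_lit 619) (nat_lit 294)) (XT.lf (nat_lit 0) (nat_lit 19718713268) (nat_lit 988) (nat_lit 15051339570) (nat_lit 76) (nat_lit 4241422643) (nat_lit 432) (nat_lit 5) (nat_lit 445) (nat_lit 5) (nat_lit 433) (nat_lit 5) (nat_lit 648) (nat_lit 619) (nat_lit 293))))) (XT.nd (nat_lit 312) (nat_lit 1748) (nat_lit 0) (XT.nd (nat_lit 156) (nat_lit 836) (nat_lit 0) (XT.nd (nat_lit 78) (nat_lit 0) (nat_lit 0) (XT.lf (nat_lit 0) (nat_lit 6125254834) (nat_lit 912) (nat_lit 17529336631) (nat_lit 988) (nat_lit 15782360848) (nat_lit 420) (nat_lit 5) (nat_lit 432) (nat_lit 5) (nat_lit 433) (nat_lit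 5) (nat_lit 649) (nat_lit 619) (nat_lit 292)) (XT.lf (nat_lit 0) (nat_lit 27769987577) (nat_lit 988) (nat_lit 11941733148) (nat_lit 76) (nat_lit 157202021) (nat_lit 420) (nat_lit 5) (nat_lit 433) (nat_lit 5) (nat_lit 421) (nat_lit 5) (nat_lit 650) (nat_lit 619) (nat_lit 291))) (XT.nd (nat_lit 78) (nat_lit 0) (nat_lit 0) (XT.lf (nat_lit 0) (nat_lit 9867796574) (nat_lit 836) (nat_lit 22278840070) (nat_lit 912) (nat_lit 8159317109) (nat_lit 409) (nat_lit 5) (nat_lit 420) (nat_lit 5) (nat_lit 421) (nat_lit 5) (nat_lit 651) (nat_lit 619) (nat_lit 290)) (XT.lf (nat_lit 0) (nat_lit 32274234380) (nat_lit 836) (nat_lit 4415524311) (nat_lit 912) (nat_lit 4060387957) (nat_lit 409) (nat_lit 5) (nat_lit 420) (nat_lit 5) (nat_lit 421) (nat_lit 5) (nat_lit 652) (nat_lit 619) (nat_lit 289)))) (XT.nd (nat_lit 156) (nat_lit 836) (nat_lit 0) (XT.nd (nat_lit 78) (nat_lit 0) (nat_lit 0) (XT.lf (nat_lit 0) (nat_lit 299605986) (nat_lit 912) (nat_lit 27182958915) (nat_lit 76) (nat_lit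 13717029577) (nat_lit 397) (nat_lit 5) (nat_lit 409) (nat_lit 5) (nat_lit 398) (nat_lit 5) (nat_lit 653) (nat_lit 619) (nat_lit 288)) (XT.lf (nat_lit 0) (nat_lit 4777814588) (nat_lit 912) (nat_lit 4640639534) (nat_lit 76) (nat_lit 32237332754) (nat_lit 397) (nat_lit 5) (nat_lit 409) (nat_lit 5) (nat_lit 398) (nat_lit 5) (nat_lit 654) (nat_lit 619) (nat_lit 287))) (XT.nd (nat_lit 78) (nat_lit 0) (nat_lit 0) (XT.lf (nat_lit 0) (nat_lit 9524457707) (nat_lit 912) (nat_lit 23582725462) (nat_lit 76) (nat_lit 9010342608) (nat_lit 386) (nat_lit 5) (nat_lit 398) (nat_lit 5) (nat_lit 387) (nat_lit 5) (nat_lit 655) (nat_lit 619) (nat_lit 286)) (XT.lf (nat_lit 0) (nat_lit 14458628858) (nat_lit 912) (nat_lit 414959709) (nat_lit 76) (nat_lit 27713059046) (nat_lit 386) (nat_lit 5) (nat_lit 398) (nat_lit 5) (nat_lit 387) (nat_lit 5) (nat_lit 656) (nat_lit 619) (nat_lit 285))))))))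
noncomputable def xc239 : XT := (XT.nd (nat_lit 79404) (nat_lit 0) (nat_lit 3496) (XT.nd (nat_lit 1092) (nat_lit 684) (nat_lit 0) (XT.nd (nat_lit 546) (nat_lit 2812) (nat_lit 0) (XT.nd (nat_lit 234) (nat_lit 1520) (nat_lit 0) (XT.nd (nat_lit 78) (nat_lit 760) (nat_lit 0) (XT.lf (nat_lit 0) (nat_lit 19668304231) (nat_lit 912) (nat_lit 19563771251) (nat_lit 76) (nat_lit 3829540047) (nat_lit 375) (nat_lit 5) (nat_lit 387) (nat_lit 5) (nat_lit 376) (nat_lit 5) (nat_lit 657) (nat_lit 619) (nat_lit 284)) (XT.nd (nat_lit 78) (nat_lit 0) (nat_lit 0) (XT.lf (nat_lit 0) (nat_lit 4305299382) (nat_lit 760) (nat_lit 20805040317) (nat_lit 836) (nat_lit 18433179830) (nat_lit 365) (nat_lit 5) (nat_lit 375) (nat_lit 5) (nat_lit 376) (nat_lit 5) (nat_lit 658) (nat_lit 619) (nat_lit 283)) (XT.lf (nat_lit 0) (nat_lit 28915802566) (nat_lit 760) (nat_lit 1875620581) (nat_lit 836) (nat_lit 13241034376) (nat_lit 365) (nat_lit 5) (nat_lit 375) (nat_lit 5) (nat_lit 376) (nat_lit 5)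 (nat_lit 659) (nat_lit 619) (nat_lit 282)))) (XT.nd (nat_lit 156) (nat_lit 760) (nat_lit 0) (XT.nd (nat_lit 78) (nat_lit 0) (nat_lit 0) (XT.lf (nat_lit 0) (nat_lit 9497582113) (nat_lit 760) (nat_lit 27262338125) (nat_lit 836) (nat_lit 7767778253) (nat_lit 355) (nat_lit 5) (nat_lit 365) (nat_lit 5) (nat_lit 366) (nat_lit 5) (nat_lit 660) (nat_lit 619) (nat_lit 281)) (XT.lf (nat_lit 0) (nat_lit 34795295956) (nat_lit 760) (nat_lit 8165229727) (nat_lit 836) (nat_lit 2070063882) (nat_lit 355) (nat_lit 5) (nat_lit 365) (nat_lit 5) (nat_lit 366) (nat_lit 5) (nat_lit 661) (nat_lit 619) (nat_lit 280))) (XT.nd (nat_lit 78) (nat_lit 0) (nat_lit 0) (XT.lf (nat_lit 0) (nat_lit 3864658238) (nat_lit 760) (nat_lit 30385617310) (nat_lit 76) (nat_lit 11289334601) (nat_lit 345) (nat_lit 5) (nat_lit 355) (nat_lit 5) (nat_lit 346) (nat_lit 5) (nat_lit 662) (nat_lit 619) (nat_lit 279)) (XT.lf (nat_lit 0) (nat_lit 10012579964) (nat_lit 760) (nat_lit 4937004252) (nat_lit 76) (nat_lit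 31106508851) (nat_lit 345) (nat_lit 5) (nat_lit 355) (nat_lit 5) (nat_lit 346) (nat_lit 5) (nat_lit 663) (nat_lit 619) (nat_lit 278))))) (XT.nd (nat_lit 234) (nat_lit 1368) (nat_lit 0) (XT.nd (nat_lit 78) (nat_lit 684) (nat_lit 0) (XT.lf (nat_lit 0) (nat_lit 16452421557) (nat_lit 836) (nat_lit 25313026117) (nat_lit 76) (nat_lit 4814078791) (nat_lit 335) (nat_lit 5) (nat_lit 346) (nat_lit 5) (nat_lit 336) (nat_lit 5) (nat_lit 664) (nat_lit 619) (nat_lit 277)) (XT.nd (nat_lit 78) (nat_lit 0) (nat_lit 0) (XT.lf (nat_lit 0) (nat_lit 859151165) (nat_lit 684) (nat_lit 22298855613) (nat_lit 760) (nat_lit 23952682867) (nat_lit 326) (nat_lit 5) (nat_lit 335) (nat_lit 5) (nat_lit 336) (nat_lit 5) (nat_lit 665) (nat_lit 619) (nat_lit 276)) (XT.lf (nat_lit 0) (nat_lit 27896779142) (nat_lit 684) (nat_lit 2269815785) (nat_lit 760) (nat_lit 17482503385) (nat_lit 326) (nat_lit 5) (nat_lit 335) (nat_lit 5) (nat_lit 336) (nat_lit 5) (nat_lit 666) (nat_lit 619) (nat_lit 275))))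 (XT.nd (nat_lit 156) (nat_lit 684) (nat_lit 0) (XT.nd (nat_lit 78) (nat_lit 0) (nat_lit 0) (XT.lf (nat_lit 0) (nat_lit 7252989423) (nat_lit 684) (nat_lit 30226407774) (nat_lit 760) (nat_lit 10715597157) (nat_lit 317) (nat_lit 5) (nat_lit 326) (nat_lit 5) (nat_lit 327) (nat_lit 5) (nat_lit 667) (nat_lit 619) (nat_lit 274)) (XT.lf (nat_lit 0) (nat_lit 35049813883) (nat_lit 684) (nat_lit 10035180256) (nat_lit 760) (nat_lit 3663883452) (nat_lit 317) (nat_lit 5) (nat_lit 326) (nat_lit 5) (nat_lit 327) (nat_lit 5) (nat_lit 668) (nat_lit 619) (nat_lit 273))) (XT.nd (nat_lit 78) (nat_lit 0) (nat_lit 0) (XT.lf (nat_lit 0) (nat_lit 3643508555) (nat_lit 684) (nat_lit 35129233238) (nat_lit 76) (nat_lit 10537419994) (nat_lit 308) (nat_lit 5) (nat_lit 317) (nat_lit 5) (nat_lit 309) (nat_lit 5) (nat_lit 669) (nat_lit 619) (nat_lit 272)) (XT.lf (nat_lit 0) (nat_lit 11206109283) (nat_lit 684) (nat_lit 7169056465) (nat_lit 76) (nat_lit 31503859194) (nat_lit 308) (nat_lit 5)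 (nat_lit 317) (nat_lit 5) (nat_lit 309) (nat_lit 5) (nat_lit 670) (nat_lit 619) (nat_lit 271)))))) (XT.nd (nat_lit 77688) (nat_lit 0) (nat_lit 13300) (XT.nd (nat_lit 77376) (nat_lit 0) (nat_lit 13148) (XT.nd (nat_lit 77220) (nat_lit 0) (nat_lit 13072) (XT.lf (nat_lit 0) (nat_lit 19076223637) (nat_lit 760) (nat_lit 28840224498) (nat_lit 76) (nat_lit 2539692035) (nat_lit 299) (nat_lit 5) (nat_lit 309) (nat_lit 5) (nat_lit 300) (nat_lit 5) (nat_lit 671) (nat_lit 619) (nat_lit 270)) (XT.nd (nat_lit 78) (nat_lit 0) (nat_lit 0) (XT.lf (nat_lit 0) (nat_lit 1674007568) (nat_lit 1900) (nat_lit 6531029730) (nat_lit 1900) (nat_lit 6531029730) (nat_lit 471) (nat_lit 3) (nat_lit 496) (nat_lit 3) (nat_lit 496) (nat_lit 5) (nat_lit 620) (nat_lit 620) (nat_lit 320)) (XT.lf (nat_lit 76) (nat_lit 1576217629) (nat_lit 0) (nat_lit 1891515996) (nat_lit 1900) (nat_lit 26297392398) (nat_lit 472) (nat_lit 5) (nat_lit 471) (nat_lit 3) (nat_lit 496) (nat_lit 5) (nat_lit 621) (nat_lit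 620) (nat_lit 319)))) (XT.nd (nat_lit 156) (nat_lit 0) (nat_lit 76) (XT.nd (nat_lit 78) (nat_lit 0) (nat_lit 0) (XT.lf (nat_lit 0) (nat_lit 3759954665) (nat_lit 1824) (nat_lit 13463430498) (nat_lit 1900) (nat_lit 12837190622) (nat_lit 472) (nat_lit 5) (nat_lit 496) (nat_lit 5) (nat_lit 497) (nat_lit 5) (nat_lit 622) (nat_lit 620) (nat_lit 318)) (XT.lf (nat_lit 76) (nat_lit 1563480048) (nat_lit 0) (nat_lit 2515262903) (nat_lit 1900) (nat_lit 26282777251) (nat_lit 473) (nat_lit 5) (nat_lit 472) (nat_lit 5) (nat_lit 497) (nat_lit 5) (nat_lit 623) (nat_lit 620) (nat_lit 317))) (XT.nd (nat_lit 78) (nat_lit 0) (nat_lit 0) (XT.lf (nat_lit 0) (nat_lit 4574008343) (nat_lit 1824) (nat_lit 13676012729) (nat_lit 1900) (nat_lit 12415060526) (nat_lit 473) (nat_lit 5) (nat_lit 497) (nat_lit 5) (nat_lit 498) (nat_lit 5) (nat_lit 624) (nat_lit 620) (nat_lit 316)) (XT.lf (nat_lit 76) (nat_lit 1753726793) (nat_lit 0) (nat_lit 3351615862) (nat_lit 1900) (nat_lit 25868848408)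 (nat_lit 474) (nat_lit 5) (nat_lit 473) (nat_lit 5) (nat_lit 498) (nat_lit 5) (nat_lit 625) (nat_lit 620) (nat_lit 315))))) (XT.nd (nat_lit 312) (nat_lit 0) (nat_lit 152) (XT.nd (nat_lit 156) (nat_lit 0) (nat_lit 76) (XT.nd (nat_lit 78) (nat_lit 0) (nat_lit 0) (XT.lf (nat_lit 0) (nat_lit 5814743632) (nat_lit 1824) (nat_lit 13688822676) (nat_lit 1900) (nat_lit 11782567723) (nat_lit 474) (nat_lit 5) (nat_lit 498) (nat_lit 5) (nat_lit 499) (nat_lit 5) (nat_lit 626) (nat_lit 620) (nat_lit 314)) (XT.lf (nat_lit 76) (nat_lit 2158479475) (nat_lit 0) (nat_lit 4414254681) (nat_lit 1900) (nat_lit 25030893779) (nat_lit 475) (nat_lit 5) (nat_lit 474) (nat_lit 5) (nat_lit 499) (nat_lit 5) (nat_lit 627) (nat_lit 620) (nat_lit 313))) (XT.nd (nat_lit 78) (nat_lit 0) (nat_lit 0) (XT.lf (nat_lit 0) (nat_lit 7507845134) (nat_lit 1824) (nat_lit 13490346685) (nat_lit 1900) (nat_lit 10926040795) (nat_lit 475) (nat_lit 5) (nat_lit 499) (nat_lit 5) (nat_lit 500) (nat_lit 5) (nat_lit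 628) (nat_lit 620) (nat_lit 312)) (XT.lf (nat_lit 76) (nat_lit 2789810310) (nat_lit 0) (nat_lit 5717453764) (nat_lit 1900) (nat_lit 23743073301) (nat_lit 476) (nat_lit 5) (nat_lit 475) (nat_lit 5) (nat_lit 500) (nat_lit 5) (nat_lit 629) (nat_lit 620) (nat_lit 311)))) (XT.nd (nat_lit 156) (nat_lit 0) (nat_lit 76) (XT.nd (nat_lit 78) (nat_lit 0) (nat_lit 0) (XT.lf (nat_lit 0) (nat_lit 9680163775) (nat_lit 1824) (nat_lit 13068520430) (nat_lit 1900) (nat_lit 9831210284) (nat_lit 476) (nat_lit 5) (nat_lit 500) (nat_lit 5) (nat_lit 501) (nat_lit 5) (nat_lit 630) (nat_lit 620) (nat_lit 310)) (XT.lf (nat_lit 76) (nat_lit 3660363404) (nat_lit 0) (nat_lit 7276111127) (nat_lit 1900) (nat_lit 21978369253) (nat_lit 477) (nat_lit 5) (nat_lit 476) (nat_lit 5) (nat_lit 501) (nat_lit 5) (nat_lit 631) (nat_lit 620) (nat_lit 309))) (XT.nd (nat_lit 78) (nat_lit 0) (nat_lit 0) (XT.lf (nat_lit 0) (nat_lit 12359767909) (nat_lit 1824) (nat_lit 12410707541) (nat_lit 1900) (nat_lit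 8483179586) (nat_lit 477) (nat_lit 5) (nat_lit 501) (nat_lit 5) (nat_lit 502) (nat_lit 5) (nat_lit 632) (nat_lit 620) (nat_lit 308)) (XT.lf (nat_lit 76) (nat_lit 4783376933) (nat_lit 0) (nat_lit 9105778490) (nat_lit 1900) (nat_lit 19708534621) (nat_lit 478) (nat_lit 5) (nat_lit 477) (nat_lit 5) (nat_lit 502) (nat_lit 5) (nat_lit 633) (nat_lit 620) (nat_lit 307))))))) (XT.nd (nat_lit 1170) (nat_lit 6612) (nat_lit 0) (XT.nd (nat_lit 546) (nat_lit 3496) (nat_lit 0) (XT.nd (nat_lit 234) (nat_lit 0) (nat_lit 76) (XT.nd (nat_lit 78) (nat_lit 0) (nat_lit 0) (XT.lf (nat_lit 0) (nat_lit 15575996451) (nat_lit 1824) (nat_lit 11503677336) (nat_lit 1900) (nat_lit 6866394746) (nat_lit 478) (nat_lit 5) (nat_lit 502) (nat_lit 5) (nat_lit 503) (nat_lit 5) (nat_lit 634) (nat_lit 620) (nat_lit 306)) (XT.nd (nat_lit 78) (nat_lit 0) (nat_lit 76) (XT.lf (nat_lit 76) (nat_lit 6172706261) (nat_lit 0) (nat_lit 11222692513) (nat_lit 1900) (nat_lit 16904039423) (nat_lit 479) (nat_lit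 5) (nat_lit 478) (nat_lit 5) (nat_lit 503) (nat_lit 5) (nat_lit 635) (nat_lit 620) (nat_lit 305)) (XT.lf (nat_lit 0) (nat_lit 19359514103) (nat_lit 1824) (nat_lit 10333581630) (nat_lit 1900) (nat_lit 4964613111) (nat_lit 479) (nat_lit 5) (nat_lit 503) (nat_lit 5) (nat_lit 504) (nat_lit 5) (nat_lit 636) (nat_lit 620) (nat_lit 304)))) (XT.nd (nat_lit 156) (nat_lit 0) (nat_lit 76) (XT.nd (nat_lit 78) (nat_lit 0) (nat_lit 76) (XT.lf (nat_lit 76) (nat_lit 7842847998) (nat_lit 0) (nat_lit 13643807222) (nat_lit 1900) (nat_lit 13534014907) (nat_lit 480) (nat_lit 5) (nat_lit 479) (nat_lit 5) (nat_lit 504) (nat_lit 5) (nat_lit 637) (nat_lit 620) (nat_lit 303)) (XT.lf (nat_lit 0) (nat_lit 23742368773) (nat_lit 1824) (nat_lit 8885930587) (nat_lit 1900) (nat_lit 2760870770) (nat_lit 480) (nat_lit 5) (nat_lit 504) (nat_lit 5) (nat_lit 505) (nat_lit 5) (nat_lit 638) (nat_lit 620) (nat_lit 302))) (XT.nd (nat_lit 78) (nat_lit 0) (nat_lit 76) (XT.lf (nat_lit 76) (nat_lit 9808965058)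 (nat_lit 0) (nat_lit 16386827694) (nat_lit 1900) (nat_lit 9566195543) (nat_lit 481) (nat_lit 5) (nat_lit 480) (nat_lit 5) (nat_lit 505) (nat_lit 5) (nat_lit 639) (nat_lit 620) (nat_lit 301)) (XT.lf (nat_lit 0) (nat_lit 28758051271) (nat_lit 1824) (nat_lit 7145567586) (nat_lit 1900) (nat_lit 237448732) (nat_lit 481) (nat_lit 5) (nat_lit 505) (nat_lit 5) (nat_lit 506) (nat_lit 5) (nat_lit 640) (nat_lit 620) (nat_lit 300))))) (XT.nd (nat_lit 312) (nat_lit 1900) (nat_lit 0) (XT.nd (nat_lit 156) (nat_lit 1824) (nat_lit 0) (XT.nd (nat_lit 78) (nat_lit 0) (nat_lit 0) (XT.lf (nat_lit 76) (nat_lit 12086912729) (nat_lit 0) (nat_lit 19470245062) (nat_lit 1900) (nat_lit 4966858703) (nat_lit 482) (nat_lit 5) (nat_lit 481) (nat_lit 5) (nat_lit 506) (nat_lit 5) (nat_lit 641) (nat_lit 620) (nat_lit 299)) (XT.lf (nat_lit 76) (nat_lit 31799785653) (nat_lit 0) (nat_lit 2659035958) (nat_lit 1900) (nat_lit 2454871345) (nat_lit 482) (nat_lit 5) (nat_lit 481) (nat_lit 5) (nat_lit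 506) (nat_lit 5) (nat_lit 642) (nat_lit 620) (nat_lit 298))) (XT.nd (nat_lit 78) (nat_lit 0) (nat_lit 0) (XT.lf (nat_lit 0) (nat_lit 295313492) (nat_lit 1900) (nat_lit 22616077691) (nat_lit 1976) (nat_lit 14395970587) (nat_lit 457) (nat_lit 5) (nat_lit 482) (nat_lit 5) (nat_lit 483) (nat_lit 5) (nat_lit 643) (nat_lit 620) (nat_lit 297)) (XT.lf (nat_lit 0) (nat_lit 3118479360) (nat_lit 1900) (nat_lit 2781546451) (nat_lit 1976) (nat_lit 31807536731) (nat_lit 457) (nat_lit 5) (nat_lit 482) (nat_lit 5) (nat_lit 483) (nat_lit 5) (nat_lit 644) (nat_lit 620) (nat_lit 296)))) (XT.nd (nat_lit 156) (nat_lit 1976) (nat_lit 0) (XT.nd (nat_lit 78) (nat_lit 0) (nat_lit 0) (XT.lf (nat_lit 0) (nat_lit 6186704154) (nat_lit 1900) (nat_lit 20508164822) (nat_lit 76) (nat_lit 11417126515) (nat_lit 458) (nat_lit 5) (nat_lit 483) (nat_lit 5) (nat_lit 459) (nat_lit 5) (nat_lit 645) (nat_lit 620) (nat_lit 295)) (XT.lf (nat_lit 0) (nat_lit 9372865205) (nat_lit 1900) (nat_lit 129852339)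 (nat_lit 76) (nat_lit 29020668195) (nat_lit 458) (nat_lit 5) (nat_lit 483) (nat_lit 5) (nat_lit 459) (nat_lit 5) (nat_lit 646) (nat_lit 620) (nat_lit 294))) (XT.nd (nat_lit 78) (nat_lit 912) (nat_lit 0) (XT.lf (nat_lit 0) (nat_lit 12810430169) (nat_lit 1140) (nat_lit 18063959993) (nat_lit 76) (nat_lit 8064860088) (nat_lit 444) (nat_lit 5) (nat_lit 459) (nat_lit 5) (nat_lit 445) (nat_lit 5) (nat_lit 647) (nat_lit 620) (nat_lit 293)) (XT.lf (nat_lit 0) (nat_lit 2913020054) (nat_lit 912) (nat_lit 13485202073) (nat_lit 988) (nat_lit 22963580481) (nat_lit 432) (nat_lit 5) (nat_lit 444) (nat_lit 5) (nat_lit 445) (nat_lit 5) (nat_lit 648) (nat_lit 620) (nat_lit 292)))))) (XT.nd (nat_lit 546) (nat_lit 3952) (nat_lit 0) (XT.nd (nat_lit 234) (nat_lit 1748) (nat_lit 0) (XT.nd (nat_lit 78) (nat_lit 912) (nat_lit 0) (XT.lf (nat_lit 0) (nat_lit 20206167943) (nat_lit 988) (nat_lit 15265534545) (nat_lit 76) (nat_lit 4318135634) (nat_lit 432) (nat_lit 5) (nat_lit 445) (nat_lit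 5) (nat_lit 433) (nat_lit 5) (nat_lit 649) (nat_lit 620) (nat_lit 291)) (XT.nd (nat_lit 78) (nat_lit 0) (nat_lit 0) (XT.lf (nat_lit 0) (nat_lit 6334020486) (nat_lit 912) (nat_lit 17885478174) (nat_lit 988) (nat_lit 16004351236) (nat_lit 420) (nat_lit 5) (nat_lit 432) (nat_lit 5) (nat_lit 433) (nat_lit 5) (nat_lit 650) (nat_lit 620) (nat_lit 290)) (XT.lf (nat_lit 0) (nat_lit 28415367033) (nat_lit 988) (nat_lit 12094157923) (nat_lit 76) (nat_lit 154971593) (nat_lit 420) (nat_lit 5) (nat_lit 433) (nat_lit 5) (nat_lit 421) (nat_lit 5) (nat_lit 651) (nat_lit 620) (nat_lit 289)))) (XT.nd (nat_lit 156) (nat_lit 912) (nat_lit 0) (XT.nd (nat_lit 78) (nat_lit 0) (nat_lit 0) (XT.lf (nat_lit 0) (nat_lit 10150993907) (nat_lit 836) (nat_lit 22727348206) (nat_lit 912) (nat_lit 8231950303) (nat_lit 409) (nat_lit 5) (nat_lit 420) (nat_lit 5) (nat_lit 421) (nat_lit 5) (nat_lit 652) (nat_lit 620) (nat_lit 288)) (XT.lf (nat_lit 0) (nat_lit 33003877304) (nat_lit 836) (nat_lit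 4506708655) (nat_lit 912) (nat_lit 4052818120) (nat_lit 409) (nat_lit 5) (nat_lit 420) (nat_lit 5) (nat_lit 421) (nat_lit 5) (nat_lit 653) (nat_lit 620) (nat_lit 287))) (XT.nd (nat_lit 78) (nat_lit 0) (nat_lit 0) (XT.lf (nat_lit 0) (nat_lit 392032911) (nat_lit 912) (nat_lit 27640107630) (nat_lit 76) (nat_lit 13989712458) (nat_lit 397) (nat_lit 5) (nat_lit 409) (nat_lit 5) (nat_lit 398) (nat_lit 5) (nat_lit 654) (nat_lit 620) (nat_lit 286)) (XT.lf (nat_lit 0) (nat_lit 4958110885) (nat_lit 912) (nat_lit 4648638145) (nat_lit 76) (nat_lit 32880454203) (nat_lit 397) (nat_lit 5) (nat_lit 409) (nat_lit 5) (nat_lit 398) (nat_lit 5) (nat_lit 655) (nat_lit 620) (nat_lit 285))))) (XT.nd (nat_lit 312) (nat_lit 1520) (nat_lit 0) (XT.nd (nat_lit 156) (nat_lit 1596) (nat_lit 0) (XT.nd (nat_lit 78) (nat_lit 0) (nat_lit 0) (XT.lf (nat_lit 0) (nat_lit 9798576440) (nat_lit 912) (nat_lit 23968450875) (nat_lit 76) (nat_lit 9191171896) (nat_lit 386) (nat_lit 5) (nat_lit 398) (nat_lit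 5) (nat_lit 387) (nat_lit 5) (nat_lit 656) (nat_lit 620) (nat_lit 284)) (XT.lf (nat_lit 0) (nat_lit 14829791218) (nat_lit 912) (nat_lit 339014692) (nat_lit 76) (nat_lit 28267930457) (nat_lit 386) (nat_lit 5) (nat_lit 398) (nat_lit 5) (nat_lit 387) (nat_lit 5) (nat_lit 657) (nat_lit 620) (nat_lit 283))) (XT.nd (nat_lit 78) (nat_lit 760) (nat_lit 0) (XT.lf (nat_lit 0) (nat_lit 20142613776) (nat_lit 912) (nat_lit 19869751826) (nat_lit 76) (nat_lit 3908859054) (nat_lit 375) (nat_lit 5) (nat_lit 387) (nat_lit 5) (nat_lit 376) (nat_lit 5) (nat_lit 658) (nat_lit 620) (nat_lit 282)) (XT.lf (nat_lit 0) (nat_lit 4476139070) (nat_lit 760) (nat_lit 21216313904) (nat_lit 836) (nat_lit 18720334586) (nat_lit 365) (nat_lit 5) (nat_lit 375) (nat_lit 5) (nat_lit 376) (nat_lit 5) (nat_lit 659) (nat_lit 620) (nat_lit 281)))) (XT.nd (nat_lit 156) (nat_lit 760) (nat_lit 0) (XT.nd (nat_lit 78) (nat_lit 760) (nat_lit 0) (XT.lf (nat_lit 0) (nat_lit 29577190872) (nat_lit 760) (nat_lit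 1908400424) (nat_lit 836) (nat_lit 13425944434) (nat_lit 365) (nat_lit 5) (nat_lit 375) (nat_lit 5) (nat_lit 376) (nat_lit 5) (nat_lit 660) (nat_lit 620) (nat_lit 280)) (XT.lf (nat_lit 0) (nat_lit 9771589564) (nat_lit 760) (nat_lit 27800908564) (nat_lit 836) (nat_lit 7844202677) (nat_lit 355) (nat_lit 5) (nat_lit 365) (nat_lit 5) (nat_lit 366) (nat_lit 5) (nat_lit 661) (nat_lit 620) (nat_lit 279))) (XT.nd (nat_lit 78) (nat_lit 760) (nat_lit 0) (XT.lf (nat_lit 0) (nat_lit 35573609531) (nat_lit 760) (nat_lit 8321988906) (nat_lit 836) (nat_lit 2034081688) (nat_lit 355) (nat_lit 5) (nat_lit 365) (nat_lit 5) (nat_lit 366) (nat_lit 5) (nat_lit 662) (nat_lit 620) (nat_lit 278)) (XT.lf (nat_lit 0) (nat_lit 4017409140) (nat_lit 760) (nat_lit 30908988524) (nat_lit 76) (nat_lit 11522491701) (nat_lit 345) (nat_lit 5) (nat_lit 355) (nat_lit 5) (nat_lit 346) (nat_lit 5) (nat_lit 663) (nat_lit 620) (nat_lit 277))))))))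
noncomputable def xc240 : XT := (XT.nd (nat_lit 79482) (nat_lit 0) (nat_lit 684) (XT.nd (nat_lit 78312) (nat_lit 0) (nat_lit 12616) (XT.nd (nat_lit 546) (nat_lit 0) (nat_lit 0) (XT.nd (nat_lit 234) (nat_lit 1368) (nat_lit 0) (XT.nd (nat_lit 78) (nat_lit 1444) (nat_lit 0) (XT.lf (nat_lit 0) (nat_lit 10286809737) (nat_lit 760) (nat_lit 4953056952) (nat_lit 76) (nat_lit 31735864919) (nat_lit 345) (nat_lit 5) (nat_lit 355) (nat_lit 5) (nat_lit 346) (nat_lit 5) (nat_lit 664) (nat_lit 620) (nat_lit 276)) (XT.nd (nat_lit 78) (nat_lit 684) (nat_lit 0) (XT.lf (nat_lit 0) (nat_lit 16854589908) (nat_lit 836) (nat_lit 25735737318) (nat_lit 76) (nat_lit 4919323687) (nat_lit 335) (nat_lit 5) (nat_lit 346) (nat_lit 5) (nat_lit 336) (nat_lit 5) (nat_lit 665) (nat_lit 620) (nat_lit 275)) (XT.lf (nat_lit 0) (nat_lit 959333844) (nat_lit 684) (nat_lit 22734058154) (nat_lit 760) (nat_lit 24358063327) (nat_lit 326) (nat_lit 5) (nat_lit 335) (nat_lit 5) (nat_lit 336) (nat_lit 5)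 (nat_lit 666) (nat_lit 620) (nat_lit 274)))) (XT.nd (nat_lit 156) (nat_lit 684) (nat_lit 0) (XT.nd (nat_lit 78) (nat_lit 684) (nat_lit 0) (XT.lf (nat_lit 0) (nat_lit 28536086936) (nat_lit 684) (nat_lit 2304648797) (nat_lit 760) (nat_lit 17759924828) (nat_lit 326) (nat_lit 5) (nat_lit 335) (nat_lit 5) (nat_lit 336) (nat_lit 5) (nat_lit 667) (nat_lit 620) (nat_lit 273)) (XT.lf (nat_lit 0) (nat_lit 7480228325) (nat_lit 684) (nat_lit 30818778114) (nat_lit 760) (nat_lit 10858483906) (nat_lit 317) (nat_lit 5) (nat_lit 326) (nat_lit 5) (nat_lit 327) (nat_lit 5) (nat_lit 668) (nat_lit 620) (nat_lit 272))) (XT.nd (nat_lit 78) (nat_lit 684) (nat_lit 0) (XT.lf (nat_lit 0) (nat_lit 35831377918) (nat_lit 684) (nat_lit 10223964434) (nat_lit 760) (nat_lit 3667136421) (nat_lit 317) (nat_lit 5) (nat_lit 326) (nat_lit 5) (nat_lit 327) (nat_lit 5) (nat_lit 669) (nat_lit 620) (nat_lit 271)) (XT.lf (nat_lit 0) (nat_lit 3784737921) (nat_lit 684) (nat_lit 35749578033) (nat_lit 76)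 (nat_lit 10760678615) (nat_lit 308) (nat_lit 5) (nat_lit 317) (nat_lit 5) (nat_lit 309) (nat_lit 5) (nat_lit 670) (nat_lit 620) (nat_lit 270))))) (XT.nd (nat_lit 77454) (nat_lit 0) (nat_lit 12464) (XT.nd (nat_lit 77298) (nat_lit 0) (nat_lit 12388) (XT.lf (nat_lit 0) (nat_lit 11497250287) (nat_lit 684) (nat_lit 7231810271) (nat_lit 76) (nat_lit 32146201300) (nat_lit 308) (nat_lit 5) (nat_lit 317) (nat_lit 5) (nat_lit 309) (nat_lit 5) (nat_lit 671) (nat_lit 620) (nat_lit 269)) (XT.nd (nat_lit 78) (nat_lit 0) (nat_lit 0) (XT.lf (nat_lit 0) (nat_lit 1782998735) (nat_lit 1900) (nat_lit 6623137417) (nat_lit 1900) (nat_lit 6623137417) (nat_lit 471) (nat_lit 3) (nat_lit 496) (nat_lit 3) (nat_lit 496) (nat_lit 5) (nat_lit 621) (nat_lit 621) (nat_lit 318)) (XT.lf (nat_lit 76) (nat_lit 1684261048) (nat_lit 0) (nat_lit 2001384877) (nat_lit 1900) (nat_lit 26671802487) (nat_lit 472) (nat_lit 5) (nat_lit 471) (nat_lit 3) (nat_lit 496) (nat_lit 5) (nat_lit 622) (nat_lit 621)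 (nat_lit 317)))) (XT.nd (nat_lit 156) (nat_lit 0) (nat_lit 76) (XT.nd (nat_lit 78) (nat_lit 0) (nat_lit 0) (XT.lf (nat_lit 0) (nat_lit 3980339939) (nat_lit 1824) (nat_lit 13654300166) (nat_lit 1900) (nat_lit 13024234668) (nat_lit 472) (nat_lit 5) (nat_lit 496) (nat_lit 5) (nat_lit 497) (nat_lit 5) (nat_lit 623) (nat_lit 621) (nat_lit 316)) (XT.lf (nat_lit 76) (nat_lit 1672632808) (nat_lit 0) (nat_lit 2630530064) (nat_lit 1900) (nat_lit 26662722202) (nat_lit 473) (nat_lit 5) (nat_lit 472) (nat_lit 5) (nat_lit 497) (nat_lit 5) (nat_lit 624) (nat_lit 621) (nat_lit 315))) (XT.nd (nat_lit 78) (nat_lit 0) (nat_lit 0) (XT.lf (nat_lit 0) (nat_lit 4805119183) (nat_lit 1824) (nat_lit 13869954095) (nat_lit 1900) (nat_lit 12600508878) (nat_lit 473) (nat_lit 5) (nat_lit 497) (nat_lit 5) (nat_lit 498) (nat_lit 5) (nat_lit 625) (nat_lit 621) (nat_lit 314)) (XT.lf (nat_lit 76) (nat_lit 1867856673) (nat_lit 0) (nat_lit 3476998932) (nat_lit 1900) (nat_lit 26246062862) (nat_lit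 474) (nat_lit 5) (nat_lit 473) (nat_lit 5) (nat_lit 498) (nat_lit 5) (nat_lit 626) (nat_lit 621) (nat_lit 313)))))) (XT.nd (nat_lit 546) (nat_lit 0) (nat_lit 228) (XT.nd (nat_lit 234) (nat_lit 0) (nat_lit 76) (XT.nd (nat_lit 78) (nat_lit 0) (nat_lit 0) (XT.lf (nat_lit 0) (nat_lit 6065378940) (nat_lit 1824) (nat_lit 13882020097) (nat_lit 1900) (nat_lit 11961762732) (nat_lit 474) (nat_lit 5) (nat_lit 498) (nat_lit 5) (nat_lit 499) (nat_lit 5) (nat_lit 627) (nat_lit 621) (nat_lit 312)) (XT.nd (nat_lit 78) (nat_lit 0) (nat_lit 76) (XT.lf (nat_lit 76) (nat_lit 2281697972) (nat_lit 0) (nat_lit 4554716908) (nat_lit 1900) (nat_lit 25396633121) (nat_lit 475) (nat_lit 5) (nat_lit 474) (nat_lit 5) (nat_lit 499) (nat_lit 5) (nat_lit 628) (nat_lit 621) (nat_lit 311)) (XT.lf (nat_lit 0) (nat_lit 7787303284) (nat_lit 1824) (nat_lit 13678741688) (nat_lit 1900) (nat_lit 11094078453) (nat_lit 475) (nat_lit 5) (nat_lit 499) (nat_lit 5) (nat_lit 500) (nat_lit 5) (nat_lit 629)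 (nat_lit 621) (nat_lit 310)))) (XT.nd (nat_lit 156) (nat_lit 0) (nat_lit 76) (XT.nd (nat_lit 78) (nat_lit 0) (nat_lit 76) (XT.lf (nat_lit 76) (nat_lit 2926482843) (nat_lit 0) (nat_lit 5878217544) (nat_lit 1900) (nat_lit 24088090252) (nat_lit 476) (nat_lit 5) (nat_lit 475) (nat_lit 5) (nat_lit 500) (nat_lit 5) (nat_lit 630) (nat_lit 621) (nat_lit 309)) (XT.lf (nat_lit 0) (nat_lit 9998266733) (nat_lit 1824) (nat_lit 13247801460) (nat_lit 1900) (nat_lit 9982926679) (nat_lit 476) (nat_lit 5) (nat_lit 500) (nat_lit 5) (nat_lit 501) (nat_lit 5) (nat_lit 631) (nat_lit 621) (nat_lit 308))) (XT.nd (nat_lit 78) (nat_lit 0) (nat_lit 76) (XT.lf (nat_lit 76) (nat_lit 3815119989) (nat_lit 0) (nat_lit 7462672017) (nat_lit 1900) (nat_lit 22292889528) (nat_lit 477) (nat_lit 5) (nat_lit 476) (nat_lit 5) (nat_lit 501) (nat_lit 5) (nat_lit 632) (nat_lit 621) (nat_lit 307)) (XT.lf (nat_lit 0) (nat_lit 12726886340) (nat_lit 1824) (nat_lit 12576299247) (nat_lit 1900) (nat_lit 8613136866)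 (nat_lit 477) (nat_lit 5) (nat_lit 501) (nat_lit 5) (nat_lit 502) (nat_lit 5) (nat_lit 633) (nat_lit 621) (nat_lit 306))))) (XT.nd (nat_lit 312) (nat_lit 0) (nat_lit 152) (XT.nd (nat_lit 156) (nat_lit 0) (nat_lit 76) (XT.nd (nat_lit 78) (nat_lit 0) (nat_lit 76) (XT.lf (nat_lit 76) (nat_lit 4961123348) (nat_lit 0) (nat_lit 9323919734) (nat_lit 1900) (nat_lit 19982231592) (nat_lit 478) (nat_lit 5) (nat_lit 477) (nat_lit 5) (nat_lit 502) (nat_lit 5) (nat_lit 634) (nat_lit 621) (nat_lit 305)) (XT.lf (nat_lit 0) (nat_lit 16003075839) (nat_lit 1824) (nat_lit 11650729364) (nat_lit 1900) (nat_lit 6968866571) (nat_lit 478) (nat_lit 5) (nat_lit 502) (nat_lit 5) (nat_lit 503) (nat_lit 5) (nat_lit 635) (nat_lit 621) (nat_lit 304))) (XT.nd (nat_lit 78) (nat_lit 0) (nat_lit 76) (XT.lf (nat_lit 76) (nat_lit 6378635711) (nat_lit 0) (nat_lit 11478500109) (nat_lit 1900) (nat_lit 17126007753) (nat_lit 479) (nat_lit 5) (nat_lit 478) (nat_lit 5) (nat_lit 503) (nat_lit 5) (nat_lit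 636) (nat_lit 621) (nat_lit 303)) (XT.lf (nat_lit 0) (nat_lit 19858101936) (nat_lit 1824) (nat_lit 10456956909) (nat_lit 1900) (nat_lit 5033569553) (nat_lit 479) (nat_lit 5) (nat_lit 503) (nat_lit 5) (nat_lit 504) (nat_lit 5) (nat_lit 637) (nat_lit 621) (nat_lit 302)))) (XT.nd (nat_lit 156) (nat_lit 0) (nat_lit 76) (XT.nd (nat_lit 78) (nat_lit 0) (nat_lit 76) (XT.lf (nat_lit 76) (nat_lit 8082453309) (nat_lit 0) (nat_lit 13943685557) (nat_lit 1900) (nat_lit 13692743111) (nat_lit 480) (nat_lit 5) (nat_lit 479) (nat_lit 5) (nat_lit 504) (nat_lit 5) (nat_lit 638) (nat_lit 621) (nat_lit 301)) (XT.lf (nat_lit 0) (nat_lit 24324642841) (nat_lit 1824) (nat_lit 8980193101) (nat_lit 1900) (nat_lit 2789962643) (nat_lit 480) (nat_lit 5) (nat_lit 504) (nat_lit 5) (nat_lit 505) (nat_lit 5) (nat_lit 639) (nat_lit 621) (nat_lit 300))) (XT.nd (nat_lit 78) (nat_lit 0) (nat_lit 76) (XT.lf (nat_lit 76) (nat_lit 10088051404) (nat_lit 0) (nat_lit 16737515778) (nat_lit 1900) (nat_lit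 9649537421) (nat_lit 481) (nat_lit 5) (nat_lit 480) (nat_lit 5) (nat_lit 505) (nat_lit 5) (nat_lit 640) (nat_lit 621) (nat_lit 299)) (XT.lf (nat_lit 0) (nat_lit 29436849118) (nat_lit 1824) (nat_lit 7204969605) (nat_lit 1900) (nat_lit 219991318) (nat_lit 481) (nat_lit 5) (nat_lit 505) (nat_lit 5) (nat_lit 506) (nat_lit 5) (nat_lit 641) (nat_lit 621) (nat_lit 298))))))) (XT.nd (nat_lit 1092) (nat_lit 6080) (nat_lit 0) (XT.nd (nat_lit 546) (nat_lit 3572) (nat_lit 0) (XT.nd (nat_lit 234) (nat_lit 988) (nat_lit 0) (XT.nd (nat_lit 78) (nat_lit 1824) (nat_lit 0) (XT.lf (nat_lit 76) (nat_lit 12411610913) (nat_lit 0) (nat_lit 19878833392) (nat_lit 1900) (nat_lit 4962003610) (nat_lit 482) (nat_lit 5) (nat_lit 481) (nat_lit 5) (nat_lit 506) (nat_lit 5) (nat_lit 642) (nat_lit 621) (nat_lit 297)) (XT.nd (nat_lit 78) (nat_lit 1824) (nat_lit 0) (XT.lf (nat_lit 76) (nat_lit 32517114630) (nat_lit 0) (nat_lit 2731023960) (nat_lit 1900) (nat_lit 2401819490) (nat_lit 482) (nat_lit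 5) (nat_lit 481) (nat_lit 5) (nat_lit 506) (nat_lit 5) (nat_lit 643) (nat_lit 621) (nat_lit 296)) (XT.lf (nat_lit 0) (nat_lit 400474075) (nat_lit 1900) (nat_lit 22984159510) (nat_lit 1976) (nat_lit 14666884639) (nat_lit 457) (nat_lit 5) (nat_lit 482) (nat_lit 5) (nat_lit 483) (nat_lit 5) (nat_lit 644) (nat_lit 621) (nat_lit 295)))) (XT.nd (nat_lit 156) (nat_lit 988) (nat_lit 0) (XT.nd (nat_lit 78) (nat_lit 0) (nat_lit 76) (XT.lf (nat_lit 0) (nat_lit 3278157098) (nat_lit 1900) (nat_lit 2754589405) (nat_lit 1976) (nat_lit 32427015544) (nat_lit 457) (nat_lit 5) (nat_lit 482) (nat_lit 5) (nat_lit 483) (nat_lit 5) (nat_lit 645) (nat_lit 621) (nat_lit 294)) (XT.lf (nat_lit 0) (nat_lit 6406280902) (nat_lit 1900) (nat_lit 20834269184) (nat_lit 76) (nat_lit 11631762988) (nat_lit 458) (nat_lit 5) (nat_lit 483) (nat_lit 5) (nat_lit 459) (nat_lit 5) (nat_lit 646) (nat_lit 621) (nat_lit 293))) (XT.nd (nat_lit 78) (nat_lit 1064) (nat_lit 0) (XT.lf (nat_lit 0) (nat_lit 9654285906)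 (nat_lit 1900) (nat_lit 50038665) (nat_lit 76) (nat_lit 29587644249) (nat_lit 458) (nat_lit 5) (nat_lit 483) (nat_lit 5) (nat_lit 459) (nat_lit 5) (nat_lit 647) (nat_lit 621) (nat_lit 292)) (XT.lf (nat_lit 0) (nat_lit 13159221278) (nat_lit 1140) (nat_lit 18341442320) (nat_lit 76) (nat_lit 8215514746) (nat_lit 444) (nat_lit 5) (nat_lit 459) (nat_lit 5) (nat_lit 445) (nat_lit 5) (nat_lit 648) (nat_lit 621) (nat_lit 291))))) (XT.nd (nat_lit 234) (nat_lit 1748) (nat_lit 0) (XT.nd (nat_lit 78) (nat_lit 912) (nat_lit 0) (XT.lf (nat_lit 0) (nat_lit 3054526032) (nat_lit 912) (nat_lit 13762968185) (nat_lit 988) (nat_lit 23329713132) (nat_lit 432) (nat_lit 5) (nat_lit 444) (nat_lit 5) (nat_lit 445) (nat_lit 5) (nat_lit 649) (nat_lit 621) (nat_lit 290)) (XT.nd (nat_lit 78) (nat_lit 912) (nat_lit 0) (XT.lf (nat_lit 0) (nat_lit 20699757286) (nat_lit 988) (nat_lit 15487385205) (nat_lit 76) (nat_lit 4396698018) (nat_lit 432) (nat_lit 5) (nat_lit 445) (nat_lit 5) (nat_lit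 433) (nat_lit 5) (nat_lit 650) (nat_lit 621) (nat_lit 289)) (XT.lf (nat_lit 0) (nat_lit 6543611848) (nat_lit 912) (nat_lit 18248526847) (nat_lit 988) (nat_lit 16234418241) (nat_lit 420) (nat_lit 5) (nat_lit 432) (nat_lit 5) (nat_lit 433) (nat_lit 5) (nat_lit 651) (nat_lit 621) (nat_lit 288)))) (XT.nd (nat_lit 156) (nat_lit 912) (nat_lit 0) (XT.nd (nat_lit 78) (nat_lit 836) (nat_lit 0) (XT.lf (nat_lit 0) (nat_lit 29070160057) (nat_lit 988) (nat_lit 12252986596) (nat_lit 76) (nat_lit 152905254) (nat_lit 420) (nat_lit 5) (nat_lit 433) (nat_lit 5) (nat_lit 421) (nat_lit 5) (nat_lit 652) (nat_lit 621) (nat_lit 287)) (XT.lf (nat_lit 0) (nat_lit 10436521860) (nat_lit 836) (nat_lit 23184712678) (nat_lit 912) (nat_lit 8309552450) (nat_lit 409) (nat_lit 5) (nat_lit 420) (nat_lit 5) (nat_lit 421) (nat_lit 5) (nat_lit 653) (nat_lit 621) (nat_lit 286))) (XT.nd (nat_lit 78) (nat_lit 912) (nat_lit 0) (XT.lf (nat_lit 0) (nat_lit 33744845120) (nat_lit 836) (nat_lit 4599605090)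 (nat_lit 912) (nat_lit 4048544228) (nat_lit 409) (nat_lit 5) (nat_lit 420) (nat_lit 5) (nat_lit 421) (nat_lit 5) (nat_lit 654) (nat_lit 621) (nat_lit 285)) (XT.lf (nat_lit 0) (nat_lit 482952006) (nat_lit 912) (nat_lit 28109758627) (nat_lit 76) (nat_lit 14267913368) (nat_lit 397) (nat_lit 5) (nat_lit 409) (nat_lit 5) (nat_lit 398) (nat_lit 5) (nat_lit 655) (nat_lit 621) (nat_lit 284)))))) (XT.nd (nat_lit 546) (nat_lit 2888) (nat_lit 0) (XT.nd (nat_lit 234) (nat_lit 2356) (nat_lit 0) (XT.nd (nat_lit 78) (nat_lit 836) (nat_lit 0) (XT.lf (nat_lit 0) (nat_lit 5138722551) (nat_lit 912) (nat_lit 4660090167) (nat_lit 76) (nat_lit 33536501190) (nat_lit 397) (nat_lit 5) (nat_lit 409) (nat_lit 5) (nat_lit 398) (nat_lit 5) (nat_lit 656) (nat_lit 621) (nat_lit 283)) (XT.nd (nat_lit 78) (nat_lit 0) (nat_lit 0) (XT.lf (nat_lit 0) (nat_lit 10074930109) (nat_lit 912) (nat_lit 24365227528) (nat_lit 76) (nat_lit 9375593600) (nat_lit 386) (nat_lit 5) (nat_lit 398) (nat_lit 5)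 (nat_lit 387) (nat_lit 5) (nat_lit 657) (nat_lit 621) (nat_lit 282)) (XT.lf (nat_lit 0) (nat_lit 15205193063) (nat_lit 912) (nat_lit 264822079) (nat_lit 76) (nat_lit 28833875601) (nat_lit 386) (nat_lit 5) (nat_lit 398) (nat_lit 5) (nat_lit 387) (nat_lit 5) (nat_lit 658) (nat_lit 621) (nat_lit 281)))) (XT.nd (nat_lit 156) (nat_lit 760) (nat_lit 0) (XT.nd (nat_lit 78) (nat_lit 760) (nat_lit 0) (XT.lf (nat_lit 0) (nat_lit 20623266378) (nat_lit 912) (nat_lit 20185164115) (nat_lit 76) (nat_lit 3989658501) (nat_lit 375) (nat_lit 5) (nat_lit 387) (nat_lit 5) (nat_lit 376) (nat_lit 5) (nat_lit 659) (nat_lit 621) (nat_lit 280)) (XT.lf (nat_lit 0) (nat_lit 4647105239) (nat_lit 760) (nat_lit 21636000409) (nat_lit 836) (nat_lit 19016397524) (nat_lit 365) (nat_lit 5) (nat_lit 375) (nat_lit 5) (nat_lit 376) (nat_lit 5) (nat_lit 660) (nat_lit 621) (nat_lit 279))) (XT.nd (nat_lit 78) (nat_lit 760) (nat_lit 0) (XT.lf (nat_lit 0) (nat_lit 30248581148) (nat_lit 760) (nat_lit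 1942019636) (nat_lit 836) (nat_lit 13617655722) (nat_lit 365) (nat_lit 5) (nat_lit 375) (nat_lit 5) (nat_lit 376) (nat_lit 5) (nat_lit 661) (nat_lit 621) (nat_lit 278)) (XT.lf (nat_lit 0) (nat_lit 10047813175) (nat_lit 760) (nat_lit 28350509661) (nat_lit 836) (nat_lit 7925220581) (nat_lit 355) (nat_lit 5) (nat_lit 365) (nat_lit 5) (nat_lit 366) (nat_lit 5) (nat_lit 662) (nat_lit 621) (nat_lit 277))))) (XT.nd (nat_lit 312) (nat_lit 1368) (nat_lit 0) (XT.nd (nat_lit 156) (nat_lit 760) (nat_lit 0) (XT.nd (nat_lit 78) (nat_lit 760) (nat_lit 0) (XT.lf (nat_lit 0) (nat_lit 36364289388) (nat_lit 760) (nat_lit 8482137436) (nat_lit 836) (nat_lit 2000384744) (nat_lit 355) (nat_lit 5) (nat_lit 365) (nat_lit 5) (nat_lit 366) (nat_lit 5) (nat_lit 663) (nat_lit 621) (nat_lit 276)) (XT.lf (nat_lit 0) (nat_lit 4170284944) (nat_lit 760) (nat_lit 31446102231) (nat_lit 76) (nat_lit 11760025742) (nat_lit 345) (nat_lit 5) (nat_lit 355) (nat_lit 5) (nat_lit 346) (nat_lit 5) (nat_lit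 664) (nat_lit 621) (nat_lit 275))) (XT.nd (nat_lit 78) (nat_lit 760) (nat_lit 0) (XT.lf (nat_lit 0) (nat_lit 10563651442) (nat_lit 760) (nat_lit 4972641559) (nat_lit 76) (nat_lit 32377527518) (nat_lit 345) (nat_lit 5) (nat_lit 355) (nat_lit 5) (nat_lit 346) (nat_lit 5) (nat_lit 665) (nat_lit 621) (nat_lit 274)) (XT.lf (nat_lit 0) (nat_lit 17261962290) (nat_lit 836) (nat_lit 26170147064) (nat_lit 76) (nat_lit 5026325424) (nat_lit 335) (nat_lit 5) (nat_lit 346) (nat_lit 5) (nat_lit 336) (nat_lit 5) (nat_lit 666) (nat_lit 621) (nat_lit 273)))) (XT.nd (nat_lit 156) (nat_lit 684) (nat_lit 0) (XT.nd (nat_lit 78) (nat_lit 0) (nat_lit 0) (XT.lf (nat_lit 0) (nat_lit 1058297198) (nat_lit 684) (nat_lit 23178383137) (nat_lit 760) (nat_lit 24774412217) (nat_lit 326) (nat_lit 5) (nat_lit 335) (nat_lit 5) (nat_lit 336) (nat_lit 5) (nat_lit 667) (nat_lit 621) (nat_lit 272)) (XT.lf (nat_lit 0) (nat_lit 29185021103) (nat_lit 684) (nat_lit 2340588654) (nat_lit 760) (nat_lit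 18045699426) (nat_lit 326) (nat_lit 5) (nat_lit 335) (nat_lit 5) (nat_lit 336) (nat_lit 5) (nat_lit 668) (nat_lit 621) (nat_lit 271))) (XT.nd (nat_lit 78) (nat_lit 0) (nat_lit 0) (XT.lf (nat_lit 0) (nat_lit 7708820889) (nat_lit 684) (nat_lit 31423467963) (nat_lit 760) (nat_lit 11007001918) (nat_lit 317) (nat_lit 5) (nat_lit 326) (nat_lit 5) (nat_lit 327) (nat_lit 5) (nat_lit 669) (nat_lit 621) (nat_lit 270)) (XT.lf (nat_lit 0) (nat_lit 36625444690) (nat_lit 684) (nat_lit 10416987141) (nat_lit 760) (nat_lit 3673173595) (nat_lit 317) (nat_lit 5) (nat_lit 326) (nat_lit 5) (nat_lit 327) (nat_lit 5) (nat_lit 670) (nat_lit 621) (nat_lit 269))))))))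
noncomputable def xc241 : XT := (XT.nd (nat_lit 79560) (nat_lit 0) (nat_lit 684) (XT.nd (nat_lit 78390) (nat_lit 0) (nat_lit 10336) (XT.nd (nat_lit 77844) (nat_lit 0) (nat_lit 12616) (XT.nd (nat_lit 77532) (nat_lit 0) (nat_lit 12464) (XT.nd (nat_lit 77376) (nat_lit 0) (nat_lit 12388) (XT.lf (nat_lit 0) (nat_lit 3926137403) (nat_lit 684) (nat_lit 36385523199) (nat_lit 76) (nat_lit 10987916621) (nat_lit 308) (nat_lit 5) (nat_lit 317) (nat_lit 5) (nat_lit 309) (nat_lit 5) (nat_lit 671) (nat_lit 621) (nat_lit 268)) (XT.nd (nat_lit 78) (nat_lit 0) (nat_lit 0) (XT.lf (nat_lit 0) (nat_lit 1891237540) (nat_lit 1900) (nat_lit 6718582761) (nat_lit 1900) (nat_lit 6718582761) (nat_lit 471) (nat_lit 3) (nat_lit 496) (nat_lit 3) (nat_lit 496) (nat_lit 5) (nat_lit 622) (nat_lit 622) (nat_lit 316)) (XT.lf (nat_lit 76) (nat_lit 1791494006) (nat_lit 0) (nat_lit 2110653790) (nat_lit 1900) (nat_lit 27059585174) (nat_lit 472) (nat_lit 5) (nat_lit 471) (nat_lit 3) (nat_lit 496)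 (nat_lit 5) (nat_lit 623) (nat_lit 622) (nat_lit 315)))) (XT.nd (nat_lit 156) (nat_lit 0) (nat_lit 76) (XT.nd (nat_lit 78) (nat_lit 0) (nat_lit 0) (XT.lf (nat_lit 0) (nat_lit 4199495162) (nat_lit 1824) (nat_lit 13852031554) (nat_lit 1900) (nat_lit 13217726122) (nat_lit 472) (nat_lit 5) (nat_lit 496) (nat_lit 5) (nat_lit 497) (nat_lit 5) (nat_lit 624) (nat_lit 622) (nat_lit 314)) (XT.lf (nat_lit 76) (nat_lit 1780944325) (nat_lit 0) (nat_lit 2745580018) (nat_lit 1900) (nat_lit 27055924172) (nat_lit 473) (nat_lit 5) (nat_lit 472) (nat_lit 5) (nat_lit 497) (nat_lit 5) (nat_lit 625) (nat_lit 622) (nat_lit 313))) (XT.nd (nat_lit 78) (nat_lit 0) (nat_lit 0) (XT.lf (nat_lit 0) (nat_lit 5035430210) (nat_lit 1824) (nat_lit 14070864433) (nat_lit 1900) (nat_lit 12792106849) (nat_lit 473) (nat_lit 5) (nat_lit 497) (nat_lit 5) (nat_lit 498) (nat_lit 5) (nat_lit 626) (nat_lit 622) (nat_lit 312)) (XT.lf (nat_lit 76) (nat_lit 1981199335) (nat_lit 0) (nat_lit 3602623833) (nat_lit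 1900) (nat_lit 26636264287) (nat_lit 474) (nat_lit 5) (nat_lit 473) (nat_lit 5) (nat_lit 498) (nat_lit 5) (nat_lit 627) (nat_lit 622) (nat_lit 311))))) (XT.nd (nat_lit 234) (nat_lit 0) (nat_lit 76) (XT.nd (nat_lit 78) (nat_lit 0) (nat_lit 0) (XT.lf (nat_lit 0) (nat_lit 6315810352) (nat_lit 1824) (nat_lit 14082210449) (nat_lit 1900) (nat_lit 12146733911) (nat_lit 474) (nat_lit 5) (nat_lit 498) (nat_lit 5) (nat_lit 499) (nat_lit 5) (nat_lit 628) (nat_lit 622) (nat_lit 310)) (XT.nd (nat_lit 78) (nat_lit 0) (nat_lit 76) (XT.lf (nat_lit 76) (nat_lit 2404272442) (nat_lit 0) (nat_lit 4695962278) (nat_lit 1900) (nat_lit 25774924746) (nat_lit 475) (nat_lit 5) (nat_lit 474) (nat_lit 5) (nat_lit 499) (nat_lit 5) (nat_lit 629) (nat_lit 622) (nat_lit 309)) (XT.lf (nat_lit 0) (nat_lit 8067329671) (nat_lit 1824) (nat_lit 13874065914) (nat_lit 1900) (nat_lit 11267437187) (nat_lit 475) (nat_lit 5) (nat_lit 499) (nat_lit 5) (nat_lit 500) (nat_lit 5) (nat_lit 630) (nat_lit 622)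 (nat_lit 308)))) (XT.nd (nat_lit 156) (nat_lit 0) (nat_lit 76) (XT.nd (nat_lit 78) (nat_lit 0) (nat_lit 76) (XT.lf (nat_lit 76) (nat_lit 3062748300) (nat_lit 0) (nat_lit 6040394260) (nat_lit 1900) (nat_lit 24445049562) (nat_lit 476) (nat_lit 5) (nat_lit 475) (nat_lit 5) (nat_lit 500) (nat_lit 5) (nat_lit 631) (nat_lit 622) (nat_lit 307)) (XT.lf (nat_lit 0) (nat_lit 10317897275) (nat_lit 1824) (nat_lit 13433855741) (nat_lit 1900) (nat_lit 10139421226) (nat_lit 476) (nat_lit 5) (nat_lit 500) (nat_lit 5) (nat_lit 501) (nat_lit 5) (nat_lit 632) (nat_lit 622) (nat_lit 306))) (XT.nd (nat_lit 78) (nat_lit 0) (nat_lit 76) (XT.lf (nat_lit 76) (nat_lit 3969805046) (nat_lit 0) (nat_lit 7651370543) (nat_lit 1900) (nat_lit 22618555940) (nat_lit 477) (nat_lit 5) (nat_lit 476) (nat_lit 5) (nat_lit 501) (nat_lit 5) (nat_lit 633) (nat_lit 622) (nat_lit 305)) (XT.lf (nat_lit 0) (nat_lit 13096690380) (nat_lit 1824) (nat_lit 12748411118) (nat_lit 1900) (nat_lit 8747235136) (nat_lit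 477) (nat_lit 5) (nat_lit 501) (nat_lit 5) (nat_lit 502) (nat_lit 5) (nat_lit 634) (nat_lit 622) (nat_lit 304)))))) (XT.nd (nat_lit 546) (nat_lit 2508) (nat_lit 0) (XT.nd (nat_lit 234) (nat_lit 0) (nat_lit 152) (XT.nd (nat_lit 78) (nat_lit 0) (nat_lit 76) (XT.lf (nat_lit 76) (nat_lit 5139237467) (nat_lit 0) (nat_lit 9545024883) (nat_lit 1900) (nat_lit 20266080644) (nat_lit 478) (nat_lit 5) (nat_lit 477) (nat_lit 5) (nat_lit 502) (nat_lit 5) (nat_lit 635) (nat_lit 622) (nat_lit 303)) (XT.nd (nat_lit 78) (nat_lit 0) (nat_lit 0) (XT.lf (nat_lit 0) (nat_lit 16434209499) (nat_lit 1824) (nat_lit 11803946259) (nat_lit 1900) (nat_lit 7074741336) (nat_lit 478) (nat_lit 5) (nat_lit 502) (nat_lit 5) (nat_lit 503) (nat_lit 5) (nat_lit 636) (nat_lit 622) (nat_lit 302)) (XT.lf (nat_lit 76) (nat_lit 6585481132) (nat_lit 0) (nat_lit 11738206354) (nat_lit 1900) (nat_lit 17356924238) (nat_lit 479) (nat_lit 5) (nat_lit 478) (nat_lit 5) (nat_lit 503) (nat_lit 5) (nat_lit 637)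 (nat_lit 622) (nat_lit 301)))) (XT.nd (nat_lit 156) (nat_lit 0) (nat_lit 76) (XT.nd (nat_lit 78) (nat_lit 0) (nat_lit 0) (XT.lf (nat_lit 0) (nat_lit 20362335823) (nat_lit 1824) (nat_lit 10586034193) (nat_lit 1900) (nat_lit 5105083101) (nat_lit 479) (nat_lit 5) (nat_lit 503) (nat_lit 5) (nat_lit 504) (nat_lit 5) (nat_lit 638) (nat_lit 622) (nat_lit 300)) (XT.lf (nat_lit 76) (nat_lit 8323637507) (nat_lit 0) (nat_lit 14248512931) (nat_lit 1900) (nat_lit 13858993115) (nat_lit 480) (nat_lit 5) (nat_lit 479) (nat_lit 5) (nat_lit 504) (nat_lit 5) (nat_lit 639) (nat_lit 622) (nat_lit 299))) (XT.nd (nat_lit 78) (nat_lit 0) (nat_lit 0) (XT.lf (nat_lit 0) (nat_lit 24914390881) (nat_lit 1824) (nat_lit 9079581568) (nat_lit 1900) (nat_lit 2820650841) (nat_lit 480) (nat_lit 5) (nat_lit 504) (nat_lit 5) (nat_lit 505) (nat_lit 5) (nat_lit 640) (nat_lit 622) (nat_lit 298)) (XT.lf (nat_lit 76) (nat_lit 10369500094) (nat_lit 0) (nat_lit 17094326388) (nat_lit 1900) (nat_lit 9738739211)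 (nat_lit 481) (nat_lit 5) (nat_lit 480) (nat_lit 5) (nat_lit 505) (nat_lit 5) (nat_lit 641) (nat_lit 622) (nat_lit 297))))) (XT.nd (nat_lit 312) (nat_lit 988) (nat_lit 0) (XT.nd (nat_lit 156) (nat_lit 1824) (nat_lit 0) (XT.nd (nat_lit 78) (nat_lit 0) (nat_lit 0) (XT.lf (nat_lit 0) (nat_lit 30125198577) (nat_lit 1824) (nat_lit 7268802434) (nat_lit 1900) (nat_lit 203047056) (nat_lit 481) (nat_lit 5) (nat_lit 505) (nat_lit 5) (nat_lit 506) (nat_lit 5) (nat_lit 642) (nat_lit 622) (nat_lit 296)) (XT.lf (nat_lit 76) (nat_lit 12739581625) (nat_lit 0) (nat_lit 20294848572) (nat_lit 1900) (nat_lit 4961097327) (nat_lit 482) (nat_lit 5) (nat_lit 481) (nat_lit 5) (nat_lit 506) (nat_lit 5) (nat_lit 643) (nat_lit 622) (nat_lit 295))) (XT.nd (nat_lit 78) (nat_lit 1824) (nat_lit 0) (XT.lf (nat_lit 76) (nat_lit 33245631916) (nat_lit 0) (nat_lit 2803721412) (nat_lit 1900) (nat_lit 2351673179) (nat_lit 482) (nat_lit 5) (nat_lit 481) (nat_lit 5) (nat_lit 506) (nat_lit 5) (nat_lit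 644) (nat_lit 622) (nat_lit 294)) (XT.lf (nat_lit 0) (nat_lit 503883705) (nat_lit 1900) (nat_lit 23362874097) (nat_lit 1976) (nat_lit 14943877311) (nat_lit 457) (nat_lit 5) (nat_lit 482) (nat_lit 5) (nat_lit 483) (nat_lit 5) (nat_lit 645) (nat_lit 622) (nat_lit 293)))) (XT.nd (nat_lit 156) (nat_lit 988) (nat_lit 0) (XT.nd (nat_lit 78) (nat_lit 0) (nat_lit 76) (XT.lf (nat_lit 0) (nat_lit 3437249797) (nat_lit 1900) (nat_lit 2730300209) (nat_lit 1976) (nat_lit 33059531324) (nat_lit 457) (nat_lit 5) (nat_lit 482) (nat_lit 5) (nat_lit 483) (nat_lit 5) (nat_lit 646) (nat_lit 622) (nat_lit 292)) (XT.lf (nat_lit 0) (nat_lit 6626527497) (nat_lit 1900) (nat_lit 21170159744) (nat_lit 76) (nat_lit 11851224414) (nat_lit 458) (nat_lit 5) (nat_lit 483) (nat_lit 5) (nat_lit 459) (nat_lit 5) (nat_lit 647) (nat_lit 622) (nat_lit 291))) (XT.nd (nat_lit 78) (nat_lit 0) (nat_lit 0) (XT.lf (nat_lit 0) (nat_lit 28545552) (nat_lit 1064) (nat_lit 9909326092) (nat_lit 1140) (nat_lit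 30138121394) (nat_lit 444) (nat_lit 5) (nat_lit 458) (nat_lit 5) (nat_lit 459) (nat_lit 5) (nat_lit 648) (nat_lit 622) (nat_lit 290)) (XT.lf (nat_lit 0) (nat_lit 13511393117) (nat_lit 1140) (nat_lit 18627728229) (nat_lit 76) (nat_lit 8369595760) (nat_lit 444) (nat_lit 5) (nat_lit 459) (nat_lit 5) (nat_lit 445) (nat_lit 5) (nat_lit 649) (nat_lit 622) (nat_lit 289))))))) (XT.nd (nat_lit 1170) (nat_lit 2888) (nat_lit 0) (XT.nd (nat_lit 546) (nat_lit 3192) (nat_lit 0) (XT.nd (nat_lit 234) (nat_lit 1748) (nat_lit 0) (XT.nd (nat_lit 78) (nat_lit 912) (nat_lit 0) (XT.lf (nat_lit 0) (nat_lit 3195629603) (nat_lit 912) (nat_lit 14045976559) (nat_lit 988) (nat_lit 23706785136) (nat_lit 432) (nat_lit 5) (nat_lit 444) (nat_lit 5) (nat_lit 445) (nat_lit 5) (nat_lit 650) (nat_lit 622) (nat_lit 288)) (XT.nd (nat_lit 78) (nat_lit 912) (nat_lit 0) (XT.lf (nat_lit 0) (nat_lit 21199744342) (nat_lit 988) (nat_lit 15716913732) (nat_lit 76) (nat_lit 4477134547) (nat_lit 432) (nat_lit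 5) (nat_lit 445) (nat_lit 5) (nat_lit 433) (nat_lit 5) (nat_lit 651) (nat_lit 622) (nat_lit 287)) (XT.lf (nat_lit 0) (nat_lit 6754175503) (nat_lit 912) (nat_lit 18618629169) (nat_lit 988) (nat_lit 16472582173) (nat_lit 420) (nat_lit 5) (nat_lit 432) (nat_lit 5) (nat_lit 433) (nat_lit 5) (nat_lit 652) (nat_lit 622) (nat_lit 286)))) (XT.nd (nat_lit 156) (nat_lit 912) (nat_lit 0) (XT.nd (nat_lit 78) (nat_lit 836) (nat_lit 0) (XT.lf (nat_lit 0) (nat_lit 29734690597) (nat_lit 988) (nat_lit 12418216949) (nat_lit 76) (nat_lit 150998182) (nat_lit 420) (nat_lit 5) (nat_lit 433) (nat_lit 5) (nat_lit 421) (nat_lit 5) (nat_lit 653) (nat_lit 622) (nat_lit 285)) (XT.lf (nat_lit 0) (nat_lit 10724556483) (nat_lit 836) (nat_lit 23651115032) (nat_lit 912) (nat_lit 8392086388) (nat_lit 409) (nat_lit 5) (nat_lit 420) (nat_lit 5) (nat_lit 421) (nat_lit 5) (nat_lit 654) (nat_lit 622) (nat_lit 284))) (XT.nd (nat_lit 78) (nat_lit 912) (nat_lit 0) (XT.lf (nat_lit 0) (nat_lit 34497491224)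 (nat_lit 836) (nat_lit 4694252192) (nat_lit 912) (nat_lit 4047498337) (nat_lit 409) (nat_lit 5) (nat_lit 420) (nat_lit 5) (nat_lit 421) (nat_lit 5) (nat_lit 655) (nat_lit 622) (nat_lit 283)) (XT.lf (nat_lit 0) (nat_lit 572463446) (nat_lit 912) (nat_lit 28592031504) (nat_lit 76) (nat_lit 14551740167) (nat_lit 397) (nat_lit 5) (nat_lit 409) (nat_lit 5) (nat_lit 398) (nat_lit 5) (nat_lit 656) (nat_lit 622) (nat_lit 282))))) (XT.nd (nat_lit 312) (nat_lit 1520) (nat_lit 0) (XT.nd (nat_lit 156) (nat_lit 836) (nat_lit 0) (XT.nd (nat_lit 78) (nat_lit 836) (nat_lit 0) (XT.lf (nat_lit 0) (nat_lit 5319783668) (nat_lit 912) (nat_lit 4674936778) (nat_lit 76) (nat_lit 34205729774) (nat_lit 397) (nat_lit 5) (nat_lit 409) (nat_lit 5) (nat_lit 398) (nat_lit 5) (nat_lit 657) (nat_lit 622) (nat_lit 281)) (XT.lf (nat_lit 0) (nat_lit 10353689515) (nat_lit 912) (nat_lit 24773146876) (nat_lit 76) (nat_lit 9563680506) (nat_lit 386) (nat_lit 5) (nat_lit 398) (nat_lit 5) (nat_lit 387)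 (nat_lit 5) (nat_lit 658) (nat_lit 622) (nat_lit 280))) (XT.nd (nat_lit 78) (nat_lit 836) (nat_lit 0) (XT.lf (nat_lit 0) (nat_lit 15585042810) (nat_lit 912) (nat_lit 192289891) (nat_lit 76) (nat_lit 29411116873) (nat_lit 386) (nat_lit 5) (nat_lit 398) (nat_lit 5) (nat_lit 387) (nat_lit 5) (nat_lit 659) (nat_lit 622) (nat_lit 279)) (XT.lf (nat_lit 0) (nat_lit 21110510951) (nat_lit 912) (nat_lit 20510068139) (nat_lit 76) (nat_lit 4071972111) (nat_lit 375) (nat_lit 5) (nat_lit 387) (nat_lit 5) (nat_lit 376) (nat_lit 5) (nat_lit 660) (nat_lit 622) (nat_lit 278)))) (XT.nd (nat_lit 156) (nat_lit 760) (nat_lit 0) (XT.nd (nat_lit 78) (nat_lit 0) (nat_lit 0) (XT.lf (nat_lit 0) (nat_lit 4818328185) (nat_lit 760) (nat_lit 22064260813) (nat_lit 836) (nat_lit 19321423904) (nat_lit 365) (nat_lit 5) (nat_lit 375) (nat_lit 5) (nat_lit 376) (nat_lit 5) (nat_lit 661) (nat_lit 622) (nat_lit 277)) (XT.lf (nat_lit 0) (nat_lit 30930298694) (nat_lit 760) (nat_lit 1976487867) (nat_lit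 836) (nat_lit 13816183767) (nat_lit 365) (nat_lit 5) (nat_lit 375) (nat_lit 5) (nat_lit 376) (nat_lit 5) (nat_lit 662) (nat_lit 622) (nat_lit 276))) (XT.nd (nat_lit 78) (nat_lit 0) (nat_lit 0) (XT.lf (nat_lit 0) (nat_lit 10326424013) (nat_lit 760) (nat_lit 28911351963) (nat_lit 836) (nat_lit 8010804818) (nat_lit 355) (nat_lit 5) (nat_lit 365) (nat_lit 5) (nat_lit 366) (nat_lit 5) (nat_lit 663) (nat_lit 622) (nat_lit 275)) (XT.lf (nat_lit 0) (nat_lit 37167707112) (nat_lit 760) (nat_lit 8645733232) (nat_lit 836) (nat_lit 1968902072) (nat_lit 355) (nat_lit 5) (nat_lit 365) (nat_lit 5) (nat_lit 366) (nat_lit 5) (nat_lit 664) (nat_lit 622) (nat_lit 274)))))) (XT.nd (nat_lit 78000) (nat_lit 0) (nat_lit 11704) (XT.nd (nat_lit 234) (nat_lit 1368) (nat_lit 0) (XT.nd (nat_lit 78) (nat_lit 760) (nat_lit 0) (XT.lf (nat_lit 0) (nat_lit 4323401928) (nat_lit 760) (nat_lit 31997106107) (nat_lit 76) (nat_lit 12002035375) (nat_lit 345) (nat_lit 5) (nat_lit 355) (nat_lit 5)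 (nat_lit 346) (nat_lit 5) (nat_lit 665) (nat_lit 622) (nat_lit 273)) (XT.nd (nat_lit 78) (nat_lit 760) (nat_lit 0) (XT.lf (nat_lit 0) (nat_lit 10843268868) (nat_lit 760) (nat_lit 4995704028) (nat_lit 76) (nat_lit 33031753674) (nat_lit 345) (nat_lit 5) (nat_lit 355) (nat_lit 5) (nat_lit 346) (nat_lit 5) (nat_lit 666) (nat_lit 622) (nat_lit 272)) (XT.lf (nat_lit 0) (nat_lit 17674753039) (nat_lit 836) (nat_lit 26616363347) (nat_lit 76) (nat_lit 5135132655) (nat_lit 335) (nat_lit 5) (nat_lit 346) (nat_lit 5) (nat_lit 336) (nat_lit 5) (nat_lit 667) (nat_lit 622) (nat_lit 271)))) (XT.nd (nat_lit 156) (nat_lit 684) (nat_lit 0) (XT.nd (nat_lit 78) (nat_lit 0) (nat_lit 0) (XT.lf (nat_lit 0) (nat_lit 1156141993) (nat_lit 684) (nat_lit 23631996762) (nat_lit 760) (nat_lit 25201837815) (nat_lit 326) (nat_lit 5) (nat_lit 335) (nat_lit 5) (nat_lit 336) (nat_lit 5) (nat_lit 668) (nat_lit 622) (nat_lit 270)) (XT.lf (nat_lit 0) (nat_lit 29843896870) (nat_lit 684) (nat_lit 2377641567)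 (nat_lit 760) (nat_lit 18339885330) (nat_lit 326) (nat_lit 5) (nat_lit 335) (nat_lit 5) (nat_lit 336) (nat_lit 5) (nat_lit 669) (nat_lit 622) (nat_lit 269))) (XT.nd (nat_lit 77532) (nat_lit 0) (nat_lit 11704) (XT.lf (nat_lit 0) (nat_lit 7938918104) (nat_lit 684) (nat_lit 32040705380) (nat_lit 760) (nat_lit 11161156118) (nat_lit 317) (nat_lit 5) (nat_lit 326) (nat_lit 5) (nat_lit 327) (nat_lit 5) (nat_lit 670) (nat_lit 622) (nat_lit 268)) (XT.lf (nat_lit 0) (nat_lit 1998822797) (nat_lit 1900) (nat_lit 6817374443) (nat_lit 1900) (nat_lit 6817374443) (nat_lit 471) (nat_lit 3) (nat_lit 496) (nat_lit 3) (nat_lit 496) (nat_lit 5) (nat_lit 623) (nat_lit 623) (nat_lit 314))))) (XT.nd (nat_lit 312) (nat_lit 0) (nat_lit 152) (XT.nd (nat_lit 156) (nat_lit 0) (nat_lit 76) (XT.nd (nat_lit 78) (nat_lit 0) (nat_lit 76) (XT.lf (nat_lit 76) (nat_lit 1898015676) (nat_lit 0) (nat_lit 2219419360) (nat_lit 1900) (nat_lit 27460779413) (nat_lit 472) (nat_lit 5) (nat_lit 471) (nat_lit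 3) (nat_lit 496) (nat_lit 5) (nat_lit 624) (nat_lit 623) (nat_lit 313)) (XT.lf (nat_lit 0) (nat_lit 4417614655) (nat_lit 1824) (nat_lit 14056643682) (nat_lit 1900) (nat_lit 13417688834) (nat_lit 472) (nat_lit 5) (nat_lit 496) (nat_lit 5) (nat_lit 497) (nat_lit 5) (nat_lit 625) (nat_lit 623) (nat_lit 312))) (XT.nd (nat_lit 78) (nat_lit 0) (nat_lit 76) (XT.lf (nat_lit 76) (nat_lit 1888515212) (nat_lit 0) (nat_lit 2860506376) (nat_lit 1900) (nat_lit 27462428590) (nat_lit 473) (nat_lit 5) (nat_lit 472) (nat_lit 5) (nat_lit 497) (nat_lit 5) (nat_lit 626) (nat_lit 623) (nat_lit 311)) (XT.lf (nat_lit 0) (nat_lit 5265135973) (nat_lit 1824) (nat_lit 14278763129) (nat_lit 1900) (nat_lit 12989882660) (nat_lit 473) (nat_lit 5) (nat_lit 497) (nat_lit 5) (nat_lit 498) (nat_lit 5) (nat_lit 627) (nat_lit 623) (nat_lit 310)))) (XT.nd (nat_lit 156) (nat_lit 0) (nat_lit 76) (XT.nd (nat_lit 78) (nat_lit 0) (nat_lit 76) (XT.lf (nat_lit 76) (nat_lit 2093858239) (nat_lit 0) (nat_lit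 3728583385) (nat_lit 1900) (nat_lit 27039501075) (nat_lit 474) (nat_lit 5) (nat_lit 473) (nat_lit 5) (nat_lit 498) (nat_lit 5) (nat_lit 628) (nat_lit 623) (nat_lit 309)) (XT.lf (nat_lit 0) (nat_lit 6566236356) (nat_lit 1824) (nat_lit 14289412087) (nat_lit 1900) (nat_lit 12337511653) (nat_lit 474) (nat_lit 5) (nat_lit 498) (nat_lit 5) (nat_lit 499) (nat_lit 5) (nat_lit 629) (nat_lit 623) (nat_lit 308))) (XT.nd (nat_lit 78) (nat_lit 0) (nat_lit 76) (XT.lf (nat_lit 76) (nat_lit 2526310708) (nat_lit 0) (nat_lit 4838085129) (nat_lit 1900) (nat_lit 26165816324) (nat_lit 475) (nat_lit 5) (nat_lit 474) (nat_lit 5) (nat_lit 499) (nat_lit 5) (nat_lit 630) (nat_lit 623) (nat_lit 307)) (XT.lf (nat_lit 0) (nat_lit 8348130630) (nat_lit 1824) (nat_lit 14076335192) (nat_lit 1900) (nat_lit 11446147297) (nat_lit 475) (nat_lit 5) (nat_lit 499) (nat_lit 5) (nat_lit 500) (nat_lit 5) (nat_lit 631) (nat_lit 623) (nat_lit 306))))))))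
noncomputable def xc242 : XT := (XT.nd (nat_lit 2262) (nat_lit 4560) (nat_lit 0) (XT.nd (nat_lit 1092) (nat_lit 6764) (nat_lit 0) (XT.nd (nat_lit 546) (nat_lit 0) (nat_lit 304) (XT.nd (nat_lit 234) (nat_lit 0) (nat_lit 152) (XT.nd (nat_lit 78) (nat_lit 0) (nat_lit 76) (XT.lf (nat_lit 76) (nat_lit 3198720491) (nat_lit 0) (nat_lit 6204082157) (nat_lit 1900) (nat_lit 24813994292) (nat_lit 476) (nat_lit 5) (nat_lit 475) (nat_lit 5) (nat_lit 500) (nat_lit 5) (nat_lit 632) (nat_lit 623) (nat_lit 305)) (XT.nd (nat_lit 78) (nat_lit 0) (nat_lit 0) (XT.lf (nat_lit 0) (nat_lit 10639273683) (nat_lit 1824) (nat_lit 13626694959) (nat_lit 1900) (nat_lit 10300721775) (nat_lit 476) (nat_lit 5) (nat_lit 500) (nat_lit 5) (nat_lit 501) (nat_lit 5) (nat_lit 633) (nat_lit 623) (nat_lit 304)) (XT.lf (nat_lit 76) (nat_lit 4124540110) (nat_lit 0) (nat_lit 7842311339) (nat_lit 1900) (nat_lit 22955402858) (nat_lit 477) (nat_lit 5) (nat_lit 476) (nat_lit 5) (nat_lit 501) (nat_lit 5)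 (nat_lit 634) (nat_lit 623) (nat_lit 303)))) (XT.nd (nat_lit 156) (nat_lit 0) (nat_lit 76) (XT.nd (nat_lit 78) (nat_lit 0) (nat_lit 0) (XT.lf (nat_lit 0) (nat_lit 13469414570) (nat_lit 1824) (nat_lit 12927048974) (nat_lit 1900) (nat_lit 8885497344) (nat_lit 477) (nat_lit 5) (nat_lit 501) (nat_lit 5) (nat_lit 502) (nat_lit 5) (nat_lit 635) (nat_lit 623) (nat_lit 302)) (XT.lf (nat_lit 76) (nat_lit 5317850410) (nat_lit 0) (nat_lit 9769207535) (nat_lit 1900) (nat_lit 20560103160) (nat_lit 478) (nat_lit 5) (nat_lit 477) (nat_lit 5) (nat_lit 502) (nat_lit 5) (nat_lit 636) (nat_lit 623) (nat_lit 301))) (XT.nd (nat_lit 78) (nat_lit 0) (nat_lit 0) (XT.lf (nat_lit 0) (nat_lit 16869652766) (nat_lit 1824) (nat_lit 11963326134) (nat_lit 1900) (nat_lit 7184034542) (nat_lit 478) (nat_lit 5) (nat_lit 502) (nat_lit 5) (nat_lit 503) (nat_lit 5) (nat_lit 637) (nat_lit 623) (nat_lit 300)) (XT.lf (nat_lit 76) (nat_lit 6793385207) (nat_lit 0) (nat_lit 12001936496) (nat_lit 1900)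 (nat_lit 17596792760) (nat_lit 479) (nat_lit 5) (nat_lit 478) (nat_lit 5) (nat_lit 503) (nat_lit 5) (nat_lit 638) (nat_lit 623) (nat_lit 299))))) (XT.nd (nat_lit 234) (nat_lit 0) (nat_lit 76) (XT.nd (nat_lit 78) (nat_lit 0) (nat_lit 0) (XT.lf (nat_lit 0) (nat_lit 20872496658) (nat_lit 1824) (nat_lit 10720801921) (nat_lit 1900) (nat_lit 5179159154) (nat_lit 479) (nat_lit 5) (nat_lit 503) (nat_lit 5) (nat_lit 504) (nat_lit 5) (nat_lit 639) (nat_lit 623) (nat_lit 298)) (XT.nd (nat_lit 78) (nat_lit 0) (nat_lit 76) (XT.lf (nat_lit 76) (nat_lit 8566556943) (nat_lit 0) (nat_lit 14558429040) (nat_lit 1900) (nat_lit 14032746547) (nat_lit 480) (nat_lit 5) (nat_lit 479) (nat_lit 5) (nat_lit 504) (nat_lit 5) (nat_lit 640) (nat_lit 623) (nat_lit 297)) (XT.lf (nat_lit 0) (nat_lit 25511924357) (nat_lit 1824) (nat_lit 9184072665) (nat_lit 1900) (nat_lit 2852927896) (nat_lit 480) (nat_lit 5) (nat_lit 504) (nat_lit 5) (nat_lit 505) (nat_lit 5) (nat_lit 641) (nat_lit 623) (nat_lit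 296)))) (XT.nd (nat_lit 156) (nat_lit 0) (nat_lit 76) (XT.nd (nat_lit 78) (nat_lit 0) (nat_lit 76) (XT.lf (nat_lit 76) (nat_lit 10653483390) (nat_lit 0) (nat_lit 17457416582) (nat_lit 1900) (nat_lit 9833755288) (nat_lit 481) (nat_lit 5) (nat_lit 480) (nat_lit 5) (nat_lit 505) (nat_lit 5) (nat_lit 642) (nat_lit 623) (nat_lit 295)) (XT.lf (nat_lit 0) (nat_lit 30823446952) (nat_lit 1824) (nat_lit 7337028767) (nat_lit 1900) (nat_lit 186592727) (nat_lit 481) (nat_lit 5) (nat_lit 505) (nat_lit 5) (nat_lit 506) (nat_lit 5) (nat_lit 643) (nat_lit 623) (nat_lit 294))) (XT.nd (nat_lit 78) (nat_lit 0) (nat_lit 0) (XT.lf (nat_lit 76) (nat_lit 13071015409) (nat_lit 0) (nat_lit 20718468066) (nat_lit 1900) (nat_lit 4964061723) (nat_lit 482) (nat_lit 5) (nat_lit 481) (nat_lit 5) (nat_lit 506) (nat_lit 5) (nat_lit 644) (nat_lit 623) (nat_lit 293)) (XT.lf (nat_lit 76) (nat_lit 33985683918) (nat_lit 0) (nat_lit 2877170862) (nat_lit 1900) (nat_lit 2304336496) (nat_lit 482) (nat_lit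 5) (nat_lit 481) (nat_lit 5) (nat_lit 506) (nat_lit 5) (nat_lit 645) (nat_lit 623) (nat_lit 292)))))) (XT.nd (nat_lit 546) (nat_lit 3496) (nat_lit 0) (XT.nd (nat_lit 234) (nat_lit 1900) (nat_lit 0) (XT.nd (nat_lit 78) (nat_lit 0) (nat_lit 0) (XT.lf (nat_lit 0) (nat_lit 605657023) (nat_lit 1900) (nat_lit 23752307085) (nat_lit 1976) (nat_lit 15227044533) (nat_lit 457) (nat_lit 5) (nat_lit 482) (nat_lit 5) (nat_lit 483) (nat_lit 5) (nat_lit 646) (nat_lit 623) (nat_lit 291)) (XT.nd (nat_lit 78) (nat_lit 0) (nat_lit 76) (XT.lf (nat_lit 0) (nat_lit 3595892483) (nat_lit 1900) (nat_lit 2708607690) (nat_lit 1976) (nat_lit 33705319672) (nat_lit 457) (nat_lit 5) (nat_lit 482) (nat_lit 5) (nat_lit 483) (nat_lit 5) (nat_lit 647) (nat_lit 623) (nat_lit 290)) (XT.lf (nat_lit 0) (nat_lit 6847601855) (nat_lit 1900) (nat_lit 21515905477) (nat_lit 76) (nat_lit 12075586625) (nat_lit 458) (nat_lit 5) (nat_lit 483) (nat_lit 5) (nat_lit 459) (nat_lit 5) (nat_lit 648) (nat_lit 623)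 (nat_lit 289)))) (XT.nd (nat_lit 156) (nat_lit 912) (nat_lit 0) (XT.nd (nat_lit 78) (nat_lit 0) (nat_lit 0) (XT.lf (nat_lit 0) (nat_lit 106263021) (nat_lit 1064) (nat_lit 10117674597) (nat_lit 1140) (nat_lit 30651824153) (nat_lit 444) (nat_lit 5) (nat_lit 458) (nat_lit 5) (nat_lit 459) (nat_lit 5) (nat_lit 649) (nat_lit 623) (nat_lit 288)) (XT.lf (nat_lit 0) (nat_lit 13867152904) (nat_lit 1140) (nat_lit 18922867437) (nat_lit 76) (nat_lit 8527155610) (nat_lit 444) (nat_lit 5) (nat_lit 459) (nat_lit 5) (nat_lit 445) (nat_lit 5) (nat_lit 650) (nat_lit 623) (nat_lit 287))) (XT.nd (nat_lit 78) (nat_lit 0) (nat_lit 0) (XT.lf (nat_lit 0) (nat_lit 3336448241) (nat_lit 912) (nat_lit 14334344198) (nat_lit 988) (nat_lit 24094874838) (nat_lit 432) (nat_lit 5) (nat_lit 444) (nat_lit 5) (nat_lit 445) (nat_lit 5) (nat_lit 651) (nat_lit 623) (nat_lit 286)) (XT.lf (nat_lit 0) (nat_lit 21706391969) (nat_lit 988) (nat_lit 15954147839) (nat_lit 76) (nat_lit 4559470940) (nat_lit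 432) (nat_lit 5) (nat_lit 445) (nat_lit 5) (nat_lit 433) (nat_lit 5) (nat_lit 652) (nat_lit 623) (nat_lit 285))))) (XT.nd (nat_lit 312) (nat_lit 1748) (nat_lit 0) (XT.nd (nat_lit 156) (nat_lit 836) (nat_lit 0) (XT.nd (nat_lit 78) (nat_lit 0) (nat_lit 0) (XT.lf (nat_lit 0) (nat_lit 6965855917) (nat_lit 912) (nat_lit 18995934264) (nat_lit 988) (nat_lit 16718869232) (nat_lit 420) (nat_lit 5) (nat_lit 432) (nat_lit 5) (nat_lit 433) (nat_lit 5) (nat_lit 653) (nat_lit 623) (nat_lit 284)) (XT.lf (nat_lit 0) (nat_lit 30409283811) (nat_lit 988) (nat_lit 12589851781) (nat_lit 76) (nat_lit 149245772) (nat_lit 420) (nat_lit 5) (nat_lit 433) (nat_lit 5) (nat_lit 421) (nat_lit 5) (nat_lit 654) (nat_lit 623) (nat_lit 283))) (XT.nd (nat_lit 78) (nat_lit 0) (nat_lit 0) (XT.lf (nat_lit 0) (nat_lit 11015272320) (nat_lit 836) (nat_lit 24126740274) (nat_lit 912) (nat_lit 8479519512) (nat_lit 409) (nat_lit 5) (nat_lit 420) (nat_lit 5) (nat_lit 421) (nat_lit 5) (nat_lit 655) (nat_lit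 623) (nat_lit 282)) (XT.lf (nat_lit 0) (nat_lit 35262171154) (nat_lit 836) (nat_lit 4790689139) (nat_lit 912) (nat_lit 4049616339) (nat_lit 409) (nat_lit 5) (nat_lit 420) (nat_lit 5) (nat_lit 421) (nat_lit 5) (nat_lit 656) (nat_lit 623) (nat_lit 281)))) (XT.nd (nat_lit 156) (nat_lit 836) (nat_lit 0) (XT.nd (nat_lit 78) (nat_lit 0) (nat_lit 0) (XT.lf (nat_lit 0) (nat_lit 660664349) (nat_lit 912) (nat_lit 29087053318) (nat_lit 76) (nat_lit 14841302971) (nat_lit 397) (nat_lit 5) (nat_lit 409) (nat_lit 5) (nat_lit 398) (nat_lit 5) (nat_lit 657) (nat_lit 623) (nat_lit 280)) (XT.lf (nat_lit 0) (nat_lit 5501426042) (nat_lit 912) (nat_lit 4693122950) (nat_lit 76) (nat_lit 34888401233) (nat_lit 397) (nat_lit 5) (nat_lit 409) (nat_lit 5) (nat_lit 398) (nat_lit 5) (nat_lit 658) (nat_lit 623) (nat_lit 279))) (XT.nd (nat_lit 78) (nat_lit 0) (nat_lit 0) (XT.lf (nat_lit 0) (nat_lit 10635023978) (nat_lit 912) (nat_lit 25192307236) (nat_lit 76) (nat_lit 9755506821) (nat_lit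 386) (nat_lit 5) (nat_lit 398) (nat_lit 5) (nat_lit 387) (nat_lit 5) (nat_lit 659) (nat_lit 623) (nat_lit 278)) (XT.lf (nat_lit 0) (nat_lit 15969548248) (nat_lit 912) (nat_lit 121329240) (nat_lit 76) (nat_lit 29999881078) (nat_lit 386) (nat_lit 5) (nat_lit 398) (nat_lit 5) (nat_lit 387) (nat_lit 5) (nat_lit 660) (nat_lit 623) (nat_lit 277))))))) (XT.nd (nat_lit 78624) (nat_lit 0) (nat_lit 11172) (XT.nd (nat_lit 546) (nat_lit 1444) (nat_lit 0) (XT.nd (nat_lit 234) (nat_lit 1520) (nat_lit 0) (XT.nd (nat_lit 78) (nat_lit 760) (nat_lit 0) (XT.lf (nat_lit 0) (nat_lit 21604596646) (nat_lit 912) (nat_lit 20844530116) (nat_lit 76) (nat_lit 4155834122) (nat_lit 375) (nat_lit 5) (nat_lit 387) (nat_lit 5) (nat_lit 376) (nat_lit 5) (nat_lit 661) (nat_lit 623) (nat_lit 276)) (XT.nd (nat_lit 78) (nat_lit 0) (nat_lit 0) (XT.lf (nat_lit 0) (nat_lit 4989935850) (nat_lit 760) (nat_lit 22501259596) (nat_lit 836) (nat_lit 19635474864) (nat_lit 365) (nat_lit 5) (nat_lit 375) (nat_lit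 5) (nat_lit 376) (nat_lit 5) (nat_lit 662) (nat_lit 623) (nat_lit 275)) (XT.lf (nat_lit 0) (nat_lit 31622670453) (nat_lit 760) (nat_lit 2011815239) (nat_lit 836) (nat_lit 14021549091) (nat_lit 365) (nat_lit 5) (nat_lit 375) (nat_lit 5) (nat_lit 376) (nat_lit 5) (nat_lit 663) (nat_lit 623) (nat_lit 274)))) (XT.nd (nat_lit 156) (nat_lit 760) (nat_lit 0) (XT.nd (nat_lit 78) (nat_lit 0) (nat_lit 0) (XT.lf (nat_lit 0) (nat_lit 10607591646) (nat_lit 760) (nat_lit 29483650618) (nat_lit 836) (nat_lit 8100932320) (nat_lit 355) (nat_lit 5) (nat_lit 365) (nat_lit 5) (nat_lit 366) (nat_lit 5) (nat_lit 664) (nat_lit 623) (nat_lit 273)) (XT.lf (nat_lit 0) (nat_lit 37984236894) (nat_lit 760) (nat_lit 8812835755) (nat_lit 836) (nat_lit 1939565805) (nat_lit 355) (nat_lit 5) (nat_lit 365) (nat_lit 5) (nat_lit 366) (nat_lit 5) (nat_lit 665) (nat_lit 623) (nat_lit 272))) (XT.nd (nat_lit 78) (nat_lit 0) (nat_lit 0) (XT.lf (nat_lit 0) (nat_lit 4476874277) (nat_lit 760) (nat_lit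 32562155717) (nat_lit 76) (nat_lit 12248620794) (nat_lit 345) (nat_lit 5) (nat_lit 355) (nat_lit 5) (nat_lit 346) (nat_lit 5) (nat_lit 666) (nat_lit 623) (nat_lit 271)) (XT.lf (nat_lit 0) (nat_lit 11125824746) (nat_lit 760) (nat_lit 5022194078) (nat_lit 76) (nat_lit 33698805131) (nat_lit 345) (nat_lit 5) (nat_lit 355) (nat_lit 5) (nat_lit 346) (nat_lit 5) (nat_lit 667) (nat_lit 623) (nat_lit 270))))) (XT.nd (nat_lit 77766) (nat_lit 0) (nat_lit 11020) (XT.nd (nat_lit 78) (nat_lit 684) (nat_lit 0) (XT.lf (nat_lit 0) (nat_lit 18093176496) (nat_lit 836) (nat_lit 27074501207) (nat_lit 76) (nat_lit 5245794480) (nat_lit 335) (nat_lit 5) (nat_lit 346) (nat_lit 5) (nat_lit 336) (nat_lit 5) (nat_lit 668) (nat_lit 623) (nat_lit 269)) (XT.nd (nat_lit 78) (nat_lit 0) (nat_lit 0) (XT.lf (nat_lit 0) (nat_lit 1252966152) (nat_lit 684) (nat_lit 24095069187) (nat_lit 760) (nat_lit 25640454880) (nat_lit 326) (nat_lit 5) (nat_lit 335) (nat_lit 5) (nat_lit 336) (nat_lit 5) (nat_lit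 669) (nat_lit 623) (nat_lit 268)) (XT.lf (nat_lit 0) (nat_lit 30513031002) (nat_lit 684) (nat_lit 2415814486) (nat_lit 760) (nat_lit 18642546084) (nat_lit 326) (nat_lit 5) (nat_lit 335) (nat_lit 5) (nat_lit 336) (nat_lit 5) (nat_lit 670) (nat_lit 623) (nat_lit 267)))) (XT.nd (nat_lit 156) (nat_lit 0) (nat_lit 76) (XT.nd (nat_lit 78) (nat_lit 0) (nat_lit 0) (XT.lf (nat_lit 0) (nat_lit 2105850873) (nat_lit 1900) (nat_lit 6919523572) (nat_lit 1900) (nat_lit 6919523572) (nat_lit 471) (nat_lit 3) (nat_lit 496) (nat_lit 3) (nat_lit 496) (nat_lit 5) (nat_lit 624) (nat_lit 624) (nat_lit 312)) (XT.lf (nat_lit 76) (nat_lit 2003922730) (nat_lit 0) (nat_lit 2327775927) (nat_lit 1900) (nat_lit 27875433808) (nat_lit 472) (nat_lit 5) (nat_lit 471) (nat_lit 3) (nat_lit 496) (nat_lit 5) (nat_lit 625) (nat_lit 624) (nat_lit 311))) (XT.nd (nat_lit 78) (nat_lit 0) (nat_lit 0) (XT.lf (nat_lit 0) (nat_lit 4634888121) (nat_lit 1824) (nat_lit 14268160539) (nat_lit 1900) (nat_lit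 13624151213) (nat_lit 472) (nat_lit 5) (nat_lit 496) (nat_lit 5) (nat_lit 497) (nat_lit 5) (nat_lit 626) (nat_lit 624) (nat_lit 310)) (XT.lf (nat_lit 76) (nat_lit 1995443533) (nat_lit 0) (nat_lit 2975400814) (nat_lit 1900) (nat_lit 27882290324) (nat_lit 473) (nat_lit 5) (nat_lit 472) (nat_lit 5) (nat_lit 497) (nat_lit 5) (nat_lit 627) (nat_lit 624) (nat_lit 309)))))) (XT.nd (nat_lit 546) (nat_lit 0) (nat_lit 228) (XT.nd (nat_lit 234) (nat_lit 0) (nat_lit 76) (XT.nd (nat_lit 78) (nat_lit 0) (nat_lit 0) (XT.lf (nat_lit 0) (nat_lit 5494426734) (nat_lit 1824) (nat_lit 14493674616) (nat_lit 1900) (nat_lit 13193868773) (nat_lit 473) (nat_lit 5) (nat_lit 497) (nat_lit 5) (nat_lit 498) (nat_lit 5) (nat_lit 628) (nat_lit 624) (nat_lit 308)) (XT.nd (nat_lit 78) (nat_lit 0) (nat_lit 76) (XT.lf (nat_lit 76) (nat_lit 2205934287) (nat_lit 0) (nat_lit 3854968852) (nat_lit 1900) (nat_lit 27455830796) (nat_lit 474) (nat_lit 5) (nat_lit 473) (nat_lit 5) (nat_lit 498) (nat_lit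 5) (nat_lit 629) (nat_lit 624) (nat_lit 307)) (XT.lf (nat_lit 0) (nat_lit 6816851546) (nat_lit 1824) (nat_lit 14503648454) (nat_lit 1900) (nat_lit 12534130267) (nat_lit 474) (nat_lit 5) (nat_lit 498) (nat_lit 5) (nat_lit 499) (nat_lit 5) (nat_lit 630) (nat_lit 624) (nat_lit 306)))) (XT.nd (nat_lit 156) (nat_lit 0) (nat_lit 76) (XT.nd (nat_lit 78) (nat_lit 0) (nat_lit 76) (XT.lf (nat_lit 76) (nat_lit 2647918061) (nat_lit 0) (nat_lit 4981178633) (nat_lit 1900) (nat_lit 26569364372) (nat_lit 475) (nat_lit 5) (nat_lit 474) (nat_lit 5) (nat_lit 499) (nat_lit 5) (nat_lit 631) (nat_lit 624) (nat_lit 305)) (XT.lf (nat_lit 0) (nat_lit 8629909049) (nat_lit 1824) (nat_lit 14285570431) (nat_lit 1900) (nat_lit 11630242644) (nat_lit 475) (nat_lit 5) (nat_lit 499) (nat_lit 5) (nat_lit 500) (nat_lit 5) (nat_lit 632) (nat_lit 624) (nat_lit 304))) (XT.nd (nat_lit 78) (nat_lit 0) (nat_lit 76) (XT.lf (nat_lit 76) (nat_lit 3334510764) (nat_lit 0) (nat_lit 6369378729) (nat_lit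 1900) (nat_lit 25194975964) (nat_lit 476) (nat_lit 5) (nat_lit 475) (nat_lit 5) (nat_lit 500) (nat_lit 5) (nat_lit 633) (nat_lit 624) (nat_lit 303)) (XT.lf (nat_lit 0) (nat_lit 10962611311) (nat_lit 1824) (nat_lit 13826335840) (nat_lit 1900) (nat_lit 10466859360) (nat_lit 476) (nat_lit 5) (nat_lit 500) (nat_lit 5) (nat_lit 501) (nat_lit 5) (nat_lit 634) (nat_lit 624) (nat_lit 302))))) (XT.nd (nat_lit 312) (nat_lit 0) (nat_lit 152) (XT.nd (nat_lit 156) (nat_lit 0) (nat_lit 76) (XT.nd (nat_lit 78) (nat_lit 0) (nat_lit 76) (XT.lf (nat_lit 76) (nat_lit 4279444372) (nat_lit 0) (nat_lit 8035598728) (nat_lit 1900) (nat_lit 23303472660) (nat_lit 477) (nat_lit 5) (nat_lit 476) (nat_lit 5) (nat_lit 501) (nat_lit 5) (nat_lit 635) (nat_lit 624) (nat_lit 301)) (XT.lf (nat_lit 0) (nat_lit 13845291118) (nat_lit 1824) (nat_lit 13112223587) (nat_lit 1900) (nat_lit 9027949223) (nat_lit 477) (nat_lit 5) (nat_lit 501) (nat_lit 5) (nat_lit 502) (nat_lit 5) (nat_lit 636) (nat_lit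 624) (nat_lit 300))) (XT.nd (nat_lit 78) (nat_lit 0) (nat_lit 76) (XT.lf (nat_lit 76) (nat_lit 5497091111) (nat_lit 0) (nat_lit 9996581454) (nat_lit 1900) (nat_lit 20864328006) (nat_lit 478) (nat_lit 5) (nat_lit 477) (nat_lit 5) (nat_lit 502) (nat_lit 5) (nat_lit 637) (nat_lit 624) (nat_lit 299)) (XT.lf (nat_lit 0) (nat_lit 17309659314) (nat_lit 1824) (nat_lit 12128871923) (nat_lit 1900) (nat_lit 7296764040) (nat_lit 478) (nat_lit 5) (nat_lit 502) (nat_lit 5) (nat_lit 503) (nat_lit 5) (nat_lit 638) (nat_lit 624) (nat_lit 298)))) (XT.nd (nat_lit 156) (nat_lit 0) (nat_lit 76) (XT.nd (nat_lit 78) (nat_lit 0) (nat_lit 76) (XT.lf (nat_lit 76) (nat_lit 7002488639) (nat_lit 0) (nat_lit 12269816456) (nat_lit 1900) (nat_lit 17845624075) (nat_lit 479) (nat_lit 5) (nat_lit 478) (nat_lit 5) (nat_lit 503) (nat_lit 5) (nat_lit 639) (nat_lit 624) (nat_lit 297)) (XT.lf (nat_lit 0) (nat_lit 21388864428) (nat_lit 1824) (nat_lit 10861253181) (nat_lit 1900) (nat_lit 5255804997)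 (nat_lit 479) (nat_lit 5) (nat_lit 503) (nat_lit 5) (nat_lit 504) (nat_lit 5) (nat_lit 640) (nat_lit 624) (nat_lit 296))) (XT.nd (nat_lit 78) (nat_lit 0) (nat_lit 76) (XT.lf (nat_lit 76) (nat_lit 8811366250) (nat_lit 0) (nat_lit 14873574794) (nat_lit 1900) (nat_lit 14213991222) (nat_lit 480) (nat_lit 5) (nat_lit 479) (nat_lit 5) (nat_lit 504) (nat_lit 5) (nat_lit 641) (nat_lit 624) (nat_lit 295)) (XT.lf (nat_lit 0) (nat_lit 26117554672) (nat_lit 1824) (nat_lit 9293647492) (nat_lit 1900) (nat_lit 2886787721) (nat_lit 480) (nat_lit 5) (nat_lit 504) (nat_lit 5) (nat_lit 505) (nat_lit 5) (nat_lit 642) (nat_lit 624) (nat_lit 294))))))))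
noncomputable def xc243 : XT := (XT.nd (nat_lit 79872) (nat_lit 0) (nat_lit 7144) (XT.nd (nat_lit 1092) (nat_lit 6308) (nat_lit 0) (XT.nd (nat_lit 546) (nat_lit 3648) (nat_lit 0) (XT.nd (nat_lit 234) (nat_lit 1748) (nat_lit 0) (XT.nd (nat_lit 78) (nat_lit 0) (nat_lit 76) (XT.lf (nat_lit 76) (nat_lit 10940172140) (nat_lit 0) (nat_lit 17826945215) (nat_lit 1900) (nat_lit 9934545439) (nat_lit 481) (nat_lit 5) (nat_lit 480) (nat_lit 5) (nat_lit 505) (nat_lit 5) (nat_lit 643) (nat_lit 624) (nat_lit 293)) (XT.nd (nat_lit 78) (nat_lit 0) (nat_lit 0) (XT.lf (nat_lit 0) (nat_lit 31531942423) (nat_lit 1824) (nat_lit 7409615445) (nat_lit 1900) (nat_lit 170605943) (nat_lit 481) (nat_lit 5) (nat_lit 505) (nat_lit 5) (nat_lit 506) (nat_lit 5) (nat_lit 644) (nat_lit 624) (nat_lit 292)) (XT.lf (nat_lit 76) (nat_lit 13406101760) (nat_lit 0) (nat_lit 21149871763) (nat_lit 1900) (nat_lit 4970823206) (nat_lit 482) (nat_lit 5) (nat_lit 481) (nat_lit 5) (nat_lit 506) (nat_lit 5)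 (nat_lit 645) (nat_lit 624) (nat_lit 291)))) (XT.nd (nat_lit 156) (nat_lit 0) (nat_lit 0) (XT.nd (nat_lit 78) (nat_lit 1824) (nat_lit 0) (XT.lf (nat_lit 76) (nat_lit 34737619208) (nat_lit 0) (nat_lit 2951414608) (nat_lit 1900) (nat_lit 2259717586) (nat_lit 482) (nat_lit 5) (nat_lit 481) (nat_lit 5) (nat_lit 506) (nat_lit 5) (nat_lit 646) (nat_lit 624) (nat_lit 290)) (XT.lf (nat_lit 0) (nat_lit 705905154) (nat_lit 1900) (nat_lit 24152550753) (nat_lit 1976) (nat_lit 15516485150) (nat_lit 457) (nat_lit 5) (nat_lit 482) (nat_lit 5) (nat_lit 483) (nat_lit 5) (nat_lit 647) (nat_lit 624) (nat_lit 289))) (XT.nd (nat_lit 78) (nat_lit 0) (nat_lit 76) (XT.lf (nat_lit 0) (nat_lit 3754217186) (nat_lit 1900) (nat_lit 2689444086) (nat_lit 1976) (nat_lit 34364621877) (nat_lit 457) (nat_lit 5) (nat_lit 482) (nat_lit 5) (nat_lit 483) (nat_lit 5) (nat_lit 648) (nat_lit 624) (nat_lit 288)) (XT.lf (nat_lit 0) (nat_lit 7069659435) (nat_lit 1900) (nat_lit 21871581658) (nat_lit 76)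 (nat_lit 12304927771) (nat_lit 458) (nat_lit 5) (nat_lit 483) (nat_lit 5) (nat_lit 459) (nat_lit 5) (nat_lit 649) (nat_lit 624) (nat_lit 287))))) (XT.nd (nat_lit 234) (nat_lit 1748) (nat_lit 0) (XT.nd (nat_lit 78) (nat_lit 912) (nat_lit 0) (XT.lf (nat_lit 0) (nat_lit 182539144) (nat_lit 1064) (nat_lit 10329795470) (nat_lit 1140) (nat_lit 31179259263) (nat_lit 444) (nat_lit 5) (nat_lit 458) (nat_lit 5) (nat_lit 459) (nat_lit 5) (nat_lit 650) (nat_lit 624) (nat_lit 286)) (XT.nd (nat_lit 78) (nat_lit 912) (nat_lit 0) (XT.lf (nat_lit 0) (nat_lit 14226706577) (nat_lit 1140) (nat_lit 19226915561) (nat_lit 76) (nat_lit 8688248448) (nat_lit 444) (nat_lit 5) (nat_lit 459) (nat_lit 5) (nat_lit 445) (nat_lit 5) (nat_lit 651) (nat_lit 624) (nat_lit 285)) (XT.lf (nat_lit 0) (nat_lit 3477096896) (nat_lit 912) (nat_lit 14628189970) (nat_lit 988) (nat_lit 24494067605) (nat_lit 432) (nat_lit 5) (nat_lit 444) (nat_lit 5) (nat_lit 445) (nat_lit 5) (nat_lit 652) (nat_lit 624)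 (nat_lit 284)))) (XT.nd (nat_lit 156) (nat_lit 836) (nat_lit 0) (XT.nd (nat_lit 78) (nat_lit 912) (nat_lit 0) (XT.lf (nat_lit 0) (nat_lit 22219963041) (nat_lit 988) (nat_lit 16199120676) (nat_lit 76) (nat_lit 4643733890) (nat_lit 432) (nat_lit 5) (nat_lit 445) (nat_lit 5) (nat_lit 433) (nat_lit 5) (nat_lit 653) (nat_lit 624) (nat_lit 283)) (XT.lf (nat_lit 0) (nat_lit 7178795589) (nat_lit 912) (nat_lit 19380593926) (nat_lit 988) (nat_lit 16973311415) (nat_lit 420) (nat_lit 5) (nat_lit 432) (nat_lit 5) (nat_lit 433) (nat_lit 5) (nat_lit 654) (nat_lit 624) (nat_lit 282))) (XT.nd (nat_lit 78) (nat_lit 836) (nat_lit 0) (XT.lf (nat_lit 0) (nat_lit 31094266299) (nat_lit 988) (nat_lit 12767898810) (nat_lit 76) (nat_lit 147643631) (nat_lit 420) (nat_lit 5) (nat_lit 433) (nat_lit 5) (nat_lit 421) (nat_lit 5) (nat_lit 655) (nat_lit 624) (nat_lit 281)) (XT.lf (nat_lit 0) (nat_lit 11308842576) (nat_lit 836) (nat_lit 24611776945) (nat_lit 912) (nat_lit 8571823662) (nat_lit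 409) (nat_lit 5) (nat_lit 420) (nat_lit 5) (nat_lit 421) (nat_lit 5) (nat_lit 656) (nat_lit 624) (nat_lit 280)))))) (XT.nd (nat_lit 546) (nat_lit 2964) (nat_lit 0) (XT.nd (nat_lit 234) (nat_lit 2432) (nat_lit 0) (XT.nd (nat_lit 78) (nat_lit 912) (nat_lit 0) (XT.lf (nat_lit 0) (nat_lit 36039242821) (nat_lit 836) (nat_lit 4888955732) (nat_lit 912) (nat_lit 4054837842) (nat_lit 409) (nat_lit 5) (nat_lit 420) (nat_lit 5) (nat_lit 421) (nat_lit 5) (nat_lit 657) (nat_lit 624) (nat_lit 279)) (XT.nd (nat_lit 78) (nat_lit 0) (nat_lit 0) (XT.lf (nat_lit 0) (nat_lit 747648910) (nat_lit 912) (nat_lit 29594958538) (nat_lit 76) (nat_lit 15136714191) (nat_lit 397) (nat_lit 5) (nat_lit 409) (nat_lit 5) (nat_lit 398) (nat_lit 5) (nat_lit 658) (nat_lit 624) (nat_lit 278)) (XT.lf (nat_lit 0) (nat_lit 5683779341) (nat_lit 912) (nat_lit 4714597324) (nat_lit 76) (nat_lit 35584782160) (nat_lit 397) (nat_lit 5) (nat_lit 409) (nat_lit 5) (nat_lit 398) (nat_lit 5) (nat_lit 659) (nat_lit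 624) (nat_lit 277)))) (XT.nd (nat_lit 156) (nat_lit 1596) (nat_lit 0) (XT.nd (nat_lit 78) (nat_lit 0) (nat_lit 0) (XT.lf (nat_lit 0) (nat_lit 10919101498) (nat_lit 912) (nat_lit 25622813724) (nat_lit 76) (nat_lit 9951148200) (nat_lit 386) (nat_lit 5) (nat_lit 398) (nat_lit 5) (nat_lit 387) (nat_lit 5) (nat_lit 660) (nat_lit 624) (nat_lit 276)) (XT.lf (nat_lit 0) (nat_lit 16358916703) (nat_lit 912) (nat_lit 51854201) (nat_lit 76) (nat_lit 30600399525) (nat_lit 386) (nat_lit 5) (nat_lit 398) (nat_lit 5) (nat_lit 387) (nat_lit 5) (nat_lit 661) (nat_lit 624) (nat_lit 275))) (XT.nd (nat_lit 78) (nat_lit 760) (nat_lit 0) (XT.lf (nat_lit 0) (nat_lit 22105773042) (nat_lit 912) (nat_lit 21188622384) (nat_lit 76) (nat_lit 4241279302) (nat_lit 375) (nat_lit 5) (nat_lit 387) (nat_lit 5) (nat_lit 376) (nat_lit 5) (nat_lit 662) (nat_lit 624) (nat_lit 274)) (XT.lf (nat_lit 0) (nat_lit 5162053964) (nat_lit 760) (nat_lit 22947164803) (nat_lit 836) (nat_lit 19958617350) (nat_lit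 365) (nat_lit 5) (nat_lit 375) (nat_lit 5) (nat_lit 376) (nat_lit 5) (nat_lit 663) (nat_lit 624) (nat_lit 273))))) (XT.nd (nat_lit 312) (nat_lit 1444) (nat_lit 0) (XT.nd (nat_lit 156) (nat_lit 760) (nat_lit 0) (XT.nd (nat_lit 78) (nat_lit 760) (nat_lit 0) (XT.lf (nat_lit 0) (nat_lit 32326025232) (nat_lit 760) (nat_lit 2048012343) (nat_lit 836) (nat_lit 14233777121) (nat_lit 365) (nat_lit 5) (nat_lit 375) (nat_lit 5) (nat_lit 376) (nat_lit 5) (nat_lit 664) (nat_lit 624) (nat_lit 272)) (XT.lf (nat_lit 0) (nat_lit 10891484303) (nat_lit 760) (nat_lit 30067625452) (nat_lit 836) (nat_lit 8195583997) (nat_lit 355) (nat_lit 5) (nat_lit 365) (nat_lit 5) (nat_lit 366) (nat_lit 5) (nat_lit 665) (nat_lit 624) (nat_lit 271))) (XT.nd (nat_lit 78) (nat_lit 760) (nat_lit 0) (XT.lf (nat_lit 0) (nat_lit 38814255773) (nat_lit 760) (nat_lit 8983506021) (nat_lit 836) (nat_lit 1912311072) (nat_lit 355) (nat_lit 5) (nat_lit 365) (nat_lit 5) (nat_lit 366) (nat_lit 5) (nat_lit 666)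 (nat_lit 624) (nat_lit 270)) (XT.lf (nat_lit 0) (nat_lit 4630814215) (nat_lit 760) (nat_lit 33141414487) (nat_lit 76) (nat_lit 12499883782) (nat_lit 345) (nat_lit 5) (nat_lit 355) (nat_lit 5) (nat_lit 346) (nat_lit 5) (nat_lit 667) (nat_lit 624) (nat_lit 269)))) (XT.nd (nat_lit 156) (nat_lit 684) (nat_lit 0) (XT.nd (nat_lit 78) (nat_lit 760) (nat_lit 0) (XT.lf (nat_lit 0) (nat_lit 11411480900) (nat_lit 760) (nat_lit 5052065073) (nat_lit 76) (nat_lit 34378948462) (nat_lit 345) (nat_lit 5) (nat_lit 355) (nat_lit 5) (nat_lit 346) (nat_lit 5) (nat_lit 668) (nat_lit 624) (nat_lit 268)) (XT.lf (nat_lit 0) (nat_lit 18517447174) (nat_lit 836) (nat_lit 27544682690) (nat_lit 76) (nat_lit 5358360478) (nat_lit 335) (nat_lit 5) (nat_lit 346) (nat_lit 5) (nat_lit 336) (nat_lit 5) (nat_lit 669) (nat_lit 624) (nat_lit 267))) (XT.nd (nat_lit 77688) (nat_lit 0) (nat_lit 11020) (XT.lf (nat_lit 0) (nat_lit 1348864881) (nat_lit 684) (nat_lit 24567774578) (nat_lit 760) (nat_lit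 26090384613) (nat_lit 326) (nat_lit 5) (nat_lit 335) (nat_lit 5) (nat_lit 336) (nat_lit 5) (nat_lit 670) (nat_lit 624) (nat_lit 266)) (XT.lf (nat_lit 0) (nat_lit 2212415815) (nat_lit 1900) (nat_lit 7025043648) (nat_lit 1900) (nat_lit 7025043648) (nat_lit 471) (nat_lit 3) (nat_lit 496) (nat_lit 3) (nat_lit 496) (nat_lit 5) (nat_lit 625) (nat_lit 625) (nat_lit 310))))))) (XT.nd (nat_lit 1170) (nat_lit 3876) (nat_lit 0) (XT.nd (nat_lit 546) (nat_lit 0) (nat_lit 304) (XT.nd (nat_lit 234) (nat_lit 0) (nat_lit 152) (XT.nd (nat_lit 78) (nat_lit 0) (nat_lit 76) (XT.lf (nat_lit 76) (nat_lit 2109309471) (nat_lit 0) (nat_lit 2435815663) (nat_lit 1900) (nat_lit 28303606466) (nat_lit 472) (nat_lit 5) (nat_lit 471) (nat_lit 3) (nat_lit 496) (nat_lit 5) (nat_lit 626) (nat_lit 625) (nat_lit 309)) (XT.nd (nat_lit 78) (nat_lit 0) (nat_lit 0) (XT.lf (nat_lit 0) (nat_lit 4851500891) (nat_lit 1824) (nat_lit 14486611008) (nat_lit 1900) (nat_lit 13837146158) (nat_lit 472) (nat_lit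 5) (nat_lit 496) (nat_lit 5) (nat_lit 497) (nat_lit 5) (nat_lit 627) (nat_lit 625) (nat_lit 308)) (XT.lf (nat_lit 76) (nat_lit 2101824930) (nat_lit 0) (nat_lit 3090353190) (nat_lit 1900) (nat_lit 28315573541) (nat_lit 473) (nat_lit 5) (nat_lit 472) (nat_lit 5) (nat_lit 497) (nat_lit 5) (nat_lit 628) (nat_lit 625) (nat_lit 307)))) (XT.nd (nat_lit 156) (nat_lit 0) (nat_lit 76) (XT.nd (nat_lit 78) (nat_lit 0) (nat_lit 0) (XT.lf (nat_lit 0) (nat_lit 5723488704) (nat_lit 1824) (nat_lit 14715628292) (nat_lit 1900) (nat_lit 13404101839) (nat_lit 473) (nat_lit 5) (nat_lit 497) (nat_lit 5) (nat_lit 498) (nat_lit 5) (nat_lit 629) (nat_lit 625) (nat_lit 306)) (XT.lf (nat_lit 76) (nat_lit 2317525947) (nat_lit 0) (nat_lit 3981870034) (nat_lit 1900) (nat_lit 27885320056) (nat_lit 474) (nat_lit 5) (nat_lit 473) (nat_lit 5) (nat_lit 498) (nat_lit 5) (nat_lit 630) (nat_lit 625) (nat_lit 305))) (XT.nd (nat_lit 78) (nat_lit 0) (nat_lit 0) (XT.lf (nat_lit 0) (nat_lit 7067846845)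 (nat_lit 1824) (nat_lit 14724947995) (nat_lit 1900) (nat_lit 12736627925) (nat_lit 474) (nat_lit 5) (nat_lit 498) (nat_lit 5) (nat_lit 499) (nat_lit 5) (nat_lit 631) (nat_lit 625) (nat_lit 304)) (XT.lf (nat_lit 76) (nat_lit 2769197393) (nat_lit 0) (nat_lit 5125334886) (nat_lit 1900) (nat_lit 26985634129) (nat_lit 475) (nat_lit 5) (nat_lit 474) (nat_lit 5) (nat_lit 499) (nat_lit 5) (nat_lit 632) (nat_lit 625) (nat_lit 303))))) (XT.nd (nat_lit 312) (nat_lit 0) (nat_lit 152) (XT.nd (nat_lit 156) (nat_lit 0) (nat_lit 76) (XT.nd (nat_lit 78) (nat_lit 0) (nat_lit 0) (XT.lf (nat_lit 0) (nat_lit 8912864600) (nat_lit 1824) (nat_lit 14501797540) (nat_lit 1900) (nat_lit 11819760608) (nat_lit 475) (nat_lit 5) (nat_lit 499) (nat_lit 5) (nat_lit 500) (nat_lit 5) (nat_lit 633) (nat_lit 625) (nat_lit 302)) (XT.lf (nat_lit 76) (nat_lit 3470228146) (nat_lit 0) (nat_lit 6536380807) (nat_lit 1900) (nat_lit 25588054439) (nat_lit 476) (nat_lit 5) (nat_lit 475) (nat_lit 5) (nat_lit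 500) (nat_lit 5) (nat_lit 634) (nat_lit 625) (nat_lit 301))) (XT.nd (nat_lit 78) (nat_lit 0) (nat_lit 0) (XT.lf (nat_lit 0) (nat_lit 11288122817) (nat_lit 1824) (nat_lit 14032800062) (nat_lit 1900) (nat_lit 10637868163) (nat_lit 476) (nat_lit 5) (nat_lit 500) (nat_lit 5) (nat_lit 501) (nat_lit 5) (nat_lit 635) (nat_lit 625) (nat_lit 300)) (XT.lf (nat_lit 76) (nat_lit 4434634817) (nat_lit 0) (nat_lit 8231336810) (nat_lit 1900) (nat_lit 23662815609) (nat_lit 477) (nat_lit 5) (nat_lit 476) (nat_lit 5) (nat_lit 501) (nat_lit 5) (nat_lit 636) (nat_lit 625) (nat_lit 299)))) (XT.nd (nat_lit 156) (nat_lit 0) (nat_lit 76) (XT.nd (nat_lit 78) (nat_lit 0) (nat_lit 0) (XT.lf (nat_lit 0) (nat_lit 14224550128) (nat_lit 1824) (nat_lit 13303950598) (nat_lit 1900) (nat_lit 9174619253) (nat_lit 477) (nat_lit 5) (nat_lit 501) (nat_lit 5) (nat_lit 502) (nat_lit 5) (nat_lit 637) (nat_lit 625) (nat_lit 298)) (XT.lf (nat_lit 76) (nat_lit 5677086463) (nat_lit 0) (nat_lit 10227260650)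 (nat_lit 1900) (nat_lit 21178791405) (nat_lit 478) (nat_lit 5) (nat_lit 477) (nat_lit 5) (nat_lit 502) (nat_lit 5) (nat_lit 638) (nat_lit 625) (nat_lit 297))) (XT.nd (nat_lit 78) (nat_lit 0) (nat_lit 0) (XT.lf (nat_lit 0) (nat_lit 17754481385) (nat_lit 1824) (nat_lit 12300591295) (nat_lit 1900) (nat_lit 7412950000) (nat_lit 478) (nat_lit 5) (nat_lit 502) (nat_lit 5) (nat_lit 503) (nat_lit 5) (nat_lit 639) (nat_lit 625) (nat_lit 296)) (XT.lf (nat_lit 76) (nat_lit 7212930307) (nat_lit 0) (nat_lit 12541972906) (nat_lit 1900) (nat_lit 18103435692) (nat_lit 479) (nat_lit 5) (nat_lit 478) (nat_lit 5) (nat_lit 503) (nat_lit 5) (nat_lit 640) (nat_lit 625) (nat_lit 295)))))) (XT.nd (nat_lit 546) (nat_lit 4484) (nat_lit 0) (XT.nd (nat_lit 234) (nat_lit 0) (nat_lit 76) (XT.nd (nat_lit 78) (nat_lit 0) (nat_lit 0) (XT.lf (nat_lit 0) (nat_lit 21911718454) (nat_lit 1824) (nat_lit 11007385609) (nat_lit 1900) (nat_lit 5335029767) (nat_lit 479) (nat_lit 5) (nat_lit 503) (nat_lit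 5) (nat_lit 504) (nat_lit 5) (nat_lit 641) (nat_lit 625) (nat_lit 294)) (XT.nd (nat_lit 78) (nat_lit 0) (nat_lit 76) (XT.lf (nat_lit 76) (nat_lit 9058218497) (nat_lit 0) (nat_lit 15194092400) (nat_lit 1900) (nat_lit 14402721012) (nat_lit 480) (nat_lit 5) (nat_lit 479) (nat_lit 5) (nat_lit 504) (nat_lit 5) (nat_lit 642) (nat_lit 625) (nat_lit 293)) (XT.lf (nat_lit 0) (nat_lit 26731593414) (nat_lit 1824) (nat_lit 9408291466) (nat_lit 1900) (nat_lit 2922225577) (nat_lit 480) (nat_lit 5) (nat_lit 504) (nat_lit 5) (nat_lit 505) (nat_lit 5) (nat_lit 643) (nat_lit 625) (nat_lit 292)))) (XT.nd (nat_lit 156) (nat_lit 0) (nat_lit 76) (XT.nd (nat_lit 78) (nat_lit 0) (nat_lit 76) (XT.lf (nat_lit 76) (nat_lit 11229735947) (nat_lit 0) (nat_lit 18203073029) (nat_lit 1900) (nat_lit 10041074722) (nat_lit 481) (nat_lit 5) (nat_lit 480) (nat_lit 5) (nat_lit 505) (nat_lit 5) (nat_lit 644) (nat_lit 625) (nat_lit 291)) (XT.lf (nat_lit 0) (nat_lit 32251034300) (nat_lit 1824) (nat_lit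 7486533343) (nat_lit 1900) (nat_lit 155065123) (nat_lit 481) (nat_lit 5) (nat_lit 505) (nat_lit 5) (nat_lit 506) (nat_lit 5) (nat_lit 645) (nat_lit 625) (nat_lit 290))) (XT.nd (nat_lit 78) (nat_lit 0) (nat_lit 0) (XT.lf (nat_lit 76) (nat_lit 13745029296) (nat_lit 0) (nat_lit 21589242070) (nat_lit 1900) (nat_lit 4981312573) (nat_lit 482) (nat_lit 5) (nat_lit 481) (nat_lit 5) (nat_lit 506) (nat_lit 5) (nat_lit 646) (nat_lit 625) (nat_lit 289)) (XT.lf (nat_lit 76) (nat_lit 35501788749) (nat_lit 0) (nat_lit 3026494735) (nat_lit 1900) (nat_lit 2217728509) (nat_lit 482) (nat_lit 5) (nat_lit 481) (nat_lit 5) (nat_lit 506) (nat_lit 5) (nat_lit 647) (nat_lit 625) (nat_lit 288))))) (XT.nd (nat_lit 312) (nat_lit 1824) (nat_lit 0) (XT.nd (nat_lit 156) (nat_lit 988) (nat_lit 0) (XT.nd (nat_lit 78) (nat_lit 0) (nat_lit 0) (XT.lf (nat_lit 0) (nat_lit 804735858) (nat_lit 1900) (nat_lit 24563703966) (nat_lit 1976) (nat_lit 15812300942) (nat_lit 457) (nat_lit 5) (nat_lit 482)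 (nat_lit 5) (nat_lit 483) (nat_lit 5) (nat_lit 648) (nat_lit 625) (nat_lit 287)) (XT.lf (nat_lit 0) (nat_lit 3912353099) (nat_lit 1900) (nat_lit 2672744926) (nat_lit 1976) (nat_lit 35037684990) (nat_lit 457) (nat_lit 5) (nat_lit 482) (nat_lit 5) (nat_lit 483) (nat_lit 5) (nat_lit 649) (nat_lit 625) (nat_lit 286))) (XT.nd (nat_lit 78) (nat_lit 1064) (nat_lit 0) (XT.lf (nat_lit 0) (nat_lit 7292853416) (nat_lit 1900) (nat_lit 22237269800) (nat_lit 76) (nat_lit 12539328339) (nat_lit 458) (nat_lit 5) (nat_lit 483) (nat_lit 5) (nat_lit 459) (nat_lit 5) (nat_lit 650) (nat_lit 625) (nat_lit 285)) (XT.lf (nat_lit 0) (nat_lit 257461422) (nat_lit 1064) (nat_lit 10545779481) (nat_lit 1140) (nat_lit 31720567080) (nat_lit 444) (nat_lit 5) (nat_lit 458) (nat_lit 5) (nat_lit 459) (nat_lit 5) (nat_lit 651) (nat_lit 625) (nat_lit 284)))) (XT.nd (nat_lit 156) (nat_lit 912) (nat_lit 0) (XT.nd (nat_lit 78) (nat_lit 912) (nat_lit 0) (XT.lf (nat_lit 0) (nat_lit 14590258985) (nat_lit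 1140) (nat_lit 19539934048) (nat_lit 76) (nat_lit 8852930108) (nat_lit 444) (nat_lit 5) (nat_lit 459) (nat_lit 5) (nat_lit 445) (nat_lit 5) (nat_lit 652) (nat_lit 625) (nat_lit 283)) (XT.lf (nat_lit 0) (nat_lit 3617688132) (nat_lit 912) (nat_lit 14927634669) (nat_lit 988) (nat_lit 24904455753) (nat_lit 432) (nat_lit 5) (nat_lit 444) (nat_lit 5) (nat_lit 445) (nat_lit 5) (nat_lit 653) (nat_lit 625) (nat_lit 282))) (XT.nd (nat_lit 78) (nat_lit 912) (nat_lit 0) (XT.lf (nat_lit 0) (nat_lit 22740720658) (nat_lit 988) (nat_lit 16451870757) (nat_lit 76) (nat_lit 4729951063) (nat_lit 432) (nat_lit 5) (nat_lit 445) (nat_lit 5) (nat_lit 433) (nat_lit 5) (nat_lit 654) (nat_lit 625) (nat_lit 281)) (XT.lf (nat_lit 0) (nat_lit 7393135200) (nat_lit 912) (nat_lit 19772762683) (nat_lit 988) (nat_lit 17235946423) (nat_lit 420) (nat_lit 5) (nat_lit 432) (nat_lit 5) (nat_lit 433) (nat_lit 5) (nat_lit 655) (nat_lit 625) (nat_lit 280))))))))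
noncomputable def xc244 : XT := (XT.nd (nat_lit 80028) (nat_lit 0) (nat_lit 0) (XT.nd (nat_lit 78858) (nat_lit 0) (nat_lit 9576) (XT.nd (nat_lit 546) (nat_lit 2280) (nat_lit 0) (XT.nd (nat_lit 234) (nat_lit 2584) (nat_lit 0) (XT.nd (nat_lit 78) (nat_lit 836) (nat_lit 0) (XT.lf (nat_lit 0) (nat_lit 31789966322) (nat_lit 988) (nat_lit 12952370582) (nat_lit 76) (nat_lit 146187568) (nat_lit 420) (nat_lit 5) (nat_lit 433) (nat_lit 5) (nat_lit 421) (nat_lit 5) (nat_lit 656) (nat_lit 625) (nat_lit 279)) (XT.nd (nat_lit 78) (nat_lit 0) (nat_lit 0) (XT.lf (nat_lit 0) (nat_lit 11605439275) (nat_lit 836) (nat_lit 25106417200) (nat_lit 912) (nat_lit 8668975014) (nat_lit 409) (nat_lit 5) (nat_lit 420) (nat_lit 5) (nat_lit 421) (nat_lit 5) (nat_lit 657) (nat_lit 625) (nat_lit 278)) (XT.lf (nat_lit 0) (nat_lit 36829066744) (nat_lit 836) (nat_lit 4989092411) (nat_lit 912) (nat_lit 4063106049) (nat_lit 409) (nat_lit 5) (nat_lit 420) (nat_lit 5) (nat_lit 421) (nat_lit 5) (nat_lit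 658) (nat_lit 625) (nat_lit 277)))) (XT.nd (nat_lit 156) (nat_lit 1672) (nat_lit 0) (XT.nd (nat_lit 78) (nat_lit 0) (nat_lit 0) (XT.lf (nat_lit 0) (nat_lit 833508534) (nat_lit 912) (nat_lit 30115888997) (nat_lit 76) (nat_lit 15438088575) (nat_lit 397) (nat_lit 5) (nat_lit 409) (nat_lit 5) (nat_lit 398) (nat_lit 5) (nat_lit 659) (nat_lit 625) (nat_lit 276)) (XT.lf (nat_lit 0) (nat_lit 5866971248) (nat_lit 912) (nat_lit 4739312102) (nat_lit 76) (nat_lit 36295144568) (nat_lit 397) (nat_lit 5) (nat_lit 409) (nat_lit 5) (nat_lit 398) (nat_lit 5) (nat_lit 660) (nat_lit 625) (nat_lit 275))) (XT.nd (nat_lit 78) (nat_lit 836) (nat_lit 0) (XT.lf (nat_lit 0) (nat_lit 11206088911) (nat_lit 912) (nat_lit 26064778211) (nat_lit 76) (nat_lit 10150681778) (nat_lit 386) (nat_lit 5) (nat_lit 398) (nat_lit 5) (nat_lit 387) (nat_lit 5) (nat_lit 661) (nat_lit 625) (nat_lit 274)) (XT.lf (nat_lit 0) (nat_lit 16433843) (nat_lit 836) (nat_lit 16737028073) (nat_lit 912) (nat_lit 31196580974)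 (nat_lit 375) (nat_lit 5) (nat_lit 386) (nat_lit 5) (nat_lit 387) (nat_lit 5) (nat_lit 662) (nat_lit 625) (nat_lit 273))))) (XT.nd (nat_lit 234) (nat_lit 1520) (nat_lit 0) (XT.nd (nat_lit 78) (nat_lit 760) (nat_lit 0) (XT.lf (nat_lit 0) (nat_lit 22614290333) (nat_lit 912) (nat_lit 21542423346) (nat_lit 76) (nat_lit 4328342967) (nat_lit 375) (nat_lit 5) (nat_lit 387) (nat_lit 5) (nat_lit 376) (nat_lit 5) (nat_lit 663) (nat_lit 625) (nat_lit 272)) (XT.nd (nat_lit 78) (nat_lit 0) (nat_lit 0) (XT.lf (nat_lit 0) (nat_lit 5334806191) (nat_lit 760) (nat_lit 23402148097) (nat_lit 836) (nat_lit 20290924057) (nat_lit 365) (nat_lit 5) (nat_lit 375) (nat_lit 5) (nat_lit 376) (nat_lit 5) (nat_lit 664) (nat_lit 625) (nat_lit 271)) (XT.lf (nat_lit 0) (nat_lit 33040693920) (nat_lit 760) (nat_lit 2085090235) (nat_lit 836) (nat_lit 14452898115) (nat_lit 365) (nat_lit 5) (nat_lit 375) (nat_lit 5) (nat_lit 376) (nat_lit 5) (nat_lit 665) (nat_lit 625) (nat_lit 270)))) (XT.nd (nat_lit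 156) (nat_lit 760) (nat_lit 0) (XT.nd (nat_lit 78) (nat_lit 0) (nat_lit 0) (XT.lf (nat_lit 0) (nat_lit 11178269029) (nat_lit 760) (nat_lit 30663501050) (nat_lit 836) (nat_lit 8294744649) (nat_lit 355) (nat_lit 5) (nat_lit 365) (nat_lit 5) (nat_lit 366) (nat_lit 5) (nat_lit 666) (nat_lit 625) (nat_lit 269)) (XT.lf (nat_lit 0) (nat_lit 39658143869) (nat_lit 760) (nat_lit 9157806621) (nat_lit 836) (nat_lit 1887075894) (nat_lit 355) (nat_lit 5) (nat_lit 365) (nat_lit 5) (nat_lit 366) (nat_lit 5) (nat_lit 667) (nat_lit 625) (nat_lit 268))) (XT.nd (nat_lit 78) (nat_lit 0) (nat_lit 0) (XT.lf (nat_lit 0) (nat_lit 4785332125) (nat_lit 760) (nat_lit 33735053673) (nat_lit 76) (nat_lit 12755927760) (nat_lit 345) (nat_lit 5) (nat_lit 355) (nat_lit 5) (nat_lit 346) (nat_lit 5) (nat_lit 668) (nat_lit 625) (nat_lit 267)) (XT.lf (nat_lit 0) (nat_lit 11700398387) (nat_lit 760) (nat_lit 5085273919) (nat_lit 76) (nat_lit 35072455178) (nat_lit 345) (nat_lit 5) (nat_lit 355) (nat_lit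 5) (nat_lit 346) (nat_lit 5) (nat_lit 669) (nat_lit 625) (nat_lit 266)))))) (XT.nd (nat_lit 546) (nat_lit 0) (nat_lit 228) (XT.nd (nat_lit 234) (nat_lit 0) (nat_lit 76) (XT.nd (nat_lit 78) (nat_lit 0) (nat_lit 0) (XT.lf (nat_lit 0) (nat_lit 2318609465) (nat_lit 1900) (nat_lit 7133950523) (nat_lit 1900) (nat_lit 7133950523) (nat_lit 471) (nat_lit 3) (nat_lit 496) (nat_lit 3) (nat_lit 496) (nat_lit 5) (nat_lit 626) (nat_lit 626) (nat_lit 308)) (XT.nd (nat_lit 78) (nat_lit 0) (nat_lit 76) (XT.lf (nat_lit 76) (nat_lit 2214267947) (nat_lit 0) (nat_lit 2543628687) (nat_lit 1900) (nat_lit 28745364853) (nat_lit 472) (nat_lit 5) (nat_lit 471) (nat_lit 3) (nat_lit 496) (nat_lit 5) (nat_lit 627) (nat_lit 626) (nat_lit 307)) (XT.lf (nat_lit 0) (nat_lit 5067634146) (nat_lit 1824) (nat_lit 14712028790) (nat_lit 1900) (nat_lit 14056710996) (nat_lit 472) (nat_lit 5) (nat_lit 496) (nat_lit 5) (nat_lit 497) (nat_lit 5) (nat_lit 628) (nat_lit 626) (nat_lit 306)))) (XT.nd (nat_lit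 156) (nat_lit 0) (nat_lit 76) (XT.nd (nat_lit 78) (nat_lit 0) (nat_lit 76) (XT.lf (nat_lit 76) (nat_lit 2207752745) (nat_lit 0) (nat_lit 3205451640) (nat_lit 1900) (nat_lit 28762351574) (nat_lit 473) (nat_lit 5) (nat_lit 472) (nat_lit 5) (nat_lit 497) (nat_lit 5) (nat_lit 629) (nat_lit 626) (nat_lit 305)) (XT.lf (nat_lit 0) (nat_lit 5952504263) (nat_lit 1824) (nat_lit 14944658452) (nat_lit 1900) (nat_lit 13620622640) (nat_lit 473) (nat_lit 5) (nat_lit 497) (nat_lit 5) (nat_lit 498) (nat_lit 5) (nat_lit 630) (nat_lit 626) (nat_lit 304))) (XT.nd (nat_lit 78) (nat_lit 0) (nat_lit 76) (XT.lf (nat_lit 76) (nat_lit 2428729383) (nat_lit 0) (nat_lit 4109375376) (nat_lit 1900) (nat_lit 28328044377) (nat_lit 474) (nat_lit 5) (nat_lit 473) (nat_lit 5) (nat_lit 498) (nat_lit 5) (nat_lit 631) (nat_lit 626) (nat_lit 303)) (XT.lf (nat_lit 0) (nat_lit 7319409730) (nat_lit 1824) (nat_lit 14953344083) (nat_lit 1900) (nat_lit 12945046617) (nat_lit 474) (nat_lit 5) (nat_lit 498)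 (nat_lit 5) (nat_lit 499) (nat_lit 5) (nat_lit 632) (nat_lit 626) (nat_lit 302))))) (XT.nd (nat_lit 312) (nat_lit 0) (nat_lit 152) (XT.nd (nat_lit 156) (nat_lit 0) (nat_lit 76) (XT.nd (nat_lit 78) (nat_lit 0) (nat_lit 76) (XT.lf (nat_lit 76) (nat_lit 2890249326) (nat_lit 0) (nat_lit 5270645006) (nat_lit 1900) (nat_lit 27414699435) (nat_lit 475) (nat_lit 5) (nat_lit 474) (nat_lit 5) (nat_lit 499) (nat_lit 5) (nat_lit 633) (nat_lit 626) (nat_lit 301)) (XT.lf (nat_lit 0) (nat_lit 9197193949) (nat_lit 1824) (nat_lit 14725047351) (nat_lit 1900) (nat_lit 12014742048) (nat_lit 475) (nat_lit 5) (nat_lit 499) (nat_lit 5) (nat_lit 500) (nat_lit 5) (nat_lit 634) (nat_lit 626) (nat_lit 300))) (XT.nd (nat_lit 78) (nat_lit 0) (nat_lit 76) (XT.lf (nat_lit 76) (nat_lit 3605979466) (nat_lit 0) (nat_lit 6705184647) (nat_lit 1900) (nat_lit 25993297801) (nat_lit 476) (nat_lit 5) (nat_lit 475) (nat_lit 5) (nat_lit 500) (nat_lit 5) (nat_lit 635) (nat_lit 626) (nat_lit 299)) (XT.lf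 (nat_lit 0) (nat_lit 11616018376) (nat_lit 1824) (nat_lit 14246114181) (nat_lit 1900) (nat_lit 10813785480) (nat_lit 476) (nat_lit 5) (nat_lit 500) (nat_lit 5) (nat_lit 501) (nat_lit 5) (nat_lit 636) (nat_lit 626) (nat_lit 298)))) (XT.nd (nat_lit 156) (nat_lit 0) (nat_lit 76) (XT.nd (nat_lit 78) (nat_lit 0) (nat_lit 76) (XT.lf (nat_lit 76) (nat_lit 4590226356) (nat_lit 0) (nat_lit 8429629547) (nat_lit 1900) (nat_lit 24033489736) (nat_lit 477) (nat_lit 5) (nat_lit 476) (nat_lit 5) (nat_lit 501) (nat_lit 5) (nat_lit 637) (nat_lit 626) (nat_lit 297)) (XT.lf (nat_lit 0) (nat_lit 14607419819) (nat_lit 1824) (nat_lit 13502250428) (nat_lit 1900) (nat_lit 9325538633) (nat_lit 477) (nat_lit 5) (nat_lit 501) (nat_lit 5) (nat_lit 502) (nat_lit 5) (nat_lit 638) (nat_lit 626) (nat_lit 296))) (XT.nd (nat_lit 78) (nat_lit 0) (nat_lit 76) (XT.lf (nat_lit 76) (nat_lit 5857961459) (nat_lit 0) (nat_lit 10461359464) (nat_lit 1900) (nat_lit 21503536821) (nat_lit 478) (nat_lit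 5) (nat_lit 477) (nat_lit 5) (nat_lit 502) (nat_lit 5) (nat_lit 639) (nat_lit 626) (nat_lit 295)) (XT.lf (nat_lit 0) (nat_lit 18204370018) (nat_lit 1824) (nat_lit 12478496559) (nat_lit 1900) (nat_lit 7532614883) (nat_lit 478) (nat_lit 5) (nat_lit 502) (nat_lit 5) (nat_lit 503) (nat_lit 5) (nat_lit 640) (nat_lit 626) (nat_lit 294))))))) (XT.nd (nat_lit 1092) (nat_lit 6612) (nat_lit 0) (XT.nd (nat_lit 546) (nat_lit 3496) (nat_lit 0) (XT.nd (nat_lit 234) (nat_lit 0) (nat_lit 152) (XT.nd (nat_lit 78) (nat_lit 0) (nat_lit 76) (XT.lf (nat_lit 76) (nat_lit 7424847406) (nat_lit 0) (nat_lit 12818533357) (nat_lit 1900) (nat_lit 18370251748) (nat_lit 479) (nat_lit 5) (nat_lit 478) (nat_lit 5) (nat_lit 503) (nat_lit 5) (nat_lit 641) (nat_lit 626) (nat_lit 293)) (XT.nd (nat_lit 78) (nat_lit 0) (nat_lit 0) (XT.lf (nat_lit 0) (nat_lit 22441337614) (nat_lit 1824) (nat_lit 11159201299) (nat_lit 1900) (nat_lit 5416844424) (nat_lit 479) (nat_lit 5) (nat_lit 503) (nat_lit 5)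 (nat_lit 504) (nat_lit 5) (nat_lit 642) (nat_lit 626) (nat_lit 292)) (XT.lf (nat_lit 76) (nat_lit 9307265336) (nat_lit 0) (nat_lit 15520125450) (nat_lit 1900) (nat_lit 14598935722) (nat_lit 480) (nat_lit 5) (nat_lit 479) (nat_lit 5) (nat_lit 504) (nat_lit 5) (nat_lit 643) (nat_lit 626) (nat_lit 291)))) (XT.nd (nat_lit 156) (nat_lit 0) (nat_lit 76) (XT.nd (nat_lit 78) (nat_lit 0) (nat_lit 0) (XT.lf (nat_lit 0) (nat_lit 27354352586) (nat_lit 1824) (nat_lit 9527994228) (nat_lit 1900) (nat_lit 2959238045) (nat_lit 480) (nat_lit 5) (nat_lit 504) (nat_lit 5) (nat_lit 505) (nat_lit 5) (nat_lit 644) (nat_lit 626) (nat_lit 290)) (XT.lf (nat_lit 76) (nat_lit 11522343319) (nat_lit 0) (nat_lit 18585962739) (nat_lit 1900) (nat_lit 10153313340) (nat_lit 481) (nat_lit 5) (nat_lit 480) (nat_lit 5) (nat_lit 505) (nat_lit 5) (nat_lit 645) (nat_lit 626) (nat_lit 289))) (XT.nd (nat_lit 78) (nat_lit 0) (nat_lit 0) (XT.lf (nat_lit 0) (nat_lit 32981073276) (nat_lit 1824) (nat_lit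 7567757270) (nat_lit 1900) (nat_lit 139949453) (nat_lit 481) (nat_lit 5) (nat_lit 505) (nat_lit 5) (nat_lit 506) (nat_lit 5) (nat_lit 646) (nat_lit 626) (nat_lit 288)) (XT.lf (nat_lit 76) (nat_lit 14087985919) (nat_lit 0) (nat_lit 22036764004) (nat_lit 1900) (nat_lit 4995464875) (nat_lit 482) (nat_lit 5) (nat_lit 481) (nat_lit 5) (nat_lit 506) (nat_lit 5) (nat_lit 647) (nat_lit 626) (nat_lit 287))))) (XT.nd (nat_lit 234) (nat_lit 1900) (nat_lit 0) (XT.nd (nat_lit 78) (nat_lit 1824) (nat_lit 0) (XT.lf (nat_lit 76) (nat_lit 36278546129) (nat_lit 0) (nat_lit 3102453153) (nat_lit 1900) (nat_lit 2178285090) (nat_lit 482) (nat_lit 5) (nat_lit 481) (nat_lit 5) (nat_lit 506) (nat_lit 5) (nat_lit 648) (nat_lit 626) (nat_lit 286)) (XT.nd (nat_lit 78) (nat_lit 0) (nat_lit 0) (XT.lf (nat_lit 0) (nat_lit 902253683) (nat_lit 1900) (nat_lit 24985872122) (nat_lit 1976) (nat_lit 16114596643) (nat_lit 457) (nat_lit 5) (nat_lit 482) (nat_lit 5) (nat_lit 483) (nat_lit 5) (nat_lit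 649) (nat_lit 626) (nat_lit 285)) (XT.lf (nat_lit 0) (nat_lit 4070426737) (nat_lit 1900) (nat_lit 2658448919) (nat_lit 1976) (nat_lit 35724761907) (nat_lit 457) (nat_lit 5) (nat_lit 482) (nat_lit 5) (nat_lit 483) (nat_lit 5) (nat_lit 650) (nat_lit 626) (nat_lit 284)))) (XT.nd (nat_lit 156) (nat_lit 912) (nat_lit 0) (XT.nd (nat_lit 78) (nat_lit 1064) (nat_lit 0) (XT.lf (nat_lit 0) (nat_lit 7517334851) (nat_lit 1900) (nat_lit 22613057592) (nat_lit 76) (nat_lit 12778871166) (nat_lit 458) (nat_lit 5) (nat_lit 483) (nat_lit 5) (nat_lit 459) (nat_lit 5) (nat_lit 651) (nat_lit 626) (nat_lit 283)) (XT.lf (nat_lit 0) (nat_lit 331114586) (nat_lit 1064) (nat_lit 10765718621) (nat_lit 1140) (nat_lit 32275895984) (nat_lit 444) (nat_lit 5) (nat_lit 458) (nat_lit 5) (nat_lit 459) (nat_lit 5) (nat_lit 652) (nat_lit 626) (nat_lit 282))) (XT.nd (nat_lit 78) (nat_lit 912) (nat_lit 0) (XT.lf (nat_lit 0) (nat_lit 14958014066) (nat_lit 1140) (nat_lit 19861990108) (nat_lit 76) (nat_lit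 9021258117) (nat_lit 444) (nat_lit 5) (nat_lit 459) (nat_lit 5) (nat_lit 445) (nat_lit 5) (nat_lit 653) (nat_lit 626) (nat_lit 281)) (XT.lf (nat_lit 0) (nat_lit 3758332262) (nat_lit 912) (nat_lit 15232801068) (nat_lit 988) (nat_lit 25326138482) (nat_lit 432) (nat_lit 5) (nat_lit 444) (nat_lit 5) (nat_lit 445) (nat_lit 5) (nat_lit 654) (nat_lit 626) (nat_lit 280)))))) (XT.nd (nat_lit 546) (nat_lit 3952) (nat_lit 0) (XT.nd (nat_lit 234) (nat_lit 1748) (nat_lit 0) (XT.nd (nat_lit 78) (nat_lit 912) (nat_lit 0) (XT.lf (nat_lit 0) (nat_lit 23268928338) (nat_lit 988) (nat_lit 16712441877) (nat_lit 76) (nat_lit 4818151098) (nat_lit 432) (nat_lit 5) (nat_lit 445) (nat_lit 5) (nat_lit 433) (nat_lit 5) (nat_lit 655) (nat_lit 626) (nat_lit 279)) (XT.nd (nat_lit 78) (nat_lit 0) (nat_lit 0) (XT.lf (nat_lit 0) (nat_lit 7609013762) (nat_lit 912) (nat_lit 20172597866) (nat_lit 988) (nat_lit 17506817581) (nat_lit 420) (nat_lit 5) (nat_lit 432) (nat_lit 5) (nat_lit 433) (nat_lit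 5) (nat_lit 656) (nat_lit 626) (nat_lit 278)) (XT.lf (nat_lit 0) (nat_lit 32496714032) (nat_lit 988) (nat_lit 13143284387) (nat_lit 76) (nat_lit 144873588) (nat_lit 420) (nat_lit 5) (nat_lit 433) (nat_lit 5) (nat_lit 421) (nat_lit 5) (nat_lit 657) (nat_lit 626) (nat_lit 277)))) (XT.nd (nat_lit 156) (nat_lit 912) (nat_lit 0) (XT.nd (nat_lit 78) (nat_lit 0) (nat_lit 0) (XT.lf (nat_lit 0) (nat_lit 11905233419) (nat_lit 836) (nat_lit 25610856881) (nat_lit 912) (nat_lit 8770953975) (nat_lit 409) (nat_lit 5) (nat_lit 420) (nat_lit 5) (nat_lit 421) (nat_lit 5) (nat_lit 658) (nat_lit 626) (nat_lit 276)) (XT.lf (nat_lit 0) (nat_lit 37632006274) (nat_lit 836) (nat_lit 5091140276) (nat_lit 912) (nat_lit 4074367642) (nat_lit 409) (nat_lit 5) (nat_lit 420) (nat_lit 5) (nat_lit 421) (nat_lit 5) (nat_lit 659) (nat_lit 626) (nat_lit 275))) (XT.nd (nat_lit 78) (nat_lit 0) (nat_lit 0) (XT.lf (nat_lit 0) (nat_lit 918331959) (nat_lit 912) (nat_lit 30649993868) (nat_lit 76) (nat_lit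 15745543253) (nat_lit 397) (nat_lit 5) (nat_lit 409) (nat_lit 5) (nat_lit 398) (nat_lit 5) (nat_lit 660) (nat_lit 626) (nat_lit 274)) (XT.lf (nat_lit 0) (nat_lit 6051127589) (nat_lit 912) (nat_lit 4767222943) (nat_lit 76) (nat_lit 37019765995) (nat_lit 397) (nat_lit 5) (nat_lit 409) (nat_lit 5) (nat_lit 398) (nat_lit 5) (nat_lit 661) (nat_lit 626) (nat_lit 273))))) (XT.nd (nat_lit 312) (nat_lit 1520) (nat_lit 0) (XT.nd (nat_lit 156) (nat_lit 760) (nat_lit 0) (XT.nd (nat_lit 78) (nat_lit 836) (nat_lit 0) (XT.lf (nat_lit 0) (nat_lit 11496152041) (nat_lit 912) (nat_lit 26518319270) (nat_lit 76) (nat_lit 10354186200) (nat_lit 386) (nat_lit 5) (nat_lit 398) (nat_lit 5) (nat_lit 387) (nat_lit 5) (nat_lit 662) (nat_lit 626) (nat_lit 272)) (XT.lf (nat_lit 0) (nat_lit 84071272) (nat_lit 836) (nat_lit 17069545279) (nat_lit 912) (nat_lit 31754122017) (nat_lit 375) (nat_lit 5) (nat_lit 386) (nat_lit 5) (nat_lit 387) (nat_lit 5) (nat_lit 663) (nat_lit 626) (nat_lit 271)))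 (XT.nd (nat_lit 78) (nat_lit 760) (nat_lit 0) (XT.lf (nat_lit 0) (nat_lit 23130399505) (nat_lit 912) (nat_lit 21906017406) (nat_lit 76) (nat_lit 4417060998) (nat_lit 375) (nat_lit 5) (nat_lit 387) (nat_lit 5) (nat_lit 376) (nat_lit 5) (nat_lit 664) (nat_lit 626) (nat_lit 270)) (XT.lf (nat_lit 0) (nat_lit 5508314259) (nat_lit 760) (nat_lit 23866384830) (nat_lit 836) (nat_lit 20632473373) (nat_lit 365) (nat_lit 5) (nat_lit 375) (nat_lit 5) (nat_lit 376) (nat_lit 5) (nat_lit 665) (nat_lit 626) (nat_lit 269)))) (XT.nd (nat_lit 156) (nat_lit 760) (nat_lit 0) (XT.nd (nat_lit 78) (nat_lit 760) (nat_lit 0) (XT.lf (nat_lit 0) (nat_lit 33767009705) (nat_lit 760) (nat_lit 2123060442) (nat_lit 836) (nat_lit 14678947092) (nat_lit 365) (nat_lit 5) (nat_lit 375) (nat_lit 5) (nat_lit 376) (nat_lit 5) (nat_lit 666) (nat_lit 626) (nat_lit 268)) (XT.lf (nat_lit 0) (nat_lit 11468111841) (nat_lit 760) (nat_lit 31271506836) (nat_lit 836) (nat_lit 8398402875) (nat_lit 355) (nat_lit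 5) (nat_lit 365) (nat_lit 5) (nat_lit 366) (nat_lit 5) (nat_lit 667) (nat_lit 626) (nat_lit 267))) (XT.nd (nat_lit 78) (nat_lit 760) (nat_lit 0) (XT.lf (nat_lit 0) (nat_lit 40516284620) (nat_lit 760) (nat_lit 9335801738) (nat_lit 836) (nat_lit 1863801072) (nat_lit 355) (nat_lit 5) (nat_lit 365) (nat_lit 5) (nat_lit 366) (nat_lit 5) (nat_lit 668) (nat_lit 626) (nat_lit 266)) (XT.lf (nat_lit 0) (nat_lit 4940536678) (nat_lit 760) (nat_lit 34343252339) (nat_lit 76) (nat_lit 13016857832) (nat_lit 345) (nat_lit 5) (nat_lit 355) (nat_lit 5) (nat_lit 346) (nat_lit 5) (nat_lit 669) (nat_lit 626) (nat_lit 265))))))))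
noncomputable def xc245 : XT := (XT.nd (nat_lit 2262) (nat_lit 5852) (nat_lit 0) (XT.nd (nat_lit 1092) (nat_lit 2964) (nat_lit 0) (XT.nd (nat_lit 546) (nat_lit 0) (nat_lit 228) (XT.nd (nat_lit 234) (nat_lit 0) (nat_lit 76) (XT.nd (nat_lit 78) (nat_lit 0) (nat_lit 0) (XT.lf (nat_lit 0) (nat_lit 2424521574) (nat_lit 1900) (nat_lit 7246262368) (nat_lit 1900) (nat_lit 7246262368) (nat_lit 471) (nat_lit 3) (nat_lit 496) (nat_lit 3) (nat_lit 496) (nat_lit 5) (nat_lit 627) (nat_lit 627) (nat_lit 306)) (XT.nd (nat_lit 78) (nat_lit 0) (nat_lit 76) (XT.lf (nat_lit 76) (nat_lit 2318888067) (nat_lit 0) (nat_lit 2651303174) (nat_lit 1900) (nat_lit 29200785661) (nat_lit 472) (nat_lit 5) (nat_lit 471) (nat_lit 3) (nat_lit 496) (nat_lit 5) (nat_lit 628) (nat_lit 627) (nat_lit 305)) (XT.lf (nat_lit 0) (nat_lit 5283465142) (nat_lit 1824) (nat_lit 14944452335) (nat_lit 1900) (nat_lit 14282887426) (nat_lit 472) (nat_lit 5) (nat_lit 496) (nat_lit 5) (nat_lit 497) (nat_lit 5) (nat_lit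 629) (nat_lit 627) (nat_lit 304)))) (XT.nd (nat_lit 156) (nat_lit 0) (nat_lit 76) (XT.nd (nat_lit 78) (nat_lit 0) (nat_lit 76) (XT.lf (nat_lit 76) (nat_lit 2313318140) (nat_lit 0) (nat_lit 3320782690) (nat_lit 1900) (nat_lit 29222706796) (nat_lit 473) (nat_lit 5) (nat_lit 472) (nat_lit 5) (nat_lit 497) (nat_lit 5) (nat_lit 630) (nat_lit 627) (nat_lit 303)) (XT.lf (nat_lit 0) (nat_lit 6181652181) (nat_lit 1824) (nat_lit 15180804210) (nat_lit 1900) (nat_lit 13843476042) (nat_lit 473) (nat_lit 5) (nat_lit 497) (nat_lit 5) (nat_lit 498) (nat_lit 5) (nat_lit 631) (nat_lit 627) (nat_lit 302))) (XT.nd (nat_lit 78) (nat_lit 0) (nat_lit 76) (XT.lf (nat_lit 76) (nat_lit 2539638569) (nat_lit 0) (nat_lit 4237572053) (nat_lit 1900) (nat_lit 28784088079) (nat_lit 474) (nat_lit 5) (nat_lit 473) (nat_lit 5) (nat_lit 498) (nat_lit 5) (nat_lit 632) (nat_lit 627) (nat_lit 301)) (XT.lf (nat_lit 0) (nat_lit 7571724442) (nat_lit 1824) (nat_lit 15188874947) (nat_lit 1900) (nat_lit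 13159432106) (nat_lit 474) (nat_lit 5) (nat_lit 498) (nat_lit 5) (nat_lit 499) (nat_lit 5) (nat_lit 633) (nat_lit 627) (nat_lit 300))))) (XT.nd (nat_lit 234) (nat_lit 0) (nat_lit 152) (XT.nd (nat_lit 78) (nat_lit 0) (nat_lit 76) (XT.lf (nat_lit 76) (nat_lit 3011172330) (nat_lit 0) (nat_lit 5417199219) (nat_lit 1900) (nat_lit 27856642619) (nat_lit 475) (nat_lit 5) (nat_lit 474) (nat_lit 5) (nat_lit 499) (nat_lit 5) (nat_lit 634) (nat_lit 627) (nat_lit 299)) (XT.nd (nat_lit 78) (nat_lit 0) (nat_lit 0) (XT.lf (nat_lit 0) (nat_lit 9483090979) (nat_lit 1824) (nat_lit 14955355546) (nat_lit 1900) (nat_lit 12215231264) (nat_lit 475) (nat_lit 5) (nat_lit 499) (nat_lit 5) (nat_lit 500) (nat_lit 5) (nat_lit 635) (nat_lit 627) (nat_lit 298)) (XT.lf (nat_lit 76) (nat_lit 3741869487) (nat_lit 0) (nat_lit 6875886018) (nat_lit 1900) (nat_lit 26410782242) (nat_lit 476) (nat_lit 5) (nat_lit 475) (nat_lit 5) (nat_lit 500) (nat_lit 5) (nat_lit 636) (nat_lit 627) (nat_lit 297))))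 (XT.nd (nat_lit 156) (nat_lit 0) (nat_lit 76) (XT.nd (nat_lit 78) (nat_lit 0) (nat_lit 0) (XT.lf (nat_lit 0) (nat_lit 11946505894) (nat_lit 1824) (nat_lit 14466309550) (nat_lit 1900) (nat_lit 10994651687) (nat_lit 476) (nat_lit 5) (nat_lit 500) (nat_lit 5) (nat_lit 501) (nat_lit 5) (nat_lit 637) (nat_lit 627) (nat_lit 296)) (XT.lf (nat_lit 76) (nat_lit 4746331963) (nat_lit 0) (nat_lit 8630580847) (nat_lit 1900) (nat_lit 24415560738) (nat_lit 477) (nat_lit 5) (nat_lit 476) (nat_lit 5) (nat_lit 501) (nat_lit 5) (nat_lit 638) (nat_lit 627) (nat_lit 295))) (XT.nd (nat_lit 78) (nat_lit 0) (nat_lit 0) (XT.lf (nat_lit 0) (nat_lit 14994126740) (nat_lit 1824) (nat_lit 13707148204) (nat_lit 1900) (nat_lit 9480741249) (nat_lit 477) (nat_lit 5) (nat_lit 501) (nat_lit 5) (nat_lit 502) (nat_lit 5) (nat_lit 639) (nat_lit 627) (nat_lit 294)) (XT.lf (nat_lit 76) (nat_lit 6039839321) (nat_lit 0) (nat_lit 10698992652) (nat_lit 1900) (nat_lit 21838614850) (nat_lit 478) (nat_lit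 5) (nat_lit 477) (nat_lit 5) (nat_lit 502) (nat_lit 5) (nat_lit 640) (nat_lit 627) (nat_lit 293)))))) (XT.nd (nat_lit 546) (nat_lit 3496) (nat_lit 0) (XT.nd (nat_lit 234) (nat_lit 0) (nat_lit 76) (XT.nd (nat_lit 78) (nat_lit 0) (nat_lit 0) (XT.lf (nat_lit 0) (nat_lit 18659575263) (nat_lit 1824) (nat_lit 12662604589) (nat_lit 1900) (nat_lit 7655783407) (nat_lit 478) (nat_lit 5) (nat_lit 502) (nat_lit 5) (nat_lit 503) (nat_lit 5) (nat_lit 641) (nat_lit 627) (nat_lit 292)) (XT.nd (nat_lit 78) (nat_lit 0) (nat_lit 76) (XT.lf (nat_lit 76) (nat_lit 7638375585) (nat_lit 0) (nat_lit 13099626239) (nat_lit 1900) (nat_lit 18646102902) (nat_lit 479) (nat_lit 5) (nat_lit 478) (nat_lit 5) (nat_lit 503) (nat_lit 5) (nat_lit 642) (nat_lit 627) (nat_lit 291)) (XT.lf (nat_lit 0) (nat_lit 22978000575) (nat_lit 1824) (nat_lit 11316706718) (nat_lit 1900) (nat_lit 5501261725) (nat_lit 479) (nat_lit 5) (nat_lit 503) (nat_lit 5) (nat_lit 504) (nat_lit 5) (nat_lit 643) (nat_lit 627)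 (nat_lit 290)))) (XT.nd (nat_lit 156) (nat_lit 0) (nat_lit 76) (XT.nd (nat_lit 78) (nat_lit 0) (nat_lit 76) (XT.lf (nat_lit 76) (nat_lit 9558657153) (nat_lit 0) (nat_lit 15851819002) (nat_lit 1900) (nat_lit 14802640974) (nat_lit 480) (nat_lit 5) (nat_lit 479) (nat_lit 5) (nat_lit 504) (nat_lit 5) (nat_lit 644) (nat_lit 627) (nat_lit 289)) (XT.lf (nat_lit 0) (nat_lit 27986144852) (nat_lit 1824) (nat_lit 9652749549) (nat_lit 1900) (nat_lit 2997822994) (nat_lit 480) (nat_lit 5) (nat_lit 504) (nat_lit 5) (nat_lit 505) (nat_lit 5) (nat_lit 645) (nat_lit 627) (nat_lit 288))) (XT.nd (nat_lit 78) (nat_lit 0) (nat_lit 76) (XT.lf (nat_lit 76) (nat_lit 11818161824) (nat_lit 0) (nat_lit 18975779118) (nat_lit 1900) (nat_lit 10271236510) (nat_lit 481) (nat_lit 5) (nat_lit 480) (nat_lit 5) (nat_lit 505) (nat_lit 5) (nat_lit 646) (nat_lit 627) (nat_lit 287)) (XT.lf (nat_lit 0) (nat_lit 33722411668) (nat_lit 1824) (nat_lit 7653265877) (nat_lit 1900) (nat_lit 125238856) (nat_lit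 481) (nat_lit 5) (nat_lit 505) (nat_lit 5) (nat_lit 506) (nat_lit 5) (nat_lit 647) (nat_lit 627) (nat_lit 286))))) (XT.nd (nat_lit 312) (nat_lit 1900) (nat_lit 0) (XT.nd (nat_lit 156) (nat_lit 1824) (nat_lit 0) (XT.nd (nat_lit 78) (nat_lit 0) (nat_lit 0) (XT.lf (nat_lit 76) (nat_lit 14435158975) (nat_lit 0) (nat_lit 22492625286) (nat_lit 1900) (nat_lit 5013219280) (nat_lit 482) (nat_lit 5) (nat_lit 481) (nat_lit 5) (nat_lit 506) (nat_lit 5) (nat_lit 648) (nat_lit 627) (nat_lit 285)) (XT.lf (nat_lit 76) (nat_lit 37068247775) (nat_lit 0) (nat_lit 3179331630) (nat_lit 1900) (nat_lit 2141306780) (nat_lit 482) (nat_lit 5) (nat_lit 481) (nat_lit 5) (nat_lit 506) (nat_lit 5) (nat_lit 649) (nat_lit 627) (nat_lit 284))) (XT.nd (nat_lit 78) (nat_lit 0) (nat_lit 0) (XT.lf (nat_lit 0) (nat_lit 998560106) (nat_lit 1900) (nat_lit 25419167109) (nat_lit 1976) (nat_lit 16423479966) (nat_lit 457) (nat_lit 5) (nat_lit 482) (nat_lit 5) (nat_lit 483) (nat_lit 5) (nat_lit 650)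 (nat_lit 627) (nat_lit 283)) (XT.lf (nat_lit 0) (nat_lit 4228562085) (nat_lit 1900) (nat_lit 2646497843) (nat_lit 1976) (nat_lit 36426111449) (nat_lit 457) (nat_lit 5) (nat_lit 482) (nat_lit 5) (nat_lit 483) (nat_lit 5) (nat_lit 651) (nat_lit 627) (nat_lit 282)))) (XT.nd (nat_lit 156) (nat_lit 912) (nat_lit 0) (XT.nd (nat_lit 78) (nat_lit 1064) (nat_lit 0) (XT.lf (nat_lit 0) (nat_lit 7743252835) (nat_lit 1900) (nat_lit 22999038847) (nat_lit 76) (nat_lit 13023641457) (nat_lit 458) (nat_lit 5) (nat_lit 483) (nat_lit 5) (nat_lit 459) (nat_lit 5) (nat_lit 652) (nat_lit 627) (nat_lit 281)) (XT.lf (nat_lit 0) (nat_lit 403580722) (nat_lit 1064) (nat_lit 10989706148) (nat_lit 1140) (nat_lit 32845402334) (nat_lit 444) (nat_lit 5) (nat_lit 458) (nat_lit 5) (nat_lit 459) (nat_lit 5) (nat_lit 653) (nat_lit 627) (nat_lit 280))) (XT.nd (nat_lit 78) (nat_lit 912) (nat_lit 0) (XT.lf (nat_lit 0) (nat_lit 15330175021) (nat_lit 1140) (nat_lit 20193156648) (nat_lit 76) (nat_lit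 9193291706) (nat_lit 444) (nat_lit 5) (nat_lit 459) (nat_lit 5) (nat_lit 445) (nat_lit 5) (nat_lit 654) (nat_lit 627) (nat_lit 279)) (XT.lf (nat_lit 0) (nat_lit 3899137477) (nat_lit 912) (nat_lit 15543813977) (nat_lit 988) (nat_lit 25759221819) (nat_lit 432) (nat_lit 5) (nat_lit 444) (nat_lit 5) (nat_lit 445) (nat_lit 5) (nat_lit 655) (nat_lit 627) (nat_lit 278))))))) (XT.nd (nat_lit 79092) (nat_lit 0) (nat_lit 8816) (XT.nd (nat_lit 546) (nat_lit 3192) (nat_lit 0) (XT.nd (nat_lit 234) (nat_lit 1748) (nat_lit 0) (XT.nd (nat_lit 78) (nat_lit 912) (nat_lit 0) (XT.lf (nat_lit 0) (nat_lit 23804850223) (nat_lit 988) (nat_lit 16980883049) (nat_lit 76) (nat_lit 4908363614) (nat_lit 432) (nat_lit 5) (nat_lit 445) (nat_lit 5) (nat_lit 433) (nat_lit 5) (nat_lit 656) (nat_lit 627) (nat_lit 277)) (XT.nd (nat_lit 78) (nat_lit 0) (nat_lit 0) (XT.lf (nat_lit 0) (nat_lit 7826568757) (nat_lit 912) (nat_lit 20580259675) (nat_lit 988) (nat_lit 17785973761) (nat_lit 420) (nat_lit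 5) (nat_lit 432) (nat_lit 5) (nat_lit 433) (nat_lit 5) (nat_lit 657) (nat_lit 627) (nat_lit 276)) (XT.lf (nat_lit 0) (nat_lit 33214841683) (nat_lit 988) (nat_lit 13340662179) (nat_lit 76) (nat_lit 143697885) (nat_lit 420) (nat_lit 5) (nat_lit 433) (nat_lit 5) (nat_lit 421) (nat_lit 5) (nat_lit 658) (nat_lit 627) (nat_lit 275)))) (XT.nd (nat_lit 156) (nat_lit 912) (nat_lit 0) (XT.nd (nat_lit 78) (nat_lit 0) (nat_lit 0) (XT.lf (nat_lit 0) (nat_lit 12208395142) (nat_lit 836) (nat_lit 26125295604) (nat_lit 912) (nat_lit 8877745086) (nat_lit 409) (nat_lit 5) (nat_lit 420) (nat_lit 5) (nat_lit 421) (nat_lit 5) (nat_lit 659) (nat_lit 627) (nat_lit 274)) (XT.lf (nat_lit 0) (nat_lit 38448427825) (nat_lit 836) (nat_lit 5195141106) (nat_lit 912) (nat_lit 4088572672) (nat_lit 409) (nat_lit 5) (nat_lit 420) (nat_lit 5) (nat_lit 421) (nat_lit 5) (nat_lit 660) (nat_lit 627) (nat_lit 273))) (XT.nd (nat_lit 78) (nat_lit 0) (nat_lit 0) (XT.lf (nat_lit 0) (nat_lit 1002205379)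 (nat_lit 912) (nat_lit 31197429626) (nat_lit 76) (nat_lit 16059197781) (nat_lit 397) (nat_lit 5) (nat_lit 409) (nat_lit 5) (nat_lit 398) (nat_lit 5) (nat_lit 661) (nat_lit 627) (nat_lit 272)) (XT.lf (nat_lit 0) (nat_lit 6236372474) (nat_lit 912) (nat_lit 4798288853) (nat_lit 76) (nat_lit 37758929612) (nat_lit 397) (nat_lit 5) (nat_lit 409) (nat_lit 5) (nat_lit 398) (nat_lit 5) (nat_lit 662) (nat_lit 627) (nat_lit 271))))) (XT.nd (nat_lit 312) (nat_lit 760) (nat_lit 0) (XT.nd (nat_lit 156) (nat_lit 760) (nat_lit 0) (XT.nd (nat_lit 78) (nat_lit 836) (nat_lit 0) (XT.lf (nat_lit 0) (nat_lit 11789455851) (nat_lit 912) (nat_lit 26983562139) (nat_lit 76) (nat_lit 10561741652) (nat_lit 386) (nat_lit 5) (nat_lit 398) (nat_lit 5) (nat_lit 387) (nat_lit 5) (nat_lit 663) (nat_lit 627) (nat_lit 270)) (XT.lf (nat_lit 0) (nat_lit 150447769) (nat_lit 836) (nat_lit 17408799166) (nat_lit 912) (nat_lit 32325391908) (nat_lit 375) (nat_lit 5) (nat_lit 386) (nat_lit 5) (nat_lit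 387) (nat_lit 5) (nat_lit 664) (nat_lit 627) (nat_lit 269))) (XT.nd (nat_lit 78) (nat_lit 760) (nat_lit 0) (XT.lf (nat_lit 0) (nat_lit 23654352522) (nat_lit 912) (nat_lit 22279494917) (nat_lit 76) (nat_lit 4507469857) (nat_lit 375) (nat_lit 5) (nat_lit 387) (nat_lit 5) (nat_lit 376) (nat_lit 5) (nat_lit 665) (nat_lit 627) (nat_lit 268)) (XT.lf (nat_lit 0) (nat_lit 5682698099) (nat_lit 760) (nat_lit 24340054097) (nat_lit 836) (nat_lit 20983349326) (nat_lit 365) (nat_lit 5) (nat_lit 375) (nat_lit 5) (nat_lit 376) (nat_lit 5) (nat_lit 666) (nat_lit 627) (nat_lit 267)))) (XT.nd (nat_lit 156) (nat_lit 0) (nat_lit 0) (XT.nd (nat_lit 78) (nat_lit 760) (nat_lit 0) (XT.lf (nat_lit 0) (nat_lit 34505308287) (nat_lit 760) (nat_lit 2161934956) (nat_lit 836) (nat_lit 14911963764) (nat_lit 365) (nat_lit 5) (nat_lit 375) (nat_lit 5) (nat_lit 376) (nat_lit 5) (nat_lit 667) (nat_lit 627) (nat_lit 266)) (XT.lf (nat_lit 0) (nat_lit 11761177877) (nat_lit 760) (nat_lit 31891877153)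 (nat_lit 836) (nat_lit 8506550992) (nat_lit 355) (nat_lit 5) (nat_lit 365) (nat_lit 5) (nat_lit 366) (nat_lit 5) (nat_lit 668) (nat_lit 627) (nat_lit 265))) (XT.nd (nat_lit 78000) (nat_lit 0) (nat_lit 8816) (XT.lf (nat_lit 0) (nat_lit 41389065017) (nat_lit 760) (nat_lit 9517557166) (nat_lit 836) (nat_lit 1842430093) (nat_lit 355) (nat_lit 5) (nat_lit 365) (nat_lit 5) (nat_lit 366) (nat_lit 5) (nat_lit 669) (nat_lit 627) (nat_lit 264)) (XT.lf (nat_lit 0) (nat_lit 2530239918) (nat_lit 1900) (nat_lit 7361999645) (nat_lit 1900) (nat_lit 7361999645) (nat_lit 471) (nat_lit 3) (nat_lit 496) (nat_lit 3) (nat_lit 496) (nat_lit 5) (nat_lit 628) (nat_lit 628) (nat_lit 304)))))) (XT.nd (nat_lit 546) (nat_lit 0) (nat_lit 304) (XT.nd (nat_lit 234) (nat_lit 0) (nat_lit 152) (XT.nd (nat_lit 78) (nat_lit 0) (nat_lit 76) (XT.lf (nat_lit 76) (nat_lit 2423257718) (nat_lit 0) (nat_lit 2758925463) (nat_lit 1900) (nat_lit 29669954692) (nat_lit 472) (nat_lit 5) (nat_lit 471) (nat_lit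 3) (nat_lit 496) (nat_lit 5) (nat_lit 629) (nat_lit 628) (nat_lit 303)) (XT.nd (nat_lit 78) (nat_lit 0) (nat_lit 0) (XT.lf (nat_lit 0) (nat_lit 5499167425) (nat_lit 1824) (nat_lit 15183924782) (nat_lit 1900) (nat_lit 14515721462) (nat_lit 472) (nat_lit 5) (nat_lit 496) (nat_lit 5) (nat_lit 497) (nat_lit 5) (nat_lit 630) (nat_lit 628) (nat_lit 302)) (XT.lf (nat_lit 76) (nat_lit 2418610204) (nat_lit 0) (nat_lit 3436431348) (nat_lit 1900) (nat_lit 29696730512) (nat_lit 473) (nat_lit 5) (nat_lit 472) (nat_lit 5) (nat_lit 497) (nat_lit 5) (nat_lit 631) (nat_lit 628) (nat_lit 301)))) (XT.nd (nat_lit 156) (nat_lit 0) (nat_lit 76) (XT.nd (nat_lit 78) (nat_lit 0) (nat_lit 0) (XT.lf (nat_lit 0) (nat_lit 6411107824) (nat_lit 1824) (nat_lit 15424109442) (nat_lit 1900) (nat_lit 14072710951) (nat_lit 473) (nat_lit 5) (nat_lit 497) (nat_lit 5) (nat_lit 498) (nat_lit 5) (nat_lit 632) (nat_lit 628) (nat_lit 300)) (XT.lf (nat_lit 76) (nat_lit 2650345411) (nat_lit 0) (nat_lit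 4366546073) (nat_lit 1900) (nat_lit 29253544171) (nat_lit 474) (nat_lit 5) (nat_lit 473) (nat_lit 5) (nat_lit 498) (nat_lit 5) (nat_lit 633) (nat_lit 628) (nat_lit 299))) (XT.nd (nat_lit 78) (nat_lit 0) (nat_lit 0) (XT.lf (nat_lit 0) (nat_lit 7824972192) (nat_lit 1824) (nat_lit 15431583610) (nat_lit 1900) (nat_lit 13379833895) (nat_lit 474) (nat_lit 5) (nat_lit 498) (nat_lit 5) (nat_lit 499) (nat_lit 5) (nat_lit 634) (nat_lit 628) (nat_lit 298)) (XT.lf (nat_lit 76) (nat_lit 3132062844) (nat_lit 0) (nat_lit 5565086950) (nat_lit 1900) (nat_lit 28311554399) (nat_lit 475) (nat_lit 5) (nat_lit 474) (nat_lit 5) (nat_lit 499) (nat_lit 5) (nat_lit 635) (nat_lit 628) (nat_lit 297))))) (XT.nd (nat_lit 312) (nat_lit 0) (nat_lit 152) (XT.nd (nat_lit 156) (nat_lit 0) (nat_lit 76) (XT.nd (nat_lit 78) (nat_lit 0) (nat_lit 0) (XT.lf (nat_lit 0) (nat_lit 9770746984) (nat_lit 1824) (nat_lit 15192762587) (nat_lit 1900) (nat_lit 12421275965) (nat_lit 475) (nat_lit 5) (nat_lit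 499) (nat_lit 5) (nat_lit 500) (nat_lit 5) (nat_lit 636) (nat_lit 628) (nat_lit 296)) (XT.lf (nat_lit 76) (nat_lit 3878001024) (nat_lit 0) (nat_lit 7048580283) (nat_lit 1900) (nat_lit 26840591972) (nat_lit 476) (nat_lit 5) (nat_lit 475) (nat_lit 5) (nat_lit 500) (nat_lit 5) (nat_lit 637) (nat_lit 628) (nat_lit 295))) (XT.nd (nat_lit 78) (nat_lit 0) (nat_lit 0) (XT.lf (nat_lit 0) (nat_lit 12279791212) (nat_lit 1824) (nat_lit 14693422251) (nat_lit 1900) (nat_lit 11180510212) (nat_lit 476) (nat_lit 5) (nat_lit 500) (nat_lit 5) (nat_lit 501) (nat_lit 5) (nat_lit 638) (nat_lit 628) (nat_lit 294)) (XT.lf (nat_lit 76) (nat_lit 4903062793) (nat_lit 0) (nat_lit 8834294645) (nat_lit 1900) (nat_lit 24809101871) (nat_lit 477) (nat_lit 5) (nat_lit 476) (nat_lit 5) (nat_lit 501) (nat_lit 5) (nat_lit 639) (nat_lit 628) (nat_lit 293)))) (XT.nd (nat_lit 156) (nat_lit 0) (nat_lit 76) (XT.nd (nat_lit 78) (nat_lit 0) (nat_lit 0) (XT.lf (nat_lit 0) (nat_lit 15384895976) (nat_lit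 1824) (nat_lit 13918673681) (nat_lit 1900) (nat_lit 9640263653) (nat_lit 477) (nat_lit 5) (nat_lit 501) (nat_lit 5) (nat_lit 502) (nat_lit 5) (nat_lit 640) (nat_lit 628) (nat_lit 292)) (XT.lf (nat_lit 76) (nat_lit 6222841637) (nat_lit 0) (nat_lit 10940275464) (nat_lit 1900) (nat_lit 22184083122) (nat_lit 478) (nat_lit 5) (nat_lit 477) (nat_lit 5) (nat_lit 502) (nat_lit 5) (nat_lit 641) (nat_lit 628) (nat_lit 291))) (XT.nd (nat_lit 78) (nat_lit 0) (nat_lit 0) (XT.lf (nat_lit 0) (nat_lit 19120346396) (nat_lit 1824) (nat_lit 12852936745) (nat_lit 1900) (nat_lit 7782482530) (nat_lit 478) (nat_lit 5) (nat_lit 502) (nat_lit 5) (nat_lit 503) (nat_lit 5) (nat_lit 642) (nat_lit 628) (nat_lit 290)) (XT.lf (nat_lit 76) (nat_lit 7853649085) (nat_lit 0) (nat_lit 13385380985) (nat_lit 1900) (nat_lit 18931026228) (nat_lit 479) (nat_lit 5) (nat_lit 478) (nat_lit 5) (nat_lit 503) (nat_lit 5) (nat_lit 643) (nat_lit 628) (nat_lit 289))))))))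
noncomputable def xc246 : XT := (XT.nd (nat_lit 80340) (nat_lit 0) (nat_lit 3344) (XT.nd (nat_lit 1092) (nat_lit 5092) (nat_lit 0) (XT.nd (nat_lit 546) (nat_lit 3572) (nat_lit 0) (XT.nd (nat_lit 234) (nat_lit 0) (nat_lit 76) (XT.nd (nat_lit 78) (nat_lit 0) (nat_lit 0) (XT.lf (nat_lit 0) (nat_lit 23521986009) (nat_lit 1824) (nat_lit 11479912626) (nat_lit 1900) (nat_lit 5588296199) (nat_lit 479) (nat_lit 5) (nat_lit 503) (nat_lit 5) (nat_lit 504) (nat_lit 5) (nat_lit 644) (nat_lit 628) (nat_lit 288)) (XT.nd (nat_lit 78) (nat_lit 0) (nat_lit 76) (XT.lf (nat_lit 76) (nat_lit 9812543205) (nat_lit 0) (nat_lit 16189319668) (nat_lit 1900) (nat_lit 15013848097) (nat_lit 480) (nat_lit 5) (nat_lit 479) (nat_lit 5) (nat_lit 504) (nat_lit 5) (nat_lit 645) (nat_lit 628) (nat_lit 287)) (XT.lf (nat_lit 0) (nat_lit 28627283756) (nat_lit 1824) (nat_lit 9782555248) (nat_lit 1900) (nat_lit 3037979559) (nat_lit 480) (nat_lit 5) (nat_lit 504) (nat_lit 5) (nat_lit 505) (nat_lit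 5) (nat_lit 646) (nat_lit 628) (nat_lit 286)))) (XT.nd (nat_lit 156) (nat_lit 0) (nat_lit 76) (XT.nd (nat_lit 78) (nat_lit 0) (nat_lit 76) (XT.lf (nat_lit 76) (nat_lit 12117358239) (nat_lit 0) (nat_lit 19372689092) (nat_lit 1900) (nat_lit 10394824355) (nat_lit 481) (nat_lit 5) (nat_lit 480) (nat_lit 5) (nat_lit 505) (nat_lit 5) (nat_lit 647) (nat_lit 628) (nat_lit 285)) (XT.lf (nat_lit 0) (nat_lit 34475403660) (nat_lit 1824) (nat_lit 7743041557) (nat_lit 1900) (nat_lit 110913965) (nat_lit 481) (nat_lit 5) (nat_lit 505) (nat_lit 5) (nat_lit 506) (nat_lit 5) (nat_lit 648) (nat_lit 628) (nat_lit 284))) (XT.nd (nat_lit 78) (nat_lit 0) (nat_lit 0) (XT.lf (nat_lit 76) (nat_lit 14786735413) (nat_lit 0) (nat_lit 22957016433) (nat_lit 1900) (nat_lit 5034518948) (nat_lit 482) (nat_lit 5) (nat_lit 481) (nat_lit 5) (nat_lit 506) (nat_lit 5) (nat_lit 649) (nat_lit 628) (nat_lit 283)) (XT.lf (nat_lit 76) (nat_lit 37871253180) (nat_lit 0) (nat_lit 3257171832) (nat_lit 1900)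 (nat_lit 2106716526) (nat_lit 482) (nat_lit 5) (nat_lit 481) (nat_lit 5) (nat_lit 506) (nat_lit 5) (nat_lit 650) (nat_lit 628) (nat_lit 282))))) (XT.nd (nat_lit 234) (nat_lit 1900) (nat_lit 0) (XT.nd (nat_lit 78) (nat_lit 0) (nat_lit 0) (XT.lf (nat_lit 0) (nat_lit 1093753674) (nat_lit 1900) (nat_lit 25863707260) (nat_lit 1976) (nat_lit 16739061627) (nat_lit 457) (nat_lit 5) (nat_lit 482) (nat_lit 5) (nat_lit 483) (nat_lit 5) (nat_lit 651) (nat_lit 628) (nat_lit 281)) (XT.nd (nat_lit 78) (nat_lit 0) (nat_lit 76) (XT.lf (nat_lit 0) (nat_lit 4386880744) (nat_lit 1900) (nat_lit 2636836436) (nat_lit 1976) (nat_lit 37141998445) (nat_lit 457) (nat_lit 5) (nat_lit 482) (nat_lit 5) (nat_lit 483) (nat_lit 5) (nat_lit 652) (nat_lit 628) (nat_lit 280)) (XT.lf (nat_lit 0) (nat_lit 7970754654) (nat_lit 1900) (nat_lit 23395313457) (nat_lit 76) (nat_lit 13273726808) (nat_lit 458) (nat_lit 5) (nat_lit 483) (nat_lit 5) (nat_lit 459) (nat_lit 5) (nat_lit 653) (nat_lit 628) (nat_lit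 279)))) (XT.nd (nat_lit 156) (nat_lit 912) (nat_lit 0) (XT.nd (nat_lit 78) (nat_lit 0) (nat_lit 0) (XT.lf (nat_lit 0) (nat_lit 474939384) (nat_lit 1064) (nat_lit 11217836636) (nat_lit 1140) (nat_lit 33429250432) (nat_lit 444) (nat_lit 5) (nat_lit 458) (nat_lit 5) (nat_lit 459) (nat_lit 5) (nat_lit 654) (nat_lit 628) (nat_lit 278)) (XT.lf (nat_lit 0) (nat_lit 15706944490) (nat_lit 1140) (nat_lit 20533512224) (nat_lit 76) (nat_lit 9369091822) (nat_lit 444) (nat_lit 5) (nat_lit 459) (nat_lit 5) (nat_lit 445) (nat_lit 5) (nat_lit 655) (nat_lit 628) (nat_lit 277))) (XT.nd (nat_lit 78) (nat_lit 0) (nat_lit 0) (XT.lf (nat_lit 0) (nat_lit 4040209970) (nat_lit 912) (nat_lit 15860800298) (nat_lit 988) (nat_lit 26203818565) (nat_lit 432) (nat_lit 5) (nat_lit 444) (nat_lit 5) (nat_lit 445) (nat_lit 5) (nat_lit 656) (nat_lit 628) (nat_lit 276)) (XT.lf (nat_lit 0) (nat_lit 24348751262) (nat_lit 988) (nat_lit 17257248437) (nat_lit 76) (nat_lit 5000619212) (nat_lit 432) (nat_lit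 5) (nat_lit 445) (nat_lit 5) (nat_lit 433) (nat_lit 5) (nat_lit 657) (nat_lit 628) (nat_lit 275)))))) (XT.nd (nat_lit 546) (nat_lit 1596) (nat_lit 0) (XT.nd (nat_lit 234) (nat_lit 1748) (nat_lit 0) (XT.nd (nat_lit 78) (nat_lit 836) (nat_lit 0) (XT.lf (nat_lit 0) (nat_lit 8045936273) (nat_lit 912) (nat_lit 20995911246) (nat_lit 988) (nat_lit 18073469311) (nat_lit 420) (nat_lit 5) (nat_lit 432) (nat_lit 5) (nat_lit 433) (nat_lit 5) (nat_lit 658) (nat_lit 628) (nat_lit 274)) (XT.nd (nat_lit 78) (nat_lit 836) (nat_lit 0) (XT.lf (nat_lit 0) (nat_lit 33944683856) (nat_lit 988) (nat_lit 13544530502) (nat_lit 76) (nat_lit 142656834) (nat_lit 420) (nat_lit 5) (nat_lit 433) (nat_lit 5) (nat_lit 421) (nat_lit 5) (nat_lit 659) (nat_lit 628) (nat_lit 273)) (XT.lf (nat_lit 0) (nat_lit 12515093854) (nat_lit 836) (nat_lit 26649936835) (nat_lit 912) (nat_lit 8989336926) (nat_lit 409) (nat_lit 5) (nat_lit 420) (nat_lit 5) (nat_lit 421) (nat_lit 5) (nat_lit 660) (nat_lit 628)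 (nat_lit 272)))) (XT.nd (nat_lit 156) (nat_lit 836) (nat_lit 0) (XT.nd (nat_lit 78) (nat_lit 912) (nat_lit 0) (XT.lf (nat_lit 0) (nat_lit 39278701096) (nat_lit 836) (nat_lit 5301137378) (nat_lit 912) (nat_lit 4105674457) (nat_lit 409) (nat_lit 5) (nat_lit 420) (nat_lit 5) (nat_lit 421) (nat_lit 5) (nat_lit 661) (nat_lit 628) (nat_lit 271)) (XT.lf (nat_lit 0) (nat_lit 1085212559) (nat_lit 912) (nat_lit 31758360034) (nat_lit 76) (nat_lit 16379174185) (nat_lit 397) (nat_lit 5) (nat_lit 409) (nat_lit 5) (nat_lit 398) (nat_lit 5) (nat_lit 662) (nat_lit 628) (nat_lit 270))) (XT.nd (nat_lit 78) (nat_lit 836) (nat_lit 0) (XT.lf (nat_lit 0) (nat_lit 6422828426) (nat_lit 912) (nat_lit 4832472097) (nat_lit 76) (nat_lit 38512924330) (nat_lit 397) (nat_lit 5) (nat_lit 409) (nat_lit 5) (nat_lit 398) (nat_lit 5) (nat_lit 663) (nat_lit 628) (nat_lit 269)) (XT.lf (nat_lit 0) (nat_lit 12086164585) (nat_lit 912) (nat_lit 27460638692) (nat_lit 76) (nat_lit 10773429896) (nat_lit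 386) (nat_lit 5) (nat_lit 398) (nat_lit 5) (nat_lit 387) (nat_lit 5) (nat_lit 664) (nat_lit 628) (nat_lit 268))))) (XT.nd (nat_lit 78390) (nat_lit 0) (nat_lit 8056) (XT.nd (nat_lit 156) (nat_lit 760) (nat_lit 0) (XT.nd (nat_lit 78) (nat_lit 0) (nat_lit 0) (XT.lf (nat_lit 0) (nat_lit 215639607) (nat_lit 836) (nat_lit 17754921113) (nat_lit 912) (nat_lit 32910565116) (nat_lit 375) (nat_lit 5) (nat_lit 386) (nat_lit 5) (nat_lit 387) (nat_lit 5) (nat_lit 665) (nat_lit 628) (nat_lit 267)) (XT.lf (nat_lit 0) (nat_lit 24186402497) (nat_lit 912) (nat_lit 22662952138) (nat_lit 76) (nat_lit 4599606605) (nat_lit 375) (nat_lit 5) (nat_lit 387) (nat_lit 5) (nat_lit 376) (nat_lit 5) (nat_lit 666) (nat_lit 628) (nat_lit 266))) (XT.nd (nat_lit 78) (nat_lit 0) (nat_lit 0) (XT.lf (nat_lit 0) (nat_lit 5858075971) (nat_lit 760) (nat_lit 24823338811) (nat_lit 836) (nat_lit 21343641538) (nat_lit 365) (nat_lit 5) (nat_lit 375) (nat_lit 5) (nat_lit 376) (nat_lit 5) (nat_lit 667) (nat_lit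 628) (nat_lit 265)) (XT.lf (nat_lit 0) (nat_lit 35255928089) (nat_lit 760) (nat_lit 2201726235) (nat_lit 836) (nat_lit 15151992476) (nat_lit 365) (nat_lit 5) (nat_lit 375) (nat_lit 5) (nat_lit 376) (nat_lit 5) (nat_lit 668) (nat_lit 628) (nat_lit 264)))) (XT.nd (nat_lit 156) (nat_lit 0) (nat_lit 76) (XT.nd (nat_lit 78) (nat_lit 0) (nat_lit 0) (XT.lf (nat_lit 0) (nat_lit 2635850399) (nat_lit 1900) (nat_lit 7481185072) (nat_lit 1900) (nat_lit 7481185072) (nat_lit 471) (nat_lit 3) (nat_lit 496) (nat_lit 3) (nat_lit 496) (nat_lit 5) (nat_lit 629) (nat_lit 629) (nat_lit 302)) (XT.lf (nat_lit 76) (nat_lit 2527462865) (nat_lit 0) (nat_lit 2866580160) (nat_lit 1900) (nat_lit 30152966740) (nat_lit 472) (nat_lit 5) (nat_lit 471) (nat_lit 3) (nat_lit 496) (nat_lit 5) (nat_lit 630) (nat_lit 629) (nat_lit 301))) (XT.nd (nat_lit 78) (nat_lit 0) (nat_lit 0) (XT.lf (nat_lit 0) (nat_lit 5714911039) (nat_lit 1824) (nat_lit 15430493897) (nat_lit 1900) (nat_lit 14755263388) (nat_lit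 472) (nat_lit 5) (nat_lit 496) (nat_lit 5) (nat_lit 497) (nat_lit 5) (nat_lit 631) (nat_lit 629) (nat_lit 300)) (XT.lf (nat_lit 76) (nat_lit 2523716069) (nat_lit 0) (nat_lit 3552481201) (nat_lit 1900) (nat_lit 30184522850) (nat_lit 473) (nat_lit 5) (nat_lit 472) (nat_lit 5) (nat_lit 497) (nat_lit 5) (nat_lit 632) (nat_lit 629) (nat_lit 299))))))) (XT.nd (nat_lit 1170) (nat_lit 4864) (nat_lit 0) (XT.nd (nat_lit 546) (nat_lit 0) (nat_lit 228) (XT.nd (nat_lit 234) (nat_lit 0) (nat_lit 76) (XT.nd (nat_lit 78) (nat_lit 0) (nat_lit 0) (XT.lf (nat_lit 0) (nat_lit 6641043360) (nat_lit 1824) (nat_lit 15674622722) (nat_lit 1900) (nat_lit 14308380268) (nat_lit 473) (nat_lit 5) (nat_lit 497) (nat_lit 5) (nat_lit 498) (nat_lit 5) (nat_lit 633) (nat_lit 629) (nat_lit 298)) (XT.nd (nat_lit 78) (nat_lit 0) (nat_lit 76) (XT.lf (nat_lit 76) (nat_lit 2760939854) (nat_lit 0) (nat_lit 4496382356) (nat_lit 1900) (nat_lit 29736514258) (nat_lit 474) (nat_lit 5) (nat_lit 473) (nat_lit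 5) (nat_lit 498) (nat_lit 5) (nat_lit 634) (nat_lit 629) (nat_lit 297)) (XT.lf (nat_lit 0) (nat_lit 8079331364) (nat_lit 1824) (nat_lit 15681517824) (nat_lit 1900) (nat_lit 13606305184) (nat_lit 474) (nat_lit 5) (nat_lit 498) (nat_lit 5) (nat_lit 499) (nat_lit 5) (nat_lit 635) (nat_lit 629) (nat_lit 296)))) (XT.nd (nat_lit 156) (nat_lit 0) (nat_lit 76) (XT.nd (nat_lit 78) (nat_lit 0) (nat_lit 76) (XT.lf (nat_lit 76) (nat_lit 3253015392) (nat_lit 0) (nat_lit 5714396903) (nat_lit 1900) (nat_lit 28779533783) (nat_lit 475) (nat_lit 5) (nat_lit 474) (nat_lit 5) (nat_lit 499) (nat_lit 5) (nat_lit 636) (nat_lit 629) (nat_lit 295)) (XT.lf (nat_lit 0) (nat_lit 10060350876) (nat_lit 1824) (nat_lit 15437313658) (nat_lit 1900) (nat_lit 12632927239) (nat_lit 475) (nat_lit 5) (nat_lit 499) (nat_lit 5) (nat_lit 500) (nat_lit 5) (nat_lit 637) (nat_lit 629) (nat_lit 294))) (XT.nd (nat_lit 78) (nat_lit 0) (nat_lit 76) (XT.lf (nat_lit 76) (nat_lit 4014475066) (nat_lit 0) (nat_lit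 7223362486) (nat_lit 1900) (nat_lit 27282819118) (nat_lit 476) (nat_lit 5) (nat_lit 475) (nat_lit 5) (nat_lit 500) (nat_lit 5) (nat_lit 638) (nat_lit 629) (nat_lit 293)) (XT.lf (nat_lit 0) (nat_lit 12616078308) (nat_lit 1824) (nat_lit 14927493032) (nat_lit 1900) (nat_lit 11371407510) (nat_lit 476) (nat_lit 5) (nat_lit 500) (nat_lit 5) (nat_lit 501) (nat_lit 5) (nat_lit 639) (nat_lit 629) (nat_lit 292))))) (XT.nd (nat_lit 312) (nat_lit 0) (nat_lit 152) (XT.nd (nat_lit 156) (nat_lit 0) (nat_lit 76) (XT.nd (nat_lit 78) (nat_lit 0) (nat_lit 76) (XT.lf (nat_lit 76) (nat_lit 5060528308) (nat_lit 0) (nat_lit 9040874984) (nat_lit 1900) (nat_lit 25214193865) (nat_lit 477) (nat_lit 5) (nat_lit 476) (nat_lit 5) (nat_lit 501) (nat_lit 5) (nat_lit 640) (nat_lit 629) (nat_lit 291)) (XT.lf (nat_lit 0) (nat_lit 15779951356) (nat_lit 1824) (nat_lit 14136861181) (nat_lit 1900) (nat_lit 9804145029) (nat_lit 477) (nat_lit 5) (nat_lit 501) (nat_lit 5) (nat_lit 502) (nat_lit 5)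 (nat_lit 641) (nat_lit 629) (nat_lit 290))) (XT.nd (nat_lit 78) (nat_lit 0) (nat_lit 76) (XT.lf (nat_lit 76) (nat_lit 6407088483) (nat_lit 0) (nat_lit 11185323725) (nat_lit 1900) (nat_lit 22540006207) (nat_lit 478) (nat_lit 5) (nat_lit 477) (nat_lit 5) (nat_lit 502) (nat_lit 5) (nat_lit 642) (nat_lit 629) (nat_lit 289)) (XT.lf (nat_lit 0) (nat_lit 19586932128) (nat_lit 1824) (nat_lit 13049518802) (nat_lit 1900) (nat_lit 7912741422) (nat_lit 478) (nat_lit 5) (nat_lit 502) (nat_lit 5) (nat_lit 503) (nat_lit 5) (nat_lit 643) (nat_lit 629) (nat_lit 288)))) (XT.nd (nat_lit 156) (nat_lit 0) (nat_lit 76) (XT.nd (nat_lit 78) (nat_lit 0) (nat_lit 76) (XT.lf (nat_lit 76) (nat_lit 8070800872) (nat_lit 0) (nat_lit 13675928110) (nat_lit 1900) (nat_lit 19225065119) (nat_lit 479) (nat_lit 5) (nat_lit 478) (nat_lit 5) (nat_lit 503) (nat_lit 5) (nat_lit 644) (nat_lit 629) (nat_lit 287)) (XT.lf (nat_lit 0) (nat_lit 24073572809) (nat_lit 1824) (nat_lit 11648833999) (nat_lit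 1900) (nat_lit 5677964122) (nat_lit 479) (nat_lit 5) (nat_lit 503) (nat_lit 5) (nat_lit 504) (nat_lit 5) (nat_lit 645) (nat_lit 629) (nat_lit 286))) (XT.nd (nat_lit 78) (nat_lit 0) (nat_lit 76) (XT.lf (nat_lit 76) (nat_lit 10069071759) (nat_lit 0) (nat_lit 16532775695) (nat_lit 1900) (nat_lit 15232574024) (nat_lit 480) (nat_lit 5) (nat_lit 479) (nat_lit 5) (nat_lit 504) (nat_lit 5) (nat_lit 646) (nat_lit 629) (nat_lit 285)) (XT.lf (nat_lit 0) (nat_lit 29278083956) (nat_lit 1824) (nat_lit 9917413108) (nat_lit 1900) (nat_lit 3079708109) (nat_lit 480) (nat_lit 5) (nat_lit 504) (nat_lit 5) (nat_lit 505) (nat_lit 5) (nat_lit 647) (nat_lit 629) (nat_lit 284)))))) (XT.nd (nat_lit 546) (nat_lit 3648) (nat_lit 0) (XT.nd (nat_lit 234) (nat_lit 1748) (nat_lit 0) (XT.nd (nat_lit 78) (nat_lit 0) (nat_lit 76) (XT.lf (nat_lit 76) (nat_lit 12420098693) (nat_lit 0) (nat_lit 19776861820) (nat_lit 1900) (nat_lit 10524061782) (nat_lit 481) (nat_lit 5) (nat_lit 480) (nat_lit 5)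 (nat_lit 505) (nat_lit 5) (nat_lit 648) (nat_lit 629) (nat_lit 283)) (XT.nd (nat_lit 78) (nat_lit 0) (nat_lit 0) (XT.lf (nat_lit 0) (nat_lit 35240405542) (nat_lit 1824) (nat_lit 7837070364) (nat_lit 1900) (nat_lit 96956094) (nat_lit 481) (nat_lit 5) (nat_lit 505) (nat_lit 5) (nat_lit 506) (nat_lit 5) (nat_lit 649) (nat_lit 629) (nat_lit 282)) (XT.lf (nat_lit 76) (nat_lit 15142901934) (nat_lit 0) (nat_lit 23430130850) (nat_lit 1900) (nat_lit 5059310906) (nat_lit 482) (nat_lit 5) (nat_lit 481) (nat_lit 5) (nat_lit 506) (nat_lit 5) (nat_lit 650) (nat_lit 629) (nat_lit 281)))) (XT.nd (nat_lit 156) (nat_lit 0) (nat_lit 0) (XT.nd (nat_lit 78) (nat_lit 1824) (nat_lit 0) (XT.lf (nat_lit 76) (nat_lit 38687925119) (nat_lit 0) (nat_lit 3336015355) (nat_lit 1900) (nat_lit 2074440639) (nat_lit 482) (nat_lit 5) (nat_lit 481) (nat_lit 5) (nat_lit 506) (nat_lit 5) (nat_lit 651) (nat_lit 629) (nat_lit 280)) (XT.lf (nat_lit 0) (nat_lit 1187930137) (nat_lit 1900) (nat_lit 26319617323)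 (nat_lit 1976) (nat_lit 17061455377) (nat_lit 457) (nat_lit 5) (nat_lit 482) (nat_lit 5) (nat_lit 483) (nat_lit 5) (nat_lit 652) (nat_lit 629) (nat_lit 279))) (XT.nd (nat_lit 78) (nat_lit 0) (nat_lit 76) (XT.lf (nat_lit 0) (nat_lit 4545502074) (nat_lit 1900) (nat_lit 2629412300) (nat_lit 1976) (nat_lit 37872693822) (nat_lit 457) (nat_lit 5) (nat_lit 482) (nat_lit 5) (nat_lit 483) (nat_lit 5) (nat_lit 653) (nat_lit 629) (nat_lit 278)) (XT.lf (nat_lit 0) (nat_lit 8199985935) (nat_lit 1900) (nat_lit 23801987347) (nat_lit 76) (nat_lit 13529217224) (nat_lit 458) (nat_lit 5) (nat_lit 483) (nat_lit 5) (nat_lit 459) (nat_lit 5) (nat_lit 654) (nat_lit 629) (nat_lit 277))))) (XT.nd (nat_lit 312) (nat_lit 1748) (nat_lit 0) (XT.nd (nat_lit 156) (nat_lit 912) (nat_lit 0) (XT.nd (nat_lit 78) (nat_lit 0) (nat_lit 0) (XT.lf (nat_lit 0) (nat_lit 545267706) (nat_lit 1064) (nat_lit 11450206023) (nat_lit 1140) (nat_lit 34027612500) (nat_lit 444) (nat_lit 5) (nat_lit 458) (nat_lit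 5) (nat_lit 459) (nat_lit 5) (nat_lit 655) (nat_lit 629) (nat_lit 276)) (XT.lf (nat_lit 0) (nat_lit 16088524718) (nat_lit 1140) (nat_lit 20883140988) (nat_lit 76) (nat_lit 9548721142) (nat_lit 444) (nat_lit 5) (nat_lit 459) (nat_lit 5) (nat_lit 445) (nat_lit 5) (nat_lit 656) (nat_lit 629) (nat_lit 275))) (XT.nd (nat_lit 78) (nat_lit 0) (nat_lit 0) (XT.lf (nat_lit 0) (nat_lit 4181654062) (nat_lit 912) (nat_lit 16183889086) (nat_lit 988) (nat_lit 26660048252) (nat_lit 432) (nat_lit 5) (nat_lit 444) (nat_lit 5) (nat_lit 445) (nat_lit 5) (nat_lit 657) (nat_lit 629) (nat_lit 274)) (XT.lf (nat_lit 0) (nat_lit 24900897408) (nat_lit 988) (nat_lit 17541597295) (nat_lit 76) (nat_lit 5094949479) (nat_lit 432) (nat_lit 5) (nat_lit 445) (nat_lit 5) (nat_lit 433) (nat_lit 5) (nat_lit 658) (nat_lit 629) (nat_lit 273)))) (XT.nd (nat_lit 156) (nat_lit 836) (nat_lit 0) (XT.nd (nat_lit 78) (nat_lit 0) (nat_lit 0) (XT.lf (nat_lit 0) (nat_lit 8267251134) (nat_lit 912) (nat_lit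 21419718723) (nat_lit 988) (nat_lit 18369363991) (nat_lit 420) (nat_lit 5) (nat_lit 432) (nat_lit 5) (nat_lit 433) (nat_lit 5) (nat_lit 659) (nat_lit 629) (nat_lit 272)) (XT.lf (nat_lit 0) (nat_lit 34686577667) (nat_lit 988) (nat_lit 13754920420) (nat_lit 76) (nat_lit 141746987) (nat_lit 420) (nat_lit 5) (nat_lit 433) (nat_lit 5) (nat_lit 421) (nat_lit 5) (nat_lit 660) (nat_lit 629) (nat_lit 271))) (XT.nd (nat_lit 78) (nat_lit 0) (nat_lit 0) (XT.lf (nat_lit 0) (nat_lit 12825498393) (nat_lit 836) (nat_lit 27184987973) (nat_lit 912) (nat_lit 9105722029) (nat_lit 409) (nat_lit 5) (nat_lit 420) (nat_lit 5) (nat_lit 421) (nat_lit 5) (nat_lit 661) (nat_lit 629) (nat_lit 270)) (XT.lf (nat_lit 0) (nat_lit 40123199297) (nat_lit 836) (nat_lit 5409172284) (nat_lit 912) (nat_lit 4125629480) (nat_lit 409) (nat_lit 5) (nat_lit 420) (nat_lit 5) (nat_lit 421) (nat_lit 5) (nat_lit 662) (nat_lit 629) (nat_lit 269))))))))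
noncomputable def xc247 : XT := (XT.nd (nat_lit 80418) (nat_lit 0) (nat_lit 760) (XT.nd (nat_lit 79248) (nat_lit 0) (nat_lit 8360) (XT.nd (nat_lit 78702) (nat_lit 0) (nat_lit 8056) (XT.nd (nat_lit 234) (nat_lit 1596) (nat_lit 0) (XT.nd (nat_lit 78) (nat_lit 836) (nat_lit 0) (XT.lf (nat_lit 0) (nat_lit 1167434950) (nat_lit 912) (nat_lit 32332956123) (nat_lit 76) (nat_lit 16705597007) (nat_lit 397) (nat_lit 5) (nat_lit 409) (nat_lit 5) (nat_lit 398) (nat_lit 5) (nat_lit 663) (nat_lit 629) (nat_lit 268)) (XT.nd (nat_lit 78) (nat_lit 836) (nat_lit 0) (XT.lf (nat_lit 0) (nat_lit 6610616504) (nat_lit 912) (nat_lit 4869738096) (nat_lit 76) (nat_lit 39282044913) (nat_lit 397) (nat_lit 5) (nat_lit 409) (nat_lit 5) (nat_lit 398) (nat_lit 5) (nat_lit 664) (nat_lit 629) (nat_lit 267)) (XT.lf (nat_lit 0) (nat_lit 12386441910) (nat_lit 912) (nat_lit 27949687404) (nat_lit 76) (nat_lit 10989334298) (nat_lit 386) (nat_lit 5) (nat_lit 398) (nat_lit 5) (nat_lit 387) (nat_lit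 5) (nat_lit 665) (nat_lit 629) (nat_lit 266)))) (XT.nd (nat_lit 156) (nat_lit 760) (nat_lit 0) (XT.nd (nat_lit 78) (nat_lit 0) (nat_lit 0) (XT.lf (nat_lit 0) (nat_lit 279720645) (nat_lit 836) (nat_lit 18108045260) (nat_lit 912) (nat_lit 33509823486) (nat_lit 375) (nat_lit 5) (nat_lit 386) (nat_lit 5) (nat_lit 387) (nat_lit 5) (nat_lit 666) (nat_lit 629) (nat_lit 265)) (XT.lf (nat_lit 0) (nat_lit 24726803870) (nat_lit 912) (nat_lit 23056491192) (nat_lit 76) (nat_lit 4693508916) (nat_lit 375) (nat_lit 5) (nat_lit 387) (nat_lit 5) (nat_lit 376) (nat_lit 5) (nat_lit 667) (nat_lit 629) (nat_lit 264))) (XT.nd (nat_lit 78234) (nat_lit 0) (nat_lit 8056) (XT.lf (nat_lit 0) (nat_lit 6034564585) (nat_lit 760) (nat_lit 25316425764) (nat_lit 836) (nat_lit 21713445189) (nat_lit 365) (nat_lit 5) (nat_lit 375) (nat_lit 5) (nat_lit 376) (nat_lit 5) (nat_lit 668) (nat_lit 629) (nat_lit 263)) (XT.lf (nat_lit 0) (nat_lit 2741437152) (nat_lit 1900) (nat_lit 7603843600) (nat_lit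 1900) (nat_lit 7603843600) (nat_lit 471) (nat_lit 3) (nat_lit 496) (nat_lit 3) (nat_lit 496) (nat_lit 5) (nat_lit 630) (nat_lit 630) (nat_lit 300))))) (XT.nd (nat_lit 234) (nat_lit 0) (nat_lit 152) (XT.nd (nat_lit 78) (nat_lit 0) (nat_lit 76) (XT.lf (nat_lit 76) (nat_lit 2631587664) (nat_lit 0) (nat_lit 2974350237) (nat_lit 1900) (nat_lit 30649925492) (nat_lit 472) (nat_lit 5) (nat_lit 471) (nat_lit 3) (nat_lit 496) (nat_lit 5) (nat_lit 631) (nat_lit 630) (nat_lit 299)) (XT.nd (nat_lit 78) (nat_lit 0) (nat_lit 0) (XT.lf (nat_lit 0) (nat_lit 5930862725) (nat_lit 1824) (nat_lit 15684212021) (nat_lit 1900) (nat_lit 15001567711) (nat_lit 472) (nat_lit 5) (nat_lit 496) (nat_lit 5) (nat_lit 497) (nat_lit 5) (nat_lit 632) (nat_lit 630) (nat_lit 298)) (XT.lf (nat_lit 76) (nat_lit 2628721014) (nat_lit 0) (nat_lit 3669014511) (nat_lit 1900) (nat_lit 30686192668) (nat_lit 473) (nat_lit 5) (nat_lit 472) (nat_lit 5) (nat_lit 497) (nat_lit 5) (nat_lit 633) (nat_lit 630)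 (nat_lit 297)))) (XT.nd (nat_lit 156) (nat_lit 0) (nat_lit 76) (XT.nd (nat_lit 78) (nat_lit 0) (nat_lit 0) (XT.lf (nat_lit 0) (nat_lit 6871627952) (nat_lit 1824) (nat_lit 15932397271) (nat_lit 1900) (nat_lit 14550540855) (nat_lit 473) (nat_lit 5) (nat_lit 497) (nat_lit 5) (nat_lit 498) (nat_lit 5) (nat_lit 634) (nat_lit 630) (nat_lit 296)) (XT.lf (nat_lit 76) (nat_lit 2871509991) (nat_lit 0) (nat_lit 4627164829) (nat_lit 1900) (nat_lit 30233108445) (nat_lit 474) (nat_lit 5) (nat_lit 473) (nat_lit 5) (nat_lit 498) (nat_lit 5) (nat_lit 635) (nat_lit 630) (nat_lit 295))) (XT.nd (nat_lit 78) (nat_lit 0) (nat_lit 0) (XT.lf (nat_lit 0) (nat_lit 8334977707) (nat_lit 1824) (nat_lit 15938730015) (nat_lit 1900) (nat_lit 13838902849) (nat_lit 474) (nat_lit 5) (nat_lit 498) (nat_lit 5) (nat_lit 499) (nat_lit 5) (nat_lit 636) (nat_lit 630) (nat_lit 294)) (XT.lf (nat_lit 76) (nat_lit 3374122693) (nat_lit 0) (nat_lit 5865217150) (nat_lit 1900) (nat_lit 29260687988) (nat_lit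 475) (nat_lit 5) (nat_lit 474) (nat_lit 5) (nat_lit 499) (nat_lit 5) (nat_lit 637) (nat_lit 630) (nat_lit 293)))))) (XT.nd (nat_lit 546) (nat_lit 0) (nat_lit 228) (XT.nd (nat_lit 234) (nat_lit 0) (nat_lit 76) (XT.nd (nat_lit 78) (nat_lit 0) (nat_lit 0) (XT.lf (nat_lit 0) (nat_lit 10352089374) (nat_lit 1824) (nat_lit 15689058604) (nat_lit 1900) (nat_lit 12850239528) (nat_lit 475) (nat_lit 5) (nat_lit 499) (nat_lit 5) (nat_lit 500) (nat_lit 5) (nat_lit 638) (nat_lit 630) (nat_lit 292)) (XT.nd (nat_lit 78) (nat_lit 0) (nat_lit 76) (XT.lf (nat_lit 76) (nat_lit 4151390886) (nat_lit 0) (nat_lit 7400327426) (nat_lit 1900) (nat_lit 27737563645) (nat_lit 476) (nat_lit 5) (nat_lit 475) (nat_lit 5) (nat_lit 500) (nat_lit 5) (nat_lit 639) (nat_lit 630) (nat_lit 291)) (XT.lf (nat_lit 0) (nat_lit 12955569494) (nat_lit 1824) (nat_lit 15168567245) (nat_lit 1900) (nat_lit 11567393035) (nat_lit 476) (nat_lit 5) (nat_lit 500) (nat_lit 5) (nat_lit 501) (nat_lit 5) (nat_lit 640)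 (nat_lit 630) (nat_lit 290)))) (XT.nd (nat_lit 156) (nat_lit 0) (nat_lit 76) (XT.nd (nat_lit 78) (nat_lit 0) (nat_lit 76) (XT.lf (nat_lit 76) (nat_lit 5218836392) (nat_lit 0) (nat_lit 9250426091) (nat_lit 1900) (nat_lit 25630924835) (nat_lit 477) (nat_lit 5) (nat_lit 476) (nat_lit 5) (nat_lit 501) (nat_lit 5) (nat_lit 641) (nat_lit 630) (nat_lit 289)) (XT.lf (nat_lit 0) (nat_lit 16179515646) (nat_lit 1824) (nat_lit 14361749525) (nat_lit 1900) (nat_lit 9972427183) (nat_lit 477) (nat_lit 5) (nat_lit 501) (nat_lit 5) (nat_lit 502) (nat_lit 5) (nat_lit 642) (nat_lit 630) (nat_lit 288))) (XT.nd (nat_lit 78) (nat_lit 0) (nat_lit 76) (XT.lf (nat_lit 76) (nat_lit 6592698547) (nat_lit 0) (nat_lit 11434253914) (nat_lit 1900) (nat_lit 22906455525) (nat_lit 478) (nat_lit 5) (nat_lit 477) (nat_lit 5) (nat_lit 502) (nat_lit 5) (nat_lit 643) (nat_lit 630) (nat_lit 287)) (XT.lf (nat_lit 0) (nat_lit 20059580809) (nat_lit 1824) (nat_lit 13252380883) (nat_lit 1900) (nat_lit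 8046591446) (nat_lit 478) (nat_lit 5) (nat_lit 502) (nat_lit 5) (nat_lit 503) (nat_lit 5) (nat_lit 644) (nat_lit 630) (nat_lit 286))))) (XT.nd (nat_lit 312) (nat_lit 0) (nat_lit 152) (XT.nd (nat_lit 156) (nat_lit 0) (nat_lit 76) (XT.nd (nat_lit 78) (nat_lit 0) (nat_lit 76) (XT.lf (nat_lit 76) (nat_lit 8289962761) (nat_lit 0) (nat_lit 13971399292) (nat_lit 1900) (nat_lit 19528269195) (nat_lit 479) (nat_lit 5) (nat_lit 478) (nat_lit 5) (nat_lit 503) (nat_lit 5) (nat_lit 645) (nat_lit 630) (nat_lit 285)) (XT.lf (nat_lit 0) (nat_lit 24633040304) (nat_lit 1824) (nat_lit 11823489956) (nat_lit 1900) (nat_lit 5770283496) (nat_lit 479) (nat_lit 5) (nat_lit 503) (nat_lit 5) (nat_lit 504) (nat_lit 5) (nat_lit 646) (nat_lit 630) (nat_lit 284))) (XT.nd (nat_lit 78) (nat_lit 0) (nat_lit 76) (XT.lf (nat_lit 76) (nat_lit 10328390229) (nat_lit 0) (nat_lit 16882337046) (nat_lit 1900) (nat_lit 15458841197) (nat_lit 480) (nat_lit 5) (nat_lit 479) (nat_lit 5) (nat_lit 504) (nat_lit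 5) (nat_lit 647) (nat_lit 630) (nat_lit 283)) (XT.lf (nat_lit 0) (nat_lit 29938861441) (nat_lit 1824) (nat_lit 10057328801) (nat_lit 1900) (nat_lit 3123010228) (nat_lit 480) (nat_lit 5) (nat_lit 504) (nat_lit 5) (nat_lit 505) (nat_lit 5) (nat_lit 648) (nat_lit 630) (nat_lit 282)))) (XT.nd (nat_lit 156) (nat_lit 0) (nat_lit 76) (XT.nd (nat_lit 78) (nat_lit 0) (nat_lit 76) (XT.lf (nat_lit 76) (nat_lit 12726548811) (nat_lit 0) (nat_lit 20188468785) (nat_lit 1900) (nat_lit 10658938385) (nat_lit 481) (nat_lit 5) (nat_lit 480) (nat_lit 5) (nat_lit 505) (nat_lit 5) (nat_lit 649) (nat_lit 630) (nat_lit 281)) (XT.lf (nat_lit 0) (nat_lit 36017775945) (nat_lit 1824) (nat_lit 7935341929) (nat_lit 1900) (nat_lit 83347204) (nat_lit 481) (nat_lit 5) (nat_lit 505) (nat_lit 5) (nat_lit 506) (nat_lit 5) (nat_lit 650) (nat_lit 630) (nat_lit 280))) (XT.nd (nat_lit 78) (nat_lit 0) (nat_lit 0) (XT.lf (nat_lit 76) (nat_lit 15503845145) (nat_lit 0) (nat_lit 23912164925) (nat_lit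 1900) (nat_lit 5087545931) (nat_lit 482) (nat_lit 5) (nat_lit 481) (nat_lit 5) (nat_lit 506) (nat_lit 5) (nat_lit 651) (nat_lit 630) (nat_lit 279)) (XT.lf (nat_lit 76) (nat_lit 39518629869) (nat_lit 0) (nat_lit 3415903758) (nat_lit 1900) (nat_lit 2044408675) (nat_lit 482) (nat_lit 5) (nat_lit 481) (nat_lit 5) (nat_lit 506) (nat_lit 5) (nat_lit 652) (nat_lit 630) (nat_lit 278))))))) (XT.nd (nat_lit 1170) (nat_lit 0) (nat_lit 0) (XT.nd (nat_lit 546) (nat_lit 4332) (nat_lit 0) (XT.nd (nat_lit 234) (nat_lit 1900) (nat_lit 0) (XT.nd (nat_lit 78) (nat_lit 0) (nat_lit 0) (XT.lf (nat_lit 0) (nat_lit 1281182578) (nat_lit 1900) (nat_lit 26787028430) (nat_lit 1976) (nat_lit 17390778022) (nat_lit 457) (nat_lit 5) (nat_lit 482) (nat_lit 5) (nat_lit 483) (nat_lit 5) (nat_lit 653) (nat_lit 630) (nat_lit 277)) (XT.nd (nat_lit 78) (nat_lit 0) (nat_lit 76) (XT.lf (nat_lit 0) (nat_lit 4704543330) (nat_lit 1900) (nat_lit 2624175801) (nat_lit 1976) (nat_lit 38618474696) (nat_lit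 457) (nat_lit 5) (nat_lit 482) (nat_lit 5) (nat_lit 483) (nat_lit 5) (nat_lit 654) (nat_lit 630) (nat_lit 276)) (XT.lf (nat_lit 0) (nat_lit 8431090794) (nat_lit 1900) (nat_lit 24219172443) (nat_lit 76) (nat_lit 13790205145) (nat_lit 458) (nat_lit 5) (nat_lit 483) (nat_lit 5) (nat_lit 459) (nat_lit 5) (nat_lit 655) (nat_lit 630) (nat_lit 275)))) (XT.nd (nat_lit 156) (nat_lit 912) (nat_lit 0) (XT.nd (nat_lit 78) (nat_lit 0) (nat_lit 0) (XT.lf (nat_lit 0) (nat_lit 614640510) (nat_lit 1064) (nat_lit 11686911657) (nat_lit 1140) (nat_lit 34640668651) (nat_lit 444) (nat_lit 5) (nat_lit 458) (nat_lit 5) (nat_lit 459) (nat_lit 5) (nat_lit 656) (nat_lit 630) (nat_lit 274)) (XT.lf (nat_lit 0) (nat_lit 16475117722) (nat_lit 1140) (nat_lit 21242132642) (nat_lit 76) (nat_lit 9732244088) (nat_lit 444) (nat_lit 5) (nat_lit 459) (nat_lit 5) (nat_lit 445) (nat_lit 5) (nat_lit 657) (nat_lit 630) (nat_lit 273))) (XT.nd (nat_lit 78) (nat_lit 0) (nat_lit 0) (XT.lf (nat_lit 0) (nat_lit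 4323572314) (nat_lit 912) (nat_lit 16513211602) (nat_lit 988) (nat_lit 27128037103) (nat_lit 432) (nat_lit 5) (nat_lit 444) (nat_lit 5) (nat_lit 445) (nat_lit 5) (nat_lit 658) (nat_lit 630) (nat_lit 272)) (XT.lf (nat_lit 0) (nat_lit 25461555804) (nat_lit 988) (nat_lit 17833993918) (nat_lit 76) (nat_lit 5191386996) (nat_lit 432) (nat_lit 5) (nat_lit 445) (nat_lit 5) (nat_lit 433) (nat_lit 5) (nat_lit 659) (nat_lit 630) (nat_lit 271))))) (XT.nd (nat_lit 312) (nat_lit 2584) (nat_lit 0) (XT.nd (nat_lit 156) (nat_lit 836) (nat_lit 0) (XT.nd (nat_lit 78) (nat_lit 0) (nat_lit 0) (XT.lf (nat_lit 0) (nat_lit 8490647037) (nat_lit 912) (nat_lit 21851851325) (nat_lit 988) (nat_lit 18673722909) (nat_lit 420) (nat_lit 5) (nat_lit 432) (nat_lit 5) (nat_lit 433) (nat_lit 5) (nat_lit 660) (nat_lit 630) (nat_lit 270)) (XT.lf (nat_lit 0) (nat_lit 35440862982) (nat_lit 988) (nat_lit 13971867451) (nat_lit 76) (nat_lit 140965064) (nat_lit 420) (nat_lit 5) (nat_lit 433) (nat_lit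 5) (nat_lit 421) (nat_lit 5) (nat_lit 661) (nat_lit 630) (nat_lit 269))) (XT.nd (nat_lit 78) (nat_lit 0) (nat_lit 0) (XT.lf (nat_lit 0) (nat_lit 13139777163) (nat_lit 836) (nat_lit 27730660437) (nat_lit 912) (nat_lit 9226896797) (nat_lit 409) (nat_lit 5) (nat_lit 420) (nat_lit 5) (nat_lit 421) (nat_lit 5) (nat_lit 662) (nat_lit 630) (nat_lit 268)) (XT.lf (nat_lit 0) (nat_lit 40982299363) (nat_lit 836) (nat_lit 5519289754) (nat_lit 912) (nat_lit 4148397293) (nat_lit 409) (nat_lit 5) (nat_lit 420) (nat_lit 5) (nat_lit 421) (nat_lit 5) (nat_lit 663) (nat_lit 630) (nat_lit 267)))) (XT.nd (nat_lit 156) (nat_lit 1672) (nat_lit 0) (XT.nd (nat_lit 78) (nat_lit 0) (nat_lit 0) (XT.lf (nat_lit 0) (nat_lit 1248951795) (nat_lit 912) (nat_lit 32921396184) (nat_lit 76) (nat_lit 17038593356) (nat_lit 397) (nat_lit 5) (nat_lit 409) (nat_lit 5) (nat_lit 398) (nat_lit 5) (nat_lit 664) (nat_lit 630) (nat_lit 266)) (XT.lf (nat_lit 0) (nat_lit 6799856429) (nat_lit 912) (nat_lit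 4910055346) (nat_lit 76) (nat_lit 40066592094) (nat_lit 397) (nat_lit 5) (nat_lit 409) (nat_lit 5) (nat_lit 398) (nat_lit 5) (nat_lit 665) (nat_lit 630) (nat_lit 265))) (XT.nd (nat_lit 78) (nat_lit 836) (nat_lit 0) (XT.lf (nat_lit 0) (nat_lit 12690451058) (nat_lit 912) (nat_lit 28450853333) (nat_lit 76) (nat_lit 11209539865) (nat_lit 386) (nat_lit 5) (nat_lit 398) (nat_lit 5) (nat_lit 387) (nat_lit 5) (nat_lit 666) (nat_lit 630) (nat_lit 264)) (XT.lf (nat_lit 0) (nat_lit 342762430) (nat_lit 836) (nat_lit 18468308553) (nat_lit 912) (nat_lit 34123356238) (nat_lit 375) (nat_lit 5) (nat_lit 386) (nat_lit 5) (nat_lit 387) (nat_lit 5) (nat_lit 667) (nat_lit 630) (nat_lit 263)))))) (XT.nd (nat_lit 78780) (nat_lit 0) (nat_lit 7524) (XT.nd (nat_lit 78468) (nat_lit 0) (nat_lit 7372) (XT.nd (nat_lit 78312) (nat_lit 0) (nat_lit 7296) (XT.lf (nat_lit 0) (nat_lit 25275812575) (nat_lit 912) (nat_lit 23460220026) (nat_lit 76) (nat_lit 4789215098) (nat_lit 375) (nat_lit 5)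 (nat_lit 387) (nat_lit 5) (nat_lit 376) (nat_lit 5) (nat_lit 668) (nat_lit 630) (nat_lit 262)) (XT.nd (nat_lit 78) (nat_lit 0) (nat_lit 0) (XT.lf (nat_lit 0) (nat_lit 2847082644) (nat_lit 1900) (nat_lit 7730002389) (nat_lit 1900) (nat_lit 7730002389) (nat_lit 471) (nat_lit 3) (nat_lit 496) (nat_lit 3) (nat_lit 496) (nat_lit 5) (nat_lit 631) (nat_lit 631) (nat_lit 298)) (XT.lf (nat_lit 76) (nat_lit 2735714556) (nat_lit 0) (nat_lit 3082317128) (nat_lit 1900) (nat_lit 31160943435) (nat_lit 472) (nat_lit 5) (nat_lit 471) (nat_lit 3) (nat_lit 496) (nat_lit 5) (nat_lit 632) (nat_lit 631) (nat_lit 297)))) (XT.nd (nat_lit 156) (nat_lit 0) (nat_lit 76) (XT.nd (nat_lit 78) (nat_lit 0) (nat_lit 0) (XT.lf (nat_lit 0) (nat_lit 6147186118) (nat_lit 1824) (nat_lit 15945136021) (nat_lit 1900) (nat_lit 15254693121) (nat_lit 472) (nat_lit 5) (nat_lit 496) (nat_lit 5) (nat_lit 497) (nat_lit 5) (nat_lit 633) (nat_lit 631) (nat_lit 296)) (XT.lf (nat_lit 76) (nat_lit 2733708568)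 (nat_lit 0) (nat_lit 3786112300) (nat_lit 1900) (nat_lit 31201857469) (nat_lit 473) (nat_lit 5) (nat_lit 472) (nat_lit 5) (nat_lit 497) (nat_lit 5) (nat_lit 634) (nat_lit 631) (nat_lit 295))) (XT.nd (nat_lit 78) (nat_lit 0) (nat_lit 0) (XT.lf (nat_lit 0) (nat_lit 7103027951) (nat_lit 1824) (nat_lit 16197490906) (nat_lit 1900) (nat_lit 14799253500) (nat_lit 473) (nat_lit 5) (nat_lit 497) (nat_lit 5) (nat_lit 498) (nat_lit 5) (nat_lit 635) (nat_lit 631) (nat_lit 294)) (XT.lf (nat_lit 76) (nat_lit 2982142171) (nat_lit 0) (nat_lit 4758976510) (nat_lit 1900) (nat_lit 30743445261) (nat_lit 474) (nat_lit 5) (nat_lit 473) (nat_lit 5) (nat_lit 498) (nat_lit 5) (nat_lit 636) (nat_lit 631) (nat_lit 293))))) (XT.nd (nat_lit 312) (nat_lit 0) (nat_lit 152) (XT.nd (nat_lit 156) (nat_lit 0) (nat_lit 76) (XT.nd (nat_lit 78) (nat_lit 0) (nat_lit 0) (XT.lf (nat_lit 0) (nat_lit 8592084523) (nat_lit 1824) (nat_lit 16203277237) (nat_lit 1900) (nat_lit 14077687404) (nat_lit 474)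 (nat_lit 5) (nat_lit 498) (nat_lit 5) (nat_lit 499) (nat_lit 5) (nat_lit 637) (nat_lit 631) (nat_lit 292)) (XT.lf (nat_lit 76) (nat_lit 3495475766) (nat_lit 0) (nat_lit 6017635208) (nat_lit 1900) (nat_lit 29755132361) (nat_lit 475) (nat_lit 5) (nat_lit 474) (nat_lit 5) (nat_lit 499) (nat_lit 5) (nat_lit 638) (nat_lit 631) (nat_lit 291))) (XT.nd (nat_lit 78) (nat_lit 0) (nat_lit 0) (XT.lf (nat_lit 0) (nat_lit 10646147193) (nat_lit 1824) (nat_lit 15948051881) (nat_lit 1900) (nat_lit 13073270601) (nat_lit 475) (nat_lit 5) (nat_lit 499) (nat_lit 5) (nat_lit 500) (nat_lit 5) (nat_lit 639) (nat_lit 631) (nat_lit 290)) (XT.lf (nat_lit 76) (nat_lit 4288846153) (nat_lit 0) (nat_lit 7579569740) (nat_lit 1900) (nat_lit 28204933281) (nat_lit 476) (nat_lit 5) (nat_lit 475) (nat_lit 5) (nat_lit 500) (nat_lit 5) (nat_lit 640) (nat_lit 631) (nat_lit 289)))) (XT.nd (nat_lit 156) (nat_lit 0) (nat_lit 76) (XT.nd (nat_lit 78) (nat_lit 0) (nat_lit 0) (XT.lf (nat_lit 0) (nat_lit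 13298465601) (nat_lit 1824) (nat_lit 15416694791) (nat_lit 1900) (nat_lit 11768519226) (nat_lit 476) (nat_lit 5) (nat_lit 500) (nat_lit 5) (nat_lit 501) (nat_lit 5) (nat_lit 641) (nat_lit 631) (nat_lit 288)) (XT.lf (nat_lit 76) (nat_lit 5378093473) (nat_lit 0) (nat_lit 9463052459) (nat_lit 1900) (nat_lit 26059390212) (nat_lit 477) (nat_lit 5) (nat_lit 476) (nat_lit 5) (nat_lit 501) (nat_lit 5) (nat_lit 642) (nat_lit 631) (nat_lit 287))) (XT.nd (nat_lit 78) (nat_lit 0) (nat_lit 0) (XT.lf (nat_lit 0) (nat_lit 16583810749) (nat_lit 1824) (nat_lit 14593381980) (nat_lit 1900) (nat_lit 10145154518) (nat_lit 477) (nat_lit 5) (nat_lit 501) (nat_lit 5) (nat_lit 502) (nat_lit 5) (nat_lit 643) (nat_lit 631) (nat_lit 286)) (XT.lf (nat_lit 76) (nat_lit 6779789248) (nat_lit 0) (nat_lit 11687183238) (nat_lit 1900) (nat_lit 23283509275) (nat_lit 478) (nat_lit 5) (nat_lit 477) (nat_lit 5) (nat_lit 502) (nat_lit 5) (nat_lit 644) (nat_lit 631) (nat_lit 285))))))))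
noncomputable def xc248 : XT := (XT.nd (nat_lit 80652) (nat_lit 0) (nat_lit 836) (XT.nd (nat_lit 1092) (nat_lit 4408) (nat_lit 0) (XT.nd (nat_lit 546) (nat_lit 2584) (nat_lit 0) (XT.nd (nat_lit 234) (nat_lit 0) (nat_lit 76) (XT.nd (nat_lit 78) (nat_lit 0) (nat_lit 0) (XT.lf (nat_lit 0) (nat_lit 20538540628) (nat_lit 1824) (nat_lit 13461557398) (nat_lit 1900) (nat_lit 8184066139) (nat_lit 478) (nat_lit 5) (nat_lit 502) (nat_lit 5) (nat_lit 503) (nat_lit 5) (nat_lit 645) (nat_lit 631) (nat_lit 284)) (XT.nd (nat_lit 78) (nat_lit 0) (nat_lit 76) (XT.lf (nat_lit 76) (nat_lit 8511265546) (nat_lit 0) (nat_lit 14271927450) (nat_lit 1900) (nat_lit 19840694224) (nat_lit 479) (nat_lit 5) (nat_lit 478) (nat_lit 5) (nat_lit 503) (nat_lit 5) (nat_lit 646) (nat_lit 631) (nat_lit 283)) (XT.lf (nat_lit 0) (nat_lit 25200668469) (nat_lit 1824) (nat_lit 12003903697) (nat_lit 1900) (nat_lit 5865274028) (nat_lit 479) (nat_lit 5) (nat_lit 503) (nat_lit 5) (nat_lit 504) (nat_lit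 5) (nat_lit 647) (nat_lit 631) (nat_lit 282)))) (XT.nd (nat_lit 156) (nat_lit 0) (nat_lit 76) (XT.nd (nat_lit 78) (nat_lit 0) (nat_lit 76) (XT.lf (nat_lit 76) (nat_lit 10590645301) (nat_lit 0) (nat_lit 17238155487) (nat_lit 1900) (nat_lit 15692677470) (nat_lit 480) (nat_lit 5) (nat_lit 479) (nat_lit 5) (nat_lit 504) (nat_lit 5) (nat_lit 648) (nat_lit 631) (nat_lit 281)) (XT.lf (nat_lit 0) (nat_lit 30609933754) (nat_lit 1824) (nat_lit 10202311816) (nat_lit 1900) (nat_lit 3167888692) (nat_lit 480) (nat_lit 5) (nat_lit 504) (nat_lit 5) (nat_lit 505) (nat_lit 5) (nat_lit 649) (nat_lit 631) (nat_lit 280))) (XT.nd (nat_lit 78) (nat_lit 0) (nat_lit 76) (XT.lf (nat_lit 76) (nat_lit 13036873851) (nat_lit 0) (nat_lit 20607683883) (nat_lit 1900) (nat_lit 10799448340) (nat_lit 481) (nat_lit 5) (nat_lit 480) (nat_lit 5) (nat_lit 505) (nat_lit 5) (nat_lit 650) (nat_lit 631) (nat_lit 279)) (XT.lf (nat_lit 0) (nat_lit 36807876073) (nat_lit 1824) (nat_lit 8037849381) (nat_lit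 1900) (nat_lit 70069885) (nat_lit 481) (nat_lit 5) (nat_lit 505) (nat_lit 5) (nat_lit 506) (nat_lit 5) (nat_lit 651) (nat_lit 631) (nat_lit 278))))) (XT.nd (nat_lit 234) (nat_lit 988) (nat_lit 0) (XT.nd (nat_lit 78) (nat_lit 1824) (nat_lit 0) (XT.lf (nat_lit 76) (nat_lit 15869751702) (nat_lit 0) (nat_lit 24403318120) (nat_lit 1900) (nat_lit 5119178440) (nat_lit 482) (nat_lit 5) (nat_lit 481) (nat_lit 5) (nat_lit 506) (nat_lit 5) (nat_lit 652) (nat_lit 631) (nat_lit 277)) (XT.nd (nat_lit 78) (nat_lit 1824) (nat_lit 0) (XT.lf (nat_lit 76) (nat_lit 40363737422) (nat_lit 0) (nat_lit 3496878595) (nat_lit 1900) (nat_lit 2016553310) (nat_lit 482) (nat_lit 5) (nat_lit 481) (nat_lit 5) (nat_lit 506) (nat_lit 5) (nat_lit 653) (nat_lit 631) (nat_lit 276)) (XT.lf (nat_lit 0) (nat_lit 1373601538) (nat_lit 1900) (nat_lit 27266078072) (nat_lit 1976) (nat_lit 17727149463) (nat_lit 457) (nat_lit 5) (nat_lit 482) (nat_lit 5) (nat_lit 483) (nat_lit 5) (nat_lit 654) (nat_lit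 631) (nat_lit 275)))) (XT.nd (nat_lit 156) (nat_lit 988) (nat_lit 0) (XT.nd (nat_lit 78) (nat_lit 0) (nat_lit 76) (XT.lf (nat_lit 0) (nat_lit 4864119793) (nat_lit 1900) (nat_lit 2621079978) (nat_lit 1976) (nat_lit 39379624465) (nat_lit 457) (nat_lit 5) (nat_lit 482) (nat_lit 5) (nat_lit 483) (nat_lit 5) (nat_lit 655) (nat_lit 631) (nat_lit 274)) (XT.lf (nat_lit 0) (nat_lit 8664211976) (nat_lit 1900) (nat_lit 24646986639) (nat_lit 76) (nat_lit 14056785464) (nat_lit 458) (nat_lit 5) (nat_lit 483) (nat_lit 5) (nat_lit 459) (nat_lit 5) (nat_lit 656) (nat_lit 631) (nat_lit 273))) (XT.nd (nat_lit 78) (nat_lit 0) (nat_lit 0) (XT.lf (nat_lit 0) (nat_lit 683130407) (nat_lit 1064) (nat_lit 11928052344) (nat_lit 1140) (nat_lit 35268606881) (nat_lit 444) (nat_lit 5) (nat_lit 458) (nat_lit 5) (nat_lit 459) (nat_lit 5) (nat_lit 657) (nat_lit 631) (nat_lit 272)) (XT.lf (nat_lit 0) (nat_lit 16866925449) (nat_lit 1140) (nat_lit 21610582402) (nat_lit 76) (nat_lit 9919726842)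 (nat_lit 444) (nat_lit 5) (nat_lit 459) (nat_lit 5) (nat_lit 445) (nat_lit 5) (nat_lit 658) (nat_lit 631) (nat_lit 271)))))) (XT.nd (nat_lit 546) (nat_lit 836) (nat_lit 0) (XT.nd (nat_lit 234) (nat_lit 1748) (nat_lit 0) (XT.nd (nat_lit 78) (nat_lit 912) (nat_lit 0) (XT.lf (nat_lit 0) (nat_lit 4466065648) (nat_lit 912) (nat_lit 16848901376) (nat_lit 988) (nat_lit 27607917996) (nat_lit 432) (nat_lit 5) (nat_lit 444) (nat_lit 5) (nat_lit 445) (nat_lit 5) (nat_lit 659) (nat_lit 631) (nat_lit 270)) (XT.nd (nat_lit 78) (nat_lit 912) (nat_lit 0) (XT.lf (nat_lit 0) (nat_lit 26030994962) (nat_lit 988) (nat_lit 18134507588) (nat_lit 76) (nat_lit 5289965338) (nat_lit 432) (nat_lit 5) (nat_lit 445) (nat_lit 5) (nat_lit 433) (nat_lit 5) (nat_lit 660) (nat_lit 631) (nat_lit 269)) (XT.lf (nat_lit 0) (nat_lit 8716256672) (nat_lit 912) (nat_lit 22292481419) (nat_lit 988) (nat_lit 18986616475) (nat_lit 420) (nat_lit 5) (nat_lit 432) (nat_lit 5) (nat_lit 433) (nat_lit 5) (nat_lit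 661) (nat_lit 631) (nat_lit 268)))) (XT.nd (nat_lit 156) (nat_lit 912) (nat_lit 0) (XT.nd (nat_lit 78) (nat_lit 836) (nat_lit 0) (XT.lf (nat_lit 0) (nat_lit 36207882627) (nat_lit 988) (nat_lit 14195411512) (nat_lit 76) (nat_lit 140307949) (nat_lit 420) (nat_lit 5) (nat_lit 433) (nat_lit 5) (nat_lit 421) (nat_lit 5) (nat_lit 662) (nat_lit 631) (nat_lit 267)) (XT.lf (nat_lit 0) (nat_lit 13458098275) (nat_lit 836) (nat_lit 28287169747) (nat_lit 912) (nat_lit 9352861422) (nat_lit 409) (nat_lit 5) (nat_lit 420) (nat_lit 5) (nat_lit 421) (nat_lit 5) (nat_lit 663) (nat_lit 631) (nat_lit 266))) (XT.nd (nat_lit 78) (nat_lit 912) (nat_lit 0) (XT.lf (nat_lit 0) (nat_lit 41856382183) (nat_lit 836) (nat_lit 5631534472) (nat_lit 912) (nat_lit 4173940424) (nat_lit 409) (nat_lit 5) (nat_lit 420) (nat_lit 5) (nat_lit 421) (nat_lit 5) (nat_lit 664) (nat_lit 631) (nat_lit 265)) (XT.lf (nat_lit 0) (nat_lit 1329840238) (nat_lit 912) (nat_lit 33523865763) (nat_lit 76) (nat_lit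 17378292951) (nat_lit 397) (nat_lit 5) (nat_lit 409) (nat_lit 5) (nat_lit 398) (nat_lit 5) (nat_lit 665) (nat_lit 631) (nat_lit 264))))) (XT.nd (nat_lit 78702) (nat_lit 0) (nat_lit 6536) (XT.nd (nat_lit 78546) (nat_lit 0) (nat_lit 6460) (XT.nd (nat_lit 78) (nat_lit 836) (nat_lit 0) (XT.lf (nat_lit 0) (nat_lit 6990666701) (nat_lit 912) (nat_lit 4953395331) (nat_lit 76) (nat_lit 40866872689) (nat_lit 397) (nat_lit 5) (nat_lit 409) (nat_lit 5) (nat_lit 398) (nat_lit 5) (nat_lit 666) (nat_lit 631) (nat_lit 263)) (XT.lf (nat_lit 0) (nat_lit 12998354955) (nat_lit 912) (nat_lit 28964288106) (nat_lit 76) (nat_lit 11434133278) (nat_lit 386) (nat_lit 5) (nat_lit 398) (nat_lit 5) (nat_lit 387) (nat_lit 5) (nat_lit 667) (nat_lit 631) (nat_lit 262))) (XT.nd (nat_lit 78) (nat_lit 0) (nat_lit 0) (XT.lf (nat_lit 0) (nat_lit 2952867769) (nat_lit 1900) (nat_lit 7859690785) (nat_lit 1900) (nat_lit 7859690785) (nat_lit 471) (nat_lit 3) (nat_lit 496) (nat_lit 3) (nat_lit 496)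 (nat_lit 5) (nat_lit 632) (nat_lit 632) (nat_lit 296)) (XT.lf (nat_lit 76) (nat_lit 2839924366) (nat_lit 0) (nat_lit 3190560823) (nat_lit 1900) (nat_lit 31686141766) (nat_lit 472) (nat_lit 5) (nat_lit 471) (nat_lit 3) (nat_lit 496) (nat_lit 5) (nat_lit 633) (nat_lit 632) (nat_lit 295)))) (XT.nd (nat_lit 156) (nat_lit 0) (nat_lit 76) (XT.nd (nat_lit 78) (nat_lit 0) (nat_lit 0) (XT.lf (nat_lit 0) (nat_lit 6364041929) (nat_lit 1824) (nat_lit 16213327246) (nat_lit 1900) (nat_lit 15514702453) (nat_lit 472) (nat_lit 5) (nat_lit 496) (nat_lit 5) (nat_lit 497) (nat_lit 5) (nat_lit 634) (nat_lit 632) (nat_lit 294)) (XT.lf (nat_lit 76) (nat_lit 2838760607) (nat_lit 0) (nat_lit 3903854441) (nat_lit 1900) (nat_lit 31731643318) (nat_lit 473) (nat_lit 5) (nat_lit 472) (nat_lit 5) (nat_lit 497) (nat_lit 5) (nat_lit 635) (nat_lit 632) (nat_lit 293))) (XT.nd (nat_lit 78) (nat_lit 0) (nat_lit 0) (XT.lf (nat_lit 0) (nat_lit 7335407080) (nat_lit 1824) (nat_lit 16469965992) (nat_lit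 1900) (nat_lit 15054582887) (nat_lit 473) (nat_lit 5) (nat_lit 497) (nat_lit 5) (nat_lit 498) (nat_lit 5) (nat_lit 636) (nat_lit 632) (nat_lit 292)) (XT.lf (nat_lit 76) (nat_lit 3092921097) (nat_lit 0) (nat_lit 4891899584) (nat_lit 1900) (nat_lit 31267651580) (nat_lit 474) (nat_lit 5) (nat_lit 473) (nat_lit 5) (nat_lit 498) (nat_lit 5) (nat_lit 637) (nat_lit 632) (nat_lit 291))))))) (XT.nd (nat_lit 1092) (nat_lit 5852) (nat_lit 0) (XT.nd (nat_lit 546) (nat_lit 0) (nat_lit 228) (XT.nd (nat_lit 234) (nat_lit 0) (nat_lit 76) (XT.nd (nat_lit 78) (nat_lit 0) (nat_lit 0) (XT.lf (nat_lit 0) (nat_lit 8850822851) (nat_lit 1824) (nat_lit 16475221118) (nat_lit 1900) (nat_lit 14322722984) (nat_lit 474) (nat_lit 5) (nat_lit 498) (nat_lit 5) (nat_lit 499) (nat_lit 5) (nat_lit 638) (nat_lit 632) (nat_lit 290)) (XT.nd (nat_lit 78) (nat_lit 0) (nat_lit 76) (XT.lf (nat_lit 76) (nat_lit 3617164040) (nat_lit 0) (nat_lit 6171738118) (nat_lit 1900) (nat_lit 30262990307) (nat_lit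 475) (nat_lit 5) (nat_lit 474) (nat_lit 5) (nat_lit 499) (nat_lit 5) (nat_lit 639) (nat_lit 632) (nat_lit 289)) (XT.lf (nat_lit 0) (nat_lit 10942707231) (nat_lit 1824) (nat_lit 16214352503) (nat_lit 1900) (nat_lit 13302081536) (nat_lit 475) (nat_lit 5) (nat_lit 499) (nat_lit 5) (nat_lit 500) (nat_lit 5) (nat_lit 640) (nat_lit 632) (nat_lit 288)))) (XT.nd (nat_lit 156) (nat_lit 0) (nat_lit 76) (XT.nd (nat_lit 78) (nat_lit 0) (nat_lit 76) (XT.lf (nat_lit 76) (nat_lit 4426937041) (nat_lit 0) (nat_lit 7761183978) (nat_lit 1900) (nat_lit 28685043446) (nat_lit 476) (nat_lit 5) (nat_lit 475) (nat_lit 5) (nat_lit 500) (nat_lit 5) (nat_lit 641) (nat_lit 632) (nat_lit 287)) (XT.lf (nat_lit 0) (nat_lit 13644966168) (nat_lit 1824) (nat_lit 15671930072) (nat_lit 1900) (nat_lit 11974841486) (nat_lit 476) (nat_lit 5) (nat_lit 500) (nat_lit 5) (nat_lit 501) (nat_lit 5) (nat_lit 642) (nat_lit 632) (nat_lit 286))) (XT.nd (nat_lit 78) (nat_lit 0) (nat_lit 76) (XT.lf (nat_lit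 76) (nat_lit 5538404624) (nat_lit 0) (nat_lit 9678858921) (nat_lit 1900) (nat_lit 26499692664) (nat_lit 477) (nat_lit 5) (nat_lit 476) (nat_lit 5) (nat_lit 501) (nat_lit 5) (nat_lit 643) (nat_lit 632) (nat_lit 285)) (XT.lf (nat_lit 0) (nat_lit 16993057889) (nat_lit 1824) (nat_lit 14831806197) (nat_lit 1900) (nat_lit 10322374016) (nat_lit 477) (nat_lit 5) (nat_lit 501) (nat_lit 5) (nat_lit 502) (nat_lit 5) (nat_lit 644) (nat_lit 632) (nat_lit 284))))) (XT.nd (nat_lit 234) (nat_lit 0) (nat_lit 152) (XT.nd (nat_lit 78) (nat_lit 0) (nat_lit 76) (XT.lf (nat_lit 76) (nat_lit 6968476854) (nat_lit 0) (nat_lit 11944229716) (nat_lit 1900) (nat_lit 23671252354) (nat_lit 478) (nat_lit 5) (nat_lit 477) (nat_lit 5) (nat_lit 502) (nat_lit 5) (nat_lit 645) (nat_lit 632) (nat_lit 283)) (XT.nd (nat_lit 78) (nat_lit 0) (nat_lit 0) (XT.lf (nat_lit 0) (nat_lit 21024059809) (nat_lit 1824) (nat_lit 13677086987) (nat_lit 1900) (nat_lit 8325201195) (nat_lit 478) (nat_lit 5) (nat_lit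 502) (nat_lit 5) (nat_lit 503) (nat_lit 5) (nat_lit 646) (nat_lit 632) (nat_lit 282)) (XT.lf (nat_lit 76) (nat_lit 8734839116) (nat_lit 0) (nat_lit 14577646827) (nat_lit 1900) (nat_lit 20162402038) (nat_lit 479) (nat_lit 5) (nat_lit 478) (nat_lit 5) (nat_lit 503) (nat_lit 5) (nat_lit 647) (nat_lit 632) (nat_lit 281)))) (XT.nd (nat_lit 156) (nat_lit 0) (nat_lit 76) (XT.nd (nat_lit 78) (nat_lit 0) (nat_lit 0) (XT.lf (nat_lit 0) (nat_lit 25776738123) (nat_lit 1824) (nat_lit 12190102437) (nat_lit 1900) (nat_lit 5962957116) (nat_lit 479) (nat_lit 5) (nat_lit 503) (nat_lit 5) (nat_lit 504) (nat_lit 5) (nat_lit 648) (nat_lit 632) (nat_lit 280)) (XT.lf (nat_lit 76) (nat_lit 10855983071) (nat_lit 0) (nat_lit 17600384668) (nat_lit 1900) (nat_lit 15934116035) (nat_lit 480) (nat_lit 5) (nat_lit 479) (nat_lit 5) (nat_lit 504) (nat_lit 5) (nat_lit 649) (nat_lit 632) (nat_lit 279))) (XT.nd (nat_lit 78) (nat_lit 0) (nat_lit 0) (XT.lf (nat_lit 0) (nat_lit 31291620207) (nat_lit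 1824) (nat_lit 10352375391) (nat_lit 1900) (nat_lit 3214347446) (nat_lit 480) (nat_lit 5) (nat_lit 504) (nat_lit 5) (nat_lit 505) (nat_lit 5) (nat_lit 650) (nat_lit 632) (nat_lit 278)) (XT.lf (nat_lit 76) (nat_lit 13351238841) (nat_lit 0) (nat_lit 21034683506) (nat_lit 1900) (nat_lit 10945590313) (nat_lit 481) (nat_lit 5) (nat_lit 480) (nat_lit 5) (nat_lit 505) (nat_lit 5) (nat_lit 651) (nat_lit 632) (nat_lit 277)))))) (XT.nd (nat_lit 546) (nat_lit 3572) (nat_lit 0) (XT.nd (nat_lit 234) (nat_lit 2812) (nat_lit 0) (XT.nd (nat_lit 78) (nat_lit 0) (nat_lit 0) (XT.lf (nat_lit 0) (nat_lit 37611069936) (nat_lit 1824) (nat_lit 8144589272) (nat_lit 1900) (nat_lit 57107324) (nat_lit 481) (nat_lit 5) (nat_lit 505) (nat_lit 5) (nat_lit 506) (nat_lit 5) (nat_lit 652) (nat_lit 632) (nat_lit 276)) (XT.nd (nat_lit 78) (nat_lit 0) (nat_lit 0) (XT.lf (nat_lit 76) (nat_lit 16240808457) (nat_lit 0) (nat_lit 24903793073) (nat_lit 1900) (nat_lit 5154166383) (nat_lit 482) (nat_lit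 5) (nat_lit 481) (nat_lit 5) (nat_lit 506) (nat_lit 5) (nat_lit 653) (nat_lit 632) (nat_lit 275)) (XT.lf (nat_lit 76) (nat_lit 41223621700) (nat_lit 0) (nat_lit 3578981452) (nat_lit 1900) (nat_lit 1990810233) (nat_lit 482) (nat_lit 5) (nat_lit 481) (nat_lit 5) (nat_lit 506) (nat_lit 5) (nat_lit 654) (nat_lit 632) (nat_lit 274)))) (XT.nd (nat_lit 156) (nat_lit 988) (nat_lit 0) (XT.nd (nat_lit 78) (nat_lit 0) (nat_lit 0) (XT.lf (nat_lit 0) (nat_lit 1465275133) (nat_lit 1900) (nat_lit 27756910085) (nat_lit 1976) (nat_lit 18070692721) (nat_lit 457) (nat_lit 5) (nat_lit 482) (nat_lit 5) (nat_lit 483) (nat_lit 5) (nat_lit 655) (nat_lit 632) (nat_lit 273)) (XT.lf (nat_lit 0) (nat_lit 5024344899) (nat_lit 1900) (nat_lit 2620080451) (nat_lit 1976) (nat_lit 40156432905) (nat_lit 457) (nat_lit 5) (nat_lit 482) (nat_lit 5) (nat_lit 483) (nat_lit 5) (nat_lit 656) (nat_lit 632) (nat_lit 272))) (XT.nd (nat_lit 78) (nat_lit 1064) (nat_lit 0) (XT.lf (nat_lit 0) (nat_lit 8899490992)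 (nat_lit 1900) (nat_lit 25085553771) (nat_lit 76) (nat_lit 14329055561) (nat_lit 458) (nat_lit 5) (nat_lit 483) (nat_lit 5) (nat_lit 459) (nat_lit 5) (nat_lit 657) (nat_lit 632) (nat_lit 271)) (XT.lf (nat_lit 0) (nat_lit 750807901) (nat_lit 1064) (nat_lit 12173728399) (nat_lit 1140) (nat_lit 35911623056) (nat_lit 444) (nat_lit 5) (nat_lit 458) (nat_lit 5) (nat_lit 459) (nat_lit 5) (nat_lit 658) (nat_lit 632) (nat_lit 270))))) (XT.nd (nat_lit 312) (nat_lit 1748) (nat_lit 0) (XT.nd (nat_lit 156) (nat_lit 912) (nat_lit 0) (XT.nd (nat_lit 78) (nat_lit 912) (nat_lit 0) (XT.lf (nat_lit 0) (nat_lit 17264149936) (nat_lit 1140) (nat_lit 21988590962) (nat_lit 76) (nat_lit 10111237366) (nat_lit 444) (nat_lit 5) (nat_lit 459) (nat_lit 5) (nat_lit 445) (nat_lit 5) (nat_lit 659) (nat_lit 632) (nat_lit 269)) (XT.lf (nat_lit 0) (nat_lit 4609233450) (nat_lit 912) (nat_lit 17191094266) (nat_lit 988) (nat_lit 28099830442) (nat_lit 432) (nat_lit 5) (nat_lit 444) (nat_lit 5) (nat_lit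 445) (nat_lit 5) (nat_lit 660) (nat_lit 632) (nat_lit 268))) (XT.nd (nat_lit 78) (nat_lit 912) (nat_lit 0) (XT.lf (nat_lit 0) (nat_lit 26609484952) (nat_lit 988) (nat_lit 18443212533) (nat_lit 76) (nat_lit 5390719088) (nat_lit 432) (nat_lit 5) (nat_lit 445) (nat_lit 5) (nat_lit 433) (nat_lit 5) (nat_lit 661) (nat_lit 632) (nat_lit 267)) (XT.lf (nat_lit 0) (nat_lit 8944211846) (nat_lit 912) (nat_lit 22741784592) (nat_lit 988) (nat_lit 19308120341) (nat_lit 420) (nat_lit 5) (nat_lit 432) (nat_lit 5) (nat_lit 433) (nat_lit 5) (nat_lit 662) (nat_lit 632) (nat_lit 266)))) (XT.nd (nat_lit 156) (nat_lit 912) (nat_lit 0) (XT.nd (nat_lit 78) (nat_lit 836) (nat_lit 0) (XT.lf (nat_lit 0) (nat_lit 36987982595) (nat_lit 988) (nat_lit 14425596859) (nat_lit 76) (nat_lit 139772686) (nat_lit 420) (nat_lit 5) (nat_lit 433) (nat_lit 5) (nat_lit 421) (nat_lit 5) (nat_lit 663) (nat_lit 632) (nat_lit 265)) (XT.lf (nat_lit 0) (nat_lit 13780629684) (nat_lit 836) (nat_lit 28854735616)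 (nat_lit 912) (nat_lit 9483619813) (nat_lit 409) (nat_lit 5) (nat_lit 420) (nat_lit 5) (nat_lit 421) (nat_lit 5) (nat_lit 664) (nat_lit 632) (nat_lit 264))) (XT.nd (nat_lit 78) (nat_lit 912) (nat_lit 0) (XT.lf (nat_lit 0) (nat_lit 42745832811) (nat_lit 836) (nat_lit 5745951900) (nat_lit 912) (nat_lit 4202224293) (nat_lit 409) (nat_lit 5) (nat_lit 420) (nat_lit 5) (nat_lit 421) (nat_lit 5) (nat_lit 665) (nat_lit 632) (nat_lit 263)) (XT.lf (nat_lit 0) (nat_lit 1410175418) (nat_lit 912) (nat_lit 34140557665) (nat_lit 76) (nat_lit 17724828176) (nat_lit 397) (nat_lit 5) (nat_lit 409) (nat_lit 5) (nat_lit 398) (nat_lit 5) (nat_lit 666) (nat_lit 632) (nat_lit 262))))))))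
noncomputable def xc249 : XT := (XT.nd (nat_lit 80730) (nat_lit 0) (nat_lit 0) (XT.nd (nat_lit 79560) (nat_lit 0) (nat_lit 3572) (XT.nd (nat_lit 79014) (nat_lit 0) (nat_lit 5852) (XT.nd (nat_lit 78702) (nat_lit 0) (nat_lit 5700) (XT.nd (nat_lit 78546) (nat_lit 0) (nat_lit 5624) (XT.lf (nat_lit 0) (nat_lit 7183164717) (nat_lit 912) (nat_lit 4999732440) (nat_lit 76) (nat_lit 41683199717) (nat_lit 397) (nat_lit 5) (nat_lit 409) (nat_lit 5) (nat_lit 398) (nat_lit 5) (nat_lit 667) (nat_lit 632) (nat_lit 261)) (XT.nd (nat_lit 78) (nat_lit 0) (nat_lit 0) (XT.lf (nat_lit 0) (nat_lit 3058871945) (nat_lit 1900) (nat_lit 7992940298) (nat_lit 1900) (nat_lit 7992940298) (nat_lit 471) (nat_lit 3) (nat_lit 496) (nat_lit 3) (nat_lit 496) (nat_lit 5) (nat_lit 633) (nat_lit 633) (nat_lit 294)) (XT.lf (nat_lit 76) (nat_lit 2944296401) (nat_lit 0) (nat_lit 3299159961) (nat_lit 1900) (nat_lit 32225650320) (nat_lit 472) (nat_lit 5) (nat_lit 471) (nat_lit 3) (nat_lit 496) (nat_lit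 5) (nat_lit 634) (nat_lit 633) (nat_lit 293)))) (XT.nd (nat_lit 156) (nat_lit 0) (nat_lit 76) (XT.nd (nat_lit 78) (nat_lit 0) (nat_lit 0) (XT.lf (nat_lit 0) (nat_lit 6581588136) (nat_lit 1824) (nat_lit 16488851484) (nat_lit 1900) (nat_lit 15781662660) (nat_lit 472) (nat_lit 5) (nat_lit 496) (nat_lit 5) (nat_lit 497) (nat_lit 5) (nat_lit 635) (nat_lit 633) (nat_lit 292)) (XT.lf (nat_lit 76) (nat_lit 2943957452) (nat_lit 0) (nat_lit 4022319741) (nat_lit 1900) (nat_lit 32275684777) (nat_lit 473) (nat_lit 5) (nat_lit 472) (nat_lit 5) (nat_lit 497) (nat_lit 5) (nat_lit 636) (nat_lit 633) (nat_lit 291))) (XT.nd (nat_lit 78) (nat_lit 0) (nat_lit 0) (XT.lf (nat_lit 0) (nat_lit 7568926611) (nat_lit 1824) (nat_lit 16749889406) (nat_lit 1900) (nat_lit 15316597572) (nat_lit 473) (nat_lit 5) (nat_lit 497) (nat_lit 5) (nat_lit 498) (nat_lit 5) (nat_lit 637) (nat_lit 633) (nat_lit 290)) (XT.lf (nat_lit 76) (nat_lit 3203929924) (nat_lit 0) (nat_lit 5026015493) (nat_lit 1900)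 (nat_lit 31805862565) (nat_lit 474) (nat_lit 5) (nat_lit 473) (nat_lit 5) (nat_lit 498) (nat_lit 5) (nat_lit 638) (nat_lit 633) (nat_lit 289))))) (XT.nd (nat_lit 234) (nat_lit 0) (nat_lit 76) (XT.nd (nat_lit 78) (nat_lit 0) (nat_lit 0) (XT.lf (nat_lit 0) (nat_lit 9111361644) (nat_lit 1824) (nat_lit 16754627824) (nat_lit 1900) (nat_lit 14574077321) (nat_lit 474) (nat_lit 5) (nat_lit 498) (nat_lit 5) (nat_lit 499) (nat_lit 5) (nat_lit 639) (nat_lit 633) (nat_lit 288)) (XT.nd (nat_lit 78) (nat_lit 0) (nat_lit 76) (XT.lf (nat_lit 76) (nat_lit 3739275446) (nat_lit 0) (nat_lit 6327612526) (nat_lit 1900) (nat_lit 30784393230) (nat_lit 475) (nat_lit 5) (nat_lit 474) (nat_lit 5) (nat_lit 499) (nat_lit 5) (nat_lit 640) (nat_lit 633) (nat_lit 287)) (XT.lf (nat_lit 0) (nat_lit 11241950739) (nat_lit 1824) (nat_lit 16488024006) (nat_lit 1900) (nat_lit 13536736703) (nat_lit 475) (nat_lit 5) (nat_lit 499) (nat_lit 5) (nat_lit 500) (nat_lit 5) (nat_lit 641) (nat_lit 633) (nat_lit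 286)))) (XT.nd (nat_lit 156) (nat_lit 0) (nat_lit 76) (XT.nd (nat_lit 78) (nat_lit 0) (nat_lit 76) (XT.lf (nat_lit 76) (nat_lit 4565758332) (nat_lit 0) (nat_lit 7945264676) (nat_lit 1900) (nat_lit 29178017189) (nat_lit 476) (nat_lit 5) (nat_lit 475) (nat_lit 5) (nat_lit 500) (nat_lit 5) (nat_lit 642) (nat_lit 633) (nat_lit 285)) (XT.lf (nat_lit 0) (nat_lit 13995269619) (nat_lit 1824) (nat_lit 15934331943) (nat_lit 1900) (nat_lit 12186418165) (nat_lit 476) (nat_lit 5) (nat_lit 500) (nat_lit 5) (nat_lit 501) (nat_lit 5) (nat_lit 643) (nat_lit 633) (nat_lit 284))) (XT.nd (nat_lit 78) (nat_lit 0) (nat_lit 76) (XT.lf (nat_lit 76) (nat_lit 5699873679) (nat_lit 0) (nat_lit 9897950720) (nat_lit 1900) (nat_lit 26951942041) (nat_lit 477) (nat_lit 5) (nat_lit 476) (nat_lit 5) (nat_lit 501) (nat_lit 5) (nat_lit 644) (nat_lit 633) (nat_lit 283)) (XT.lf (nat_lit 0) (nat_lit 17407477798) (nat_lit 1824) (nat_lit 15077074172) (nat_lit 1900) (nat_lit 10504135229) (nat_lit 477)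 (nat_lit 5) (nat_lit 501) (nat_lit 5) (nat_lit 502) (nat_lit 5) (nat_lit 645) (nat_lit 633) (nat_lit 282)))))) (XT.nd (nat_lit 546) (nat_lit 2508) (nat_lit 0) (XT.nd (nat_lit 234) (nat_lit 0) (nat_lit 152) (XT.nd (nat_lit 78) (nat_lit 0) (nat_lit 76) (XT.lf (nat_lit 76) (nat_lit 7158876592) (nat_lit 0) (nat_lit 12205512246) (nat_lit 1900) (nat_lit 24069776300) (nat_lit 478) (nat_lit 5) (nat_lit 477) (nat_lit 5) (nat_lit 502) (nat_lit 5) (nat_lit 646) (nat_lit 633) (nat_lit 281)) (XT.nd (nat_lit 78) (nat_lit 0) (nat_lit 0) (XT.lf (nat_lit 0) (nat_lit 21516386804) (nat_lit 1824) (nat_lit 13899012464) (nat_lit 1900) (nat_lit 8470034451) (nat_lit 478) (nat_lit 5) (nat_lit 502) (nat_lit 5) (nat_lit 503) (nat_lit 5) (nat_lit 647) (nat_lit 633) (nat_lit 280)) (XT.lf (nat_lit 76) (nat_lit 8960812580) (nat_lit 0) (nat_lit 14888693061) (nat_lit 1900) (nat_lit 20493460468) (nat_lit 479) (nat_lit 5) (nat_lit 478) (nat_lit 5) (nat_lit 503) (nat_lit 5) (nat_lit 648) (nat_lit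 633) (nat_lit 279)))) (XT.nd (nat_lit 156) (nat_lit 0) (nat_lit 76) (XT.nd (nat_lit 78) (nat_lit 0) (nat_lit 0) (XT.lf (nat_lit 0) (nat_lit 26361531136) (nat_lit 1824) (nat_lit 12382117353) (nat_lit 1900) (nat_lit 6063355827) (nat_lit 479) (nat_lit 5) (nat_lit 503) (nat_lit 5) (nat_lit 504) (nat_lit 5) (nat_lit 649) (nat_lit 633) (nat_lit 278)) (XT.lf (nat_lit 76) (nat_lit 11124549161) (nat_lit 0) (nat_lit 17969180204) (nat_lit 1900) (nat_lit 16183195333) (nat_lit 480) (nat_lit 5) (nat_lit 479) (nat_lit 5) (nat_lit 504) (nat_lit 5) (nat_lit 650) (nat_lit 633) (nat_lit 277))) (XT.nd (nat_lit 78) (nat_lit 0) (nat_lit 0) (XT.lf (nat_lit 0) (nat_lit 31984242095) (nat_lit 1824) (nat_lit 10507536449) (nat_lit 1900) (nat_lit 3262391584) (nat_lit 480) (nat_lit 5) (nat_lit 504) (nat_lit 5) (nat_lit 505) (nat_lit 5) (nat_lit 651) (nat_lit 633) (nat_lit 276)) (XT.lf (nat_lit 76) (nat_lit 13669808709) (nat_lit 0) (nat_lit 21469646635) (nat_lit 1900) (nat_lit 11097367369)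 (nat_lit 481) (nat_lit 5) (nat_lit 480) (nat_lit 5) (nat_lit 505) (nat_lit 5) (nat_lit 652) (nat_lit 633) (nat_lit 275))))) (XT.nd (nat_lit 312) (nat_lit 988) (nat_lit 0) (XT.nd (nat_lit 156) (nat_lit 1824) (nat_lit 0) (XT.nd (nat_lit 78) (nat_lit 0) (nat_lit 0) (XT.lf (nat_lit 0) (nat_lit 38427724574) (nat_lit 1824) (nat_lit 8255561511) (nat_lit 1900) (nat_lit 44443281) (nat_lit 481) (nat_lit 5) (nat_lit 505) (nat_lit 5) (nat_lit 506) (nat_lit 5) (nat_lit 653) (nat_lit 633) (nat_lit 274)) (XT.lf (nat_lit 76) (nat_lit 16617202597) (nat_lit 0) (nat_lit 25413795684) (nat_lit 1900) (nat_lit 5192471139) (nat_lit 482) (nat_lit 5) (nat_lit 481) (nat_lit 5) (nat_lit 506) (nat_lit 5) (nat_lit 654) (nat_lit 633) (nat_lit 273))) (XT.nd (nat_lit 78) (nat_lit 1824) (nat_lit 0) (XT.lf (nat_lit 76) (nat_lit 42098660772) (nat_lit 0) (nat_lit 3662253973) (nat_lit 1900) (nat_lit 1967118034) (nat_lit 482) (nat_lit 5) (nat_lit 481) (nat_lit 5) (nat_lit 506) (nat_lit 5) (nat_lit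 655) (nat_lit 633) (nat_lit 272)) (XT.lf (nat_lit 0) (nat_lit 1556289176) (nat_lit 1900) (nat_lit 28259674633) (nat_lit 1976) (nat_lit 18421533978) (nat_lit 457) (nat_lit 5) (nat_lit 482) (nat_lit 5) (nat_lit 483) (nat_lit 5) (nat_lit 656) (nat_lit 633) (nat_lit 271)))) (XT.nd (nat_lit 156) (nat_lit 988) (nat_lit 0) (XT.nd (nat_lit 78) (nat_lit 0) (nat_lit 76) (XT.lf (nat_lit 0) (nat_lit 5185330366) (nat_lit 1900) (nat_lit 2621135341) (nat_lit 1976) (nat_lit 40949196271) (nat_lit 457) (nat_lit 5) (nat_lit 482) (nat_lit 5) (nat_lit 483) (nat_lit 5) (nat_lit 657) (nat_lit 633) (nat_lit 270)) (XT.lf (nat_lit 0) (nat_lit 9137068256) (nat_lit 1900) (nat_lit 25535003601) (nat_lit 76) (nat_lit 14607115323) (nat_lit 458) (nat_lit 5) (nat_lit 483) (nat_lit 5) (nat_lit 459) (nat_lit 5) (nat_lit 658) (nat_lit 633) (nat_lit 269))) (XT.nd (nat_lit 78) (nat_lit 0) (nat_lit 0) (XT.lf (nat_lit 0) (nat_lit 817741481) (nat_lit 1064) (nat_lit 12424041690) (nat_lit 1140) (nat_lit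 36569920913) (nat_lit 444) (nat_lit 5) (nat_lit 458) (nat_lit 5) (nat_lit 459) (nat_lit 5) (nat_lit 659) (nat_lit 633) (nat_lit 268)) (XT.lf (nat_lit 0) (nat_lit 17666993468) (nat_lit 1140) (nat_lit 22376264465) (nat_lit 76) (nat_lit 10306845415) (nat_lit 444) (nat_lit 5) (nat_lit 459) (nat_lit 5) (nat_lit 445) (nat_lit 5) (nat_lit 660) (nat_lit 633) (nat_lit 267))))))) (XT.nd (nat_lit 79716) (nat_lit 0) (nat_lit 5928) (XT.nd (nat_lit 79092) (nat_lit 0) (nat_lit 5624) (XT.nd (nat_lit 234) (nat_lit 1748) (nat_lit 0) (XT.nd (nat_lit 78) (nat_lit 912) (nat_lit 0) (XT.lf (nat_lit 0) (nat_lit 4753173683) (nat_lit 912) (nat_lit 17539928514) (nat_lit 988) (nat_lit 28603920559) (nat_lit 432) (nat_lit 5) (nat_lit 444) (nat_lit 5) (nat_lit 445) (nat_lit 5) (nat_lit 661) (nat_lit 633) (nat_lit 266)) (XT.nd (nat_lit 78) (nat_lit 912) (nat_lit 0) (XT.lf (nat_lit 0) (nat_lit 27197297576) (nat_lit 988) (nat_lit 18760187889) (nat_lit 76) (nat_lit 5493683838) (nat_lit 432)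 (nat_lit 5) (nat_lit 445) (nat_lit 5) (nat_lit 433) (nat_lit 5) (nat_lit 662) (nat_lit 633) (nat_lit 265)) (XT.lf (nat_lit 0) (nat_lit 9174643603) (nat_lit 912) (nat_lit 23199939723) (nat_lit 988) (nat_lit 19638315367) (nat_lit 420) (nat_lit 5) (nat_lit 432) (nat_lit 5) (nat_lit 433) (nat_lit 5) (nat_lit 663) (nat_lit 633) (nat_lit 264)))) (XT.nd (nat_lit 156) (nat_lit 912) (nat_lit 0) (XT.nd (nat_lit 78) (nat_lit 836) (nat_lit 0) (XT.lf (nat_lit 0) (nat_lit 37781512255) (nat_lit 988) (nat_lit 14662472037) (nat_lit 76) (nat_lit 139356469) (nat_lit 420) (nat_lit 5) (nat_lit 433) (nat_lit 5) (nat_lit 421) (nat_lit 5) (nat_lit 664) (nat_lit 633) (nat_lit 263)) (XT.lf (nat_lit 0) (nat_lit 14107539321) (nat_lit 836) (nat_lit 29433582033) (nat_lit 912) (nat_lit 9619179523) (nat_lit 409) (nat_lit 5) (nat_lit 420) (nat_lit 5) (nat_lit 421) (nat_lit 5) (nat_lit 665) (nat_lit 633) (nat_lit 262))) (XT.nd (nat_lit 78) (nat_lit 912) (nat_lit 0) (XT.lf (nat_lit 0) (nat_lit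 43651040686) (nat_lit 836) (nat_lit 5862588296) (nat_lit 912) (nat_lit 4233217127) (nat_lit 409) (nat_lit 5) (nat_lit 420) (nat_lit 5) (nat_lit 421) (nat_lit 5) (nat_lit 666) (nat_lit 633) (nat_lit 261)) (XT.lf (nat_lit 0) (nat_lit 1490030576) (nat_lit 912) (nat_lit 34771671957) (nat_lit 76) (nat_lit 18078334126) (nat_lit 397) (nat_lit 5) (nat_lit 409) (nat_lit 5) (nat_lit 398) (nat_lit 5) (nat_lit 667) (nat_lit 633) (nat_lit 260))))) (XT.nd (nat_lit 312) (nat_lit 0) (nat_lit 152) (XT.nd (nat_lit 156) (nat_lit 0) (nat_lit 76) (XT.nd (nat_lit 78) (nat_lit 0) (nat_lit 0) (XT.lf (nat_lit 0) (nat_lit 3165173203) (nat_lit 1900) (nat_lit 8129784589) (nat_lit 1900) (nat_lit 8129784589) (nat_lit 471) (nat_lit 3) (nat_lit 496) (nat_lit 3) (nat_lit 496) (nat_lit 5) (nat_lit 634) (nat_lit 634) (nat_lit 292)) (XT.lf (nat_lit 76) (nat_lit 3048908538) (nat_lit 0) (nat_lit 3408191911) (nat_lit 1900) (nat_lit 32779607501) (nat_lit 472) (nat_lit 5) (nat_lit 471) (nat_lit 3)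 (nat_lit 496) (nat_lit 5) (nat_lit 635) (nat_lit 634) (nat_lit 291))) (XT.nd (nat_lit 78) (nat_lit 0) (nat_lit 0) (XT.lf (nat_lit 0) (nat_lit 6799980153) (nat_lit 1824) (nat_lit 16771778931) (nat_lit 1900) (nat_lit 16055644777) (nat_lit 472) (nat_lit 5) (nat_lit 496) (nat_lit 5) (nat_lit 497) (nat_lit 5) (nat_lit 636) (nat_lit 634) (nat_lit 290)) (XT.lf (nat_lit 76) (nat_lit 3049377964) (nat_lit 0) (nat_lit 4141586023) (nat_lit 1900) (nat_lit 32834124839) (nat_lit 473) (nat_lit 5) (nat_lit 472) (nat_lit 5) (nat_lit 497) (nat_lit 5) (nat_lit 637) (nat_lit 634) (nat_lit 289)))) (XT.nd (nat_lit 156) (nat_lit 0) (nat_lit 76) (XT.nd (nat_lit 78) (nat_lit 0) (nat_lit 0) (XT.lf (nat_lit 0) (nat_lit 7803745541) (nat_lit 1824) (nat_lit 17037332499) (nat_lit 1900) (nat_lit 15585369957) (nat_lit 473) (nat_lit 5) (nat_lit 497) (nat_lit 5) (nat_lit 498) (nat_lit 5) (nat_lit 638) (nat_lit 634) (nat_lit 288)) (XT.lf (nat_lit 76) (nat_lit 3315250359) (nat_lit 0) (nat_lit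 5161405004) (nat_lit 1900) (nat_lit 32358221602) (nat_lit 474) (nat_lit 5) (nat_lit 473) (nat_lit 5) (nat_lit 498) (nat_lit 5) (nat_lit 639) (nat_lit 634) (nat_lit 287))) (XT.nd (nat_lit 78) (nat_lit 0) (nat_lit 0) (XT.lf (nat_lit 0) (nat_lit 9373867939) (nat_lit 1824) (nat_lit 17041568020) (nat_lit 1900) (nat_lit 14831821725) (nat_lit 474) (nat_lit 5) (nat_lit 498) (nat_lit 5) (nat_lit 499) (nat_lit 5) (nat_lit 640) (nat_lit 634) (nat_lit 286)) (XT.lf (nat_lit 76) (nat_lit 3861896524) (nat_lit 0) (nat_lit 6485344750) (nat_lit 1900) (nat_lit 31319480476) (nat_lit 475) (nat_lit 5) (nat_lit 474) (nat_lit 5) (nat_lit 499) (nat_lit 5) (nat_lit 641) (nat_lit 634) (nat_lit 285)))))) (XT.nd (nat_lit 546) (nat_lit 0) (nat_lit 228) (XT.nd (nat_lit 234) (nat_lit 0) (nat_lit 76) (XT.nd (nat_lit 78) (nat_lit 0) (nat_lit 0) (XT.lf (nat_lit 0) (nat_lit 11544057501) (nat_lit 1824) (nat_lit 16769134402) (nat_lit 1900) (nat_lit 13777303748) (nat_lit 475) (nat_lit 5) (nat_lit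 499) (nat_lit 5) (nat_lit 500) (nat_lit 5) (nat_lit 642) (nat_lit 634) (nat_lit 284)) (XT.nd (nat_lit 78) (nat_lit 0) (nat_lit 76) (XT.lf (nat_lit 76) (nat_lit 4705403516) (nat_lit 0) (nat_lit 8131906435) (nat_lit 1900) (nat_lit 29683985141) (nat_lit 476) (nat_lit 5) (nat_lit 475) (nat_lit 5) (nat_lit 500) (nat_lit 5) (nat_lit 643) (nat_lit 634) (nat_lit 283)) (XT.lf (nat_lit 0) (nat_lit 14349573442) (nat_lit 1824) (nat_lit 16203963670) (nat_lit 1900) (nat_lit 12403310550) (nat_lit 476) (nat_lit 5) (nat_lit 500) (nat_lit 5) (nat_lit 501) (nat_lit 5) (nat_lit 644) (nat_lit 634) (nat_lit 282)))) (XT.nd (nat_lit 156) (nat_lit 0) (nat_lit 76) (XT.nd (nat_lit 78) (nat_lit 0) (nat_lit 76) (XT.lf (nat_lit 76) (nat_lit 5862603335) (nat_lit 0) (nat_lit 10120433592) (nat_lit 1900) (nat_lit 27416255319) (nat_lit 477) (nat_lit 5) (nat_lit 476) (nat_lit 5) (nat_lit 501) (nat_lit 5) (nat_lit 645) (nat_lit 634) (nat_lit 281)) (XT.lf (nat_lit 0) (nat_lit 17827290898) (nat_lit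 1824) (nat_lit 15329242194) (nat_lit 1900) (nat_lit 10690490264) (nat_lit 477) (nat_lit 5) (nat_lit 501) (nat_lit 5) (nat_lit 502) (nat_lit 5) (nat_lit 646) (nat_lit 634) (nat_lit 280))) (XT.nd (nat_lit 78) (nat_lit 0) (nat_lit 76) (XT.lf (nat_lit 76) (nat_lit 7351102759) (nat_lit 0) (nat_lit 12471150688) (nat_lit 1900) (nat_lit 24479179226) (nat_lit 478) (nat_lit 5) (nat_lit 477) (nat_lit 5) (nat_lit 502) (nat_lit 5) (nat_lit 647) (nat_lit 634) (nat_lit 279)) (XT.lf (nat_lit 0) (nat_lit 22015770478) (nat_lit 1824) (nat_lit 14127380774) (nat_lit 1900) (nat_lit 8618605875) (nat_lit 478) (nat_lit 5) (nat_lit 502) (nat_lit 5) (nat_lit 503) (nat_lit 5) (nat_lit 648) (nat_lit 634) (nat_lit 278))))) (XT.nd (nat_lit 312) (nat_lit 0) (nat_lit 152) (XT.nd (nat_lit 156) (nat_lit 0) (nat_lit 76) (XT.nd (nat_lit 78) (nat_lit 0) (nat_lit 76) (XT.lf (nat_lit 76) (nat_lit 9189314377) (nat_lit 0) (nat_lit 15205203272) (nat_lit 1900) (nat_lit 20833943278) (nat_lit 479) (nat_lit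 5) (nat_lit 478) (nat_lit 5) (nat_lit 503) (nat_lit 5) (nat_lit 649) (nat_lit 634) (nat_lit 277)) (XT.lf (nat_lit 0) (nat_lit 26955330628) (nat_lit 1824) (nat_lit 12579983525) (nat_lit 1900) (nat_lit 6166494886) (nat_lit 479) (nat_lit 5) (nat_lit 503) (nat_lit 5) (nat_lit 504) (nat_lit 5) (nat_lit 650) (nat_lit 634) (nat_lit 276))) (XT.nd (nat_lit 78) (nat_lit 0) (nat_lit 76) (XT.lf (nat_lit 76) (nat_lit 11396488845) (nat_lit 0) (nat_lit 18344699758) (nat_lit 1900) (nat_lit 16439958987) (nat_lit 480) (nat_lit 5) (nat_lit 479) (nat_lit 5) (nat_lit 504) (nat_lit 5) (nat_lit 651) (nat_lit 634) (nat_lit 275)) (XT.lf (nat_lit 0) (nat_lit 32688122902) (nat_lit 1824) (nat_lit 10667815543) (nat_lit 1900) (nat_lit 3312027333) (nat_lit 480) (nat_lit 5) (nat_lit 504) (nat_lit 5) (nat_lit 505) (nat_lit 5) (nat_lit 652) (nat_lit 634) (nat_lit 274)))) (XT.nd (nat_lit 156) (nat_lit 0) (nat_lit 76) (XT.nd (nat_lit 78) (nat_lit 0) (nat_lit 76) (XT.lf (nat_lit 76) (nat_lit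 13992748415) (nat_lit 0) (nat_lit 21912754927) (nat_lit 1900) (nat_lit 11254786891) (nat_lit 481) (nat_lit 5) (nat_lit 480) (nat_lit 5) (nat_lit 505) (nat_lit 5) (nat_lit 653) (nat_lit 634) (nat_lit 273)) (XT.lf (nat_lit 0) (nat_lit 39258210283) (nat_lit 1824) (nat_lit 8370769294) (nat_lit 1900) (nat_lit 32062069) (nat_lit 481) (nat_lit 5) (nat_lit 505) (nat_lit 5) (nat_lit 506) (nat_lit 5) (nat_lit 654) (nat_lit 634) (nat_lit 272))) (XT.nd (nat_lit 78) (nat_lit 0) (nat_lit 0) (XT.lf (nat_lit 76) (nat_lit 16999121784) (nat_lit 0) (nat_lit 25933535218) (nat_lit 1900) (nat_lit 5234057421) (nat_lit 482) (nat_lit 5) (nat_lit 481) (nat_lit 5) (nat_lit 506) (nat_lit 5) (nat_lit 655) (nat_lit 634) (nat_lit 271)) (XT.lf (nat_lit 76) (nat_lit 42989237061) (nat_lit 0) (nat_lit 3746737895) (nat_lit 1900) (nat_lit 1945418099) (nat_lit 482) (nat_lit 5) (nat_lit 481) (nat_lit 5) (nat_lit 506) (nat_lit 5) (nat_lit 656) (nat_lit 634) (nat_lit 270))))))))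
noncomputable def xc250 : XT := (XT.nd (nat_lit 80964) (nat_lit 0) (nat_lit 836) (XT.nd (nat_lit 79794) (nat_lit 0) (nat_lit 4864) (XT.nd (nat_lit 546) (nat_lit 1748) (nat_lit 0) (XT.nd (nat_lit 234) (nat_lit 1900) (nat_lit 0) (XT.nd (nat_lit 78) (nat_lit 0) (nat_lit 0) (XT.lf (nat_lit 0) (nat_lit 1646727281) (nat_lit 1900) (nat_lit 28774528206) (nat_lit 1976) (nat_lit 18779802607) (nat_lit 457) (nat_lit 5) (nat_lit 482) (nat_lit 5) (nat_lit 483) (nat_lit 5) (nat_lit 657) (nat_lit 634) (nat_lit 269)) (XT.nd (nat_lit 78) (nat_lit 0) (nat_lit 76) (XT.lf (nat_lit 0) (nat_lit 5347186308) (nat_lit 1900) (nat_lit 2624205185) (nat_lit 1976) (nat_lit 41758217401) (nat_lit 457) (nat_lit 5) (nat_lit 482) (nat_lit 5) (nat_lit 483) (nat_lit 5) (nat_lit 658) (nat_lit 634) (nat_lit 268)) (XT.lf (nat_lit 0) (nat_lit 9377083212) (nat_lit 1900) (nat_lit 25995471795) (nat_lit 76) (nat_lit 14891067173) (nat_lit 458) (nat_lit 5) (nat_lit 483) (nat_lit 5) (nat_lit 459) (nat_lit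 5) (nat_lit 659) (nat_lit 634) (nat_lit 267)))) (XT.nd (nat_lit 156) (nat_lit 912) (nat_lit 0) (XT.nd (nat_lit 78) (nat_lit 0) (nat_lit 0) (XT.lf (nat_lit 0) (nat_lit 883997716) (nat_lit 1064) (nat_lit 12679095691) (nat_lit 1140) (nat_lit 37243712061) (nat_lit 444) (nat_lit 5) (nat_lit 458) (nat_lit 5) (nat_lit 459) (nat_lit 5) (nat_lit 660) (nat_lit 634) (nat_lit 266)) (XT.lf (nat_lit 0) (nat_lit 18075658725) (nat_lit 1140) (nat_lit 22773714479) (nat_lit 76) (nat_lit 10506622560) (nat_lit 444) (nat_lit 5) (nat_lit 459) (nat_lit 5) (nat_lit 445) (nat_lit 5) (nat_lit 661) (nat_lit 634) (nat_lit 265))) (XT.nd (nat_lit 78) (nat_lit 0) (nat_lit 0) (XT.lf (nat_lit 0) (nat_lit 4897982989) (nat_lit 912) (nat_lit 17895544811) (nat_lit 988) (nat_lit 29120341058) (nat_lit 432) (nat_lit 5) (nat_lit 444) (nat_lit 5) (nat_lit 445) (nat_lit 5) (nat_lit 662) (nat_lit 634) (nat_lit 264)) (XT.lf (nat_lit 0) (nat_lit 27794706546) (nat_lit 988) (nat_lit 19085517661) (nat_lit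 76) (nat_lit 5598896200) (nat_lit 432) (nat_lit 5) (nat_lit 445) (nat_lit 5) (nat_lit 433) (nat_lit 5) (nat_lit 663) (nat_lit 634) (nat_lit 263))))) (XT.nd (nat_lit 78936) (nat_lit 0) (nat_lit 4712) (XT.nd (nat_lit 78) (nat_lit 836) (nat_lit 0) (XT.lf (nat_lit 0) (nat_lit 9407682343) (nat_lit 912) (nat_lit 23667129058) (nat_lit 988) (nat_lit 19977287575) (nat_lit 420) (nat_lit 5) (nat_lit 432) (nat_lit 5) (nat_lit 433) (nat_lit 5) (nat_lit 664) (nat_lit 634) (nat_lit 262)) (XT.nd (nat_lit 78) (nat_lit 836) (nat_lit 0) (XT.lf (nat_lit 0) (nat_lit 38588824552) (nat_lit 988) (nat_lit 14906089837) (nat_lit 76) (nat_lit 139056641) (nat_lit 420) (nat_lit 5) (nat_lit 433) (nat_lit 5) (nat_lit 421) (nat_lit 5) (nat_lit 665) (nat_lit 634) (nat_lit 261)) (XT.lf (nat_lit 0) (nat_lit 14438995224) (nat_lit 836) (nat_lit 30023937358) (nat_lit 912) (nat_lit 9759551690) (nat_lit 409) (nat_lit 5) (nat_lit 420) (nat_lit 5) (nat_lit 421) (nat_lit 5) (nat_lit 666) (nat_lit 634)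 (nat_lit 260)))) (XT.nd (nat_lit 156) (nat_lit 0) (nat_lit 76) (XT.nd (nat_lit 78) (nat_lit 0) (nat_lit 0) (XT.lf (nat_lit 0) (nat_lit 3271848272) (nat_lit 1900) (nat_lit 8270259446) (nat_lit 1900) (nat_lit 8270259446) (nat_lit 471) (nat_lit 3) (nat_lit 496) (nat_lit 3) (nat_lit 496) (nat_lit 5) (nat_lit 635) (nat_lit 635) (nat_lit 290)) (XT.lf (nat_lit 76) (nat_lit 3153837313) (nat_lit 0) (nat_lit 3517732866) (nat_lit 1900) (nat_lit 33348160219) (nat_lit 472) (nat_lit 5) (nat_lit 471) (nat_lit 3) (nat_lit 496) (nat_lit 5) (nat_lit 636) (nat_lit 635) (nat_lit 289))) (XT.nd (nat_lit 78) (nat_lit 0) (nat_lit 0) (XT.lf (nat_lit 0) (nat_lit 7019371004) (nat_lit 1824) (nat_lit 17062184152) (nat_lit 1900) (nat_lit 16336723900) (nat_lit 472) (nat_lit 5) (nat_lit 496) (nat_lit 5) (nat_lit 497) (nat_lit 5) (nat_lit 637) (nat_lit 635) (nat_lit 288)) (XT.lf (nat_lit 76) (nat_lit 3155099628) (nat_lit 0) (nat_lit 4261730208) (nat_lit 1900) (nat_lit 33407114879) (nat_lit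 473) (nat_lit 5) (nat_lit 472) (nat_lit 5) (nat_lit 497) (nat_lit 5) (nat_lit 638) (nat_lit 635) (nat_lit 287)))))) (XT.nd (nat_lit 546) (nat_lit 0) (nat_lit 228) (XT.nd (nat_lit 234) (nat_lit 0) (nat_lit 76) (XT.nd (nat_lit 78) (nat_lit 0) (nat_lit 0) (XT.lf (nat_lit 0) (nat_lit 8040020757) (nat_lit 1824) (nat_lit 17332371060) (nat_lit 1900) (nat_lit 15860976273) (nat_lit 473) (nat_lit 5) (nat_lit 497) (nat_lit 5) (nat_lit 498) (nat_lit 5) (nat_lit 639) (nat_lit 635) (nat_lit 286)) (XT.nd (nat_lit 78) (nat_lit 0) (nat_lit 76) (XT.lf (nat_lit 76) (nat_lit 3426962744) (nat_lit 0) (nat_lit 5298148291) (nat_lit 1900) (nat_lit 32924880253) (nat_lit 474) (nat_lit 5) (nat_lit 473) (nat_lit 5) (nat_lit 498) (nat_lit 5) (nat_lit 640) (nat_lit 635) (nat_lit 285)) (XT.lf (nat_lit 0) (nat_lit 9638507025) (nat_lit 1824) (nat_lit 17336116835) (nat_lit 1900) (nat_lit 15096031071) (nat_lit 474) (nat_lit 5) (nat_lit 498) (nat_lit 5) (nat_lit 499) (nat_lit 5) (nat_lit 641)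 (nat_lit 635) (nat_lit 284)))) (XT.nd (nat_lit 156) (nat_lit 0) (nat_lit 76) (XT.nd (nat_lit 78) (nat_lit 0) (nat_lit 76) (XT.lf (nat_lit 76) (nat_lit 3985112510) (nat_lit 0) (nat_lit 6645020862) (nat_lit 1900) (nat_lit 31868399288) (nat_lit 475) (nat_lit 5) (nat_lit 474) (nat_lit 5) (nat_lit 499) (nat_lit 5) (nat_lit 642) (nat_lit 635) (nat_lit 283)) (XT.lf (nat_lit 0) (nat_lit 11849205996) (nat_lit 1824) (nat_lit 17057756149) (nat_lit 1900) (nat_lit 14023853582) (nat_lit 475) (nat_lit 5) (nat_lit 499) (nat_lit 5) (nat_lit 500) (nat_lit 5) (nat_lit 643) (nat_lit 635) (nat_lit 282))) (XT.nd (nat_lit 78) (nat_lit 0) (nat_lit 76) (XT.lf (nat_lit 76) (nat_lit 4845964891) (nat_lit 0) (nat_lit 8321203989) (nat_lit 1900) (nat_lit 30203085458) (nat_lit 476) (nat_lit 5) (nat_lit 475) (nat_lit 5) (nat_lit 500) (nat_lit 5) (nat_lit 644) (nat_lit 635) (nat_lit 281)) (XT.lf (nat_lit 0) (nat_lit 14708074360) (nat_lit 1824) (nat_lit 16480892893) (nat_lit 1900) (nat_lit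 12625582857) (nat_lit 476) (nat_lit 5) (nat_lit 500) (nat_lit 5) (nat_lit 501) (nat_lit 5) (nat_lit 645) (nat_lit 635) (nat_lit 280))))) (XT.nd (nat_lit 312) (nat_lit 0) (nat_lit 152) (XT.nd (nat_lit 156) (nat_lit 0) (nat_lit 76) (XT.nd (nat_lit 78) (nat_lit 0) (nat_lit 76) (XT.lf (nat_lit 76) (nat_lit 6026695254) (nat_lit 0) (nat_lit 10346413830) (nat_lit 1900) (nat_lit 27892756548) (nat_lit 477) (nat_lit 5) (nat_lit 476) (nat_lit 5) (nat_lit 501) (nat_lit 5) (nat_lit 646) (nat_lit 635) (nat_lit 279)) (XT.lf (nat_lit 0) (nat_lit 18252717477) (nat_lit 1824) (nat_lit 15588370809) (nat_lit 1900) (nat_lit 10881493774) (nat_lit 477) (nat_lit 5) (nat_lit 501) (nat_lit 5) (nat_lit 502) (nat_lit 5) (nat_lit 647) (nat_lit 635) (nat_lit 278))) (XT.nd (nat_lit 78) (nat_lit 0) (nat_lit 76) (XT.lf (nat_lit 76) (nat_lit 7545268832) (nat_lit 0) (nat_lit 12741265933) (nat_lit 1900) (nat_lit 24899565770) (nat_lit 478) (nat_lit 5) (nat_lit 477) (nat_lit 5) (nat_lit 502) (nat_lit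 5) (nat_lit 648) (nat_lit 635) (nat_lit 277)) (XT.lf (nat_lit 0) (nat_lit 22522460300) (nat_lit 1824) (nat_lit 14362242941) (nat_lit 1900) (nat_lit 8770957553) (nat_lit 478) (nat_lit 5) (nat_lit 502) (nat_lit 5) (nat_lit 503) (nat_lit 5) (nat_lit 649) (nat_lit 635) (nat_lit 276)))) (XT.nd (nat_lit 156) (nat_lit 0) (nat_lit 76) (XT.nd (nat_lit 78) (nat_lit 0) (nat_lit 76) (XT.lf (nat_lit 76) (nat_lit 9420472393) (nat_lit 0) (nat_lit 15527316131) (nat_lit 1900) (nat_lit 21183930102) (nat_lit 479) (nat_lit 5) (nat_lit 478) (nat_lit 5) (nat_lit 503) (nat_lit 5) (nat_lit 650) (nat_lit 635) (nat_lit 275)) (XT.lf (nat_lit 0) (nat_lit 27558421159) (nat_lit 1824) (nat_lit 12783739889) (nat_lit 1900) (nat_lit 6272400661) (nat_lit 479) (nat_lit 5) (nat_lit 503) (nat_lit 5) (nat_lit 504) (nat_lit 5) (nat_lit 651) (nat_lit 635) (nat_lit 274))) (XT.nd (nat_lit 78) (nat_lit 0) (nat_lit 76) (XT.lf (nat_lit 76) (nat_lit 11671947169) (nat_lit 0) (nat_lit 18727103124) (nat_lit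 1900) (nat_lit 16704455733) (nat_lit 480) (nat_lit 5) (nat_lit 479) (nat_lit 5) (nat_lit 504) (nat_lit 5) (nat_lit 652) (nat_lit 635) (nat_lit 273)) (XT.lf (nat_lit 0) (nat_lit 33403588519) (nat_lit 1824) (nat_lit 10833236795) (nat_lit 1900) (nat_lit 3363262034) (nat_lit 480) (nat_lit 5) (nat_lit 504) (nat_lit 5) (nat_lit 505) (nat_lit 5) (nat_lit 653) (nat_lit 635) (nat_lit 272))))))) (XT.nd (nat_lit 79872) (nat_lit 0) (nat_lit 3876) (XT.nd (nat_lit 546) (nat_lit 2812) (nat_lit 0) (XT.nd (nat_lit 234) (nat_lit 1748) (nat_lit 0) (XT.nd (nat_lit 78) (nat_lit 0) (nat_lit 76) (XT.lf (nat_lit 76) (nat_lit 14320223080) (nat_lit 0) (nat_lit 22364192800) (nat_lit 1900) (nat_lit 11417860497) (nat_lit 481) (nat_lit 5) (nat_lit 480) (nat_lit 5) (nat_lit 505) (nat_lit 5) (nat_lit 654) (nat_lit 635) (nat_lit 271)) (XT.nd (nat_lit 78) (nat_lit 0) (nat_lit 0) (XT.lf (nat_lit 0) (nat_lit 40102900841) (nat_lit 1824) (nat_lit 8490219044) (nat_lit 1900) (nat_lit 19948526) (nat_lit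 481) (nat_lit 5) (nat_lit 505) (nat_lit 5) (nat_lit 506) (nat_lit 5) (nat_lit 655) (nat_lit 635) (nat_lit 270)) (XT.lf (nat_lit 76) (nat_lit 17386754292) (nat_lit 0) (nat_lit 26463224395) (nat_lit 1900) (nat_lit 5278893182) (nat_lit 482) (nat_lit 5) (nat_lit 481) (nat_lit 5) (nat_lit 506) (nat_lit 5) (nat_lit 656) (nat_lit 635) (nat_lit 269)))) (XT.nd (nat_lit 156) (nat_lit 0) (nat_lit 0) (XT.nd (nat_lit 78) (nat_lit 1824) (nat_lit 0) (XT.lf (nat_lit 76) (nat_lit 43895737559) (nat_lit 0) (nat_lit 3832475077) (nat_lit 1900) (nat_lit 1925654513) (nat_lit 482) (nat_lit 5) (nat_lit 481) (nat_lit 5) (nat_lit 506) (nat_lit 5) (nat_lit 657) (nat_lit 635) (nat_lit 268)) (XT.lf (nat_lit 0) (nat_lit 1736670979) (nat_lit 1900) (nat_lit 29301633610) (nat_lit 1976) (nat_lit 19145631213) (nat_lit 457) (nat_lit 5) (nat_lit 482) (nat_lit 5) (nat_lit 483) (nat_lit 5) (nat_lit 658) (nat_lit 635) (nat_lit 267))) (XT.nd (nat_lit 78) (nat_lit 0) (nat_lit 76) (XT.lf (nat_lit 0)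 (nat_lit 5510021360) (nat_lit 1900) (nat_lit 2629252857) (nat_lit 1976) (nat_lit 42583805822) (nat_lit 457) (nat_lit 5) (nat_lit 482) (nat_lit 5) (nat_lit 483) (nat_lit 5) (nat_lit 659) (nat_lit 635) (nat_lit 266)) (XT.lf (nat_lit 0) (nat_lit 9619674464) (nat_lit 1900) (nat_lit 26467099918) (nat_lit 76) (nat_lit 15181016107) (nat_lit 458) (nat_lit 5) (nat_lit 483) (nat_lit 5) (nat_lit 459) (nat_lit 5) (nat_lit 660) (nat_lit 635) (nat_lit 265))))) (XT.nd (nat_lit 234) (nat_lit 912) (nat_lit 0) (XT.nd (nat_lit 78) (nat_lit 912) (nat_lit 0) (XT.lf (nat_lit 0) (nat_lit 949641343) (nat_lit 1064) (nat_lit 12938995528) (nat_lit 1140) (nat_lit 37933215992) (nat_lit 444) (nat_lit 5) (nat_lit 458) (nat_lit 5) (nat_lit 459) (nat_lit 5) (nat_lit 661) (nat_lit 635) (nat_lit 264)) (XT.nd (nat_lit 78) (nat_lit 912) (nat_lit 0) (XT.lf (nat_lit 0) (nat_lit 18490348934) (nat_lit 1140) (nat_lit 23181057978) (nat_lit 76) (nat_lit 10710642205) (nat_lit 444) (nat_lit 5) (nat_lit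 459) (nat_lit 5) (nat_lit 445) (nat_lit 5) (nat_lit 662) (nat_lit 635) (nat_lit 263)) (XT.lf (nat_lit 0) (nat_lit 5043756790) (nat_lit 912) (nat_lit 18258086355) (nat_lit 988) (nat_lit 29649251232) (nat_lit 432) (nat_lit 5) (nat_lit 444) (nat_lit 5) (nat_lit 445) (nat_lit 5) (nat_lit 663) (nat_lit 635) (nat_lit 262)))) (XT.nd (nat_lit 156) (nat_lit 0) (nat_lit 0) (XT.nd (nat_lit 78) (nat_lit 912) (nat_lit 0) (XT.lf (nat_lit 0) (nat_lit 28401987661) (nat_lit 988) (nat_lit 19419290696) (nat_lit 76) (nat_lit 5706393814) (nat_lit 432) (nat_lit 5) (nat_lit 445) (nat_lit 5) (nat_lit 433) (nat_lit 5) (nat_lit 664) (nat_lit 635) (nat_lit 261)) (XT.lf (nat_lit 0) (nat_lit 9643457931) (nat_lit 912) (nat_lit 24143538288) (nat_lit 988) (nat_lit 20325128118) (nat_lit 420) (nat_lit 5) (nat_lit 432) (nat_lit 5) (nat_lit 433) (nat_lit 5) (nat_lit 665) (nat_lit 635) (nat_lit 260))) (XT.nd (nat_lit 78858) (nat_lit 0) (nat_lit 3876) (XT.lf (nat_lit 0) (nat_lit 39410276219) (nat_lit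 988) (nat_lit 15156507251) (nat_lit 76) (nat_lit 138870687) (nat_lit 420) (nat_lit 5) (nat_lit 433) (nat_lit 5) (nat_lit 421) (nat_lit 5) (nat_lit 666) (nat_lit 635) (nat_lit 259)) (XT.lf (nat_lit 0) (nat_lit 3378972671) (nat_lit 1900) (nat_lit 8414402780) (nat_lit 1900) (nat_lit 8414402780) (nat_lit 471) (nat_lit 3) (nat_lit 496) (nat_lit 3) (nat_lit 496) (nat_lit 5) (nat_lit 636) (nat_lit 636) (nat_lit 288)))))) (XT.nd (nat_lit 546) (nat_lit 0) (nat_lit 304) (XT.nd (nat_lit 234) (nat_lit 0) (nat_lit 152) (XT.nd (nat_lit 78) (nat_lit 0) (nat_lit 76) (XT.lf (nat_lit 76) (nat_lit 3259158008) (nat_lit 0) (nat_lit 3627857915) (nat_lit 1900) (nat_lit 33931463838) (nat_lit 472) (nat_lit 5) (nat_lit 471) (nat_lit 3) (nat_lit 496) (nat_lit 5) (nat_lit 637) (nat_lit 636) (nat_lit 287)) (XT.nd (nat_lit 78) (nat_lit 0) (nat_lit 0) (XT.lf (nat_lit 0) (nat_lit 7239911488) (nat_lit 1824) (nat_lit 17360146062) (nat_lit 1900) (nat_lit 16624979166) (nat_lit 472) (nat_lit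 5) (nat_lit 496) (nat_lit 5) (nat_lit 497) (nat_lit 5) (nat_lit 638) (nat_lit 636) (nat_lit 286)) (XT.lf (nat_lit 76) (nat_lit 3261198645) (nat_lit 0) (nat_lit 4382828387) (nat_lit 1900) (nat_lit 33994814599) (nat_lit 473) (nat_lit 5) (nat_lit 472) (nat_lit 5) (nat_lit 497) (nat_lit 5) (nat_lit 639) (nat_lit 636) (nat_lit 285)))) (XT.nd (nat_lit 156) (nat_lit 0) (nat_lit 76) (XT.nd (nat_lit 78) (nat_lit 0) (nat_lit 0) (XT.lf (nat_lit 0) (nat_lit 8277907202) (nat_lit 1824) (nat_lit 17635085293) (nat_lit 1900) (nat_lit 16143496565) (nat_lit 473) (nat_lit 5) (nat_lit 497) (nat_lit 5) (nat_lit 498) (nat_lit 5) (nat_lit 640) (nat_lit 636) (nat_lit 284)) (XT.lf (nat_lit 76) (nat_lit 3539146152) (nat_lit 0) (nat_lit 5436325009) (nat_lit 1900) (nat_lit 33505998214) (nat_lit 474) (nat_lit 5) (nat_lit 473) (nat_lit 5) (nat_lit 498) (nat_lit 5) (nat_lit 641) (nat_lit 636) (nat_lit 283))) (XT.nd (nat_lit 78) (nat_lit 0) (nat_lit 0) (XT.lf (nat_lit 0) (nat_lit 9905442610)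 (nat_lit 1824) (nat_lit 17638353833) (nat_lit 1900) (nat_lit 15366783788) (nat_lit 474) (nat_lit 5) (nat_lit 498) (nat_lit 5) (nat_lit 499) (nat_lit 5) (nat_lit 642) (nat_lit 636) (nat_lit 282)) (XT.lf (nat_lit 76) (nat_lit 4109007431) (nat_lit 0) (nat_lit 6806726756) (nat_lit 1900) (nat_lit 32431304761) (nat_lit 475) (nat_lit 5) (nat_lit 474) (nat_lit 5) (nat_lit 499) (nat_lit 5) (nat_lit 643) (nat_lit 636) (nat_lit 281))))) (XT.nd (nat_lit 312) (nat_lit 0) (nat_lit 152) (XT.nd (nat_lit 156) (nat_lit 0) (nat_lit 76) (XT.nd (nat_lit 78) (nat_lit 0) (nat_lit 0) (XT.lf (nat_lit 0) (nat_lit 12157573571) (nat_lit 1824) (nat_lit 17353966114) (nat_lit 1900) (nat_lit 14276460372) (nat_lit 475) (nat_lit 5) (nat_lit 499) (nat_lit 5) (nat_lit 500) (nat_lit 5) (nat_lit 644) (nat_lit 636) (nat_lit 280)) (XT.lf (nat_lit 76) (nat_lit 4987533654) (nat_lit 0) (nat_lit 8513252276) (nat_lit 1900) (nat_lit 30735463790) (nat_lit 476) (nat_lit 5) (nat_lit 475) (nat_lit 5) (nat_lit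 500) (nat_lit 5) (nat_lit 645) (nat_lit 636) (nat_lit 279))) (XT.nd (nat_lit 78) (nat_lit 0) (nat_lit 0) (XT.lf (nat_lit 0) (nat_lit 15070968498) (nat_lit 1824) (nat_lit 16765191595) (nat_lit 1900) (nat_lit 12853302220) (nat_lit 476) (nat_lit 5) (nat_lit 500) (nat_lit 5) (nat_lit 501) (nat_lit 5) (nat_lit 646) (nat_lit 636) (nat_lit 278)) (XT.lf (nat_lit 76) (nat_lit 6192250163) (nat_lit 0) (nat_lit 10575998361) (nat_lit 1900) (nat_lit 28381576809) (nat_lit 477) (nat_lit 5) (nat_lit 476) (nat_lit 5) (nat_lit 501) (nat_lit 5) (nat_lit 647) (nat_lit 636) (nat_lit 277)))) (XT.nd (nat_lit 156) (nat_lit 0) (nat_lit 76) (XT.nd (nat_lit 78) (nat_lit 0) (nat_lit 0) (XT.lf (nat_lit 0) (nat_lit 18683977864) (nat_lit 1824) (nat_lit 15854524779) (nat_lit 1900) (nat_lit 11077202951) (nat_lit 477) (nat_lit 5) (nat_lit 501) (nat_lit 5) (nat_lit 502) (nat_lit 5) (nat_lit 648) (nat_lit 636) (nat_lit 276)) (XT.lf (nat_lit 76) (nat_lit 7741487566) (nat_lit 0) (nat_lit 13015979978)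 (nat_lit 1900) (nat_lit 25331047051) (nat_lit 478) (nat_lit 5) (nat_lit 477) (nat_lit 5) (nat_lit 502) (nat_lit 5) (nat_lit 649) (nat_lit 636) (nat_lit 275))) (XT.nd (nat_lit 78) (nat_lit 0) (nat_lit 0) (XT.lf (nat_lit 0) (nat_lit 23036706519) (nat_lit 1824) (nat_lit 14603654036) (nat_lit 1900) (nat_lit 8927133682) (nat_lit 478) (nat_lit 5) (nat_lit 502) (nat_lit 5) (nat_lit 503) (nat_lit 5) (nat_lit 650) (nat_lit 636) (nat_lit 274)) (XT.lf (nat_lit 76) (nat_lit 9654414067) (nat_lit 0) (nat_lit 15855171945) (nat_lit 1900) (nat_lit 21543506396) (nat_lit 479) (nat_lit 5) (nat_lit 478) (nat_lit 5) (nat_lit 503) (nat_lit 5) (nat_lit 651) (nat_lit 636) (nat_lit 273))))))))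
noncomputable def xc251 : XT := (XT.nd (nat_lit 81198) (nat_lit 0) (nat_lit 0) (XT.nd (nat_lit 80028) (nat_lit 0) (nat_lit 2964) (XT.nd (nat_lit 546) (nat_lit 3572) (nat_lit 0) (XT.nd (nat_lit 234) (nat_lit 0) (nat_lit 76) (XT.nd (nat_lit 78) (nat_lit 0) (nat_lit 0) (XT.lf (nat_lit 0) (nat_lit 28171088927) (nat_lit 1824) (nat_lit 12993429195) (nat_lit 1900) (nat_lit 6381101151) (nat_lit 479) (nat_lit 5) (nat_lit 503) (nat_lit 5) (nat_lit 504) (nat_lit 5) (nat_lit 652) (nat_lit 636) (nat_lit 272)) (XT.nd (nat_lit 78) (nat_lit 0) (nat_lit 76) (XT.lf (nat_lit 76) (nat_lit 11951069069) (nat_lit 0) (nat_lit 19116552310) (nat_lit 1900) (nat_lit 16976739355) (nat_lit 480) (nat_lit 5) (nat_lit 479) (nat_lit 5) (nat_lit 504) (nat_lit 5) (nat_lit 653) (nat_lit 636) (nat_lit 271)) (XT.lf (nat_lit 0) (nat_lit 34130967439) (nat_lit 1824) (nat_lit 11003827849) (nat_lit 1900) (nat_lit 3416104123) (nat_lit 480) (nat_lit 5) (nat_lit 504) (nat_lit 5) (nat_lit 505) (nat_lit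 5) (nat_lit 654) (nat_lit 636) (nat_lit 270)))) (XT.nd (nat_lit 156) (nat_lit 0) (nat_lit 76) (XT.nd (nat_lit 78) (nat_lit 0) (nat_lit 76) (XT.lf (nat_lit 76) (nat_lit 14652398107) (nat_lit 0) (nat_lit 22824147528) (nat_lit 1900) (nat_lit 11586603970) (nat_lit 481) (nat_lit 5) (nat_lit 480) (nat_lit 5) (nat_lit 505) (nat_lit 5) (nat_lit 655) (nat_lit 636) (nat_lit 269)) (XT.lf (nat_lit 0) (nat_lit 40962173730) (nat_lit 1824) (nat_lit 8613920354) (nat_lit 1900) (nat_lit 8087995) (nat_lit 481) (nat_lit 5) (nat_lit 505) (nat_lit 5) (nat_lit 506) (nat_lit 5) (nat_lit 656) (nat_lit 636) (nat_lit 268))) (XT.nd (nat_lit 78) (nat_lit 0) (nat_lit 0) (XT.lf (nat_lit 76) (nat_lit 17780289139) (nat_lit 0) (nat_lit 27003079495) (nat_lit 1900) (nat_lit 5326949528) (nat_lit 482) (nat_lit 5) (nat_lit 481) (nat_lit 5) (nat_lit 506) (nat_lit 5) (nat_lit 657) (nat_lit 636) (nat_lit 267)) (XT.lf (nat_lit 76) (nat_lit 44818554038) (nat_lit 0) (nat_lit 3919507532) (nat_lit 1900)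 (nat_lit 1907773959) (nat_lit 482) (nat_lit 5) (nat_lit 481) (nat_lit 5) (nat_lit 506) (nat_lit 5) (nat_lit 658) (nat_lit 636) (nat_lit 266))))) (XT.nd (nat_lit 234) (nat_lit 1900) (nat_lit 0) (XT.nd (nat_lit 78) (nat_lit 0) (nat_lit 0) (XT.lf (nat_lit 0) (nat_lit 1826199816) (nat_lit 1900) (nat_lit 29841159977) (nat_lit 1976) (nat_lit 19519155673) (nat_lit 457) (nat_lit 5) (nat_lit 482) (nat_lit 5) (nat_lit 483) (nat_lit 5) (nat_lit 659) (nat_lit 636) (nat_lit 265)) (XT.nd (nat_lit 78) (nat_lit 0) (nat_lit 76) (XT.lf (nat_lit 0) (nat_lit 5673942785) (nat_lit 1900) (nat_lit 2636243498) (nat_lit 1976) (nat_lit 43426277856) (nat_lit 457) (nat_lit 5) (nat_lit 482) (nat_lit 5) (nat_lit 483) (nat_lit 5) (nat_lit 660) (nat_lit 636) (nat_lit 264)) (XT.lf (nat_lit 0) (nat_lit 9864979899) (nat_lit 1900) (nat_lit 26950035425) (nat_lit 76) (nat_lit 15477069714) (nat_lit 458) (nat_lit 5) (nat_lit 483) (nat_lit 5) (nat_lit 459) (nat_lit 5) (nat_lit 661) (nat_lit 636) (nat_lit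 263)))) (XT.nd (nat_lit 156) (nat_lit 912) (nat_lit 0) (XT.nd (nat_lit 78) (nat_lit 0) (nat_lit 0) (XT.lf (nat_lit 0) (nat_lit 1014735355) (nat_lit 1064) (nat_lit 13203848030) (nat_lit 1140) (nat_lit 38638660098) (nat_lit 444) (nat_lit 5) (nat_lit 458) (nat_lit 5) (nat_lit 459) (nat_lit 5) (nat_lit 662) (nat_lit 636) (nat_lit 262)) (XT.lf (nat_lit 0) (nat_lit 18911268019) (nat_lit 1140) (nat_lit 23598417323) (nat_lit 76) (nat_lit 10918979610) (nat_lit 444) (nat_lit 5) (nat_lit 459) (nat_lit 5) (nat_lit 445) (nat_lit 5) (nat_lit 663) (nat_lit 636) (nat_lit 261))) (XT.nd (nat_lit 78) (nat_lit 0) (nat_lit 0) (XT.lf (nat_lit 0) (nat_lit 5190589385) (nat_lit 912) (nat_lit 18627698917) (nat_lit 988) (nat_lit 30190816949) (nat_lit 432) (nat_lit 5) (nat_lit 444) (nat_lit 5) (nat_lit 445) (nat_lit 5) (nat_lit 664) (nat_lit 636) (nat_lit 260)) (XT.lf (nat_lit 0) (nat_lit 29019418980) (nat_lit 988) (nat_lit 19761600656) (nat_lit 76) (nat_lit 5816215356) (nat_lit 432)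 (nat_lit 5) (nat_lit 445) (nat_lit 5) (nat_lit 433) (nat_lit 5) (nat_lit 665) (nat_lit 636) (nat_lit 259)))))) (XT.nd (nat_lit 546) (nat_lit 0) (nat_lit 228) (XT.nd (nat_lit 234) (nat_lit 0) (nat_lit 76) (XT.nd (nat_lit 78) (nat_lit 0) (nat_lit 0) (XT.lf (nat_lit 0) (nat_lit 3486620784) (nat_lit 1900) (nat_lit 8562254605) (nat_lit 1900) (nat_lit 8562254605) (nat_lit 471) (nat_lit 3) (nat_lit 496) (nat_lit 3) (nat_lit 496) (nat_lit 5) (nat_lit 637) (nat_lit 637) (nat_lit 286)) (XT.nd (nat_lit 78) (nat_lit 0) (nat_lit 76) (XT.lf (nat_lit 76) (nat_lit 3364944733) (nat_lit 0) (nat_lit 3738641133) (nat_lit 1900) (nat_lit 34529682134) (nat_lit 472) (nat_lit 5) (nat_lit 471) (nat_lit 3) (nat_lit 496) (nat_lit 5) (nat_lit 638) (nat_lit 637) (nat_lit 285)) (XT.lf (nat_lit 0) (nat_lit 7461750341) (nat_lit 1824) (nat_lit 17665747894) (nat_lit 1900) (nat_lit 16920493732) (nat_lit 472) (nat_lit 5) (nat_lit 496) (nat_lit 5) (nat_lit 497) (nat_lit 5) (nat_lit 639) (nat_lit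 637) (nat_lit 284)))) (XT.nd (nat_lit 156) (nat_lit 0) (nat_lit 76) (XT.nd (nat_lit 78) (nat_lit 0) (nat_lit 76) (XT.lf (nat_lit 76) (nat_lit 3367750016) (nat_lit 0) (nat_lit 4504955904) (nat_lit 1900) (nat_lit 34597391997) (nat_lit 473) (nat_lit 5) (nat_lit 472) (nat_lit 5) (nat_lit 497) (nat_lit 5) (nat_lit 640) (nat_lit 637) (nat_lit 283)) (XT.lf (nat_lit 0) (nat_lit 8517558032) (nat_lit 1824) (nat_lit 17945559791) (nat_lit 1900) (nat_lit 16433014676) (nat_lit 473) (nat_lit 5) (nat_lit 497) (nat_lit 5) (nat_lit 498) (nat_lit 5) (nat_lit 641) (nat_lit 637) (nat_lit 282))) (XT.nd (nat_lit 78) (nat_lit 0) (nat_lit 76) (XT.lf (nat_lit 76) (nat_lit 3651878474) (nat_lit 0) (nat_lit 5576014362) (nat_lit 1900) (nat_lit 34101743280) (nat_lit 474) (nat_lit 5) (nat_lit 473) (nat_lit 5) (nat_lit 498) (nat_lit 5) (nat_lit 642) (nat_lit 637) (nat_lit 281)) (XT.lf (nat_lit 0) (nat_lit 10174836971) (nat_lit 1824) (nat_lit 17948362992) (nat_lit 1900) (nat_lit 15644161847)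 (nat_lit 474) (nat_lit 5) (nat_lit 498) (nat_lit 5) (nat_lit 499) (nat_lit 5) (nat_lit 643) (nat_lit 637) (nat_lit 280))))) (XT.nd (nat_lit 312) (nat_lit 0) (nat_lit 152) (XT.nd (nat_lit 156) (nat_lit 0) (nat_lit 76) (XT.nd (nat_lit 78) (nat_lit 0) (nat_lit 76) (XT.lf (nat_lit 76) (nat_lit 4233664196) (nat_lit 0) (nat_lit 6970548215) (nat_lit 1900) (nat_lit 33008359814) (nat_lit 475) (nat_lit 5) (nat_lit 474) (nat_lit 5) (nat_lit 499) (nat_lit 5) (nat_lit 644) (nat_lit 637) (nat_lit 279)) (XT.lf (nat_lit 0) (nat_lit 12469336590) (nat_lit 1824) (nat_lit 17657845554) (nat_lit 1900) (nat_lit 14535201535) (nat_lit 475) (nat_lit 5) (nat_lit 499) (nat_lit 5) (nat_lit 500) (nat_lit 5) (nat_lit 645) (nat_lit 637) (nat_lit 278))) (XT.nd (nat_lit 78) (nat_lit 0) (nat_lit 76) (XT.lf (nat_lit 76) (nat_lit 5130199999) (nat_lit 0) (nat_lit 8708146510) (nat_lit 1900) (nat_lit 31281273242) (nat_lit 476) (nat_lit 5) (nat_lit 475) (nat_lit 5) (nat_lit 500) (nat_lit 5) (nat_lit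 646) (nat_lit 637) (nat_lit 277)) (XT.lf (nat_lit 0) (nat_lit 15438451545) (nat_lit 1824) (nat_lit 17056936069) (nat_lit 1900) (nat_lit 13086538684) (nat_lit 476) (nat_lit 5) (nat_lit 500) (nat_lit 5) (nat_lit 501) (nat_lit 5) (nat_lit 647) (nat_lit 637) (nat_lit 276)))) (XT.nd (nat_lit 156) (nat_lit 0) (nat_lit 76) (XT.nd (nat_lit 78) (nat_lit 0) (nat_lit 76) (XT.lf (nat_lit 76) (nat_lit 6359367950) (nat_lit 0) (nat_lit 10809294812) (nat_lit 1900) (nat_lit 28882854184) (nat_lit 477) (nat_lit 5) (nat_lit 476) (nat_lit 5) (nat_lit 501) (nat_lit 5) (nat_lit 648) (nat_lit 637) (nat_lit 275)) (XT.lf (nat_lit 0) (nat_lit 19121292597) (nat_lit 1824) (nat_lit 16127773054) (nat_lit 1900) (nat_lit 11277677519) (nat_lit 477) (nat_lit 5) (nat_lit 501) (nat_lit 5) (nat_lit 502) (nat_lit 5) (nat_lit 649) (nat_lit 637) (nat_lit 274))) (XT.nd (nat_lit 78) (nat_lit 0) (nat_lit 76) (XT.lf (nat_lit 76) (nat_lit 7939871103) (nat_lit 0) (nat_lit 13295416000) (nat_lit 1900) (nat_lit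 25773740623) (nat_lit 478) (nat_lit 5) (nat_lit 477) (nat_lit 5) (nat_lit 502) (nat_lit 5) (nat_lit 650) (nat_lit 637) (nat_lit 273)) (XT.lf (nat_lit 0) (nat_lit 23558760347) (nat_lit 1824) (nat_lit 14851673134) (nat_lit 1900) (nat_lit 9087180564) (nat_lit 478) (nat_lit 5) (nat_lit 502) (nat_lit 5) (nat_lit 503) (nat_lit 5) (nat_lit 651) (nat_lit 637) (nat_lit 272))))))) (XT.nd (nat_lit 80184) (nat_lit 0) (nat_lit 2964) (XT.nd (nat_lit 546) (nat_lit 3496) (nat_lit 0) (XT.nd (nat_lit 234) (nat_lit 0) (nat_lit 152) (XT.nd (nat_lit 78) (nat_lit 0) (nat_lit 76) (XT.lf (nat_lit 76) (nat_lit 9891266502) (nat_lit 0) (nat_lit 16188912726) (nat_lit 1900) (nat_lit 21912763387) (nat_lit 479) (nat_lit 5) (nat_lit 478) (nat_lit 5) (nat_lit 503) (nat_lit 5) (nat_lit 652) (nat_lit 637) (nat_lit 271)) (XT.nd (nat_lit 78) (nat_lit 0) (nat_lit 0) (XT.lf (nat_lit 0) (nat_lit 28793621956) (nat_lit 1824) (nat_lit 13209097960) (nat_lit 1900) (nat_lit 6492625978) (nat_lit 479) (nat_lit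 5) (nat_lit 503) (nat_lit 5) (nat_lit 504) (nat_lit 5) (nat_lit 653) (nat_lit 637) (nat_lit 270)) (XT.lf (nat_lit 76) (nat_lit 12233999481) (nat_lit 0) (nat_lit 19513211619) (nat_lit 1900) (nat_lit 17256868633) (nat_lit 480) (nat_lit 5) (nat_lit 479) (nat_lit 5) (nat_lit 504) (nat_lit 5) (nat_lit 654) (nat_lit 637) (nat_lit 269)))) (XT.nd (nat_lit 156) (nat_lit 0) (nat_lit 0) (XT.nd (nat_lit 78) (nat_lit 0) (nat_lit 0) (XT.lf (nat_lit 0) (nat_lit 34870590969) (nat_lit 1824) (nat_lit 11179619822) (nat_lit 1900) (nat_lit 3470563123) (nat_lit 480) (nat_lit 5) (nat_lit 504) (nat_lit 5) (nat_lit 505) (nat_lit 5) (nat_lit 655) (nat_lit 637) (nat_lit 268)) (XT.lf (nat_lit 76) (nat_lit 14989439308) (nat_lit 0) (nat_lit 23292809324) (nat_lit 1900) (nat_lit 11761037187) (nat_lit 481) (nat_lit 5) (nat_lit 480) (nat_lit 5) (nat_lit 505) (nat_lit 5) (nat_lit 656) (nat_lit 637) (nat_lit 267))) (XT.nd (nat_lit 78) (nat_lit 0) (nat_lit 76) (XT.lf (nat_lit 76) (nat_lit 41832852947)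 (nat_lit 0) (nat_lit 3580654) (nat_lit 1900) (nat_lit 8738328521) (nat_lit 481) (nat_lit 5) (nat_lit 480) (nat_lit 5) (nat_lit 505) (nat_lit 5) (nat_lit 657) (nat_lit 637) (nat_lit 266)) (XT.lf (nat_lit 76) (nat_lit 18179916223) (nat_lit 0) (nat_lit 27553320451) (nat_lit 1900) (nat_lit 5378200632) (nat_lit 482) (nat_lit 5) (nat_lit 481) (nat_lit 5) (nat_lit 506) (nat_lit 5) (nat_lit 658) (nat_lit 637) (nat_lit 265))))) (XT.nd (nat_lit 312) (nat_lit 1900) (nat_lit 0) (XT.nd (nat_lit 156) (nat_lit 0) (nat_lit 0) (XT.nd (nat_lit 78) (nat_lit 1824) (nat_lit 0) (XT.lf (nat_lit 76) (nat_lit 45758083257) (nat_lit 0) (nat_lit 4007877453) (nat_lit 1900) (nat_lit 1891725627) (nat_lit 482) (nat_lit 5) (nat_lit 481) (nat_lit 5) (nat_lit 506) (nat_lit 5) (nat_lit 659) (nat_lit 637) (nat_lit 264)) (XT.lf (nat_lit 0) (nat_lit 1915391457) (nat_lit 1900) (nat_lit 30393282768) (nat_lit 1976) (nat_lit 19900515176) (nat_lit 457) (nat_lit 5) (nat_lit 482) (nat_lit 5) (nat_lit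 483) (nat_lit 5) (nat_lit 660) (nat_lit 637) (nat_lit 263))) (XT.nd (nat_lit 78) (nat_lit 0) (nat_lit 76) (XT.lf (nat_lit 0) (nat_lit 5839056586) (nat_lit 1900) (nat_lit 2645144437) (nat_lit 1976) (nat_lit 44285956736) (nat_lit 457) (nat_lit 5) (nat_lit 482) (nat_lit 5) (nat_lit 483) (nat_lit 5) (nat_lit 661) (nat_lit 637) (nat_lit 262)) (XT.lf (nat_lit 0) (nat_lit 10113136806) (nat_lit 1900) (nat_lit 27444431664) (nat_lit 76) (nat_lit 15779338218) (nat_lit 458) (nat_lit 5) (nat_lit 483) (nat_lit 5) (nat_lit 459) (nat_lit 5) (nat_lit 662) (nat_lit 637) (nat_lit 261)))) (XT.nd (nat_lit 156) (nat_lit 912) (nat_lit 0) (XT.nd (nat_lit 78) (nat_lit 0) (nat_lit 0) (XT.lf (nat_lit 0) (nat_lit 1079341081) (nat_lit 1064) (nat_lit 13473761775) (nat_lit 1140) (nat_lit 39360279693) (nat_lit 444) (nat_lit 5) (nat_lit 458) (nat_lit 5) (nat_lit 459) (nat_lit 5) (nat_lit 663) (nat_lit 637) (nat_lit 260)) (XT.lf (nat_lit 0) (nat_lit 19338620740) (nat_lit 1140) (nat_lit 24025920259)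 (nat_lit 76) (nat_lit 11131711914) (nat_lit 444) (nat_lit 5) (nat_lit 459) (nat_lit 5) (nat_lit 445) (nat_lit 5) (nat_lit 664) (nat_lit 637) (nat_lit 259))) (XT.nd (nat_lit 79092) (nat_lit 0) (nat_lit 2964) (XT.lf (nat_lit 0) (nat_lit 5338574048) (nat_lit 912) (nat_lit 19004530898) (nat_lit 988) (nat_lit 30745210655) (nat_lit 432) (nat_lit 5) (nat_lit 444) (nat_lit 5) (nat_lit 445) (nat_lit 5) (nat_lit 665) (nat_lit 637) (nat_lit 258)) (XT.lf (nat_lit 0) (nat_lit 3594865944) (nat_lit 1900) (nat_lit 8713857029) (nat_lit 1900) (nat_lit 8713857029) (nat_lit 471) (nat_lit 3) (nat_lit 496) (nat_lit 3) (nat_lit 496) (nat_lit 5) (nat_lit 638) (nat_lit 638) (nat_lit 284)))))) (XT.nd (nat_lit 546) (nat_lit 0) (nat_lit 304) (XT.nd (nat_lit 234) (nat_lit 0) (nat_lit 152) (XT.nd (nat_lit 78) (nat_lit 0) (nat_lit 76) (XT.lf (nat_lit 76) (nat_lit 3471270507) (nat_lit 0) (nat_lit 3850155650) (nat_lit 1900) (nat_lit 35142987251) (nat_lit 472) (nat_lit 5) (nat_lit 471) (nat_lit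 3) (nat_lit 496) (nat_lit 5) (nat_lit 639) (nat_lit 638) (nat_lit 283)) (XT.nd (nat_lit 78) (nat_lit 0) (nat_lit 0) (XT.lf (nat_lit 0) (nat_lit 7685034389) (nat_lit 1824) (nat_lit 17979077184) (nat_lit 1900) (nat_lit 17223354763) (nat_lit 472) (nat_lit 5) (nat_lit 496) (nat_lit 5) (nat_lit 497) (nat_lit 5) (nat_lit 640) (nat_lit 638) (nat_lit 282)) (XT.lf (nat_lit 76) (nat_lit 3474827621) (nat_lit 0) (nat_lit 4628187423) (nat_lit 1900) (nat_lit 35215023330) (nat_lit 473) (nat_lit 5) (nat_lit 472) (nat_lit 5) (nat_lit 497) (nat_lit 5) (nat_lit 641) (nat_lit 638) (nat_lit 281)))) (XT.nd (nat_lit 156) (nat_lit 0) (nat_lit 76) (XT.nd (nat_lit 78) (nat_lit 0) (nat_lit 0) (XT.lf (nat_lit 0) (nat_lit 8759124768) (nat_lit 1824) (nat_lit 18263883512) (nat_lit 1900) (nat_lit 16729618241) (nat_lit 473) (nat_lit 5) (nat_lit 497) (nat_lit 5) (nat_lit 498) (nat_lit 5) (nat_lit 642) (nat_lit 638) (nat_lit 280)) (XT.lf (nat_lit 76) (nat_lit 3765236495) (nat_lit 0) (nat_lit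 5717295176) (nat_lit 1900) (nat_lit 34712291316) (nat_lit 474) (nat_lit 5) (nat_lit 473) (nat_lit 5) (nat_lit 498) (nat_lit 5) (nat_lit 643) (nat_lit 638) (nat_lit 279))) (XT.nd (nat_lit 78) (nat_lit 0) (nat_lit 0) (XT.lf (nat_lit 0) (nat_lit 10446851116) (nat_lit 1824) (nat_lit 18266232676) (nat_lit 1900) (nat_lit 15928250758) (nat_lit 474) (nat_lit 5) (nat_lit 498) (nat_lit 5) (nat_lit 499) (nat_lit 5) (nat_lit 644) (nat_lit 638) (nat_lit 278)) (XT.lf (nat_lit 76) (nat_lit 4359164677) (nat_lit 0) (nat_lit 7136570987) (nat_lit 1900) (nat_lit 33599735159) (nat_lit 475) (nat_lit 5) (nat_lit 474) (nat_lit 5) (nat_lit 499) (nat_lit 5) (nat_lit 645) (nat_lit 638) (nat_lit 277))))) (XT.nd (nat_lit 312) (nat_lit 0) (nat_lit 152) (XT.nd (nat_lit 156) (nat_lit 0) (nat_lit 76) (XT.nd (nat_lit 78) (nat_lit 0) (nat_lit 0) (XT.lf (nat_lit 0) (nat_lit 12784670599) (nat_lit 1824) (nat_lit 17969480087) (nat_lit 1900) (nat_lit 14800157734) (nat_lit 475) (nat_lit 5) (nat_lit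 499) (nat_lit 5) (nat_lit 500) (nat_lit 5) (nat_lit 646) (nat_lit 638) (nat_lit 276)) (XT.lf (nat_lit 76) (nat_lit 5274053204) (nat_lit 0) (nat_lit 8905982246) (nat_lit 1900) (nat_lit 31840674346) (nat_lit 476) (nat_lit 5) (nat_lit 475) (nat_lit 5) (nat_lit 500) (nat_lit 5) (nat_lit 647) (nat_lit 638) (nat_lit 275))) (XT.nd (nat_lit 78) (nat_lit 0) (nat_lit 0) (XT.lf (nat_lit 0) (nat_lit 15810718921) (nat_lit 1824) (nat_lit 17356206895) (nat_lit 1900) (nat_lit 13325365209) (nat_lit 476) (nat_lit 5) (nat_lit 500) (nat_lit 5) (nat_lit 501) (nat_lit 5) (nat_lit 648) (nat_lit 638) (nat_lit 274)) (XT.lf (nat_lit 76) (nat_lit 6528147757) (nat_lit 0) (nat_lit 11046411584) (nat_lit 1900) (nat_lit 29396733720) (nat_lit 477) (nat_lit 5) (nat_lit 476) (nat_lit 5) (nat_lit 501) (nat_lit 5) (nat_lit 649) (nat_lit 638) (nat_lit 273)))) (XT.nd (nat_lit 156) (nat_lit 0) (nat_lit 76) (XT.nd (nat_lit 78) (nat_lit 0) (nat_lit 0) (XT.lf (nat_lit 0) (nat_lit 19564882594) (nat_lit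 1824) (nat_lit 16408188741) (nat_lit 1900) (nat_lit 11482979732) (nat_lit 477) (nat_lit 5) (nat_lit 501) (nat_lit 5) (nat_lit 502) (nat_lit 5) (nat_lit 650) (nat_lit 638) (nat_lit 272)) (XT.lf (nat_lit 76) (nat_lit 8140531063) (nat_lit 0) (nat_lit 13579698429) (nat_lit 1900) (nat_lit 26227770445) (nat_lit 478) (nat_lit 5) (nat_lit 477) (nat_lit 5) (nat_lit 502) (nat_lit 5) (nat_lit 651) (nat_lit 638) (nat_lit 271))) (XT.nd (nat_lit 78) (nat_lit 0) (nat_lit 0) (XT.lf (nat_lit 0) (nat_lit 24088874132) (nat_lit 1824) (nat_lit 15106363284) (nat_lit 1900) (nat_lit 9251146598) (nat_lit 478) (nat_lit 5) (nat_lit 502) (nat_lit 5) (nat_lit 503) (nat_lit 5) (nat_lit 652) (nat_lit 638) (nat_lit 270)) (XT.lf (nat_lit 76) (nat_lit 10131156571) (nat_lit 0) (nat_lit 16528682274) (nat_lit 1900) (nat_lit 22291798031) (nat_lit 479) (nat_lit 5) (nat_lit 478) (nat_lit 5) (nat_lit 503) (nat_lit 5) (nat_lit 653) (nat_lit 638) (nat_lit 269))))))))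
noncomputable def xc252 : XT := (XT.nd (nat_lit 81354) (nat_lit 0) (nat_lit 988) (XT.nd (nat_lit 80184) (nat_lit 0) (nat_lit 2128) (XT.nd (nat_lit 546) (nat_lit 2660) (nat_lit 0) (XT.nd (nat_lit 234) (nat_lit 0) (nat_lit 76) (XT.nd (nat_lit 78) (nat_lit 0) (nat_lit 0) (XT.lf (nat_lit 0) (nat_lit 29426310284) (nat_lit 1824) (nat_lit 13430796432) (nat_lit 1900) (nat_lit 6607006374) (nat_lit 479) (nat_lit 5) (nat_lit 503) (nat_lit 5) (nat_lit 504) (nat_lit 5) (nat_lit 654) (nat_lit 638) (nat_lit 268)) (XT.nd (nat_lit 78) (nat_lit 0) (nat_lit 76) (XT.lf (nat_lit 76) (nat_lit 12520883461) (nat_lit 0) (nat_lit 19917247729) (nat_lit 1900) (nat_lit 17544907284) (nat_lit 480) (nat_lit 5) (nat_lit 479) (nat_lit 5) (nat_lit 504) (nat_lit 5) (nat_lit 655) (nat_lit 638) (nat_lit 267)) (XT.lf (nat_lit 0) (nat_lit 35622793427) (nat_lit 1824) (nat_lit 11360647258) (nat_lit 1900) (nat_lit 3526649624) (nat_lit 480) (nat_lit 5) (nat_lit 504) (nat_lit 5) (nat_lit 505) (nat_lit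 5) (nat_lit 656) (nat_lit 638) (nat_lit 266)))) (XT.nd (nat_lit 156) (nat_lit 0) (nat_lit 76) (XT.nd (nat_lit 78) (nat_lit 0) (nat_lit 0) (XT.lf (nat_lit 76) (nat_lit 15331513022) (nat_lit 0) (nat_lit 23770371438) (nat_lit 1900) (nat_lit 11941184052) (nat_lit 481) (nat_lit 5) (nat_lit 480) (nat_lit 5) (nat_lit 505) (nat_lit 5) (nat_lit 657) (nat_lit 638) (nat_lit 265)) (XT.lf (nat_lit 76) (nat_lit 42710965818) (nat_lit 0) (nat_lit 15128666) (nat_lit 1900) (nat_lit 8859101093) (nat_lit 481) (nat_lit 5) (nat_lit 480) (nat_lit 5) (nat_lit 505) (nat_lit 5) (nat_lit 658) (nat_lit 638) (nat_lit 264))) (XT.nd (nat_lit 78) (nat_lit 0) (nat_lit 0) (XT.lf (nat_lit 76) (nat_lit 18585826448) (nat_lit 0) (nat_lit 28114170949) (nat_lit 1900) (nat_lit 5432623653) (nat_lit 482) (nat_lit 5) (nat_lit 481) (nat_lit 5) (nat_lit 506) (nat_lit 5) (nat_lit 659) (nat_lit 638) (nat_lit 263)) (XT.lf (nat_lit 76) (nat_lit 46714727178) (nat_lit 0) (nat_lit 4097627246) (nat_lit 1900)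 (nat_lit 1877461128) (nat_lit 482) (nat_lit 5) (nat_lit 481) (nat_lit 5) (nat_lit 506) (nat_lit 5) (nat_lit 660) (nat_lit 638) (nat_lit 262))))) (XT.nd (nat_lit 234) (nat_lit 988) (nat_lit 0) (XT.nd (nat_lit 78) (nat_lit 0) (nat_lit 0) (XT.lf (nat_lit 0) (nat_lit 2004321782) (nat_lit 1900) (nat_lit 30958183786) (nat_lit 1976) (nat_lit 20289852267) (nat_lit 457) (nat_lit 5) (nat_lit 482) (nat_lit 5) (nat_lit 483) (nat_lit 5) (nat_lit 661) (nat_lit 638) (nat_lit 261)) (XT.nd (nat_lit 78) (nat_lit 0) (nat_lit 76) (XT.lf (nat_lit 0) (nat_lit 6005467615) (nat_lit 1900) (nat_lit 2655925133) (nat_lit 1976) (nat_lit 45163172721) (nat_lit 457) (nat_lit 5) (nat_lit 482) (nat_lit 5) (nat_lit 483) (nat_lit 5) (nat_lit 662) (nat_lit 638) (nat_lit 260)) (XT.lf (nat_lit 0) (nat_lit 10364282001) (nat_lit 1900) (nat_lit 27950447873) (nat_lit 76) (nat_lit 16087934507) (nat_lit 458) (nat_lit 5) (nat_lit 483) (nat_lit 5) (nat_lit 459) (nat_lit 5) (nat_lit 663) (nat_lit 638) (nat_lit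 259)))) (XT.nd (nat_lit 79248) (nat_lit 0) (nat_lit 2052) (XT.nd (nat_lit 78) (nat_lit 0) (nat_lit 0) (XT.lf (nat_lit 0) (nat_lit 1143518272) (nat_lit 1064) (nat_lit 13748847145) (nat_lit 1140) (nat_lit 40098318036) (nat_lit 444) (nat_lit 5) (nat_lit 458) (nat_lit 5) (nat_lit 459) (nat_lit 5) (nat_lit 664) (nat_lit 638) (nat_lit 258)) (XT.lf (nat_lit 0) (nat_lit 19772612840) (nat_lit 1140) (nat_lit 24463699899) (nat_lit 76) (nat_lit 11348918155) (nat_lit 444) (nat_lit 5) (nat_lit 459) (nat_lit 5) (nat_lit 445) (nat_lit 5) (nat_lit 665) (nat_lit 638) (nat_lit 257))) (XT.nd (nat_lit 78) (nat_lit 0) (nat_lit 0) (XT.lf (nat_lit 0) (nat_lit 3703780511) (nat_lit 1900) (nat_lit 8869254251) (nat_lit 1900) (nat_lit 8869254251) (nat_lit 471) (nat_lit 3) (nat_lit 496) (nat_lit 3) (nat_lit 496) (nat_lit 5) (nat_lit 639) (nat_lit 639) (nat_lit 282)) (XT.lf (nat_lit 76) (nat_lit 3578207335) (nat_lit 0) (nat_lit 3962473733) (nat_lit 1900) (nat_lit 35771559679) (nat_lit 472)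 (nat_lit 5) (nat_lit 471) (nat_lit 3) (nat_lit 496) (nat_lit 5) (nat_lit 640) (nat_lit 639) (nat_lit 281)))))) (XT.nd (nat_lit 546) (nat_lit 0) (nat_lit 228) (XT.nd (nat_lit 234) (nat_lit 0) (nat_lit 76) (XT.nd (nat_lit 78) (nat_lit 0) (nat_lit 0) (XT.lf (nat_lit 0) (nat_lit 7909908704) (nat_lit 1824) (nat_lit 18300225751) (nat_lit 1900) (nat_lit 17533653419) (nat_lit 472) (nat_lit 5) (nat_lit 496) (nat_lit 5) (nat_lit 497) (nat_lit 5) (nat_lit 641) (nat_lit 639) (nat_lit 280)) (XT.nd (nat_lit 78) (nat_lit 0) (nat_lit 76) (XT.lf (nat_lit 76) (nat_lit 3582504301) (nat_lit 0) (nat_lit 4752597000) (nat_lit 1900) (nat_lit 35847893090) (nat_lit 473) (nat_lit 5) (nat_lit 472) (nat_lit 5) (nat_lit 497) (nat_lit 5) (nat_lit 642) (nat_lit 639) (nat_lit 279)) (XT.lf (nat_lit 0) (nat_lit 9002757452) (nat_lit 1824) (nat_lit 18590149768) (nat_lit 1900) (nat_lit 17033398680) (nat_lit 473) (nat_lit 5) (nat_lit 497) (nat_lit 5) (nat_lit 498) (nat_lit 5) (nat_lit 643) (nat_lit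 639) (nat_lit 278)))) (XT.nd (nat_lit 156) (nat_lit 0) (nat_lit 76) (XT.nd (nat_lit 78) (nat_lit 0) (nat_lit 76) (XT.lf (nat_lit 76) (nat_lit 3879295985) (nat_lit 0) (nat_lit 5860245970) (nat_lit 1900) (nat_lit 35337826233) (nat_lit 474) (nat_lit 5) (nat_lit 473) (nat_lit 5) (nat_lit 498) (nat_lit 5) (nat_lit 644) (nat_lit 639) (nat_lit 277)) (XT.lf (nat_lit 0) (nat_lit 10721644931) (nat_lit 1824) (nat_lit 18592055622) (nat_lit 1900) (nat_lit 16219139566) (nat_lit 474) (nat_lit 5) (nat_lit 498) (nat_lit 5) (nat_lit 499) (nat_lit 5) (nat_lit 645) (nat_lit 639) (nat_lit 276))) (XT.nd (nat_lit 78) (nat_lit 0) (nat_lit 76) (XT.lf (nat_lit 76) (nat_lit 4485589798) (nat_lit 0) (nat_lit 7304880846) (nat_lit 1900) (nat_lit 34205609282) (nat_lit 475) (nat_lit 5) (nat_lit 474) (nat_lit 5) (nat_lit 499) (nat_lit 5) (nat_lit 646) (nat_lit 639) (nat_lit 275)) (XT.lf (nat_lit 0) (nat_lit 13103750476) (nat_lit 1824) (nat_lit 18288959676) (nat_lit 1900) (nat_lit 15071412876)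 (nat_lit 475) (nat_lit 5) (nat_lit 499) (nat_lit 5) (nat_lit 500) (nat_lit 5) (nat_lit 647) (nat_lit 639) (nat_lit 274))))) (XT.nd (nat_lit 312) (nat_lit 0) (nat_lit 152) (XT.nd (nat_lit 156) (nat_lit 0) (nat_lit 76) (XT.nd (nat_lit 78) (nat_lit 0) (nat_lit 76) (XT.lf (nat_lit 76) (nat_lit 5419181716) (nat_lit 0) (nat_lit 9106855454) (nat_lit 1900) (nat_lit 32413835046) (nat_lit 476) (nat_lit 5) (nat_lit 475) (nat_lit 5) (nat_lit 500) (nat_lit 5) (nat_lit 648) (nat_lit 639) (nat_lit 273)) (XT.lf (nat_lit 0) (nat_lit 16187965926) (nat_lit 1824) (nat_lit 17663088919) (nat_lit 1900) (nat_lit 13569857665) (nat_lit 476) (nat_lit 5) (nat_lit 500) (nat_lit 5) (nat_lit 501) (nat_lit 5) (nat_lit 649) (nat_lit 639) (nat_lit 272))) (XT.nd (nat_lit 78) (nat_lit 0) (nat_lit 76) (XT.lf (nat_lit 76) (nat_lit 6698688076) (nat_lit 0) (nat_lit 11287457920) (nat_lit 1900) (nat_lit 29923367406) (nat_lit 477) (nat_lit 5) (nat_lit 476) (nat_lit 5) (nat_lit 501) (nat_lit 5) (nat_lit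 650) (nat_lit 639) (nat_lit 271)) (XT.lf (nat_lit 0) (nat_lit 20014969312) (nat_lit 1824) (nat_lit 16695849081) (nat_lit 1900) (nat_lit 11693174373) (nat_lit 477) (nat_lit 5) (nat_lit 501) (nat_lit 5) (nat_lit 502) (nat_lit 5) (nat_lit 651) (nat_lit 639) (nat_lit 270)))) (XT.nd (nat_lit 156) (nat_lit 0) (nat_lit 76) (XT.nd (nat_lit 78) (nat_lit 0) (nat_lit 76) (XT.lf (nat_lit 76) (nat_lit 8343578649) (nat_lit 0) (nat_lit 13868953017) (nat_lit 1900) (nat_lit 26693266846) (nat_lit 478) (nat_lit 5) (nat_lit 477) (nat_lit 5) (nat_lit 502) (nat_lit 5) (nat_lit 652) (nat_lit 639) (nat_lit 269)) (XT.lf (nat_lit 0) (nat_lit 24627301537) (nat_lit 1824) (nat_lit 15367791479) (nat_lit 1900) (nat_lit 9419082277) (nat_lit 478) (nat_lit 5) (nat_lit 502) (nat_lit 5) (nat_lit 503) (nat_lit 5) (nat_lit 653) (nat_lit 639) (nat_lit 268))) (XT.nd (nat_lit 78) (nat_lit 0) (nat_lit 76) (XT.lf (nat_lit 76) (nat_lit 10374211016) (nat_lit 0) (nat_lit 16874626252) (nat_lit 1900) (nat_lit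 22680712977) (nat_lit 479) (nat_lit 5) (nat_lit 478) (nat_lit 5) (nat_lit 503) (nat_lit 5) (nat_lit 654) (nat_lit 639) (nat_lit 267)) (XT.lf (nat_lit 0) (nat_lit 30069446148) (nat_lit 1824) (nat_lit 13658578560) (nat_lit 1900) (nat_lit 6724275181) (nat_lit 479) (nat_lit 5) (nat_lit 503) (nat_lit 5) (nat_lit 504) (nat_lit 5) (nat_lit 655) (nat_lit 639) (nat_lit 266))))))) (XT.nd (nat_lit 80340) (nat_lit 0) (nat_lit 1216) (XT.nd (nat_lit 546) (nat_lit 0) (nat_lit 0) (XT.nd (nat_lit 234) (nat_lit 1672) (nat_lit 0) (XT.nd (nat_lit 78) (nat_lit 0) (nat_lit 76) (XT.lf (nat_lit 76) (nat_lit 12811866287) (nat_lit 0) (nat_lit 20328829783) (nat_lit 1900) (nat_lit 17840923921) (nat_lit 480) (nat_lit 5) (nat_lit 479) (nat_lit 5) (nat_lit 504) (nat_lit 5) (nat_lit 656) (nat_lit 639) (nat_lit 265)) (XT.nd (nat_lit 78) (nat_lit 0) (nat_lit 0) (XT.lf (nat_lit 0) (nat_lit 36387912347) (nat_lit 1824) (nat_lit 11546948092) (nat_lit 1900) (nat_lit 3584375271) (nat_lit 480) (nat_lit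 5) (nat_lit 504) (nat_lit 5) (nat_lit 505) (nat_lit 5) (nat_lit 657) (nat_lit 639) (nat_lit 264)) (XT.lf (nat_lit 76) (nat_lit 15678786235) (nat_lit 0) (nat_lit 24257030238) (nat_lit 1900) (nat_lit 12127072441) (nat_lit 481) (nat_lit 5) (nat_lit 480) (nat_lit 5) (nat_lit 505) (nat_lit 5) (nat_lit 658) (nat_lit 639) (nat_lit 263)))) (XT.nd (nat_lit 156) (nat_lit 1748) (nat_lit 0) (XT.nd (nat_lit 78) (nat_lit 0) (nat_lit 76) (XT.lf (nat_lit 76) (nat_lit 43605031166) (nat_lit 0) (nat_lit 26461995) (nat_lit 1900) (nat_lit 8984385770) (nat_lit 481) (nat_lit 5) (nat_lit 480) (nat_lit 5) (nat_lit 505) (nat_lit 5) (nat_lit 659) (nat_lit 639) (nat_lit 262)) (XT.lf (nat_lit 76) (nat_lit 18998211855) (nat_lit 0) (nat_lit 28685858529) (nat_lit 1900) (nat_lit 5490198664) (nat_lit 482) (nat_lit 5) (nat_lit 481) (nat_lit 5) (nat_lit 506) (nat_lit 5) (nat_lit 660) (nat_lit 639) (nat_lit 261))) (XT.nd (nat_lit 78) (nat_lit 1824) (nat_lit 0) (XT.lf (nat_lit 76) (nat_lit 47688893170)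 (nat_lit 0) (nat_lit 4188799557) (nat_lit 1900) (nat_lit 1864934408) (nat_lit 482) (nat_lit 5) (nat_lit 481) (nat_lit 5) (nat_lit 506) (nat_lit 5) (nat_lit 661) (nat_lit 639) (nat_lit 260)) (XT.lf (nat_lit 0) (nat_lit 2093064980) (nat_lit 1900) (nat_lit 31536051193) (nat_lit 1976) (nat_lit 20687312891) (nat_lit 457) (nat_lit 5) (nat_lit 482) (nat_lit 5) (nat_lit 483) (nat_lit 5) (nat_lit 662) (nat_lit 639) (nat_lit 259))))) (XT.nd (nat_lit 79482) (nat_lit 0) (nat_lit 1064) (XT.nd (nat_lit 78) (nat_lit 0) (nat_lit 76) (XT.lf (nat_lit 0) (nat_lit 6173279676) (nat_lit 1900) (nat_lit 2668557098) (nat_lit 1976) (nat_lit 46058263214) (nat_lit 457) (nat_lit 5) (nat_lit 482) (nat_lit 5) (nat_lit 483) (nat_lit 5) (nat_lit 663) (nat_lit 639) (nat_lit 258)) (XT.nd (nat_lit 79326) (nat_lit 0) (nat_lit 988) (XT.lf (nat_lit 0) (nat_lit 10618551934) (nat_lit 1900) (nat_lit 28468249195) (nat_lit 76) (nat_lit 16402974171) (nat_lit 458) (nat_lit 5) (nat_lit 483) (nat_lit 5)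 (nat_lit 459) (nat_lit 5) (nat_lit 664) (nat_lit 639) (nat_lit 257)) (XT.lf (nat_lit 0) (nat_lit 3813435944) (nat_lit 1900) (nat_lit 9028492547) (nat_lit 1900) (nat_lit 9028492547) (nat_lit 471) (nat_lit 3) (nat_lit 496) (nat_lit 3) (nat_lit 496) (nat_lit 5) (nat_lit 640) (nat_lit 640) (nat_lit 280)))) (XT.nd (nat_lit 156) (nat_lit 0) (nat_lit 76) (XT.nd (nat_lit 78) (nat_lit 0) (nat_lit 76) (XT.lf (nat_lit 76) (nat_lit 3685826285) (nat_lit 0) (nat_lit 4075666854) (nat_lit 1900) (nat_lit 36415588222) (nat_lit 472) (nat_lit 5) (nat_lit 471) (nat_lit 3) (nat_lit 496) (nat_lit 5) (nat_lit 641) (nat_lit 640) (nat_lit 279)) (XT.lf (nat_lit 0) (nat_lit 8136516746) (nat_lit 1824) (nat_lit 18629289689) (nat_lit 1900) (nat_lit 17851484850) (nat_lit 472) (nat_lit 5) (nat_lit 496) (nat_lit 5) (nat_lit 497) (nat_lit 5) (nat_lit 642) (nat_lit 640) (nat_lit 278))) (XT.nd (nat_lit 78) (nat_lit 0) (nat_lit 76) (XT.lf (nat_lit 76) (nat_lit 3690851934) (nat_lit 0) (nat_lit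 4878258157) (nat_lit 1900) (nat_lit 36496193987) (nat_lit 473) (nat_lit 5) (nat_lit 472) (nat_lit 5) (nat_lit 497) (nat_lit 5) (nat_lit 643) (nat_lit 640) (nat_lit 277)) (XT.lf (nat_lit 0) (nat_lit 9248604785) (nat_lit 1824) (nat_lit 18924456211) (nat_lit 1900) (nat_lit 17344451191) (nat_lit 473) (nat_lit 5) (nat_lit 497) (nat_lit 5) (nat_lit 498) (nat_lit 5) (nat_lit 644) (nat_lit 640) (nat_lit 276)))))) (XT.nd (nat_lit 546) (nat_lit 0) (nat_lit 304) (XT.nd (nat_lit 234) (nat_lit 0) (nat_lit 152) (XT.nd (nat_lit 78) (nat_lit 0) (nat_lit 76) (XT.lf (nat_lit 76) (nat_lit 3994131769) (nat_lit 0) (nat_lit 6004945016) (nat_lit 1900) (nat_lit 35978539977) (nat_lit 474) (nat_lit 5) (nat_lit 473) (nat_lit 5) (nat_lit 498) (nat_lit 5) (nat_lit 645) (nat_lit 640) (nat_lit 275)) (XT.nd (nat_lit 78) (nat_lit 0) (nat_lit 0) (XT.lf (nat_lit 0) (nat_lit 10999377321) (nat_lit 1824) (nat_lit 18925928927) (nat_lit 1900) (nat_lit 16516920851) (nat_lit 474) (nat_lit 5) (nat_lit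 498) (nat_lit 5) (nat_lit 499) (nat_lit 5) (nat_lit 646) (nat_lit 640) (nat_lit 274)) (XT.lf (nat_lit 76) (nat_lit 4613019614) (nat_lit 0) (nat_lit 7475563659) (nat_lit 1900) (nat_lit 34826168430) (nat_lit 475) (nat_lit 5) (nat_lit 474) (nat_lit 5) (nat_lit 499) (nat_lit 5) (nat_lit 647) (nat_lit 640) (nat_lit 273)))) (XT.nd (nat_lit 156) (nat_lit 0) (nat_lit 76) (XT.nd (nat_lit 78) (nat_lit 0) (nat_lit 0) (XT.lf (nat_lit 0) (nat_lit 13426750576) (nat_lit 1824) (nat_lit 18616378610) (nat_lit 1900) (nat_lit 15349054116) (nat_lit 475) (nat_lit 5) (nat_lit 499) (nat_lit 5) (nat_lit 500) (nat_lit 5) (nat_lit 648) (nat_lit 640) (nat_lit 272)) (XT.lf (nat_lit 76) (nat_lit 5565673239) (nat_lit 0) (nat_lit 9310862577) (nat_lit 1900) (nat_lit 33000930675) (nat_lit 476) (nat_lit 5) (nat_lit 475) (nat_lit 5) (nat_lit 500) (nat_lit 5) (nat_lit 649) (nat_lit 640) (nat_lit 271))) (XT.nd (nat_lit 78) (nat_lit 0) (nat_lit 0) (XT.lf (nat_lit 0) (nat_lit 16570387899) (nat_lit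 1824) (nat_lit 17977671234) (nat_lit 1900) (nat_lit 13820094833) (nat_lit 476) (nat_lit 5) (nat_lit 500) (nat_lit 5) (nat_lit 501) (nat_lit 5) (nat_lit 650) (nat_lit 640) (nat_lit 270)) (XT.lf (nat_lit 76) (nat_lit 6871086830) (nat_lit 0) (nat_lit 11532543973) (nat_lit 1900) (nat_lit 30462914158) (nat_lit 477) (nat_lit 5) (nat_lit 476) (nat_lit 5) (nat_lit 501) (nat_lit 5) (nat_lit 651) (nat_lit 640) (nat_lit 269))))) (XT.nd (nat_lit 312) (nat_lit 0) (nat_lit 152) (XT.nd (nat_lit 156) (nat_lit 0) (nat_lit 76) (XT.nd (nat_lit 78) (nat_lit 0) (nat_lit 0) (XT.lf (nat_lit 0) (nat_lit 20471774914) (nat_lit 1824) (nat_lit 16990835425) (nat_lit 1900) (nat_lit 11908328756) (nat_lit 477) (nat_lit 5) (nat_lit 501) (nat_lit 5) (nat_lit 502) (nat_lit 5) (nat_lit 652) (nat_lit 640) (nat_lit 268)) (XT.lf (nat_lit 76) (nat_lit 8549124737) (nat_lit 0) (nat_lit 14163306914) (nat_lit 1900) (nat_lit 27170366509) (nat_lit 478) (nat_lit 5) (nat_lit 477) (nat_lit 5) (nat_lit 502)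 (nat_lit 5) (nat_lit 653) (nat_lit 640) (nat_lit 267))) (XT.nd (nat_lit 78) (nat_lit 0) (nat_lit 0) (XT.lf (nat_lit 0) (nat_lit 25174297704) (nat_lit 1824) (nat_lit 15636028633) (nat_lit 1900) (nat_lit 9591040189) (nat_lit 478) (nat_lit 5) (nat_lit 502) (nat_lit 5) (nat_lit 503) (nat_lit 5) (nat_lit 654) (nat_lit 640) (nat_lit 266)) (XT.lf (nat_lit 76) (nat_lit 10620556552) (nat_lit 0) (nat_lit 17226892261) (nat_lit 1900) (nat_lit 23079616534) (nat_lit 479) (nat_lit 5) (nat_lit 478) (nat_lit 5) (nat_lit 503) (nat_lit 5) (nat_lit 655) (nat_lit 640) (nat_lit 265)))) (XT.nd (nat_lit 156) (nat_lit 0) (nat_lit 76) (XT.nd (nat_lit 78) (nat_lit 0) (nat_lit 0) (XT.lf (nat_lit 0) (nat_lit 30723324170) (nat_lit 1824) (nat_lit 13892501957) (nat_lit 1900) (nat_lit 6844466835) (nat_lit 479) (nat_lit 5) (nat_lit 503) (nat_lit 5) (nat_lit 504) (nat_lit 5) (nat_lit 656) (nat_lit 640) (nat_lit 264)) (XT.lf (nat_lit 76) (nat_lit 13107093576) (nat_lit 0) (nat_lit 20748129465)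 (nat_lit 1900) (nat_lit 18144992007) (nat_lit 480) (nat_lit 5) (nat_lit 479) (nat_lit 5) (nat_lit 504) (nat_lit 5) (nat_lit 657) (nat_lit 640) (nat_lit 263))) (XT.nd (nat_lit 78) (nat_lit 0) (nat_lit 0) (XT.lf (nat_lit 0) (nat_lit 37166288675) (nat_lit 1824) (nat_lit 11738563610) (nat_lit 1900) (nat_lit 3643752756) (nat_lit 480) (nat_lit 5) (nat_lit 504) (nat_lit 5) (nat_lit 505) (nat_lit 5) (nat_lit 658) (nat_lit 640) (nat_lit 262)) (XT.lf (nat_lit 76) (nat_lit 16031426696) (nat_lit 0) (nat_lit 24752985310) (nat_lit 1900) (nat_lit 12318734139) (nat_lit 481) (nat_lit 5) (nat_lit 480) (nat_lit 5) (nat_lit 505) (nat_lit 5) (nat_lit 659) (nat_lit 640) (nat_lit 261))))))))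
noncomputable def xc253 : XT := (XT.nd (nat_lit 161070) (nat_lit 0) (nat_lit 1064) (XT.nd (nat_lit 80418) (nat_lit 0) (nat_lit 1064) (XT.nd (nat_lit 79872) (nat_lit 0) (nat_lit 1140) (XT.nd (nat_lit 234) (nat_lit 1748) (nat_lit 0) (XT.nd (nat_lit 78) (nat_lit 0) (nat_lit 76) (XT.lf (nat_lit 76) (nat_lit 44515430551) (nat_lit 0) (nat_lit 37593654) (nat_lit 1900) (nat_lit 9114191377) (nat_lit 481) (nat_lit 5) (nat_lit 480) (nat_lit 5) (nat_lit 505) (nat_lit 5) (nat_lit 660) (nat_lit 640) (nat_lit 260)) (XT.nd (nat_lit 78) (nat_lit 0) (nat_lit 0) (XT.lf (nat_lit 76) (nat_lit 19417265748) (nat_lit 0) (nat_lit 29268614685) (nat_lit 1900) (nat_lit 5550908576) (nat_lit 482) (nat_lit 5) (nat_lit 481) (nat_lit 5) (nat_lit 506) (nat_lit 5) (nat_lit 661) (nat_lit 640) (nat_lit 259)) (XT.lf (nat_lit 76) (nat_lit 48680994225) (nat_lit 0) (nat_lit 4281437299) (nat_lit 1900) (nat_lit 1854101663) (nat_lit 482) (nat_lit 5) (nat_lit 481) (nat_lit 5) (nat_lit 506) (nat_lit 5)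 (nat_lit 662) (nat_lit 640) (nat_lit 258)))) (XT.nd (nat_lit 79482) (nat_lit 0) (nat_lit 1064) (XT.nd (nat_lit 78) (nat_lit 0) (nat_lit 0) (XT.lf (nat_lit 0) (nat_lit 2181693641) (nat_lit 1900) (nat_lit 32127079533) (nat_lit 1976) (nat_lit 21093046441) (nat_lit 457) (nat_lit 5) (nat_lit 482) (nat_lit 5) (nat_lit 483) (nat_lit 5) (nat_lit 663) (nat_lit 640) (nat_lit 257)) (XT.lf (nat_lit 0) (nat_lit 6342595624) (nat_lit 1900) (nat_lit 2683013844) (nat_lit 1976) (nat_lit 46971572882) (nat_lit 457) (nat_lit 5) (nat_lit 482) (nat_lit 5) (nat_lit 483) (nat_lit 5) (nat_lit 664) (nat_lit 640) (nat_lit 256))) (XT.nd (nat_lit 78) (nat_lit 0) (nat_lit 0) (XT.lf (nat_lit 0) (nat_lit 3923902878) (nat_lit 1900) (nat_lit 9191620272) (nat_lit 1900) (nat_lit 9191620272) (nat_lit 471) (nat_lit 3) (nat_lit 496) (nat_lit 3) (nat_lit 496) (nat_lit 5) (nat_lit 641) (nat_lit 641) (nat_lit 278)) (XT.lf (nat_lit 76) (nat_lit 3794197563) (nat_lit 0) (nat_lit 4189805765) (nat_lit 1900)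 (nat_lit 37075269988) (nat_lit 472) (nat_lit 5) (nat_lit 471) (nat_lit 3) (nat_lit 496) (nat_lit 5) (nat_lit 642) (nat_lit 641) (nat_lit 277))))) (XT.nd (nat_lit 234) (nat_lit 0) (nat_lit 76) (XT.nd (nat_lit 78) (nat_lit 0) (nat_lit 0) (XT.lf (nat_lit 0) (nat_lit 8365000511) (nat_lit 1824) (nat_lit 18966369354) (nat_lit 1900) (nat_lit 18176948191) (nat_lit 472) (nat_lit 5) (nat_lit 496) (nat_lit 5) (nat_lit 497) (nat_lit 5) (nat_lit 643) (nat_lit 641) (nat_lit 276)) (XT.nd (nat_lit 78) (nat_lit 0) (nat_lit 76) (XT.lf (nat_lit 76) (nat_lit 3799941509) (nat_lit 0) (nat_lit 5005243943) (nat_lit 1900) (nat_lit 37160126935) (nat_lit 473) (nat_lit 5) (nat_lit 472) (nat_lit 5) (nat_lit 497) (nat_lit 5) (nat_lit 644) (nat_lit 641) (nat_lit 275)) (XT.lf (nat_lit 0) (nat_lit 9496814274) (nat_lit 1824) (nat_lit 19266904819) (nat_lit 1900) (nat_lit 17662874758) (nat_lit 473) (nat_lit 5) (nat_lit 497) (nat_lit 5) (nat_lit 498) (nat_lit 5) (nat_lit 645) (nat_lit 641) (nat_lit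 274)))) (XT.nd (nat_lit 156) (nat_lit 0) (nat_lit 76) (XT.nd (nat_lit 78) (nat_lit 0) (nat_lit 76) (XT.lf (nat_lit 76) (nat_lit 4109817812) (nat_lit 0) (nat_lit 6151470413) (nat_lit 1900) (nat_lit 36634632518) (nat_lit 474) (nat_lit 5) (nat_lit 473) (nat_lit 5) (nat_lit 498) (nat_lit 5) (nat_lit 646) (nat_lit 641) (nat_lit 273)) (XT.lf (nat_lit 0) (nat_lit 11280206364) (nat_lit 1824) (nat_lit 19267954034) (nat_lit 1900) (nat_lit 16821690730) (nat_lit 474) (nat_lit 5) (nat_lit 498) (nat_lit 5) (nat_lit 499) (nat_lit 5) (nat_lit 647) (nat_lit 641) (nat_lit 272))) (XT.nd (nat_lit 78) (nat_lit 0) (nat_lit 76) (XT.lf (nat_lit 76) (nat_lit 4741533389) (nat_lit 0) (nat_lit 7648705456) (nat_lit 1900) (nat_lit 35461606603) (nat_lit 475) (nat_lit 5) (nat_lit 474) (nat_lit 5) (nat_lit 499) (nat_lit 5) (nat_lit 648) (nat_lit 641) (nat_lit 271)) (XT.lf (nat_lit 0) (nat_lit 13753844883) (nat_lit 1824) (nat_lit 18951835499) (nat_lit 1900) (nat_lit 15633171861) (nat_lit 475)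 (nat_lit 5) (nat_lit 499) (nat_lit 5) (nat_lit 500) (nat_lit 5) (nat_lit 649) (nat_lit 641) (nat_lit 270)))))) (XT.nd (nat_lit 546) (nat_lit 304) (nat_lit 0) (XT.nd (nat_lit 234) (nat_lit 0) (nat_lit 152) (XT.nd (nat_lit 78) (nat_lit 0) (nat_lit 76) (XT.lf (nat_lit 76) (nat_lit 5713614817) (nat_lit 0) (nat_lit 9518100603) (nat_lit 1900) (nat_lit 33602143952) (nat_lit 476) (nat_lit 5) (nat_lit 475) (nat_lit 5) (nat_lit 500) (nat_lit 5) (nat_lit 650) (nat_lit 641) (nat_lit 269)) (XT.nd (nat_lit 78) (nat_lit 0) (nat_lit 0) (XT.lf (nat_lit 0) (nat_lit 16958180370) (nat_lit 1824) (nat_lit 18300047166) (nat_lit 1900) (nat_lit 14076158413) (nat_lit 476) (nat_lit 5) (nat_lit 500) (nat_lit 5) (nat_lit 501) (nat_lit 5) (nat_lit 651) (nat_lit 641) (nat_lit 268)) (XT.lf (nat_lit 76) (nat_lit 7045441471) (nat_lit 0) (nat_lit 11781780872) (nat_lit 1900) (nat_lit 31015539803) (nat_lit 477) (nat_lit 5) (nat_lit 476) (nat_lit 5) (nat_lit 501) (nat_lit 5) (nat_lit 652) (nat_lit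 641) (nat_lit 267)))) (XT.nd (nat_lit 156) (nat_lit 0) (nat_lit 76) (XT.nd (nat_lit 78) (nat_lit 0) (nat_lit 0) (XT.lf (nat_lit 0) (nat_lit 20935522422) (nat_lit 1824) (nat_lit 17293233221) (nat_lit 1900) (nat_lit 12128512723) (nat_lit 477) (nat_lit 5) (nat_lit 501) (nat_lit 5) (nat_lit 502) (nat_lit 5) (nat_lit 653) (nat_lit 641) (nat_lit 266)) (XT.lf (nat_lit 76) (nat_lit 8757279968) (nat_lit 0) (nat_lit 14462888735) (nat_lit 1900) (nat_lit 27659212445) (nat_lit 478) (nat_lit 5) (nat_lit 477) (nat_lit 5) (nat_lit 502) (nat_lit 5) (nat_lit 654) (nat_lit 641) (nat_lit 265))) (XT.nd (nat_lit 78) (nat_lit 0) (nat_lit 0) (XT.lf (nat_lit 0) (nat_lit 25730119429) (nat_lit 1824) (nat_lit 15911149555) (nat_lit 1900) (nat_lit 9767075013) (nat_lit 478) (nat_lit 5) (nat_lit 502) (nat_lit 5) (nat_lit 503) (nat_lit 5) (nat_lit 655) (nat_lit 641) (nat_lit 264)) (XT.lf (nat_lit 76) (nat_lit 10870319967) (nat_lit 0) (nat_lit 17585629917) (nat_lit 1900) (nat_lit 23488622645)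 (nat_lit 479) (nat_lit 5) (nat_lit 478) (nat_lit 5) (nat_lit 503) (nat_lit 5) (nat_lit 656) (nat_lit 641) (nat_lit 263))))) (XT.nd (nat_lit 312) (nat_lit 608) (nat_lit 0) (XT.nd (nat_lit 156) (nat_lit 0) (nat_lit 76) (XT.nd (nat_lit 78) (nat_lit 0) (nat_lit 0) (XT.lf (nat_lit 0) (nat_lit 31388241536) (nat_lit 1824) (nat_lit 14132627875) (nat_lit 1900) (nat_lit 6967617369) (nat_lit 479) (nat_lit 5) (nat_lit 503) (nat_lit 5) (nat_lit 504) (nat_lit 5) (nat_lit 657) (nat_lit 641) (nat_lit 262)) (XT.lf (nat_lit 76) (nat_lit 13406711383) (nat_lit 0) (nat_lit 21175321088) (nat_lit 1900) (nat_lit 18457189817) (nat_lit 480) (nat_lit 5) (nat_lit 479) (nat_lit 5) (nat_lit 504) (nat_lit 5) (nat_lit 658) (nat_lit 641) (nat_lit 261))) (XT.nd (nat_lit 78) (nat_lit 0) (nat_lit 0) (XT.lf (nat_lit 0) (nat_lit 37958266968) (nat_lit 1824) (nat_lit 11935538415) (nat_lit 1900) (nat_lit 3704795804) (nat_lit 480) (nat_lit 5) (nat_lit 504) (nat_lit 5) (nat_lit 505) (nat_lit 5) (nat_lit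 659) (nat_lit 641) (nat_lit 260)) (XT.lf (nat_lit 76) (nat_lit 16389603036) (nat_lit 0) (nat_lit 25258439544) (nat_lit 1900) (nat_lit 12516204795) (nat_lit 481) (nat_lit 5) (nat_lit 480) (nat_lit 5) (nat_lit 505) (nat_lit 5) (nat_lit 660) (nat_lit 641) (nat_lit 259)))) (XT.nd (nat_lit 156) (nat_lit 684) (nat_lit 0) (XT.nd (nat_lit 78) (nat_lit 0) (nat_lit 76) (XT.lf (nat_lit 76) (nat_lit 45442550736) (nat_lit 0) (nat_lit 48536241) (nat_lit 1900) (nat_lit 9248530080) (nat_lit 481) (nat_lit 5) (nat_lit 480) (nat_lit 5) (nat_lit 505) (nat_lit 5) (nat_lit 661) (nat_lit 641) (nat_lit 258)) (XT.lf (nat_lit 76) (nat_lit 19843182820) (nat_lit 0) (nat_lit 29862674970) (nat_lit 1900) (nat_lit 5614739068) (nat_lit 482) (nat_lit 5) (nat_lit 481) (nat_lit 5) (nat_lit 506) (nat_lit 5) (nat_lit 662) (nat_lit 641) (nat_lit 257))) (XT.nd (nat_lit 79560) (nat_lit 760) (nat_lit 0) (XT.lf (nat_lit 76) (nat_lit 49691449166) (nat_lit 0) (nat_lit 4375583683) (nat_lit 1900) (nat_lit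 1844921266) (nat_lit 482) (nat_lit 5) (nat_lit 481) (nat_lit 5) (nat_lit 506) (nat_lit 5) (nat_lit 663) (nat_lit 641) (nat_lit 256)) (XT.lf (nat_lit 0) (nat_lit 4035251192) (nat_lit 1900) (nat_lit 9358687849) (nat_lit 1900) (nat_lit 9358687849) (nat_lit 471) (nat_lit 3) (nat_lit 496) (nat_lit 3) (nat_lit 496) (nat_lit 5) (nat_lit 642) (nat_lit 642) (nat_lit 276))))))) (XT.nd (nat_lit 1170) (nat_lit 0) (nat_lit 0) (XT.nd (nat_lit 546) (nat_lit 0) (nat_lit 304) (XT.nd (nat_lit 234) (nat_lit 0) (nat_lit 152) (XT.nd (nat_lit 78) (nat_lit 0) (nat_lit 76) (XT.lf (nat_lit 76) (nat_lit 3903390579) (nat_lit 0) (nat_lit 4304960563) (nat_lit 1900) (nat_lit 37750810376) (nat_lit 472) (nat_lit 5) (nat_lit 471) (nat_lit 3) (nat_lit 496) (nat_lit 5) (nat_lit 643) (nat_lit 642) (nat_lit 275)) (XT.nd (nat_lit 78) (nat_lit 0) (nat_lit 0) (XT.lf (nat_lit 0) (nat_lit 8595500665) (nat_lit 1824) (nat_lit 19311569358) (nat_lit 1900) (nat_lit 18510146559) (nat_lit 472) (nat_lit 5)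 (nat_lit 496) (nat_lit 5) (nat_lit 497) (nat_lit 5) (nat_lit 644) (nat_lit 642) (nat_lit 274)) (XT.lf (nat_lit 76) (nat_lit 3909843200) (nat_lit 0) (nat_lit 5133627006) (nat_lit 1900) (nat_lit 37839901051) (nat_lit 473) (nat_lit 5) (nat_lit 472) (nat_lit 5) (nat_lit 497) (nat_lit 5) (nat_lit 645) (nat_lit 642) (nat_lit 273)))) (XT.nd (nat_lit 156) (nat_lit 0) (nat_lit 76) (XT.nd (nat_lit 78) (nat_lit 0) (nat_lit 0) (XT.lf (nat_lit 0) (nat_lit 9747532368) (nat_lit 1824) (nat_lit 19617601896) (nat_lit 1900) (nat_lit 17988772144) (nat_lit 473) (nat_lit 5) (nat_lit 497) (nat_lit 5) (nat_lit 498) (nat_lit 5) (nat_lit 646) (nat_lit 642) (nat_lit 272)) (XT.lf (nat_lit 76) (nat_lit 4226427286) (nat_lit 0) (nat_lit 6299900145) (nat_lit 1900) (nat_lit 37306311847) (nat_lit 474) (nat_lit 5) (nat_lit 473) (nat_lit 5) (nat_lit 498) (nat_lit 5) (nat_lit 647) (nat_lit 642) (nat_lit 271))) (XT.nd (nat_lit 78) (nat_lit 0) (nat_lit 0) (XT.lf (nat_lit 0) (nat_lit 11564289437)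 (nat_lit 1824) (nat_lit 19618236729) (nat_lit 1900) (nat_lit 17133548864) (nat_lit 474) (nat_lit 5) (nat_lit 498) (nat_lit 5) (nat_lit 499) (nat_lit 5) (nat_lit 648) (nat_lit 642) (nat_lit 270)) (XT.lf (nat_lit 76) (nat_lit 4871209676) (nat_lit 0) (nat_lit 7824392486) (nat_lit 1900) (nat_lit 36112125552) (nat_lit 475) (nat_lit 5) (nat_lit 474) (nat_lit 5) (nat_lit 499) (nat_lit 5) (nat_lit 649) (nat_lit 642) (nat_lit 269))))) (XT.nd (nat_lit 312) (nat_lit 0) (nat_lit 152) (XT.nd (nat_lit 156) (nat_lit 0) (nat_lit 76) (XT.nd (nat_lit 78) (nat_lit 0) (nat_lit 0) (XT.lf (nat_lit 0) (nat_lit 14085207147) (nat_lit 1824) (nat_lit 19295433259) (nat_lit 1900) (nat_lit 15923859771) (nat_lit 475) (nat_lit 5) (nat_lit 499) (nat_lit 5) (nat_lit 500) (nat_lit 5) (nat_lit 650) (nat_lit 642) (nat_lit 268)) (XT.lf (nat_lit 76) (nat_lit 5863092912) (nat_lit 0) (nat_lit 9728667128) (nat_lit 1900) (nat_lit 34217664977) (nat_lit 476) (nat_lit 5) (nat_lit 475) (nat_lit 5) (nat_lit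 500) (nat_lit 5) (nat_lit 651) (nat_lit 642) (nat_lit 267))) (XT.nd (nat_lit 78) (nat_lit 0) (nat_lit 0) (XT.lf (nat_lit 0) (nat_lit 17351539203) (nat_lit 1824) (nat_lit 18630314264) (nat_lit 1900) (nat_lit 14338133025) (nat_lit 476) (nat_lit 5) (nat_lit 500) (nat_lit 5) (nat_lit 501) (nat_lit 5) (nat_lit 652) (nat_lit 642) (nat_lit 266)) (XT.lf (nat_lit 76) (nat_lit 7221849055) (nat_lit 0) (nat_lit 12035280791) (nat_lit 1900) (nat_lit 31581417076) (nat_lit 477) (nat_lit 5) (nat_lit 476) (nat_lit 5) (nat_lit 501) (nat_lit 5) (nat_lit 653) (nat_lit 642) (nat_lit 265)))) (XT.nd (nat_lit 156) (nat_lit 0) (nat_lit 76) (XT.nd (nat_lit 78) (nat_lit 0) (nat_lit 0) (XT.lf (nat_lit 0) (nat_lit 21406435879) (nat_lit 1824) (nat_lit 17603131994) (nat_lit 1900) (nat_lit 12353798656) (nat_lit 477) (nat_lit 5) (nat_lit 501) (nat_lit 5) (nat_lit 502) (nat_lit 5) (nat_lit 654) (nat_lit 642) (nat_lit 264)) (XT.lf (nat_lit 76) (nat_lit 8968154840) (nat_lit 0) (nat_lit 14767828635)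 (nat_lit 1900) (nat_lit 28159953986) (nat_lit 478) (nat_lit 5) (nat_lit 477) (nat_lit 5) (nat_lit 502) (nat_lit 5) (nat_lit 655) (nat_lit 642) (nat_lit 263))) (XT.nd (nat_lit 78) (nat_lit 0) (nat_lit 0) (XT.lf (nat_lit 0) (nat_lit 26295025327) (nat_lit 1824) (nat_lit 16193232936) (nat_lit 1900) (nat_lit 9947243522) (nat_lit 478) (nat_lit 5) (nat_lit 502) (nat_lit 5) (nat_lit 503) (nat_lit 5) (nat_lit 656) (nat_lit 642) (nat_lit 262)) (XT.lf (nat_lit 76) (nat_lit 11123628216) (nat_lit 0) (nat_lit 17950990931) (nat_lit 1900) (nat_lit 23907850866) (nat_lit 479) (nat_lit 5) (nat_lit 478) (nat_lit 5) (nat_lit 503) (nat_lit 5) (nat_lit 657) (nat_lit 642) (nat_lit 261)))))) (XT.nd (nat_lit 80106) (nat_lit 0) (nat_lit 0) (XT.nd (nat_lit 234) (nat_lit 608) (nat_lit 0) (XT.nd (nat_lit 78) (nat_lit 0) (nat_lit 0) (XT.lf (nat_lit 0) (nat_lit 32064498181) (nat_lit 1824) (nat_lit 14379021186) (nat_lit 1900) (nat_lit 7093764409) (nat_lit 479) (nat_lit 5) (nat_lit 503) (nat_lit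 5) (nat_lit 504) (nat_lit 5) (nat_lit 658) (nat_lit 642) (nat_lit 260)) (XT.nd (nat_lit 78) (nat_lit 0) (nat_lit 76) (XT.lf (nat_lit 76) (nat_lit 13710866309) (nat_lit 0) (nat_lit 21610581675) (nat_lit 1900) (nat_lit 18777600404) (nat_lit 480) (nat_lit 5) (nat_lit 479) (nat_lit 5) (nat_lit 504) (nat_lit 5) (nat_lit 659) (nat_lit 642) (nat_lit 259)) (XT.lf (nat_lit 0) (nat_lit 38764195590) (nat_lit 1824) (nat_lit 12137920400) (nat_lit 1900) (nat_lit 3767519164) (nat_lit 480) (nat_lit 5) (nat_lit 504) (nat_lit 5) (nat_lit 505) (nat_lit 5) (nat_lit 660) (nat_lit 642) (nat_lit 258)))) (XT.nd (nat_lit 156) (nat_lit 684) (nat_lit 0) (XT.nd (nat_lit 78) (nat_lit 0) (nat_lit 0) (XT.lf (nat_lit 76) (nat_lit 16753484875) (nat_lit 0) (nat_lit 25773599230) (nat_lit 1900) (nat_lit 12719523866) (nat_lit 481) (nat_lit 5) (nat_lit 480) (nat_lit 5) (nat_lit 505) (nat_lit 5) (nat_lit 661) (nat_lit 642) (nat_lit 257)) (XT.lf (nat_lit 76) (nat_lit 46386783887) (nat_lit 0) (nat_lit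 59301961) (nat_lit 1900) (nat_lit 9387417324) (nat_lit 481) (nat_lit 5) (nat_lit 480) (nat_lit 5) (nat_lit 505) (nat_lit 5) (nat_lit 662) (nat_lit 642) (nat_lit 256))) (XT.nd (nat_lit 79638) (nat_lit 760) (nat_lit 0) (XT.lf (nat_lit 76) (nat_lit 20276159276) (nat_lit 0) (nat_lit 30468279095) (nat_lit 1900) (nat_lit 5681678525) (nat_lit 482) (nat_lit 5) (nat_lit 481) (nat_lit 5) (nat_lit 506) (nat_lit 5) (nat_lit 663) (nat_lit 642) (nat_lit 255)) (XT.lf (nat_lit 0) (nat_lit 4147550081) (nat_lit 1900) (nat_lit 9529747777) (nat_lit 1900) (nat_lit 9529747777) (nat_lit 471) (nat_lit 3) (nat_lit 496) (nat_lit 3) (nat_lit 496) (nat_lit 5) (nat_lit 643) (nat_lit 643) (nat_lit 274))))) (XT.nd (nat_lit 312) (nat_lit 0) (nat_lit 152) (XT.nd (nat_lit 156) (nat_lit 0) (nat_lit 76) (XT.nd (nat_lit 78) (nat_lit 0) (nat_lit 76) (XT.lf (nat_lit 76) (nat_lit 4013474025) (nat_lit 0) (nat_lit 4421200761) (nat_lit 1900) (nat_lit 38442423073) (nat_lit 472) (nat_lit 5) (nat_lit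 471) (nat_lit 3) (nat_lit 496) (nat_lit 5) (nat_lit 644) (nat_lit 643) (nat_lit 273)) (XT.lf (nat_lit 0) (nat_lit 8828156684) (nat_lit 1824) (nat_lit 19664998570) (nat_lit 1900) (nat_lit 18851187056) (nat_lit 472) (nat_lit 5) (nat_lit 496) (nat_lit 5) (nat_lit 497) (nat_lit 5) (nat_lit 645) (nat_lit 643) (nat_lit 272))) (XT.nd (nat_lit 78) (nat_lit 0) (nat_lit 76) (XT.lf (nat_lit 76) (nat_lit 4020626435) (nat_lit 0) (nat_lit 5263479655) (nat_lit 1900) (nat_lit 38535733651) (nat_lit 473) (nat_lit 5) (nat_lit 472) (nat_lit 5) (nat_lit 497) (nat_lit 5) (nat_lit 646) (nat_lit 643) (nat_lit 271)) (XT.lf (nat_lit 0) (nat_lit 10000904592) (nat_lit 1824) (nat_lit 19976658068) (nat_lit 1900) (nat_lit 18322249904) (nat_lit 473) (nat_lit 5) (nat_lit 497) (nat_lit 5) (nat_lit 498) (nat_lit 5) (nat_lit 647) (nat_lit 643) (nat_lit 270)))) (XT.nd (nat_lit 156) (nat_lit 0) (nat_lit 76) (XT.nd (nat_lit 78) (nat_lit 0) (nat_lit 76) (XT.lf (nat_lit 76) (nat_lit 4344032646) (nat_lit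 0) (nat_lit 6450312146) (nat_lit 1900) (nat_lit 37993793985) (nat_lit 474) (nat_lit 5) (nat_lit 473) (nat_lit 5) (nat_lit 498) (nat_lit 5) (nat_lit 648) (nat_lit 643) (nat_lit 269)) (XT.lf (nat_lit 0) (nat_lit 11851783363) (nat_lit 1824) (nat_lit 19976887137) (nat_lit 1900) (nat_lit 17452598465) (nat_lit 474) (nat_lit 5) (nat_lit 498) (nat_lit 5) (nat_lit 499) (nat_lit 5) (nat_lit 649) (nat_lit 643) (nat_lit 268))) (XT.nd (nat_lit 78) (nat_lit 0) (nat_lit 76) (XT.lf (nat_lit 76) (nat_lit 5002126392) (nat_lit 0) (nat_lit 8002711287) (nat_lit 1900) (nat_lit 36777934785) (nat_lit 475) (nat_lit 5) (nat_lit 474) (nat_lit 5) (nat_lit 499) (nat_lit 5) (nat_lit 650) (nat_lit 643) (nat_lit 267)) (XT.lf (nat_lit 0) (nat_lit 14421011027) (nat_lit 1824) (nat_lit 19647279112) (nat_lit 1900) (nat_lit 16221214776) (nat_lit 475) (nat_lit 5) (nat_lit 499) (nat_lit 5) (nat_lit 500) (nat_lit 5) (nat_lit 651) (nat_lit 643) (nat_lit 266))))))))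
noncomputable def xc254 : XT := (XT.nd (nat_lit 161850) (nat_lit 0) (nat_lit 0) (XT.nd (nat_lit 80808) (nat_lit 0) (nat_lit 76) (XT.nd (nat_lit 546) (nat_lit 304) (nat_lit 0) (XT.nd (nat_lit 234) (nat_lit 0) (nat_lit 152) (XT.nd (nat_lit 78) (nat_lit 0) (nat_lit 76) (XT.lf (nat_lit 76) (nat_lit 6014193485) (nat_lit 0) (nat_lit 9942660417) (nat_lit 1900) (nat_lit 34847691235) (nat_lit 476) (nat_lit 5) (nat_lit 475) (nat_lit 5) (nat_lit 500) (nat_lit 5) (nat_lit 652) (nat_lit 643) (nat_lit 265)) (XT.nd (nat_lit 78) (nat_lit 0) (nat_lit 0) (XT.lf (nat_lit 0) (nat_lit 17750660746) (nat_lit 1824) (nat_lit 18968574292) (nat_lit 1900) (nat_lit 14606106225) (nat_lit 476) (nat_lit 5) (nat_lit 500) (nat_lit 5) (nat_lit 501) (nat_lit 5) (nat_lit 653) (nat_lit 643) (nat_lit 264)) (XT.lf (nat_lit 76) (nat_lit 7400406330) (nat_lit 0) (nat_lit 12293157015) (nat_lit 1900) (nat_lit 32160725614) (nat_lit 477) (nat_lit 5) (nat_lit 476) (nat_lit 5) (nat_lit 501) (nat_lit 5) (nat_lit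 654) (nat_lit 643) (nat_lit 263)))) (XT.nd (nat_lit 156) (nat_lit 0) (nat_lit 76) (XT.nd (nat_lit 78) (nat_lit 0) (nat_lit 0) (XT.lf (nat_lit 0) (nat_lit 21884740499) (nat_lit 1824) (nat_lit 17920625342) (nat_lit 1900) (nat_lit 12584261479) (nat_lit 477) (nat_lit 5) (nat_lit 501) (nat_lit 5) (nat_lit 502) (nat_lit 5) (nat_lit 655) (nat_lit 643) (nat_lit 262)) (XT.lf (nat_lit 76) (nat_lit 9181859799) (nat_lit 0) (nat_lit 15078258376) (nat_lit 1900) (nat_lit 28672746772) (nat_lit 478) (nat_lit 5) (nat_lit 477) (nat_lit 5) (nat_lit 502) (nat_lit 5) (nat_lit 656) (nat_lit 643) (nat_lit 261))) (XT.nd (nat_lit 78) (nat_lit 0) (nat_lit 0) (XT.lf (nat_lit 0) (nat_lit 26869275997) (nat_lit 1824) (nat_lit 16482361330) (nat_lit 1900) (nat_lit 10131604587) (nat_lit 478) (nat_lit 5) (nat_lit 502) (nat_lit 5) (nat_lit 503) (nat_lit 5) (nat_lit 657) (nat_lit 643) (nat_lit 260)) (XT.lf (nat_lit 76) (nat_lit 11380608517) (nat_lit 0) (nat_lit 18323129180) (nat_lit 1900) (nat_lit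 24337426345) (nat_lit 479) (nat_lit 5) (nat_lit 478) (nat_lit 5) (nat_lit 503) (nat_lit 5) (nat_lit 658) (nat_lit 643) (nat_lit 259))))) (XT.nd (nat_lit 234) (nat_lit 608) (nat_lit 0) (XT.nd (nat_lit 78) (nat_lit 0) (nat_lit 0) (XT.lf (nat_lit 0) (nat_lit 32752396962) (nat_lit 1824) (nat_lit 14631750354) (nat_lit 1900) (nat_lit 7222947167) (nat_lit 479) (nat_lit 5) (nat_lit 503) (nat_lit 5) (nat_lit 504) (nat_lit 5) (nat_lit 659) (nat_lit 643) (nat_lit 258)) (XT.nd (nat_lit 78) (nat_lit 0) (nat_lit 76) (XT.lf (nat_lit 76) (nat_lit 14019705607) (nat_lit 0) (nat_lit 22054091045) (nat_lit 1900) (nat_lit 19106311573) (nat_lit 480) (nat_lit 5) (nat_lit 479) (nat_lit 5) (nat_lit 504) (nat_lit 5) (nat_lit 660) (nat_lit 643) (nat_lit 257)) (XT.lf (nat_lit 0) (nat_lit 39584426909) (nat_lit 1824) (nat_lit 12345760715) (nat_lit 1900) (nat_lit 3831938601) (nat_lit 480) (nat_lit 5) (nat_lit 504) (nat_lit 5) (nat_lit 505) (nat_lit 5) (nat_lit 661) (nat_lit 643) (nat_lit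 256)))) (XT.nd (nat_lit 79872) (nat_lit 0) (nat_lit 0) (XT.nd (nat_lit 79794) (nat_lit 684) (nat_lit 0) (XT.lf (nat_lit 76) (nat_lit 17123242941) (nat_lit 0) (nat_lit 26298674152) (nat_lit 1900) (nat_lit 12928734581) (nat_lit 481) (nat_lit 5) (nat_lit 480) (nat_lit 5) (nat_lit 505) (nat_lit 5) (nat_lit 662) (nat_lit 643) (nat_lit 255)) (XT.lf (nat_lit 0) (nat_lit 4260868118) (nat_lit 1900) (nat_lit 9704854624) (nat_lit 1900) (nat_lit 9704854624) (nat_lit 471) (nat_lit 3) (nat_lit 496) (nat_lit 3) (nat_lit 496) (nat_lit 5) (nat_lit 644) (nat_lit 644) (nat_lit 272))) (XT.nd (nat_lit 78) (nat_lit 0) (nat_lit 76) (XT.lf (nat_lit 76) (nat_lit 4124515933) (nat_lit 0) (nat_lit 4538595352) (nat_lit 1900) (nat_lit 39150330060) (nat_lit 472) (nat_lit 5) (nat_lit 471) (nat_lit 3) (nat_lit 496) (nat_lit 5) (nat_lit 645) (nat_lit 644) (nat_lit 271)) (XT.lf (nat_lit 0) (nat_lit 9063106981) (nat_lit 1824) (nat_lit 20026770115) (nat_lit 1900) (nat_lit 19200180777) (nat_lit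 472) (nat_lit 5) (nat_lit 496) (nat_lit 5) (nat_lit 497) (nat_lit 5) (nat_lit 646) (nat_lit 644) (nat_lit 270)))))) (XT.nd (nat_lit 546) (nat_lit 0) (nat_lit 304) (XT.nd (nat_lit 234) (nat_lit 0) (nat_lit 152) (XT.nd (nat_lit 78) (nat_lit 0) (nat_lit 76) (XT.lf (nat_lit 76) (nat_lit 4132359966) (nat_lit 0) (nat_lit 5394873919) (nat_lit 1900) (nat_lit 39247850266) (nat_lit 473) (nat_lit 5) (nat_lit 472) (nat_lit 5) (nat_lit 497) (nat_lit 5) (nat_lit 647) (nat_lit 644) (nat_lit 269)) (XT.nd (nat_lit 78) (nat_lit 0) (nat_lit 0) (XT.lf (nat_lit 0) (nat_lit 10257075680) (nat_lit 1824) (nat_lit 20344188283) (nat_lit 1900) (nat_lit 18663418391) (nat_lit 473) (nat_lit 5) (nat_lit 497) (nat_lit 5) (nat_lit 498) (nat_lit 5) (nat_lit 648) (nat_lit 644) (nat_lit 268)) (XT.lf (nat_lit 76) (nat_lit 4462705700) (nat_lit 0) (nat_lit 6602784361) (nat_lit 1900) (nat_lit 38697302987) (nat_lit 474) (nat_lit 5) (nat_lit 473) (nat_lit 5) (nat_lit 498) (nat_lit 5) (nat_lit 649)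 (nat_lit 644) (nat_lit 267)))) (XT.nd (nat_lit 156) (nat_lit 0) (nat_lit 76) (XT.nd (nat_lit 78) (nat_lit 0) (nat_lit 0) (XT.lf (nat_lit 0) (nat_lit 12142844538) (nat_lit 1824) (nat_lit 20344019721) (nat_lit 1900) (nat_lit 17778946305) (nat_lit 474) (nat_lit 5) (nat_lit 498) (nat_lit 5) (nat_lit 499) (nat_lit 5) (nat_lit 650) (nat_lit 644) (nat_lit 266)) (XT.lf (nat_lit 76) (nat_lit 5134360886) (nat_lit 0) (nat_lit 8183748741) (nat_lit 1900) (nat_lit 37459251575) (nat_lit 475) (nat_lit 5) (nat_lit 474) (nat_lit 5) (nat_lit 499) (nat_lit 5) (nat_lit 651) (nat_lit 644) (nat_lit 265))) (XT.nd (nat_lit 78) (nat_lit 0) (nat_lit 0) (XT.lf (nat_lit 0) (nat_lit 14761430226) (nat_lit 1824) (nat_lit 20007484582) (nat_lit 1900) (nat_lit 16525337082) (nat_lit 475) (nat_lit 5) (nat_lit 499) (nat_lit 5) (nat_lit 500) (nat_lit 5) (nat_lit 652) (nat_lit 644) (nat_lit 264)) (XT.lf (nat_lit 76) (nat_lit 6167002071) (nat_lit 0) (nat_lit 10160179471) (nat_lit 1900) (nat_lit 35492427604)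 (nat_lit 476) (nat_lit 5) (nat_lit 475) (nat_lit 5) (nat_lit 500) (nat_lit 5) (nat_lit 653) (nat_lit 644) (nat_lit 263))))) (XT.nd (nat_lit 312) (nat_lit 0) (nat_lit 152) (XT.nd (nat_lit 156) (nat_lit 0) (nat_lit 76) (XT.nd (nat_lit 78) (nat_lit 0) (nat_lit 0) (XT.lf (nat_lit 0) (nat_lit 18155741973) (nat_lit 1824) (nat_lit 19314933228) (nat_lit 1900) (nat_lit 14880168505) (nat_lit 476) (nat_lit 5) (nat_lit 500) (nat_lit 5) (nat_lit 501) (nat_lit 5) (nat_lit 654) (nat_lit 644) (nat_lit 262)) (XT.lf (nat_lit 76) (nat_lit 7581209819) (nat_lit 0) (nat_lit 12555524008) (nat_lit 1900) (nat_lit 32753651965) (nat_lit 477) (nat_lit 5) (nat_lit 476) (nat_lit 5) (nat_lit 501) (nat_lit 5) (nat_lit 655) (nat_lit 644) (nat_lit 261))) (XT.nd (nat_lit 78) (nat_lit 0) (nat_lit 0) (XT.lf (nat_lit 0) (nat_lit 22370662820) (nat_lit 1824) (nat_lit 18245810925) (nat_lit 1900) (nat_lit 12819978667) (nat_lit 477) (nat_lit 5) (nat_lit 501) (nat_lit 5) (nat_lit 502) (nat_lit 5) (nat_lit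 656) (nat_lit 644) (nat_lit 260)) (XT.lf (nat_lit 76) (nat_lit 9398505321) (nat_lit 0) (nat_lit 15394311403) (nat_lit 1900) (nat_lit 29197752751) (nat_lit 478) (nat_lit 5) (nat_lit 477) (nat_lit 5) (nat_lit 502) (nat_lit 5) (nat_lit 657) (nat_lit 644) (nat_lit 259)))) (XT.nd (nat_lit 156) (nat_lit 0) (nat_lit 76) (XT.nd (nat_lit 78) (nat_lit 0) (nat_lit 0) (XT.lf (nat_lit 0) (nat_lit 27453134183) (nat_lit 1824) (nat_lit 16778621143) (nat_lit 1900) (nat_lit 10320219180) (nat_lit 478) (nat_lit 5) (nat_lit 502) (nat_lit 5) (nat_lit 503) (nat_lit 5) (nat_lit 658) (nat_lit 644) (nat_lit 258)) (XT.lf (nat_lit 76) (nat_lit 11641388447) (nat_lit 0) (nat_lit 18702200790) (nat_lit 1900) (nat_lit 24777479814) (nat_lit 479) (nat_lit 5) (nat_lit 478) (nat_lit 5) (nat_lit 503) (nat_lit 5) (nat_lit 659) (nat_lit 644) (nat_lit 257))) (XT.nd (nat_lit 78) (nat_lit 0) (nat_lit 0) (XT.lf (nat_lit 0) (nat_lit 33452243842) (nat_lit 1824) (nat_lit 14890887422) (nat_lit 1900) (nat_lit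 7355206448) (nat_lit 479) (nat_lit 5) (nat_lit 503) (nat_lit 5) (nat_lit 504) (nat_lit 5) (nat_lit 660) (nat_lit 644) (nat_lit 256)) (XT.lf (nat_lit 76) (nat_lit 14333377277) (nat_lit 0) (nat_lit 22506031897) (nat_lit 1900) (nat_lit 19443415853) (nat_lit 480) (nat_lit 5) (nat_lit 479) (nat_lit 5) (nat_lit 504) (nat_lit 5) (nat_lit 661) (nat_lit 644) (nat_lit 255))))))) (XT.nd (nat_lit 1170) (nat_lit 0) (nat_lit 0) (XT.nd (nat_lit 546) (nat_lit 0) (nat_lit 228) (XT.nd (nat_lit 234) (nat_lit 0) (nat_lit 76) (XT.nd (nat_lit 78) (nat_lit 0) (nat_lit 0) (XT.lf (nat_lit 0) (nat_lit 4375273328) (nat_lit 1900) (nat_lit 9884065029) (nat_lit 1900) (nat_lit 9884065029) (nat_lit 471) (nat_lit 3) (nat_lit 496) (nat_lit 3) (nat_lit 496) (nat_lit 5) (nat_lit 645) (nat_lit 645) (nat_lit 270)) (XT.nd (nat_lit 78) (nat_lit 0) (nat_lit 76) (XT.lf (nat_lit 76) (nat_lit 4236583748) (nat_lit 0) (nat_lit 4657212872) (nat_lit 1900) (nat_lit 39874761618) (nat_lit 472) (nat_lit 5)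 (nat_lit 471) (nat_lit 3) (nat_lit 496) (nat_lit 5) (nat_lit 646) (nat_lit 645) (nat_lit 269)) (XT.lf (nat_lit 0) (nat_lit 9300489040) (nat_lit 1824) (nat_lit 20397001378) (nat_lit 1900) (nat_lit 19557242811) (nat_lit 472) (nat_lit 5) (nat_lit 496) (nat_lit 5) (nat_lit 497) (nat_lit 5) (nat_lit 647) (nat_lit 645) (nat_lit 268)))) (XT.nd (nat_lit 156) (nat_lit 0) (nat_lit 76) (XT.nd (nat_lit 78) (nat_lit 0) (nat_lit 76) (XT.lf (nat_lit 76) (nat_lit 4245111936) (nat_lit 0) (nat_lit 5527881617) (nat_lit 1900) (nat_lit 39976484646) (nat_lit 473) (nat_lit 5) (nat_lit 472) (nat_lit 5) (nat_lit 497) (nat_lit 5) (nat_lit 648) (nat_lit 645) (nat_lit 267)) (XT.lf (nat_lit 0) (nat_lit 10516189700) (nat_lit 1824) (nat_lit 20720311815) (nat_lit 1900) (nat_lit 19012391765) (nat_lit 473) (nat_lit 5) (nat_lit 497) (nat_lit 5) (nat_lit 498) (nat_lit 5) (nat_lit 649) (nat_lit 645) (nat_lit 266))) (XT.nd (nat_lit 78) (nat_lit 0) (nat_lit 76) (XT.lf (nat_lit 76) (nat_lit 4582517677)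 (nat_lit 0) (nat_lit 6757394809) (nat_lit 1900) (nat_lit 39417070964) (nat_lit 474) (nat_lit 5) (nat_lit 473) (nat_lit 5) (nat_lit 498) (nat_lit 5) (nat_lit 650) (nat_lit 645) (nat_lit 265)) (XT.lf (nat_lit 0) (nat_lit 12437629059) (nat_lit 1824) (nat_lit 20719753289) (nat_lit 1900) (nat_lit 18112702730) (nat_lit 474) (nat_lit 5) (nat_lit 498) (nat_lit 5) (nat_lit 499) (nat_lit 5) (nat_lit 651) (nat_lit 645) (nat_lit 264))))) (XT.nd (nat_lit 312) (nat_lit 0) (nat_lit 152) (XT.nd (nat_lit 156) (nat_lit 0) (nat_lit 76) (XT.nd (nat_lit 78) (nat_lit 0) (nat_lit 76) (XT.lf (nat_lit 76) (nat_lit 5267990017) (nat_lit 0) (nat_lit 8367592140) (nat_lit 1900) (nat_lit 38156300980) (nat_lit 475) (nat_lit 5) (nat_lit 474) (nat_lit 5) (nat_lit 499) (nat_lit 5) (nat_lit 652) (nat_lit 645) (nat_lit 263)) (XT.lf (nat_lit 0) (nat_lit 15106638626) (nat_lit 1824) (nat_lit 20376165501) (nat_lit 1900) (nat_lit 16836330184) (nat_lit 475) (nat_lit 5) (nat_lit 499) (nat_lit 5) (nat_lit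 500) (nat_lit 5) (nat_lit 653) (nat_lit 645) (nat_lit 262))) (XT.nd (nat_lit 78) (nat_lit 0) (nat_lit 76) (XT.lf (nat_lit 76) (nat_lit 6321603854) (nat_lit 0) (nat_lit 10381324090) (nat_lit 1900) (nat_lit 36152086368) (nat_lit 476) (nat_lit 5) (nat_lit 475) (nat_lit 5) (nat_lit 500) (nat_lit 5) (nat_lit 654) (nat_lit 645) (nat_lit 261)) (XT.lf (nat_lit 0) (nat_lit 18566980622) (nat_lit 1824) (nat_lit 19669501261) (nat_lit 1900) (nat_lit 15160413318) (nat_lit 476) (nat_lit 5) (nat_lit 500) (nat_lit 5) (nat_lit 501) (nat_lit 5) (nat_lit 655) (nat_lit 645) (nat_lit 260)))) (XT.nd (nat_lit 156) (nat_lit 0) (nat_lit 76) (XT.nd (nat_lit 78) (nat_lit 0) (nat_lit 76) (XT.lf (nat_lit 76) (nat_lit 7764355893) (nat_lit 0) (nat_lit 12822497477) (nat_lit 1900) (nat_lit 33360389593) (nat_lit 477) (nat_lit 5) (nat_lit 476) (nat_lit 5) (nat_lit 501) (nat_lit 5) (nat_lit 656) (nat_lit 645) (nat_lit 259)) (XT.lf (nat_lit 0) (nat_lit 22864430854) (nat_lit 1824) (nat_lit 18578790462)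 (nat_lit 1900) (nat_lit 13061030258) (nat_lit 477) (nat_lit 5) (nat_lit 501) (nat_lit 5) (nat_lit 502) (nat_lit 5) (nat_lit 657) (nat_lit 645) (nat_lit 258))) (XT.nd (nat_lit 78) (nat_lit 0) (nat_lit 76) (XT.lf (nat_lit 76) (nat_lit 9618202000) (nat_lit 0) (nat_lit 15716122910) (nat_lit 1900) (nat_lit 29735140182) (nat_lit 478) (nat_lit 5) (nat_lit 477) (nat_lit 5) (nat_lit 502) (nat_lit 5) (nat_lit 658) (nat_lit 645) (nat_lit 257)) (XT.lf (nat_lit 0) (nat_lit 28046864944) (nat_lit 1824) (nat_lit 17082102627) (nat_lit 1900) (nat_lit 10513150382) (nat_lit 478) (nat_lit 5) (nat_lit 502) (nat_lit 5) (nat_lit 503) (nat_lit 5) (nat_lit 659) (nat_lit 645) (nat_lit 256)))))) (XT.nd (nat_lit 80496) (nat_lit 0) (nat_lit 152) (XT.nd (nat_lit 80184) (nat_lit 0) (nat_lit 0) (XT.nd (nat_lit 78) (nat_lit 532) (nat_lit 0) (XT.lf (nat_lit 76) (nat_lit 11906096031) (nat_lit 0) (nat_lit 19088364208) (nat_lit 1900) (nat_lit 25228147578) (nat_lit 479) (nat_lit 5) (nat_lit 478)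 (nat_lit 5) (nat_lit 503) (nat_lit 5) (nat_lit 660) (nat_lit 645) (nat_lit 255)) (XT.nd (nat_lit 80028) (nat_lit 608) (nat_lit 0) (XT.lf (nat_lit 0) (nat_lit 34164348062) (nat_lit 1824) (nat_lit 15156507997) (nat_lit 1900) (nat_lit 7490584641) (nat_lit 479) (nat_lit 5) (nat_lit 503) (nat_lit 5) (nat_lit 504) (nat_lit 5) (nat_lit 661) (nat_lit 645) (nat_lit 254)) (XT.lf (nat_lit 0) (nat_lit 4490833242) (nat_lit 1900) (nat_lit 10067437711) (nat_lit 1900) (nat_lit 10067437711) (nat_lit 471) (nat_lit 3) (nat_lit 496) (nat_lit 3) (nat_lit 496) (nat_lit 5) (nat_lit 646) (nat_lit 646) (nat_lit 268)))) (XT.nd (nat_lit 156) (nat_lit 0) (nat_lit 76) (XT.nd (nat_lit 78) (nat_lit 0) (nat_lit 76) (XT.lf (nat_lit 76) (nat_lit 4349744390) (nat_lit 0) (nat_lit 4777121463) (nat_lit 1900) (nat_lit 40615956348) (nat_lit 472) (nat_lit 5) (nat_lit 471) (nat_lit 3) (nat_lit 496) (nat_lit 5) (nat_lit 647) (nat_lit 646) (nat_lit 267)) (XT.lf (nat_lit 0) (nat_lit 9540439535) (nat_lit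 1824) (nat_lit 20775814013) (nat_lit 1900) (nat_lit 19922492261) (nat_lit 472) (nat_lit 5) (nat_lit 496) (nat_lit 5) (nat_lit 497) (nat_lit 5) (nat_lit 648) (nat_lit 646) (nat_lit 266))) (XT.nd (nat_lit 78) (nat_lit 0) (nat_lit 76) (XT.lf (nat_lit 76) (nat_lit 4358949940) (nat_lit 0) (nat_lit 5662574407) (nat_lit 1900) (nat_lit 40721878791) (nat_lit 473) (nat_lit 5) (nat_lit 472) (nat_lit 5) (nat_lit 497) (nat_lit 5) (nat_lit 649) (nat_lit 646) (nat_lit 265)) (XT.lf (nat_lit 0) (nat_lit 10778390182) (nat_lit 1824) (nat_lit 21105152275) (nat_lit 1900) (nat_lit 19369288011) (nat_lit 473) (nat_lit 5) (nat_lit 497) (nat_lit 5) (nat_lit 498) (nat_lit 5) (nat_lit 650) (nat_lit 646) (nat_lit 264))))) (XT.nd (nat_lit 312) (nat_lit 0) (nat_lit 152) (XT.nd (nat_lit 156) (nat_lit 0) (nat_lit 76) (XT.nd (nat_lit 78) (nat_lit 0) (nat_lit 76) (XT.lf (nat_lit 76) (nat_lit 4703539295) (nat_lit 0) (nat_lit 6914221637) (nat_lit 1900) (nat_lit 40153338101) (nat_lit 474) (nat_lit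 5) (nat_lit 473) (nat_lit 5) (nat_lit 498) (nat_lit 5) (nat_lit 651) (nat_lit 646) (nat_lit 263)) (XT.lf (nat_lit 0) (nat_lit 12736292858) (nat_lit 1824) (nat_lit 21104210998) (nat_lit 1900) (nat_lit 18453981679) (nat_lit 474) (nat_lit 5) (nat_lit 498) (nat_lit 5) (nat_lit 499) (nat_lit 5) (nat_lit 652) (nat_lit 646) (nat_lit 262))) (XT.nd (nat_lit 78) (nat_lit 0) (nat_lit 76) (XT.lf (nat_lit 76) (nat_lit 5403090218) (nat_lit 0) (nat_lit 8554329243) (nat_lit 1900) (nat_lit 38869315864) (nat_lit 475) (nat_lit 5) (nat_lit 474) (nat_lit 5) (nat_lit 499) (nat_lit 5) (nat_lit 653) (nat_lit 646) (nat_lit 261)) (XT.lf (nat_lit 0) (nat_lit 15456810417) (nat_lit 1824) (nat_lit 20753442008) (nat_lit 1900) (nat_lit 17154300887) (nat_lit 475) (nat_lit 5) (nat_lit 499) (nat_lit 5) (nat_lit 500) (nat_lit 5) (nat_lit 654) (nat_lit 646) (nat_lit 260)))) (XT.nd (nat_lit 156) (nat_lit 0) (nat_lit 76) (XT.nd (nat_lit 78) (nat_lit 0) (nat_lit 76) (XT.lf (nat_lit 76) (nat_lit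 6478083742) (nat_lit 0) (nat_lit 10606194928) (nat_lit 1900) (nat_lit 36826887237) (nat_lit 476) (nat_lit 5) (nat_lit 475) (nat_lit 5) (nat_lit 500) (nat_lit 5) (nat_lit 655) (nat_lit 646) (nat_lit 259)) (XT.lf (nat_lit 0) (nat_lit 18984575337) (nat_lit 1824) (nat_lit 20032392793) (nat_lit 1900) (nat_lit 15446937080) (nat_lit 476) (nat_lit 5) (nat_lit 500) (nat_lit 5) (nat_lit 501) (nat_lit 5) (nat_lit 656) (nat_lit 646) (nat_lit 258))) (XT.nd (nat_lit 78) (nat_lit 0) (nat_lit 76) (XT.lf (nat_lit 76) (nat_lit 7949940856) (nat_lit 0) (nat_lit 13094194436) (nat_lit 1900) (nat_lit 33981138897) (nat_lit 477) (nat_lit 5) (nat_lit 476) (nat_lit 5) (nat_lit 501) (nat_lit 5) (nat_lit 657) (nat_lit 646) (nat_lit 257)) (XT.lf (nat_lit 0) (nat_lit 23366274236) (nat_lit 1824) (nat_lit 18919669729) (nat_lit 1900) (nat_lit 13307498861) (nat_lit 477) (nat_lit 5) (nat_lit 501) (nat_lit 5) (nat_lit 502) (nat_lit 5) (nat_lit 658) (nat_lit 646) (nat_lit 256))))))))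
noncomputable def xc255 : XT := (XT.nd (nat_lit 242892) (nat_lit 0) (nat_lit 0) (XT.nd (nat_lit 81198) (nat_lit 0) (nat_lit 0) (XT.nd (nat_lit 80652) (nat_lit 0) (nat_lit 152) (XT.nd (nat_lit 80340) (nat_lit 0) (nat_lit 0) (XT.nd (nat_lit 78) (nat_lit 456) (nat_lit 0) (XT.lf (nat_lit 76) (nat_lit 9841060631) (nat_lit 0) (nat_lit 16043829910) (nat_lit 1900) (nat_lit 30285083639) (nat_lit 478) (nat_lit 5) (nat_lit 477) (nat_lit 5) (nat_lit 502) (nat_lit 5) (nat_lit 659) (nat_lit 646) (nat_lit 255)) (XT.nd (nat_lit 80184) (nat_lit 532) (nat_lit 0) (XT.lf (nat_lit 0) (nat_lit 28650735804) (nat_lit 1824) (nat_lit 17392899870) (nat_lit 1900) (nat_lit 10710463388) (nat_lit 478) (nat_lit 5) (nat_lit 502) (nat_lit 5) (nat_lit 503) (nat_lit 5) (nat_lit 660) (nat_lit 646) (nat_lit 254)) (XT.lf (nat_lit 0) (nat_lit 4607614966) (nat_lit 1900) (nat_lit 10255033467) (nat_lit 1900) (nat_lit 10255033467) (nat_lit 471) (nat_lit 3) (nat_lit 496) (nat_lit 3) (nat_lit 496) (nat_lit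 5) (nat_lit 647) (nat_lit 647) (nat_lit 266)))) (XT.nd (nat_lit 156) (nat_lit 0) (nat_lit 76) (XT.nd (nat_lit 78) (nat_lit 0) (nat_lit 76) (XT.lf (nat_lit 76) (nat_lit 4464064313) (nat_lit 0) (nat_lit 4898388935) (nat_lit 1900) (nat_lit 41374161190) (nat_lit 472) (nat_lit 5) (nat_lit 471) (nat_lit 3) (nat_lit 496) (nat_lit 5) (nat_lit 648) (nat_lit 647) (nat_lit 265)) (XT.lf (nat_lit 0) (nat_lit 9783094457) (nat_lit 1824) (nat_lit 21163333953) (nat_lit 1900) (nat_lit 20296052250) (nat_lit 472) (nat_lit 5) (nat_lit 496) (nat_lit 5) (nat_lit 497) (nat_lit 5) (nat_lit 649) (nat_lit 647) (nat_lit 264))) (XT.nd (nat_lit 78) (nat_lit 0) (nat_lit 76) (XT.lf (nat_lit 76) (nat_lit 4473941092) (nat_lit 0) (nat_lit 5799023856) (nat_lit 1900) (nat_lit 41484282968) (nat_lit 473) (nat_lit 5) (nat_lit 472) (nat_lit 5) (nat_lit 497) (nat_lit 5) (nat_lit 650) (nat_lit 647) (nat_lit 263)) (XT.lf (nat_lit 0) (nat_lit 11043820239) (nat_lit 1824) (nat_lit 21498837620) (nat_lit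 1900) (nat_lit 19734228952) (nat_lit 473) (nat_lit 5) (nat_lit 497) (nat_lit 5) (nat_lit 498) (nat_lit 5) (nat_lit 651) (nat_lit 647) (nat_lit 262))))) (XT.nd (nat_lit 234) (nat_lit 0) (nat_lit 152) (XT.nd (nat_lit 78) (nat_lit 0) (nat_lit 76) (XT.lf (nat_lit 76) (nat_lit 4825840824) (nat_lit 0) (nat_lit 7073343182) (nat_lit 1900) (nat_lit 40906352689) (nat_lit 474) (nat_lit 5) (nat_lit 473) (nat_lit 5) (nat_lit 498) (nat_lit 5) (nat_lit 652) (nat_lit 647) (nat_lit 261)) (XT.nd (nat_lit 78) (nat_lit 0) (nat_lit 0) (XT.lf (nat_lit 0) (nat_lit 13038991820) (nat_lit 1824) (nat_lit 21497520365) (nat_lit 1900) (nat_lit 18802900695) (nat_lit 474) (nat_lit 5) (nat_lit 498) (nat_lit 5) (nat_lit 499) (nat_lit 5) (nat_lit 653) (nat_lit 647) (nat_lit 260)) (XT.lf (nat_lit 76) (nat_lit 5539737568) (nat_lit 0) (nat_lit 8744048334) (nat_lit 1900) (nat_lit 39598536921) (nat_lit 475) (nat_lit 5) (nat_lit 474) (nat_lit 5) (nat_lit 499) (nat_lit 5) (nat_lit 654) (nat_lit 647)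 (nat_lit 259)))) (XT.nd (nat_lit 156) (nat_lit 0) (nat_lit 76) (XT.nd (nat_lit 78) (nat_lit 0) (nat_lit 0) (XT.lf (nat_lit 0) (nat_lit 15812120230) (nat_lit 1824) (nat_lit 21139438566) (nat_lit 1900) (nat_lit 17479359319) (nat_lit 475) (nat_lit 5) (nat_lit 499) (nat_lit 5) (nat_lit 500) (nat_lit 5) (nat_lit 655) (nat_lit 647) (nat_lit 258)) (XT.lf (nat_lit 76) (nat_lit 6636526434) (nat_lit 0) (nat_lit 10834893564) (nat_lit 1900) (nat_lit 37517057376) (nat_lit 476) (nat_lit 5) (nat_lit 475) (nat_lit 5) (nat_lit 500) (nat_lit 5) (nat_lit 656) (nat_lit 647) (nat_lit 257))) (XT.nd (nat_lit 78) (nat_lit 0) (nat_lit 0) (XT.lf (nat_lit 0) (nat_lit 19408725805) (nat_lit 1824) (nat_lit 20403726450) (nat_lit 1900) (nat_lit 15739839198) (nat_lit 476) (nat_lit 5) (nat_lit 500) (nat_lit 5) (nat_lit 501) (nat_lit 5) (nat_lit 657) (nat_lit 647) (nat_lit 256)) (XT.lf (nat_lit 76) (nat_lit 8138061016) (nat_lit 0) (nat_lit 13370733274) (nat_lit 1900) (nat_lit 34616107227) (nat_lit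 477) (nat_lit 5) (nat_lit 476) (nat_lit 5) (nat_lit 501) (nat_lit 5) (nat_lit 658) (nat_lit 647) (nat_lit 255)))))) (XT.nd (nat_lit 80730) (nat_lit 0) (nat_lit 0) (XT.nd (nat_lit 80418) (nat_lit 0) (nat_lit 0) (XT.nd (nat_lit 78) (nat_lit 456) (nat_lit 0) (XT.lf (nat_lit 0) (nat_lit 23876424370) (nat_lit 1824) (nat_lit 19268558566) (nat_lit 1900) (nat_lit 13559469675) (nat_lit 477) (nat_lit 5) (nat_lit 501) (nat_lit 5) (nat_lit 502) (nat_lit 5) (nat_lit 659) (nat_lit 647) (nat_lit 254)) (XT.nd (nat_lit 80262) (nat_lit 456) (nat_lit 0) (XT.lf (nat_lit 76) (nat_lit 10067192292) (nat_lit 0) (nat_lit 16377571313) (nat_lit 1900) (nat_lit 30847764025) (nat_lit 478) (nat_lit 5) (nat_lit 477) (nat_lit 5) (nat_lit 502) (nat_lit 5) (nat_lit 660) (nat_lit 647) (nat_lit 253)) (XT.lf (nat_lit 0) (nat_lit 4725685239) (nat_lit 1900) (nat_lit 10446915184) (nat_lit 1900) (nat_lit 10446915184) (nat_lit 471) (nat_lit 3) (nat_lit 496) (nat_lit 3) (nat_lit 496) (nat_lit 5) (nat_lit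 648) (nat_lit 648) (nat_lit 264)))) (XT.nd (nat_lit 156) (nat_lit 0) (nat_lit 76) (XT.nd (nat_lit 78) (nat_lit 0) (nat_lit 76) (XT.lf (nat_lit 76) (nat_lit 4579609570) (nat_lit 0) (nat_lit 5021082821) (nat_lit 1900) (nat_lit 42149631452) (nat_lit 472) (nat_lit 5) (nat_lit 471) (nat_lit 3) (nat_lit 496) (nat_lit 5) (nat_lit 649) (nat_lit 648) (nat_lit 263)) (XT.lf (nat_lit 0) (nat_lit 10028589228) (nat_lit 1824) (nat_lit 21559691423) (nat_lit 1900) (nat_lit 20678049942) (nat_lit 472) (nat_lit 5) (nat_lit 496) (nat_lit 5) (nat_lit 497) (nat_lit 5) (nat_lit 650) (nat_lit 648) (nat_lit 262))) (XT.nd (nat_lit 78) (nat_lit 0) (nat_lit 76) (XT.lf (nat_lit 76) (nat_lit 4590152089) (nat_lit 0) (nat_lit 5937301489) (nat_lit 1900) (nat_lit 42263955748) (nat_lit 473) (nat_lit 5) (nat_lit 472) (nat_lit 5) (nat_lit 497) (nat_lit 5) (nat_lit 651) (nat_lit 648) (nat_lit 261)) (XT.lf (nat_lit 0) (nat_lit 11312622685) (nat_lit 1824) (nat_lit 21901500165) (nat_lit 1900) (nat_lit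 20107340272) (nat_lit 473) (nat_lit 5) (nat_lit 497) (nat_lit 5) (nat_lit 498) (nat_lit 5) (nat_lit 652) (nat_lit 648) (nat_lit 260))))) (XT.nd (nat_lit 312) (nat_lit 152) (nat_lit 0) (XT.nd (nat_lit 156) (nat_lit 0) (nat_lit 76) (XT.nd (nat_lit 78) (nat_lit 0) (nat_lit 76) (XT.lf (nat_lit 76) (nat_lit 4949492149) (nat_lit 0) (nat_lit 7234838027) (nat_lit 1900) (nat_lit 41676371156) (nat_lit 474) (nat_lit 5) (nat_lit 473) (nat_lit 5) (nat_lit 498) (nat_lit 5) (nat_lit 653) (nat_lit 648) (nat_lit 259)) (XT.lf (nat_lit 0) (nat_lit 13345881906) (nat_lit 1824) (nat_lit 21899813281) (nat_lit 1900) (nat_lit 19159580953) (nat_lit 474) (nat_lit 5) (nat_lit 498) (nat_lit 5) (nat_lit 499) (nat_lit 5) (nat_lit 654) (nat_lit 648) (nat_lit 258))) (XT.nd (nat_lit 78) (nat_lit 0) (nat_lit 76) (XT.lf (nat_lit 76) (nat_lit 5678007852) (nat_lit 0) (nat_lit 8936838284) (nat_lit 1900) (nat_lit 40344212715) (nat_lit 475) (nat_lit 5) (nat_lit 474) (nat_lit 5) (nat_lit 499) (nat_lit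 5) (nat_lit 655) (nat_lit 648) (nat_lit 257)) (XT.lf (nat_lit 0) (nat_lit 16172743262) (nat_lit 1824) (nat_lit 21534283967) (nat_lit 1900) (nat_lit 17811618953) (nat_lit 475) (nat_lit 5) (nat_lit 499) (nat_lit 5) (nat_lit 500) (nat_lit 5) (nat_lit 656) (nat_lit 648) (nat_lit 256)))) (XT.nd (nat_lit 156) (nat_lit 304) (nat_lit 0) (XT.nd (nat_lit 78) (nat_lit 0) (nat_lit 76) (XT.lf (nat_lit 76) (nat_lit 6797016495) (nat_lit 0) (nat_lit 11067522556) (nat_lit 1900) (nat_lit 38222831427) (nat_lit 476) (nat_lit 5) (nat_lit 475) (nat_lit 5) (nat_lit 500) (nat_lit 5) (nat_lit 657) (nat_lit 648) (nat_lit 255)) (XT.lf (nat_lit 0) (nat_lit 19839632887) (nat_lit 1824) (nat_lit 20783625085) (nat_lit 1900) (nat_lit 16039222079) (nat_lit 476) (nat_lit 5) (nat_lit 500) (nat_lit 5) (nat_lit 501) (nat_lit 5) (nat_lit 658) (nat_lit 648) (nat_lit 254))) (XT.nd (nat_lit 80418) (nat_lit 380) (nat_lit 0) (XT.lf (nat_lit 76) (nat_lit 8328812762) (nat_lit 0) (nat_lit 13652233819)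 (nat_lit 1900) (nat_lit 35265508910) (nat_lit 477) (nat_lit 5) (nat_lit 476) (nat_lit 5) (nat_lit 501) (nat_lit 5) (nat_lit 659) (nat_lit 648) (nat_lit 253)) (XT.lf (nat_lit 0) (nat_lit 4845110490) (nat_lit 1900) (nat_lit 10643147844) (nat_lit 1900) (nat_lit 10643147844) (nat_lit 471) (nat_lit 3) (nat_lit 496) (nat_lit 3) (nat_lit 496) (nat_lit 5) (nat_lit 649) (nat_lit 649) (nat_lit 262))))))) (XT.nd (nat_lit 81666) (nat_lit 0) (nat_lit 0) (XT.nd (nat_lit 546) (nat_lit 0) (nat_lit 0) (XT.nd (nat_lit 234) (nat_lit 0) (nat_lit 152) (XT.nd (nat_lit 78) (nat_lit 0) (nat_lit 76) (XT.lf (nat_lit 76) (nat_lit 4696445870) (nat_lit 0) (nat_lit 5145270440) (nat_lit 1900) (nat_lit 42942630846) (nat_lit 472) (nat_lit 5) (nat_lit 471) (nat_lit 3) (nat_lit 496) (nat_lit 5) (nat_lit 650) (nat_lit 649) (nat_lit 261)) (XT.nd (nat_lit 78) (nat_lit 0) (nat_lit 0) (XT.lf (nat_lit 0) (nat_lit 10277058823) (nat_lit 1824) (nat_lit 21965020961) (nat_lit 1900) (nat_lit 21068616561)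 (nat_lit 472) (nat_lit 5) (nat_lit 496) (nat_lit 5) (nat_lit 497) (nat_lit 5) (nat_lit 651) (nat_lit 649) (nat_lit 260)) (XT.lf (nat_lit 76) (nat_lit 4707649262) (nat_lit 0) (nat_lit 6077478848) (nat_lit 1900) (nat_lit 43061164045) (nat_lit 473) (nat_lit 5) (nat_lit 472) (nat_lit 5) (nat_lit 497) (nat_lit 5) (nat_lit 652) (nat_lit 649) (nat_lit 259)))) (XT.nd (nat_lit 156) (nat_lit 0) (nat_lit 76) (XT.nd (nat_lit 78) (nat_lit 0) (nat_lit 0) (XT.lf (nat_lit 0) (nat_lit 11584940153) (nat_lit 1824) (nat_lit 22313276605) (nat_lit 1900) (nat_lit 20488751534) (nat_lit 473) (nat_lit 5) (nat_lit 497) (nat_lit 5) (nat_lit 498) (nat_lit 5) (nat_lit 653) (nat_lit 649) (nat_lit 258)) (XT.lf (nat_lit 76) (nat_lit 5074562834) (nat_lit 0) (nat_lit 7398785058) (nat_lit 1900) (nat_lit 42463658107) (nat_lit 474) (nat_lit 5) (nat_lit 473) (nat_lit 5) (nat_lit 498) (nat_lit 5) (nat_lit 654) (nat_lit 649) (nat_lit 257))) (XT.nd (nat_lit 78) (nat_lit 0) (nat_lit 0) (XT.lf (nat_lit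 0) (nat_lit 13657119277) (nat_lit 1824) (nat_lit 22311226031) (nat_lit 1900) (nat_lit 19524147278) (nat_lit 474) (nat_lit 5) (nat_lit 498) (nat_lit 5) (nat_lit 499) (nat_lit 5) (nat_lit 655) (nat_lit 649) (nat_lit 256)) (XT.lf (nat_lit 76) (nat_lit 5817976634) (nat_lit 0) (nat_lit 9132788606) (nat_lit 1900) (nat_lit 41106599715) (nat_lit 475) (nat_lit 5) (nat_lit 474) (nat_lit 5) (nat_lit 499) (nat_lit 5) (nat_lit 656) (nat_lit 649) (nat_lit 255))))) (XT.nd (nat_lit 80808) (nat_lit 0) (nat_lit 76) (XT.nd (nat_lit 80652) (nat_lit 304) (nat_lit 0) (XT.nd (nat_lit 78) (nat_lit 0) (nat_lit 0) (XT.lf (nat_lit 0) (nat_lit 16538855400) (nat_lit 1824) (nat_lit 21938111352) (nat_lit 1900) (nat_lit 18151196629) (nat_lit 475) (nat_lit 5) (nat_lit 499) (nat_lit 5) (nat_lit 500) (nat_lit 5) (nat_lit 657) (nat_lit 649) (nat_lit 254)) (XT.lf (nat_lit 76) (nat_lit 6959638420) (nat_lit 0) (nat_lit 11304185502) (nat_lit 1900) (nat_lit 38944451555) (nat_lit 476) (nat_lit 5)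 (nat_lit 475) (nat_lit 5) (nat_lit 500) (nat_lit 5) (nat_lit 658) (nat_lit 649) (nat_lit 253))) (XT.nd (nat_lit 78) (nat_lit 0) (nat_lit 0) (XT.lf (nat_lit 0) (nat_lit 4965956901) (nat_lit 1900) (nat_lit 10843798532) (nat_lit 1900) (nat_lit 10843798532) (nat_lit 471) (nat_lit 3) (nat_lit 496) (nat_lit 3) (nat_lit 496) (nat_lit 5) (nat_lit 650) (nat_lit 650) (nat_lit 260)) (XT.lf (nat_lit 76) (nat_lit 4814638637) (nat_lit 0) (nat_lit 5271018950) (nat_lit 1900) (nat_lit 43753431526) (nat_lit 472) (nat_lit 5) (nat_lit 471) (nat_lit 3) (nat_lit 496) (nat_lit 5) (nat_lit 651) (nat_lit 650) (nat_lit 259)))) (XT.nd (nat_lit 156) (nat_lit 0) (nat_lit 76) (XT.nd (nat_lit 78) (nat_lit 0) (nat_lit 0) (XT.lf (nat_lit 0) (nat_lit 10528637880) (nat_lit 1824) (nat_lit 22379461431) (nat_lit 1900) (nat_lit 21467887412) (nat_lit 472) (nat_lit 5) (nat_lit 496) (nat_lit 5) (nat_lit 497) (nat_lit 5) (nat_lit 652) (nat_lit 650) (nat_lit 258)) (XT.lf (nat_lit 76) (nat_lit 4826498644)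 (nat_lit 0) (nat_lit 6219627551) (nat_lit 1900) (nat_lit 43876183157) (nat_lit 473) (nat_lit 5) (nat_lit 472) (nat_lit 5) (nat_lit 497) (nat_lit 5) (nat_lit 653) (nat_lit 650) (nat_lit 257))) (XT.nd (nat_lit 78) (nat_lit 0) (nat_lit 0) (XT.lf (nat_lit 0) (nat_lit 11860915210) (nat_lit 1824) (nat_lit 22734308032) (nat_lit 1900) (nat_lit 20878596208) (nat_lit 473) (nat_lit 5) (nat_lit 497) (nat_lit 5) (nat_lit 498) (nat_lit 5) (nat_lit 654) (nat_lit 650) (nat_lit 256)) (XT.lf (nat_lit 76) (nat_lit 5201122182) (nat_lit 0) (nat_lit 7565263519) (nat_lit 1900) (nat_lit 43268486371) (nat_lit 474) (nat_lit 5) (nat_lit 473) (nat_lit 5) (nat_lit 498) (nat_lit 5) (nat_lit 655) (nat_lit 650) (nat_lit 255)))))) (XT.nd (nat_lit 81198) (nat_lit 0) (nat_lit 0) (XT.nd (nat_lit 80886) (nat_lit 0) (nat_lit 0) (XT.nd (nat_lit 78) (nat_lit 228) (nat_lit 0) (XT.lf (nat_lit 0) (nat_lit 13972860406) (nat_lit 1824) (nat_lit 22731899305) (nat_lit 1900) (nat_lit 19896728172) (nat_lit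 474) (nat_lit 5) (nat_lit 498) (nat_lit 5) (nat_lit 499) (nat_lit 5) (nat_lit 656) (nat_lit 650) (nat_lit 254)) (XT.nd (nat_lit 80730) (nat_lit 228) (nat_lit 0) (XT.lf (nat_lit 76) (nat_lit 5959719313) (nat_lit 0) (nat_lit 9331989511) (nat_lit 1900) (nat_lit 41885962337) (nat_lit 475) (nat_lit 5) (nat_lit 474) (nat_lit 5) (nat_lit 499) (nat_lit 5) (nat_lit 657) (nat_lit 650) (nat_lit 253)) (XT.lf (nat_lit 0) (nat_lit 5088290457) (nat_lit 1900) (nat_lit 11048936451) (nat_lit 1900) (nat_lit 11048936451) (nat_lit 471) (nat_lit 3) (nat_lit 496) (nat_lit 3) (nat_lit 496) (nat_lit 5) (nat_lit 651) (nat_lit 651) (nat_lit 258)))) (XT.nd (nat_lit 156) (nat_lit 0) (nat_lit 76) (XT.nd (nat_lit 78) (nat_lit 0) (nat_lit 76) (XT.lf (nat_lit 76) (nat_lit 4934253064) (nat_lit 0) (nat_lit 5398395404) (nat_lit 1900) (nat_lit 44582314135) (nat_lit 472) (nat_lit 5) (nat_lit 471) (nat_lit 3) (nat_lit 496) (nat_lit 5) (nat_lit 652) (nat_lit 651) (nat_lit 257)) (XT.lf (nat_lit 0)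 (nat_lit 10783460811) (nat_lit 1824) (nat_lit 22803156052) (nat_lit 1900) (nat_lit 21876001907) (nat_lit 472) (nat_lit 5) (nat_lit 496) (nat_lit 5) (nat_lit 497) (nat_lit 5) (nat_lit 653) (nat_lit 651) (nat_lit 256))) (XT.nd (nat_lit 78) (nat_lit 0) (nat_lit 76) (XT.lf (nat_lit 76) (nat_lit 4946766022) (nat_lit 0) (nat_lit 6363819338) (nat_lit 1900) (nat_lit 44709296815) (nat_lit 473) (nat_lit 5) (nat_lit 472) (nat_lit 5) (nat_lit 497) (nat_lit 5) (nat_lit 654) (nat_lit 651) (nat_lit 255)) (XT.lf (nat_lit 0) (nat_lit 12140690467) (nat_lit 1824) (nat_lit 23164739959) (nat_lit 1900) (nat_lit 21277011695) (nat_lit 473) (nat_lit 5) (nat_lit 497) (nat_lit 5) (nat_lit 498) (nat_lit 5) (nat_lit 655) (nat_lit 651) (nat_lit 254))))) (XT.nd (nat_lit 81120) (nat_lit 0) (nat_lit 0) (XT.nd (nat_lit 80964) (nat_lit 152) (nat_lit 0) (XT.nd (nat_lit 78) (nat_lit 0) (nat_lit 76) (XT.lf (nat_lit 76) (nat_lit 5329239292) (nat_lit 0) (nat_lit 7734353064) (nat_lit 1900) (nat_lit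 44091137049) (nat_lit 474) (nat_lit 5) (nat_lit 473) (nat_lit 5) (nat_lit 498) (nat_lit 5) (nat_lit 656) (nat_lit 651) (nat_lit 253)) (XT.lf (nat_lit 0) (nat_lit 14293262197) (nat_lit 1824) (nat_lit 23161978231) (nat_lit 1900) (nat_lit 20277455842) (nat_lit 474) (nat_lit 5) (nat_lit 498) (nat_lit 5) (nat_lit 499) (nat_lit 5) (nat_lit 657) (nat_lit 651) (nat_lit 252))) (XT.nd (nat_lit 78) (nat_lit 0) (nat_lit 76) (XT.lf (nat_lit 76) (nat_lit 5055354172) (nat_lit 0) (nat_lit 5527466807) (nat_lit 1900) (nat_lit 45429567856) (nat_lit 472) (nat_lit 5) (nat_lit 471) (nat_lit 3) (nat_lit 496) (nat_lit 5) (nat_lit 653) (nat_lit 652) (nat_lit 255)) (XT.lf (nat_lit 0) (nat_lit 11041661912) (nat_lit 1824) (nat_lit 23236252423) (nat_lit 1900) (nat_lit 22293103594) (nat_lit 472) (nat_lit 5) (nat_lit 496) (nat_lit 5) (nat_lit 497) (nat_lit 5) (nat_lit 654) (nat_lit 652) (nat_lit 254)))) (XT.nd (nat_lit 81120) (nat_lit 76) (nat_lit 0) (XT.nd (nat_lit 78) (nat_lit 0) (nat_lit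 76) (XT.lf (nat_lit 76) (nat_lit 5068516996) (nat_lit 0) (nat_lit 6510126132) (nat_lit 1900) (nat_lit 45560797241) (nat_lit 473) (nat_lit 5) (nat_lit 472) (nat_lit 5) (nat_lit 497) (nat_lit 5) (nat_lit 655) (nat_lit 652) (nat_lit 253)) (XT.lf (nat_lit 0) (nat_lit 12424408691) (nat_lit 1824) (nat_lit 23604722345) (nat_lit 1900) (nat_lit 21684139360) (nat_lit 473) (nat_lit 5) (nat_lit 497) (nat_lit 5) (nat_lit 498) (nat_lit 5) (nat_lit 656) (nat_lit 652) (nat_lit 252))) (XT.nd (nat_lit 78) (nat_lit 0) (nat_lit 76) (XT.lf (nat_lit 76) (nat_lit 5178006859) (nat_lit 0) (nat_lit 5658300163) (nat_lit 1900) (nat_lit 46295490468) (nat_lit 472) (nat_lit 5) (nat_lit 471) (nat_lit 3) (nat_lit 496) (nat_lit 5) (nat_lit 654) (nat_lit 653) (nat_lit 253)) (XT.lf (nat_lit 0) (nat_lit 11303375471) (nat_lit 1824) (nat_lit 23678902548) (nat_lit 1900) (nat_lit 22719340184) (nat_lit 472) (nat_lit 5) (nat_lit 496) (nat_lit 5) (nat_lit 497) (nat_lit 5) (nat_lit 655) (nat_lit 653)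 (nat_lit 252))))))))

set_option maxRecDepth 10000000 in
noncomputable def Tp : PT := (PT.nd (nat_lit 21779238) (PT.nd (nat_lit 19832514) (PT.nd (nat_lit 17966364) (PT.nd (nat_lit 16262532) (PT.nd (nat_lit 14963598) (PT.nd (nat_lit 13989612) (PT.nd (nat_lit 13259376) pc0 pc1) (PT.nd (nat_lit 568074) pc2 pc3)) (PT.nd (nat_lit 730470) (PT.nd (nat_lit 405678) pc4 pc5) (PT.nd (nat_lit 324558) pc6 pc7))) (PT.nd (nat_lit 973596) (PT.nd (nat_lit 567450) (PT.nd (nat_lit 324012) pc8 pc9) (PT.nd (nat_lit 163020) pc10 pc11)) (PT.nd (nat_lit 405444) (PT.nd (nat_lit 162786) pc12 pc13) (PT.nd (nat_lit 162396) pc14 pc15)))) (PT.nd (nat_lit 1055418) (PT.nd (nat_lit 568464) (PT.nd (nat_lit 324246) (PT.nd (nat_lit 162240) pc16 pc17) (PT.nd (nat_lit 82290) pc18 pc19)) (PT.nd (nat_lit 243594) (PT.nd (nat_lit 161538) pc20 pc21) (PT.nd (nat_lit 161382) pc22 pc23))) (PT.nd (nat_lit 406146) (PT.nd (nat_lit 242658) (PT.nd (nat_lit 81822) pc24 pc25) (PT.nd (nat_lit 81744) pc26 pc27))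 (PT.nd (nat_lit 241878) (PT.nd (nat_lit 81588) pc28 pc29) (PT.nd (nat_lit 81354) pc30 pc31))))) (PT.nd (nat_lit 1135212) (PT.nd (nat_lit 569478) (PT.nd (nat_lit 324324) (PT.nd (nat_lit 162318) (PT.nd (nat_lit 81198) pc32 pc33) (PT.nd (nat_lit 81042) pc34 pc35)) (PT.nd (nat_lit 83538) (PT.nd (nat_lit 80886) pc36 pc37) (PT.nd (nat_lit 80808) pc38 pc39))) (PT.nd (nat_lit 244452) (PT.nd (nat_lit 161226) (PT.nd (nat_lit 80652) pc40 pc41) (PT.nd (nat_lit 80496) pc42 pc43)) (PT.nd (nat_lit 160758) (PT.nd (nat_lit 80418) pc44 pc45) (PT.nd (nat_lit 80262) pc46 pc47)))) (PT.nd (nat_lit 407160) (PT.nd (nat_lit 165282) (PT.nd (nat_lit 82680) (PT.nd (nat_lit 2652) pc48 pc49) (PT.nd (nat_lit 79872) pc50 pc51)) (PT.nd (nat_lit 159510) (PT.nd (nat_lit 79794) pc52 pc53) (PT.nd (nat_lit 2652) pc54 pc55))) (PT.nd (nat_lit 164190) (PT.nd (nat_lit 82134) (PT.nd (nat_lit 79482) pc56 pc57) (PT.nd (nat_lit 79326) pc58 pc59)) (PT.nd (nat_lit 81900) (PT.nd (nat_lit 79248) pc60 pc61)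 (PT.nd (nat_lit 79170) pc62 pc63)))))) (PT.nd (nat_lit 1139736) (PT.nd (nat_lit 648648) (PT.nd (nat_lit 325416) (PT.nd (nat_lit 162942) (PT.nd (nat_lit 81510) (PT.nd (nat_lit 2652) pc64 pc65) (PT.nd (nat_lit 2652) pc66 pc67)) (PT.nd (nat_lit 81276) (PT.nd (nat_lit 2652) pc68 pc69) (PT.nd (nat_lit 2652) pc70 pc71))) (PT.nd (nat_lit 161850) (PT.nd (nat_lit 80964) (PT.nd (nat_lit 2652) pc72 pc73) (PT.nd (nat_lit 2652) pc74 pc75)) (PT.nd (nat_lit 80730) (PT.nd (nat_lit 2652) pc76 pc77) (PT.nd (nat_lit 2652) pc78 pc79)))) (PT.nd (nat_lit 246246) (PT.nd (nat_lit 85800) (PT.nd (nat_lit 5304) (PT.nd (nat_lit 2652) pc80 pc81) (PT.nd (nat_lit 77766) pc82 pc83)) (PT.nd (nat_lit 80262) (PT.nd (nat_lit 77610) pc84 pc85) (PT.nd (nat_lit 77454) pc86 pc87))) (PT.nd (nat_lit 159822) (PT.nd (nat_lit 79950) (PT.nd (nat_lit 2652) pc88 pc89) (PT.nd (nat_lit 2652) pc90 pc91)) (PT.nd (nat_lit 5304) (PT.nd (nat_lit 2652) pc92 pc93) (PT.nd (nat_lit 76986) pc94 pc95))))) (PT.nd (nat_lit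 651612) (PT.nd (nat_lit 245076) (PT.nd (nat_lit 158886) (PT.nd (nat_lit 79482) (PT.nd (nat_lit 76830) pc96 pc97) (PT.nd (nat_lit 2652) pc98 pc99)) (PT.nd (nat_lit 5304) (PT.nd (nat_lit 2652) pc100 pc101) (PT.nd (nat_lit 76440) pc102 pc103))) (PT.nd (nat_lit 236964) (PT.nd (nat_lit 81510) (PT.nd (nat_lit 76284) pc104 pc105) (PT.nd (nat_lit 79404) pc106 pc107)) (PT.nd (nat_lit 86502) (PT.nd (nat_lit 6474) pc108 pc109) (PT.nd (nat_lit 75582) pc110 pc111)))) (PT.nd (nat_lit 649662) (PT.nd (nat_lit 317304) (PT.nd (nat_lit 161382) (PT.nd (nat_lit 80574) pc112 pc113) (PT.nd (nat_lit 75036) pc114 pc115)) (PT.nd (nat_lit 162084) (PT.nd (nat_lit 81042) pc116 pc117) (PT.nd (nat_lit 88530) pc118 pc119))) (PT.nd (nat_lit 487656) (PT.nd (nat_lit 243438) (PT.nd (nat_lit 153036) pc120 pc121) (PT.nd (nat_lit 152724) pc122 pc123)) (PT.nd (nat_lit 325338) (PT.nd (nat_lit 162630) pc124 pc125) (PT.nd (nat_lit 243438) pc126 pc127)))))))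

set_option maxRecDepth 10000000 in
noncomputable def Tx : XT := (XT.nd (nat_lit 36995868) (nat_lit 0) (nat_lit 1064) XT.nil (XT.nd (nat_lit 16077594) (nat_lit 0) (nat_lit 0) (XT.nd (nat_lit 7462572) (nat_lit 0) (nat_lit 5244) (XT.nd (nat_lit 4946058) (nat_lit 0) (nat_lit 3800) (XT.nd (nat_lit 3484962) (nat_lit 0) (nat_lit 1900) (XT.nd (nat_lit 2432118) (nat_lit 0) (nat_lit 836) (XT.nd (nat_lit 1702428) (nat_lit 0) (nat_lit 456) (XT.nd (nat_lit 1136538) (nat_lit 0) (nat_lit 228) (XT.nd (nat_lit 811044) (nat_lit 0) (nat_lit 152) (XT.nd (nat_lit 567528) (nat_lit 0) (nat_lit 152) xc0 xc1) (XT.nd (nat_lit 163020) (nat_lit 0) (nat_lit 0) xc2 xc3)) (XT.nd (nat_lit 322998) (nat_lit 0) (nat_lit 76) (XT.nd (nat_lit 161772) (nat_lit 0) (nat_lit 0) xc4 xc5) (XT.nd (nat_lit 82602) (nat_lit 0) (nat_lit 0) xc6 xc7))) (XT.nd (nat_lit 404742) (nat_lit 0) (nat_lit 76) (XT.nd (nat_lit 164190) (nat_lit 0) (nat_lit 0) (XT.nd (nat_lit 82134) (nat_lit 0) (nat_lit 0) xc8 xc9) (XT.nd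 (nat_lit 81822) (nat_lit 0) (nat_lit 76) xc10 xc11)) (XT.nd (nat_lit 162708) (nat_lit 0) (nat_lit 304) (XT.nd (nat_lit 81354) (nat_lit 0) (nat_lit 228) xc12 xc13) (XT.nd (nat_lit 81198) (nat_lit 0) (nat_lit 0) xc14 xc15)))) (XT.nd (nat_lit 567294) (nat_lit 0) (nat_lit 456) (XT.nd (nat_lit 246636) (nat_lit 0) (nat_lit 228) (XT.nd (nat_lit 161538) (nat_lit 0) (nat_lit 152) (XT.nd (nat_lit 80808) (nat_lit 0) (nat_lit 152) xc16 xc17) (XT.nd (nat_lit 4524) (nat_lit 152) (nat_lit 0) xc18 xc19)) (XT.nd (nat_lit 160602) (nat_lit 0) (nat_lit 76) (XT.nd (nat_lit 80340) (nat_lit 0) (nat_lit 76) xc20 xc21) (XT.nd (nat_lit 80106) (nat_lit 0) (nat_lit 0) xc22 xc23))) (XT.nd (nat_lit 243360) (nat_lit 0) (nat_lit 228) (XT.nd (nat_lit 84318) (nat_lit 0) (nat_lit 0) (XT.nd (nat_lit 4524) (nat_lit 608) (nat_lit 0) xc24 xc25) (XT.nd (nat_lit 79560) (nat_lit 0) (nat_lit 76) xc26 xc27)) (XT.nd (nat_lit 83850) (nat_lit 0) (nat_lit 152) (XT.nd (nat_lit 4524) (nat_lit 1140) (nat_lit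 0) xc28 xc29) (XT.nd (nat_lit 79248) (nat_lit 0) (nat_lit 0) xc30 xc31))))) (XT.nd (nat_lit 736476) (nat_lit 0) (nat_lit 760) (XT.nd (nat_lit 406614) (nat_lit 0) (nat_lit 380) (XT.nd (nat_lit 166764) (nat_lit 0) (nat_lit 152) (XT.nd (nat_lit 83460) (nat_lit 0) (nat_lit 0) (XT.nd (nat_lit 4524) (nat_lit 4180) (nat_lit 0) xc32 xc33) (XT.nd (nat_lit 78702) (nat_lit 0) (nat_lit 4788) xc34 xc35)) (XT.nd (nat_lit 83148) (nat_lit 0) (nat_lit 0) (XT.nd (nat_lit 78546) (nat_lit 0) (nat_lit 228) xc36 xc37) (XT.nd (nat_lit 78390) (nat_lit 0) (nat_lit 0) xc38 xc39))) (XT.nd (nat_lit 165204) (nat_lit 0) (nat_lit 152) (XT.nd (nat_lit 82680) (nat_lit 0) (nat_lit 0) (XT.nd (nat_lit 4524) (nat_lit 2736) (nat_lit 0) xc40 xc41) (XT.nd (nat_lit 77922) (nat_lit 0) (nat_lit 8132) xc42 xc43)) (XT.nd (nat_lit 82368) (nat_lit 0) (nat_lit 0) (XT.nd (nat_lit 77766) (nat_lit 0) (nat_lit 4256) xc44 xc45) (XT.nd (nat_lit 77688) (nat_lit 0) (nat_lit 1824) xc46 xc47)))) (XT.nd (nat_lit 400062)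 (nat_lit 0) (nat_lit 684) (XT.nd (nat_lit 236808) (nat_lit 0) (nat_lit 380) (XT.nd (nat_lit 154986) (nat_lit 0) (nat_lit 228) (XT.nd (nat_lit 77532) (nat_lit 0) (nat_lit 228) xc48 xc49) (XT.nd (nat_lit 4524) (nat_lit 10336) (nat_lit 0) xc50 xc51)) (XT.nd (nat_lit 81666) (nat_lit 0) (nat_lit 0) (XT.nd (nat_lit 4524) (nat_lit 7752) (nat_lit 0) xc52 xc53) (XT.nd (nat_lit 4602) (nat_lit 6156) (nat_lit 0) xc54 xc55))) (XT.nd (nat_lit 162552) (nat_lit 0) (nat_lit 152) (XT.nd (nat_lit 81354) (nat_lit 0) (nat_lit 0) (XT.nd (nat_lit 4524) (nat_lit 4864) (nat_lit 0) xc56 xc57) (XT.nd (nat_lit 4524) (nat_lit 4560) (nat_lit 0) xc58 xc59)) (XT.nd (nat_lit 81042) (nat_lit 0) (nat_lit 0) (XT.nd (nat_lit 4524) (nat_lit 4712) (nat_lit 0) xc60 xc61) (XT.nd (nat_lit 4602) (nat_lit 5016) (nat_lit 0) xc62 xc63)))))) (XT.nd (nat_lit 1220622) (nat_lit 0) (nat_lit 912) (XT.nd (nat_lit 573066) (nat_lit 0) (nat_lit 912) (XT.nd (nat_lit 322374) (nat_lit 0) (nat_lit 684) (XT.nd (nat_lit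 161460) (nat_lit 0) (nat_lit 380) (XT.nd (nat_lit 80808) (nat_lit 0) (nat_lit 152) (XT.nd (nat_lit 4524) (nat_lit 5852) (nat_lit 0) xc64 xc65) (XT.nd (nat_lit 4524) (nat_lit 7144) (nat_lit 0) xc66 xc67)) (XT.nd (nat_lit 80574) (nat_lit 0) (nat_lit 76) (XT.nd (nat_lit 4524) (nat_lit 9044) (nat_lit 0) xc68 xc69) (XT.nd (nat_lit 4524) (nat_lit 11780) (nat_lit 0) xc70 xc71))) (XT.nd (nat_lit 89544) (nat_lit 0) (nat_lit 0) (XT.nd (nat_lit 9126) (nat_lit 0) (nat_lit 0) (XT.nd (nat_lit 4524) (nat_lit 16188) (nat_lit 0) xc72 xc73) (XT.nd (nat_lit 75816) (nat_lit 0) (nat_lit 1900) xc74 xc75)) (XT.nd (nat_lit 80496) (nat_lit 0) (nat_lit 228) (XT.nd (nat_lit 75894) (nat_lit 0) (nat_lit 4028) xc76 xc77) (XT.nd (nat_lit 76050) (nat_lit 0) (nat_lit 5624) xc78 xc79)))) (XT.nd (nat_lit 323154) (nat_lit 0) (nat_lit 532) (XT.nd (nat_lit 161382) (nat_lit 0) (nat_lit 304) (XT.nd (nat_lit 80652) (nat_lit 0) (nat_lit 304) (XT.nd (nat_lit 76050) (nat_lit 0) (nat_lit 7600) xc80 xc81)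 (XT.nd (nat_lit 76128) (nat_lit 0) (nat_lit 9500) xc82 xc83)) (XT.nd (nat_lit 80808) (nat_lit 0) (nat_lit 228) (XT.nd (nat_lit 76206) (nat_lit 0) (nat_lit 11020) xc84 xc85) (XT.nd (nat_lit 76362) (nat_lit 0) (nat_lit 12388) xc86 xc87))) (XT.nd (nat_lit 162006) (nat_lit 0) (nat_lit 304) (XT.nd (nat_lit 80964) (nat_lit 0) (nat_lit 304) (XT.nd (nat_lit 76362) (nat_lit 0) (nat_lit 13452) xc88 xc89) (XT.nd (nat_lit 76440) (nat_lit 0) (nat_lit 14364) xc90 xc91)) (XT.nd (nat_lit 81120) (nat_lit 0) (nat_lit 228) (XT.nd (nat_lit 76518) (nat_lit 0) (nat_lit 14972) xc92 xc93) (XT.nd (nat_lit 76674) (nat_lit 0) (nat_lit 14744) xc94 xc95))))) (XT.nd (nat_lit 648570) (nat_lit 0) (nat_lit 0) (XT.nd (nat_lit 324948) (nat_lit 760) (nat_lit 0) (XT.nd (nat_lit 162552) (nat_lit 304) (nat_lit 0) (XT.nd (nat_lit 81276) (nat_lit 0) (nat_lit 0) (XT.nd (nat_lit 76674) (nat_lit 0) (nat_lit 14136) xc96 xc97) (XT.nd (nat_lit 76674) (nat_lit 0) (nat_lit 14136) xc98 xc99)) (XT.nd (nat_lit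 81276) (nat_lit 304) (nat_lit 0) (XT.nd (nat_lit 76674) (nat_lit 0) (nat_lit 14136) xc100 xc101) (XT.nd (nat_lit 76518) (nat_lit 0) (nat_lit 15048) xc102 xc103))) (XT.nd (nat_lit 161850) (nat_lit 304) (nat_lit 0) (XT.nd (nat_lit 80964) (nat_lit 228) (nat_lit 0) (XT.nd (nat_lit 4524) (nat_lit 0) (nat_lit 0) xc104 xc105) (XT.nd (nat_lit 4524) (nat_lit 988) (nat_lit 0) xc106 xc107)) (XT.nd (nat_lit 80886) (nat_lit 304) (nat_lit 0) (XT.nd (nat_lit 4524) (nat_lit 1976) (nat_lit 0) xc108 xc109) (XT.nd (nat_lit 4602) (nat_lit 2888) (nat_lit 0) xc110 xc111)))) (XT.nd (nat_lit 323466) (nat_lit 0) (nat_lit 228) (XT.nd (nat_lit 161616) (nat_lit 0) (nat_lit 228) (XT.nd (nat_lit 80808) (nat_lit 0) (nat_lit 0) (XT.nd (nat_lit 4524) (nat_lit 4104) (nat_lit 0) xc112 xc113) (XT.nd (nat_lit 4524) (nat_lit 5624) (nat_lit 0) xc114 xc115)) (XT.nd (nat_lit 80886) (nat_lit 0) (nat_lit 0) (XT.nd (nat_lit 4524) (nat_lit 6536) (nat_lit 0) xc116 xc117) (XT.nd (nat_lit 4602) (nat_lit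 7752) (nat_lit 0) xc118 xc119))) (XT.nd (nat_lit 161850) (nat_lit 0) (nat_lit 76) (XT.nd (nat_lit 80886) (nat_lit 0) (nat_lit 76) (XT.nd (nat_lit 4524) (nat_lit 9044) (nat_lit 0) xc120 xc121) (XT.nd (nat_lit 4524) (nat_lit 10412) (nat_lit 0) xc122 xc123)) (XT.nd (nat_lit 80964) (nat_lit 0) (nat_lit 0) (XT.nd (nat_lit 4524) (nat_lit 11476) (nat_lit 0) xc124 xc125) (XT.nd (nat_lit 4602) (nat_lit 12540) (nat_lit 0) xc126 xc127))))))) (XT.nd (nat_lit 2844504) (nat_lit 0) (nat_lit 5396) (XT.nd (nat_lit 1303146) (nat_lit 0) (nat_lit 1672) (XT.nd (nat_lit 649740) (nat_lit 0) (nat_lit 532) (XT.nd (nat_lit 252408) (nat_lit 0) (nat_lit 228) (XT.nd (nat_lit 162162) (nat_lit 0) (nat_lit 0) (XT.nd (nat_lit 81042) (nat_lit 0) (nat_lit 0) (XT.nd (nat_lit 4524) (nat_lit 13376) (nat_lit 0) xc128 xc129) (XT.nd (nat_lit 4524) (nat_lit 14592) (nat_lit 0) xc130 xc131)) (XT.nd (nat_lit 9126) (nat_lit 228) (nat_lit 0) (XT.nd (nat_lit 4524) (nat_lit 14972) (nat_lit 0) xc132 xc133)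 (XT.nd (nat_lit 76518) (nat_lit 0) (nat_lit 532) xc134 xc135))) (XT.nd (nat_lit 162396) (nat_lit 0) (nat_lit 76) (XT.nd (nat_lit 81198) (nat_lit 0) (nat_lit 0) (XT.nd (nat_lit 76596) (nat_lit 0) (nat_lit 532) xc136 xc137) (XT.nd (nat_lit 76596) (nat_lit 0) (nat_lit 532) xc138 xc139)) (XT.nd (nat_lit 81276) (nat_lit 0) (nat_lit 228) (XT.nd (nat_lit 76674) (nat_lit 0) (nat_lit 456) xc140 xc141) (XT.nd (nat_lit 76830) (nat_lit 0) (nat_lit 0) xc142 xc143)))) (XT.nd (nat_lit 326196) (nat_lit 0) (nat_lit 608) (XT.nd (nat_lit 162942) (nat_lit 0) (nat_lit 608) (XT.nd (nat_lit 81432) (nat_lit 0) (nat_lit 228) (XT.nd (nat_lit 4524) (nat_lit 14668) (nat_lit 0) xc144 xc145) (XT.nd (nat_lit 4524) (nat_lit 13832) (nat_lit 0) xc146 xc147)) (XT.nd (nat_lit 81588) (nat_lit 0) (nat_lit 0) (XT.nd (nat_lit 4524) (nat_lit 12236) (nat_lit 0) xc148 xc149) (XT.nd (nat_lit 4602) (nat_lit 10564) (nat_lit 0) xc150 xc151))) (XT.nd (nat_lit 163410) (nat_lit 0) (nat_lit 228) (XT.nd (nat_lit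 81666) (nat_lit 0) (nat_lit 228) (XT.nd (nat_lit 4524) (nat_lit 9500) (nat_lit 0) xc152 xc153) (XT.nd (nat_lit 4524) (nat_lit 7828) (nat_lit 0) xc154 xc155)) (XT.nd (nat_lit 81822) (nat_lit 0) (nat_lit 304) (XT.nd (nat_lit 4524) (nat_lit 6080) (nat_lit 0) xc156 xc157) (XT.nd (nat_lit 4602) (nat_lit 3724) (nat_lit 0) xc158 xc159))))) (XT.nd (nat_lit 730704) (nat_lit 0) (nat_lit 1520) (XT.nd (nat_lit 328068) (nat_lit 0) (nat_lit 608) (XT.nd (nat_lit 163878) (nat_lit 0) (nat_lit 304) (XT.nd (nat_lit 81900) (nat_lit 0) (nat_lit 304) (XT.nd (nat_lit 4524) (nat_lit 1900) (nat_lit 0) xc160 xc161) (XT.nd (nat_lit 4524) (nat_lit 0) (nat_lit 0) xc162 xc163)) (XT.nd (nat_lit 82056) (nat_lit 0) (nat_lit 304) (XT.nd (nat_lit 77454) (nat_lit 0) (nat_lit 9728) xc164 xc165) (XT.nd (nat_lit 77532) (nat_lit 0) (nat_lit 6080) xc166 xc167))) (XT.nd (nat_lit 237744) (nat_lit 0) (nat_lit 608) (XT.nd (nat_lit 82212) (nat_lit 0) (nat_lit 304) (XT.nd (nat_lit 77610) (nat_lit 0) (nat_lit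 3116) xc168 xc169) (XT.nd (nat_lit 77688) (nat_lit 0) (nat_lit 304) xc170 xc171)) (XT.nd (nat_lit 82368) (nat_lit 0) (nat_lit 0) (XT.nd (nat_lit 4524) (nat_lit 11628) (nat_lit 0) xc172 xc173) (XT.nd (nat_lit 4602) (nat_lit 6840) (nat_lit 0) xc174 xc175)))) (XT.nd (nat_lit 404352) (nat_lit 0) (nat_lit 1140) (XT.nd (nat_lit 165126) (nat_lit 0) (nat_lit 380) (XT.nd (nat_lit 82524) (nat_lit 0) (nat_lit 76) (XT.nd (nat_lit 4524) (nat_lit 2584) (nat_lit 0) xc176 xc177) (XT.nd (nat_lit 78000) (nat_lit 0) (nat_lit 9500) xc178 xc179)) (XT.nd (nat_lit 82680) (nat_lit 0) (nat_lit 304) (XT.nd (nat_lit 78078) (nat_lit 0) (nat_lit 3876) xc180 xc181) (XT.nd (nat_lit 78234) (nat_lit 0) (nat_lit 0) xc182 xc183))) (XT.nd (nat_lit 165906) (nat_lit 0) (nat_lit 304) (XT.nd (nat_lit 82914) (nat_lit 0) (nat_lit 0) (XT.nd (nat_lit 4524) (nat_lit 9044) (nat_lit 0) xc184 xc185) (XT.nd (nat_lit 4524) (nat_lit 2660) (nat_lit 0) xc186 xc187)) (XT.nd (nat_lit 83070) (nat_lit 0) (nat_lit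 380) (XT.nd (nat_lit 78468) (nat_lit 0) (nat_lit 6004) xc188 xc189) (XT.nd (nat_lit 78624) (nat_lit 0) (nat_lit 76) xc190 xc191)))))) (XT.nd (nat_lit 1871298) (nat_lit 0) (nat_lit 5244) (XT.nd (nat_lit 818376) (nat_lit 0) (nat_lit 2432) (XT.nd (nat_lit 408174) (nat_lit 0) (nat_lit 1216) (XT.nd (nat_lit 166686) (nat_lit 0) (nat_lit 380) (XT.nd (nat_lit 83304) (nat_lit 0) (nat_lit 0) (XT.nd (nat_lit 4524) (nat_lit 7980) (nat_lit 0) xc192 xc193) (XT.nd (nat_lit 4524) (nat_lit 760) (nat_lit 0) xc194 xc195)) (XT.nd (nat_lit 83460) (nat_lit 0) (nat_lit 380) (XT.nd (nat_lit 78858) (nat_lit 0) (nat_lit 836) xc196 xc197) (XT.nd (nat_lit 78936) (nat_lit 0) (nat_lit 76) xc198 xc199))) (XT.nd (nat_lit 242190) (nat_lit 0) (nat_lit 836) (XT.nd (nat_lit 83694) (nat_lit 0) (nat_lit 0) (XT.nd (nat_lit 4524) (nat_lit 0) (nat_lit 0) xc200 xc201) (XT.nd (nat_lit 79170) (nat_lit 0) (nat_lit 380) xc202 xc203)) (XT.nd (nat_lit 83928) (nat_lit 0) (nat_lit 0) (XT.nd (nat_lit 4524)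 (nat_lit 5320) (nat_lit 0) xc204 xc205) (XT.nd (nat_lit 79482) (nat_lit 0) (nat_lit 1748) xc206 xc207)))) (XT.nd (nat_lit 487422) (nat_lit 0) (nat_lit 912) (XT.nd (nat_lit 243360) (nat_lit 0) (nat_lit 0) (XT.nd (nat_lit 159120) (nat_lit 0) (nat_lit 456) (XT.nd (nat_lit 79482) (nat_lit 0) (nat_lit 0) xc208 xc209) (XT.nd (nat_lit 79638) (nat_lit 0) (nat_lit 2356) xc210 xc211)) (XT.nd (nat_lit 159510) (nat_lit 0) (nat_lit 912) (XT.nd (nat_lit 79638) (nat_lit 0) (nat_lit 912) xc212 xc213) (XT.nd (nat_lit 79950) (nat_lit 0) (nat_lit 988) xc214 xc215))) (XT.nd (nat_lit 320112) (nat_lit 0) (nat_lit 988) (XT.nd (nat_lit 159978) (nat_lit 0) (nat_lit 456) (XT.nd (nat_lit 79872) (nat_lit 0) (nat_lit 456) xc216 xc217) (XT.nd (nat_lit 80028) (nat_lit 0) (nat_lit 456) xc218 xc219)) (XT.nd (nat_lit 84708) (nat_lit 0) (nat_lit 456) (XT.nd (nat_lit 4524) (nat_lit 1976) (nat_lit 0) xc220 xc221) (XT.nd (nat_lit 80262) (nat_lit 0) (nat_lit 456) xc222 xc223))))) (XT.nd (nat_lit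 1220310) (nat_lit 0) (nat_lit 6460) (XT.nd (nat_lit 569322) (nat_lit 0) (nat_lit 2736) (XT.nd (nat_lit 246012) (nat_lit 0) (nat_lit 1596) (XT.nd (nat_lit 160836) (nat_lit 0) (nat_lit 1064) (XT.nd (nat_lit 80340) (nat_lit 0) (nat_lit 532) xc224 xc225) (XT.nd (nat_lit 4524) (nat_lit 532) (nat_lit 0) xc226 xc227)) (XT.nd (nat_lit 161460) (nat_lit 0) (nat_lit 532) (XT.nd (nat_lit 80652) (nat_lit 0) (nat_lit 0) xc228 xc229) (XT.nd (nat_lit 80886) (nat_lit 0) (nat_lit 0) xc230 xc231))) (XT.nd (nat_lit 324714) (nat_lit 0) (nat_lit 1748) (XT.nd (nat_lit 162162) (nat_lit 0) (nat_lit 1140) (XT.nd (nat_lit 80964) (nat_lit 0) (nat_lit 532) xc232 xc233) (XT.nd (nat_lit 81198) (nat_lit 0) (nat_lit 0) xc234 xc235)) (XT.nd (nat_lit 162864) (nat_lit 0) (nat_lit 1292) (XT.nd (nat_lit 81354) (nat_lit 0) (nat_lit 76) xc236 xc237) (XT.nd (nat_lit 81666) (nat_lit 0) (nat_lit 0) xc238 xc239)))) (XT.nd (nat_lit 891696) (nat_lit 0) (nat_lit 5928) (XT.nd (nat_lit 405366) (nat_lit 0)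 (nat_lit 2812) (XT.nd (nat_lit 241098) (nat_lit 0) (nat_lit 1368) (XT.nd (nat_lit 81744) (nat_lit 0) (nat_lit 0) xc240 xc241) (XT.nd (nat_lit 82056) (nat_lit 0) (nat_lit 0) xc242 xc243)) (XT.nd (nat_lit 242658) (nat_lit 0) (nat_lit 1520) (XT.nd (nat_lit 160134) (nat_lit 0) (nat_lit 760) xc244 xc245) (XT.nd (nat_lit 82680) (nat_lit 0) (nat_lit 0) xc246 xc247))) (XT.nd (nat_lit 569088) (nat_lit 0) (nat_lit 4408) (XT.nd (nat_lit 244530) (nat_lit 0) (nat_lit 1748) (XT.nd (nat_lit 82914) (nat_lit 0) (nat_lit 836) xc248 xc249) (XT.nd (nat_lit 162006) (nat_lit 0) (nat_lit 1748) xc250 xc251)) (XT.nd (nat_lit 405834) (nat_lit 0) (nat_lit 2052) (XT.nd (nat_lit 162864) (nat_lit 0) (nat_lit 988) xc252 xc253) (XT.nd (nat_lit 244140) (nat_lit 0) (nat_lit 0) xc254 xc255)))))))) XT.nil))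

set_option maxRecDepth 10000000 in
noncomputable def Te : XT := XT.nil

set_option maxRecDepth 10000000 in
noncomputable def Tz : ZL := (ZL.cons (nat_lit 76) (nat_lit 3) (nat_lit 233147309957715163858) (ZL.cons (nat_lit 152) (nat_lit 6) (nat_lit 461750747416354761034) (ZL.cons (nat_lit 912) (nat_lit 6) (nat_lit 217301250536073932806) (ZL.cons (nat_lit 988) (nat_lit 6) (nat_lit 215323639903012240186) (ZL.cons (nat_lit 1064) (nat_lit 3) (nat_lit 107641157176562376886) (ZL.cons (nat_lit 1216) (nat_lit 6) (nat_lit 213306477057289313716) (ZL.cons (nat_lit 1292) (nat_lit 6) (nat_lit 211372963810412383056) (ZL.cons (nat_lit 1368) (nat_lit 3) (nat_lit 105666224282712325637) (ZL.cons (nat_lit 1520) (nat_lit 6) (nat_lit 209400780298597913782) (ZL.cons (nat_lit 1596) (nat_lit 6) (nat_lit 207510714739841718200) (ZL.cons (nat_lit 1672) (nat_lit 3) (nat_lit 103735496955711186659) (ZL.cons (nat_lit 1748) (nat_lit 6) (nat_lit 205661510686976160138) (ZL.cons (nat_lit 1824)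 (nat_lit 6) (nat_lit 205582847869910398706) (ZL.cons (nat_lit 1900) (nat_lit 6) (nat_lit 203735601724633946034) (ZL.cons (nat_lit 1976) (nat_lit 3) (nat_lit 101848329867993764742) (ZL.cons (nat_lit 2052) (nat_lit 6) (nat_lit 201928531065339965716) (ZL.cons (nat_lit 2128) (nat_lit 6) (nat_lit 201851410656451964312) (ZL.cons (nat_lit 2204) (nat_lit 6) (nat_lit 200046377004213689240) (ZL.cons (nat_lit 2280) (nat_lit 3) (nat_lit 100004099291986052193) (ZL.cons (nat_lit 2356) (nat_lit 6) (nat_lit 198280850922938493182) (ZL.cons (nat_lit 2432) (nat_lit 6) (nat_lit 198205242678930648666) (ZL.cons (nat_lit 2584) (nat_lit 6) (nat_lit 196441835899796208348) (ZL.cons (nat_lit 2660) (nat_lit 3) (nat_lit 98202203038014974343) (ZL.cons (nat_lit 2736) (nat_lit 6) (nat_lit 194717286714498534628) (ZL.cons (nat_lit 2812) (nat_lit 6) (nat_lit 194643160985079079222) (ZL.cons (nat_lit 2964) (nat_lit 6) (nat_lit 192920816721728647774) (ZL.cons (nat_lit 3040) (nat_lit 3) (nat_lit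 96442060408037726015) (ZL.cons (nat_lit 3116) (nat_lit 6) (nat_lit 191236697856855771824) (ZL.cons (nat_lit 3192) (nat_lit 6) (nat_lit 191164025573111207700) (ZL.cons (nat_lit 3268) (nat_lit 6) (nat_lit 189590143951689912984) (ZL.cons (nat_lit 3344) (nat_lit 6) (nat_lit 189482200709032242608) (ZL.cons (nat_lit 3420) (nat_lit 3) (nat_lit 94723112165470437114) (ZL.cons (nat_lit 3496) (nat_lit 6) (nat_lit 187837986684676172844) (ZL.cons (nat_lit 3572) (nat_lit 6) (nat_lit 187766739347671698212) (ZL.cons (nat_lit 3648) (nat_lit 6) (nat_lit 186230738710229525442) (ZL.cons (nat_lit 3724) (nat_lit 6) (nat_lit 186124912001741613306) (ZL.cons (nat_lit 3800) (nat_lit 3) (nat_lit 93044820521414253527) (ZL.cons (nat_lit 3952) (nat_lit 6) (nat_lit 184520098439289470460) (ZL.cons (nat_lit 4028) (nat_lit 6) (nat_lit 184450248108892926704) (ZL.cons (nat_lit 4104) (nat_lit 6) (nat_lit 182951669321663327656) (ZL.cons (nat_lit 4180) (nat_lit 6) (nat_lit 182847917646675178504)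 (ZL.cons (nat_lit 4256) (nat_lit 3) (nat_lit 91406669137595870500) (ZL.cons (nat_lit 4408) (nat_lit 6) (nat_lit 181282021291288118240) (ZL.cons (nat_lit 4484) (nat_lit 6) (nat_lit 181213540575213075340) (ZL.cons (nat_lit 4560) (nat_lit 6) (nat_lit 179751944965729633334) (ZL.cons (nat_lit 4636) (nat_lit 6) (nat_lit 179650227637309879264) (ZL.cons (nat_lit 4712) (nat_lit 3) (nat_lit 89808163146359136934) (ZL.cons (nat_lit 4864) (nat_lit 6) (nat_lit 178122786397584935832) (ZL.cons (nat_lit 4940) (nat_lit 6) (nat_lit 178055648440648619266) (ZL.cons (nat_lit 5016) (nat_lit 6) (nat_lit 176630617859473647030) (ZL.cons (nat_lit 5092) (nat_lit 6) (nat_lit 176530894988473888138) (ZL.cons (nat_lit 5168) (nat_lit 3) (nat_lit 88248829188064588484) (ZL.cons (nat_lit 5244) (nat_lit 6) (nat_lit 175173136858843420196) (ZL.cons (nat_lit 5320) (nat_lit 6) (nat_lit 175041467993663815886) (ZL.cons (nat_lit 5396) (nat_lit 6) (nat_lit 174975646467255662390) (ZL.cons (nat_lit 5548)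 (nat_lit 6) (nat_lit 173586783367200829932) (ZL.cons (nat_lit 5624) (nat_lit 6) (nat_lit 173489015846612831018) (ZL.cons (nat_lit 5700) (nat_lit 3) (nat_lit 86728215466274694346) (ZL.cons (nat_lit 5776) (nat_lit 6) (nat_lit 172166270644525533024) (ZL.cons (nat_lit 5852) (nat_lit 6) (nat_lit 172037183521800430762) (ZL.cons (nat_lit 5928) (nat_lit 6) (nat_lit 171972652613557143018) (ZL.cons (nat_lit 6004) (nat_lit 6) (nat_lit 170779372761825111322) (ZL.cons (nat_lit 6080) (nat_lit 6) (nat_lit 170619580146808731264) (ZL.cons (nat_lit 6156) (nat_lit 6) (nat_lit 170523729636428340172) (ZL.cons (nat_lit 6232) (nat_lit 3) (nat_lit 85245891821124247377) (ZL.cons (nat_lit 6308) (nat_lit 6) (nat_lit 169235649798745578924) (ZL.cons (nat_lit 6384) (nat_lit 6) (nat_lit 169109093796073910036) (ZL.cons (nat_lit 6460) (nat_lit 6) (nat_lit 169045828199756961270) (ZL.cons (nat_lit 6536) (nat_lit 6) (nat_lit 167884849759827419558) (ZL.cons (nat_lit 6612) (nat_lit 6) (nat_lit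 167728190333340772442) (ZL.cons (nat_lit 6688) (nat_lit 6) (nat_lit 167634219244732545880) (ZL.cons (nat_lit 6764) (nat_lit 3) (nat_lit 83801449821297721266) (ZL.cons (nat_lit 6840) (nat_lit 6) (nat_lit 166380477717459228120) (ZL.cons (nat_lit 6916) (nat_lit 6) (nat_lit 166256403205036023330) (ZL.cons (nat_lit 6992) (nat_lit 6) (nat_lit 166194378110607642186) (ZL.cons (nat_lit 7068) (nat_lit 6) (nat_lit 165065427433677950974) (ZL.cons (nat_lit 7144) (nat_lit 6) (nat_lit 164911839760651826350) (ZL.cons (nat_lit 7220) (nat_lit 6) (nat_lit 164819711242408466978) (ZL.cons (nat_lit 7296) (nat_lit 3) (nat_lit 82394502875058594591) (ZL.cons (nat_lit 7448) (nat_lit 6) (nat_lit 163600001631797843492) (ZL.cons (nat_lit 7524) (nat_lit 6) (nat_lit 163478359952951564286) (ZL.cons (nat_lit 7600) (nat_lit 6) (nat_lit 163417551036845308262) (ZL.cons (nat_lit 7676) (nat_lit 6) (nat_lit 162320374372149033980) (ZL.cons (nat_lit 7752) (nat_lit 6) (nat_lit 162169798222123421606)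 (ZL.cons (nat_lit 7828) (nat_lit 6) (nat_lit 162079476145414245748) (ZL.cons (nat_lit 7904) (nat_lit 3) (nat_lit 81024686360799633760) (ZL.cons (nat_lit 7980) (nat_lit 6) (nat_lit 161072456167093770830) (ZL.cons (nat_lit 8056) (nat_lit 6) (nat_lit 160893512888460969072) (ZL.cons (nat_lit 8132) (nat_lit 6) (nat_lit 160774256340572460046) (ZL.cons (nat_lit 8208) (nat_lit 6) (nat_lit 160714639756154561984) (ZL.cons (nat_lit 8284) (nat_lit 6) (nat_lit 159649003447911790042) (ZL.cons (nat_lit 8360) (nat_lit 6) (nat_lit 159501379771416091632) (ZL.cons (nat_lit 8436) (nat_lit 6) (nat_lit 159412828715818860402) (ZL.cons (nat_lit 8512) (nat_lit 3) (nat_lit 79691657777607970284) (ZL.cons (nat_lit 8588) (nat_lit 6) (nat_lit 158435781857558022088) (ZL.cons (nat_lit 8664) (nat_lit 6) (nat_lit 158260347270663118404) (ZL.cons (nat_lit 8740) (nat_lit 6) (nat_lit 158143429086458697790) (ZL.cons (nat_lit 8816) (nat_lit 6) (nat_lit 158084981454676444788) (ZL.cons (nat_lit 8892)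 (nat_lit 6) (nat_lit 157050672158901480366) (ZL.cons (nat_lit 8968) (nat_lit 6) (nat_lit 156905943064297854478) (ZL.cons (nat_lit 9044) (nat_lit 6) (nat_lit 156819128303908412092) (ZL.cons (nat_lit 9120) (nat_lit 3) (nat_lit 78395096916364539462) (ZL.cons (nat_lit 9196) (nat_lit 6) (nat_lit 155871880053734408252) (ZL.cons (nat_lit 9272) (nat_lit 6) (nat_lit 155699885360700188954) (ZL.cons (nat_lit 9348) (nat_lit 6) (nat_lit 155585259689911541294) (ZL.cons (nat_lit 9424) (nat_lit 6) (nat_lit 155527958090125018742) (ZL.cons (nat_lit 9500) (nat_lit 6) (nat_lit 154723508683748111054) (ZL.cons (nat_lit 9576) (nat_lit 6) (nat_lit 154524783011860368808) (ZL.cons (nat_lit 9652) (nat_lit 6) (nat_lit 154382891742641127738) (ZL.cons (nat_lit 9728) (nat_lit 6) (nat_lit 154297779232455399912) (ZL.cons (nat_lit 9804) (nat_lit 3) (nat_lit 77134706051924105264) (ZL.cons (nat_lit 9880) (nat_lit 6) (nat_lit 153380175193327868614) (ZL.cons (nat_lit 9956) (nat_lit 6) (nat_lit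 153211552945255104596) (ZL.cons (nat_lit 10032) (nat_lit 6) (nat_lit 153099174836638783360) (ZL.cons (nat_lit 10108) (nat_lit 6) (nat_lit 153042996797632388702) (ZL.cons (nat_lit 10184) (nat_lit 6) (nat_lit 152265613039291499160) (ZL.cons (nat_lit 10260) (nat_lit 6) (nat_lit 152070783949205477348) (ZL.cons (nat_lit 10336) (nat_lit 6) (nat_lit 151931674861735633164) (ZL.cons (nat_lit 10412) (nat_lit 6) (nat_lit 151848231224298645096) (ZL.cons (nat_lit 10488) (nat_lit 3) (nat_lit 75910210156949719911) (ZL.cons (nat_lit 10640) (nat_lit 6) (nat_lit 150960137394101638298) (ZL.cons (nat_lit 10716) (nat_lit 6) (nat_lit 150794821464618536320) (ZL.cons (nat_lit 10792) (nat_lit 6) (nat_lit 150684646848328025304) (ZL.cons (nat_lit 10868) (nat_lit 6) (nat_lit 150629570339498226620) (ZL.cons (nat_lit 10944) (nat_lit 6) (nat_lit 149879177732274919272) (ZL.cons (nat_lit 11020) (nat_lit 6) (nat_lit 149688168820425878282) (ZL.cons (nat_lit 11096) (nat_lit 6) (nat_lit 149551787362122109472)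 (ZL.cons (nat_lit 11172) (nat_lit 6) (nat_lit 149469979874438787840) (ZL.cons (nat_lit 11248) (nat_lit 3) (nat_lit 74721357138004097215) (ZL.cons (nat_lit 11324) (nat_lit 6) (nat_lit 148827481057975584306) (ZL.cons (nat_lit 11400) (nat_lit 6) (nat_lit 148611282947728563890) (ZL.cons (nat_lit 11476) (nat_lit 6) (nat_lit 148449208507058856068) (ZL.cons (nat_lit 11552) (nat_lit 6) (nat_lit 148341194177362276642) (ZL.cons (nat_lit 11628) (nat_lit 6) (nat_lit 148287197600078160284) (ZL.cons (nat_lit 11704) (nat_lit 6) (nat_lit 147563741538341221648) (ZL.cons (nat_lit 11780) (nat_lit 6) (nat_lit 147376477899273534400) (ZL.cons (nat_lit 11856) (nat_lit 6) (nat_lit 147242770587211015962) (ZL.cons (nat_lit 11932) (nat_lit 6) (nat_lit 147162567167913641810) (ZL.cons (nat_lit 12008) (nat_lit 3) (nat_lit 73567918094530059431) (ZL.cons (nat_lit 12084) (nat_lit 6) (nat_lit 146545133791711150636) (ZL.cons (nat_lit 12160) (nat_lit 6) (nat_lit 146333174860096424738) (ZL.cons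 (nat_lit 12236) (nat_lit 6) (nat_lit 146174278349635926874) (ZL.cons (nat_lit 12312) (nat_lit 6) (nat_lit 146068381947972613710) (ZL.cons (nat_lit 12388) (nat_lit 6) (nat_lit 146015444127105832968) (ZL.cons (nat_lit 12464) (nat_lit 6) (nat_lit 145555060253820064554) (ZL.cons (nat_lit 12540) (nat_lit 6) (nat_lit 145318890251080790956) (ZL.cons (nat_lit 12616) (nat_lit 6) (nat_lit 145135298448073254442) (ZL.cons (nat_lit 12692) (nat_lit 6) (nat_lit 145004212848011961852) (ZL.cons (nat_lit 12768) (nat_lit 6) (nat_lit 144925582044779242098) (ZL.cons (nat_lit 12844) (nat_lit 3) (nat_lit 72449687601382992152) (ZL.cons (nat_lit 12920) (nat_lit 6) (nat_lit 144333226313556430850) (ZL.cons (nat_lit 12996) (nat_lit 6) (nat_lit 144125423439424346636) (ZL.cons (nat_lit 13072) (nat_lit 6) (nat_lit 143969642546816015396) (ZL.cons (nat_lit 13148) (nat_lit 6) (nat_lit 143865822545185316216) (ZL.cons (nat_lit 13224) (nat_lit 6) (nat_lit 143813922720806119410) (ZL.cons (nat_lit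 13300) (nat_lit 6) (nat_lit 143375796512645883884) (ZL.cons (nat_lit 13376) (nat_lit 6) (nat_lit 143144257294274047028) (ZL.cons (nat_lit 13452) (nat_lit 6) (nat_lit 142964265330541168088) (ZL.cons (nat_lit 13528) (nat_lit 6) (nat_lit 142835750036363430258) (ZL.cons (nat_lit 13604) (nat_lit 6) (nat_lit 142758661013586254026) (ZL.cons (nat_lit 13680) (nat_lit 3) (nat_lit 71366484015610157507) (ZL.cons (nat_lit 13756) (nat_lit 6) (nat_lit 142191415241585041764) (ZL.cons (nat_lit 13832) (nat_lit 6) (nat_lit 141987686933612410182) (ZL.cons (nat_lit 13908) (nat_lit 6) (nat_lit 141834960568310124652) (ZL.cons (nat_lit 13984) (nat_lit 6) (nat_lit 141733176252985909770) (ZL.cons (nat_lit 14060) (nat_lit 6) (nat_lit 141682294072221991332) (ZL.cons (nat_lit 14136) (nat_lit 6) (nat_lit 141266523617807256734) (ZL.cons (nat_lit 14212) (nat_lit 6) (nat_lit 141039524384109377460) (ZL.cons (nat_lit 14288) (nat_lit 6) (nat_lit 140863061674567339288) (ZL.cons (nat_lit 14364)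 (nat_lit 6) (nat_lit 140737066288118576706) (ZL.cons (nat_lit 14440) (nat_lit 6) (nat_lit 140661488814807619618) (ZL.cons (nat_lit 14516) (nat_lit 3) (nat_lit 70318149808204820096) (ZL.cons (nat_lit 14592) (nat_lit 6) (nat_lit 140369219720343132018) (ZL.cons (nat_lit 14668) (nat_lit 6) (nat_lit 140119405853581284420) (ZL.cons (nat_lit 14744) (nat_lit 6) (nat_lit 139919672218313998556) (ZL.cons (nat_lit 14820) (nat_lit 6) (nat_lit 139769940487625483332) (ZL.cons (nat_lit 14896) (nat_lit 6) (nat_lit 139670151943189978544) (ZL.cons (nat_lit 14972) (nat_lit 6) (nat_lit 139620267452244960468) (ZL.cons (nat_lit 15048) (nat_lit 6) (nat_lit 139226970511231845532) (ZL.cons (nat_lit 15124) (nat_lit 6) (nat_lit 139004422242900591344) (ZL.cons (nat_lit 15200) (nat_lit 6) (nat_lit 138831419586486828428) (ZL.cons (nat_lit 15276) (nat_lit 6) (nat_lit 138707894697811570998) (ZL.cons (nat_lit 15352) (nat_lit 6) (nat_lit 138633799135742005222) (ZL.cons (nat_lit 15428) (nat_lit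 3) (nat_lit 69304551921597483286) (ZL.cons (nat_lit 15504) (nat_lit 6) (nat_lit 138361868382417002196) (ZL.cons (nat_lit 15580) (nat_lit 6) (nat_lit 138116952826768132004) (ZL.cons (nat_lit 15656) (nat_lit 6) (nat_lit 137921135537290400764) (ZL.cons (nat_lit 15732) (nat_lit 6) (nat_lit 137774339722889895642) (ZL.cons (nat_lit 15808) (nat_lit 6) (nat_lit 137676507816580577224) (ZL.cons (nat_lit 15884) (nat_lit 6) (nat_lit 137627601452908990874) (ZL.cons (nat_lit 15960) (nat_lit 6) (nat_lit 137523760211399964278) (ZL.cons (nat_lit 16036) (nat_lit 6) (nat_lit 137256915942694607806) (ZL.cons (nat_lit 16112) (nat_lit 6) (nat_lit 137038731365899260562) (ZL.cons (nat_lit 16188) (nat_lit 6) (nat_lit 136869120918434787116) (ZL.cons (nat_lit 16264) (nat_lit 6) (nat_lit 136748018086400221006) (ZL.cons (nat_lit 16340) (nat_lit 6) (nat_lit 136675375378488882014) (ZL.cons (nat_lit 16416) (nat_lit 3) (nat_lit 68325582153682167157) (ZL.cons (nat_lit 16492) (nat_lit 6) (nat_lit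 136423974321313715408) (ZL.cons (nat_lit 16568) (nat_lit 6) (nat_lit 136183861031461881884) (ZL.cons (nat_lit 16644) (nat_lit 6) (nat_lit 135991883296679792434) (ZL.cons (nat_lit 16720) (nat_lit 6) (nat_lit 135847965831581258000) (ZL.cons (nat_lit 16796) (nat_lit 6) (nat_lit 135752052197944671316) (ZL.cons (nat_lit 16872) (nat_lit 6) (nat_lit 135704104782580370974) (ZL.cons (nat_lit 16948) (nat_lit 6) (nat_lit 135617801318852364262) (ZL.cons (nat_lit 17024) (nat_lit 6) (nat_lit 135356189290709857916) (ZL.cons (nat_lit 17100) (nat_lit 6) (nat_lit 135142282842871282186) (ZL.cons (nat_lit 17176) (nat_lit 6) (nat_lit 134975998090455131748) (ZL.cons (nat_lit 17252) (nat_lit 6) (nat_lit 134857269823754576740) (ZL.cons (nat_lit 17328) (nat_lit 6) (nat_lit 134786051482665028706) (ZL.cons (nat_lit 17404) (nat_lit 3) (nat_lit 67381157569212638032) (ZL.cons (nat_lit 17480) (nat_lit 6) (nat_lit 134838080789035079328) (ZL.cons (nat_lit 17556) (nat_lit 6) (nat_lit 134555391566489952570)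 (ZL.cons (nat_lit 17632) (nat_lit 6) (nat_lit 134319986380360704018) (ZL.cons (nat_lit 17708) (nat_lit 6) (nat_lit 134131772914888067300) (ZL.cons (nat_lit 17784) (nat_lit 6) (nat_lit 133990677360869896288) (ZL.cons (nat_lit 17860) (nat_lit 6) (nat_lit 133896644386716379930) (ZL.cons (nat_lit 17936) (nat_lit 6) (nat_lit 133849637116751379596) (ZL.cons (nat_lit 18012) (nat_lit 6) (nat_lit 133781153820478942352) (ZL.cons (nat_lit 18088) (nat_lit 6) (nat_lit 133524671439947073388) (ZL.cons (nat_lit 18164) (nat_lit 6) (nat_lit 133314959236183763848) (ZL.cons (nat_lit 18240) (nat_lit 6) (nat_lit 133151934969109106556) (ZL.cons (nat_lit 18316) (nat_lit 6) (nat_lit 133035534707637974194) (ZL.cons (nat_lit 18392) (nat_lit 6) (nat_lit 132965712804609005536) (ZL.cons (nat_lit 18468) (nat_lit 3) (nat_lit 66471220939441878922) (ZL.cons (nat_lit 18544) (nat_lit 6) (nat_lit 133033172430031332750) (ZL.cons (nat_lit 18620) (nat_lit 6) (nat_lit 132756026133418463378) (ZL.cons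 (nat_lit 18696) (nat_lit 6) (nat_lit 132525236735252533426) (ZL.cons (nat_lit 18772) (nat_lit 6) (nat_lit 132340713729887203312) (ZL.cons (nat_lit 18848) (nat_lit 6) (nat_lit 132202384755359584670) (ZL.cons (nat_lit 18924) (nat_lit 6) (nat_lit 132110195565013000008) (ZL.cons (nat_lit 19000) (nat_lit 6) (nat_lit 132064110006223783992) (ZL.cons (nat_lit 19076) (nat_lit 6) (nat_lit 132311154069111654112) (ZL.cons (nat_lit 19152) (nat_lit 6) (nat_lit 132013749031242901990) (ZL.cons (nat_lit 19228) (nat_lit 6) (nat_lit 131762295716995971630) (ZL.cons (nat_lit 19304) (nat_lit 6) (nat_lit 131556695517228021104) (ZL.cons (nat_lit 19380) (nat_lit 6) (nat_lit 131396867804409729640) (ZL.cons (nat_lit 19456) (nat_lit 6) (nat_lit 131282749901006658698) (ZL.cons (nat_lit 19532) (nat_lit 6) (nat_lit 131214297054899826678) (ZL.cons (nat_lit 19608) (nat_lit 3) (nat_lit 65595741210917929177) (ZL.cons (nat_lit 19684) (nat_lit 6) (nat_lit 131297549044360712532) (ZL.cons (nat_lit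 19760) (nat_lit 6) (nat_lit 131025836988857899422) (ZL.cons (nat_lit 19836) (nat_lit 6) (nat_lit 130799572873008948488) (ZL.cons (nat_lit 19912) (nat_lit 6) (nat_lit 130618667965788036612) (ZL.cons (nat_lit 19988) (nat_lit 6) (nat_lit 130483051324094292848) (ZL.cons (nat_lit 20064) (nat_lit 6) (nat_lit 130392669764930974548) (ZL.cons (nat_lit 20140) (nat_lit 6) (nat_lit 130347487844549390220) (ZL.cons (nat_lit 20216) (nat_lit 6) (nat_lit 130607145310031941202) (ZL.cons (nat_lit 20292) (nat_lit 6) (nat_lit 130315571743493948924) (ZL.cons (nat_lit 20368) (nat_lit 6) (nat_lit 130069048886389115240) (ZL.cons (nat_lit 20444) (nat_lit 6) (nat_lit 129867480063087202956) (ZL.cons (nat_lit 20520) (nat_lit 6) (nat_lit 129710786226990838780) (ZL.cons (nat_lit 20596) (nat_lit 6) (nat_lit 129598905929536847658) (ZL.cons (nat_lit 20672) (nat_lit 6) (nat_lit 129531795296098777050) (ZL.cons (nat_lit 20748) (nat_lit 3) (nat_lit 64754714004390580523) (ZL.cons (nat_lit 20824)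 (nat_lit 6) (nat_lit 129942267081694106128) (ZL.cons (nat_lit 20900) (nat_lit 6) (nat_lit 129631221445513781334) (ZL.cons (nat_lit 20976) (nat_lit 6) (nat_lit 129364837077373768482) (ZL.cons (nat_lit 21052) (nat_lit 6) (nat_lit 129143009512815973448) (ZL.cons (nat_lit 21128) (nat_lit 6) (nat_lit 128965651760638608864) (ZL.cons (nat_lit 21204) (nat_lit 6) (nat_lit 128832694268781997330) (ZL.cons (nat_lit 21280) (nat_lit 6) (nat_lit 128744084897053253900) (ZL.cons (nat_lit 21356) (nat_lit 6) (nat_lit 128699788896679151616) (ZL.cons (nat_lit 21432) (nat_lit 6) (nat_lit 129302653622787074830) (ZL.cons (nat_lit 21508) (nat_lit 6) (nat_lit 128972517722251522078) (ZL.cons (nat_lit 21584) (nat_lit 6) (nat_lit 128686661284469176710) (ZL.cons (nat_lit 21660) (nat_lit 6) (nat_lit 128444972208876202508) (ZL.cons (nat_lit 21736) (nat_lit 6) (nat_lit 128247355715442955174) (ZL.cons (nat_lit 21812) (nat_lit 6) (nat_lit 128093734307505343232) (ZL.cons (nat_lit 21888) (nat_lit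 6) (nat_lit 127984047741373979390) (ZL.cons (nat_lit 21964) (nat_lit 6) (nat_lit 127918253002709204284) (ZL.cons (nat_lit 22040) (nat_lit 3) (nat_lit 63948162144826359002) (ZL.cons (nat_lit 22116) (nat_lit 6) (nat_lit 128339202258521578110) (ZL.cons (nat_lit 22192) (nat_lit 6) (nat_lit 128034255556384004784) (ZL.cons (nat_lit 22268) (nat_lit 6) (nat_lit 127773094411148698066) (ZL.cons (nat_lit 22344) (nat_lit 6) (nat_lit 127555616406680271564) (ZL.cons (nat_lit 22420) (nat_lit 6) (nat_lit 127381736257486776872) (ZL.cons (nat_lit 22496) (nat_lit 6) (nat_lit 127251385775274412622) (ZL.cons (nat_lit 22572) (nat_lit 6) (nat_lit 127164513842207017104) (ZL.cons (nat_lit 22648) (nat_lit 6) (nat_lit 127121086390859858002) (ZL.cons (nat_lit 22724) (nat_lit 6) (nat_lit 127731026695318565142) (ZL.cons (nat_lit 22800) (nat_lit 6) (nat_lit 127407364047734689896) (ZL.cons (nat_lit 22876) (nat_lit 6) (nat_lit 127127112638144155220) (ZL.cons (nat_lit 22952) (nat_lit 6) (nat_lit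 126890162564033396202) (ZL.cons (nat_lit 23028) (nat_lit 6) (nat_lit 126696420903804722342) (ZL.cons (nat_lit 23104) (nat_lit 6) (nat_lit 126545811680336475342) (ZL.cons (nat_lit 23180) (nat_lit 6) (nat_lit 126438275831188079416) (ZL.cons (nat_lit 23256) (nat_lit 6) (nat_lit 126373771185438299902) (ZL.cons (nat_lit 23332) (nat_lit 3) (nat_lit 63176136223573813540) (ZL.cons (nat_lit 23408) (nat_lit 6) (nat_lit 127147752532421619246) (ZL.cons (nat_lit 23484) (nat_lit 6) (nat_lit 126805740918713918588) (ZL.cons (nat_lit 23560) (nat_lit 6) (nat_lit 126506773563677081992) (ZL.cons (nat_lit 23636) (nat_lit 6) (nat_lit 126250733225211095016) (ZL.cons (nat_lit 23712) (nat_lit 6) (nat_lit 126037519495340088640) (ZL.cons (nat_lit 23788) (nat_lit 6) (nat_lit 125867048760836662472) (ZL.cons (nat_lit 23864) (nat_lit 6) (nat_lit 125739254170432383796) (ZL.cons (nat_lit 23940) (nat_lit 6) (nat_lit 125654085608601603874) (ZL.cons (nat_lit 24016) (nat_lit 6) (nat_lit 125611509675908310640)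 (ZL.cons (nat_lit 24092) (nat_lit 6) (nat_lit 126229150238682859186) (ZL.cons (nat_lit 24168) (nat_lit 6) (nat_lit 125911833917522197178) (ZL.cons (nat_lit 24244) (nat_lit 6) (nat_lit 125637077633609908282) (ZL.cons (nat_lit 24320) (nat_lit 6) (nat_lit 125404773639383673948) (ZL.cons (nat_lit 24396) (nat_lit 6) (nat_lit 125214830835237915264) (ZL.cons (nat_lit 24472) (nat_lit 6) (nat_lit 125067174733798457420) (ZL.cons (nat_lit 24548) (nat_lit 6) (nat_lit 124961747430711794748) (ZL.cons (nat_lit 24624) (nat_lit 6) (nat_lit 124898507581937501106) (ZL.cons (nat_lit 24700) (nat_lit 3) (nat_lit 62438715193767440347) (ZL.cons (nat_lit 24776) (nat_lit 6) (nat_lit 125677365893649342644) (ZL.cons (nat_lit 24852) (nat_lit 6) (nat_lit 125342060390014341998) (ZL.cons (nat_lit 24928) (nat_lit 6) (nat_lit 125048955139978227690) (ZL.cons (nat_lit 25004) (nat_lit 6) (nat_lit 124797935200305691436) (ZL.cons (nat_lit 25080) (nat_lit 6) (nat_lit 124588902131804704794) (ZL.cons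 (nat_lit 25156) (nat_lit 6) (nat_lit 124421773960722914434) (ZL.cons (nat_lit 25232) (nat_lit 6) (nat_lit 124296485146601072594) (ZL.cons (nat_lit 25308) (nat_lit 6) (nat_lit 124212986556570896202) (ZL.cons (nat_lit 25384) (nat_lit 6) (nat_lit 124171245446087275382) (ZL.cons (nat_lit 25460) (nat_lit 6) (nat_lit 125150171497595708762) (ZL.cons (nat_lit 25536) (nat_lit 6) (nat_lit 124797229540554493764) (ZL.cons (nat_lit 25612) (nat_lit 6) (nat_lit 124486135108044040818) (ZL.cons (nat_lit 25688) (nat_lit 6) (nat_lit 124216766202247679152) (ZL.cons (nat_lit 25764) (nat_lit 6) (nat_lit 123989017188300390590) (ZL.cons (nat_lit 25840) (nat_lit 6) (nat_lit 123802798752863372272) (ZL.cons (nat_lit 25916) (nat_lit 6) (nat_lit 123658037869099197916) (ZL.cons (nat_lit 25992) (nat_lit 6) (nat_lit 123554677768033842356) (ZL.cons (nat_lit 26068) (nat_lit 6) (nat_lit 123492677916294338786) (ZL.cons (nat_lit 26144) (nat_lit 3) (nat_lit 61736007000106669189) (ZL.cons (nat_lit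 26220) (nat_lit 6) (nat_lit 124647360307621544350) (ZL.cons (nat_lit 26296) (nat_lit 6) (nat_lit 124277127709986001556) (ZL.cons (nat_lit 26372) (nat_lit 6) (nat_lit 123948396824069334258) (ZL.cons (nat_lit 26448) (nat_lit 6) (nat_lit 123661038735798633954) (ZL.cons (nat_lit 26524) (nat_lit 6) (nat_lit 123414940755727519980) (ZL.cons (nat_lit 26600) (nat_lit 6) (nat_lit 123210006374844199742) (ZL.cons (nat_lit 26676) (nat_lit 6) (nat_lit 123046155226724797428) (ZL.cons (nat_lit 26752) (nat_lit 6) (nat_lit 122923323056017109352) (ZL.cons (nat_lit 26828) (nat_lit 6) (nat_lit 122841461693242426614) (ZL.cons (nat_lit 26904) (nat_lit 6) (nat_lit 122800539035905543456) (ZL.cons (nat_lit 26980) (nat_lit 6) (nat_lit 123781550936806681652) (ZL.cons (nat_lit 27056) (nat_lit 6) (nat_lit 123435529410295686558) (ZL.cons (nat_lit 27132) (nat_lit 6) (nat_lit 123130534868618771902) (ZL.cons (nat_lit 27208) (nat_lit 6) (nat_lit 122866447706073319290) (ZL.cons (nat_lit 27284)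 (nat_lit 6) (nat_lit 122643164359066173640) (ZL.cons (nat_lit 27360) (nat_lit 6) (nat_lit 122460597265500469406) (ZL.cons (nat_lit 27436) (nat_lit 6) (nat_lit 122318674830437553372) (ZL.cons (nat_lit 27512) (nat_lit 6) (nat_lit 122217341398020538118) (ZL.cons (nat_lit 27588) (nat_lit 6) (nat_lit 122156557229648475792) (ZL.cons (nat_lit 27664) (nat_lit 3) (nat_lit 61068149244196296521) (ZL.cons (nat_lit 27740) (nat_lit 6) (nat_lit 123310304877183914710) (ZL.cons (nat_lit 27816) (nat_lit 6) (nat_lit 122947331742247108052) (ZL.cons (nat_lit 27892) (nat_lit 6) (nat_lit 122625046559975865600) (ZL.cons (nat_lit 27968) (nat_lit 6) (nat_lit 122343322944024198636) (ZL.cons (nat_lit 28044) (nat_lit 6) (nat_lit 122102050414542714348) (ZL.cons (nat_lit 28120) (nat_lit 6) (nat_lit 121901134354853184702) (ZL.cons (nat_lit 28196) (nat_lit 6) (nat_lit 121740495974343966748) (ZL.cons (nat_lit 28272) (nat_lit 6) (nat_lit 121620072277571723536) (ZL.cons (nat_lit 28348) (nat_lit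 6) (nat_lit 121539816039557328694) (ZL.cons (nat_lit 28424) (nat_lit 6) (nat_lit 121499695787266266776) (ZL.cons (nat_lit 28500) (nat_lit 6) (nat_lit 122863204728741378074) (ZL.cons (nat_lit 28576) (nat_lit 6) (nat_lit 122483612369857697334) (ZL.cons (nat_lit 28652) (nat_lit 6) (nat_lit 122144375579160643318) (ZL.cons (nat_lit 28728) (nat_lit 6) (nat_lit 121845361322614648558) (ZL.cons (nat_lit 28804) (nat_lit 6) (nat_lit 121586452339726949918) (ZL.cons (nat_lit 28880) (nat_lit 6) (nat_lit 121367547097563081634) (ZL.cons (nat_lit 28956) (nat_lit 6) (nat_lit 121188559750930038268) (ZL.cons (nat_lit 29032) (nat_lit 6) (nat_lit 121049420108711493136) (ZL.cons (nat_lit 29108) (nat_lit 6) (nat_lit 120950073606341870336) (ZL.cons (nat_lit 29184) (nat_lit 6) (nat_lit 120890481284408475902) (ZL.cons (nat_lit 29260) (nat_lit 3) (nat_lit 60435309886686648367) (ZL.cons (nat_lit 29336) (nat_lit 6) (nat_lit 122440075158087525654) (ZL.cons (nat_lit 29412) (nat_lit 6) (nat_lit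 122044189442393184048) (ZL.cons (nat_lit 29488) (nat_lit 6) (nat_lit 121688333427749255950) (ZL.cons (nat_lit 29564) (nat_lit 6) (nat_lit 121372367562777449626) (ZL.cons (nat_lit 29640) (nat_lit 6) (nat_lit 121096167939295423190) (ZL.cons (nat_lit 29716) (nat_lit 6) (nat_lit 120859626243725340554) (ZL.cons (nat_lit 29792) (nat_lit 6) (nat_lit 120662649714617958550) (ZL.cons (nat_lit 29868) (nat_lit 6) (nat_lit 120505161106275588006) (ZL.cons (nat_lit 29944) (nat_lit 6) (nat_lit 120387098658459663286) (ZL.cons (nat_lit 30020) (nat_lit 6) (nat_lit 120308416072171040894) (ZL.cons (nat_lit 30096) (nat_lit 6) (nat_lit 120269082491493529210) (ZL.cons (nat_lit 30172) (nat_lit 6) (nat_lit 122040750232057395156) (ZL.cons (nat_lit 30248) (nat_lit 6) (nat_lit 121628890637136915446) (ZL.cons (nat_lit 30324) (nat_lit 6) (nat_lit 121256741265682326482) (ZL.cons (nat_lit 30400) (nat_lit 6) (nat_lit 120924156176763646076) (ZL.cons (nat_lit 30476) (nat_lit 6) (nat_lit 120631004944855808076)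 (ZL.cons (nat_lit 30552) (nat_lit 6) (nat_lit 120377172608691397644) (ZL.cons (nat_lit 30628) (nat_lit 6) (nat_lit 120162559626177801288) (ZL.cons (nat_lit 30704) (nat_lit 6) (nat_lit 119987081835361092106) (ZL.cons (nat_lit 30780) (nat_lit 6) (nat_lit 119850670421421341974) (ZL.cons (nat_lit 30856) (nat_lit 6) (nat_lit 119753271889686417662) (ZL.cons (nat_lit 30932) (nat_lit 6) (nat_lit 119694848044653678020) (ZL.cons (nat_lit 31008) (nat_lit 3) (nat_lit 59837687987505672752) (ZL.cons (nat_lit 31084) (nat_lit 6) (nat_lit 121237553091812320442) (ZL.cons (nat_lit 31160) (nat_lit 6) (nat_lit 120849429841131593374) (ZL.cons (nat_lit 31236) (nat_lit 6) (nat_lit 120500551395402252102) (ZL.cons (nat_lit 31312) (nat_lit 6) (nat_lit 120190780939547540020) (ZL.cons (nat_lit 31388) (nat_lit 6) (nat_lit 119919996994957318024) (ZL.cons (nat_lit 31464) (nat_lit 6) (nat_lit 119688093371849393872) (ZL.cons (nat_lit 31540) (nat_lit 6) (nat_lit 119494979127626470338) (ZL.cons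 (nat_lit 31616) (nat_lit 6) (nat_lit 119340578531212381568) (ZL.cons (nat_lit 31692) (nat_lit 6) (nat_lit 119224831033353631844) (ZL.cons (nat_lit 31768) (nat_lit 6) (nat_lit 119147691242874590282) (ZL.cons (nat_lit 31844) (nat_lit 6) (nat_lit 119109128908877029808) (ZL.cons (nat_lit 31920) (nat_lit 6) (nat_lit 120870023340715350172) (ZL.cons (nat_lit 31996) (nat_lit 6) (nat_lit 120466239424126644572) (ZL.cons (nat_lit 32072) (nat_lit 6) (nat_lit 120101387099171165196) (ZL.cons (nat_lit 32148) (nat_lit 6) (nat_lit 119775323286505792248) (ZL.cons (nat_lit 32224) (nat_lit 6) (nat_lit 119487920117968696170) (ZL.cons (nat_lit 32300) (nat_lit 6) (nat_lit 119239064886434960454) (ZL.cons (nat_lit 32376) (nat_lit 6) (nat_lit 119028660001617709124) (ZL.cons (nat_lit 32452) (nat_lit 6) (nat_lit 118856622951797406002) (ZL.cons (nat_lit 32528) (nat_lit 6) (nat_lit 118722886271464317640) (ZL.cons (nat_lit 32604) (nat_lit 6) (nat_lit 118627397514861450666) (ZL.cons (nat_lit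 32680) (nat_lit 6) (nat_lit 118570119235417588272) (ZL.cons (nat_lit 32756) (nat_lit 3) (nat_lit 59275514485531180157) (ZL.cons (nat_lit 32832) (nat_lit 6) (nat_lit 120526157254531848964) (ZL.cons (nat_lit 32908) (nat_lit 6) (nat_lit 120107019743915713430) (ZL.cons (nat_lit 32984) (nat_lit 6) (nat_lit 119726506753052255522) (ZL.cons (nat_lit 33060) (nat_lit 6) (nat_lit 119384469061160744470) (ZL.cons (nat_lit 33136) (nat_lit 6) (nat_lit 119080772535812987526) (ZL.cons (nat_lit 33212) (nat_lit 6) (nat_lit 118815298080332377728) (ZL.cons (nat_lit 33288) (nat_lit 6) (nat_lit 118587941587089314834) (ZL.cons (nat_lit 33364) (nat_lit 6) (nat_lit 118398613896674683916) (ZL.cons (nat_lit 33440) (nat_lit 6) (nat_lit 118247240762935381202) (ZL.cons (nat_lit 33516) (nat_lit 6) (nat_lit 118133762823858175590) (ZL.cons (nat_lit 33592) (nat_lit 6) (nat_lit 118058135578290487784) (ZL.cons (nat_lit 33668) (nat_lit 6) (nat_lit 118020329368488957906) (ZL.cons (nat_lit 33744)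 (nat_lit 6) (nat_lit 120205819983816254658) (ZL.cons (nat_lit 33820) (nat_lit 6) (nat_lit 119771629930035972130) (ZL.cons (nat_lit 33896) (nat_lit 6) (nat_lit 119375763345145084288) (ZL.cons (nat_lit 33972) (nat_lit 6) (nat_lit 119018064987345594704) (ZL.cons (nat_lit 34048) (nat_lit 6) (nat_lit 118698394582771699656) (ZL.cons (nat_lit 34124) (nat_lit 6) (nat_lit 118416626770480428992) (ZL.cons (nat_lit 34200) (nat_lit 6) (nat_lit 118172651053290492016) (ZL.cons (nat_lit 34276) (nat_lit 6) (nat_lit 117966371754450049534) (ZL.cons (nat_lit 34352) (nat_lit 6) (nat_lit 117797707980116419024) (ZL.cons (nat_lit 34428) (nat_lit 6) (nat_lit 117666593587632999060) (ZL.cons (nat_lit 34504) (nat_lit 6) (nat_lit 117572977159590972616) (ZL.cons (nat_lit 34580) (nat_lit 6) (nat_lit 117516821983665617326) (ZL.cons (nat_lit 34656) (nat_lit 3) (nat_lit 58749053019109657703) (ZL.cons (nat_lit 34732) (nat_lit 6) (nat_lit 119635238576675118692) (ZL.cons (nat_lit 34808) (nat_lit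 6) (nat_lit 119908885906109463104) (ZL.cons (nat_lit 34884) (nat_lit 6) (nat_lit 119459938457070212934) (ZL.cons (nat_lit 34960) (nat_lit 6) (nat_lit 119049019329015178098) (ZL.cons (nat_lit 35036) (nat_lit 6) (nat_lit 118675967377188258580) (ZL.cons (nat_lit 35112) (nat_lit 6) (nat_lit 118340636306706385000) (ZL.cons (nat_lit 35188) (nat_lit 6) (nat_lit 118042894615188976232) (ZL.cons (nat_lit 35264) (nat_lit 6) (nat_lit 117782625541188378390) (ZL.cons (nat_lit 35340) (nat_lit 6) (nat_lit 117559727018401061826) (ZL.cons (nat_lit 35416) (nat_lit 6) (nat_lit 117374111635641619752) (ZL.cons (nat_lit 35492) (nat_lit 6) (nat_lit 117225706602563871992) (ZL.cons (nat_lit 35568) (nat_lit 6) (nat_lit 117114453721115631196) (ZL.cons (nat_lit 35644) (nat_lit 6) (nat_lit 117040309362715937268) (ZL.cons (nat_lit 35720) (nat_lit 6) (nat_lit 117003244451145809936) (ZL.cons (nat_lit 35796) (nat_lit 3) (nat_lit 58760693927333494616) (ZL.cons (nat_lit 35872) (nat_lit 6) (nat_lit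 117532795801187633424) (ZL.cons (nat_lit 35948) (nat_lit 6) (nat_lit 117567024114454083896) (ZL.cons (nat_lit 36024) (nat_lit 6) (nat_lit 117624086217334288282) (ZL.cons (nat_lit 36100) (nat_lit 6) (nat_lit 117704004487123493718) (ZL.cons (nat_lit 36176) (nat_lit 6) (nat_lit 117806810264319656754) (ZL.cons (nat_lit 36252) (nat_lit 6) (nat_lit 117932543864913834708) (ZL.cons (nat_lit 36328) (nat_lit 6) (nat_lit 118081254596200378242) (ZL.cons (nat_lit 36404) (nat_lit 6) (nat_lit 118253000776113125214) (ZL.cons (nat_lit 36480) (nat_lit 6) (nat_lit 118447849756095178660) (ZL.cons (nat_lit 36556) (nat_lit 6) (nat_lit 118665877947511237428) (ZL.cons (nat_lit 36632) (nat_lit 6) (nat_lit 118907170851612837224) (ZL.cons (nat_lit 36708) (nat_lit 6) (nat_lit 119171823093068253190) (ZL.cons (nat_lit 36784) (nat_lit 6) (nat_lit 118746146569754250712) (ZL.cons (nat_lit 36860) (nat_lit 6) (nat_lit 118358042074763184200) (ZL.cons (nat_lit 36936) (nat_lit 6) (nat_lit 118007357410253880686)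 (ZL.cons (nat_lit 37012) (nat_lit 6) (nat_lit 117693955052828493386) (ZL.cons (nat_lit 37088) (nat_lit 6) (nat_lit 117417712099601757440) (ZL.cons (nat_lit 37164) (nat_lit 6) (nat_lit 117178520220003780010) (ZL.cons (nat_lit 37240) (nat_lit 6) (nat_lit 116976285613297463854) (ZL.cons (nat_lit 37316) (nat_lit 6) (nat_lit 116810928971793904530) (ZL.cons (nat_lit 37392) (nat_lit 6) (nat_lit 116682385449751335938) (ZL.cons (nat_lit 37468) (nat_lit 6) (nat_lit 116590604637945427658) (ZL.cons (nat_lit 37544) (nat_lit 6) (nat_lit 116535550543900961688) (ZL.cons (nat_lit 37620) (nat_lit 3) (nat_lit 58258600788888568138) (ZL.cons (nat_lit 37696) (nat_lit 6) (nat_lit 116939646840957458466) (ZL.cons (nat_lit 37772) (nat_lit 6) (nat_lit 116962690892929159732) (ZL.cons (nat_lit 37848) (nat_lit 6) (nat_lit 117008788033755688422) (ZL.cons (nat_lit 37924) (nat_lit 6) (nat_lit 117077956340747172590) (ZL.cons (nat_lit 38000) (nat_lit 6) (nat_lit 117170222938729883404) (ZL.cons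 (nat_lit 38076) (nat_lit 6) (nat_lit 117285624010683421922) (ZL.cons (nat_lit 38152) (nat_lit 6) (nat_lit 117424204811930122872) (ZL.cons (nat_lit 38228) (nat_lit 6) (nat_lit 117586019687882239860) (ZL.cons (nat_lit 38304) (nat_lit 6) (nat_lit 117771132095353871754) (ZL.cons (nat_lit 38380) (nat_lit 6) (nat_lit 117979614627445987822) (ZL.cons (nat_lit 38456) (nat_lit 6) (nat_lit 118211549042014310464) (ZL.cons (nat_lit 38532) (nat_lit 6) (nat_lit 118467026293731219414) (ZL.cons (nat_lit 38608) (nat_lit 6) (nat_lit 118064164403481185260) (ZL.cons (nat_lit 38684) (nat_lit 6) (nat_lit 117698427195807734752) (ZL.cons (nat_lit 38760) (nat_lit 6) (nat_lit 117369671244354917518) (ZL.cons (nat_lit 38836) (nat_lit 6) (nat_lit 117077767625220203040) (ZL.cons (nat_lit 38912) (nat_lit 6) (nat_lit 116822601866396087506) (ZL.cons (nat_lit 38988) (nat_lit 6) (nat_lit 116604073902879110484) (ZL.cons (nat_lit 39064) (nat_lit 6) (nat_lit 116422098037428677078) (ZL.cons (nat_lit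 39140) (nat_lit 6) (nat_lit 116276602906960296922) (ZL.cons (nat_lit 39216) (nat_lit 6) (nat_lit 116167531454560060846) (ZL.cons (nat_lit 39292) (nat_lit 6) (nat_lit 116094840907109380524) (ZL.cons (nat_lit 39368) (nat_lit 6) (nat_lit 116058502758511216474) (ZL.cons (nat_lit 39444) (nat_lit 3) (nat_lit 58190360230155948012) (ZL.cons (nat_lit 39520) (nat_lit 6) (nat_lit 116392356565762953098) (ZL.cons (nat_lit 39596) (nat_lit 6) (nat_lit 116427269445294732582) (ZL.cons (nat_lit 39672) (nat_lit 6) (nat_lit 116485472790232541054) (ZL.cons (nat_lit 39748) (nat_lit 6) (nat_lit 116566989425417530600) (ZL.cons (nat_lit 39824) (nat_lit 6) (nat_lit 116671851318157616896) (ZL.cons (nat_lit 39900) (nat_lit 6) (nat_lit 116800099590763678410) (ZL.cons (nat_lit 39976) (nat_lit 6) (nat_lit 116951784536675952814) (ZL.cons (nat_lit 40052) (nat_lit 6) (nat_lit 117126965640186954724) (ZL.cons (nat_lit 40128) (nat_lit 6) (nat_lit 117325711599768649240) (ZL.cons (nat_lit 40204)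 (nat_lit 6) (nat_lit 117548100355013029182) (ZL.cons (nat_lit 40280) (nat_lit 6) (nat_lit 117794219117196660978) (ZL.cons (nat_lit 40356) (nat_lit 6) (nat_lit 117413724514264242828) (ZL.cons (nat_lit 40432) (nat_lit 6) (nat_lit 117069916019647278600) (ZL.cons (nat_lit 40508) (nat_lit 6) (nat_lit 116762658806485134188) (ZL.cons (nat_lit 40584) (nat_lit 6) (nat_lit 116491832381753040122) (ZL.cons (nat_lit 40660) (nat_lit 6) (nat_lit 116257330539009924996) (ZL.cons (nat_lit 40736) (nat_lit 6) (nat_lit 116059061316748830724) (ZL.cons (nat_lit 40812) (nat_lit 6) (nat_lit 115896946962333576486) (ZL.cons (nat_lit 40888) (nat_lit 6) (nat_lit 115770923901507528846) (ZL.cons (nat_lit 40964) (nat_lit 6) (nat_lit 115680942713462520728) (ZL.cons (nat_lit 41040) (nat_lit 6) (nat_lit 115626968111458142326) (ZL.cons (nat_lit 41116) (nat_lit 3) (nat_lit 57804489464491901844) (ZL.cons (nat_lit 41192) (nat_lit 6) (nat_lit 115855797472435006660) (ZL.cons (nat_lit 41268) (nat_lit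 6) (nat_lit 115879302405446141952) (ZL.cons (nat_lit 41344) (nat_lit 6) (nat_lit 115926321489089201218) (ZL.cons (nat_lit 41420) (nat_lit 6) (nat_lit 115996873162220515068) (ZL.cons (nat_lit 41496) (nat_lit 6) (nat_lit 116090985092162880096) (ZL.cons (nat_lit 41572) (nat_lit 6) (nat_lit 116208694185555489388) (ZL.cons (nat_lit 41648) (nat_lit 6) (nat_lit 116350046602827124356) (ZL.cons (nat_lit 41724) (nat_lit 6) (nat_lit 116515097776298283682) (ZL.cons (nat_lit 41800) (nat_lit 6) (nat_lit 116703912431919348214) (ZL.cons (nat_lit 41876) (nat_lit 6) (nat_lit 116916564614653306604) (ZL.cons (nat_lit 41952) (nat_lit 6) (nat_lit 117153137717512995700) (ZL.cons (nat_lit 42028) (nat_lit 6) (nat_lit 116794571827637063830) (ZL.cons (nat_lit 42104) (nat_lit 6) (nat_lit 116472262071310772424) (ZL.cons (nat_lit 42180) (nat_lit 6) (nat_lit 116186082052551248424) (ZL.cons (nat_lit 42256) (nat_lit 6) (nat_lit 115935919543900154766) (ZL.cons (nat_lit 42332) (nat_lit 6) (nat_lit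 115721676442412922390) (ZL.cons (nat_lit 42408) (nat_lit 6) (nat_lit 115543268731187007286) (ZL.cons (nat_lit 42484) (nat_lit 6) (nat_lit 115400626446414085564) (ZL.cons (nat_lit 42560) (nat_lit 6) (nat_lit 115293693649943265882) (ZL.cons (nat_lit 42636) (nat_lit 6) (nat_lit 115222428407344559684) (ZL.cons (nat_lit 42712) (nat_lit 6) (nat_lit 115186802771464006694) (ZL.cons (nat_lit 42788) (nat_lit 3) (nat_lit 57676401598807301788) (ZL.cons (nat_lit 42864) (nat_lit 6) (nat_lit 115364672025174681794) (ZL.cons (nat_lit 42940) (nat_lit 6) (nat_lit 115400283162297096868) (ZL.cons (nat_lit 43016) (nat_lit 6) (nat_lit 115459650574133661512) (ZL.cons (nat_lit 43092) (nat_lit 6) (nat_lit 115542797542022350844) (ZL.cons (nat_lit 43168) (nat_lit 6) (nat_lit 115649756672617238868) (ZL.cons (nat_lit 43244) (nat_lit 6) (nat_lit 115780569910675421614) (ZL.cons (nat_lit 43320) (nat_lit 6) (nat_lit 115935288555505941504) (ZL.cons (nat_lit 43396) (nat_lit 6) (nat_lit 116113973281087163452)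 (ZL.cons (nat_lit 43472) (nat_lit 6) (nat_lit 116316694159860491858) (ZL.cons (nat_lit 43548) (nat_lit 6) (nat_lit 116543530690209759402) (ZL.cons (nat_lit 43624) (nat_lit 6) (nat_lit 116206463538624500354) (ZL.cons (nat_lit 43700) (nat_lit 6) (nat_lit 115905230976700829360) (ZL.cons (nat_lit 43776) (nat_lit 6) (nat_lit 115639714874022305768) (ZL.cons (nat_lit 43852) (nat_lit 6) (nat_lit 115409811106627094860) (ZL.cons (nat_lit 43928) (nat_lit 6) (nat_lit 115215429516175041652) (ZL.cons (nat_lit 44004) (nat_lit 6) (nat_lit 115056493874591459064) (ZL.cons (nat_lit 44080) (nat_lit 6) (nat_lit 114932941854173765300) (ZL.cons (nat_lit 44156) (nat_lit 6) (nat_lit 114844725003149247538) (ZL.cons (nat_lit 44232) (nat_lit 6) (nat_lit 114791808726674366752) (ZL.cons (nat_lit 44308) (nat_lit 3) (nat_lit 57387086136634076200) (ZL.cons (nat_lit 44384) (nat_lit 6) (nat_lit 114883176488644951532) (ZL.cons (nat_lit 44460) (nat_lit 6) (nat_lit 114907151520316309532) (ZL.cons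 (nat_lit 44536) (nat_lit 6) (nat_lit 114955110985632229984) (ZL.cons (nat_lit 44612) (nat_lit 6) (nat_lit 115027073692226170110) (ZL.cons (nat_lit 44688) (nat_lit 6) (nat_lit 115123067860767382438) (ZL.cons (nat_lit 44764) (nat_lit 6) (nat_lit 115243131136027843916) (ZL.cons (nat_lit 44840) (nat_lit 6) (nat_lit 115387310601644911584) (ZL.cons (nat_lit 44916) (nat_lit 6) (nat_lit 115555662798585494096) (ZL.cons (nat_lit 44992) (nat_lit 6) (nat_lit 115748253747318979918) (ZL.cons (nat_lit 45068) (nat_lit 6) (nat_lit 115965158973707617478) (ZL.cons (nat_lit 45144) (nat_lit 6) (nat_lit 115649169016524978842) (ZL.cons (nat_lit 45220) (nat_lit 6) (nat_lit 115368600370682308256) (ZL.cons (nat_lit 45296) (nat_lit 6) (nat_lit 115123343009259667414) (ZL.cons (nat_lit 45372) (nat_lit 6) (nat_lit 114913300752899635674) (ZL.cons (nat_lit 45448) (nat_lit 6) (nat_lit 114738391232089914982) (ZL.cons (nat_lit 45524) (nat_lit 6) (nat_lit 114598545854861560352) (ZL.cons (nat_lit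 45600) (nat_lit 6) (nat_lit 114493709779890168508) (ZL.cons (nat_lit 45676) (nat_lit 6) (nat_lit 114423841894989476158) (ZL.cons (nat_lit 45752) (nat_lit 6) (nat_lit 114388914800988934010) (ZL.cons (nat_lit 45828) (nat_lit 3) (nat_lit 57217313487038959950) (ZL.cons (nat_lit 45904) (nat_lit 6) (nat_lit 114446733178189199682) (ZL.cons (nat_lit 45980) (nat_lit 6) (nat_lit 114483056538054063060) (ZL.cons (nat_lit 46056) (nat_lit 6) (nat_lit 114543611298127358994) (ZL.cons (nat_lit 46132) (nat_lit 6) (nat_lit 114628421205373822116) (ZL.cons (nat_lit 46208) (nat_lit 6) (nat_lit 114737519518580607898) (ZL.cons (nat_lit 46284) (nat_lit 6) (nat_lit 114870949021399954298) (ZL.cons (nat_lit 46360) (nat_lit 6) (nat_lit 115028762039127084588) (ZL.cons (nat_lit 46436) (nat_lit 6) (nat_lit 115211020459219930974) (ZL.cons (nat_lit 46512) (nat_lit 6) (nat_lit 115417795755568725950) (ZL.cons (nat_lit 46588) (nat_lit 6) (nat_lit 115122469714467087722) (ZL.cons (nat_lit 46664)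 (nat_lit 6) (nat_lit 114862159809880299886) (ZL.cons (nat_lit 46740) (nat_lit 6) (nat_lit 114636763959492838212) (ZL.cons (nat_lit 46816) (nat_lit 6) (nat_lit 114446193772775138988) (ZL.cons (nat_lit 46892) (nat_lit 6) (nat_lit 114290374516320646254) (ZL.cons (nat_lit 46968) (nat_lit 6) (nat_lit 114169245084538593544) (ZL.cons (nat_lit 47044) (nat_lit 6) (nat_lit 114082757975691027112) (ZL.cons (nat_lit 47120) (nat_lit 6) (nat_lit 114030879273264673400) (ZL.cons (nat_lit 47196) (nat_lit 3) (nat_lit 57006794316335172802) (ZL.cons (nat_lit 47272) (nat_lit 6) (nat_lit 114018847579703168458) (ZL.cons (nat_lit 47348) (nat_lit 6) (nat_lit 114043302112007953618) (ZL.cons (nat_lit 47424) (nat_lit 6) (nat_lit 114092220766630192478) (ZL.cons (nat_lit 47500) (nat_lit 6) (nat_lit 114165622727356011408) (ZL.cons (nat_lit 47576) (nat_lit 6) (nat_lit 114263536779268047984) (ZL.cons (nat_lit 47652) (nat_lit 6) (nat_lit 114386001320033718688) (ZL.cons (nat_lit 47728) (nat_lit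 6) (nat_lit 114533064374963127710) (ZL.cons (nat_lit 47804) (nat_lit 6) (nat_lit 114704783615842521874) (ZL.cons (nat_lit 47880) (nat_lit 6) (nat_lit 114901226383550677414) (ZL.cons (nat_lit 47956) (nat_lit 6) (nat_lit 114626159083704921936) (ZL.cons (nat_lit 48032) (nat_lit 6) (nat_lit 114385710690153313268) (ZL.cons (nat_lit 48108) (nat_lit 6) (nat_lit 114179786909408184110) (ZL.cons (nat_lit 48184) (nat_lit 6) (nat_lit 114008306987045712844) (ZL.cons (nat_lit 48260) (nat_lit 6) (nat_lit 113871203676037522030) (ZL.cons (nat_lit 48336) (nat_lit 6) (nat_lit 113768423210379294732) (ZL.cons (nat_lit 48412) (nat_lit 6) (nat_lit 113699925284006066938) (ZL.cons (nat_lit 48488) (nat_lit 6) (nat_lit 113665683034985927578) (ZL.cons (nat_lit 48564) (nat_lit 3) (nat_lit 56811663463292149883) (ZL.cons (nat_lit 48640) (nat_lit 6) (nat_lit 113635675254777805144) (ZL.cons (nat_lit 48716) (nat_lit 6) (nat_lit 113672725081839965786) (ZL.cons (nat_lit 48792) (nat_lit 6) (nat_lit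 113734490937114727642) (ZL.cons (nat_lit 48868) (nat_lit 6) (nat_lit 113820997042506120026) (ZL.cons (nat_lit 48944) (nat_lit 6) (nat_lit 113932277321977041524) (ZL.cons (nat_lit 49020) (nat_lit 6) (nat_lit 114068375414852774850) (ZL.cons (nat_lit 49096) (nat_lit 6) (nat_lit 114229344692934447746) (ZL.cons (nat_lit 49172) (nat_lit 6) (nat_lit 114415248281429151064) (ZL.cons (nat_lit 49248) (nat_lit 6) (nat_lit 114160042492618574754) (ZL.cons (nat_lit 49324) (nat_lit 6) (nat_lit 113939066168709298602) (ZL.cons (nat_lit 49400) (nat_lit 6) (nat_lit 113752232652319397402) (ZL.cons (nat_lit 49476) (nat_lit 6) (nat_lit 113599468675403228056) (ZL.cons (nat_lit 49552) (nat_lit 6) (nat_lit 113480714330518862654) (ZL.cons (nat_lit 49628) (nat_lit 6) (nat_lit 113395923047334973994) (ZL.cons (nat_lit 49704) (nat_lit 6) (nat_lit 113345061574367960552) (ZL.cons (nat_lit 49780) (nat_lit 3) (nat_lit 56664054982971074494) (ZL.cons (nat_lit 49856) (nat_lit 6) (nat_lit 113260016112694115620)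 (ZL.cons (nat_lit 49932) (nat_lit 6) (nat_lit 113284959735644996480) (ZL.cons (nat_lit 50008) (nat_lit 6) (nat_lit 113334856763359680118) (ZL.cons (nat_lit 50084) (nat_lit 6) (nat_lit 113409726763300015428) (ZL.cons (nat_lit 50160) (nat_lit 6) (nat_lit 113509599096250292734) (ZL.cons (nat_lit 50236) (nat_lit 6) (nat_lit 113634512927831276854) (ZL.cons (nat_lit 50312) (nat_lit 6) (nat_lit 113784517243859274054) (ZL.cons (nat_lit 50388) (nat_lit 6) (nat_lit 113959670869556256104) (ZL.cons (nat_lit 50464) (nat_lit 6) (nat_lit 113723937150388012310) (ZL.cons (nat_lit 50540) (nat_lit 6) (nat_lit 113522051090833964116) (ZL.cons (nat_lit 50616) (nat_lit 6) (nat_lit 113353933519890364836) (ZL.cons (nat_lit 50692) (nat_lit 6) (nat_lit 113219518509098020902) (ZL.cons (nat_lit 50768) (nat_lit 6) (nat_lit 113118753346687994138) (ZL.cons (nat_lit 50844) (nat_lit 6) (nat_lit 113051598516910319830) (ZL.cons (nat_lit 50920) (nat_lit 6) (nat_lit 113018027684537634184) (ZL.cons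 (nat_lit 50996) (nat_lit 3) (nat_lit 56458088684223131995) (ZL.cons (nat_lit 51072) (nat_lit 6) (nat_lit 112928772663203639472) (ZL.cons (nat_lit 51148) (nat_lit 6) (nat_lit 112966563486807043328) (ZL.cons (nat_lit 51224) (nat_lit 6) (nat_lit 113029564659187300420) (ZL.cons (nat_lit 51300) (nat_lit 6) (nat_lit 113117800886686520652) (ZL.cons (nat_lit 51376) (nat_lit 6) (nat_lit 113231306771746860580) (ZL.cons (nat_lit 51452) (nat_lit 6) (nat_lit 113370126826480108574) (ZL.cons (nat_lit 51528) (nat_lit 6) (nat_lit 113534315490123414928) (ZL.cons (nat_lit 51604) (nat_lit 6) (nat_lit 113317672035310399092) (ZL.cons (nat_lit 51680) (nat_lit 6) (nat_lit 113134501921202652818) (ZL.cons (nat_lit 51756) (nat_lit 6) (nat_lit 112984733316382878950) (ZL.cons (nat_lit 51832) (nat_lit 6) (nat_lit 112868307488064873654) (ZL.cons (nat_lit 51908) (nat_lit 6) (nat_lit 112785178779061061242) (ZL.cons (nat_lit 51984) (nat_lit 6) (nat_lit 112735314589877714730) (ZL.cons (nat_lit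 52060) (nat_lit 3) (nat_lit 56359347682965420324) (ZL.cons (nat_lit 52136) (nat_lit 6) (nat_lit 112604024183311015800) (ZL.cons (nat_lit 52212) (nat_lit 6) (nat_lit 112629466678720914278) (ZL.cons (nat_lit 52288) (nat_lit 6) (nat_lit 112680361646989891588) (ZL.cons (nat_lit 52364) (nat_lit 6) (nat_lit 112756729046929033602) (ZL.cons (nat_lit 52440) (nat_lit 6) (nat_lit 112858598826538316456) (ZL.cons (nat_lit 52516) (nat_lit 6) (nat_lit 112986010934750920258) (ZL.cons (nat_lit 52592) (nat_lit 6) (nat_lit 113139015337099477406) (ZL.cons (nat_lit 52668) (nat_lit 6) (nat_lit 112941087827732763490) (ZL.cons (nat_lit 52744) (nat_lit 6) (nat_lit 112776266679748842628) (ZL.cons (nat_lit 52820) (nat_lit 6) (nat_lit 112644487257403407398) (ZL.cons (nat_lit 52896) (nat_lit 6) (nat_lit 112545697882491616454) (ZL.cons (nat_lit 52972) (nat_lit 6) (nat_lit 112479859814082131838) (ZL.cons (nat_lit 53048) (nat_lit 6) (nat_lit 112446947233324596890) (ZL.cons (nat_lit 53124)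 (nat_lit 3) (nat_lit 56155293471811034765) (ZL.cons (nat_lit 53200) (nat_lit 6) (nat_lit 112323434144274592526) (ZL.cons (nat_lit 53276) (nat_lit 6) (nat_lit 112361980784350064458) (ZL.cons (nat_lit 53352) (nat_lit 6) (nat_lit 112426241980177926690) (ZL.cons (nat_lit 53428) (nat_lit 6) (nat_lit 112516242932227131326) (ZL.cons (nat_lit 53504) (nat_lit 6) (nat_lit 112632018934988678054) (ZL.cons (nat_lit 53580) (nat_lit 6) (nat_lit 112773615390816591010) (ZL.cons (nat_lit 53656) (nat_lit 6) (nat_lit 112594036847573702506) (ZL.cons (nat_lit 53732) (nat_lit 6) (nat_lit 112447204882064120282) (ZL.cons (nat_lit 53808) (nat_lit 6) (nat_lit 112333061913124899404) (ZL.cons (nat_lit 53884) (nat_lit 6) (nat_lit 112251563178807436256) (ZL.cons (nat_lit 53960) (nat_lit 6) (nat_lit 112202676718823763204) (ZL.cons (nat_lit 54036) (nat_lit 3) (nat_lit 56093191681006551169) (ZL.cons (nat_lit 54112) (nat_lit 6) (nat_lit 112048345870709471668) (ZL.cons (nat_lit 54188) (nat_lit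 6) (nat_lit 112074297216027568118) (ZL.cons (nat_lit 54264) (nat_lit 6) (nat_lit 112126210083661924972) (ZL.cons (nat_lit 54340) (nat_lit 6) (nat_lit 112204104831599849826) (ZL.cons (nat_lit 54416) (nat_lit 6) (nat_lit 112308012006801318336) (ZL.cons (nat_lit 54492) (nat_lit 6) (nat_lit 112437972357178174218) (ZL.cons (nat_lit 54568) (nat_lit 6) (nat_lit 112276382996409624352) (ZL.cons (nat_lit 54644) (nat_lit 6) (nat_lit 112147187484306256480) (ZL.cons (nat_lit 54720) (nat_lit 6) (nat_lit 112050335155961363398) (ZL.cons (nat_lit 54796) (nat_lit 6) (nat_lit 111985788030069711814) (ZL.cons (nat_lit 54872) (nat_lit 6) (nat_lit 111953520794032912844) (ZL.cons (nat_lit 54948) (nat_lit 3) (nat_lit 55902046990135606222) (ZL.cons (nat_lit 55024) (nat_lit 6) (nat_lit 111817198124936785898) (ZL.cons (nat_lit 55100) (nat_lit 6) (nat_lit 111856515697813767270) (ZL.cons (nat_lit 55176) (nat_lit 6) (nat_lit 111922062117558186746) (ZL.cons (nat_lit 55252) (nat_lit 6) (nat_lit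 112013863088648375474) (ZL.cons (nat_lit 55328) (nat_lit 6) (nat_lit 112131954611465153138) (ZL.cons (nat_lit 55404) (nat_lit 6) (nat_lit 111988001704102817624) (ZL.cons (nat_lit 55480) (nat_lit 6) (nat_lit 111876096832593777548) (ZL.cons (nat_lit 55556) (nat_lit 6) (nat_lit 111796196112674696030) (ZL.cons (nat_lit 55632) (nat_lit 6) (nat_lit 111748268210729918528) (ZL.cons (nat_lit 55708) (nat_lit 3) (nat_lit 55866147165751890212) (ZL.cons (nat_lit 55784) (nat_lit 6) (nat_lit 111590582687904741026) (ZL.cons (nat_lit 55860) (nat_lit 6) (nat_lit 111617053060129199402) (ZL.cons (nat_lit 55936) (nat_lit 6) (nat_lit 111670004185116243396) (ZL.cons (nat_lit 56012) (nat_lit 6) (nat_lit 111749456828012926746) (ZL.cons (nat_lit 56088) (nat_lit 6) (nat_lit 111855442146718424628) (ZL.cons (nat_lit 56164) (nat_lit 6) (nat_lit 111728779879950416910) (ZL.cons (nat_lit 56240) (nat_lit 6) (nat_lit 111633826616867188398) (ZL.cons (nat_lit 56316) (nat_lit 6) (nat_lit 111570545120894980962)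 (ZL.cons (nat_lit 56392) (nat_lit 6) (nat_lit 111538910575760864326) (ZL.cons (nat_lit 56468) (nat_lit 3) (nat_lit 55697181018066298702) (ZL.cons (nat_lit 56544) (nat_lit 6) (nat_lit 111407728263691482326) (ZL.cons (nat_lit 56620) (nat_lit 6) (nat_lit 111447832188026003324) (ZL.cons (nat_lit 56696) (nat_lit 6) (nat_lit 111514689536165311192) (ZL.cons (nat_lit 56772) (nat_lit 6) (nat_lit 111608326526677303696) (ZL.cons (nat_lit 56848) (nat_lit 6) (nat_lit 111498615868335107542) (ZL.cons (nat_lit 56924) (nat_lit 6) (nat_lit 111420281829198753112) (ZL.cons (nat_lit 57000) (nat_lit 6) (nat_lit 111373293690037206542) (ZL.cons (nat_lit 57076) (nat_lit 3) (nat_lit 55678816512064614005) (ZL.cons (nat_lit 57152) (nat_lit 6) (nat_lit 111228459220345150268) (ZL.cons (nat_lit 57228) (nat_lit 6) (nat_lit 111255459000014097812) (ZL.cons (nat_lit 57304) (nat_lit 6) (nat_lit 111309469147500882684) (ZL.cons (nat_lit 57380) (nat_lit 6) (nat_lit 111390510843255499706) (ZL.cons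 (nat_lit 57456) (nat_lit 6) (nat_lit 111297419408860177634) (ZL.cons (nat_lit 57532) (nat_lit 6) (nat_lit 111235378726534484070) (ZL.cons (nat_lit 57608) (nat_lit 6) (nat_lit 111204364466599075604) (ZL.cons (nat_lit 57684) (nat_lit 3) (nat_lit 55539587814252288607) (ZL.cons (nat_lit 57760) (nat_lit 6) (nat_lit 111092809180614639836) (ZL.cons (nat_lit 57836) (nat_lit 6) (nat_lit 111133715183435851254) (ZL.cons (nat_lit 57912) (nat_lit 6) (nat_lit 111201909678537945280) (ZL.cons (nat_lit 57988) (nat_lit 6) (nat_lit 111125111600953284074) (ZL.cons (nat_lit 58064) (nat_lit 6) (nat_lit 111079044797853728614) (ZL.cons (nat_lit 58140) (nat_lit 3) (nat_lit 55531845601913149340) (ZL.cons (nat_lit 58216) (nat_lit 6) (nat_lit 110959818945584727648) (ZL.cons (nat_lit 58292) (nat_lit 6) (nat_lit 110987358720847054144) (ZL.cons (nat_lit 58368) (nat_lit 6) (nat_lit 111042449071283574716) (ZL.cons (nat_lit 58444) (nat_lit 6) (nat_lit 110981624872925051614) (ZL.cons (nat_lit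 58520) (nat_lit 6) (nat_lit 110951218735733474686) (ZL.cons (nat_lit 58596) (nat_lit 3) (nat_lit 55428218070945508093) (ZL.cons (nat_lit 58672) (nat_lit 6) (nat_lit 110870342365043280060) (ZL.cons (nat_lit 58748) (nat_lit 6) (nat_lit 110912066487920915710) (ZL.cons (nat_lit 58824) (nat_lit 6) (nat_lit 110866902955470371140) (ZL.cons (nat_lit 58900) (nat_lit 3) (nat_lit 55425925206153112073) (ZL.cons (nat_lit 58976) (nat_lit 6) (nat_lit 110782620227257547130) (ZL.cons (nat_lit 59052) (nat_lit 6) (nat_lit 110810710798025120158) (ZL.cons (nat_lit 59128) (nat_lit 6) (nat_lit 110780900859602005522) (ZL.cons (nat_lit 59204) (nat_lit 3) (nat_lit 55362078953325754004) (ZL.cons (nat_lit 59280) (nat_lit 6) (nat_lit 110738342254266817162) (ZL.cons (nat_lit 59356) (nat_lit 3) (nat_lit 55361792429503924760) (ZL.cons (nat_lit 59432) (nat_lit 6) (nat_lit 110694932476824925034) (ZL.cons (nat_lit 59508) (nat_lit 1) (nat_lit 18446744073709551617) ZL.nil))))))))))))))))))))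))))))))))))))))))))))))))))))))))))))))))))))))))))))))))))))))))))))))))))))))))))))))))))))))))))))))))))))))))))))))))))))))))))))))))))))))))))))))))))))))))))))))))))))))))))))))))))))))))))))))))))))))))))))))))))))))))))))))))))))))))))))))))))))))))))))))))))))))))))))))))))))))))))))))))))))))))))))))))))))))))))))))))))))))))))))))))))))))))))))))))))))))))))))))))))))))))))))))))))))))))))))))))))))))))))))))))))))))))))))))))))))))))))))))))))))))))))))))))))))))))))))))))))))))))))))))))))))))))))))))))))))))))))))))))))))))))))))))))))))))))))))))))))))))))))))))))))))))))))))))))))))))))))))))))))))))))))))))))))))))))))))))))))))))))))))))))))))))))))))))))))))))))))))))))))))))))))))))))))))))))))))))))))))))))))))))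

noncomputable def vl : XL := ⟨(nat_lit 0), (nat_lit 76), (nat_lit 208383496), (nat_lit 152), (nat_lit 23469523), (nat_lit 152), (nat_lit 23469523), (nat_lit 1), (nat_lit 4), (nat_lit 2), (nat_lit 5), (nat_lit 2), (nat_lit 4), (nat_lit 0), (nat_lit 0), (nat_lit 0)⟩

noncomputable def cp0 : Nat := (nat_lit 33420739184131400374724915492672385207943064566761189604365357825246515574515969082320098210574874469822957557047407745494142444977067961425381181151343473984333899329117376775479240002842219413166930336760371569890872913909030163012161433165767702857261282892131105500043225519942549587259294058081120779235680455002247447639853794285704318221860882913076408169959340923497395843123572550042086496048679940848115807859356102016723038603672495373325196346644365513073363202744129369592086706679455650229175124176049978763573009922037490920052040873167728302292860936439247863367693522064667156663454479392276099651775874791899834608306240158999660655295450029803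1919438339476504196564970435422664581805405471217882391637956444757100373616125213019708754931570800785033005179709505824432997488557743614933670036023191352339162604694166277956248441812016512827693410898736980794804471554835708206310836122664363304437941549926916833149008517947058969993282078067715431635522313191472659056303528408702767345747953486101083927298951116650409025699679944228584092163850727713593347484945689325917710044681527294375311937162406128242559458544396287741907647868558817021835694530399411303501634639539927842794455131655922944605442334895564484366577048080463819914280145237218786573324110842872330701029821782706735219066981344206904612944383198604137983865652671801000928078398249405096258189493943319728553624839439116658836274751400798589099707442382624370756307219377960225281620740583871419391746571588935915073274924755050408835721194150641568600785330444866351944264837617662937009260704201152443410763585221536001270161795982109828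2324111607807813226710868052645009372315237900765637683703691419598926860610510981618522974392759714423006035251527496088005320485946528353025578551135576809655254134493908136158029443156087714252560790127930458119420605864920802242425380209100091771324217808809101398046428129712109333004488082649081727347889512104403773446386221901556394533835473923736948837656277241725060424843226952822066785807783990494659980344814591939106256840612481850539852783679574930927539910170158297776006405556943770380523510244936556974140468432057227781272086479803111662288684826453484904822111051479239358725360114885049041500312611810075262278625899453964778461249536830905362160718950733558183032986415362582198725802145644093842695278425268519363291505139046674890328650040428655374398887225389364299024960470514665790014472768606875516923275587767713585891161257297091575684368577903529076410020646129815572552360184584716816939350464712852925622902727959263492035847249587154140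1979195417960368748814434062007010076347200400166646637735987625847303950095781002793893022981290045328192987834986918720877379780080381699155680221235294852526634735747141503325931450483165152671130973978923296410552723943911852835488554538330766882824259470102957976867988506316875298302234270475884538202655976363837779259966998084917146711953110480833793386761569599518033425489452379489926887627064400508655993670095601340061393921661268258355064252453507545342146033906683469929586946847559796327951870751240508089503441389836688399378627619317686564828217943623860977713150345283302029954514695490510315868772258965065285149892216064603550345126759004918957670182209165678528035491630283201567580702172688559757492550507425446855593162457451514486770399072194251562458911889965726503365652980105245357210907095570240650939867180247718774198551466407976864124067471897684971155043150206417753232509614247709707547996582675316944778416688806124624926488618290981015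4988229830234217787081381917917577455624367900661529562521969834100928821083336917980080775789380892569950285429540865529873910805904976137461670049075647188602739362103688455674217582101492505906354751015815452805733900836438943560263487428729392904373806677610911715378438888216126380064903485160344411469166743414943058068577483288706960336483778699676388343427003293570269299676278860039513052123809861951465203511245638799790370841024732274854940560255868714887098330199041485498125174529724416963913749867832060154960190868579887353283743198783908604484986975700681734574464520342573140936140361982429102066627668079612789053145097270527008417470637376737615074958877313944846128725270904223819321146278063588315256567056610324238699388737974992902031938441667543874973807991647670555861024521180937674713203989882399917175888081407214912364372678463856094598364198120395459195376044286870084810892272911501953881147105483634491645409762628473907461723105570584767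4859897547987276947452701242636237132058305377260348127908444199505041116052844825252516047188818804065011539270974204252407215002041823139740186208191733590715760686939744342394165824816456166642007549738991967018909961356092319309462524216160987465876447900810343347736915478653674324705261217363358715099814413692531465009438196907897538654473991441671971587719076175622191814514215171850482740089563472911448712010882750502987772023050556622791923212114060753650671145048907725248892685491318294629685624331801308821730504994892943061384860405751135904972955884540377069328279408925907219134986245437350435468918515141661190901396822539432829715233073178271110755315309030339358656570676139932170145077719966000984662403610638946646863605888671593144919751307541836093327018042917553355597895982479016626800325207169486855137458086603678348297254523779958996796741429450822558863038044525935346091980596265696020821442405507140142979657557921471360089619674150502067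2235804167237572937474385409637084349066206343746856401040108601670916979361385392037353565657586431523259328308817894476797029294183097577172906416466556153369574624000675391344340755531458638181848583275369341966765939022804642451573076393958758881254452089364526018402900850010605542181110225174101981274548293940220882819109459606432922340743729007681150475825721671713680772602092493551399802167122467744997992545633521160271568766101250983248685471338513504270889666590749618678745810543817763582607929870718191011391532215529294378781212449057030981300392183954353721589128148872002262661197192302071192515442449819060428111582509540347166999108594528864784511415144109908352527429104550515606716611705680202680841478173894788060475861793436073811747440668946449698876375699352730037235364186616190912361920563068730628986736531372062775746528989535081533579731825959623845918569692131119401730803113339241667636334493398599455309326290962556899280120345110348576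1659582160825319145838244528260003043853593765130345929781144909365869673525763506346436743930808903844308542898273732872919630937038906530997738429744725577857988215165992893897629768340745991516694608131256529648053408130209657823915272951626610669701610580149189279346158530083954189267630398190517102630882964620412922191754494628117213467405793737394352626829250226511695198994443309134565318639324980233103401076218876049955726955050290201084802263319189900872939255508823416869773016044516917668571580421749704707207838479175211847117530478384939253239494148812625374216921711695660844314388651583422711749569399698158171607205457373117621378663947189548289889482670519618571741846811365245515073745074837241811544995731223157891324814914174096770324256691620759443952127204170375586567150856979056786835672238712563083656315359478780650292397255605951584575684481728473941151413957943298668383182549366524705307116046962116856146232969140377764984261891377337625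5273598800778648696170072807617782105518045940649388208037146667042189582621391413316421449779527986595001976549344541222754720177071972612173220977215819500164085296818073958166657998862877966025802269790601415405676187550207606585700175892493769908777068955365965319827513058573400451202878522867042788169920829555593243571543041199092866802246714533780946125091035674999390370877823716409985366034668882747846384476190928912273236894201446845744053375096040773768079435308734089392731971215299255483245853595401556257446928710577127287447470052050392393202735360243286827617995915187330977896637858224950438038911279546378283480208970874292300279648538859550633617528877206875306839665629419217124902569584060249068039482963265399592980300782716599438791591660108206214670101600577137783927097335036232842168770021068350055593688588763460273359860825863640474324109987092936541396536090237278181806741222044354456346477032028618638042645867988414396239265363249765640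0507442393350444463059114697338881363076937216190835744544099151365974682577603332871742948355825199235654283258011423278046427074804835989199859961958145524274780261990918417456965383911651212223810613055829868871153211748490068701814079465932836370701280607137762823747256107423595803556260629978249310005691530913116559782792338270422126279299637937878178159602872164231969261113922675517520920507367521741570187840337744105338221733012651199369505675097984029106228740607958971246179127853917534251228029543140368442173985130222580741950222970097968739864148962314605674680068563134300044774709722958758631685640361561179043644857252137580366197168588224018804098306549989733722967163311448947865351009207944078680630713775231331043855878600085937677605589922214407260297551203283080715245700525594922596923408083639169869047533478873397273561456777890876726632031317986937553797095587743702928425949866216276633568818298252910760682239909759979817107361668233011380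9230006566268230232799814151850876948258138863741010096949572149290082713435095345081214207937108669909726564774108476689954820589002603520884462208227313865570426935175356778465241633653827162286098259239820801989839054275441307971609411190497936241365219475330728435224996793301390820697687030827770087558489983146602155737186802368830693591909559772135601234623366564858859922313472969521741584898974450964288878359943592457625314345823249654666633081364626122896336824191160722134912433124867708178557885659963834313082353116124816355622704726396784362066181956571177031256127932180775603679453529699587715588369621681698296580043930553735686740790121217359944705374603486479162137990180509582311048828628999906263956150121259364293323101585204111171378635772141566172012987923576824068785058580300550988182648208710951836138485668956229359189342936151290596404313711357552785546666904751954039712057024659852268027727965603815602715466386384477954159742668147734286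6643371128092965676801504316386688642612681741180830619017101587987405753758701147931581582168109179054151545979862016849561134984583633723906445363382962345720017623901636040721460936926365803435475397410718437810242099838151029676928410236255219565065233488081536373145634020858786902286340286682375775548327468653111730586212053897711721198233086868910330735636226563691791916240092634165712247516901238695027275219876643966148810483796296781589555195671379359042757945035252266849774366486510598299142258177640556663876024466032593762349820447417499297906336934877264588332743703998181729751304485582555794507518730182916026169988377705448917609062382402633307833448241454143914193335674664779156954078347435017971183902451863136752280413934672733099616839888632242574870069371975476732514937239938985300202476802999841360819741397773302010150724424741545639388162717244894663364747890863526519229661332535903549081788290619860740214292153208934077709138942813394960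0921552955524710461013135710353787936985903187606650221924133006802420674770968169391188262513273578373369760189639561309707843549060928701383714598913450025674811253030902702461668065874820774237376719544293324623634126881476803451151507573244689286424757005095741178722959927121133675878425903842761317041446248126677653487352566442006319617086417372185849411740041264577240109410080236508703697801906319129150871846563417783777384948493817279444165430515140947010377729583049093409875833835643391853611799856062388579115062998562505981625152161330495319986517061421956594840669921112958198405952847159025713944202294995908732136082385927739191787492435959067924447106873891102226138705532385639684256761586429563540663205052874727850633438986350774968296806083691476705661741587112525475816195966421587851890382068613523098788493240900711142349001759846900436950832175186059439881549887185700818092409801117589865027004692488997205153798445856281165796168879985486856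7194362508310849051921951683693075715920806753416233763088592254487795435807504937138000186099709413647214399792469582893433347317291972659594174304364808255915030137239774018486931381088377602354220072216220170523848946961280224095744784041536854306247550699832922387430882171854068872984404730416597552940729177639781146436067979820222619555346180470134011612372057435902674851583343241540197603247119788241536968638489511731535435615320772917006934915876167536885197196425395127603077701709018995668388846784850702702539087597510379036038922638669187169789008382015714660852856018106148298441154599948975563429017744451976347265846692930557462385562507702861284523440932836573113936935887695195908532035181660448741451150732713864651958600402680560198870269057946534847335019046949789337562279742747859560532451312754118445975281766399139548383767703832584755944102138982556166574269725952697393469906967188415372855761873898899468263274825532372757912656708820077962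7009213977951742323569871418646100960744094450478506706530044269262962268584035789025196919238356067766404898532937583735162617402393273130640689527504882692365187476142978691335555984640311385033084075443300478677106816843745572089088439040988368953507015531480376719730117086648390942976925969314973375621147204109368276698980282339520149204555834406985810932555584642178654385954956859940836037872240843556148021587424270166117452563132758292659191588157328710247034843466310890683807548128731384104622298703514157561830141610673975001490864261896319744617984509797187738784635063544791393728120397433051075952594209610837250718087553009629946581651484132674132474176001487801985105905658263263944234108429763503930907884939509556180364426924922834493037042237845098759659247472365191746728649867308183672815255555162098420460431063938915717372619320316227816201958432125017523737611760499607592512112405905096444163339879411438713793608104883413999323772821106978629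8666359096465043494187323900412871840118594615669834925219245990780998589786203987773465365193990227384198428860657296926456674477608203702146062248718715317219604964400725131031080596234437353080637967875140064741353476146288935141046897302711784318309641313910075755555304725263091843373012804887688441184115677534630098445670652305691967804319418066987754105643280938565028882425633577100077979198983423646004241496713129091157939674807660483466315542155198113902030908615174382528011032084897838279813289795324160279523373301493833692521753128679502915045820014971104275378913990041437489341484720283789295807163661995540164552489791751383389262414179154034701849967602545345263178086211609952411388919836939961113485037744390336755934475717523476343918947424185664525251003399454170773407879628205780686147624212144584676353945921495733266171993950309010334513797351964484508630152221731369818053619675216295659538509546577750626387044043311046618865920597356604866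5038921249248712963755134131289825670733183011447707607946727939839535151758201811851778917723742782021978847334849292451699703634711471019719498469978220140959449267237459647931093697306825334917120887881767166211835070895346561204634291426347610434852846432203820720256050593250606048973810828470417096359089740282437619048833177545770024427211999921058542120217267875791577685231593184777401393110427747915850877663130031489528933440605636301178430187741620616142031107868795883912947294946714588723268648745887691502561539374073499740228515045212708135029732403529043494843308017182125654903049829253264222119024471245377527990920051446231787472889001326446377350274909831170579594221924799319892925758634595257923470917480222157444672626950248404089827687984899441469313220719226185137349648265704464971128280427576703635169145673286641337107751493440781355427371304510858698721073148074739811895885175491207207499292777730348201730280550061868463948542071568592669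3226927879663159361993639391135078933907191415763287335528405740765678737284857813764236161295350973575407971091359043009289020419677534699035590661861468435960495620276147884682657444133887958996988863055743715849022698067574354243130180179640460214095274530574567172826204679240614398525708520358802726916324876307223741384472663065610336924062779283893481265831045594891671926614429944750728685256453257431228533851160333299762414250885718846129874979843241335931743052499415182421055508990730157258049643785975844681394849239073810460621800477105624235653160469588877377933583495234277714429764187564313134780736869490597595731697020144691446162004035245268181654340934515154184456245887915023495202493345840314269184525933369561151102538387951609390294532054224644935682661495346347455457461976546441890635048946252293126256711962547327693008298430943426973057582674892696123747908409769866620595390789487266025875996341158202315217522319950914770979439949786916935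6870865625574818218049532122903467611357195932842293478469698843238772939154757701920668620446093683296579386539859703644972594839418436781142342553709016637285028380299340760864232176744028809715687126557805060066475547840285696815281033586261706315680207891814163909224367492495344089093383378758811858193155440538563782448655992781757950833839877845103410452106033433000595431511263896446524299149816802713995822930201772652016714319057018873040614451718827735235397030660167409945037332116724667679118191834575699009651913330808208151763475468876924922601775940461143433310912382764080792671966564203849982624164414580957997821598275200723443798484952779702311238367694135109837630497986632304090651742707325951546746159254892778810076649944572875508881421506478230777913933824)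

noncomputable def cp1 : Nat := (nat_lit 3535687790583450176334945699178060591570329601824590178444540460242089691182148731574279211326578863452979383120838156945222788642256400377815362495775813168670343208100817113103712594101973862529853504518265296685428923839941603592693515077444163660927778396894031885355166532125802678680652915375804966652369509235803029680209671148682074374072690575771529378005033764874839118857964965477680343454666234642372978622423968454103141507429217226445078488824157314699068186373934515097007248994402109056061410678676052059780118853789399072642853357061567529437395907320391989546328675545650015596828369511057895607168148747305838629402360167077752699523949684616577332396019192824926010415392210768574911958773157274696075934502056397115419546363874297896223057559773739619135018055428891495294927217729100768092392570859409809320468034702947413032305486161226545353611237108769482033132613414200779467583711947454374927590306487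5447960574930157857778118345168265887921499605577741813261462757536750573870782269799150540416162704938021578618013579340197686964306856223918660909873341121422539763828166029273971552120730121165380177297314752344167024737387690916687032489068534905074620429870190257116228460760499594618463680544035834085860707600637229787801085416348325995938506629419202688845776620974172001742160666471327345915493548107374345297058390012634435336428452024527912166891892460100445881647489537731439902694215044444594907028628522795852134637920557110318918452092365312779635253150291534622732803347815992244643090794484867659424216271606737934869249566387121188217610214415534573731536975552728378787889288629247395229340260696938412880551792437725658553925817218418179917374167987707481638103739764842955008546485346987383941703547308073765676187450847113968171471456263454946053724597281393528323675911379114266033257328365210308095896156849306651204026257081518028177149961902667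4283031071364160956583052438424193817954058398864837231802491100285588675617239991121433063545370281737220108794446434346629124569273311842638954847315351983016982235873791338415681838715850423821670850479873483417119522018346161506449658650288693599222580952614181007172768398248901371037075126764546321596429729729728906931229356215288507970476384638832708692439645887058608935143297470470207040494451428503106777594014156356483899809484329537840110224397663271303143818647797640779807399601279773478955985708812072895056156924394500671535608318838266431645278157257067797220499951343379126232129466433435478891677399486579199941411441242383588731370240586941244077748492998693758110815881091871717274896150048718090803292450837231476622456897497764540579415331342427638845709110563485126746435301399265066677015539154975850593010950129827455629488652877335098052382378060999401711387268068274547409669732546774302883338421480309025320205753150128511923631390260096885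6435535010302874164011590895580229323711042075590911723821929731483182615268755266384742614793163185468097889073211021650718855691376727168993760706473495397025728028491358948724363139969104126195663226315539328199295237612284204316887610180798594261006160583908318206592597961753014744253647419538839125143861317333001397847184037481688808247094379053954243906359244895547577232298653165464452552306265079848712291790148264935910796196562569833010566647183118935365751773697801206981574978412224888022024931363982922183844603960132326530544267465693864795668722737002033279319852643330217669876603613539013169280282891843296110033362440661798039619073579194041149884598328590221043793528672737048058461851138743824520496034930468977699478803776445433036820430960619501458078306683252683879470924766803879533127438981600263502681912336173348771923716268425086032488083699271190350103923497549962997174996085089186489864535572789552513716174406208078527753257765272937592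6733117583010252976750265184780716136755037206595476693177788924450674515991926877711015492119134837558136601498945652444805117556126902864450986298050706096366602245730586447610436037381445332049970630332853827656459764793156978183049150515551343211993963316085631029223022712833288499753205045316359268214627224693901893141198090143355937407278331886307330552934039923112101340128275724614594166339669215255359479619706866050004443909242060662060549968338470852767612964112478563904243258790148711791645872771372183432270563734160763400074680204918040211658654258634274010608400260514621986946426818402754710754449932319731233242952032979353616906499620188362707972940599861054008301924689281332048059311635575707750751303435801886712450111704107645005327020747181321462755426455577609781632210681616069165183765306055913553553770990698517534295587942080255709734156503177642727927045107202817707520925242699607685529777240888767998070013463886925457765602883900072073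6720649867206192745979472769678622869240542060089755430326502509303057315274869791374987386154333467250419524325947706512238535877160500505575782288842333741782783295415600414606592614297800791658565381013862751788815182727284548309290889724815280962897676478532305967787030951115206933669561314207931084806871894226965279867528296676913205421672332660165598720535772489639419993754248014085940543050425737661340561176696576325862451655849537836770462773900631328792225285641159927688402661729135283706160284332022533576684688253247417714736109284915138278858737526967090162126433391977372675573083930420850547956474388714419062013428394404529714389211033216830951893324659061735087436629875382975417154967154250300681165350828998135174988869185442241919368009540648456445129567319168390888574951498053772486916396891026399069674437624101931121045606794598505563457870971199738481212222416188231487858885510996627834655652475674109467548483056735268647826490946722073231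7713817168596883983864610468361547143495124147826149934374047881504320243844816264461144194541865106061412943735310672655353423204582247088098621481762867773818641348518250791177022063267711179713022179069317909402485190395041417443810764876952006995957727009058513812562881812672110337138952312269842432004949842290554384536432449336769315161995979438282156641093479592164657241740392625881483046707154354234769360148258716261078141644161056936385595115214051233871184174179613299025709733148261801622822404843731176362214473207628247209485172032552304262479702590671127618478385930141782882644433224472595427705324108500103167070941268469580833178451594684683323323635775749002889512972972203071766007665383780854806602423216999457800109350050854052347765493596040350205551820859277841658775121997960759282681009796791712385264973385571882890970965466035962824122077859454661432045605120097277737717931530135548612049729269652022353082438347841585903767760304537270612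5431335341544287641313645073722489880717060862464847293494719391184158396975595024221888685161492396168270915785233553175905395935699634740983711674343080645615502846648712405157118860281514636001376768105742570906282048093474117290445430365784497666458693103198089271049601722725755969475680166017277230531395272654475371949863089037004247320282381559238302198568430656471361920453567937966275652372862547066082381592926850563498864379244763088596671192420289181096710761087966182207550539901334878371655946678780374477193558945306301757778150328038739793033542287523706916988095103108618789932118787613341848672171565228299693704607074106406014728423840141979941445236103501282902001806417826040242140894361867441781897790741563406861120124782331381517575485814118600948705076132204270292620028399148517287930869020207132643119188282080259708785733797267065819378525532346409797833917625863343478794707717425294264460189508356754986636476867169572989383266349480136443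7199111157077568394648249494262051207930393625366793062182404280556884040699458218301947957475233499908025789508468661438292592689957086314575663571459482885696384260200754311033542828261884558332343536237466310853636423304058951913217279237745321676415038137011727441092957000079364870001583971814824970648514300741048311502394703325844615661159565040851890577881480321170423023768939016139557468313810018082002957471874582553008706182067271264787479508327848767815803663088916925096215512979370605642971442048551356680775750330041801112301900075108896308962041274748061501832263581393038002085844964480657410333342152991799628309345089182012118729517214556412754368576922539297851899672214377024534094180780828254965868382823737464609536368346220144002281146920831647586328148793884298836997222037036919838947007868878389415405424377526264812645957682065987259914519037688785310476066829964851606639562165407125676174064112477094525273039023361932038258176231289885882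8103548962517974007496832188338776871492745958937288761546723388535076749566042919844544096407305592121046394758480579824447080471284395447125790864560186972854898624994887109286203164474310434394227759251859653564700870387039791878519641662821191807773397199733648159327076412219789359421475219884641441793334856548025626390576843086035528230431563583162507501667336803495617615821326947782680228541703821963887911362210494971673488208105142149432105404077596121342854504941182530857864772450506709630042510535098596475595517361421514200501381146649346825795809067947129738352224425524664001133715381737243891566508158727083298199269155244139274027625268736311448572067569268220725142445495852625582972779198699670091322733676453917334996292904727822937675901646784520549196264715565067462700068578614903962733766353819337342849848873205288624932197870169498324616120385193136235884823367066310215305508939983826641693414139346206058462436904457354649981436591747156881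4059397651955086522130793879864109577924961208875983637142647277684831367002607077985376366522957687518981176553571438496975934037019068090976942648594739166008067295457037255178525980205285589537430001647138117364946275610955942758990080841162283035150926602141714861337598932783664347058006690171228143970732635108124519526988935879555302291970610076614657750299038510399607217275365239419302310609101174624295744974553033644775795910489023746422956464252626308347047301421613773908837436621087843720774068887004198918530590227231709961913268458493212952939709435959616450272486941484480031281177234582798733301084936677556419563234567276719114827422605329947076979412867748573026531172573297342963785649347947581554882883134449709873305396609770052603226276531792096580416407697514070810025796092197033567663077860373615778712717126111306202408568121948390574857563320756601482495004157979740448801881753107315580659238652560678103379296404606183138568879870764287559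0736215604466412785169718164285170294241838394197157682769696809478850223027039998411868615839087549582878752139228949495375799961797730325814549739809707935339967560449264236176723272482160505624795730858435680942625111575273666562853912974485471741717110496881548524918531264828881024748032499962557895115247325957023446888422623638880401240129953592572284353427203207809199389570017615999862451167569477991526463130113277816786471858863917400488548503388869589254493945083454202390820428688271097608679362729544002368896386759822202270917827553214173335368027547579332977312548188730440780080099783780835442576241715083020664487077133871216254163669392896747443057440733205179281782738390134975284056858532275884173016881363327174189015117045710312178248008170921726810550672950687564749899809415060278460333631169270990395863751489653554058255085043399017527382645916453055318307664122348786643875368284401052978893817049623323810205050315774299419975450658301605607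9958540110850839429024152511066121133380234591473588207149646497160629499331593501402528900833515173213493429726007504922217785698316489686798960076009324853587309388899371181170616831367031639485030565242102095332124139711443010651504616536637981578052400728370368157040914714464511534666173599881509852079490513657840055882052491959228318752122688991141899788539343419927151502548675897777845139595811251024404118804761331843690377186426826775149996434406242423819102382044446893242726588342429552132187637595163061871765682384748166133365780675782633288722858577625450404635667644638203442463456282638466168885188347005054724684546281567422965606353484069848674631239002774922882078534860737082728347991274209051155465933210030262701551026998306013752719066848210986833150787296937032782823578266908083020073883263392242908959233740420292341415202256456413050416361436676755095744269814685159307604394614421767585670863583849828311089528130055340347198658453422915412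8243975994131542726392711968419826216160169131732848553628780030122878003207526797106756911548118749455099605891623938961233791748844092508250360734280710040819637468865959404560621161147717146208393935958532714495719231589593442439052859076432064124930135767087550767482476792162818319251526245444156037420852461746284718310911096105658452702296508601439059156213048562623110508402833109565657741715140879951483040098771515234458805764883540303022120145096642180719558174407458872691685563485745666409407146814200724436415155085855523584826335042372783671049218847159608611070087066594611773843364994758004330038632294649373960901290921681126215803955094317713555325862439145121329514780743718997585272591521036622885109645946083736193336895423838143203236148922328120467229890669929790436556069222919971049179441344031611893989683720507254139272233869480203503956933100154601430987304563710205059149697011902941325592800285314868117736473160960063940114023865207183377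2895242225721590655665567190155029907429559144566330728870887760187990259543916412285558331902455452487467539215279149530849209359496733970810401420615984293097740656020321514955728952554673427210485573779412760982171635668008325970898462163930045775724758236174488481745817356889814654509494931692039868861974213414877624597807781962149104011292197645957349166213248971077174995619449887890806862860227590164443345303122298684328012589466022295370801813219036831258144092349945518767803305298143471243888997114790122093048931293701930668566209586810435382343566350267899744328024440429905115005663958433227630928655662039996023837669931237783488146300008526906910395207185695804644192026678908136130003648867420300921630331437792296356210334820980438233003658213140911863766737499886057635102266427975471687508062952144590018363701108989474889991156882302143938565013765388123798864889563563605969003611298901476159323065080693430139593517910972345800533602847671285251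6185538960507236607681406252942637203405106602890821667740630824110800127636269332851674892095629017259544062481851631886651135033699157873621535771626203705579130870013761488340731100341023859231731618484538910343198370754615458886577322154825262759296745236126263439925710018927237750204344864452181145674075983440063274137095869887602526445304325440232326564550258011165508577750300978040400581400657154903440521700530829980128954824791118783837762372830965080828786130243362918037274056675707867202887311218797850599990854612278697167027302603767076363397117665691519282404092711744193864210797170790811101945545132538996636656148462518078405485570816391117517119038636282834469895662862414357134883847758330197338635026218926273696274865150280756248626913758188903119668316429346672941111317993760308989577457169356716195182132353358703670124175171097555206678287611958950946037387537264418377701743187279207278139061266157437999479659005384013957469426108065553092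2434539955158763180946350581623966711595262383623884228353553489980554454150572122018843831591710738189851343742899700278323013366436853068180088856146462005368462077797085426940180926268154650826196741125704725057628034221080093847591232403807280627820277855104828601111611477912610827461424967542045779955251161682549029969370322489423255384399366293937262416461868589934519052112411407773416447771724478235238320447826082651460281301807615885582202041863456155617598941737583566470464519131578284902826523303785488793084442658472366570948273309556071345124716033609355537737319578262222175015106128784623804964688746739158936593134786627833324134324578617805171471562751888473688853136487911214870824104423003274680862166941121728729770513536805406085588619369102397867525260575619008245556855122322202631624684554085668588087703787575322362934405300632746527375983818340869169240195374280027633685860851250427706831262372118143098598228900138096630314596575545892726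9374207585942602219630027528486217790869701712041861490444672424880895184451012905825830283709245300931179796335964978720010534710008836130266510056092772508796345498244861800546643696477452856325215303701453425840282001434763749965801662773421575150264843477954219818389962722234446239845581849955403655325768546830691477028584193203387834915613182287257613787885649732761365969949698920322702281340803917331786427741469672081858872414636369820028372657084491047549903529745122096157859867498819399081550781647228159205886100640893015735266802558173585054884694863755321079794872375177444495539147040910466766043485593842001360153640558266571061646966089737400670639291822637229080441934094734804439350931340101077679880581569105956594421840776687760675857717547218543325244269570518928671562353618204938602847816430758579765922620140094551913934448110986621991064723245514468430885741395258494414938708656816226119750547737217454085716711990360465011535316945173236751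80726302538675921459594772502655286136229376097693056823957052970216975756311174395228690055204314801887853057708286769788802777189474552186479599045736266078364772027292142170019482664358192877618564348780534180607726246295129581633237750256475959564432796101298753844544712364606061633864630580949590398225286042896441459499501761571826384769899085905532437522493238652510083753899277537817807521036555079017701489611520871692889795130120486318225997507930871338878347332782045637687908800507312696702494977294336)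

noncomputable def rc0 : Nat := (nat_lit 3187558738541068632461111070198100390178653644669103972537191353479168227343483783534855442516411712955238463299608918281980139054011566033394405047618567662273989310543337582870348549505839586788355736542723960643928042205463277699616619075333229796553326074653119550689721498172377788360168711679625139137999333804190888005349758480473357401802511969686570089242392839735316467136589048025015307735392637999498601748671025889245684801239960096976234058823218198832518571173855287876997540238631613575737569157486312749658637001856976966843063630138805681030616831526815018852115299722948338454456805370817319822491125310032290617737650675330823444005263102804568231513160093125133953955574080464208795631293230688964732800880331537288019238320000075851427859619208506457850984281627716566685786243968872526655887956190909728181335285616362696732341545421508517751695702641674979259747898171200673699660172333737237149702926957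6806740374164501916361415474711250505263567890206460953317259490206413993699267270438852314453410107893327138068896783621001470008387124901433496574550811730237962778182713425431062359079376851182814956753787913073508180988529896301861895474580401261014289986654524875397396559150857451756127027743687437856328088215281921722885441852436324777851909941491027294587362228371794570343298507479355307251145492661599880382639584352760120457189888523366618453447843410187523301408240646965553694340524835753861117338211930638207291603090948889129496539085886350674806018496035872800373969111765843655956325002843259632024806009438968024463245814912229851961658977079199646034014327113773219690035613726057949220488527888499368484734606480058483666886822103132524082106870672068722683031503060099672569451482152457868327110217556164780494303303404857303044358678948839434823420221523980260466882543433280263290186375029244653496015221769283818179130193510851846355728445705972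3269099639743394626459761004491339124433073180758818257223035245405834641512971175950468758599915697203712090245609724426995512974957717755112989041854836227087402221872093260112533264096312625563473694413549024431671893402941972890872165620672703738255509320180074033211776740352433547563757460954115991572323290026151928223278045489767303274188753776751604560379361939926811028901004983444549739184347563570016054704938074459929907897590481219317402880215523247161103289048977156277519665697981286348674901409025398376191774438043801901448580970676679317452746542843999417927005456601290978415686220385053920402259010521624345768014331068097328965772053831748883631033571522031919632991581354187179075942689644935835283865557013010661409250023906242645363741614205826216792634237667398867782922479125534330781247248681618622971114834206676679584406518226526042405360177530420060798567343329874907479543572686970595103934234144603459164070525355848879456648647828027013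6683237324232081224887468130938918081805694813423592231759080580287549713380096491153440920127814868329272514743117831025254618226158355228869471856233591798880114955900352618049283865123102289025893015265194689911357798912036004762087142609288468252674234895060473112241077266583649766267216186301062736941744555434668580739247400057429043117490742794901128534096786344598158292591125723617945956443985799947420639933579713324790608133464202497772615662966463172586464283806523474284384831173890503225028047451365254392518602179346446980972648607533723670921900637810867843672576635852096309494626927647239762394139097957756204852715135916652913720514625348462235931779029456041797020080181596406638419467492813230771060564815655337201220480765157577896873775860020992962731347582886841280495076318407922083855084286233064031952047419352782987926740770879237118691580476087927737619925415067368276649325276104509352074741588563568990302248821733751945434676153586541504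5388386897014987501178079427275133876691768872090331693640335242094281699578455272544236365208763373701116052286321836499577561437454124492572201038571286791825037402165505093552406244315566068895775295068520575927932077603801822467575334448190084962772592008439141528427630499557076187397424654731697459132206212752117812752787565859191035443754012267153721437013865738389045670265363490802203986354644209086665863528133276517455545744674021636202012123942854745206708830123487097749481558206080211212666856980840542156546530171702776610205303559241604896931468774796302513003795403775013704750321768043375133010062383389668719998226489920270510997919677799580460499247587201023970502457173485350248966081312275429994365298140933984056002411142229296709145050491255889424386272410386494061243681288526543290345082250179044427895525855193760099750788057493744637684457746093967595102807469302311106116389433143955149599755283170709027290265630946168441374930023479585743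3490725205453978914848059339591471268424758651464783865593227657347538201759596009914851556260432337689853682195279733783423413032385952682967249854786046587751071380425867650200728660789395051749368134403366118236723986519422200293991171271082604697641634855778090197226197086833639185317799088721993998121535749178295156258581414156600356918938861479796393696573126045698832972588031341777199752020098120302948088655277456363882574896871313739039978427941474245635561402504483354251706704954211146155898871964264576265111795976463040490852882854250133889179510041206976336954464936693976777726041740610531444849070079020645430053586523616677174354752956387379395764189541788700438698524267741636201169312904635554401798476409096957141580773597936860204990065410592216292549090108926180475211833207512812135373433688377059993372958723114558281595956924268478435503563943811036127535052328897484890869477332425702888103299178269683246269180167786658874845543709485278753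0864161740982142398056565571585913560727039225146121677746453563207161035887953359995489809701584292599319365331338237565826236830149734847296513052182820925120264895317184459517670048539541512744375362989837120604449243898076374759181064551511997159596198610689679691602691869200541486361532194980549577780080362683410342175636498057337943826155048099677905158312382828723633447294826250142104250802690766060092009279475274687647094584925262012478796458323297189571599374870817230092317607306986561515691111813396241066736131977785234372133382329013398681119019665536994189533714272595204686089551369830658075866150163677111074853582482104621986796194491114256244289871063970471245513542116488286883791047243692364336211565348360792779853690695712618632032520920241922670643511664766925258132920971605375524358779875414080579411713324987160035352870133702465727070616118641049676888897186483279748018951063397974589868040720654670921290625738739648538435555639959097148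8032601173541250053749499270713996295341174292220907197863841803146190611765410504820640016304236769322808422302534870153275014365049879352136871132919641639395214014195066245693745266055069523025462420160731520275724444310308748665790182038082818124085131475188316895139349328096637969549540299893612207683217068220210568953904655044474909150089493699072219239018254573557251652818108582053395113088665937290233688228744045130010270317573686520263331905574915560623015226252718652035117608124770223909414266719095400959869184278035145918349364915494332457252130223745869764420689621677833437931098733849263943636743253869452968532295926208775073386035164902731546493942920693390358360035882433581922317034704723869635719716402136672894882495459681665590148289222237887903185596359604153486520776618029115625110294266532163939985755446647811098204628627406494860276449803302690273329214017006802215575067499966166289079124250809044937533617743828361298076157498172101606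3753072838403586243995457290006245543438840044247559103038978181321752176933853748007230389216974436962339964869790140807968288695012732767063003346241141025000094231115988758005788065486387397102377031413734409239786629672055456820322319750192544805711398559394952425089537978761047276955290144647256218831450411255978300609423387644894303877888576290807410250492982202601177711182875715624128582809686424180234318472717334635126852701803768609223195850764792214800393709325907690099260511288736401596879361641138984863044414204146260646714927536891329661876974231729350266332710441089712317079100647692428474390097133517488486022871552726383585050910635471474866744868464448287649332834579461039419915392933336996519411940085616209132872904687697291365885035668804098657168529975309478469567695263648780603520282941991531513275564785568951628982516582957171635772967770265713374012511995377275831617524787293559102143411535398992623910409832822104482034729104022106504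9287986348291702312280205935105727262336668958808265069751391834455275004458591341774204456772927174260545351135796366045442338072042115396572461172298798966533887061709153494373204007039402964197428932253179597910949831275196513976447206792241043982962167017896330931746507868156736369608884504580045586546476376001763913782000759472061639939519372763067871813539717298781875543374907717137634222816518330874903492499963515576569909426559505536893755321345468773202182382866257403780275882354846807340438535276087478539548681829879259580554681007108700605810992607935684552469387539914868592268754626129134899019017886858761709426605000586533284742067427216911714908012263508263555293998853009489740999166678128388650528933078432039091674916379657181467364063841175098139191965322164184791148493374214275382270421808896958447128250110146162963336827121223351179161568975020406320877723017547090373847400537329389907914166608827904294351548893772322048109502214588459903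7648157161027288418783019735336159938860373996732108100526272055511211602970371577568246098792573582028699755427528289757667162423246835785347681969282913059802126590761785826811024286866112909769237729290039826624632593870844184465391719028495503823789428017330866398446014311515473345302752494580342462126417225989292527110998513285314275380797497825176369693311001046482264798311597134755023636906811554321497738918514417823490017151284116156837462732851864868283108254143799558563175059073837977484024928024673737645866630959783766675721025698726502401640953959174674541875886511051791926275519327090903558697415231618981543085895982738883958997132772431270295863909625810793551866345522161989491794795253830162672138528883554603482237172400216262093346406522946809845068368239915428664937936428802110976803627604475396169996274530256228839607958615480993710757844498129460417265475578150888908461291582286948854733149042262412225139131215759181502509113484998418499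1423188703030489395322665625214643922254598697476956594796479279376731328441940175904384910337461610670914315235169987174292836118927507195392038112609036592230914254839091106882784180549448712180456204882348114039890958453261339751457853779027601340299326209599983184477760164510664023887542413552176924558289196685876816117121593120961467034742372309717572885474263495787041621527684016869209384885568390316654305228623642116349507082572773552793443821203806160384444917768439212081473190310123031857547847016688224483276382964405266381894394233864929803754424014710901363748726414789821591031062294923876235069342163833168528199284042053367607144213971189180186976083449107312875359172596228063635454797090304919590447310360478468619873305432291699962965681275579514471043203569042596954128073321748174599759582320387377132945871415148790895837922194587824272254542117664103462172321435305333879974178522712858233990090198072492446461859109031258673482765741661645755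5770540391917659455720285390889738839425455610342835798149932433355773542825158054966524471316456280049751047288033520952667185214504989336485083318943367788087002722305007774175647173388063633929639775129809471416957233472641581240534082542176680050771161640592250113395025991273079866157739207385676237746381923282659033741228594829971208325471966865831453857062069688390914797795449355585966417008651542984289511390791236201287997598491221164443796768114193183905090065927479156745754504527499375395084662365398764025043933559931640100889715174031894370751165852526888217141573323379332059202447883458860140712261056220972743752183540927458886777712100788911031875719384777218700153688717560377488874757528975693476577325800863299081645939672017955110978525424650450999685859796876595017695949068015166313102892983016721258859110133350830573716879156513489189106336327243798702115607136565259202655445732741502231938223447480503828534498251071627412510682587288900299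0776807615501220918218746241035646579832161157998635928706696357727795813401470865025948858316280813513576916853713576063327070511095355639664138107981969973659066346600676867834380210478981858558235090009263537665071175117314382662715391490585050263079650658630530816489593313881488885530422622931743677081101789624198428925507479184309095392481574497451272198031024493348252031039499186874844021602891156851209669389909142300338050513306670349055640048954965556625914366010757576248336113700811864995292779361715536472252737897475592145033338212099601393212549805761897957076531595198135131141824013150742724183356284068041943361530515437585704853112982196999535219082525965445545668653460680118512713085176931327847101134869616231842201416818427668385230821018207163313364868242810284665168985189405459779394906771935114407308429121937925464981364147940892106135798735681461531092781132018636267832810340854021113698540792344350834888953561286317496204740098455331483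2449429706589181744356760123431205349116749087925832471485723455974257304189820154853525455540089389204196167564685931245438233958870411501418476610963482464221720254272587318065509579230910666206724743787047277419382200731450736016928509367302979002227280884266564722404680316442613558128419940839903515582331165938689966650964795265846001695991719167047847559669720978318029075266641275531037917533277403743667594422301616349582707397210526969844110653167245209263219026250492558508834662359665111028316539522807488497014405968196715413897233144011338665560448121923674040828659797719595704980143429443012639014756264568686592469302514320904012754474937946800063409319216615778904859464987399970017205635682276404152144695932656996864078204768379639563103522901428124148901802458669851578919168805619438169123774911844194427570548256581098080441250643109968900678274139964114079119934038530672063906811324429355480135525450271812608172444238020977191227361841868879250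2087860911553511394446613443626863536584117291449442263228921967872593956744243626882805211116333559232122263193700404118315150206286267191753672710714240342858683318840341965162058193925917747364464597342247571402301644911028798116517504689969097061979860535432742970365227852281346445827608840022472051116803585600844254554389869486448904924168921869288559110335611796437870628204160445520052346259981675235505911879084519718963822446456001411082997706810903042993212207343685764037619535394971506608566844898341915499031715335233032686716761366076849638772499600307360464283779802002824743477262627328096982928401278906674579623018250010233696814151859790611324406390283507290835296061850762337960246433457446503435295253513697204297383055084927840985711383770520091588541790581162047497656712606128950605295396721333919490100623515747212873628032561727096675058123120705382745657769863124800628984821954456936843614656701064008236036103848538107211675450883260991143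9734788852545854895857899746827507086419917113880698632145030428027560207830018641455267581180683638181486470681034967201683487418455828754782704332238952946263249815053905847109483807138375400199134627206882593070596593922222769766377944154319278221749968965730046593159570665942974682832814167742926090828197350416931196428930812319052549875267195073694586011992458977547915755051115888049865715863747738747621544781989694850992245954599529829719363433144134393923361908790061041163159738138022735689279212103684351770463293232591237655328486535658973645302552394750315085008329778934242757503396984744827477231905230434769623216597650666943364608693611737509484650609070342118267473733220572453514459689525964225427977396444411364444785910105783784387125385814787423642395341452892607780720582746870689028899215788956458953194697098773770809524072122130701442557073286680801114895846680603186902087312430244734137608013013585290854580868364535457242207524440269070180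4815811828034488719694347824818906833170254994407343531379019569299892715377076890114741320951827927364772049476769438266434812089332478043821524844454973496599089501241933540963284675794861261574296779079453051905467132716032920136698228197324494152964721756685585325647800158270454736172333976797395025224387951425979660127219274833752537351937091698714321553033835067285865768497513061662935805955169525251970692492786800717047114348735096499016082863108175199515988089405056688676692267494814230347395579571615268812258672109162875164126633573043928910795309207115592476419078999210779989987227417663855166926593366754984068432330752809411800494211313386675743067600583951157375870127493127352831485494699940804880710993236602913898746365041255044444697220484893662761483123628991219254184610109311164763673946571400411647713091508581516108723889195284544767206502549217691433021186930506890287766035954044322951035467541741219522730283442886180283445765169554528270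80039722616601862856476079799459394605447083984272516270447493829489420668427385203193338062776070926765326327606537321496722835886670500683485860366175931366607724007103270731193949790981807270957713679682247870370462072469680373750630752616219932429126998385671383850664114747967303030314764297492250678121575905755437457354882174402143518774621096666559509236289332239800526784092359764459447721352724241510210574936535365397614274893801170263458675230978846711991097242657464853994371282978854932945911324606464)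

noncomputable def rc1 : Nat := (nat_lit 3189079330137301630216902757024400656837462722538554750018476922178392742713173070270606349053001514463202595628996651484465243226275727237782923383889053730168167423004811916794641149967806040801038026847461960633381699729227346056375321058954270396109668811850668841255282779185252463453758886450701014092749244188941185764715858742857520629847416701870663157084404818991555118589176517969958816178505329987142256849175704245204430640294415932644373626741205391871647962286803582894101754145252740407230234884530686510896381829584404368724810636212402621827391809641031640914642139017218122158580343479671515627247205632110902628740757294149181536756011913384197894514809467707919080776145061456110523861614237108086694118459899106709938214463501458648796073361754770632035262564531826090192321001886143586508844790964182819239937285812312677860858774372314550589274994535975906952331791711917003238822111884463872266188992983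7465553455310091593634156323919492080672857164906217102777609283436657358572060221200321523232452390211777149213830076111390201593356547153581482871743231005684264830117260498904867790195612970903522207910982620558524254546942355053229338709410206893988576651867128110110578325892685783886799961577687322290484106058540573639713176281177569161118213226403700991801270639160151686968630883709841343144990167204277917451660589547749750110759291420835817945560010584104538175836291631939896289368510724833378955919100174618737978761658338610835322289491393213066401789365463026109713620526204801378734213554796591399829692107775459106681984371014874565223888330409065023887669754749059506228636592127999175261984579985531852919181747203103879311574725854889271947083614275283051970661735148663974653370156970025194475641693402522008146055751743733903915735207026770794983848908551299036635933492191685495905013419912387287752585369734954571868445332581441812302605647701953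5685509853383715469818096384651581152185343833497379030780336076381169048706908752855310490754458587211201784089515593552675815444259239922366008504790211163008984304856801833466352354215328699058175268321144026046452548934821952133209339199577676868799985836205054043450712731099337092825851433316080444729678373717066591167720246411285302009804312003621335318166430949808710794978381886202817857655510514443710903592079252043182829254530056999263709955746124204810210157820454475086889219108881834712492905512260024801832090371777457752281487068963684576581495322486286007678078808354386319769012862861552190127079161040175140059198263231439970321498283309936325129074224382678088790105249474734916015216748414243569006103424551397168264366776695306854588631109001316521177985259141076705851071580717652439207194349495260918683922330377855552029730656272679712303016083821255213290233606070890012033880750480615292718726207830999661311595843789111868498705149664120832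1966662539199136049824936690868295941317764799412980946247631763476407370462078809257014357869702640642158440848059670677516724390939335988459065705518249541189042777169191231201914820841616170784171261308534419391177016106502194717582021947140715219051437467111066922357535962003233784907461235555911763864424532623142516047482212764353686068068443963546570464425906117747820839658540110489526031681578585077298447576875259597279874572278521707546393607580746436210559992846112879052651534371190501684611025056893873091544840123758589044947766755968192688364440492080465415503605989505781210471356413355082576150522454702340347268647433521424740221052275131286679503943975018485182690680208549075965338433319917212365957040404025201127626057968667218270283380708664117459201958831454044837574921789943536994692946086582867049851545630028506029617155126725397117096327745534300536272807219672349492334585373547692072800772661701655029280269232464846285526859808501630539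0055901008212531302236861966101352935197454838107762412089547769027869517780481523219962803017642502520380466880740413797336314185383709786202607779056950862512318687189155091014308287143246274306013528982196082329681564387689199898061548207812806039364377512353192433871902814726420963793705107873471341301954799417208730434848007781086919818283927773074510813449107757049070870143890642316517349240155593198717879367957298600135867713135159779950129025199218087201681012673539176079614965505909834369964171408110844695831982962409135837419765143104216204913687317449732393183025999305860067772528730446245580321380342635670947277768060991978235729314521225038382629807790741605701749798295254006180704918136237012108098000215272997024313424221932146348296374402345253504912751285193977122671610801563061022593387109595065011754693437496376246747053124677940690625673149398837104276959960806674929014921618345702549675324055918749382698313561443564522085890100502719847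2118415378924053239224537777731320310325005661231279370668682705500780412329289000300687901106801319060196575588429213410862917352776130537189230974771820822683611413708545887678026582412854180580288357571593996455918383920758160339367238896879029125765428021175493452987141150756982534562779776087128113637029205534782278193444046540762180862799798575632469158778934141083739494761903138943775952352170514689874126334196588195358510286195418798034964030916781709541999092052746702068081827819233535612749854769597207608610360761535071953092527635695159154748074060086144875568304968397184424675974369418900582943080486003853605741464019652283287454813092108939995870185962444734672445336162053930655024256747100027734112151630371687406392921473615168727140777955063074209794119444428225051859402600090169824456704149625920464593561443395108579159959880709417297772840322993962306748957304399363157884203369419788677956022312005518033705052861334418533103918982262341648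2073919152150508976105912358566465910930534237506489377122981417669529642472428599006271820507857921894488225655746903688758524356784917117391715598367289647048420230622247988139795111021142704729240949279042860575708416027223926502121527618773817909556143186343740974019827768670997092812729043314687774231248896255246604393510874548719380371698979118820545684314623725671292081291874816753031904427413051900159711266071034864427327689371883297495542143375661144956877644078561106897346743201417360358973623079619953291296794627048580025329076652595636747674775981126947151435004896473816358721705567471833387380635325580070511033661748429606394115801423002266842808350797869639885705894473196731483980979046204376425184644167942518634631692902125467894116062448860339616857133079931686223389086012929983003753109562473704439737865883588407122762214728466719460870532223686021719203612102991261791764531838671217498030689174060853221243001422846870782769832143466324033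6946891303770855741311163242244452012964467771419543852853378946790476298017565593946224625570766361220096733699593947596288774082367440780150300667353569953075676410439298084902068151939644185242269404945318187217491800616551560130039957312636672622845057958119415669089120256545643745223630283646062444736083638023945458078569856782780853899307478164800757493591827814586672323893621155845383008293541591879010826701501081715079610187154361769485774209370041590765667531858693378224923115162383334196794694839396049800561183944699685398194700186486617852504412769083286403748589186672084492909313145002723542475957949229649152397923520831751891972637568010930787577164309936862227711915117631003077859850404836590645795726002973646053753601231016157092149167718362261914113116862278328323131010542913911771325946804497606513065827350284627629654647262307259000880101050583721193746929609095021686513735339900419247173530875107879519801723423856790052072109307322671462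3243071726285150828184421639022014926116588558728867664191447884059079513914912294909310299623495055364461337504929777391101052542230562406737382951954911956500535472521725782239699110336547587807619184725064345619258470308989496588723508716395277248576018181741212708912192713161995953960585283033179346838655542184073573168368463593381024932762385215923888047833248960154592814968292366007567520872097899870220863158466372183094192485322658114064752893731010638019625722580150984171063211575292722404548994704721330845486959244989313253502809493881029146838727130521577976726149800726567723598791802336596082437524611224168893861957382588606150245360227964771760378449508773866075467756280706080676457005980564920225232502812610956659227143373062354941186372730507664757988337369477548912503013083287418766405176003299699466432958154746316770617387061413516919011902749627805819224135552976072888730113040525298520617771024298101017926814846333028714260963834387615712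0460309749970650628261139391625317631313135670782221330868236556712512325039559535188158819645824345268847823497752646572427007515167393797183857270580764890476999319559945889417474080659773111649163256505899258990846930983805656500733155959784905874418690950334858710770509539658598625941590381206115498870162578877845065647479100316439491575444136681077583296567139380743134039564602407859101647023132454330040295963010812961183048733169315982991954571351357146280239563769291115864551833665721757743178916117994136766680961315917795578806100386222569788691693284727552701900099847064885344147524483060162048585708460201152708023220585959112502049532762022719356380570295742122477484983952059128672054278613730912334814321228447551789728503344124450815073939356716054001569374957676188694490374821903045393467196960497605825290523917236555171447587895358672505450982184385688877402430015928576805969927053785168818623893147058317274766858157114063945748236707822100337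0009972148016172040811598888933554406438411521224009768519844467782665907560587483804933099394026006307033729016480045729515697548541899651488340208511309310459552120099658378841362618768314984242455004143872689214548907920391152503830747420862083263288793753426432850575679417293955392090055518261101438984516368616185953929498565170932862641843416053603589295916652280234125395748899068986948933651113994840785198419549225346099096532051112203136503536861683791952457767104114193161886268577031765366754870558803520398340389054315297743414649981202885617890302697727687129775902582260680644451208712446630297919893050177027725610866442007818398567813232723414590147466687479974254494083848364582009490339408716732468138078901652790312042360894715332052830197362915040696236516536081691443886351408067839271760678442779078551587476420862037543486173514574665151593263305360285206649637970593545786247301962546468806789247451672370689728186850492519677049878416636686873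7803348145811852205117041722277238017529718827456675835987900389598006637858950909166143825086470046503489820949065180463691727799428617682319846466051377315025548914110620940741120280910222669005625422050991688804023616031978969749828664236365487128224933295541506857296246959402722288573498551764973886392396430080640493666363216855095088221501590067999626181387200415518130497608833048797246946602116472546009614202533244479413662834184221426693186631361471369038863560976031613857470313435132393026941891864755771426403619535648240162515518062881127230259600367405094770673903573566956423253564707935903332788759842265577898581966737607479848201377315513381449692217327024442876651443817428248405331915461890152450890168274307457874670333671928616071552004240519826401474480173366740600046821890891563839018663952060946831420655300367578659565686878224082955896473404705634432259317675329361771102990635361710046085877425885581427326524001309904170988020081203987596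2341884379491358594555641670473041048490879155868592425199405587413855638775048472337858820726788134641107226714030308133531052101902454177829215398870985952223796591669253733669519206964031052700999964523952443718682614171557616699752076435221205350084192989964397555042967566211699043777937804768297718998877241441886293223760015090143932160085930526969814254525045291060973502798656549751674060366312903437995134301027641645810610023754266429674670940230883376891110013822860912467116393329875911882409044909791606113243159133323006163941256885040197666552844367207140439587363108924128231936927306873707228820239690670276214718985810010108554545738867656700788518924578420248521270653680210152967619247440699823965546247549750724066782119381091613806912315844772965375673793124941788797586775510547069795928459250095465173707639889328412546777848344973402975787009305089070571118934031577166911040779316920916608799381233232738958139611700285369456171549418385656841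9357177729355956204965262452986831411843573417493515474964292524279342682039622027798027244466586615595153084257929402405140988057185364323402663848527840471682765289948421625486870449693362202699915489750896789042078425668640475137659152780815501748673946672459738602248371047273549757641090089595457292059357568573554446523436684015251160503477797093713304460126308567097999140700743101997656682551692115006550741702131752422626509954270373017522564365566146278003356382808714166671125204561447837993905962625782678901408984263008545857342696919370221643122776018620527138833134535560755739610130603554279877446487263971826423471404022534220166882429443043095910553862316647743583384661875774373062521600258558600806115923191754371100860997652732330500166118547423316419948747356254473741419906303912748908259184282388046214866859518051250617632306615792572441231360849611594427972738784254533762102887430755838549104285506778131233972637278112149279394866596029861890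3694597095200301996818219728685535374617181589421615381333212738650532113944923113790979430547238132449581499864529323231551781135725922443084140371200587111053179865359865934655765542974422617382530331969119400298336216290412050855186619376526181457691527033990810824023069351379648395763526066872119688851845836751370512011877011749254839934288378208874615754205325484583739847383347886660648989262575276437375455632349646515172170359624950268022371053559328911938641710827408137399691351265887095158582208353706260668763817653940622417358562690811544697036616386560982455308671230487488587138047341864976302478264872416342734378485824119078617427695180931152680496454133331795414685914859137047170808735731050694384381642871473428002104791187798922326485218972398809866963207514120860179079083846690622331274432817502697215854140568088075540776261875688515873438432080891766924324711142395364981141530408135803951810153310242561628268728038098414377573540085097000806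9307450863962362690797780468553092805736392900956505667913177110309330572985361583402071509311639605183916789226852772754064889467968232804790868544375915291138642418099092111377506489664867607616109554788841814469355739282473128930211107463492448807422421604252414622658361957395274290818496573016031315869224003649459211079438751595317174561137936564921557328812398339968409654023301129342383094366322898085272030069615480755834494854186913068781136818837143107169667501200980515660298411346922019655282959409432341762926517354154819764178037305639964622791965384954308113529441085412032311959598360791172955626016712921912692544367397383994004876557790681673744685191214739460862254523497203754557986611758162488691268260069134454992017367444902513404436646402255515651961318655359161786292889141417784385562646294377778371006247643433464175048838115041450860041896896376266570025955094611991140175543545408850757781992236080075812872163694776871892648562561613761811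8509027149995207372093982997982809231748151105398448117506352350695002042999910221638420003630515339715745505536631722131739173305417029985931809509388602912757508426381365577566767078580795461454271353079569533422026881163658727730076990442154573367365830377455963998910988566432319740830946805389220937816083294467839526719857503002167432037287889881043104049940187290991140094953602575164529387638561289502680803081382183751943233913748007633242122792475136888216349672620691750836255870802616602712372350150526808801554757023251627888425009336574478873229284560899983397428170656650728012064857270946338018499369876771691022840304083806601360113858319725290600423165627786987433287579880668306381340266453489033336550405508679382443501468814584531762769367186607081986912367306216682749589296242771928679018780251987432052931890673286208831872257821029302546608637257981856761317833224906515666793516532240859709609268853553009139862573735090264135069321463137300643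3248685810006217441570323807233807521040338440300294393159342452051460848580639160367893900824366635038954966223107624693793152355987530524538570722620732070817720649992614033022079675903198728908506056114861421768317372271311702809991952957167252095779150008327807822284912795482779163811309580301787188628096339621448556781661772268060678252162333321894611854039888995086330570676587875498163629649138561945217961308877222880658631287004821847331455915021131474746126340111611334313180955088611511885701451740041945116287956319855023209629294180968817173220594927628552776147662173901935790520176651801115134633794558636080777153829951141794878462506059956032428176455402346092956665716152682372251705412686775340048718162306755495401917564633666721478330989637195228118123299558564990850459972737327412684453412875637317808960932210564096760110043875711663659731226579501519265827614319442857190940102083633524089162286871041482871195887916249292892333234169340001637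25100157311237863691352809210269581685683935555106776683630229621871993187408429317239982143023331603651307416423504142263748223116169392158299585936784385176335281418258557383166869886240046182158136222952553204263883257667236544073819455935840721017084753329176265186366140110568356382801776374192836787974114483737015277894361746402612717672656361457577032583644408462987184682660503380571915759793281874115702680763383737346693313181519911119617528825839592832541338140843776581785067971905061863622877588226048)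

noncomputable def rc2 : Nat := (nat_lit 3198626823258375702506900532253392253759723379860512810283002267065555352620135932929923447244568738699946369049757926420280559684285899082700712793033392284685696559207026398229539023256876007326574447227697242070780373466233564077219876655398057251860938121600855908470239138338372043424703338278291083225487015168900040286917341179071930532614624494628701224741769438538669184520088359444480802487569046081934781277537133426659255124204646894227811017507799361237857704440946299458300907547342854484213220908248092890818789217861252252812915334727289810844674763893922101590826117995172416447769415626858368387491197261177969032492106992764936609442621704284532788145657122421481305149069664640863720367569759111409429323719236769937633459822011886391783503199201121696012817403334468212004106988805836893374173056358724339887824915583027717146150043519042470061400728273532402156423017237690297460072727513001345152337853349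6269463076194699209083160420433160114504589877159616905402595241950127906771137473735543430965741330634871131671991222305782701883141577217882826873417414442979489841587344560641874650422053249553079832673114141440847265802257663856466530945694442552422916019574642230089333039417553640373290819955770724537536696323735236736035863503358409161695101618863202175594419293987118451397509322883818683882479112288733324502514984541169033937843698494789697742695746923275036038910436154637852354498138614952929768698754082719466639442330593014754501873772809661663925444026445286849192012191548203296350075257204353815542911169558426587283747528393770007922049382375545996456977867505344811621475246987246162675888934198323049076165796681331132134683445315267926844091532978375287761689030547494641104471948187286876879466211448678175072127832643608108025570571063913342153526330391913728536736699497890297072723060571094424827222031977759931254815308866100963473345413372225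2431924654793639173342659982677068866460532803172974699483962385602349721842098040071633991585602941253016947854778551410015072255078824345040363802420941268485642780023222139669276340952234421335914729143653036131207979012174704346440931568171340990575182101741777670025997291217046234788205659101017560692063103277193310425075825905478402923253686245247440683018183762712327528331198190594591110707789569860321965656766741051167307991530643158490332591992227455714152015385619366796359194865498123309446851898574944899051436044019350919398450057526367139523403438130479869872494358767322964254397889853129991574101519594108573949867854096897688718161431868785141687232612633071489628466963298939869508506774676808188654000937844921822749515233081172468984739403896788392318357747142759827989129051351047900334164366757162351288495503563353339203826366619236468569986007903133491546996264128101211399416829492453166620665645498069434098982189829902384175756760136882009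9448806562923939125467633340416122451800120661793240944842397951302603183180630040427517581207597610670178095046165375735891099549178693892428373773910667340775018998607889436971944064259988057978315676745677220503232281068551307821385110674909051348111780042408119301314802531056399856136006695304493332626781425678261695123103036306104764927829326347207389021954111908275824154381234836382212291773843890109065259089488100023651773979150217124637135078641486156756304577301423799486931373731575948856564582485029330535904007039153671077358432740573818631162094814174092452167673025958369313272551987318260941601712708264377125305243815479196401841636371332934357382628719721085885203842082885553757705391051876783549470798434768185406292757712722545469819362070709159508867744502936342475779822092935672185369532077935189582577054602963006715099397466629420509212322241273590000703221810517262863888725113043114484344712137632991712769313154984816573968106870172947528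2536518694991233292846537034065029827720328836312624951591911670592985469658192237761555243565742423176026479685423199797753595406949231449011297327006117287476007719145449310348439179069637299286209597512724526283592243633467452475886489756293885453976921059245884128315172911978073816616576824998905353834189588063093464505833408533214261649518994916578108761311673399344964160441575326294958282084427942084533813905818860204255700396713430850728489156436398147820388677659857495423001365045171694717682727266193683611935567719250880851291316176961896968279267188366737274737805445203262973180754300594553555503276047753061240574335520483143764200910756900944645591179262728379980023034059023271659716514564533023682348110834275982798535095934229961703501155755201493101812532755386147151427562046772120005089400316813030464390732371488712587178487082699783421699979243758932166588370724231239783503916414212599000943425809433467692152360882451425100218903384753099710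6735611249950951641252220580571471103200660579436655024106725465350256404568336040987085025837181086361854872096115947926688443879500284307511565611801249599995999148775823556634014210978578417322188060439920318538638226395118898048790645794178235286853192228969900060191128880039479561400501560033146492127483094121314874305025982778758924064606422406958538599853647743644029407178112673448405512625764260791858171481343874318969009152201208688368345113447801464632362287279181141747687978654635250608503890480781993881862798470719929914647251354568437014850210313781514183222032341006784703925390534332821495441382565920894731301999575036407257286994708812500528064393011173142577253624140335649488611405339466191017870954898875119560996847807988023660799685199102076810934893982571992843348279604338405685461251303875690896725502556161978199372435311619600776427133420098848761100586985283862959802381543450713196194691047467186274509222681584648242078518028395327941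8088387436438426079846098453806713568709770828194170776567115512464941876491322027511764663647812240695400164110171934912614264128903369651977976601458474101521593337241017484181097227403928643545309323054057978832565394059594644943133770323635470454543787481938581382627018439830996219548537625112513446379680124810073526477128365402481916227494417251233326928481460011039445753425340397205591347679071097697578402564143709030890195175082893742517869640827662051537101986290233724256889609349914404393483341012628923654560284282055022790166596447381764193022825597576971692535483698756131123891001129127347210058238555932520324747249633335585349957295387871117349941203554079520545264782651529527868494964699712543292836957057835671076312697942770221490712466468596041606833737861530652026125637785858132727213114433922083344494474845875800079836424412943456181786430270662055695522546130352475818782888208894137928527133995416879739082530281622260670389324466047196914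3824732581368707741470320083752960934617828100890895846143205686218694276703652747616522351457733953741170159246351604811635109173845792989206788465303658263679802656648969019451136782106778425939129785319328675957513258217085174821855931792927029873349804750450598478750120563194406129050565429349144956437818244071420189959457373699381516655027703069036577069259327079563723874574635103136693431757129549837314525709519862548006101779147256848505852156926460694681515247121280953943767594919219283348164976504811136554307913756132451690343469658818853063584711233489657831573839490455998370297785473866529056188387907855120219855511808916842516055417587606634371665821531073712436408412584588596154658551044086133474501920680232638844228156034929880968919466024036364382887158406662564618485808795481724204324902867460176232733150848031828016380697792434157529566197066239131546665720447020981467056093782424856058092284341261673863738727161962063315658555383061725402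8813974937435110116200073869359529548863494874235371389612912711894085939272234759833590164776907619470503100042479723148955511035314694366857525947090844409362603125175841426552302136892056080973159397009210182005160131073945719919319612803867852429807056880278974431449456906931688248148454162590596590763805704969520295616421857181796669274823584569251711373964160604757890286612799800646934442742931053426181193963643375512584055823732335360161762022688487783591736051083194378259994803250344981836681711248989695875636853491128914413862275382802471890430322817782805990349241595093262466360093303955533272577817779621156729561266580149873512877131836838800922790746210894492732836912774467268626744781884204054538874287570322897377419713377738232491545564696372429925372933186471208678684333838796237550665388738942378896171930005006490760359040069786092913523456357925884996094090178931082290340668539255010766312853218115000596647337877669948616578338163291902378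7237257251811338918705467485040655898860772174431297084770629717437352820869747469826416250006258346102923239494868379220742981183336894689524754327654514836198475712132177145119423114233863114530796769466328076416626503635786256319621290240944673578182103650178576373789305302179387964122375863045549478010299069954720130887764143375848037997377082068239837206555033993165792512727800243536030389980301597297229165378998901927630996104274331407480542140946786555795531919988090643732913449413276854721550925607849736156394156059707181178353826532797280239511329375052644923598533876510911104115640461227202025805233969871593105536053271727474720246644325751788501616914847373565288945948302363115129880836371645887982912700710393242581400727760865204227425182415822291944765732130138264914483785039319225182674751740870041144877393154270484625311683587069466405894824866087801239843972906889551920649235640150496898136971587646675630397202534422318735826078680219897439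5969676615105799425176409609048995322562866165544847720834104322459230468709535707989694094097177065687372382214281669520298369219226283958000404731482683855094943833861795350693954548866503350661183569553434806624873247520287390587431661343714919689391085028419544930921429230815488760245741917694930019210293059120321812051133298826563788413026467945957439504903099248348536533371918650317511467009086446522993664607218700301965923610424905767543427044600681090763208849288737612790368511866497272087778087021263345997820849567460088987484730406907285208499080851982802647994029415091649613581734915129566129377616655448350045254432557911015794479217828369566513207620703010774253253329669022049526972479774690315601449684072695181211883324779104105876774573216511163833183327392305501033641052623059010852852289267024483957677387217095564194112749157002511770041339286426452707124874849431326527899644947474396152289416530343857342127625594800224918161391389111920241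7341287323790639457014126912189458579309309848220994370385103180028001171136430909979530385925447727345477866138590737074346243522175907335248614238838921324763431142438148767675342273861540068841735399826466004370042958721844326495784830836088404574125856904432036638612390400546865862350701080760279649824338709100802897956705202063445627125420590629444774086033043224603686792471248629993800814019435467912324118310719895876652024598561608286040276343311573433228101978373389945773629019480211061950016175328207673212534942354542214869121910950720464365117693685348735684404281985515100658975935567666755579763344458084414571185105864006346180956988205188178642316767676587672205828830257287080529573999564191529470840219670475733771856193225290225261123893994807256332723418197140579123387788294428046085449396911724098161133561502962219307528604000853842795311795472580991224360460323095966394421186702454005628352638127346489804626130409702468608617916956650878035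7956807819802656137042098040895287390505498410154273317710156789624010467410300200173821645656812226445393160385335596954108766418189037010216836505936480841764836453406692623846701622329534172910540852231731784883277584977079435471519588448841148275724120630290430050620506126203825453999628839529578460804504740751385774669717831792897215932306206501740078671784109408840999478714506239830038358293694037242684384617633408506236810945903788368309293662268245932781149714169067296801873043629348931111037368433889915880072081753861294486245861804389818826284187100256549200751654662269579478365625957821323468019588829349028532749118237672019118816180631228166559107842222781383264659203233566493042942667873561597142015735165877545144302044707816862246184312770651246454370940355779107194904594629570135560436397741448944727846780159122201956336317888620429712115182539657798217652267405413456424844497660869078807661388450943191166843007475106609983467939459439077000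3578914855228837641621217033554870919104596209165402680568858224839169628417305868502226767522355543116468804999705242213004997126820010411725111125963164796833616711461505204407265054290723541173784191333528847712420957672988907730231913469853950131114510523126112666331991045171316626298253905952012683118102240436399494787588703574226906600523430773080681479435869988542252788368867328599043144835275788318534876328158404896623932490769883746055986140001892537806687360146748964430970855843175117098130812759169967146739246278662588374255393673053127084402717719594311739826842216606975275605592236577993500232095055433051862279449975940708212748173440253982298805429619216527910928162127646016228670277151001332099514202977189342041556319004497786584384317462970920202280124569007256737454098269883003896853223990990229235812021184252251624361530835093331567206899671777556215512475379985594924907541899974924164102436980228405013613926139430966246865258043046806885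1466324579189594576957359758871979656531800194334923257648958571583240231205514182099641098423146943407837050880913600033428364252383290842247916767109662881907660355722985109399834531280349193639283336023315252575712885252492770884448252184324608190988005006471734962175974039733226262671726752822931187675259837526499267060262543312355128041072275629656351008818930595597584710392125309462972342976225841076522078002676250516408644892426718656144377117750645895670601252873730224440012316806043039590440074319469985059345593902486339890657113104881208988049304248185790470740708623449489310528131052456872015687571834612181514268358525798005648079229928979205873512788863528145342786740949542000235658670595027645210355890916720821742311148699595020356543367538414304940566774352512702095005839746098534143481492872904254181829216063274221324274432639993101438504114940362274357384580402837488114468854067270396097421660874715489117167136042780598452861892625215154366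7645621639395881174553192018982835610079763513273240941964234670993810240278793396436394194561043454403180139637781024329721594075852578686085683503168698808002693355833046624867198834183691616133901473663542382173109306564223986731127948848444657634827706520189278541148111305074092120678252848054332795419481829433072120474688471794855490410648905581847814387481907220184714779228069591412716664031432608711106203924465014164480054103416491414640295769573749371693207000902028323742427102603516010104804812284422602758922610225442288679490089418927614973799479163781092487892731959159486318648269044374324158823645517706125170082619089351349626175871022314562061931207026089955703692220643001810948155760306166382069581598755471469856682838031886226968121091596521321490011475418431500779598564958773453149112976311633529847410467945571676519662663284640889235876350966725737155769271765757709668102966536009568178722517029043041346695220819051678602387425825626217479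0155257448669849480362087748839739012982574493511270307824430930502482531728961689812879515444421433126584389782773843838956243450997085165582992837999887038327256195439670399409540890776918821125263962248650436325878444933565987538265403589968862225506960399814971299808704700556114775519372204147323801864086798563691471504979268933639987723750277427820564984871910923128838955912548859595200468876287377901890561654788639922246695262184857906968928725600239172647221643887686336906396197500993143318199652284145443902637433968794560225099757920056605572897816894283688634533262621870250174517269176481219617336670782489649666693269111350074408842223884222793932823573327980764730035295934608865328238346849440839225930276345341824137846856748273319231355485625708871090869892441715310387165493703207805232101663238362306782704567184591234548485283383531267148787447243067193811672743270547446779123375422459917472161171356691025430684912028369496427920019522954904646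1267101448201498808513676003770691918368353014229005420740118936528085268830468589011337341053831709818503082882504096481010531802346357036069303534668369632530068105354748928762871161002608941734812423492740143593856720842689750441116815832467579126064903131149493756733250928805121590944018906428952272478757763443924579661383885246675598903648242432795798554057428841730680853823834154766649694483590570189196697711144547764540750702462639855079876837940245282257674163722486402574198269104271615658167989232722962911032871189526659771742514057373152416268934878555750626240730666637358475749954269182050978135738577165074341012325934320383724669767341036491030964048505340274582514013607295375777146761883766432874647331628094357873567592139540531627458780665112390210459402563159707338478324432317824040888882127920246161638230050642871764780249483610525383257903925409173882181772212010760564544807840483409770185033849480352216599274072419712873166454853633067776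49493784887377868520863450869489927908388358103254295446378666752906215667036435103960953311142811468205027166874701050433440409121104426536952867014553951871181976827888729350338029606090056534096871030370268370429274259631399210149793347983361453792461079882617492002022385420195124763415201270165429855734192932998200839681358411273886728782863115693243465582309098782030536095747905191740181377635427530616796820973091936774893535251342851947427071299835964659389802233985680304819618929063293153555627395514368)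

noncomputable def rc3 : Nat := (nat_lit 3208214510474152344689145027676860377351931236979405420574455662249025468327222159156309836581630221530835918207377123963395900892711244151132222605265311447717006350134815401989057812578820944747672920731312238516817188217375244129453241388376066319080988073036865191929154835408146633317648472532892854032553827768206509891708461368294617947060628657766931936323076582388782589836548695327830606591617225727456970628626117964204119659690798396269874990842691735726775733451254290112153682551485090283800137805492493614455443001365659580156713416369062306517666685974500524864212265171901300020419677640826904308610949996860086272046569536130804695712950550138332889007452751130491130112743495542752211940760671790143951532582835693850627541650886416670090895926972759566446422440775977185494325059231735249540644726418043186501447064017257007579033441121460164239522791224428207519569220099536035702101424135567271432513032948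8135403091944364589418206739610089805759706846928618453145451283740619359039983550697917642643804932398334635772368727419967691537446293192694183938090372672919175301651100911985654847481883923733302372316208820106843474961503393913106428240554033728895114988705279950588252661194106327546066688223958840187498732674965018274886208031286845306597290204500468024407134910348421331038302545027594438080920180415258520977656990914518683238572376588398173167947371407829024785185778300340579519531369759043770984813794668564877276936540698794659026493387612078277701258819948778207454993450794415686141978253242232997467334429043166350192674290931333948676668811051541966290839802132161260295903823315824244167742664466067777564451410978598285940921998219523626213792600067216470142397986021166686816362791106449456225079214216654461683054067628336258489585249207868980206915371155797762095972056162289828034760281866064064849149094070711562192693683579175389277818997264768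9376566668935518844485921952422858245057552995191334778100297169955248175258726853559361335941907758867099731088015208097897136873105423977149557561131494091132064017824964819868547125106102627597626757649406960463594733425905991619657373236209711638679492988524170996385032727016855591219665090931459726838464259396539175996334065591791195518651547176914405026292066916747864472375834889400712114014047065197455528776952345884752713519225418042837644901118748302343308245498089475084324758905720651013423365759311391626960979541462483266898872247248882019347738984528802490752291354554426453587159545241053509512667311791448095005914391308570904864603949189301599610765411039101671084333041484400862879299310931124689690905935781030996107647662448110808020978369559785628380229638301291178157435274074661797693082385079655778070393338537217211710604833791032917969315773230283553527732598424042517144893136710647840768157981001851075812986812765638680465758117975751333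6240533963924387887197021350943023017623435048037113074497258329956315635096077900944964524778492914589637540603205390640796997100323779032796838980630322261218351014167870665159142452775282771633244606421497916978391198070178932061302296282892564374014876697263732961339224073689199907741412009862167202606476987447361598893467764906024441204161832273319238352786304414308075424486058087381797559097663808400938963463298375968548915152330559732647794581858420008816036389802572282001952308720375106647696977735552902769042593520415105802302732084272619117229572952470986964587430247161027484191037111240838605381740159132902785674856642782023822034049649438076092441479238318558814622622108756152127294642122393434372302195201420251400393778241322795434586930328765739980563330010712713125714009260312472313850348406210347504829840937224795779674839423251653357975396297134343679458670583043488009548276737875800698596922940964448307038691457885713571217312877371792164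6148392585170482695491018645387880349081788881717347397642942973783721237685228832138176381531952826425410510366138663878648120125356607968474597403067929605857636480183160380015713509188076324925602473875182750752880255424877803718378833564372492167888874867521213385106189892422799234075459167705122824929646562984742919382625967174962622265478520073662913381399781434083710721771915706013544258671675320128063772107464673166159812616009050240113243223193226863292393830870613572106323259432911969903586849854347409126583983578699733106694644861242887598078914397226759332787822810473739974678366258699666625022893759189098140339701003657620751041330690579693376435739179520123755217590984014913780926605583840439807975972137467280750258106308438137600522548857927606632872771240930064431517919097507739904822536110592563619004328998808510957099609411542812480925901149126418827048060014261407246348082468512362470927182391130898259925150286293041936576251085877761148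2392580614729031610830751518850800161491069983589950052816831008659763753414445246509610711818634583411388766361820941687739198084871981226178855397604786803662558919681533359074342491999852773664815990383355862894806965587027045539799207992211908429332458957593924072457096491336217959568903075738009227099904677265735836054680892579755847875195501956923026132865409635085714145895169679773050218031311959967702639541236174801980422815489589879850516799158963863307476140813576452151247514023241714919280366831490902657068357636364850224756931831930837610905704758054480217820443995052799499462917466749169159446316398398110077863796111064910080426880670234871458882844878434887305607482943416396639942451470488120051490733905621778420542242454810681232911196855025995860832361367112171649570291338080553681773935118265595559682939301001514596702135102981017926932328915167336556072767927535932594871095824631036634291271066996759603224519045596713907925992044950459119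2585999447330483167035848886435086695513056897310721308303879768470138893794981524579701810276869785877656030560503301105283136000031199069152017002686750883879696419867049014789371829379866916830136592831396455082729694150001004558246778959509715904609140332971896864527328648529049198260151281524697699696704093801423322071404422471605826159811493790285280413168984122186191160534380213767717103169049269936500389650023929159587854574654283623024034339655195481993717220487226481219963270862558195273552667797543849974071271099867761370512272775509044545514994415383139692080182854160269717463606893314230078731163688149835921608814023686375274024391898749648338805347329012465318399328109705643360857661859217683868918139845430660423724877164449912925559312147940153645153299023229935147871257328750007344424344894032150562901426174878945094493467972038585117193371966338168275835096966295305191885535087994510936433007894252345531798521716720756443272315037995608578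8371538362772237238460404982147993904929344156854797215670730487592200981444055103705314205565755364827849144648222298394563910835845586260355959785445929565140937099218280154690641750248764729805205200534631806645599510340193371533753827484051051065270382213562088731522143768706063521965051753282018172495312142282977375849055777188785266216334907012810705379711178402820556720309162016837785535757117371588417593839486638488805484880013313492679534232690569841017861423917341758880965772457371809378333027923000676534071283936966524490385487085082759664824108690998514684152316395816167488066234696479346296574828704817381700307494722547212680222051735443915674542734129636612780725780453461365636406165266780421935944070196330597629667146755626275253467548803687020382873026115882135756308557131629655915716008715125371989197149912714008422328101383139313251704592217434601361861352558524264308770217031239714692557860952862541831638511946523204339743482640652580112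3216197067507130059363944928088191451644824583225943961378928157232974839571393591347568722367549016688203273387678666042763838262481577441962654237449584178155978624798769656414837394457407110377338895445209751177591759684320160128182776131147147179228679049866062099557325248333111934842816323259630340289535034592988229106789314397266569503770057203748093609260481640464914792467422041567451500757320381660384013942538695094669270112246627784148738733709933409154624901504438176027620555615763610922210238192592185217464046950746094975863315251324841262936897755234618848246525942970234222488800742006862831547923298845017126842826505539781753283101571446815761977502184032647482053232491238769053422855479410792940165407125961652737408492790246462095299707862094611388281814981130256314305080659748581927555153183452494273499717386527643838089052827631019978069361676691793571748202709468128334981908855139331501074927571477709605204841917966463974490121482971822963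0447625613842869276977509474966757149307555519980504999580423647312821580765860614680346121193707474798730823230652148221799703014109788864515336500624062704604558649581937609899391092834568001437712845561952876022658106726686954990111632064314442714401959884479368588170798251060659690297805107784915777378058055876746596664275430509906233418602024475422312842098728712163328968299803014480465038966036193158803481002752072007780831477571309657897995059943376928164842807264578944901380841662614927216273945371866404113943734757719982450145118292366919226673237829707733024941431941787786110522645255833845519887284475230639454704275682585193915666494664808601370121288228608150260719737490329378424696233341212567071122360189740945907974931537367446063363732781649230809297040800040606474434620665074274186865109909234187995722462769773197437455983755034583315220174549684387276799741510266118122605790468484713084462028319112091943774830058613411475894632667750726996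9153933602043270268503978966477156341640906831320753224540640706063210032285929063274699866722066050985785932663970131357598421577284633019906337177345870245959033578268401380584005425224516714257800018034879573225895794745406520635062530201317956624708563190740408987498386439266444379206448321286590868400718085210655990779646893857218319241264505475106014213016682328739251352034223426967854219723738512783891106093808580986256424247010103949317496283362698917334732826883631005886026243009489524757300369491955380370717736191303874540430274784384900850796269847605515383997662044855835537689072854495007167725328542000551610941152231844432133582484592154862480916082195665135392575617342368819785463342008093795238061516514135690080123225993272546110599219086428972697122639267879922085186212998823998392124760821719390258969444449509253006351236535361512547799285660919017723747823008018095568584710289141045673291080679828539122636059337039739762618847357166706565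7947511856385540611294917044699885756715756290115759700366028179718378510243503538060965323515501377144686695763074527095965289557098054468812784535321001042982230401321035477778196497604490905053749816219677311417840073926943531177361121903012739507146779844702157251893327308889713575506720051800163363165583255251604939782216522454698995275062284821194488051916879208166344769446277646099397284668797786706968201963863952264294507663808844505924037820879836992247690619943567631774708885594907826650117187528210054207972808155966052520965644772944421413330057418565052702257978533885545430733174822497582184925649199311349023682356362696388048389473460886451853746649848552544464894598424369536302387156014486468556843232626459944558637970471131585629106229544094648281431380334887223400879552116773629311936761625587123779258592103984674585206874712595654270690513466236542063719095574433068362501531615448396464269675685568910308436714572687212932383751283506544346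8469883183493960096711526343223827326222757787324762832536388091300883433593273727227078217565403983270551591763202118716594501389303221956095623856442125821375383307102410926360833684409024993245855335738554167614807268216808209761419273399580810338274858158523342049241189558787458795639809233843691922651272920737430179802119415525783863490273469124223300917129574757104265102222466597265008880056888440423217986785844035976332178721809221969621767486660222183927797107489935986780241104937578475809417985496429019144999219817241824877153656645904545469936110916104919833123846886086406197971882068310342690200674224049459041694288714298476423468560262716577796937150811280448739814591969812606172836518422993281914325433401944878848761926557378018830313185165316590196132329057518941806493405551491210283904944451656778709278296383326694247755276031464294662622409618870547004468030755765295125970433651895904925315209946025280592231322153726069643802168769020073968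8005351173827021789712803356210849719292457703212393226512467555218496190514654340991396600924095302283027221317035490479052560787570790242062040540690367868518751020845467903051699565121074060819113264724601726727333696226204164857165105666066845412732871314794094875865328437688946617736724815542654276918205146754639928839665981154839121709760222488473459054863210925964829525167678055127248654428390576955127499587022954919090953266654615150474877294269040107642277476032989665805235651042211045324514415631468857480480173195030930959636715945642541767271849643092853190944304230435420293720582729606699991535107716468099438901459560895673243362815611210823873049374785971724949475722526686657405299615366886396696856091975476689426194047938894237724386604039745782043732221060757061518277647128902892027402519247372731968029130014737312157143418480539913161110227971856230646112614373841997209952079794752134355451838478667262616963495209673311007514246358423523414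7914755471039352207309198498561918638452433219856336638278581051156154578731985342654220340216377162359294837158982230904381753337027371579707341471870855999988178601136207701059906793938723837942441259031232248471374908944324037023918159391174602365610830963680931858662232755780162926604350361637725922877168591668381291749364974996078704929630972172527545005677760670760573782104161675408235399801374083839587758546785096411361964502313152152244886447108872294946991277231851209889976834462966138392790161759278685738623734619881926657287417514535103143248687500276714505674365066993107474848464924353841482990512831220989990981499269604931120821672103812152621598006906799600851261622835261556034446907872904109852059291019333369076966391244843603204509466488080936920985090544662516679458604363230338916933524824568082111705004456628412606423994296502642207726626971998353867288951061518664431259893192318431604480598529582098340215715341541572705040940145726249480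3698898091407778397936491126673330652974081929334488573466650313240176725481453174278937479671657132521662689961672725542977726164187851917854687131144102354220802926518234533781000144185118429265765100483396408487692854181849279536214510461874811835612802265613067056416899759151101161214250565413883639734931972769941500844957441206639412811369801605197748557490402765278572280950647096975273981553067486392093326228343939252847496463863347382004028150944360428669937252583588346386388058271960092717311516970874887152989135881617161629751493073598488505830243442532545482900237265072266458392474256211631069743970140808050528285648008283281714460627135378408912875165968079527321064602524132500039510180833938309361972644177761742644916073224130241021379649252744085253904601351184833038121356027529390474336294719629351118684556600318930577290452483611869858703851559004435884363508504667106889259057760948467864354441322559957399131241022501342171019401876133172027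7999027197586436252124423003919286343852844018744643737340419942820997041409743537359051800163650561764616740626363478959037313574632336651015766188506018209114494352416995586038561518924857492506725754765120293036126105414035975248919325719512355514849273220832278201243915672893485990464989557939734163208797262851498280062981872278608313794342617019316087900180204646844751095249108434640212272476961156478628157453273685319297913648435037822304875336144244297583902323726812518474255058977304612180404704246719457610714577663183363544884530497330444831573459686741800438112653384534973036294352617760484423892856028796970576079333363992325661141885930968399533583139557345293232747480136235497829239877419592958987926874089927770002926284162815564321303874566763510568003219428862629913122046445524322597532065163832607460201991171332086184655801820812435858006107091491736229540321879185253260523838278655762209906933391968005580572363961978111866773527960593764997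2055910140904946123658591784254181485170281487754599409966114534046118758801056003834221590171079469753657273140154370606712604878310710529385467263072651072832441851978517119963763953781840210552610873838324155495705706707375776893745769162500068636254467916157044062419236946664342360461049623453235986514009461150116479258919262254267347105834561055457989483254191571800046746380833986785852033088619680896708261255082254944736983751757807203807176175900263884631789278990510577652436665960937812569159085546352215970904821678659781824224617411137092395749057680050978852987235706346092504025045348090240623914678794322979108468461325783481923923682382548230673189351829802135938369122149351168749213095673915179526253935223951395168744157397340162569611766819536894258823549179518789071515134416608443944683237125384892528519391220937536690807446487008663869495486877140327688803156358205920130143251681046987932539270890023256447041231899826350631902584437326876040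88732432198471824311954107596232468706681995166583991065489858770906367368795866538050063316582688724301283638043750840465296555364748058457361965533081075068678868354419958914303384130276560675613671395475970639886739903884603040990862540630182957540134830165048539747714611390413040605590173972450877587343898656400482664814038778923127334138436192472779031522955330973246060629757300200127185796003136898808932471824148084052744492899381769277465236179501874872358018050856911648741130783417551212130954119217152)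

noncomputable def rc4 : Nat := (nat_lit 3217744652761830983060251527951100521852161143822962601050439071445417433640348069819059889894097528963010552486341075243893745320615927739895286224381713329296497435964800796509137777159602720490424452104067870164272092502262795201656028212613621282081305167845089911801898927592110756412694041372385467283737239367747267796934566754786113807451055976628329831661090787623978121102616695299873741610630792566768216671534737227471351715271248641489696662118481682326456200349057905129877685460410201767542344443354123715059010370180742829698583998111159729441532884257178176704566457446045836760565535666522751575669719932079565569959413028665128005707082116086462476884306740684092309688734218192561792977352722680031926135127688971585306989046192673631917798169077140423076311307719432123481394508433462822997462497752170377265665527966184181643231245581988135539644855050856627765950966433014668971473648642972344386744115990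3945591319725662411486280949484419261173493584886873022040060016373806060945515809672444984183065771324246706388275017486052926347949989003519896752743511432328060695637003618127767508041509367735165575671439243071836986083713998978935108606047561280184166643323368182732591755909845085284649480165716481008667872037225807733249043883967603374282347036858305417745412361059522179632258738716865918568394155828088802104427081417619043428428485136744682506877937904457330359133670357854307399456327190853903887190149937052235252421200034449645911428709566561032235586054462341306170974171905914623381048226955743059887472844570587012745805814275460228495799766381181059470593621961693643194008642035515665474350049270384202144392059681140026198934443033623194326256879124617702956016992356150410072290646542305173602382094230814606347832496346792769334118900231259131282191014431480280709755731711278507315727235205562585164150826189774259858332310164526663046416769628378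6752376148821704405747427709359177547851177434775776806381947399590507721325172327547525860770056515723560837760438373589305462312597131060750072266860450783828964521305900452634008528751437893722470845244753164568799018020569940945563850261006028916496704418358734421094389161176318293234536295115768867310767378787892120706403750344065811570293597130350645873385973767613939615287361167250393799241478636092885702186854127765268430624928619371917506263342330357038990245246801492063486204643135769830734593363932348093023778264564230398779903819412040341237377777123989769276377872761811161578072171665562253082398879191401985232458243078413039870911938432398894526937206526029722781192649734309493984261802901197547689099393634808771534886566988083522220219619759449650793239580731355303904705095886109081767335410073496302414329665511010834685412908829194319648352405731381754905744134799442191274286667369595570837431666454192932921310178580339985138157473204384518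8418476671318867149149892793092944262305325511991912356832798590687178988749917447891782642475195562568899819019160658025785962599874421879840568316272545426133545313185029833557344914862401875413634501780372420261281142944945520845732993427350532949975671299513557141357336493569623370236042056326821432671557489968423953698942206498150146361390090856906005551164450232424902242247811095741092392039584877453442039936115282152578230527639117888679409481752434808120479301818593980356719700201601437000755029293712490777541337679504256557579545074091316488158067030341808859687335943841629806332776996326864228835615284027859731601954521664356967495666060922208340434099219625470678811272129442081344724844061347737122028634881767852938912032070710323333217198376104714466290298663936038269067034434729125844658309800575635304888894747678863647755922001746798059345058141429804877520302471918691358253914759610388133845477941387148799757977004006795457105874038200620856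9056261147122982183061662424383458591942059352024315339158618551099164584582387232714098785185000312464619505578507055459331265312986814392580740093355588905687579039481631370063856293155209010366191935331358793702825089729071143477029782511873978426418605933356535714136735982557523333748916905807959188013050839442796617764733939587166857138232885658452796399086519246526258492380545213876743020900333540528804955050148399455623493926222820708985251489617565174400700457415690635801935307622970197852077515379458700664090186223794580112747050789503934445811557200435288422063047959901462742111968038061791200710627810354322643009440542282739604756333486060956689348921176776834066529721097704136807303956883278726529853024618295386044989568422976887576018587809519314871364779659619297907268137066331869703350061652329582247455837540946028219528722116562336082270364797392314916519987499643761134217437290991980754333956133157153730336491533106044261987476696917831511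3787890226235570459313571328980157817675945506107666719255179923479379062043065728094027223087005833505480496812074269685696116152022869609848779569994984500507579227998042843900090513906667919909941484463432018388943281289282713470189086916135961178406472518769873474757990736886697672111581564509394185167007860694958938439098737754180760787059307744937952295643427802739853588219879815861746378611977571873061685298993831520984339846307680105269039220880768386920245310300807582549875518548927367985715952786434246896845999618211452294320788956684431441876781794632159419923097869121897536452957918540965980824100766516959441100325018399797137283589844179000777112426284785775425450100012462066753665651440895111472920321515027594136452067106735998308600344582667734889819637208562098348626494242501726182044822443506182621495241249433435319214854679273540798776367866841396887822022393157372171837194942208899029876758930326512269153772351893944722609398504771517132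1521733826977664795625453672932438254636115731452184429573323847517485913569105306525186540662605315401738925358912674940783956167259423057836414955244407205012438656194821873911710676866264877745811749050613937010795460830878953974644524077059847323399759546044021518203178699861961609582316795742587165710013785727988731585889165703112823781350978249125015934804355684309512241281325739873763666608303340190991646415745446854832100821311889836757693443046704009692071086394984813596243884421553551590574123845648263206863472505745555500073394662124669665224434278713208451927173264665548252073284724349809383670084696982795575794969411265286691594864699831856569344034250257878794404039320231080580491380971505935777702920751545337857320725084355240260522752357474188754948550696066000639615015296322192265024526005023538793366583297879220874580249539690089167436302377204395151053588584266181307530401770085185974128355216534390385197144069166394443405470095872037095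5138615154197572957811580614385446449363132797406245237295509430396134425415365992676214871844445438159233766365437621982702824913814952920899145117413051702239938590306999736992857680948630419304504329610532745746824365479412330897671095450553787802171286973079066066299148691017557947578561723740494528226505753213002486233748993204738337885803623476345465992529794761203899632151010866534924361224546611747481936953107643033457285284613098584654633693851388446923662971402971563189554504097553952754560933509703724318003073801561240879661013398544539488027853702886833311388319393970631610721681178378058683825488675177430277374965686857595516955290711965430409133835103483836830191771732011723888275017787381488450101032275781819825335643485549006365464167817389707462630052054797067859930862169422905799873457836709859827069538177390628580891818495831264870541018117074676000558991859583797075421380302415606285244554925600284940695299011022830021077872699318894835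7154928103604554897306887074174999720994267506835504471483124525604508285884308582982343434297056938041362989381093580997964964266976804726163364639339839316558818267539762646024213288179316756961115606385890814790260412874464478660817233226528820942451632314735474922257438056330244283009252279659118970480428915697121029519100051579749313416925896098172409091379449949710232868692257156357411181983321971590794389202305733636525948919501065064734126445459259054702779264231176276428582599033550376413401874129095521054436907579671678759474294934096089599323586971881429013371146104644472160178243404810511341618189482052345315916521905557898261752141438499677680127575542342696665774653874038387114079882430281393071645518852490344743733490194892340539851154112137410704919391943040262725769841553867310249550881601717871182791946715002367709239476361757298536436992275696914666868551593468951679683559299958255211191051407327473186781929436681219200485887065572836907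1475370237619452208423769641011389922663809513822791562297057386475696163904215909647550320438214898328046020111708841468179689975884473441788975026180368199911490772718780420758528389359642322902108443602125800068749322859606395066281542579304207169544476715391748641437196753720147941227133228245657470286963102329794424178707602549812669215208326554022805984353862219092541592438130275555896580799919339439158200405103201107972085754760211556570257889817082728647294425775891160119061468496822375302097362868062530112818410795938202510776049263027381593365508530770754928862052986994037197113487243243719533012852154994435904684799220928492225059647102692408505031491772957789330850308467919143438091638788380305428355153855416389846469591229542173233421709989926188421494289212550814642787176268861242148813789964113443215814667508124090185532613253516847918385843182372641454618406506136156744600803006345570492959189099399976401538839601370490969156645841634821569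3607204435843377730684882548125514323467367615702602666681093747853587164176903609896551204504702785143266897049165326665400512302154562263772901363646027553159773312909924159836185475341166550066650060900900389238427514322664617150441356704887876325371729400321431735547560879044984240246353381124149449662259238105670751205891365064372943967800173020844535940788853991357675663623836435804500430623683767202979438004902217347410140076351670650044063562807403921856118621423081332594070063400322922754777567854226603241135703454052120043182323759501922230261227144493584724541702461856325203922638426847346774437217746288336119985324585417479896214482252284654171706830221665657723718633402324321277213451363527615963908919995518136803274853728114263369096111072771843942903305241450495029436393338207437873825913610523575535835259701917608655632609519562982277015302592938377877353404517607575329577207720468668990673327042959021229723705917696054778541163012570383251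2698112918338890896965046982174324958032692488410378916783660689935675065780622525335948375782188886829260153165405915759591121658629122527515875575199226815050032596317032269971662947581674125328595274763710330060155742380557473934340565745452513767565380903572465063049006566676426905823467246306870512045336498283926826146108540358271290438382236058280203318609153263893732980023367328510114276368908851534316026552569374454133518023672683434256910256327334160259179960599930466820697602575100854757354515949087710696990666512387822338834975772249542659752759815560399700448407743325685055315873241223167526560556006199014864338758698761740097688533222302138244825498920523648654018171475681336731730504543326494156580567056882085628122713750655349244888777994966434531435875203665338886329149588735717755002384885608238487356058744115050480384762224176383957853214525721309009864226698415526573513275103924926584757398830054025902137884721480807546827766315782772934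7069248690026421095920517565507461216572829839138232221298909367628274311360237530197454562879905728576530086435156813796226485917328656711049702840129673555425459088022425381636067859445379224017389811657733193449968523591082771546666595658175436987781706915673942341549641379311875240729884133908582489361921349424463139741705211337293632138433803052284366732358214988997548978670453311863725788597101901748683034450712151949541121115660374224240580274438492593951135169394683059781263233887867372603981510103227632570061015680225152418463316905045919094937571833715899877519083249531518722451169559109372545746403082864888734511890391937660992786881489643507826703500701143541281395903536038091328038302356477788890662517149596652653704322981781173558661843322352952937854738171210322577069877426907291980188975217011105424480009118728208150201934601968840818520410128353757254981792681457418095232562947283534158176715660654843955172177685205369629041020159949257070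0166163903308707078489753519393413460712448038442154288162182970021885307028442863074611776057413238330244280661879831816777429369681366088763014156842692251408644754797169107335493073821420391956197963896923440454273013447904409162207639052701535485414053034941471197859416373099459821102246910670852642304543270420284713174296754045026537383895415521673554884352149029154994056255263274764571475270210318830667340936831760995435758587096711570093556733025565287628717098497803573520787377624192390078453514788000394356079908128579024160274673520019028886029617152398387916296076899320209542713920993008585878750791521461541450447646306549049246194400445418571649073157580151699322052795034725807579006713817589458582787937939224579133083183614867760873947685890338220992879869776535581613649717295516039888135502381464944850191047801969638837363478740824462080712048572902620174753678509336328688865797859525490723683660873948493763925163465583499494895841287839501534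4890245686274110627516841935859954862427830687706026294234581881101489471981086948821475992142958903647640867655124299639887288551806478420160055535006262049230448312589441087973285581645577383517633407114460948581885277671589695675922244685081332444777413966860842671429715192160028526976656493996994156854348734578273252560663350191844142037209007169954709747237057860415672761166706627177364318949076963476703115714709741819418324460369926697382947320082726910985761189476688527343223932502959233601816311113337293319742794831925129430608979113509529066196375409583607097601081436646174421135754595273978976774762714605820167811619832343005036616345670122058376681252701482474766328601236434757794132318872024186740382632469030095641178930912076079569003107155695283314371378865235269284536807147023675853873509002556229975437912829203020498039771963290704886051066285364949378710242600388725989845755164316709786803775146411676534998847811189556290868601288053881382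5676902037493111063924687610801072376538149604915348301200522877540434040690743144630799829662350878754760254946895272479820945909749849656794997642865174105997408364374077010119973462867122762181510305575422645593039201715040401544860209178860764926786707650267926828421031978250736198367165549245847320574539278415400268997352924092383797447770987913356030768265017449040426539927810715357544840646508288807394805473522175261459045010011986806313760466611701316889791495766728120555498141616394469545708302717848505999091752338590245284030018421958145718358884113206959693424984074464932698839375049395410013219988106833117640082307989374873225489728040501828062430170952496556977671594935135850402991903522328663310337311368074655682535979661705293590913316842806301160424462638077096487525075913839378547462908210900082203848192418471112273811366984904625799569687679017820575115768960570430746141328953171428261218966088148497034928076941013401064556038544009832495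3537841887755553964004217513418808386595658291409354711168355065895976346985956610727267733163249279466744519753593747255789444897360198587845435524612514121500259586517447079402809681586577646012258063773468286278743939762728334318441913448620097157062734072737019679400641380096497414730449499573448750723908294931635818565709470244276486570874792829023288461743807474358096818011004293912662163091723198977271043257870578700488685942201901493078396052648879404436200881430154632391957106790466014372829053601763619152849209646763594310437164829654856187873113710666125526073624051619378312100549639346676759149543828748442724541578635749693930957788212838473807740647693711315731342275818284300755532417497243056295082311633562197838538350682286827924203630051908985624293244395422214565624158877316623877588709109536176539470442896619787523844266258136143522913478001870159044029214993528425136011260045242192730143644518258313465632344301145454192285587862368503741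5167630218890697748144358400823253048677556951343771626455673608477732250977595717915652951911842511489172510511273029663098476520710242406982358761350201878850269756024433625875710401786151291095936919575380079296751104762928812907074204298445495630971758715420852599034712674291630494991917100623401382585385658033411065410934888048144956678953248027220507556222512907358916528563584486644085484494607449923196006238186264449498638661050969676208043803437733993168426097308040709811333311500950346463483386806299300261700497701257204541151495184788342630333128396542075851841974826285318747900730056289991202276136476887425789046228266796785459092609005734166685971454373632958650294848924115627596871929602235890231120839680672953069725253835631594700459970781985746402397094577044985763946396865578568456712917926728807649978991610176438043480638460045832869935057976289140684767798982546635290444909430184909956383043859543544956749087973948550715196880345186595823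04887788144536245324319618402161423534242506250041373375870657439086175732406241939861827148554803449598769449639640481085060720573495114732970840773257020480728378297020413958897455479497635828611907679485408587400594904065525261597267762770267090886981819758204831933900990698985396320298377716145558274352914320601799068064411563276603415322689260180961704132651058991470155536243267766983458998350015946066311675773014985309451092296000091427286544195868563968078953682336418241766800471750928356897150514233344)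

noncomputable def rc5 : Nat := (nat_lit 3227228628953851575980032857779996426283961904269026573649537107873792985073684884884553448111105944991516276175343792981000854167088262220146379678493431214939762019986128088453584162091730446119221693264616063142022464393641546531757774201776258655575887375564137065131554988745616527410826713280605893404056761932398166230684028842631637056290663835699755207264104217226897336968050909031541202050996600020788820193709923669559720958691670275207260413935125366427675482247302509114095751271294391798339347878256945233584573994274664212252152507798147250409329541528352877146882720598459371602133724712366630268231187454082872644757170324356479418484587822870629170304700535352113808526846491929613609837322825351964207656171153721311151848141074296009181354362451491152282236103090964983291942906318720963769047659767304587882117237038721874810255906255023385687636851437128488648168855675743214072808179687032154732472160369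6651816149713224582890173652459837374865621871852631334053628164399237557408263289835620277019314210529975271385840702093421430871420239237185188334005708418632257213027912688583842728410762203385905457065216986826050715361299964889447188897950110083558273024980048465522122386772966148332462884754084253104040539112459090670484080363388287077158903840614481065812031053071134979333205710658753260299909619491270857597849297014758253031746790381394737278389081558029033355258332279754906925224051732431623647041646322100887540551853064555343281091588267273036986823028221927045375651229408339450022624304861746270882957585423426470985452322292480283264034623700119686047073162875849338125285880018113823973552955612434479025778198054426714781968693333365046300580125288674841585436477771629886634675974772200802252953234767191846353754529579911332351223593175220527365688563380626241249929615903006350363760796952926153410204541564577122395470349527312769740618962259399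9021156405253825666241131121317367083901402428170233497866793791970292089952198235638942812484238723075593485384880343311238066975664117158654433147951215252279985926130318926165179968908434514345445834969677554784935009094113219039681610254801248245737939796206354396618015178065596821026607854029699366409513703344611839219932453631878519221969873058245818652071869261632271771881253845413212445540724926775752281065805447277058442539745935433090154992469971478563747275748561323749716392224067400772016815226580889330881950732968975651978839941459864596287971250861509802545789755695331406623653170523524903295155186616347569613046282209155242143146927115003446179987499542191805608357721061506178014466317538916255322433099003781037050601015043933324294613790886263470551761870306514693772066375003213200461648991755838883617669385325722445147521548428127862654084387143524714010623680489766999627419435394411839265751714782998940348151011363807204510674134521214693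0441154002578575605260075365174455824534976826630884516538480725391106040436108783106950518687465925682496534476418756180225336084685970744649249681394697923782920925809069297233586800086845353920122340466677642758662623962309422961994995597869277603320679675237053437213267398474825687558479341703302309908580846844656435476960651691272793366772542166273799528808527624566186517599928331254971958117546167776516143318291296920660609374289368760950263669394734118875968062635801840404308542943728213172435874018051905703719170575291814430095884077493445177579015020116159864120339867673262705817682439847115625052040883859145143247870724136621576088101057823850848063825093865058270074523370040186785513740793741885220429000139073975326225404331153722291137134524723240634284016927076538753785484160711716758802227044925615753620108812113333652868563275038591551905445021749938017780247042326448501739547752343411747202468881954379666086902036301149180593820759799636402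6772998945337805929529998101090114410749310565124535582409022279746597012104140818501137047869658318196994813708031597250917728845767965924891142177314213488635039116644361456562443327388792426873481997623711447705778758259614556406042189418331399566447179964282945594874556634666692122789988072715424121189098410200938771116584740639107032299282510631199358922401479411078151794173856128048446440950514682139423693879324709808265783461899081486930974450857593899920927862667110736577979660762309147963931363953938896172043426113228064189361989037219034089865608556302632946136225884056764470687926894909335990122247434717543850963456367631718086525191460741303610834091157470424316466802619642268382262395357987790438923580111132256233242513242188736328709051072103034019247740002466832458479890369110637557743847228323791552253784825500451325123376478803269450259354824271303601778035975639947419957302255765447675092854167626711341752196735403100425664922401402979881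3232324880016399376755182088949965299940895549341181097845925273995063197178134315854283999521320648795260995196518477244619023608147868529839954376845068207096098063486093226506617883506707883829674717950322076352279994727938009030546787136144135326948255347882662677147017349389239963568492914907271963973174997091596159967641319335121511766944723946476423390769921964894849363492136781498597865424010133329280114568540683781063266675838113694804561844223234451296522270256924155837195174691765214499877515499132608699118842559312224733847604461485367610863291580127503434826426427189465811850119521325076268665532520333209815337229101586983419238839025779089796640260292788213559762281153371609842729248376795606050612509737350053579680698990693540680369615023078798806061874721705004545542644559732810129640135908861657257705083271869851052316592787063677784437524630014139653930033961339203520678087737552007237089961322869957552679946558959368528816484181113598758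6150860878265182820254494279287232545672145789426841246892251046414103773236202994162770769764585799075137627137661897557747594487537602407287420877126808884328255890365124987138407010391385844990345159664380338327113006398908678611292424737625892114576411998245398291712597907079817907220464562542623963844081657940213256946350674659581511925483619792092993508820166072438168290330026858446072338861163945416745934470542103135378512194674520543833981056545668383750075206155290736343239536675632259933834357062290209360134135594605025101628724107767632698093022597595618315516704416513185354356359506756984078593843362704924010608794896785136569779157908776456001113695398082690905867031087714217846440138401447565169718420373321561428964861700861913199252874579121546216590530170058347293104245810929975872516559996019862884273123499498961978955029305092262315786756412405617749778372856191550381120160343565872878227245518921183169855061096345398799575766083173006597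2712337864771435657624206790651965049682402470862237750337511539436149091063822451596576762105379997231194786349061339836263685635710617929784701554104978060411725428746712302151076453963612581815354640709775816584176383868902134925479010315449421084558834932616517732693306029842804496029675883404701801382621158127674036369187964308215115587695744141053449264241371935707156920234886501062242215866198142228976070384758938162486865573583296084396163261120191278806290991119473916561846966152352196506539961447376649419355652290503409915937727515962048540031194258845061674375510882582625201364605987193235817730558834496484735616069941736422777111395522870340403342098398461789916548835725961070236680348727165540012064136316439230233501890767726546276559855038224441798988345339564916609353957712008651515728468839803253652784901066694335777124976657972418859406227624568410763095624776489222402588029672436277317253430511874446081808272741168806716623690852292381734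4556575141851353003292257259063783066394314907787287203560378457345284498766552875246671259823181654784531573932266742024615730430541373385362756723656283600897141087465790058631349549887763745754024985138481740494299593456660822229365213524974571856340273023081715071008921760562825596531558538692789261748283408417429832840019092787304704572188883347287031754919915812791435571631175307906870157921061873941987967510505840921888756329810289582016181423729279066724036215501251808147583225325519891497552413286725822006760583654413088309634017701396426082437143958665963615168190390006909561286024930783203062419691649814106074301685076994102451852635753435890154492538981314757240462419544184276779363233777151291272447267954434747542630035145313581841621378085407491972807911932462514878980914339127135433333751456203057030559790036490236022592639415356509429611513676203994706806081777033998516531711111607197067827747921824942743149122232026386683544982544175398449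3588719544335924811055180998358216179822050170643309640108840320647370524687741088358758710621028709865581845967299686613699727923035414488340957809375354107688774030776415042243746316007722379619503436324405212306716144390113690350501014470017566408625959799711536941797590312538110488857147504418522214725916456412901706067767596576512069591361288954870682391975357232912201938145906526997206568916650346370648090051548548994787714392057172385262135048567687806642142331525427095394939611624003873159952379590296485510257910442170394139390098020071087068077788004278904982955341129738221015793892059818756556396444148924947020462272218859856818947603293590785366441719723575922691976306818390565122964802824129701359857788549760950127065225773862422852245989924063456905686887674117657434253931723648107780143767561735789102423397031031802938506799205628556188456010643393673400559412788977738356363321757319388358481072023325312557799286067567020500427449061026763511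6809330311702253314240593329901666275230703851521397224655283810000715365689066070638679382501871975230752787479934614491952096605569334877743978332716028058058147832106021161046237321410971137542645596402689970170059729339518558190462859268846392636403137882389156349973712387688060735321649795597964543349329656001259126899651183385650676522901803146845561452809994220576241314810479675736755201234671812613400869304580874946439479435927697874210569975570539700152658076226166061922308350338743148392958802288791879567762915526267859646180282113601110447045172967041904761214646337428074020223653905752611336531107051750767075086255850665923751084392496959591873643629235747562497169439271105389828703486091966614570116645403122804767653505699615555189039574171475439119262747784159380875589218663732844770138420201634474838032836751925263118240592399987262777688086154190362239654553989227377112375985580297771399601973259101778120936713804299950693444553651581944570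7988536467795991982262018409457650865351703552152256932581275334704826532355956057822397065054102196601405108419840013700188258556448552710560144561382777378086600111774631874503379858222665968425469678174080829147803589397116756283151922285159311021408936896444075827637474651796855559070921502050699110330882200405271026852948758760564136754242194092154099621817958212971906158728733348341375304136123772673851860997745826773696834214483495039357089811619537249979061627257184121766626768201379674411199474921108229050661254506876329218645884301224967710838492317737968301804552740099543679945635288949279489007716452841915698568847675030707929503624634905175056034742708966359486363130152083236475309247597630628311262901472140845364654256452700180313235595561591352077071694643744017858964542944801636542473422879260364130122323326666953584387109137164141308965208474498628623867873692390298031008849211003254380485873001397912971188035530877487881825134085806336207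2751511208094660732319586361680905391416962828259300758693956465825036176159280315052779271352140255147748612517876669217009866130854190410605758891165764343141212223721556364784274485755487172440855556250291257963523176621917263386541738004393998512291432239651189673461130271417698036992209178769072328231033422503302658150512995953070639877379225752264477171093970058876426424449869876544460064200541321195909004810773968940120222806112235653725825141772970386902897350095907479798785206452584145363523860179808500954521456051263808980436222288469066519279394401882635417299028835887420955058723450310608013869127628328626653725457087037568353688185168176026150962117687831774001297836712834193620694506772206625446717732555337699516320427401232297959514849903438992102106271913907951374308859357115983937513945149643668290398585520983432790467995476556820059134524864567043320320877091425257662681162047306332961154882707687174369260815977180003349743880085656018075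6834786313603439098842782225046596982127787978237342289103991029299807284193945666770282631598719434755789969747942186207784762188557343214069109325916988718379809706547309525129173884259290056050652892162110154233971137600772493711823216712712937122465600408865743812423079130322540017585326464656504990625501128170366946796962174336171558863914398542391201465355224605934631781635007715796731327908304104247005092554494914643197414561034161531845824877769380153826432834497274655411228829858050981538168896444980943391188466009551652640014445362981870652893652789699580965859424245983072214765208702415057155778882749555897769586157035010745517513329317434405770399535253361864036705420610771038228309763114599916607845885257715418843709572432159539415835636682811479510604652591748599014550223081730450377169905269728405873283807835283288804407536716525663017168019748964307047326591387655498418328207054332091505647198092139185087945978162860365561552480809213681829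9370022627429014650667255942792041434579619088350492534981704879337320934626599143459061382981902459246852310256353959519420135327737929596091870475903924497089358506700861325508714518566431397537280273498770367613212732710686214141143984433402950090180567342631584786852985820869944792355753882992267028956289794131599570666632294358363546720602638099374017921249016420401114645764051499325528204360963406450072813066277736670725979259354996119056706317333471128834741389442343985885933723056481500378935174115395191113046487270990755400121891525366006777446280963971397966670934641122891610150476162302031877109073272403745121316975466414861017209816322617535551531638631206066808421280405284212156453859792325432886143302865270868176923111661752300070214991875964865296579036264498957195357226488067773102332218544660175421875835574054594176793501842473421073421971306739970710123224546834826480927840389054026911091390234363669290562696997960763986133078490293533184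1650197820581914016397875569456014899761561513396777911050161275718946024456594502573568729084270050792946978868964932123828204073654800768025080685069711216853879534089377620362446342502447457368381081548175470945003635518582448369781314699132968620092056963434467778930165308205693594744539091670240558034826775801473515914183884466893288179643098896573282088362944931741965192720089097600206052765908670745761603455610147639270682620817727738272001993530159199986230421883586489754145715308841816488670541694281811503716633607812729944480155953536516802278978685197419678159549008084504080425041685127408502413640699625457114324601626196448332539123514057100708496500617122779804820113355663350665208842402928801633605726187358847437527434161475544213855966407091484520943670174359479394800781636238043761268438752514322391390451733333816131625037432491126156992650986187045805270565024829895475570577366578753813820703685756416643953284073290242249662490576302815565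3604838741814538617108540330057831815776027420276008418665381550790644424214382300596791634471934673421235603679752861389236893455862117575241811185714669541599758435923269468208411615717109311620355776655121794954701727773530701576385734893373683760337510924281040476321275005282005417085017689353984042229647641045520027721591496693452308972407336083950299454532828438273662370113942802766861238108033313872002589809171382458487897239128157312239056043765556270523644215185370220907693989468590657208698032572026916597811879336033181573042540799208540669121251273440162019982758388242692235489324303441298450316409490039620150067025472329216435939375958301729731959530133241487155035351144806064156326697327620787152313622824644164903021266755122325013967494387666063007282072872842579441041264357597608483308802790104552666487983622574682403045703038284290129297350605896746742331410530944310705924804607079592872048165967297736338778391696533820583275092286800423783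0382017890175345644709658206858637861337976065943133122683820606134048823165228017038257671341304454032954760538106339184358324919997413238545279234010463642257305006801737166420467222194376955746988809782186310931130592693340811357280359513451645787256419076331415684490203863919339438265311346269018430281797675793094781904603069840712152417592065386315892938833577775735925179565728327670463348330006295649278105694319800050600350177189579521042534326851316525325072081009096248359127246032012225990940031473244791514595347757063472267535499498033701469154615556135342893275526682501077380006537719204958437972588558438468861545020915273037154991775254039877307521548217457521310121611719863736510173644948491838090098159084312151597707503008263067466024620472086164898010322518851879016435186532507673496059396381348154540087663698984455720346974601858513370735787720296328668437487692144594454995583986717858133990060747653847807284333038717325059789777436917063257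70955725639424956413978965203517790900350572443068523288024387202106831737831890578762569820181325965963330514280277535963270749467221384657926008936273774654167655247040166816420060940258174656101151981017743904644621747066666518236330243687964278156316624444539450350554870053919273641629321995898712684500901034614426747431941420217816647058064809604666843682136768008968470233298561071762946742995644438585566251783387406795060088322798710320129480657530628010239841123669909114234964109349450457893857566654464)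

noncomputable def rc6 : Nat := (nat_lit 3236668844313770879705277750810333138906779044563623957529226304854246559198162413762959792898706479455879418539377684586005950444191326817380269020947528947741952214778797058537592476450861990951616147693846327237526221274373124344130225310426425626839817301451980033640064219997394174791796472411783956991590427177777701466105536690569613792469514607457387747819480854419083709745334944964544646922415118683641142596621228223480887489478737277259185130838717962195783758454559693271888422140599666505833431195448090882198421304966264000948506719739897901397416482905729553553270221616265743476988403426232519353144578915184090622293759990119049125626519103936394946517216305398011141062391027682874248665096120636893222104376818094287774156808539645090908651863844472735076487157591453273107692874478252892398471287782451299323257772817266879849009816891812296886137747300965492654734316329671718760936227745128873491574747476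3201196312892099718059963504722578959644868314708561560486773886128982780013687242103364180009677681286450997995083446028488646496859374355141378760372110093027055367995386921684652704309171746215244954803185837892339603092355105131779694667424972822613888902460855609825095911206698044148450552820007376464672241843852069165849955650343585234181247028869458100078178234187757515987028956449322655582914614248453640946631833098369630171585233478754476543336763511764918844861074158722045198177120498041630053681131036426459155819900594454112710167086767945072907080614379449778731455134330614023997675377746424571671644662319143897503589345149932323643881050663842354959200004840769650771477077983176345353751168420545923782969551205681389051317460422223098326486735112301967518424601235135338225483667794909977324174295589710089785195226205020946712033123192528890373716774902713348859545312732591132010199940412949182162351655239026782240904037296895180854800929833151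9814146182091930333130113874595595357219064239777586410511153691372165984738334446684890104540541140935969480598239272715498049451318213679614122609478925966567204779193212048118673271596196573180307661620825321824495224503094710320099653028518440889021837208990169573118458950616215639193932042324544474583469526376435507739213725700089570107261876950500245860953080590946392977607056383293976281438503386595439858380131929744000989565408618460387401085364127424569107684001738575535723048355882613150660515772827353677165306725294577245209132783221757788291463127407063996541580050176737280844559978453276341837624398028145584772417991878255241610277826956248082618238413676083190550470432869258770587369055615202985980483634627198652003494245863293851830869682530579337206992063776529031370629563595711027044077457222685625751396591938452391049391125279748739616634763034532261776462698262863773902468480976110707442871997012513301962530294108448591177784829799341919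6797136164300268778069987017946237858870530845765727123438916507953847310641498227348080451831157603434768954564649454281796348075612678611149370887464027167100111705458880471173621634226164915985793819698578778643457352592505090579653210903871693871614939526304109999871121659903676064596022891152385984966130953793849868184530375462065750851768774665556400379462950721490750883960102512259397706975896008230303539653742908843170997739484799428731392718612031050209915544840885104476401088221622302798640131476157536196115675632795610235482980070813301347055482370797206797632860593874048723035413101870618504653287842038644115348076499215240937685418217784692784656286731152446725115847236919643185004637280836675169872253535417824859765783933743964634107187649195336497114584520530768506370845590142278663914315048650265036015708191032775901088146958311863645515659812110979190876604726658296747642242041175673881118561920192678062542143405753570189188526232232092618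7322292922918328443320528734631577245173792756689606259293146158597224099450575819093148031444926756539572185579972455341236082431279018875295921482281845468845084981297284763960962067351675967145479469524432291386638394448832418035681401895585363712658030367652897764978317928608338966108924028619280745099143549726301178979499593118449726156637832328487396297210139962088016376025912370364035542783083505763753991501221436304245570661389659354449797309600395214202539750309910785189387519849287533605783934821302517903962017689206432630391619659756368586408459853248169262731192285828294629790414892626350375851457921069719737428907050401164099219550396838552741734000996004530851373033699570698628985317751448535216531281780676523247288032745643228156191220483390540677974543502532426776328062359417777212424234566393656950533475964308620467925149507395527036915803591113592426392906067207033657447131252351565542666424468455809557916937178593672532529839571671430093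1021275714379510309777178998220398683481448452040765634764937208757960838003076041250019281296196200013710274236298712207511364959753405290605900465673780221625976364331676253275476849828645545437199304189693754161914287365746776065273396656535254895384381144498031736507445747576568235273098260983444350458367784548365751181385144003514222233533570077963528003347272801795271771360437532400849163853764336469722527962716376304234202336715823331565346952361469751139261032359637002251964322486511087942784923834771170820882015336656627113135716129036011547272130801194853933049951761740358373043755571799137726730537452636018753290538586781615706014643046152236653765762719933966843452163660031080106422571620231800910592329161996620271368322435591709674969124770014903971679941274063226402039145165629995501524927263545357590165410831144730058918975176557796021571680183031338148569666259137612074276915499576955680794320177060977590357242389231759889795714892382412300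1444417421350494665699529403148058781964847345410169973507715015651625408332965857372108226425670137089492413665572167705065973000983563946192346740772954341108020525387834546219225425551035725139438346011422882447426704612294371294868736302891711510997418046145199738209873865546071274796077047084280887811651655091137637332806205420773216548707768045705092339496455660565071178535383983856529545009256268246089314839898037831953752338044327301955296386474743259297861871140589252435271289852722134390978686828586312927636599867807981154461731680343035054822897562684703093279265560054850737849229083873947690840719202242117687915784143216942129097963186335395400217099715576203372535148388320900074312182097504655702400637322207212964184997106609649890106154030175917376902153177886463500602456848599655487462934135329813601455116996878474201892664409583742753244789402002129709260106800278107518646034749765073822381261921675599351850234278118201071888556402434394654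2386723504941973807022544340339384188126274299597515021866805919442476406436892301212103708161331352169786449566037690685076123186304099643759648223596932465538152734163195418538960062051206365359505584995576599525453658910996008651946136673478100427542298398093013224620358214466087965423160533136667188247467259932050653599465578938174543420269768000858966206873736486079133135530334182673698122988384542196821004324522528679931291860252920117045096324679841800651079040386715542047735253008615994116189207295132770940004103083230886230064368544683441453148765484124441673161845008033106248782332115302053354413120879815715283906761318510014684420816387226145308453803866071676114682862523404307953685232089364481602317772200588538580552407830509086256079673475992166751506097757295664657394673298461664313184943831722645391759226841061456880973449510597507335354677986914854910673735832488038212386147291235354700236825463830575218351752044783664705394834127637301761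0293392093125319567596634641323262786528067968072695697001567101369323719838980769639372452653439601493558756548194988252827494832424783628263840843745995531992421072361095728142716175348460540885511061757636437012640152093349710308112279633856267963631911227810689781565110019337008767256510555832342576775562631117633886732489196227023525393657757503609428174049450931497093498394377700832544607205889508993665223603534280748901355920481305567004338247606667710415829263981940818929941904570891046712717332335047501825745319020805061237085858292562310780602605670849408163284899393930533277266752886503159827157385686169634595319159059615777151478497940070005407433276826296191201907676933563732899188381127471933527342134267442648042834599911212534509779987099769569007996051147643458103368213467171051670397224896520502307100624590383887819910600291902876271869410983388719609808397134206764966380216223816013270907586106210799805927599626814610925510671131072850886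3679150214764350252831900818064961588746800674951529827872102485740664748923413459529769074905739336152098657035930282167665964321814334192556591501086921621695315741590817626999252242946498188196976589277562953929387404406710208931865660386549854768437884386358760723304821258952605910618967952721076281376992968180351073420436470531510184930112949605356664599764445467155950946886491906639089719905223703266240222645577279667221643169460531656361822068338049162765926400354158444870409653959223890572175037756446430704215881264152163765010172033444621837432145317598169558323514622313513979189538389452903202115026759673101199463649735476269533365896604495541394637485090663571674941531766528739071920976773817764481090213836105095148308111502349263015788706976909327760359537306194415765919836039159873373560549392445553902891489954867654822087794871766502158713990409994175404986380535568373001783481251601993581574398044844430501851319187771109482894320031607074321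2233387006375916131945133295435381744185859107204569362328436094207994757934057969962144329163969120947230758413596282012543821638055014471909090202496480663019987889381611265509176771907568344634392825171342217771582769059250705965558101129925528198111113366822681027598880686559954383349602211292215923188284720228691301933643577167767993658913288347597007821601372438170136541597937231021250219777990233217278596452786727856139774529275424881982962720679235984616921670539407013381424659793893347918552579505432059637744145675232975779451119487715374929830306501536959581399689606822560148340450668518696074197017898628844771647078686593898156323866302692667744443008621465687937893541612234568281723566417217565599714333272276230534273991117016725474642214645801726203244975076796663078280391292321175650285038200798101705845032305852933513271921297359072067597429642700859325723761355273951859573275298829931577112332040125860691507997157716016894440475213666841281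8978802354342715121160904381867596663933405417920968458038905629131870780506938459462064774956030500204789461716154373393417589703658184779130085615744846451651208499042639025872192792349278657588420292974576176907547798948433633277359916282134533091304519710047245381996534903727399567294335157193737028182624255010543338962595525516487181190838254381001765563899908569099516186231440606836670449433072426742268970986437779831687776673396950441629824158288852323516377344974143377677603725066622822938926205323903143578530987940582989834551206711064535168759205727800585959181800071521689489161847311118170326819951765524249014325151202951813821625780535704898114105597078136730198382841155455878321399123011328314652433740198977618660955437806925348879016368291900494611771119903627548330508915746549173174089688278896789232974442617089753837386424057626352802460999661964330882958954424496518713097282854646924866428135425532072740897701603950050110970487967869760385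7750924403844109020355466003550028340128746671071670862961612966065952565442500404353215557643970961874728908791716798479194837327964143984535232458643680623415255085431307036255835198328589943409829066527059731080426142508312775811209538314044391850111912101330887281316108283481053461962383441783562510035646007150920310453057262551140605245898958764616409686951671547173190332619276320085079766449727174184703460618436490698865206292063120253914531546555393697331880973864538512732250130115948624767666262512276443359110909813213539117240564737371136108352829900639189426430812265859682047414522444801031147277385352746165201932286681876240922899885232385785789008460993917156562484234604917278697651431145474471396169052483507177668593721187989288130821288027904294447769769715597127404894207972953884925969769152469188645549590339990952930987128203698875067142692280623652101729835616427262119486951216333055681219424691804295411716568336748762187329693229313437433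2101869787844648846677845174932356821785815153735866904324380805769636272863279913719739795524983546627379293263795167472256461979350619775216854956932791064281526329249229968816564382415541047715024855402825419457809009997780816848020217236057636274303107914565558616302278311061961863462182427316325948470143255048246733524900543754597682158113683872978963069265673010333311787713138531964205506932911432215758913949595846016867032091407373022244992816911499707082916403143531353963928271177586337468744857518295861268248385075698874051707448420484610192981250469398659948962336389622234159343633167500227166338776802290545671519055046655905662104745109047933790782619119365637690645746110831787424459248343704554036613438691444766782460353198655824645251592394894145358818536030293586317172084562030290532397661165604383525199268482861453184028929893962394614403241386113304844765880928372252107228872511787997033475824188323638169179386931926638804733499293128717900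1958703942581111415140693079293035029743885787356013459410319547658616586276866433113292198116713362827731586488658538332515292853979601681911575638917731002184980685465522951879660702835510446056909994617080682839466877206990580601710426584972848842143191122333969981709297245145464556591503404957603570300734847328175172032120020365568977681578514811999081200594187216967333871855788785931035066006051186833941201982163716160057225971725672158055863862721698189632292348615676453255282249087974139191775095374194820263825325767524219556655012433977759958600301851278779336247104190566285753665339376231300781302646625938177657374621275551709992051307544058484685235468695086820496145549275657565489044063134778917172508349040107183940842838671572719070021310847182791289464072444972624718751574507989709648471574132067062211022128207588871880869812956618930270908991920096378518704261709046787675404134638618558210403585558358144110659987747383952780345976965768999740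5269479397196189996440647908742571197394361218143273235841154340636561937778202990243031616873168832207771243544490890795184665381723661779162443527661779397681533912179443541490688310028932076267629591880856186452075385673085990942909359216532591964956810920094735527227200868871938259381197288940465750516319253992548061388282686748902905886120135404770322081017604046396399411180369056295537201251237482717992925466687973843398116174500651261676346571348189408849600177052828176179840891512721353370858910618348733372805839836051770164538895196232850140211798899305541010809759930325251139262123670631004978553009215929084482429119507695747500154985372842962955387712495426614836554324297716458368892747942660757343204456996641550728883113405417871863694713838524044379118771281365253120141688035170362643939878627704616165938364360771541144607043645490498957397028608163074944277874904373867435029826512097821429695989402382043702215904481928757850864772377332725134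0976252152522365499702690124434019787078909979144787977588129185418954302005004786574002526456420260606051336417358727840933476078810084006160907811335101135242031949274243262862420313742150750623568276964597793981000613071446024840803053426693521338315169790986832538109110840429334565399556274471324016193305367782890309575629557760005931853431026568153676871175061441766168616612768977085374847260937192505145189591082919709958843973211881785800443349119863334551446518238675761379858622507138793160097728664475271721504437128252627357615796706490156617134629465377822799087695772329031271644873241933450784755493661722553273268026274342701018075021305331370046548310914597669684686144421755141885648457085187848213943672170370673044232123619366530947295713471487780086751891596697935228354346365517270147526699075091477482031587427752783436675154851476227435524275142058468016451773736369910662221818648176266150179273793422222947956540611103625215269305985109037160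4948016574319082733997810299157931585389773273153063676321134342970232162692496779947232447797271498257924616994359155505515994745533575244358063002425853893121386363847171002375944479071175799672871782941062167517216977756747507982759175153680819473757662531917004734371431615053746536290930978133009856502551834795710453729647038116316661589640949070534178181208013508042099805072872113791753984518204218575279359761415386148855067827011240090203211281314498585898314451442818414748330586068930211682372381278613205350092100302126991495572083298316932515609882480974509007562217462241262671400341506206926005047994495109293328069820232744130671512517704273508652135786099534112706847926308495914108111719191788056503159123664545024352845599854961544477146228497515984267814130581888604091173952601376230776386022112858034674154375090356757330345614638418507679857596104385526765258328699229196377440927170506788649892612987125187362606079949755028065153675869741563063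06537835949325564604042917175388759845049973216578071305733331557987981339377689937987630724967986423294586754734093806697115128716739488385421066069239099410707968706699451224707651706634605734755407477374444795155836372603582805053716694905383744866172406924934592122829662792046784541652202951877605130863259591147901348647735926346518571000521076710778952587857210814263383208236544925971021424773157761848826307491528407345845895346710353948226712167094291042915259013240849279619114569030066176594580508508160)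

noncomputable def rc7 : Nat := (nat_lit 3246070041379273679004694979207152897310344849068415040921072682152146534665229493589042592146330632946823883197575955935033571907230433355596627181802627690092581727720935687461556114413011513230161623310457421546438552961935053501883694574014881277868830955640762909940479408057298706673269643048510259542615398956558588240329648320219630257102837404783958675005500303836912007471869609251961893376216365171470654341441297036050710146779580936010923826026381717758528257432367258132290383111297738282481630330363883054284523519518776291741687908016943456669387196771029693319902354104649988251697965783634437642774122429007215991692014549557629648648618960881230129063788114669566455049408691196975617016788631868801605708227897658365153550610064664425460890790007439310757147596228307450703257943322796470506237384150688647139698255574442556514236539061706618477164592435254441691676790444838520856728022519426610121564998675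0103488988118623915338235300527117358554494034981642565330310028221933001291937323396940265949456727067791888975188425048639660903360538784858787015483107419367189697063710093359537559844086919260760247440017316020149804332373316523346804735321457845984316810205834720143213456732262843485700808561569552703112561667533237252418085570217444849271181102168854700747053547889610512958506166072608950482453568814287426548848394393444660314384717412233446846439290648380914122773665493315280671353009427328501583501287693339650738751059523496369841226395113357709087875166596398243652907111302641274921349241311526185123046276871373830316142219544039156015771423379736613284905896558785138744947766334098469480552887243466715698085971722957849680254899567606981689785190595174697082012392550411819740794592396425226978450327341486802151641308852786732947141431440849743975671481834379287542219599345899855373954850742405648407539379671402188929435328234270065025740776780694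4868768435988220419062505920953249129934672365107565331771432504937774334682964065258974846163479054956756098257908418894096270013136330830615323377657893187277281327240169396867942343716701359141290561638802320820651221827473860116843694732991013350225754076899176171008804374580757989890835423415550116535345122536714675336768039115278573241876415610512229307639030937454263128855053833119966084991332360925050522281848263601351402120760573845087523114940456276928529927745532767066244694166865570608444384927758915954781269556584170738936903218919954424581962142408947716534715484249162562314881925179154028004761880191004446158765194228419768094880407714366316424325391624419447992250589885698612547337194389280367411430411087341122812105519403150880977442716412916421974380069882248563473523137730515429372021131725558645195190901781363750035681306855047570756125716408307137559829138172200539494468341658998777496127614613206246203016846598466695064009077432051870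0928317565402110560796493781708027432243337654091743053728509668753286776837624074799800971333751356259831237616021494035250461728356415763217735673704762343049522816309133223359837130617329298409138444433612595360756333179468789585789241113649777973746312790551489613854811722982361208138369772561906944624067958953477351263777226429220571340973839244653368893690847186022648723830611770118773700474500994342022125470888560639392619893529986900902910287654206038839899627731844079095964820157124000393617794948171626936297250798496581943440642442540256187016320133694598567202660098697043455577979098951363812758925967783737379443599609948001723483836120201980141351872363913327795625779372271323295250565793283283415490847321017447095798128572521428050594649511459076897612286418855077213898473074838861312775338065437339741886667797893307591641239858784469044835418324700618607150263346196712407011198064671767083618231041200732157904115648844416077280104125855264924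2356007413532468315694128404666685057194998787385681743785763336370148514145665475707705322333439025564318435320081368060377326557185112173364091899388373789056667983808858676280503359761782133997752013512246805400645598752559365531010882206886006115038875819530528770489827252806909384125906950243851710865373690568536430263966248227811968139528472828663225231863101146983250318612504720867605715970173463428979742370812539005873981796564479710561414797912829085692445037781486173399977910957308101167751128886586839757902248640195557492772862455794572381114147635363006502631180842357627910358099606800087622555098080777269548837679283768972009075360041772616680353922060955806483736966296807364306169430528373475679000722272357167110126620129033728129959703463179313250248877503003698762345044601610859156176498702022129642430911478326289855444032009008259405535705858840231003964712970599890512565061788035534454139093164246397180194854644111446671783326971851033795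8065229087059971141701871220258314816589480034623173911304877041843225696584728540570453133285264635401657340988337310699957081849190364359679471706808071278333936673417456581116141868082741322666718041209165194227876070952794917424098629333316560314906967547200832537443680419277828826343944877182417861749807014229453622527180708440732232077224635756531632895149381207202965420721237862802531376557773289756627528047376974976104492789591322082638040788893804279899928438837341351519177038145876610700504011134827241995791879348643119130963129218375938264941883259170131474123206558605950343456338511415465626007008718737178196068099495262348670049378707543801793260464458614509285282576079321146358598444493047501448334393448791089429970204655326705152821894122068065339334683451197320708332325357442950581114021981010242773029334845203546700216569402940962053464465507337233705056928915312694792252681040306025021446354145962913452291083520587261163171316637972143126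8617022337632377758947871790967968132304989144431674106496604482918145181809673100365754742446276625505912559730352968960746366108579594799843046169281054279047161363331550469556435301486527386208274197114850560073303554347014763598297531202250298949337471773781114749744713174709405290195972390608594422409035176525197772367839438215805819304249808237057674692739752941164251856041850482646025800962297717969751077876653564139801901984399926497762701541598193477492317513485864934693095373335019118513154083756431089530773009679491387800092242825639488210869671264265362613843611428447964770065486252725010479844637520099644903126454930891301672293111182361018081074738111913178689856977488428567505789422281493306509943942823642445627885485256927552158061246233761528215795208531546446427278736758843540702560291523156031554199322940522158510752475895790072613859589437755847049150215836081761730312921350038468420928043156272242967964655242708358149678010809329342008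7276930613360245066788911957587475641859657039738013890959045196920144569340198052593610662931721878204444793227578949102920487281166320222578264527720212474383419266062759329635288996586935604716900079651733861695033168857312604097369705918014920823796672171309432150849737417734909119512845639131922791964285372663492743231500492244705944946369333081383177687343457350864966799704333141447570762708380593948843144008687729155898624941806171523304441971440835023690728821634797846882430394424601033905661057884525320882754519184437136001640803175441044045708765228059880355028716425497172408225049736196923500637347833338322767608572880171152190357287011224012139453494542857437001177122685939502676331975814499844130653728481663498792210484565178494725385084969503516530695601218948070309617211507045712259063554553048916699033040256572188515250013010504833655085764366207014477819195376150111023515359889532899322567922579678960735348074582170376752178739973659200841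4981918192259312457110026231883846546926304523696961174208839272899058351442407506190752720062728070961496224668265849850109654793063362254414478895636484435174481725979358652974830080892446714497759682459754732594214251983264538332460052402039843273929222187560819949745715674106122934468596803008086824658451223852477104702518270265597450652572128557726443918584597852901610065867563208981929627189825869703950747835725864503233201233770217982876078695721172053324948378636914472308312954168897281433341673590972332207053319127637800362439284188546436356501487933297878125416574703223465389350679646733231704528537370498181993312781648423323572572148635882734870660627585753802560955382545895361717929119839311957558197773986495645221986165166841147509488744763132871608206111586327031464631686392472182896444667778369838318037670949378804322383612326101383905021551928020232695937557334264086926478159660538735565421715572131969374126387442596877500670386520710537046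6295043454095749710007576635669768241500437697677517156264645359769679502029131540346417308262669476189257729267645632836091533097918207230622451580812881533023158811198377353346204977567633307591474551203333491781244352277830162275579290503620245968027209364676134665979859743514958903098485222509639295082758412422986682931066262301922631811157728488672386654429684396454368976418491058630256291636067941740304582657087574923201811623830902422317713706957965846807415410552972130856654414847266860148062088101098939861028618173041290224642443879552413390162215096695439688004990417313911954462786990543017645393612301136339013667036863197203217291451005119510490191346608573026860455665790454720924496343308407893667302058210754123470388511486753502878361868753785750892153322102140144809663481754507316402747463995753555768731019718314989685521509070053430503407462423936950079806433077787060324001877086169566099591731983020286278425931009880944842068997591119058315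6840850191049775534739469816422294274011566376538694092058983870255843061678306383441744686758998840578020228540755212427153454530034765649174590137060414814956692339875053484586019594312329519320931570931523671156255268008260500989599948679681401732528578127583167663766073063196173531079515869159675651980657690471442211818475283350085728804566014642237802476959211159488352069283947731379330383403379699155487305208720675217719865957878118645751439861386003613131529902387776532287680309782405919499932067861227618285636043575817942152126704222099126757108325211544224678556530838726728506733431417563198234653445921430628865502677232789118415640529425417135546510483263915339937087294155488629558698554366326307928158914139134793971202404015137199827817124626490290117431406696240310740543306909382151636038697392893590737853028833905448342657226458188013468110992388271837680348358885661738622941953157657217691019783263803065778133208240321286531976653570870921566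6008835227863150055312113224416264875854019050818663751124607185744601456355110063320866770759340992029561266309127961956558090293824956231165924504280739924384895430430792596236231426815820044086140608350731641726985395398882532487481983582499280226270276655845678232709819140308687844452146928556530612256524785268207407419159616248303122305901207651312229080692349725104215860332944202270237080570418725410870477236422723590516754620846136851361682511924623424616494709022489877374058838144804255824872373490235159857853004196892936189940480598688487039466598057909980964501920430147926105367641063972586917043024434575160665234422767450587782574481125121548437942387236604496270029150289121635732430959800837617019433154320957557679557453983973442603901765332113083370701597454564497006164740364700736454106108051663189413634509686766336323309721344007744868558872725602918412167720160530191945195559488634936638020347979785730670471793705962901029044036312761215738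2544811083657107404313034028374273234239492365729079611296589150817353885076278736121705529635593608036598465914524765112056224647289987072827500365820482006626821353812390866122464254440929507659983036107111399090749245506454125168018947892710685753965365989477135711548468959293236768307410945157274928186120848199428975527916243946683083411917044432962782692623602671904793651128342438927264052902324785520090597624250881100692038225466606879405496584463907112943771727788755715599294321098781938889643713717624006611236651883431776742537678293722846156743315326357279286379174255032352749181559129810953557271968223006391741727639680237135435724813856315610816934735027136740997454094053234152273248615716922070227633522141504369110234863452167760441415006184524746944240319562479966348137795268520479725118556199226794423526846054654598184057368624274238606897697922294547862086614904020679622772678335116792928281790655948535106800965553552704493750100686582466946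5225337307414729344774076063986810899209038869869554423422172134680031301107111356140402322731456661071362576544359744892059859262308864445944537959375088383571864894122880360191466584620513562964379508052632368506397466799931538937354137628577395353540696308395849022733719199356775968307103818912502290269804761856115642133820081286320818970566180057830540225765341665587421569004932499562642577687003602157958332280421570219091068198041945120306608847975662116875733055636155412363427143138288585370237979057001726349238313964532074203808314167297303562689450381746120850041467604603760884630127403991940504075437075264451958308591139637852508422717893100053351406275626230845950855519150180043598123485640756866382281599744964010238410458026865023516197897956162324118849324887078306038924760835634361780190400060372413370486327150217090077138561989199627715306964980401827416220224321376438520629152439213924619767188748380970484914063712751025455846341703076553555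8105487875572886651230247993479223447931545065889211576955279576911482917994433374087045869756040649261160556299226497131171999882251414495189040349960510029106267337368632660531000372685660295187765599047372432013733076687203280517886070902285001664056100295229048869818762949519183935047493095607549284734524991793284832087894726758411559703238913763699974606477099658400903791835384084810907422309889642698075018620382920228235626995058138104271521150418650322127118253653623929531719795861916077955091861527597839734086257557902508264666039000561025314021963497084921050508837690482767899393240727512473417582114144785643265672598301979242244740330448434277356602362609255525505660438325468252767138740558916703649549039866067150277909328326465201384383501634528964441032540688003769143175344228666934859846982773454628607466912987174439102415645876554091274774987136357572309468591012994437891528711782776696690302743529520685346310851717186748620193830906616376665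8840045891976142366089758206568760633809302873324833537415572116414262031797460766610585564391726457972219238866819748273400884373273806799563968758729306729378412176928592700826684503089072332869143477256051326777859930464443638952499325112662590206825615672015292282704277108202577632215006019712145659840365829680479463032917156137733749731275672067022739935713884793514869956453318075927876385023936289090557914016644082790937220264573546665111126721719155462873344211585349205621302368582707071013535891816920416866024068643087837817011056002392190778387972382924546890301259768041409231630397795749605239710502474605494942891667314515800807018235699398689378011931943063990766491524739018499363877917157782428299233040379114374095826711108214670859427817900874423365498449553635424668553523388130107789740353739097228791447196940806048895397997007107464252448888288537533763423988044548518487647903053822217010490076027275495299496989501317488742694825838007888366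5675139819045406907537353398315386324572013088798307021501363444332092898963984478650213547863647414341094991739025633826995671627094215685645653802786108263855389479010843204780506820289455053925422032686692178718676169804377798952438805791741132647651477134843776353036231564162361478706893363829739087664028890228392621649566535597404455898322012022550637380689662705773700310562651064430053206913431763761372235386096317268554827444703804583886392240318885515119940520271129752236750394931750486235052765174984772490795146933289195141936596432426326477932743796193543526632373436517271310943563565502105553013932834878512790987311351549037859242694570035261024596966063281069525000312867562543606345188766662296652628583452736925917260509876380848737488817147469788490640951073841003582698685696227910804433778603729206217718550788276157393661388474958095693459473747103404721068936973006316019776877379768280414991188638974737624713966665942253688824229165586976724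8920083717288318668157716245871830313271249224434038845249427276424733648563113159000658234546614307619957027288327218849406156654854944429175664417485769607867741267482010053992812281360856773513442281864592679611047684899542004696956225445146960727286999307185394179401599154507578920523763489290712618809367532567187166002216488457604166783563578684778428221655671088499854324180704738031885539746519691603935244698090154288247063524346140444812087187741236547266262365783659106173114308678146309386834351956519243827591323605250027121124517105944492822968741377197875865688637196598792696399543551884496748404643116438350004487472156860164872089124897601405493762952404863774008551621116549053526380911599104217831527903190814582146706343085724207120223389228894928104366614120553305462201968204926585972245444162210625111498550697211521326763094140390996573993640696639207771349527537206791068957130617973869952417847643146910036446319340360833672453072040740238522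03490664648207481392332512250869224861473762842673622834969687472291586628923392753065082371124663737658182124273571622442114722986350007225573684718118160530195190461737122392611979715846801794524477764605971986511752680842364331996370013425230156630379859515453561760243694089077029660600171672342032088545734577881418903177136955395056376153763769124851508675864762535182344467783136761316646517484824229159899240001266760439896211525078981016569445903917893350733758182513397154529328863983130426878233663242240)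

noncomputable def rc8 : Nat := (nat_lit 3255432155397469834700320384213390233918524312070542375059953646543195273419615736754127279146797594382558987523363278258446675702735620853948375284379298777598882196708787994321713627565736612876570273100529118305457215773220112508972397521765292495429301059202884745129810768649775241206954387325961301838182863214377777027443917539489518674705479968115568745465922169352991646472582239290620537555437299477111002591421657567915839987638243411994172399293643005512509327649693815685523907332096452436962853199711234864337539003123380978575317609601305426118778885812069788042645743401950271840350211664454980013581731121982817306981351026998526675578392815515983763400133250209903072639325713972538002891117079912162410759000038722482221218893772195520896838705238821071893998331423455150163351529935023658686407918088548680022508005565713497266426549561430998059639230113760601851843172807501884664756462236630857879084412198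0436716952954803797443722645589111226131786994530966796078796296726065930781236269359937875638079866158275563669458683808463343303431232467540376042425191479304594875266732780074087691202144031720147729064515555900768311715232436190046477544591699514888758434072413506464231940019582420564997503544572755942772443260800617737921426617535213902913749577839301768166067873158123303149358520852802466100866582923661449939701789301937175838112472492577689658213438776739773336616874388257316683280053174746723323334125159534003964212363118519667833682089099105993496687598078466386306075900126560055283546872941465070702927059330529547511261307618685655560167444779032294474938681544145651212411047432763647778022827302433353505747079187992906148244325455211344387075317515858813453982158431812865222691357019176564226799110380381612608899948092497525723317830368964252226887586887691366816177081598309525408767000282142623721109173660837316557334138341760302377616130052403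2985531497123499321553062563337481527159906213384630009605624213039675510939841076856060237475806590150653283075129190852654840614368186750415347174571590231206068712231095396171732087900812561179493818419713548758817187037673979463505734299533161147193310176402550225066508554297411506067244129396706577055692769755100942721923011635854594043449340296328918606074461073877114671976304133156053715291675372970571983142846179113825464237517456594198963565033102254612697321271707056486168124099693738949717671236731536420469200022859176849063950926780668728890248787430469116927742226863407331469582305227867874080664781654198870708445780322026275130082772507747700562155339467939749188230189629448635238068890218628683387309538227983887834847498192136747610819448012618545800607752863409831972161912131138427600673015858716192452967327622510425111396977032435686862862775827371651620084354758877609037412695568689082465859754219778883004586933856549529435294742154276427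7577650317452932109188817144689917375730267114759467365079672362814699943324502999400575324754508944946917619266723428670773492242617269056251041596845074551534039472655877419431663668340573782078261060743633239891711814791005680745731276366230119017540945120013188756544657322086988698616493165214137128414579693134986755459802799427994135793972749543607854216677725476497675106093637127733298329277987333650400217449931363503200231648016717569525265576455023814001129066549882842922723167849582653231373026335699561575301331744359102395762129786673288055938848618262787745947647985103610183110418422006674787696669995285026742392471565230753421089450385895181006919809765336188271719113188175433025193407288327092574230118355237888703638678459875160510898225236158849622193211668743158140536047938801385551825622642852792673398892764726151170920636873246713275558094907590094252118966045712177119658042942005530047333854029665332358393415974225921958889740104080033140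0052256655349262249635958269832450569493212840419997223304686944276921624635994927701348525845586371215728695457863677290099400360201405261406720194509500117020225037260294927969734210202063555862886251424541550856401405748665447830028517570910231267775379629707494650822141001224293618385656656989821620865018939332881771930020989987329372339354352051679881653919350333696442337662037919482245470150136903181125606694264761126412972888903809566091688216420827776913157413693618368193088145316246634114763231494301223549173042560248391499033801930326225348914484325265061574691430087204646319453001899113723932254679207558773764977292075210322363195848780912460074823867534702511464540281875796999048328559408111863237104878212413452691516732667693129385366290318070527550808593317018078635033995025272583635506711192859225129923182403788901537964324165935997739904586837831123679554925005716531681246440585355588811512168998175594804479457663664646804004768624201758103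2966703397366379550092124428683500450907148518699800465694054679202304633681541071944312201317832350096486461709825116687249616118035329900090380423762180760266174662324314330947101934954424626921040416697013394462476021640864186836597863467353979236498202086677066327666195884044306892884772322111670682589160235746469017127529991960403250054701436277637460993214581920666993590347921552621053654742885204108853133293353586212036544797964431947861174833472677845176722451621156673524539286103062750354541508842446661068224335691020767008446841903959101630890346266196408787602496224253712763943851085818756088613068717487113525141153382020284410136102279498706466311747336654955751407687538684076741473220850927809132478474096322679908150999720613726764986635140514451145146619344848871707286710247823481477925218966125101713444136107004669683984867339169844665397443493439089452116810260785637106144985630936814285486778487815702264955577680102188278449203031640918981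1357759388114118077685135442930066683850265280023623706245561176612911395355037514266513429137707865067501477991617626193054507077194391767348992252864695324292795617772842966342651260252262394558883948844995037544565540506812029639352084412949315527181005632894495365203785154807496255179319390427508579984666686060583034826122371496043975732204058105734524382668452786378654652637955277807981943661900020445787501168110343061049336517829826957512178225229898837252477776289555531856662048703049057679697316209504033296787102246660444513643683338440071248555168666026800650789322956050262102991593199881395604413702340855713826308619972845210869830528475611629731417145672499862037927484205366084862710593949340144393009357724596833933019467612003804807077527472522375589106803841880459993341347781906421444364120854333501384280225095752768324890334574206673717346251560305804839273530978432835206129529485785656266464800837377920664981898829778794272957074163999361661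5002037782714761859093160968438661271823564141774462240506647638076848005146004856704156509514430431959958773415626574177075420000984752818015443773128811231710793118772533368942029933876462442890669098210570086708269491998867778325037443515201453638777839591308588649828344876435675896622076923817473810264610936414422045937888846993011293807831979927964163707479047989138276566724851038911833170640441690331130212534652212134404805738863690093146750856906503694118736382109315393516441846433057446812373472997790531050076432048770591043386817292807340783917140036837831473900863705979871560532033811614803996779941179922448949709891607870754939220964416622353579338243752337124245607880609571609052396911275644595930098892042960817079208100182651308690180670429567610743930785403717884055218356668156110974983363947373933395796991112642933390190430988615687254588426008713250717023410683642199830921009531754088760252093804509669214283940557284116573780100285883855199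5567543221272262327099099216816220898118892306417852312459802614503666878170871159769849049329024448417247723024889556875586605479436201897313851857260373500329285372687193799043947633382976312591090304355775693028261837617901091881111063211787031012510564638349808994524655445499237986202050607282388933886962803449523505946515444626725026700137733583015097160629898669314705725969392365347458409065840085247310043229070097831527822718629436050485067751526414950538684021597328644578487369998008626339228320120247213236078596480286467551220883804958007521539671038410151570829320890498728337451821395332323731777040949010422289620547417720603379368337805987731025043083451399857184424131415910750455552336636007786788737662142492900674300343915175659298733400418790295755021331985149266824853143294575713268530624330507764131828385874118252408636322296884282777099444157013321972648911366160581943897727276838716483048424534002331252100139626271876400629213188203549063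0222751666443428655604782387521195704776067888358007956603020549210340902874129593959943463227355541952641403763609618805598907042481078550055721105235883166362741335105561188182804915616510286009713005306764940800772944147427955277012486913151421992313354244950448933324432745228798568761315362668372232835849112207965495279195827776565382057644121526491332627710168304475180540518435138206571460469881044183254854615850652423962026084583409700901797782190072236707058304642325585781787316836525548280410306864832173804982343677789891438457645799911703543336251270378164418802203369528661786010731076398274995231678360589023917904894612592114235586525155148726479048210314726134394477985997905580251136644428633041162098977068477961543741521463084724028296289851455285715273330046717219047079382087758720048161146265318962460685771301700255453674259915159946272906879435940218698890431024035658884223367269438221777318183125168462328810416882757875519425460523930741384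6289304706263155543657289626046630425408041319317874470045035531416669595949542854199066887948534552065380082498580937561283289688030585232410766672631877217378552082958650530042666186211418967168909824780903031317004566160835542650847159985786630853946713456565856533617540901080168855485030196429453461645708096622518337711594322882083280234614241899702110562726512135341168698006722204194970835483811220690131017328809062731659563920579755076820530555393258196764462648993094140356397106900769404920246178832459729677864575755646847392894925272914009245986785960132095038156360124072249871925569957229048072496254358599689821850435684893748145748350470119925301360027346770156408743160320419807017739982665832756545639893558373437006158005360270992986426855315533127437424960990327736006190944644479483059367662759034358367941902621334509591536746187627480474690076315769715613353970804826290928316273600796941572635550922855866980205004499023068327805082486901972964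2153149476247428521295873833993346947852130168319676455419343242699436314834704765738746769015654020247611193077932912577548993211986920898670332943414917392803192194106487305275760809441926602830614094328755652409192173866775091584028400859088018027550086794010700650316669710479194059953181491652948973314053965424128912570325852073428216094311140703566996906212639460020541325840507827410341707618469611276846148323383399409005872589086637755508263537679412376756393199135465588099031889745450568059871035363522260973715096244368367523914043800389427888452551471810471647523684088013924220744714166797518754475318291746502240280570558226327341288124509719138935281426150058394601498441744118789797274986353959831637153944007324178000281932990830666808679400883471269602474987739032811350820160671917865387400539403436224449538419253866059399388906946437241956227119323258694443930880434132111487058396675855558955948008900040338160749039709593601262880424903622789124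8952361898803486683236477987635988949113113761529553328248855598675185333141298889917294275393702155659730657514102851855117259491623994485387154208520370430369707905921124597667519130338897148759740389065937762773347912757020799779844876158712066641357796203771422035752217509034483100575530532174051810877613783680488648203195339775815320476042424785998335318321685517854062400441753527143318884704852802930139652939800594832658439150015938296981627012098410119527900694513150117074750696129532218842289334879991412593269059012373774793576208516890227708049799322952596207304942178649604883443307336491103723097506080904678421598650066493364351865191970390987621599814301780985262213827627180038157426424012623086887435986611473150241140632064647441621881758803957760316370200386688808124240553358598970844172043956412405926075454914140567548978322565168264036863230102284552630968350894456679444349012348106853379267706171444057857025404992897456984155592014786148907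0490409671440276847608635837973769395776808682435080640309875499003527514311366318797821306735881295463406807841165645197310919905984036578046523957152524389617717378112660037140707135848426339284432729029803735434087792616883642598003923505929555161815429282136512786023084652207431682616833115806595124774251564781904191326403191832288878035946650022523958342761062000594059224272122870642876613477470892494929971713421338919791319516668814112966326612155322692856292215870774693967315474241045429912401330967680659488588512196021462157598651152114084902774520383339051109113515318094260678641470210928942983603332632823146341414457603451746834532184562241492818612972716815509490955679064154820376213250226661995007804840196838966494426155084412061331840906265641972978682784195737175632552671197152769695047335240647748301693259606020051585864086980610587085230012770125867606287301980232587985755575966915666308055262296484909824915922933155265798731056520988618841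6516453155479647754939375373778873143086420301295325859855146492095524002580603643124462591438800416846353986253034238279078239266897036872241985195324742943348836452475200802031691063002044109880354466626869683290745086974587511154441745167058862970751963027800417852126259252699490157202434501221178877612035429035302940844557320794545198419587628959317781916587542984830877386934542812837545322078981984866251571164002084600001987824011150646665875037515585571129331427013767294448131561447499277186158606138643667999099581123519703560606543064944889511450177679316724363573065603685811095353204851323602315284177110070609457428097676166722320245064526469376192429827907625721521115745506255238820871475330787652972258309184386565647665206210606818560088539152883102844991088524035154685675619592120606558515112126834689712286427158674602629573515033001023286798042247396904032992576932651453545308081227780364991944904835999707199244386269502376780712955970501832829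8497576039782478616333882182724873705045076038707828371240390850851783336454073731523707101136823044377632865540832147477178083165229773114241663200642074473986810680038789587869331126689465532877583575398446856002514578425210188195804831052238547984573321491535114686561518157998972681017408278366612864250928291099275787357998082481201860518588452858506737191901831155408847934064332664191436023361796501768753292300607159282208532653684987867228319445832314330466268835108758661481630555115491051523309310227549703138116457533969258654757587761705855573792548290941435359795711697250135511156963379334705091952867130400339503316186149922465769739878293349826148673861694845107039063845347082861840107173625038954211050226280593002629950885283343782947639310637986231680951427343688976121893114296261126798342222436626591216176658864458441635619682996618544195589161106420673180151340433326451611378392212581714440422056857441567975199585282273371774162414428703108202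5024584993347327465892225664438545326655092205032018967503853714969250165919857321949705403902972384211410843516333164162008462038688498211402225000411341360946806011890427151783191212788180815738634835576995875952481873461648355998551738824280979879274702767752894539016425084657144606075588633895592925349839341952608937336639297898181124742811655426728034964056262967540508739358721314373280900236337614884731116186225610508297153732643899089175946343794081346718074110975899768249747709172453844670056087834706089179489136528232732310202044751550523760484585124675513839180601091642085605202452985486592795115911785785960608499479556573615858861101837041039872195413998745484687349568303970943816566834180964558753203678896860280433102165459451950145250196854296954420508347741021566227963764432451017937825254588367748951278525120929967639780570321542866849236579819232744413198108252549880659704340770042177328978590763543317605427931727774444197739880430005411812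2082062689522305618537391007909165147618484938316948970143067618496164013505988426193394308707175086160231782336710189429852860341319084264381197763747123421314591135784044707327873334764434017038959437510143693735412147030610708414865951566523181065944682301916623663275015888507022681659248744248672599160976078446045590020734593190600662135707169115071306427383078405975465009677557735632092436897886656020901074518615444649335537139399251000353611741226226867168168022377804176286001245793939077318989532890313575182997267348137666675009525459336000105940364052044412596988246474455433439901328916187663478650937657924082114033028967768914875014799089895761871652474207562749228590440876355793061698743433502720360995943526949463689829549981928887646446984633696815780351564174674987214955811434554934379497471364428670376224081424251017214297538177263672528585500674454626864349981828872640718112598810142531488080848037598716639733596792743684495981262029815262585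39732012240685192536150941300433982184579679165625607331969875944200763293686349062852722802742543556491278134866446558971692964566559880601018022842842458536539270353944378909783850539205551171872348560102342947177563528933498046695341061619413542965809496564518210714372689884714360259192507161292526358857712328298873220161633899527353118349656686707935338309466469126303172733470531368593211880080074252352005379678016680131169931208820100564830351284303782992531353955996553321564839120469088390652696585043968)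

noncomputable def rc9 : Nat := (nat_lit 3264754905138068179785971610856142934344172487295602384920805704121821142184613344458559671556570444853710100171654121730946560607950848112841861366185856198863693535678490536941007049615561803801616835294954055756896926010833997907035569165047962366980390376488056005238139373324425557538210584250818360136475386242237404645549802516720831939991683408044934906915857824617838973559503080631604708225984615101660396944496379603274997668118356669124631978696278617193650134085218617428262544389183728696294457304573985971721104304906025896969953532138837465668704225455965318246106863486087267329891316068581377637048811335831103246191349021786270001892735968846017255323302763786521148858280837926449945222352558076358390450522085274171348615393245685154495041823673021921516061956728146004022372408260962671444864368342566860142188030077250066619466516329265490399057049178680315736397031947139410893856170792725454981025169280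9309558414273267755540215756488599879057553226740222561679830651306070188278833067673921922685097227004962525928115406308513718079983757577841321523846530063425001114310342836126705460536054921197495733679952168526591575021160239891300158248925336171611258274969917377088957556482400138895554339771486198676551974197824028717743717248758094671515604537590803502135853252569334378056994475286976046689148514209469485657904700635280958601361173036454737287592287459831852511621524058820860210355160160197333921357915980272009192137918018642425075284870542341538961463997658785834321236353237659591557509196788665332289481781200836061729364266542641663112450370979966138402705126804881510675375294746557493373435272335785100258170770619236029611392626295456282983830662010199972204058590895233100883616176788478347768715924343746154208395912563069286127373756783345207844730982475860838036134489771811016632559725693574365980465738544614293268604113815582998346368192982357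6033801859486145533442364624187188964821309240281991222554935641628712051558469209391436373712888682585236199228829856370656794960836062255048768092377517279647247005103119204043046309509090025377889218942190984377594922404497122949872192476257131704915886077989870537772773200920286743377463374452418090584618314115778351178374310001946375483999680474108367753050660283155666181674572121034727277994191072372498364461860685455752384973141859686851242583937060596873325080707761383504664800182632183393612105545391053570481478661710225775825444287392593076986785319696924934932032606714717269436168248734592288070018063275719108997822305565861723310234669572763228528902776474608875647352107878525906012811049425183779749643615077166188763485867935917325033037453052078017494800894977153896272601071679784839719893294856373039860674837884972928784978385322972768970370081070916255805562710202956979961641972315124567915809558665018727113605244835268678232948749261983296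9294328982094086673619725254200015553741324708943223285679448307580204209551956149680602216711073814981298571459751607098024380737424536778024934774295221041908911968141009903322758512662630386499697934287442580079169856397474584501202291116535359637598372589084877919053594502359240516332899538560262720837920134299635824546174097224119865686964078176647151129042214050208501086085856256973756387886591455560403627787527932207900563219221352130677027899481863440883597748294205045426015838156059210160886905787867504263822243063749006912003520502574508626808746238679467671748653027979995931065832370380362270901077563022737077029809680937763009121094983243242947325474325340289817358010168454952853567339270132727365285277731769983275758914518988258943798893939252376109066627535106251513066205352699556627975494679484400732197056202927751950751850576806400637239176442828274327618571063273765343903019069120614665519638078722300111711340477115581377483386357632751939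9040165067657486439460967284235339907223111973385812879119985890061792253694303462473660147657949862071727762700573564628973115544541037700498263578332618662289960119723086196541773665785831238774624057373696090467575553508603781336467111799286897854142737425325582146117515896964578209488514860495684985798475973048243415080586853669623150430949849863969945130228210139139958413023131752330573423005110610501188069499737706618299329560681370833062725951790077649424980054197145776492363852487411875758347806312820374486317887778473563121482374184905826673251152759374951129192680217674356738403683005859371252147334585097581451631820908415221855562487612871180630893631570782714531816955598954354467982817822791216651308500165454739503603825810000332751024203970221879748531090607940216596605146929320979070787228547364903082514504680478423882422631565941283192178780372175203049258566564962444312329000969057592203666335694914054503252805764090650102890847387625381384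9670564203219916300739019449500926858781885600614303426674088599970552721050874315506138514361257475634087420995339003573284458280525499160869812986255852573222537416277530975798498401212195744204622540932260474900342828610436697557227904817058885837121186627204422525474109926270444122719974286649337841482676535817943405558001780601843897159353674585662334904435725237743836052984832953459050112627945586132364785440980896253065787646623562300148247921012298796073643020052437715504941183704290120355192605375847097534189125672903310905778065535558758741731836165227203401553897158155987253478157914519894819617128341680607151221555582865288355871339330759962219999497492184203588479837643630509672631260700957741174308831475800213685905702592851070713596183713730538149953970811981089279016515422662337486661496588414354406651540324743487000259080291955167070969133257608509965033278180711132796521148550935996980584053158686388405427931404550685172816323188934414894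3834367966340529717997006061889005852464329444349508369564579004936325729945323905338829638697137469594373962326240554962135969850333428728625222942244403141924427334787052935078455404416852949324428013386870276398981804690288569946672008549343608556617979691359295938520361352828551398411466084388649449188322907179902116467508186903662556760307258911617480895439781593306244240843651881202493241524493874447668963348841713271597265331907901622635470985566904898972605474479905157723567571506794724092486849886139786286267493352958877468162673147762116404083703747806892665161254403886373343308866812208738671418625393963040274218306970731874465709569260136912887730240949346692754021381213903283141999834879857613075626377643537928788342005870107420519169408975763874140108079338916686042777652331499916506765327773351321944304107562887617776019199237193381755300264123314745594196926872642452297133381746670617460964067641704135415876233949441726211494707705951592737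7848692354336904517897657899065748207374894112966923679310935476354892967712734324819401188998185454057957287392715093697732613975310987474572802594977282125180575171822710891588156867611401353241933831104664998857986503562927503833601079416933918789136522400485229328660080158531400878098770525413823597675364586182565566838264604674726179073390273715937063668191607046203831810048784739796468537481985387313884170367996646259925482780660240883620551691039213113107640933770742421976307691120635091431476422243109543022189392386507681034647566065871683907119173174107046567695906524054685354825311090650870931932628611960746501057913313902460167783585950167056851472797934308949932491033121482773753591403889344655274614407755749536249550405488854460331003873967575176888952059391088004667755212071512353760598792397961651540947626486002453759416335449774846532387257330830569273359035451255491825266151190553854841728202434411996481418955337492882949654768356259656600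4586250591650850391759189070500683567631352498051532225445095959346186009783586620419415166353104896097763356008160521344765981545464554161298987021369271207291374698636048430866134588791316617467365617920337383106578749807564555574976987620192746599065271427582374076188946972503171227937709600371627070827020926421723174217280249897785288637488308408007683276387916934235374922852282463715436711685798043010398054276088248501972056879150547370310832818857172836403673844899646528435782596664628857375917210624592872931646919999905758836312227839539306419320280610116927051952944769914247734722786026419744590202689120909293503766024870749106228698260634312029713397557852073478836396852993365381177368236835589779973263887720614181662115590756122287719818461435423576809829764558508679551072701166528700572431717527470370476792231702330664179877619195633883809114051494235835866454253874305903518299140189046796507009647263586318580771004817497708236060268315812414828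5972472863999513424399412182222644416204666621049319483396773897692390188575842358704871979978168883547783030952875408905438255606976193211269374365066593804184412669940820132177995451524031483304629222734886834488852190531111512285525056378079318649141612649714390936007686500891050873334645768140422921031959284890613430697789556585898910427978169641751290742997472832484550393817651343941424693642679189762252646571319303037357928146437578423999036382470624144168960325339835711390219066402184085631721983087000989717425115950725717566218552657576909013062757548410000803746968251076412255781110262019975644493162344353059947877729426467210370389878693069123075542853257645955065804241919823091075808430880012241190446547196574103919618532920259790997243507187604438515296379627300797923414515097210760301265072019558592688178840119869212622459611291042561188924388559721664850258324212374361194606532825981327940116679617598418347935597323645838855489259525403660360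0125275916730995263254345854468543831589871833458990672072183257782582772922550042178802369935053760990281982531509452383816228329814547208547612208276234013131599491955660175630966745191482929821089923517553298478082420497526498538861269073143236836352147882258115177430696883634415999188763017220784643847193928476881021216431506958824053964258538285633473569726856898355220870272285097921631864174713188288532177934280279162042429935562123161644592008019234486896549977363468225668003251439811503127641592373873045735313394089133291799570650430717039692532316069835171202722078479711164806501045118545431912117834536189720545226591777194064925122584049204627230087387941455830307690666801254544822298138197232451523973440155265773100299280071356616011037745582899837561206950366270790265446122935105006522547046512456499742703769205644504343889555543657607193883685508350355946574620528297684270761092378237486622962160184139134417791734666977814033193043625952883743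1095265240456027389765289089315028694235745993434218228163775569710990011219521929671425493271362609467432820842679306676823330300732067026433328982039328666742315910918840452019671482569211305195999219819145667586651565097807415274352712873126458463645093513423825802599179886040985967169562609524840614100131166002191230956274511652511439119293390816002159636843103464653561483595911313190064636387691910248724384035871582510281754507298234049122731881719023728868924548740565179188651906396541143130174425986019537131122777284438654391223520114835799210109480586806818772678600062701144514307406066612283125910783098426470201033916589423103349303197369652918010262775362407398608633431266293075065843957730243480235208283734191363404148096089604883634642271218393979224640965730276211412274954860398310804214567464310018538790620502179946679218648724067762774462124614106510560593461311977904094705745766191574009846283970688816261053253529828858756847628423529248129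8766959432723492210287637119036978618510689219797383020954773701104949671062618971846155784521055010216997186676942279214554290388226481718204121491049578200632237532801457741474084781977629092079377361901550260617748882365936821727962793938716861978887815683219854940983807701355409623949603081951836927658996908193589325684801248026364515963578287054969723158283226036570460463071990981672689343569416534928374723939051271302651121884314689505974696199110507082690484595461403659114513046611994956696651474701344206613461678785126690876648797182452080705600747656810479712893157824742731387842363931294787728423291431111089085514889747279934427353306804337054789852888893867405488349980361578482166648397618860463045339402500946789621829258182475258361163775875576826707800912135622208463862641007025947896917258458550761892258418975586401209525325964807734600172519778841924237013556733841367978895952292314164316613895941174920345275734142191772783050908797511172102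7291332890451448340671066971813568104565081539971880369519936816026478924854557338812854142707857627311745186608759205047323730500360126183001171350352884280943239390986859358794643751086152947076422911452134859118255180354849348607059028737025476819092053757105578304971955304463449512089799212803747462117405877447983137632863962290473219047050121558632966424950509585959273654141837968001373793536613754809290515057553952509608918563675044057897516913044063025773630087949601681716695156153138902780542044493616447372402001245875580709167662334998008494101431784290405473899570830174682788894429489752932080909002863559263263909348689497817054924296344639283178220869166795871136095459592453402657773193739580401521501461921648587704567197931134740585780124121871588730535178492550083136717630015647917716819601080144904011868878637662757092483872924410620862404946423811173560986990179481333875720408261197937441354709643705805316864032333701987220464425923136513099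7335455469389591828637368897127066055174659352317007623450133062404708377810352640818635370079150810146341763471984619670006534091769342574089579067683933955884318891453379788268813604399109857623386264764725599537064904277632568337759383015075597747581150423247462226658044826517735123922434753746464378922347739974310524268593740300612436986009597836538445370749660712362008832838747361030585923379771969806728252612649095939263264854924453568366194646493754684169217180066423320176145667793459725840874988478506672883425008718785943906231234332226382226483141545896160101249496592975336718614231338969981248564457376414674826452699802495500414137540002169988575864611134593454823505779320576441253612191425304905484209933023651959743152574021300784719908607127937342628896932451946614128412095521172325503630655819955713799699131715884296598561000613014602641632002439382632884045123642604258378041636226939226257861274377585691036984477720171503336863274884361887488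6431016301771134126774455734468872461511509434051241497393034639829937994317781008944185382067111930584780196435315228854966009916434332084874548553678406897292912057863329520889556277039866818486614765238667118896129575571669999378366897721408239713607960190032435270864575028585284326681775055437243283178886114753817221556975097257573264791266552451531699526392892493789902183561865864562279951803435566259418629119841636229564904536355056255659829666536529567368401231027601218810756075069906756242024099246554193567748555788413750094094516162289859379306450334156450663189006414247666507925589071882801066005980137270890776457778832026547779110676242388017549045837334159738055059083100322671407371835488991164996859187022465348417977213146807949952517129940440267053666685356219852190383221817226299710174236562593366671250569930365012311734604308096899924926969270834406012689957776410338761444638703795940669974728465105465039980732985414256888786549893080983405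6057720434227548874117877133888294503444275972640916650096156117834168099030973545992334454868581820828100962494121476664124687216883940147369406620358058643595428937785623055987099548020488221632965952941939610233812160871721245813045348454771401600666591137669128049653238364891314562029992356633544616254391324249654844875468424184245067482559172168082161146525181642858916255417815472922791796072997537060324677875908388593920599258193775442331872537162067683434084643357925894590834457845805064827387825223205093104737882235137889764509649473600120912499742518626856417213385556401470606298715148246529715992421784194366407381451654668927413868929900864414637420941345302523347643086077051698165874123434563835210200479707149082465244538005811694219264126308392049416350056334718984304652348517134204578887148407931543462945910426441061072474533361974296168051702419563626967065087759011834161497810273935306704338498809375685071950085615283450566915970186772502965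9077222349622278123152346634406502084457513553832750668195564448724829986781971700030040188872831709297211438058433067105041338794419863020496736109152537659801164285642293819994781983863781655731151300892959053928481194014362935178248813035019782571889015638147547090890610661467689052538447261249038049060941839689271371097025408071101643198345105567375318956134309546048604000600096176711862004056687323440915471558458290709453495317518808966451573857386169158421015461850503090812668323429248296138213054889749240408137947282295352929875086507779520332325572917887729735744908514709779559323235998036950073487572292951991105045288796309865734326429091346089620011504788918066210187848888328427029213795332987159127086688619832914989688629046678812656547472149550763854234610914150386842038335587049521059529762402732029048142937461575587746076639339293373533885120121749537381549763166006775213942192368908352372351483263524784893994601413829992871687143829837778290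56984473077127719805838378020811083031454862542227934967250967350962719269760877591988232088338136234664156950904151155776281042445024415419346428028765827795020658782654884943391607302234659783395879826361317070906379255669267119703321478392681504586623213795491428896237890907104579193117679334296028444261096229580342111900838000408288152288327077948136048005854670905527735341033099506765683886542925693495566235041931387669313495995844712622491364018274054185339964074688693608223192846978757037590926956953600)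

noncomputable def rc10 : Nat := (nat_lit 327403702092474144665739424762691958937993571554408864846764139969336557987253209206022027801211320478327745201696686867971444441817423074737053799749144106879441532918611465644031913110161500441903595163223180076003841994073346095046527941617368101767896018493965112280280016797868870572488876855514502466288197488151867465405477478001464890420295501416766511764765674628411502713364270210990072065990077531673318126867889666668931731733859965112627735134859547522399784314358798012090781302398713241522425625097133597053973969349257697537860267040584610972447798509142789114346538339471138960849478362545799495986489508338009259917388969343651305280626872535759841913337815410325092437214287325083615972405514033539949023001591010664601277139631062396931256947016004856496387827822207217197917480680669362100077780242474671736444333473997234374157367775178453794129851773704237667217049175537337523936830469210481943432264206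3411625528861282119384333797054516664580259523856826003204377408937187405788953497929738251229173607701050496743582744759532055507330183087862814333713199985734101326188116704417287693642075287484735125465072405757505295036702402938968366895680524535286586577462178743809980988824581268425456035612509070148866136667815288362236619704446002397973122545629912084875256660162689358936897933768721817947523615840207295463669835247606624865609118671554689646361869657287304942732998342325781818188509887394620985016326110079587792325607544311569365527795536318572190441723824734278975332646592899971688696480098430978057407951633047500591403532921467218483151822101977137017121767113579487018442123305756072872003498232479244946729830136465168729590982929661706218698452390704998911002424606512065750424038336075512044515936727277391987838326383108982847695281192884302892642594129536942004512843480584832724319911484985697123029551218491974993450405353954307148562347950053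7738802716647243534376458723657281849398127650752988285138501313221954113613687182577331721812067380502506887294214129473307338520448978674397858064308788607081709472366688822514128292165411844361293281013570801267067024402113191055453318556577832068042159994959739311898242647145001352617740752474373705844432962129489231492710143113408479443997364313705106402931790462834170570472514092647968839256772385505143598911034458331500402057559704352332977590100680262963561572423007915304829628986091183803650519118611774988127863358810771594501640970864252570872501483713125300617408014830867392664341851565406878266812894191190961261897226720348107066427011217573203261495654546252723029326238240221744019540800046418660515172052070781614077697445519351668867228243135317763113653799032796366616171563355301433041260062764414825455263631444067039802891541453681601206114728099286591704147224006892497130955374837682047709933677765948253833370589321444881268831556880809922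1631972235624959134353442504649365277707157784058272160852030032612947397959530692299804374965207266445620037088218635649679516506316453061325160414700108603795445766187554949967696677859551711387879284576872098264363516981368021540174741485615031951614903776449079078880819289336021169083148693345134478887801945096449226302493581178369385558240593824600425357346029678528725141966810883758206585902815922273602440653389471225064644302444434263291258567818686036538060165280420734180905681199434116518198598296846108409026624624399015091648589822413442865266576202205912379324483410450783046303391605894022227200812228711160190420828389986764717490829102179260565872730852011036521185327958254748826927263585999144024664184534012759722430236070047710528988686712723411756357320128012200125358474773694589093097490120798243310459359948002762214720336387774524711785651402493527836068485361927167813359993210924633243275937024109329413134029703501030760952649204036620416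1767616244428200720354151116030427636106645644161561135990472374540104055982825124830834779319751941978989605863258363998909919018784101827690906709002958903464954979889169511910441485927426280366770367430494881111161350030689865333645703528118839964074208954380834649775355748360321286892472470664156475773391497770030710873562311356715344386821267978909521318521727489302417287894474879395407671536439988766540542999468662456249936228273202692392953493793483425099471773862216021066681793220922201751205924858642222374806023712847894423658778482977581857435346487985532621429670630425457972258909168914986332390421037323262433822995579352460471319114209021180402532505026442936252011369749236444443884799685412296571438911105379821355723874311547571436754144000595752336473664983041849415412689713627609267530709439053495988204516472534631302513339239069378262282262806958259522045471536803440451395941646414190778222675447136938091281735636370107415897604763082215360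8699146467760183513570878134556621413567586985637537710639146112741445715684567663952758294300897829859665433088705115290644378535964097047533127102133481293964280217124729444456460200930647966548391782312015807076948347686848986294678470726334363749702742799732570892192011445037952803587678833360965337437143987450578772773720834615546209996033651047101944497492501638827110532139599015948318854977766315704744759324475242393885723469809246666465610047291536839880694790676715758808309244988369302169816246102019306933863295285043860352776236311944360955129858564274648018391701790915054659404941558101526972113892145930786397458522021132947797794939062006931493071565588838682102390601119864076256435876133523125253781012983524079971699431075132480992004237961669750275466049006748330022857912301897372705094192818929703213034027138114733134384150037027662017507104008180456597344851435121515075745138598399799533887923989005858414027119257587974103826463927657224834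2282500205544304730746131190046643986357068903807169826469194118309969792525306662328400995420319422419922727649825251787358677760600805023343057979830788329110098040395894260549868547918465843407544096403733153878246588056322395586813263854596183679248496794386615134472330886418274357642448527803016331468293942196344525980515190697323450818467289452410802159687626778751063398770524096266937743102332678511782912473387735101365882516790675905683899807639707645817363530451040333300128574547949540389484347744917295586089831958079382996066398794897402694338753309949359050879540925153565664760168326652619622720717287083114808888064377219794822209719616514018195000882873385020319492408835130610085780041281093143100626804234519299774089787484048164081693520316637224743393575792085208823746090101632749030438630261422943669236196915494586114455036379741383690313820289310120503696925195245268914466881510644018023564378525138830253089197695680467343078513224083401612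5426252335045805954415659466413211776586844228321043343091523595072483970559739817761918621480931304819803769304253665473232173556001484176249496564159992194638923193499717962338053334354418513426558616601085024793317493000983577637636338476897800626381607409484599279513854762112029964192027927927306289331528273645963586690124074308024469402180836501143170229386721468742612736128765787444507084348857411747650753184134728899993600893908272971659778888403211163671160704972368964639597847255047200240724872029048709237731332270881504429443906996097601228533081832461339895413360492576983493423890412945963955116019703662747521137755896615390513892000270045834640422183239860907629508952715631337153758637913439255169636680556494307838832697267552092980735264224946878976274289123015524425756977952424382827438071153232014390258747189813663275571674030850164439019918257841872207781616630517751664352795782866445645296699926249881786844236658105191813020861043080943042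2774683635134658217116116071863717872756014308157563881869983240611025335663081155854781265299779656121491707298312509532960843749305228147919918697832421413335697162963677285636843371142614160541842369047411794367944458684920266128699418340286796083329473384926879348838324336343538344766193459594218232636494389852183373917728630443825789482857407593162554171770538662917531978659069270576039017261840317103499422026146001274012371614125335687939935691393304098969960298595701580834732853435327935965787008330094636673474327621399243436646402025395493284649958580923556177584325855806622031190653652572805001893291836074896038743111429323683712415886228737698139153143077753072848199612809716551744008702122382099737935453285640130550753006601805502589045566223535967095075664725554241125498965975829394646540430948581208934976699273851803614837534024980360472420563143108515038194237926307172939605630136183765061810183196335301545971903667170031041245141002904101752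8606871042571262988888739049467668386332343190478144319114175534653374067638719288025344546257330609471544570249966286497313509106001428570420880740193955140336513678543037978148703278605731743843191338745622017583948683543813182703681485734249046908112079446450971751598895468541272356293958050481591794936857882328340963386278502000096677966879756766331458777937441952453692954573978947747846936431248426407901614004718210093092213317485412944624824865757718515761273697346876774047405098374804220891369400451864965213736757820550945360525244231234351848890671194538264569002481124912745614870210629954972359530436111121998547962703453299498140569990005429865573085169206961769471804731269243585011773351022130490173383300927622066416872536344209736305254741080420526480324708496538148055456490912255999298054557171163545818199510796277476892555557026884616890773671241203876952500027216534966418689637939455692424561570173617269007796597009703907029998770142818944927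7835079600850190703889313549139062437583612239002695491175543930548667134008379184376449065441316647855797251644033834533015778103385450957172758314446819413196706429133701131967560117594458607978236291778311697847762544585839740637817587440324599037297940595302605169195143053648599630609562547651881050779419837182150880055134829294987924505370579009678107716811329262891565977116952776895088350941473804841702295686904299564547155288966268323531426754774313480040896040891461536474090869801436296809901433845222402025314339859374308495246641529193467492835304388334456738498097818445050744408445313522277923739214401747356050623046553980025526601093023494821349714398617179475403692995570359765701199568970514590008722702195338460662292978459317810671725449098574852845991957438828757691182871545027535016095213869122794976905171318990272744508155065549388270341257132602753849036098901436280522741504133774623056449452351739196453990273613109693005820416341105551455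1089449841322417775905896428150099772573552056381530003032091687482346445378786588072901119110980941887822629418103906466461271445794697017073321209496476733216447862041305987868320979073639727989799328690424841901253176710493005447267675759570513077655929782106059006306196804100839548728848688867715756102889041465453976103622590582759635394933758926374527544455807582173173309568189861234940363892600403937277391660784960402812686798771063798081685965890239050567989044417189121005003998985233053715441965573259184605842272957365654120618890864445485286773956589413197666188047172476517579906285122831208330518759355032375592274138440226282671965037554431756281450356254526683645828796069688670101189681161541803084380930871273283679117765277452422900714985598052079597971064921778636972035055343773080490244366462785177046647922221511454680681589390473179014797427725881264342656021221457232381347419435429316350799751969013624935168090244244738172003155719966191282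9798375946587671632918202276333957977876396219668001768309218011171255024827238940236353998004232095029433898762783388921890013874763798358053592746194877878535793849118550067904730079812309719359495945353740957056316670980224495865134158100456390717704599804170485941941203136780813340450358304821901056821958028074214733088889682406435399203984877223382181887197069553861827042171016122005271709523754729915865971987667305724575020426789020722503763268203481475795352449063249405930578063040535803322029843735762872755057064721681599097423669971949593075512768736877242765896483101323531920785048593494031607595318365877702408576336752884723972049399296635078805516160174665180474973878426748765071447382492627662858971803439818306060394324048647692525386763633455636273508035077759289368177959060039729019439631147670832589306606175055340439456407749160669404829672270674506568594573754433535437397201442090985743651737566350239435881786509188328777122861419982398059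6230151456818188382977323335010393555817601134079509289554534597683205692670000331360959981110064896093173584257047778118725803984850099150959015966839618637329575121159967562376474820892605644865802744823964697627972469266290727918959170210770791993629924818808115148808403778361333716762146636222753663863025495688017697290388921465206820147634348467617659442872277703127857347233365747457019436716714549376946051084440142392912895567874178242258355967217990534767311444115908278463510769610668506262093918935187297802679831112242653886219550254805976009556438124800110254424681827693469826536139106405897389597786267707592633610871998710668459657225584036929811660422672109888634425416071091255120494057989669551865504674339095919034336231265580449395123043921104399277117118880110577801524019063593126244957851418087833713098228211099494688837673853570431328686437805200202308962784991623684189374051957311403913895028940024315687979033284682103080993262807660384319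1194196503321379175034161834826182900305057378468912307242299978950557266121694063939942425511740263443027759410264938219336549377747226670956128132383729233353412004580125678919067506057784326640129717591384659837855201089135301697648547687782324637327285136229801647810488809502275268054868895572899834451063652280416112183966630342853303549260457753962461885024468384836831267011289700386152098196220622977055084915980757876890122757152284934845427779745780366999762477857482655370221996702930528511578831801116406795249983082106681152732528796883672843307486834609543913655571716087200269919011673576546519971943588781519366404535809585174803478897214069867799596451495408008040694253925475653795532222699996021294110172810630136298886311252685930258144494966382443033819736203164523035083506444459372751320034655301711169226401208720670016722314315484503562002866603748138395069253715773237324851422015926999984744866564132449786429564552810036771372892581075071502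1540584700076618377735528183758992341316743157925969503893779569613514281599819881203461534991766730289849909187227909632229805534339816950950955139075386501265642820874309336634710186043294764542788196412974414347616171716488436737756868030810558479095065695336720350834658371414186406982417350601282219823154440836269217212257294225833545378568529649848238970736817795108239650196391343173079474573211978340760591486092531218717247570178123149402599597486290131690410325068451723557592240271183729409173521846422559012398914293301674507469108583780499689634869073493347060340112476566259219830364798381524931042018518053520216184667844266549017190051747822011890879319605677152054671186548381475989903151473636962994510377412253218109844462872506212500597358742753185007963397102469224937999630595403131038069481078782214681858796480999335515280987210530995681188728844918988307408224694130779595269115336124024519726900073914000918446850291819171268326761992798886913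8250534722831431810952249015631061034302038302746193128756188084149048182364734999550408667468835621210360404713259791201436756574881719576637059318255013606886930443064291709708237735290211101113328307003357963520842309865392361041484825474799663925294132836831225339945859335922948145701352603971642427508779686657971005571726190561752872860595261597124976043870926915046730779820749757531876471668256432372698068513388830056166773571431494117226185740601574269685663209309299958823734187844316348938449085066278667077612879413832489256756349867679996175253046163875240167936616295001873815068576650833951277819297629792577144117973019959826686198701771839813828482254868503153628209947996877191049028894076724021307709287081081850239784662704122146364329782326677944608220812047657555879115278510587837796449494141444592061133370957957072073911688472974383481513319668840773152037685504645277186878568040874803118272748331805924839361858048848947719175465924993078149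2527628430231300745636955530664109439652627114168635975134352651467701400168703093092203005915399539091009692771215688905412831488680750110492184504374780070195587667373167928537237691389390557624333313636299895255011203503843836356536302043005015976697615132590626929247107604295460660028785231747891400858660593489348237553119050156423197710513811998790711257017427557838014249809252660062068367780942053575111776412268791043454658193028147591991344235855874155243447033055609462015071902948964949262862473128723759949977668198578491763373635605729866652423115544034508408998700268371325649952326808153191485988864019836039635638659567525929393142172125316361417832787953385732558183573255707642114726315333728724813512448646761539798008119011311904144157149738474224207386513473652792843290333866716618536063165121296790767965536755629637371167425745374983477969263479265628676316346877071447720606824193554940713916173762575535117128986603685462218735708301428819577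059805828052293746748557370886099791039842809830482210527372177225806812452751229252589209282846066706810339490384758378451170925145035815370110896938708723076163696763216680443994869162534873560014864611517734176120807671618063436872279029328771988522885896656657468758110943886429580247318696360283773002652639341090766330975189753286801437231702201451868972465451490046466508438937748169761117104844160882667942552424689211216953209981944451097132542631204595710069191115112706254218137308941064676147692595838976)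

noncomputable def rc11 : Nat := (nat_lit 328327726123665841854206389487280761621772382370359000354676905600461738226326038441328073592092865237241189229872214080784644566859267681507320512057614008795985970701326144824149619805068541533513841772328209559076533250662785959003676522790084798640883885289389263530641167396503118852386816472168810246807578550516383145750905946062062918319084193849024537756289431272668573496341388534599720394518082291248064507288730167020881626575033899516857376285564218353074617056259284685342033263532375715210911221365677190950056269049047745627424020294997180094497929699737692012327506975350610699496710664519930682583772980408572874312509475288652802988159353678399582255774477675086838676638811597164288285639123518412335965874367586441157858626676075025813820716914834886040411032302139013940394854284334993368728871955710661376898956572764223554121984924780516489923187920625482896419527056422776678847946191951516333465524960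7253431454169844047730828564608389472002993509857499474990852365515299944096999331769812039628580343911441956080144041555066364474505780733522920381887330499141316594649648170154394436123771607457159917361093235027635173513063507071708229939537230668095408852097835900880426978870234474322857341455115336659178258038869591454946121406116138609158495537373849792696465741907495341244661274834113808106633615977208490958447460037242591508745666783929385215240714557286532312089503240381435088513400931257818255982592081232537063577528632679194000363841121101217426633252027272774895677233858178008768887096300244581986780382502474510330201414368089152112171268884515600444645924469195434789661155454101101174306738332243256581383599988777827817260448867734419496926309519367189887145901606882000200420342165941785033726043810480831380903394880510207026053522283139498866646391453659737046455990678163064006093836778021653783662923362397938512041666972210757495605865056243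5059149100760850845229043625186907310500725850734726834399791816276367886724512673862414409850784474155590723004113704809999372082268767663166324283097006900829999821406133880955468898276138402284449937004996335041941277525951074646784231961940301928976333117786570303645532138481011441793170444679782565264857505494220551205107817330811849738078745779122505521232252499830117436741788875062561445291882377294695052259429595983128570575856492136248522599485440480624459795917299335133005847291447440712374047682079573468320505043378037353198669000911584112767678804748047985734047866744888915169593930817225307988197164985861855869786669031474988537013566666541373000340682388824373375297412853702824634732580892874849488898975348469015925558998983417974729702560966612665305901683473261559432409541163279435797167167629940683305873266696396847210533220869742553145982812136684965183299565980558339605629443011019428066816042024381058222728305723741540782428722266516248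6188928159117798801109672998260550491963593282067023090432844095127831806180947828912310328569714679786311997754952807275419679033832068943364719616798018519924371704340089353318600571019616606871111116439491386766688085735837447793136142593240223713210899171032270201118127896146160197424049415295328264803489520141634911768775979293782768703947268253175206432514925665621989740865678897535669307370575790940950270840396503805352203400443038234010343000711434305686355295895266434799895660673359839771426936117031946332008767638059167012259951179388692630137804175543592604442185359665442654973245908316971268597851904709215855443802500968732601760677650684939382954983642546519232805721113089290615179147953267654714407017320634568127417881192821706246077139290483704183224707046256391816513034356588073576034747774443758567883110768405586372095141347671602960164460079165933930941801374158973646731697259768434441591109587886546559981549398966787917089817304529784496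3664230065401121908639124990669506358953219941678500350270619211515822854825758473290755265311081227804798067805941285783506208849466100464200414100944508699770196833202218636456568578588028130988094450570460053153404486115084245279339905646032269927912879332234948986212485064147027947659532462368794765256600133051329615527040327570682106684406162062310272999227429156927951306376963641606691276512429216741624052442978814847298650879407680289102347411872457376037446996185087547804193924690495665516296199171623372428181337978196094142062843553051093051747586736366995671962528022422425387693551975812691912623732046813021903947390210089387883836869923343214944550297454699344559858967191903630713269055533696785669271144058952277465289732943622492266087979012895530981752618131581045876139571365254942585543099877051642428695921713564590907214932638371207765266648645992691811614692501549316206095825385990440579132758982004581462113080828803488395822598090582251089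0286283516933876971206399966622441763844111814373622950314725054067558105718306115188518129331017745482412359680463742630769173262812428554628016584700395682748384588370637137534221445760159435128028631803007161475062948317242074344301271721970820250417724914668548020450468530537788139112052216341410116067341123886826773078165616372660333549387820209049770456946591570632390117572507827802109522372278276175391641488102391454541679673050001495634870357373281363446431772027484897581459097317750511429529095210691388386243299533948551780031472675583582392692290354721448918464302473727115677649536907083968668709051455828371469742435824525822531702731355320506267800033654189398937722763598015317966043158187928756836937908908357025555602839180463305907506802824137474422979591188438914778373592387771623154885599500537073011563886113696724639962273145582229637970548959504246127213649802301629749950112844793788171781686723035645777783147905467983408258395198636692756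7642175952021121677292495667662917157872684858004876235405958128316596583090412860576253296009843900864501074287147164868970885807926562665250790826623029484466974054548216052879804761966389163411162490213784773510220021171766386645529177024965566516517539788972866363783071329718327405280459538188148965402095841268337250697538481548629023964587486461095969939846585389518884346685611415890264087972045058293586843504983239657805550274587755950182509271961024607870047768867747548266345550530698593172713441634371010045336042746691314648635188220118704579362665035187089268360905108584870617253964549312060315371500956249558977362135962714571850637238732195793285628351649629276936348789624991478670375604150729916253785492814109608710267559566975442578144675074817960244757993870429201416705120778998672280400419506979588628423634610725199966822230083694614295737556319873670381320729749778908827123223271822652385402455053315227746456964234650557137468725930088301646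7748692821866291660609040546228093492189377493392048663154414764957730422707643691723997334841414834418757821467078393243351589453833513742955757071943285068194122370728186453845836890916544645359104971000699976722255410836149413210396343264868152113465011095116276383612065693505735055583155830316089632779803656941023874353160451413622928414290510975979788032901056659833472008166862622052972664843748575774616510896773333119571108609609844408328903896157555474121467479622584829042969640104942301487962555267434515193113301660109040712816827107520934722872514753554016040691579264171659294317146897860971704299755127580608528872205461412809564424919370945076726437624243367826686094217328992450817081105589998347070452757671562061400568138783371886261832274375699404639889285097667546825283051418629571775524222055510509579158498682655797217059319565368423876403689921461393311461457940241569905462866884803782259711430202361257845980194403047460131040562187242148876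1424912042213187411742320224813126058033111765379729848862701754703935186557769090006476112205228417175589063587020925857096249068693458812861548993313456334468679773685993347208995289850132663789453832940305840994422926843834490232812841639332194665970902237566501349456268026169001254542990734765293439752908779634568687669488720218935204189945428032835372699864496601886984311565542308670159646824458316771930644070784147873539808194457511158965263705504093554239292031149385703476100673079543976745983968325863534831216620439703261837362244861305925538656127580079118146124585206405103975041405946631062213392022261879411510805992066855261385713979501468611629743659497374180711344541001802026918100519038406520051541025348629727109704726539728879670928259419752510356980503027865929666278751040621344703989166680510288258680847909566370275649453168336232851605924582222889655842625202604899660112337353473004984373906238097019994110245513520256464488987371596230862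0549426158387586175732821498724777964180982497409232162818296758209997911693641527513013191325406975215813028700261145688731168610987830983315153310791236030616529351838403273868349624451985460393605090665175325168976399348197216170841012050231338671117806907313855044767373047970939460694263139042475032381072598843972373284385618312475679209043480693335969607019051215797451435048045890520323645447427198193226213679109931938393061434040423370543679096723328666132164507574778939257519705473259553909538441483332125352536439123792127759715536907372481458008443985137633292790355072769532647260405600192931908871379021816066967564695495950345369067122557622423271446764837696417456037847496736593184544042128557176385199767146704092112854646012691508189053902942151880028044053003998999384102557325202944512812029586533442521819581438566919856901206931493372742226965655418641842125332557291020892417358743554042323100952992740144387870456124724071166649517933111975023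6047428807288403585188122557369526306678910378733418761728194807888493752501473754742274334013185680524947506282455804478769041516570861116594303892870193880592102431587994577964072902477589314608764498706984641053927767794028408416728290661879120475917294349150740501980556127419675130606540773972359569748721743698665282714475337285155431515342508145550665518602404265431029219435960393644682240694316328548722308399924458314601250334670512899213545744295811184635174589630885222978100221001653758190474091320669427419827187678363717694985695722183981432420661790940919157572088123867540672483833537297181289519061085806742931263514865819143228285737135366262244947486168511209836668092347019262001619427963165364555389947844364665333561411189100507381411376153895357593552683721114482895708298592799534793516122481632332236490500278136935847700722994865377207067600232780977445547572999732832286229885474279774312741912436888371694614957174278703913028169147217929986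4802726969316287624265603187392482350679991871642348998407008744993675275937333393212489914949060513604030483504428885021364903846791277999331749744149868654830205223734919048212246211067406407516628382743962499094632438977915573949999410577548063665634154697546843915609209730501939693417144610392420483284002987596119136972116110002688119054754978508164069575011406917409747889180028007867639489705065810982178561507190960817829475325370996316041183462968943175896826777032743682622829739685099649262320156368491772377033763354133544076020870138256367240880648999489934413194793577586118768103152153404115682021819030689635680922590415044459763643950656293706095157414750368679269907066502447599197998842435591548454751422905359249024105361113272209902333221963332448956420942076590043023441528997046953795669236730679190387287400532403048170707495262681690487427366943408399180609157197859719082852286618735853432280197341282060959492101535856545560002884889802407044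6361347343011988991368532364992210269545207802788934445427516259749055270226581833662835209022257008132264805905903947028000597468905728464579863728117001136975822291038431059403236202448177150934203831794467474392144405331287275528150038565694846873121106348239824199697012012176104568116329058955817668696662084652164966358852977545726035932405072328103164003778780902170801718813840863343689096700413175258467781473785195578203738913513537446436298995881053306599813835013730944894982249169386155902284984247140223399785613002653168467477618453762900725962130347061618472124729517889923286578800315992607431026795624478453967289156169617098146995365622739691145124781861930362324338979490362050389504327371746226121778403505810494613233985627220294132903898224484682366526024435711411391204051044525473355264976827119850592060331868951965640953017726585340572600090439576648138458428571307924785112302504308043985896209341234639876341305907785285278706513677211572708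5956444822393966297178210464235920577824516283925500979091317346073935376903139170024571632717213280922629301836364544445064124326893940091216221017696626077327867212583665364260968567388964444391092171011798822284383614363830008725044509308306039877545598738623927298521691525391279952183757671697755227975690226974043542737492977277693688868572998508564404098925603874272995589268924734346430103702609377695474728651627361006078684534241909559499918179888086446583744237390407239923086482154794099159595456161986241381917534467570309148078013926019139863299528889149887158017126867630542091964641283291186617535895394215357590626539042276197105977089912918015208709154362094389142211105834860042594168182047086219488408504636286430266567288310882176847054526551633738750142771858928381136875504462271651630291530655427781991374271581454474422633369995898331290182698233461741733595230712248811933331249310416745003042528625874887141387074655154495066435395902500510909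7017120984564450251210420532236447715668943124990552657555036825415306152084566111522702137966891469009574984705232422200850277369425147421539808753051807911559089225279185590396705585358856966032972906569434730307851435456565466894692987602145063252832632312010959801468224911040225987020845812155153009104747269319163489830740477727441453945247581589223215050019786909307230476294347225439999708036123518563249537711453798570112684700946520227938883336907286740893201486634073889718786790980758427881086943671002219188406254818901585639339684999581674443206254314016859738081516453624738055355296767200875031885008327315983533107024831388601389431109462624174285544911478696160804128851768201656665550617089701861750654639973217523920213280840845959973290303879271981066455872688347079905716615443539391475064452449287892849782786225647685996825290295814429272138771383832051623672037352953861570502846768036598549050791200318999045566483399799041866924060248705443343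7538136603268767407499301021178169256881977719601011710754037849743655774211899009278593694822898483542662195659860057770467698423671083960282683540478667672861336125003273437819291630890072290520004597321678434458752837385660188557992987199593872160100061127698185972538910524021033614055015868859813493254967601235886136069099694296450698999834337036717589606577542098716025721098626491951538740021554840855462742424437211354894423661200878629572750740681730070301239851947704104704726031102892451248514383653624788951887860880891652624183154042685897362832136267774082940301208570753581706593141728677483016584481635545698152765727447722363747715020120917804269194837280161938951648212309811943006888252647188884943354351658090734341491406440130430555850628532569722258487392527749054776039060773207637836052437689724163998983491529649561420263326916588080499071953770910519780249041359561832299404815759610795089312587196292353909327563161925806908726960803162446450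2526279777204558683708543758914659666617937494115825881984311295662699400753223360746193539921441868885244185768914096491995724087324367283204054800845998644050894344560789453952042399885420822752989692616649613340814650053448213314441037389134298441897945035018547001715933141318782769559176205720500454454676727837352031402227826771430106521046004279058586373234155432096850290623436849753260338159503926319886165165606199012419260515331813489566772134947252557371503013326260636486730796623421085430621011560141447557030271633626968591458667912332336152966967037839630203849332736536492584029983647871820285988215732847457765052918083517742872299168917182100434590377002664989331880803671830096349801408098907507857500873105327606518989128637387259657726233244833103542178821208620272887541338426832432927854829006276087523322421826526039859975457950850732102594044424220927414609770589504100781202811756327618524607233978883937817412191914737232956409175941908218980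6099682367113031061742959161457796214860362623232883834747985199277198443660504880413362019029236935728569227570719317616293165201835092233291229529039375476013393339754390562081332720274498690273793241660813479526127956073414988222209752402851996565969186127699236981577081128799264485733323037320505718229670775624468100987889609773087801773659380222066109485195246986452329868612645191315227894135178065836365218893608812300721482334260504331717751550109332091233551159379535967233091173436387110260369060265989389691483307249668185817922967140791316623447034455281696566040387700208892593057953664462193642319006745265472377452759448055736197831272343965967156906533762070996667957183872824585417826825212775446127054038187099130663664903140999124574714624982011420256469345693962118358443859187400461536234154917457548556870541764167840678266311105785168134260249261762208268691010692728054239403869714157685388184853805857325113981949174524208946713982366848123867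311730107999681854097199220030493282839683909883309541077764144303115687277418781257933941072075647136439348771052176127606312476233472021593388042698470685702537124967204815426585728733008948575319232154422704505279494477487237635640508007992263719802659681994696447354675375876160874072344090731721275548370075911910250527956832883108390703554732577438561646815294443552699594943362354064478984595484841039375145888616763797876624943371517178215539802493496157498481678885522566791682894440503957411064703147311104)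

noncomputable def rc12 : Nat := (nat_lit 329247397110812343644279656490358115274377008353381372174428458709292779328307470497176884785454376575824314167406264597242258131830875159478781765785860954143179854166828156618458843064648720160228486834637508114831483674866843153886721345184918376497467839901279276491953564341370865683772415196604805645220008958088245334193781934989235932880107137170399623121133031379942809040576881815919065931243089960864152060707051503880990893602807587140368397758220716748353469284053634723963469487111707857238040985367706560114132780635810588642262915146507214253935920952629491585245014474313091832812793514942087155918695314929585787042594350980792567462803915913476027927809409254902954185588413366592634495360451061757229013389968988823107384556069524455170209830751300585631579946416898739997480750588742007481374980666564647475772325751300408059145234736729464704927129305791773093610999275629784063877425591204306584620129288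8583855587667625203422581343089564212572980529792866580273925471347113535015582790311584282826597032646384757916809687676868873368620963928802422591326878962092543450641968136086709526131397945192995915542994951702207639611419239654885596651545112553566137959902298236212808537444608320325144271590683555936470582390572323637360234494873249760019513900460649318109100711138706714754289248980694877978201580543892771456456144186663601353866653153773175793971345520682799548731013496049338325632800179242728469793174884777084624026325777549851055400789227053426262751245491775841169618717889069207411692492398886327426149063241745367564626812804001961094869955803602291718991374398788082326254461850177691659253092764867423764934082483220144420286070288269630175203327089240046303253223450498009631329563134394515448807580959930090403046416296963220998686671873858176161769134684036569890016973885941115857209837066149729457493492295406573379173135145976140545848129866049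3166917119257886018295988360141919254231397201680746958143676558979460162465831666067231518317194481665542584438894574080895883688725508428831295310707500485371319603498405530226967597642515063747113274572268740722744292823173407686638622039542356676541745628267346797478297035212884559903869600745503130460003558316404743500044777485076725518868747595511855420431190568944862635320485529282848884443674543975522744873155322723213021855004753292415620390359879310479287500657710708163111606754860334357692837584481035256437796451467358633982857689976456930742492837989524606539113397464616335426848613788546011108086483990215355889780769979132617271783470146093513578688323635551531183000938563230580101880567358564423865748002183847905875587364099435873156887939282743490582104816541705998867356930261982049027541660343803070802437533717980019777323760189997549351808338708384068008537818280265523002274311708138743666063834284089842327305110748577758185080989256661720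1517020594163361313191337880353920594785095835875184406372987333838292892239500860935687105410794787647316034153748576681068108552828561099451524460983082692665789839002302285857561331609342644159126055709605382000888051322379415878345489399995563331006480043518133476633603819643175576455796626723109347668626645379861180244921457959555900216128581820865431621754019082346258641929876572357202533325206965735425550959195356919943693186690595080496633516239103595804847382892592872037868774401763380597762246452469985133149394501751347986570357887102061997357079845900646792843849183097891727792145829864865025405319848949869645789954228022431455705876547781809248320435131079005149232224006195195924124771850484829010229565265414636341638142576127875178814502630991064739033770600593243260990447274239022096917511250495179548817977167554226177253314719240657812655062675782751543452841810257973706477044186342525655353356956299487422380967969601588414418346931365041302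7950414757567638496468172533249095230662949798135911237529461269709911104405682152842201006707792261293942824638768918104325186440454527378341000489236882038553184270323285814762105921788838282159504820945215613696687603602536025973893019326321106214574252027772931248892658808647404759400354350876219653679833325485919517535581993993000265014691062689765022821673690083134619276440969843982182944461108000189793119614140843710865298939752512294984966751229972542494340617698036410782347120473078773650279379658949707855393049326216675441197976715845998325718634889358308085594883649628339474408850312168757069671922044408124125367994347562482469664124460643391347773835490134258232203898316520741928316825371827444236732370164039253772526565169147800698265166549326180041072591110890330716226080932015136759821073827021832136761169274348546967996723278239575292174697193410467958582700594482508713637193339849676791105719025250242464341237720521175909930566895515630639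5858538378090258647511372764781993252634224391199843917988315096917691188140416196536562657898629350968735089348420871275179221647005046555905198223639471098326254360988773976287329734323608147020972262558757331618250968118741948386437510361278787803503433857610160693523045312773618819482886260490390023831561536096193249901471882131847149978145417946165280281268116951436120508246552115954765973038098843396907679706515803535048238583843058506317153602049236543985558195135452273207586723741595846938529415799652173049289402749542365880080514055250543328044722320508781146478989455181149240022539850127406538895485474557274316097979948035962457140110162802005934236117828268342592100022977187056341453450175614244316952545182066122528439098655235379182522073763772528638251016547230401930063458729270181806336964893408738623666220704173336796141714372639487331189442182067454791610627100096225761419696105396316994335064293709325517876338610369156141596200993228669900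8205718057644513057230233484997128547801059439478123197358085331354908736688404873298277322712230060014830730184841885071497387772950177534646584829313732749419411706148458712538908976814723828870957176489419015584037133194976812380928940561708981458971654433192877389077984143565472685669600906780048033967069926336813411258948087751001855751173295050220089838481374650402557535598082800020425852423080032938191065398134675016857144257210207285881837632364103250818468503920163954889931216884208930285038204532681867042857164599526718240518389641580983178492273573522931837647423103933918868106708418284603792816909684941029185907858326458462491160650725839032822611808100793628962931419598964605146001974667207663964746548780762990513188184542528626773403315837048666712196722161128243061894423793071563257077275083765216760374486462352854529156498497123046487392157093386121974158445276819094120701620695114964344477901619353906314932569779577202880325543592204458377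2102240743248353754339881052334706614295363987296186482671434672886864005785415726748591792084892875469024809323273812596919635440567537297547263881164175690624927824842078227104968263408331209187197813879034093630239977163238462119341342860162824167295741680762705524310891613017598409778853673034400724842464914919660698169238965990994753758483306038951852354801481602022129558521720954388462982827650877875622594347169196055875530854493275793473079636187054440955782369197610530291890015015013548222928714451404464108787864170430556699534777747998337659028985652823860742512079611239322840176243124366297140410605564461287929337064278277910035589119056836058909735005743810546547340914726634683518522387669327498994886879374140119820973950130126641523042504685931371756147508973289985262356630391699013113005657793818757035691837235893302842208333291274346479899017603111076161480449236736779569015752246778380992541291933335652158767345562497207095850870623781654152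4899443022965765212789216932916019556614080443402717770381605426596024615307542253412485863952246723900149870754807299186055493015918617196063015902197952885502116005420243481834662735385145988433528559057583601566682137188121395630786487797440358843673223027008481473371799329879237264290146882069561893590143519922875379429394664547800512727453948187130275088191951565080169786204455274058954557227626156385380254922143961549813429489468475633745428230782266158586920766312560889974586584201224213255907207915120763880870481848637842594976169596440339809785318429975684873400695666750165133594654372237023322700890952918520335508827724471709335332840407224072913913316776423080197158811460045189486274841908556368060608193135374558102820228234697257119054808552175644804429024664426453372452348167979303014386256936908152239388042048999134183029066093638671280265396522332115887668245009647087225161591072553350086686302420264195173316434318074977782135613058270349386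4912051822789390916599196249634152365440345997637189565466977868352726388263355403312458471751075588575186151487699024495285519410398993177326162361226291798689616029907731226680078691348806520408925249613493745972526767549596517460411412098999363250722300981296263748856902286548999353738642379287069828607407421828118961868906440435900820254430017637249292791090985645799647978530643503890703387231781190861021194807649919976801874530685780642663945369523007683008182630440387155548779715572401985102936850845851163215763125643780275605726403856427956319941075803309883887047732035189400316971581723956682788159640921079792407917131683254799413648089128055061939712145906191344503219784696387168928552110667081742284388967684170383187992241636503220691134871166875879083163788771313477328887757130705037871643841934997664635632942531531880194679040656962972704028642753190299319915804226137112574572329579656198272807589945560165124726040629471347129484850259721939372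7662614526641327047510420797404877998660515347259504431688759584569939566918126522737893684950507285007877337398043193329509537479532890894965485111279627211832508405985864705073586397666477669791586769109931784194493286133278942818485867307373919357460786775148616857670733423802512514455199652767940539965209861309390379072981563471495974513760957656082130637440145558018062893401055207255455538564159607101078934161681988943955996098953918286066559544100779897908766667336196728508649911516473429941919510897693255749031475397465407792061674420105694014000088299769137432959814064690935354756841385613454763731964529111365657718609328108692933795445078115594720050874636089325161331191268753655441984259769659299643297319082099952222205636471495889612095505201586014503485693631012788898498004777950064692621635919079400122193131341123504179722908365939162481623848828735761754719305807780464361832029375656082933426914608479791580853347151029656075096692435598756026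3599703518649062347221841013900450867703844032093388611396578022016108202734496588923085505775849006087985649208103212156291132510199977369876889354808433726442744710702826089823311150477402410046237398981147619106438929141658253627768935657249160625061940947765756146513836802332230026562763941613286117087701557256881794193255027696592534356734502812152542997048971091074399608743680720752002451694350609893276762373154631931255260551757200844867342159329699912693732175224542032724541005522637223246470309161693411528695483369497881278159256463325425603058764783411156851561219725450055748030951681063311819132229167647672464903223271633106567249491695060759724635698472436617510414834413681382759342415299124380731121692027469710595109810036757262569936960894805278443031372090982497482288284372479586142432390702598574772786400441542878290704063425035049350438170896486543596905845750845993961654857648117639615170183214809835745882784128953008549107044709721206315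6543697509816728087327684006047178154185196065290370471093294850739924917326497196893254500696054299032781857752265126951298761435713669604079958553638501576268404489426611597031349829427256151673309044949805905954562052406428669770347681487805478513922457125494102449656424550772468687475569215482141020285894017330289629468662171287871368987266755886377688776303979069132341591173528000409590884062496755552743546459958412652615762834312121018284160571002732330301964713754310472640512336647769788902506566490248213551136132475472925929677100709920936555574783584472064532373687503938201799808236541898619360181880166416097030216793000227233276966413061072843178524731062004085998622380715895062945089402830253769402707301835296214290134184523841691448379402484027383493044494452519414790963587946665841349591089741444378696807723708147061678801129397525885968119999541494336779419077686111308275665144769241904866137493634482235873675024064935821973175673599496297138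6448281366774344832009300361630219072317772001957884898669780643918725252906363211940447144237142151799623254164221616480132874605083615242258592597012611119068479081338356700120156583157871285406611477678664474135675637202071474349976832790071750619135337565577689863939918175126514956421594464548121440522288245950310580134565340821889472777726656019934221376982745261686723480962825967395832875022113884832748283911150058436251967989475793748166655818065117960401656783023415606105053938578923638424306768781431672894252996748607536535124158930562098666974622316163299939413606115048729228380399587481121322811152250252185403154731224271315321924958225782109675640129056641018348862448650813310974176494327140436426879029302041740512044313240411758453388179670433032759564556118220999006503759152593868449424957345022211891480942735214402049604597973715014703719452882292197509039550759055162746497322841760759856886449113234845028503458017923929491548855445205846391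3845167560430905574673761433747549579574679380587723242957214381853264809810177819254380034248611956887129620911371192206717111074052934294464074530880264600211559398795033805989627090812656884050254362508368717440479499287688756520761704031877751616084797491756879023593607591100515016619920179382620728683006235536783496979969638202192311141252773665674932402057755356657776129941256686833895231485345062264119583207961713454284414035328081802413499265718242163893827846351737551963693797255651173413634083117396239990680147777090174507848740158396614892592566311758308577234256944893836159872371442050842114308869192050471206467711980116918504780014515648322327189187186322864100003875260229984090099227044569194540535033122707794899746961023851235634125509562969469946174864965891285205102756349299025292453322721882886065010793909660349289936289694862991002728619276410996505191729070037645517226676927878695526265759335328699883066340546036330360200982059702273599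2180979217461314823884617678236012138684480519018352829172626583057922227975161688448106395133584362335641314122955498249003558317436916563701481712299738035440979199390904790124801840433590509929387080439157344592649070987560400051900074147998356507135549655519228427659906993991701910700984510575378209415234711243354761940455521443769283024982893601408530221672378701539728177866789280263361954359090407820392257543275016260492429159198082691425684135276037801653859652158688334959151446847922916453788812809911949664601928697041681865576358855569242762224496805709420740421135603006368098961625557349929259888743528634754817855801633514673480360436291179254641432852921225262527013140625203099361928975923749819091001613966285697918534742191211429083253339188907659379228086032790577638218814079956262786075453666231686224588043248990880818608294904621621899430931937004761487828469289799541693190015749866504290820271190712536252284950323486331991059123398641493854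1117690422514291757296542239075631173360060111496744096063218664034373616398771875656474619958256248588365834182288719914508123436900710024933211562289161313624692024224021159659112506600574863843154276297691944890906292726363584720816409722261303643012536751647564634086165171841502494432148920359709051660506300911528662093544913499459590907246746430534843851005285030699667498718500931417570711233254905396140468520794742141004960335759005011405518773293754957506266634758105748249255578113754284279403868165103146047244199624376894802773454358179685805445395455426071611029632281543033970224077297048064278317006326627087174296145755547164031660359738945800384917849769270029043570704926474450072243586377195939678522489843577856221257110853889964287179862259697877306394233590107234083005668730998704132725986448292943703153066544763533178478684658877102342719327121856778431814156824920307376965945969508222591372788370060460763442187782180484697101271985979928462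9462381111460302239540909497729739972927760763776055113346453818608227213648033380020195523904172078459538136315394135822776476340109245542671781149469257686133348432823472350935693803856296682696699667973652639666166909894452660775893554470030225287484881682668296984280498719156428467894188527668198773974424971337975747285151886487172177502592935439321957483653621783481946161215368654214950316541034273821334030859299387396073012749002954615248137694983115785262503083654455953527167305719722224903652844997831817847915594188796494715428610366288493453143169956839579734953054241989946972645241784517197566925505936289303679464645203342304681509243082367227097173360813906172424787208548610830130560261146693562162469426035904936456086092732309608219195906754544792905817919702852103145822862731245031533295355966140172174631833430100093251441140744089499934203407918722857853590612365339163744030618976440541944410734407706063874181318519500792506119510788548217502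057914765483972174837928512297008430591173945754749296079018466224637946982427009164400639597200044655746276268200096003020991733267407014248664259713895430061328405849498089814844428634582918384109944667320332406560324736862165902535441402887088373770410034994512666855658619020785572456789465007748981046464388623177372834327255563058685543306776829619336474493412406285580961606393916572041036585156888019086495041055687320822908302552168136757197228156726808443172914113637735517525612035645842399720248090558464)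

noncomputable def rc13 : Nat := (nat_lit 330162572320748143840690859899169954744659702949470078717436286597193043029842299828913605175712063936194366866002103712260090717536927614650622888200106226213279443515081711349481645179563495093563769426508641198619160322898239885009062992385268604655157653562178985976615259388120621913787892056115290800180256713672700023297230425005048652365324981278274674553873539073092045737992795267576603496118091058237780073841126556587297891367502112299109226360090783247279200399653054918645972334244968062042342703642069873361340458649995761496620969996607400488420341302949092994681953816392180711708114096263549912531272758818860509949735838329467270631825520818608555007294729665391099171420313737080607296849350484350331474836145689814307896271886748116716554938557343591240902024159099663207473007346483027574588378010812130146788499317071340754604497314653649261399147970262812161432183151060717817759632070071016974357220452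2082287149757508645121668008216122665938410053046280551514604800811354326333864194292451812358292236600790627013138330540831787148263329126078982238817724756082342829585691538779783438972702556075917536334902925487788281479853348755857717829281461003417870795946726734667776951309489269636820382530055380146224247779637474652938337450183270974299484941906252746612512606293934778977138694241692846498346900278281267717720104081600015368358341187518057486514615110792254539164748292078173795160873248213022816101277447875988296125288988079473542093593022596922815384454415025367925517341155651434781073484161455325418373943790364472618186661741258332019429560570565576866417800951009683788051922896641583979906456332167433364847835648026236789299072928387159886337457419223248710499287372190862069085076048498549188183921995442806835203637853227780856913611458704999992409914175334649305582993386937290236182977615259447152668369450578282702426868810395789383242234931752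5152401469647204621103056640093536242699652748417394956449197395506515801554558039210860459704700020673559414802817376190233415958579253732452118615956525977799140007088304218520324398940246918631426337800511362404103550532587053668258749183698316123089647368933756101988689832736295762773463540715510845388551065215827305347961949708186771574862965839067937387725028854389753311223714580870765237359650067809726678786727031179944542336171812774484738018310172214590108513848187634893570175381872260594113351112290364748354321791221788179098936209440971679527614683154383699592624040476290617502555999615550670004183140002424080791447745267246700080828927676278480813652679600148883149252802248541060902404872368154168614689059068841728337730713035950782185023430384891418227464756615027453122591689320964346814799179675325884889971388429859132095917064701875760529151617564587310717125163117590073022776547047053673256257885060880545073306708594965001427691395884431115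9082981534595298129002782628724882274728405825105363972299716307128913193704086145110580821154656797048059506572239325361260998563096977962392633277706360463229501937713662619017638401583381181232856014806109629227751980670314341931937002724995521095027326156234230785290809294582730893723315798833253099527862427675634929014064453304003531257173214835833485326926355125575251139364388811738974159705891810043522996143288748235963354005002867638165871465744878115690030816635815739513903669178222101913729515770134852062459548162945513159058775829191415986038306305877595287810497246459629691087559531064114362142222169736425072768606214557935187910631497491352455072164545110623168527574286588913962904339705921007911001408899690865314378919792871880434451443599003406274752873330982108882371149984521713064648768414613733323397560642210163226768426229958847487723648033477456442345291418805792017344920731522596949691315841429423917394171802796362449464558349893296652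7031658574753234190941663132768637702736662966906576627611064744026806500120908269115171185553161629820840079618110654488550717919334969934314066318717535314689292102567579860695853618683733143865346118577915851460466254000794324356818766183396548918248106270865959752713292810152148543288033092668630784659079826425161437631053894693983448152499219488271325258813511340111375813447209444639685852552119520705389173449148087604495644602515403615079574357450876415795660302173393867967718826916896196229012139652842943256309421926547233084577472425673744571351709704792243711491742370448745901299063425480665413420940291164034036675096650692506007366313285917002743394572416952204226691885248013204167466864076168745320863649280869955789075793110155721350842643747254182060618370005672154165054541404315960251121938622599316695274618332904872415256417287479583016785110871099289159369794917183783534052001959546713489465339248065566374566576229385631816917227519380887878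3061259283906034221081474863914725597257969450037569597710025775238069902272039339576135198148586870189355066821501455276242436989044970181506700877834264895849003270844767858410408918851372867946023073296154438899286956977206972014198640685792126914855890102433221446263905441216296361629928705713471815228978080645607437736400077208561836367033107447288309254069696894627437674230142548737888927065624377257830109413034023581417533842338910039376919458991682542250426274050684542945696582266815164634837278469481083967265353769919998486669751879392171784185222090296481883912985892756774638901223611847641032163536869675354334263329167529185275975945476998213735773454532630726032642351239531651840827165964160350826171051767156529252685218052450244578532145147722650442373035843980622466667022456626171883567762071150587141321018750666299712282001975322083984083097149196556130999068183235776923133347197128500289426103160522634636173480396979602410426612143041881070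0037611292294933443592245125534651012618230274711674457590804980273453319217031301626577697034030348777437844328655813935352894909095837180723518840041822998056258993333121454974053893708299810794188573741253287405215006865550713782001761736833118853882097925789133699248969441419109647519385849070629509558208775086364927436238846711699107654227338640963360284006956759235844468114509867766238931385441948862282491534672262524599125934680852956378011005529894749638453437539055527330140066971090588766998599522152394883125573131231294346128004504924795612057508131943974959435854588938265525255751161159561792703371825160094401888687000236010180547480975839384741718321377051683097580696226879001809133284921594912241828555859395511415302739526263265192618302631745116111339995896453055595296868532277236850400024026352163999516969480564460851775085959609801070970181545184888382443436381631958069067252508870723163437208212092945839328315559816658869309362516139097092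9844961956399608701860522972236264569389355400064147636808893402568701155755528624913182632533310758806899324024231949180388968025096017774823665327223467973471409613370053334860133920436712609062528465435484358702247387977009395239244003102528383670396234426009555650204343150670469564950357440426081615141495438063638866443712156365567892337649984006899033660906193138626997986821456333570432148732092546261102430822024644968682992534133211204909706798567696036681937475798229617782604104458380541589026048812305431883026304142241132907888224919739614585863295218661966935292177120150211373161746983678339784060935911564404163853272075549557596614357257095359890079455170685759338031454935652279387899313357125280498344255067708223844320616608780691410927610488735737456792160006039197526256226518824089947219617162923726338279116959282486937554533270692443300053718325591796481473000838141485455581396164874120389812340614228601939701197496851527753653071223168127685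8752001018133599415250971196666014960058549281761214457975092296384648677365373669964081043969921605230315766538488415530555753755562013183406891683979693576436556580066862607848880545729974425671370439659079725984586471958833535991765956317806596309888803247844469861977944461401097414067412118010421504909753338217406988918365710036566097222825481835736278901101988777768153769369272636696802317771236596691821897785713961108736639765666415491831684948859055008613224544982563729560858971308106696956085583539332600459912207957177964243513255090702077798912403830265506509545101979159139609422786531563814512145095706090067714734108752093063096618048701329021821132763837708989737378283186642193295087122178114278136045678925537653523831566283848342444400540810441737148323062171943489347383167442707820406540767713700386501544488846330295393814187308543335353858596016523537042709327826538189356393663053043591082697053483155645487546206297426402893460086678563035178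7931098906408645631378524701914128425339361835190822894948708906919368799864473003119768409609761221919961557902392862612156766348037949587090666825741618134802399007728914203763375900270741707536528713858535596351754958004833024551651927394209325028268259642001141579434917251205638250031048799609200402321957161292121121725523802013598220103554967343513979916689318870230293976402088721174384173159395657089193051859239339860614281361811236249544008646873844385446228710372728925825018995350887445291394244717398826857359197254236575405664002833712555449111136565869020477294946742286532082580488703045472569002177133500683035366395718979915642867294868353381883580204424048552385424182549771493201514778050099197692512948269778878469180881794023007058471933358610569151563807137036506459593215268665325091017289726568417635923301511374420454724004212533374735906784173587206599868616403864741467557302769921378887702380340530785887763476206877831097486013014346983359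1671537424641931202166501016889212245152362172020287721711049942062028366790305260775006781412821416391175665549286603560544412446499580394547282955059167942728515290467169219433765228823149582960790196481731264368106979607701554834196704340347130642636325375577487238921165571625563766148750680724588089307056045865302083958312719972237754554550338095686696225299836936777361267894782830414849702970060411626529235672722008149072243183810045615062992708627500268157465155798400930882986904329459526376631421610996781522312113917580333824799159660467682420401860091189329707971846663009565300732992596385801402203325750124933823964883930663303687355188208718713695837952951697317067003035194963568886127722335664825901940043827686981166257778300226659404400852089917667141111551008984377951962571583760490014658092335769339397448975718929701303695980942385602946668952976712459632444832177795236779766011729078585056524812731331675527951587460685318926536981684581862576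8416061155115703858152334926289616512542740855979592421063545779579223391647699881321249679897088435202691804307735788136295441996793735929134114262676197051667448491382077407659165957719324067290379600063697162533184791480402191959444575916338951482300313500467017955148657392454419434867343503785691486050405147866435647276220356128670490060643699420600474763086376422608967009441927998320470327333780582269755076750536710043030477920328142927582751451693103029398596606591901878573766501641519044803381956780109397667705284426744350550898810553512363930811859803397495906318129955844335823874971370616424844262321702134609745465940781095684497268367463394960477923472117968486355858511496992853191258492158261238114654384465044193180342775025821519721250921376434107901150506811483844153393274178365121854189907658131684770677530248031065795163263019462073709111020301664962682098415978681116935976345010101465415175829136915461528381915170441965930790694507868669295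2569275282700079875971738070484270717672420942774554059764337033654329971736682421755256403417577075972980418567897920654488889079229769012660174741960942029070517316158074366466934053039401674803987607071669264158382939849203514373082031828590713273052017245548372134753267872304359122346265545505759943494643006887479233442944461208854674938695937436052222224450914924699330618140801671563126079340534214415199043738977796437250818458655055574957486816789723734843624071179387140299805944445762802490124566265213584350645404935980454383095423851431861391720337813706510707126874548433056420452025964128640931338218574485267447197580265584830551402275409727251175685044061545583973472027840680521150567860689451565058013369418471398593485655631990851757715177836995794798527168031990396818127546433661383665413399005368729541902838762695420492254840968573651389196187607634426137754593159147193182592720654363497203935463312086934283882050152463270172303807870062755652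1308918246490292338411620717849576809367738252796972851680807871245946219178839393832771536612875220721235660582782481676387188883492752897827136824087293922104715248562397915228765567652979341378859279076749921309678662298690385590350697403796241969562960764077665109177054258991706875408198925452354426308111780253312912398759029250677843811774765609640470364497728104053677851833212974710516414010992966530676233632717016388386591251961271895321137211851524024385479578524714507166377678560408780584082539449340524410634878960083664259344528249294212340705218420764020960646160065312246090024605900003651394924368710389282376221363082778036686277993518538087686735363359429574859300424072058865547199826245388797600408805006698015742376062885352733749336017330519475087012155503540370256601636135783956554487399934759041970426301582548232290493186678327872418932786579927437264648114781814267493395944873648320079603862558617855077537462554965731540147670310548246018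5989417979893929068003161110090582623884558531527247730689353254624931146282589177784629150166067416212542191502249963369811196568285653038691531711185655196167880180658317343795055081208304462909262232767230902491060258801789025160422929137862546767817348261864145451567708653916927548253199427775003166488206367485780298954414044346333505389642782343393654511856109205226685451931243798688718109643830175096364177702274386384357461378283350539174486954095824803494161897189179302690028934272241169692984403313042418573717897152669973120119654203369309481785318529835708349044195214123987472973069796901083199034057353129485043733600823080274073224173818858518558966814071325514490053190115383187813142963396196328179733665066883882699246807150378836594968663451057455538386637053879185965153745374055558391647617007022633193329594722908587396536695269948345543003323134702603394752420656856793920367139183090572020333328501522783809208387345254128861061987574715415195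6570663967452461235566831913727994595157869309385532624000016409025656099290329597398958900156067145523940285373172990702576576830696631071640009965634717916060949340186553538695334587752283004663074385915709510674105523245002808884809053650186033654855073936056793321151836271535079972073010582907992835438160580052266184678723468582582534810433443480387719690151208802334247890532589722574457719330236673372991724342097621235616396364978531743483056698877644413441189829524111729993428286723152373036063757933638223404837267791231550180905975335978867817809605017173774680197790834300405610004188385778553946991436599257788486398682078863221427491759511395237372465903556670440727732294008983882492030688184265691458136014518023994398699942430930149252350546877382248047796976576049943602141104406075348133714665092259890205515807892309944802860587382897887829088051917031721415246794774522140505522226360969865121899584148054971100415336431371436080546941407641126863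2751378968457701422088892550724232000221259397970657359805739378135822362438485686981851671799022891792107684763379265904670895166469806241240013130575451270929254891779466539101209276587149545538555300444109461001651998979338575228210394965231835683151865554749452639410375240343329923481358053624317311155734706632144846249216233482546339640436873517775570672830963347506217506651466941756046759472863831101741382816563924057003998355366174590103728293698638339042561565241590951004890412147618458194440639001759560244967354900019248148476324099713880301279391472793826298489159874544957442549006086231442044524782865191749450051313213952523462022848136972688239404531449651851596396766447752165044677718034281806004715356796602447148420672812245905540346037219488306539450231618237112534795794522223280256996184314518165979186602392909528286764280382432520900302864829126381677830468183712915446247598115815569877995775430873352198446585303756778853878243884586688071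5560682875751788278275569279346888739861716467006748150701914011172223959179637335300298620455931497304883812789999523046459048541771826052594242254549212778986236865566419012289964966050322424059112355110666699925870072246418593730062903732007186770743315928405039486971436083276728713444235309198583017655430865798826798412092061974085531508343884746398306913635262703426771186070735369445965890971329232248496463970110454419368202691737057878757963290049125739361737362147260835566638255814177684540880182487624680515322733221580993013708933668973044894757449433998611236882346701668315803240417950331570065932904556400097514826740680976426258586462462454031685798076194919620725063223010634978107506609181120652588981406495964626765502349109979116895357456145354144621524902168169357910093988493839301887072384809773247064579419591979629121657030328320913953045693748855204884440585841600013272182293861589159787878551536223766451976380788607147916806065239965994975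060709373889956403013939220380844279911182310493209659121668286195977727238802192974354117526450964123440759311022666927298714866169803525205389764737197880730622675496327338238038167230160371888379057641969191945028038685340278414540588377571906234696846476343230603166365108614154513677012296224913693848753148367300857006231730752433756714137037053570225794917475225675107915197343317851960867842536744423224996971810277290981725218575684910106886826664216323227288241560041085601477368288592227073517169422630912)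

noncomputable def rc14 : Nat := (nat_lit 331073120536367372066003771589968368511423281552434283738294669611423765753480970895111620059888902150407106676170143610661524464969019709429091162325918917513692678132053684801585461341267745876413632266560375690816265655579896905266169295632183237211806514489683456770290554468611920831599505728885112811660278085074588505301067549167931854424990588641825285440988422924739460165547860094171061212855044532410549573339535787616803686110498352247205566112934794051691388128665467579797754525220287628394397621828203269973923385068573542216360821926691871280298921707235113958861469752287916291477006485892587869945504832250841552980379389708566902641718405948391184116965871958718563061175556487619369962820293051349614937366746237609073363444219155265200728822171034187986238517876997597619002507653831297152021933252952939613373366660959751286905228798308706884465359885829903396008418957139766025593517468262434014265713438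7361469434321939158120287932183915389008306558524568258803287182671964283430361723016272454289357865714776216701944872916680529438521205714104311718584603600735679277424293985812031352853011237506699901489489630681943215407909658168861824839042904226679545022464023414957436387900924287430596984179963335750814355059866065640141948756044130860561293997427663999081485775114428549624341075956605218513876816392085301778565306771778431632273890394368649006796788293125166338412903860338021346911258965570568799461785206888893169612598460073644363722890902578762079110289237518175377778065068850911157038021654825197678999560719799943482720901828490500443854689721339931997267585083070421773270285170466037155089189885041648448343241937478245348779208434799839520982995515136921329540609441013027286345931491982012237318506961050346947667730717649513984077169062635633913021105222322512222603431580200035888492548481033692794722551999359478174969555862926929653234673670380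8343081175510081878783354096376239783243235708546842619287971900300240598037935403653455370742907252698309871337276118034346631539047225796628065978036940587780947541772144602199839723472093755612955890336865259793726855115424883253300560754400124970056575433552882517044124765045498599604353226489017042233434750426622687491459402592591371386955242010948904711127460631726324636735504725978013926076632608092039699248268504722383571175478238905554796902064583395822392375599600556213125937682398539648454823151424661294101483790176337632722116058659503039551810093798646227842046747723485341544472443326054620574270054070730915497185367494475875215332720534449902207843917129997592055416822686623118576226744076917011669928615876880652239869117567922559156001383017799717370785882521536100234243841249065017930424355608468078133158635034040237231265493082424665063539303558416297512508071408872090627093201912854612883734991250055916271202844273102219309254151855316010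6897030877180494077242147763351947094447228377923661943570256686586974519237411276541721903082190368473919587199851273590957147286088822997289837173107066740359781394259373875173119524627760344584981866430332814354490244293141387177448990626751235946936016485880789619084170360390206299047730149608985832279515536478105994558311304506856106389038651519258130950214953928916992600632605261942858153051513289725099816340842065588907023305070737647003691384577336636166389556395570249135205009439635169849152361895025510803677275813499383753091388278081404259812238434699691294612809017729639067393241410299373927410798992765427922826774763856462566462416997425833016449785920489304418212662687630655853830158780655235790591498926192016576446492081250114380686361627012481221579472778593122144218416323819137521915295194705241455368980687304749277404553080127666080900434487008294376818247609320353985533473841243334986808285937022768688110574511682755210263180263272210714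6684293441585306902655432530260184570776760773978684562868582078937724878392519876499196250083920753979072804799019468536125518494238820548709163818168720890356598325466501410128049870082994929427987607129804554779027527693210194510339014429533750723880865621575796488922994533507822866691856260035327542384060510753323952892317137901997598324034017943385450166112894439209253853264700130833584160806229418265272203310656638248971163955894573607980080552335030783543825900174180186952398844827352118888366632546338271058362207526692013131371523329518342353166297576813056245468472763472239272409889988834276773496113631720950566349388406693566344197665503487472579824667766209699774539199211513777376807638415139335997262437200773969764396978857891419453267758190309890675570407168761737005377645400307838764282629129565250797241448380910640965803007757209012209990307151923120270534907076185483792832664826740414346769578627150181035756477967985354055344274727592598184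2786444238851186879378401585006097042440030143434688283926704041948840149597844813060618740513758409673879326365616930342069882613757070205276297225176774613843354590781184726872771620093099380127975442921208442663080606027359050712997784812683433997311166735401643288008637492963970060546754640461306754286014962039984577610588437193786753755126848521464792386465318799219536553107550024815761695255363685749650605983971353878191607644013044747999817912948673575976648306841383123898948610746566125916058966158169683249992282750651795651740541629248790099236858587485420297911623635651476370193995819349582224375634548305019462670960471105009381521131997560109496667910978466852427520880860095103255222091917518308618917386451577693448263233235596866493431972996167317423944532901290559189376396252117782988536330273222460575019238842130856691098985138004593307948979181386248533508037874787253842183330124644879282468692700364435962844199765645628151690396513494186188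5739963714894285778912068166564500230230087835443716404229434568593532308590254893666907048195292967822879217443931125401698631322648537638336735597323947322641377396588838746435388649655499079207512356360537152734641197490975423637734172552271491277141807705375222218942494819848613209944197968593945864206612195930724557070491129907638050394969589503336062400039334278991015815935096403234821349571786712923175793311240572576421278684660151983645721489213969313108488649487983087479304684079479299654803167213953870650992082231514498212143728116478696759305019223489960915092848691529497055438276812968348415461395281038444958470187856663402369685212000593940726649002961245430404683243563998432300613189668796487110624218545580800663201983210675307229347265637093247618436121695607957208994313180068692746983634875203129563439429934891612771280808061091071046450367993442243148422196286659428440205983469077778113185746236924328912746940752087391487579434177965194768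3578763247922668321417643781470485261716952541205295783894999707868845067494863127163891211614250895519598608647365172234556330349746180509976059100619493417683517912322374918132428203436176113204496550527282512088334763013243722584154376425288251962280488922470526339772749693384221336573371270044076325476919671888984068333579106420058156333231347231360946333234624107446928325983346898924564099393017738024440180757538388139766012226126405288919807826887273491851211685507402776556770042454661404160399471433973864615620804698093025789644938083789587620666346777440847853493641595384892880916109232874046869405145781805137171698900862463690349625542988503085831245003863321491863593358760839006221571893254774743446018839765245787739836304254265319894835949121961105081772818128703024549290281163579987275321132962886685317572335632335101807807476482343540918266726848663910940824045930473820886508117658007859676879968724991926013024696097925115713085180390705906158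1444315065957463466818989551173290971469843853308487341342246115625475954273801635875099557790020428808925326627740111843457840133685060725330392394637738286216011870742707852704847019809847452027181161486153771495312171521913524027845352768349666310772303099473782751328653179235105958281778565990822543264636600337274329253969832721956506776207338254065905677358694985558556702265868599639066205455328348366620088993097011014201172225329748125918772524998070244692032315121591026264593460125101112977755588941719145250676671030721853792302803451781404679902944116605503336521355299471890155100766877300455459590881656131052292813964423992339923748983497942325953001340563797631567200805180548905673245748345751039831831044359464788872670722385568472803100617176811671885816493674263705751184702326181406552480097802645516506521833182649373864609309453427494376433293818922193774394132654794639170609933517329516096832037069862585731493966035774883393678990912282142374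2135241737045530078246527047807732774701262115318521597697631786039577528578188477032628890165867129811052300645303271796073798241753336712705944524815406621406462269135453851656492410592991181102303158643710436982310840781081443687902191600988773021794899096179964195640321814726591237021529133338656110368518752247307055070065930022176370968187269022032449839579100127001558887561585305316496931918600489087404366041980320209286707342670034860768492625672658043080655067513408153259883514187484114713108665925601076708473647691080033617227280940570975574329677644901939491997844730901830171216733780378368455490744437922361239706340432441085223527774672232304426704594182219278954575452817836781207988633067223898225114248340755612827576420239694506394780626682471365179265347113910722333955980062383873338507253528370989974504871829552793799716800323700503274968612181064070969344562734558668558729646977176563970691176019222261413691317408037963692474508468157872455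0047261225959051413520139087503579352838413930982986207092982218853623987432870592010841518730520993616334665334213031152244525432864528280697132289309838681005381959703872088055453019169123403541473856939188089093684439290609859450972777483110532694435994308971419324322245346819171237848458394878652608019954254959390547984482129062942159222891147599153713140316264096154121145357660534938687137237643020543759954919898646640965334114904017853720103284704831731338107114533490527940252463746886218346778027716405597824965269109292785440816850682503771065586185988517615595925132218161721255624141295138568669411671032600815783789166040868963801013195970759104536297947522992986538898908006804337187159181346701894983894381712627854282560494603016246517417719906341113724926673402312667639543818362066313361477172368583606509257511244907080376413953815384197396083868796901170789495566761038397746048557160225483158805935492940037189656890885992156129352126580441788945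6896794087371060515221638329809719891061386166992127209502501096010710647709091175378019787422978127823363346159799416631258248568711230554308193603375897005405567497655073188514620373874528468676722993356584976511419154716736162361333621270631711592842965032146236628163790247196699560093641991131917969973069355209985827679623267828654229422476909168372230276431858960133639103797388094097175299497482549215988894796871985003873759189042222689703799056569346024821279997068042767837953839303555840577780267797666048701853560341663412775695302864807269535736001669344180250978449199336169350180070587603217484558481744455777494254867901815517487707718663610319939064444514766996284923522068675638836804859480529219579917391723331475436061868958185488794952663226636866640519941922645973473271802605834686995489791788931600748469098169107737689375949973695348854252392029845142215998831970379933924502297857149855249946462225895781493761096897199828378602799693434936409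8056712685095159850119025669751506812177811727344423009919872731783123971539834706716038257261984493069637817310832333300953104738302845765924673030584136369639247226609308686673397908853916895151598492049487077501947332656842065541914957005618496581873949110343993705288471469424997687883535380465681911172678626588262638987865162792089111302411658004353983202373058013957560290129684176389871111120685136534539246444678248282286451898108648710804416053415478790146513188871000293724375050179415370583535248557852858962686116304563341660196410493724319073254382446257135282634813386497454972529271585307302588630797100983051159599198291095798357819995308920280449233582031663959431281613900650947617836420815448231741019636576635477466225456055976277174747761121197061869476419097538363012572838083601761377527846952217399568632433442514591059140065998484916312475072791437155378670725521749608633683721348021537260027286929142470532003400336610562519956314285943701284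5563264931793248848715840928791869689165245080981447075218189994356478325110450465960968214652629156864591777606696299593904483700951576385231488115083116985156676170699583844352998886725068725007448084070712427721062350949258205777290742536437844918661334044240327604518567017874908899945675877600156044144662957659898007983476045000977987828887410398471200260471522283663482128462551509794356667680186194701060446035369667741287412598972101248873206270025934867630987054584196473784573739344920785037442850010075309594896773885456322968087631865532544945118487766518802757869060030355333655615184994110529687472020925969142201009876863494772769560657449843106108576886263866055665994884747148605300050514002909556406833181932177601199844550432846967389685739518675731146814385044172948308790382191137779312658182191291589387423803873191969795061393158619149171915205107568259871889270840795318118324522551471574243614779298627389113849675692287682443936910840327903108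8497761944437278990360784690718799434168145231139908812744193230180867248722244060547067214270720671871664669995153927363774890695140896089996267283748251789907110264900357024331906962722099972007971862388475491691103414014777099110781114522314455223667233906418280724955837167752353255813783605768027503455494673054583309018828511817194014087993648021184415419236058967531197701202770916550115802087323857649515649877233473844483474040269566309399580796650129655608365472906035310156880002162415591618806068503645200938219540392898178862411897292424595523813133330063607978594830516486581239668294924666923902845715304352883129540022630490951111214531543427214760239921114510483089019888949297016203235039565810184476082989770517853731571046971859538446167171941222271096535234467004825522771683488976143675826507509363432717227211046042322558139654270878675649401082904433813297293410148327003122652997978415672101141637378937728202547119464545283630845261347805131494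7156266785165037162042141316125124820977382469039211849451619198403519473933320172243280013292160604411988963280860851371599213321646422597386007654675666033718908614805391135966117291773214488354769097882341115177275371568393135664412619928431211583613788783776692503633642030481992060709959945661079911494889068252039019771768511114365814485764202178079012939325956470956459341005757256931705410267161693268812689525363016809873111774566786938642599632243186897286779935984685308755674257873259463222247648648491864973295295334588049358960911191978580005625268271050610283125617650920392388902849432853445849274119326255980202432890882297624357157799222646093338879522354945711124692330467381968848753419109998963293437988404921417517877764624248459581541531952856874743325366888666866780094430703320745649484746839878197064359910152090636426231939226911379579687704653290822292663830362425370906823378597287402510234730215213927679758851442509535893267338267206539549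9976341685338516427702134278760648910475647465530283807679607664388991892189996356083762572078849543107156313429828966794100077001787485553314072415696369003959430992262118545081216643129174275697960056067747253894636813151504800521182069804957270313896263957614383847888036782926977517834432338625513742121024621486693862564601186977792929088577467877410683131979005976771371539927969943137619296659703641325312371074560173841063447350284520820207083481103384390273328919072495092324215791080363502857614796661409053049096358416725489750808913154261910721330056701089977182188124823649353186596850580360169670959836104113822789986141582005553463444615390903372260511832491533789044157393329908354594305865360279501320738189554452356045527399417447031686787975357951861495802144737028198659424987060954366768824908819992759303891222829354627771973296323518990379850158343422445334225596124593340679770131739868970517006046902452887818249868905739538460587121679557340976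2683127661732262880706130660302168045021896255011933291781510121491346086390028630972349669767341042972422208749285274898105279975055224706853988977424600919138141884862580317690764169680822583845671564931799088775990104638801775972680121004547532666364106782991198314176015028815731162640658117680176909003416978961724118717300566889747342153650389289469133335883866757448196424845435594471094991762487831661138343895491254438852872342798985606836141957782619469561194836821851871034150452699961600535000061780685930078941555533401669100828786149038568094983946209436681226133158803364663749489750915246352495710418415210835053102062238153971416259102759165525332620284268994791013746448917776216564440483118085344515934779430179179797400099895703365452289968727410804204372186019886552995817360093586558395568959658999821688162540507724448210055862539600727548134579415048306265409598980055434958688694712119930125665963325928446106800662455137967764552796624907943157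154729767444106010953307743211679230337482317416304945152024986550035986137298760212128678069352405887172900450626554522816045691220017270357365481435697071184507952610896567592855567579293231368883503725303726185916648979712027954302576686084780809769603253721753249466371116752647149014925940156985396550928505508310144107614295669309711324668293942401288163426673416855092997931726461177061508766736698542180276505188493050320039056466479062809009453936065960191665106771674292720854174690730968407102697500573696)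

noncomputable def rc15 : Nat := (nat_lit 331978927092434770870071388017835553639582405886517612076138660437366376906288005948852357282682215339633811072184560537310830342020132967172781529034776195952102791200210565984325789268178325831157925526117615688691002137608715775736157567740180441401198291089485485004369422638869749839916883837419525509363173535069661489188491971412311956845407155146106455466598357024720347173949126518281341966329579869605182576538500216107642646441025458131389283535565524484784794230691098436931117799435698914458013601366731687240699732634344628356638053800865374625091900123669944812414207032086499488704289323103068134977921145153444604209988622224855172399719465366361209583077784097935799694971569625983962513822245665432102684169369623632864408300828375871284453942708189864530404885508201107382009908477536600356966668355949230044487896561321273789272841348111727014295655717884094926003465221497839859184782143146611174246563613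8597771999390163000287014135424679987387163100234230016063325629451879706422906927042419824018204644491916797055326086470585990055010359652388957718739627500970659228919409826046548127355201039207403368201847921824158874625119808622989443630903394135178799621923902863478564518534963481884670824472442920624598945072015705288767167133882153933469484645309834818232094879953318970196038805124443475389515054579704740145587529344355778716950508249755199655163874087446536727233640316673542339010683554932729638093376024099849644126534881156135131168471133642733988832122333367617450813641947850765463328115361149899436293557075760463571108756236394639353755587733959214760249779803003394335171942054202936114990177872488101077982040295185800473217317367048458914442972160703997589443698035442226123976431251800295310935880154059279051167646960482568925961590052577238083578842596091408643187274105069530378366489899577649300274670315271658938148237322645868339762754498701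2348171507165076528476541442389927424332963167798103672156101068184602097361125951762120984747307933826491217393805394669518436035218236844315633478325813748987947292416051947243937696085928695488245210221770237211995706780128119255324278014534761700720774666109232186257413073409595212392588461347216162073256230989760175132313357209894461366621908528395945848819890859477656733620562446591101312642884204903377915546590659866958877535263651550986211732458742656183034636775309812696654515035979430342317282768097018995437656780717355238584132216779070743276598840466424770956802013659460408905379894440986340969417937305938563329124475590691457124925751188329565953561974027360144347189140917693073474612827383569614733120375362431212524875686943817330608698580447209305209090680946009248104453657611490611820840823505643922960101940205114046733594560543778068891649189109769908070193310183334781106699402199319532642599698664760927034549374477933105453807072232923051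8158131319776512096769073618655819295209655052927792842650320871315525820742192722716989238644791124048054179258900365901543099486478891445247366638649805130336833100095863015690896161498037517786463713425333830345006912569933490114304048947609364616934061059696503048719833632525282114055322310622376787945111759155735175146978966275968157212210121371015185427419285057616093581286118462039400446897054346812826238277275042096467552030668878573984551822339393547366466028045360543907751106459844599086040162631030076737429781893313896565197795179411507723182781423987139860611981380646354864724500323694232631160241757047469265568745846661723718373183953404154928334608973428146376522392821794105457253500287974234111799024334066167701673869913103498000331182170423247541907236557609577547908320037226503342237165671401220949350530614165318847908144410265658594443318650694507186153590549994158796781146554302777252511216302176620052416379424379831483011612728288215469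0194019865377780108084893964106244813987452740811025589139287650520130472823111282703709682569548758967655651532652849672314831404162870185869691990082081095726747531614209650671364105002635656702050121106838542456109112108683496605130898233397287916899612751288552240958550628290014583224339468476368444737772516330298740456214218224320692211850849100565802956655624799082547547839788949695939283588253289912014070744509027731713411922161032211877575614834647189027837950996791154595542770020258704432633780480367000187129768111832504613831655564753404913704337222657134686748801433959595214629297212756878334582251859195039966252604278994568892855511921973775165973148680821247299581912902346089525680754256008729824804331527489144108655451249280022423092756539777594207628052617749629780362140457473164679167817314455587779824675700944741916249504504028510139866153858607302115927846659368912314432119950246750725339293961462144454159580960705252068069048847716983309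8426066935666362038062954509672521520736571362450229014871245633902439330880828010732030860260585834039651237218426487848660481971844055452558905524374201717534315642468292685431868051296595029470885193686902450160364724722756719373402681980299861077913277630395460795871737691665830497468369325377590887041402146080890237454818728812218189474999666019355677337872993466389165777492350804075155120232804302336949704056686528252573034926936346251241331931878296132219329624752704687925412469166674230383218082577753641259953913591629869585775238899489642564331543692156957418885705582938951454957015127824679949255024708624235444921097673541531777167529429685885661092584759834881861461581547338309868193552914012340727892317789232403327724852236907836250283028404754623316868865045909010246163453639857698507954845682889885016761990581784423793773127337121918940517945262678208815180065803377055250260519373070353942310090334307066044989883994949349818666768505069040159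5885222777158715139145061406382395632656318106581576935838519715708026575265951832915943995179424391559147094172283339569229024657030322891611993135422329819028348578172169358517796765394075718349910244025251724073891635525148263343806134418052551697497445439335589965268691837282958083402287212478006593861700380795280919776076015949495899482999319152958734694654568893489725470096764904755810371174639051906941841575607718044868774811188787193923357507794779627998689258689662491407951448662831319161865542096826763284712647008591668642423833230081635698972185214507717179880877572720319433337182496413390693561222346753121509151018820341399587347615949180429968944371553570209284822292259763288590468488724467312246893924052485977032509278768617485808771368510622511251629405127455600775651462631847899015534633915326598988504586134721017675642472204087610059822422575055331469900377478971570402739914774748702452510911891481641315260897015087753771240345912964171466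7731093775496396864456657262135402895827207272164634055059140910475323844412621987259856473755316776100339365389742502123160540694385586272393417612447230647262752922455266839672019990407470740686026046595889624389704589686613932190804937650170668079527275589092540567663414083652287219806573985239170848857702979897256226731042631379679273884412573169225458689010527975758595484083807936256975565052548559407185371381142321153201169349251103614245615189852085194241349693008140579116243715756551615371361961160518428106525892986949878987138078798766382574142012854520069272488467779702730169069385218176271813649608893274497189959318809293891267455573567411127555442181891775123569591675579901613902314732093473378046922264423298514806256706021430166602217717787826859846594880318349900483735146053355404763583839490667951043650232001956556914523770477503358422922669280689493025766746091087109415432583339181993857494235134045248504553306418353765621081349747051329525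9695878090337942421567357846861282412004872552482875849376631656588377363058257169432303239151757130788804535018002001876563198043189579694053232707957771050318272843715406856114120417857245573076939643189180374735329511078726916930284364145979019788717759580811317360072013100082256906616553305507865915985082055175261590426142353654655632049812193681445781085136557242483034743720866774705578335949159894364580491077477516893248706817283286891873781265087636325620051329840964888596046008246736292443700328971903667057094409516476124543306049499418496707814362690247294994412194043792799757689632741520815751546185035319840883061331843634293605832840656896309059327177325722098944673789625283704484597242587399733446118979536180576174033498181648750575858681798923401390876402849928617967180648771600921147243480848350360709573253332183081154488745710603209650916624329107985260630281091553714196166904934020598278684403954183992360412055239117419434786205500912225852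7749496439171232709609226555910724501668439872996335470439118830804541282731006376302789409593969491399379259274644662084496857896012999915498521114038450718062463227751765836316470151447204768616880274133015387246734367173970559787222974587275568488518848510271968126999558591263940440392689034052052520493977248477343202778364518709063875684506153435587538280204249626429559116032890047974777901868263565632131191765302457984709938307854749304705492718486247653132038102126508272561414713262236838345068709160789489590909307977658911913333886130166269178645384778659800913666915386793976737230104682757962969392168019955677492163944340263177217302192880530484515848153286178326510814212652973175991574483141720374400609239777058608728215891398184062467482179992800036821017142490833097456498147039931524445850544590475437833018957562594481620491007519748584564145804819759329730105848013343019427332628797322538000211349972475440946929873107253446114919102736644889026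2331836276812940563687475692276078147125792835051033425863223247050142520721556919896051162831810173474012728996777181129399014770528339614953631262096763601383674811060003550347526524608422075245701907383081903090009174492868907407658172674383023893687328940739482933889900450179154810256746615864519895543067430718274965990410141600577983606321077563985762352878545246614449454609525357185771173452102897156012727297176260025370838174028508870019781605053140147771462899215128199873422453183827096572831840717911934456771239800328694510744354664722824664884708791490301090415371866492721874653714723912815665152091862772268039353535640008601852297928795731686959448882931860318809988854274786864137368031503857919677772912488220268743249205898842916492079813882301299951232392703099491079620983437340073533405182947142126219494723898267842799755309039074237757218046140259653335627049848024479878680194641208231659344470047993044571492781899986698030037923693329641404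4607523326362011104195717745255034928820635308938957583168603872855587830589163965314773058918213485509394629471840249804976709456907579363986182394331685653967223870135359176374758052172339579031278636646577023416244580791278764443713826627060877497325911422230635678840875736405892924809345199839073576842351912559599818479585791823247938799931457544827054287321322180892261729682304549400093913527632294024142222574296061375524341149760985203543665073022879225732376711732018514170929535043433708549914437110733665775666962419670233651775480013786071351227820655744331330358206818154900153872189499006718644488039686831102011871902172335555947828292979912530965082788015175603959663530193455201548571045060154651336733721806327494373797612177270893579007581468232069139182711535963857407712043170985046443312942387200186824006107160498342191214328663277572277400963011159987734080141062051213848999133505687546439546435113953853944691516584543758703096385177941168960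4960759540069284414543260881692428302590343778424592219757821555953123148369229144457663060527939160544190260163892406184600179230881381524908595302913492916618614442114171982733320776372255182884872832819945684040744214097305093342358295178496430879572988881369224039274677587080336712000541371284290464560002463735858130798245420727453486798959087387402343781601750301476092431743381110455191045630525455874771469930629900334939061754922733387659026539898757880481151977162570302390736551936754890888467300476939258846616182237495763367998203901262632472596974980799291526683234412373466269305424102277152916272160076155723857244922116565132549526719329059708092368263714127104528033741634441785199691090440662069420353185662342264934512691625085456766675385846259833098388829491634772175797467168071791062811466385578068930670919651772896909008786159053632508018797526261414607084378375171050605261208528409173860491177251192622669230799813053161503807522788957695799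0255189498189389674113760934833668935398620335766775331033978833474295043704900532698621875936592930945841519237613600476111619661173289876468152894390174286012027312320718136309806297348634928951298358314358296810929523788648319990074404145749969632026836021269559919630970602534605057383915631263160274980780237216071325065443087003915675447518815759846732155211720230442531036400706963299966009878983799342531852004391388915815949811192612497896593628262591642064247148490537375272529726020438413758219153470287796894306149785125621223165650819564385412331917516418994470726878868053544930781215839643926890433756992650016339510276312627641893527098182685354427443811232492067871980141681764033773922623526113016666102694600399055670791174164756635519437898815485672165576071670074133091013487623888451635182816873348151784739195711416622182340986340491154241660134020852268184347386801608998927922076504848207902240003632966848992371372988781654452949947026298469085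9825334409606292407621718788980070819543819513185601025651722002351289130545675848520139568766966493249175631343676882713398223192677303586433207192549263212877325145983516635030302899201535589919329366820543280250832951789852508665873719103884301567482523061526195282327151567113210092865964512591696724744168672727074599072462874742890252910922182129492405741405573200622394779116716138957361380951729543964810781483157461354167630014074645469202800766861869646524897900039016069773374502545226878938968345195133563349804390847903427697421199110545441337353515164895548659856664495838296988015439554034831955757292963819296762559939395211637694085134657980386944952081347156167204319186666899933581788717370165624407738918691961937762490390577588938557780678485425290387395117006896611410894681925376490019501219815626237349324286488559494129210184048379058151307753140428981035162529588063873651360160387430878544811999019502668381626342545237564639058218693424574133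4295568373124002329299918814620650697039622736389224734768429686854724279256450009985078909709865787128271074141551218397947791338733351137279098402346778139904539944455618876628411155963481686932976627015774944416978328814322715070641648518965103234209993047646908282516101859535008798986668437032046196179768969239663951688280687068028130143287555877223485992071642103968495466834344776144329749970371391813422233275106434112128628072656853690540183590191305151890611090935836065890517819390019903231665628235800800337936305495722494210664566057727982403801269267981700734418747874968904168137781387483549999905481787508617151499353054908157664000432925276357506452995382960454018258385552894893616770318618904503530392907458184078237040236890151058587186390258768804235940419709945937196122050544906859220372728246838938048698507331028526007657665943535311965887579001606260315192469740848427263105973200085226229928784890828123046723029513462760537849736718829058878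9007341480621778788879083496155752547080270123991011487074288551829597675240599920543550444908908433799657725605897422792551397055167017507691376265226590810700495458963865979449318132126784235621100441993087660701148728450885923680370399696698430771991552114749472429676168637024850274508398874985091045502261671599496600227579911383261937106707789098186846265858306505405965814490712140294912638766736150405303394035239341481758821980895045461241185811326302947610515685399852773889286677708637405896825918700518701941309059942972569596886886513164957964030555931712542246420053452885331958800518020806264480604484625472889289108811085697231748635102417575834464032063216455013443219453293042958300301521270495126417974376632146479863273695579981343475703736245025924140767424281221557069871584259645101062382746765144207989419365192599680096369761831681108915334789713316581671534258298205329878776127171083708946153252357599897115109654756643315785425867391332058635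4332369930109082735765504635516005140980942811561724545160727193351028593335823390957346245901492792545525021004348480569812308997459711644939968164416293774458135310186143191522317589602101920206914576084253357963090181321716487064916651612994497374293987305591907233440954845299330452549840169802650361425857630042068472207163700481093286248797035999747720870391676622483760452572006436559775333254784905261199560469972225997821006649183484777299723584787823935791869005446125035611374175657475722594969132121145850089625945344504567687894666770748246497227565906251485556535866181007755548731129952754121242368301766673244737419173934710253501195963928854074714879302077329565628831534298591363566962743558741070806452612014317429150335839636837911352793894916743705780283937820268153248893885645183237045124395693918443767706838960771424237658687131151745508869684152563064804069009453989311852090145325176963143071355330900709447836023402845348400661826959413789388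099813489701376701003257848867424684096365163706260619344712954872014133180650154468057782564428404702890881442092654993194861327112817153694428822034440779916230329430345942405435359514412896070751286422772027063444570128634972979726627108382471886323946007718638817969947665013758259276294123986915868594598903587722361179345512221702222957467458627205593066800432833350507464779146913047434059900389112890496542251307851754200256286356996629332572662029327152794726087928516705792444912310535350581103828559462400)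

noncomputable def rc16 : Nat := (nat_lit 332879867882204733644450250274852446345220601141785622048586599128209491436832320689833998526623177619703982371632030854788829238492709152594743047047784765320116603272640816831702100987841323899222653609699495652138886013361728321425815967071359483514176660297324141631304288626856164618836153935430052688729391912284155924334535717570432344554169176676323790056590244019413496976884704862594970837062970584974432875742141920858874047045274472282630911587928782311336899671975321142672710534336091520315302310548319489241203430564509335283994188854759232218445600847920906265543898005479030369478057146128474015164693335481782066247323881468135945032646743116749785505959481121650038929573288429541809129563416369202687453185395873556412619131727635673867326229485807926991910076817836790633421589487381045999804437236420649081734124453468610730621900966756757715631852405438477943727454914862296469755500067598711646355064355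6305395341195252908271076526297708827527096927005813987038109908359798594222540826651393572540054434554207505795940907957144740174023752071958344051677838600692955300439257335485737690032913190461111643655715796018408095850158923890775256424747697145786086964638171260078479023629898808681373790021860736258002427541638719470310502315514625927341657803465314562433194747185045132729827216774819215576561215941381516524523969520002720450371904853579106988966772920306023099151905477851852852808880517955377621947298005838656596429793062243456675847444788627917747968435373509794445221461535822811134901595456516274742341624419574438306812794553380829648926294379501121849600159634984081296448350097143310861904329561345534825591868819245415894028949725838644637968394505639922990209164563356191086248918888642003678952788621311048575909116660615932371600686398418501056503798351761280418912235119278328208447834704955548514361759599223029694956998595867875064265252494746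6453254538676827148682851998644529733906182300085809536151581544892795018936155062547283382082034172962407524298402449853838818370008737876104912202244619890529746521462901647155074797134876199691091725129257484558483512341905343946907122276731595323579289779171992383042305969191419776129066383764592412447569056090995514459579638914193282326066245718636888744789476142044732015335286700974422588293847327243119011491215545544681580671903584202523282355479305840299260870437718115059928102098981485819895567962395692573720306300117996325436617751007548578530588952711462480383775345134787095196876719548416916902092740633454218646028220215017789438526487028152667695630923724536509312867372541329084246524669671529503494719036705757728218933649027836006089220932639561652736529177176648926834520659405546903995432252171197615953408397187343019800676241935202992830878548370132399478680069671604875716481100627365148266629996584762339860008108665895901942839396931121577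6978293983499651146904527142874556839161681433312639570818592300521058309553289313174857603452021404897045954385073781104112046715209064340492759942952136574984217016091805890698919752864930042557953963350055884670277719873081893766496439639246481749614330703405088092369693698806419931252429519603216727950478597902571797142322349388585922022316165306593938308506101557931042191383950078305734257212920376032733990047346878044358979150686296711686726390011038613627298937926634133877688300027725920132494834924405243020795835549223548855917976972514141094879508215156756714976259402178684533811454670426418680635067096821509682263302556338119113803318411151050925029069030162231320812098789612137670688552345176196261737767692327954503553011165846244238506017480158610963860231259320524891676054348201089821505518385494912936883015130155635187570499705272812939292065878446723085140415506471447785970344620876199329632912890595165321797257633787554020546711328564112542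3448523949324794340243688505270568864429821364098600784652446557126137160226346573695793289975907691069283645741430196440978849112215803671496031911243230643438400342142024176528322016802035292777691982341055941648764630116461304917837642249003934011588097697914439396709350298503358658844806095022870184004425487046880376773782024241134943276731028136517935938248779767164506368176519762614970163679948376446245623996339848398914652961070611302203629808488841938297426195797686419753893730214260949297301896703413092728574353680464915656446282508743383625477645273936626632571778906971246755855748372355407546325255057151533408514162678697092792220463541574312344819100208771503347065028500753662496105583435643615360625698226530125594252019261987489950335739217947252370560072163388655963695444788641840298824588989563457201985474463077989484563808954270540006730254782315078671278687373524615343185088717346209533448482138778369689669810203803535822101883226078972602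7486210619851803448246225832049385692123568170523580031509438024487950196234940757019056468522066187133580311251406811898837931301555962695065886762483208072131447745079731912650816251802564275570357918106300408599069654134040355974417836122678768764816487692482072045328958281368128544325702816709830764173265993403252252037498251072692291186132818934789387952155089673840337162851127605303400424650669926581565930789812387807781254016884740801504689410728415421953564783576815153773192591926069878305834715184822047349022317242300643816963804186724344219899337959869850374513618901453435684095720934759268988956988235038642699248072893059965617048964313961629972077939659463420631331074542914521202450906399921082009801081744972052752183309928195435576383315786992063676741568427320421230659756363483225261994908585698153005402245960267453321452536634767264537897127587323326008367351970483963165350878300619838664148168122770247814463393631343883189255265058217395758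2274894267974511780130811251125110986644081994867560575927458395080283600301876659132620759377851177367648197273836944808149920261525828501917697777145090763518078215590385063249670059611817444734107483833935738830884614420578896956228070486733986515599690178487171006818220831634756865647144337804090895223669968877873618047904338905610988897872709253502835801664667329134485137494066938263958238649464131804898940902637372489071624076688340565260451209917873007246236289007219437032218270022324302511114845297167332447287198457656736397254645288781359259440518724089413427839500733506117107664421018456665547918378775256281245080004732402835450778951307490540908287622923217394997063209436738738553458572535992644959735406289579961345389021375813966972092796557877251628023599994200022429048714992192670850660366530486533664978039491636252591513696834920483646138946211077604223037123373876817031885397892454109819343102378081298129873607461014040308480070675185419016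4292682462981498332898814972741305745716649626533872562179553894831626779828436840397272827339076672932838327581541696568279975688248033823252396731657302783454996035105839862172419158060648022712428891251461627316850121209841909932218804276862534991480817435591636249456169805792258795003083320326221788474306493233028458495572137790682923686281798647732785899193780543918100571098448038968699699550557433507557274647519946835831135592083957197326680550280134575081558677361687030129926538377197844264577741275088096451464890157748456750507327871381213045871184079944429125915595805122160736611919624306363929320389532268997419311703189477875175118704649324856575138111378674579565835010407203202243122634357671024378827203426147506180705519165523230509021674766365288203873010813617211024761613873685166859676504275391683892526586139270508540142869254656521552670080525365968607276176889289018062965073355127758528385485594010573315401497809464152182182033492895697356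7974033665602670646372645866018618188585742982538598639638360372472148868378719864093224118723249685972589841522633365685318648629817357791110268070704242909991842318368882448241890502101427123403477142751187759755235581546964784115094259680778229096248578969060734287243616602172970803962613702564504946976384371066987321545574047677847744621102389805218700233414849146743083474954995865918480721913636214451133041380073893570289373520706241081730024686015975838865852766415981502247393552395166867711678548693375391344828147757690820405967284884999709046026825814861827316107514990173751230307190268582076965864458240578326176029832171274369587032748199166247777105287850789895779526276172260639831359283879451856595069688632060464748451293073077410883930018236311032707530931880424968550934917026240064115607991037199836470143194591443798251296642291324058159138901632688304977445672602767711331778501065154818001616095009226158555515084871329278074305672364566807877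9796857024275014698248060159595019771212357333095399242382695808441680593804788271190798564968038427077730964149709589184103715626676538442423556440604792512799147067136650685794141713310699174933170873819069937943658104406050791567712388445059102873272868040843005621339055082348625252365253661751645357746137708793643737113748139960781360343683572138938192028325646839725815275487536568141943312382264645040109519164505019888004893289794630336618324363444805256514378913650217893832837541590775374910209694757017103510278189730244741167553502411901478857278068392332702835079677700115680964207998631055831212654968629326182608859275549031196166917988831052207906197120598646571480170736191400070060817058330822435161933545355813405316151391224839454628563887232472182893981058554622109183181838937058678325522010937982896444034385332982506934998855906061156346136319780015643612246560624079221881420174565340758316919742354646744338950829388814450370671041969724991517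4374172158302945964845217141610633193597313143968892773022032369864090430753657670082748254301192218162640033135449229247316485679640809009777584379890807511828919619869746896802254050442664880955699038021739998250958190573700550781367755406010454748383474934809862235639970943693334976220982185786429045047125627915735083901579967068372179045466208100163552722518340466244397971393774473966143011637181477383729519411582703610678125749485089114392712744213492055563576211549005541662230477856136552597918037864695404593817704793359103727332272077253577683617073364345727054870201185223187637865519386457425740405885267820928883027818301757599268564215896478939754691779490343349686405995449913276805205415920392006791135388460829661758701704206546832952937099934701782361609754933263434538762609572636226558379459045666480772082393415541571555435396863263301031534031227425252192138025347224390813288095796209170744635607886307315792365591645435988967759169053425782076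3604931851393581538794655015801214838219110348199649123985112163493660830265110238678499467012049154608984028487102245422753715040258541774565702955283773414296977301481112904931452487721340369431603390111068601470167172671970843134119636174109783586789450568408637769147247396497973106791224963095413263117090230629188873008949828270820823342540452265323858504702584096907655403055253960227937445383983948443346860251446210342806777322812057394793501812428564972041752876704158628657715907069303108654533945258633485173034956306858366736798073595527405920690089025089284572224481221708479249663214924094681754465969955613636206883329862068278964339480911310111901013476746699487703427305618877603451700249251272368628039314259791575528761128194884025563072961758650240227268699281585218411208194458919358671837541237706086938156168210638059491533420969573150483719955358926329747143822639054029301569195720013194241232278066376997857026893504452602347563933666842060024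3958348379722180908240747993324310985335992704238857294998346033026212216541793677476945925908808268123951791333222135837411513304301497388456587054503731788080269742746341056338449460415077115373369641217977723556561499893018634440837525761676341199810040535380911729374999569042562219165917950234114256366653816449509728889683622881932922852581003027899208140748718026494494325893208532665683693783813929018429344852619676463525897652577098977776013911804907000374986786115714397077232836089053809133637301206129709145311067351000920245327179307307516450512533403619728894001930569816697597981290429001951087112685707234053687273222162178437214269912321131682544033786894888145338403967375911715700916721321802007706404158148786473517331056590442035955295821689941261045720544064213039279643531075711312787958378147146190784386826518490423124627076423549227408494508302847077566173727416460828800906855421967373178955407348339882391862268164100666701796856848835675977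3992678649128074663236794597724940374017911085130661654492444001178283509737663790268225742665051749525129603649198587586614708935436966115874240268024647196108085658715794652661152867037142777225325803619225292633100821794277696350696951916259467517623439379912539566480960443789725513914983049020149830637779858124734813913543965890483285765279526175771289392075563773424675888424560474077654522115722777390105093877047974298234578958748933123380770363944179804569409675083831073382483311322175745719310629350116370176462721490731670495097528752245299874683554229848602640596033960438757696759017385743548382951742379077720292988718036398100614999839947767714495012829331427813388211645199257050782567031297665098726491445813063648414010835432593811797117785032124546877011651605516311380328638532323739732845319334430757711343716239213752433470651408149905169970906606168689114334753957826698439491327759826646005837556175169161724447425657976467603783966803598377258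1020416688023895409808015983780352590388637594640361895588568883439329416083248630488451719151264097114421592177797706484838829560105206666678467732532545807660889827204144982351207924225527413031044016609530982593883343353007835843474120427021806188512916416179522073149740170945872630830100194643814011799325785078938623047166840122821091408203274058900565632442276690831163805633028499590578395100445817840402003335128146743463595859348494687129935519069286073259205021213739353709227199702827232793571988302180390894374118944518890444727461812504152320935056014594701276190100183958549654855501351540260872644271539622695738132269398211171885224186839735978504766403865196962571609848821118950649012692751764143573076986756839928159480135867831783278567207213234409649750469664813300744166249286012203252526561200782833712098584385280983842292398229162759133272743863470833776767469983829407848359461440278596250224074264569890710448643795018663557439752447354047403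9383675566993160444976406240175324445067535041342103362540191677706507316854937893743254425499726329269579868661155270187123604420241063431654018335747122923865334951647356983184320331991332640510251966684990697403895013788268572344362025602452978911788068396490883367340146908406825118742557813825716015598603455633100734592022696136673748809814893141820147062344123089039961084261044252115621741082628368912548835741599794763799945759141745579930055448882857222687318894153061949516989120229098143670881359316502251505979215760229044047378413156486365966525683741684027972897572760859437934958823686554253021121067146871546049661566335963334023504351129392312372364806420913905993074740279457595547137881507893208996065042670326164853244142376387631405182304377997892262287067312536074797760559001698917296572447576986707847494350071716869190537249835867433781385448519898972421655794930644197834426979399965148738235925235790927431564315169575720975858799085573336841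8636096182403644225454400683377030904374576834319871307517763304666953289395032516797691962206917142760611216728248373751509390741837422451127901958649253870282681022080307358461814931783496328165394228752165378977857598198588355309121487261578861710947986296554493783922651241624452535851035486428247671954593336907354430274750585080822049887873610426986791311679969540835507244536753652886281772976622603967747434229518311621256884580990670759577144806520151746148672618457219590169402891124812069096655630145327037773871512642854696635143072947304169721896648632594938937023961463493323127098983332730162798942883657399326582443029692338493795235395598015638566329138693720974684385836213986920707818373385203848791670424738374806883669206634086545849186869028880846361245710088367877228231244213646593184459686294374904006656362651758390316228641437455023563950298842778169826356932832189840468735225432239044653300257511675729239002455009968341988269279700673101981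4389424751764976758873068023798188744415571549498048908458918775085232312806362747723454513477203161072850938343984478929214967372373939313235823675309657863754240797294459741961426352562489380667461719916209506975644443203639865047220998166386386684859385639919785323456017511412857272466976579523064870637377187097251110221304727504533567494506173912658129114392794844820904585867335229407476220621174308178733154477674106119219436269345735559929676704191388050879851033386596708345660492747203542654074959720979090296902891960638450694383495374703157921186005197620450418612593105762518899348146542082273985066139019919096727365520806825536990183078108113140059298527788253877757410700259094074648647307585888710588456621168922702664607268519184761495108507946086564522702494944305518377343730368429203646139283603081882138420124907731629316405635027294062045754518992784967366736562452729996686413898524187336938868901028127678024844493203605563753512210582538598233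204193791645872847636760435343428100863555182540906880716889800433911247655376459032068441809831166965585742183850227683447637548374593929356147085002256528999072235983358334428340529428088550901499015307101005658493430966267089183880774578500891596583506584528948485906939161497791549328912004571950923921200041208672024106858538043979009932993769730705128825694405216852362861092316515603547350383573673399122611145903322492400645761970048968657797956930293894296932772788414100213304416945108620924854782794924032)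

noncomputable def rc17 : Nat := (nat_lit 333775818142432075810591295761141947388209236398811042443725200937483986229931062479486926177663765113240955855115554797541490431081262813385220306467774001345888847937983188683863338450020487061790241595835695357361455097699405236840433853111472111185810277023179666500008355845410320790557357758107621534877461560070522955194778379722269347826345223959671395292343450566316151468071510418630571542227346754806738861567820764871407786011164737790209599434330033684435327639158603809245191640538527402456226097221099748853273558901169287965610499399280572535197266153516543870763034250822615250415379327397802132182340912732805168684167994204289919691883207925590970203898794268635794299926534774734590818095337358085316263622200736115652953034505599589301957580736938127015765605936273616706114057688633699886916274971380393071463733874068440889665152675615911474497527424214547328421470396716837701112658282493686978709197612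3557557969677000357442973955794209418181202748751931252987714967049556334491821101166259195740301852605999455681749748606321514228487754678453962614710259993566544595997583941439705672461971829289806026006466930967538357999315936434425134586071434589912795643640000166536137107738610567113317247682179699336546584901078691785734718510235881763406563810095815717674183924144767454821844039455364495321427950438794637824808626460997669103903296952513765134235996506556084914955481498465407270539782836803228113462741879867650856586670140201251354940162821140955384047694763537259465579213848713677919912130727072295454924201842827376189403571928499778231364848213892412601269550291269095174480616591415979627716208118348748938838049134558829652240975237555599414568086856762292781732959656800900161329037256787822632972190892697951311481578373569270928011051381173374603072728798533117822521015909033311001470921265991531602156517549605652143565657452488472871372675244074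5494055288048195571921071552706080399948821317718571946078283110872058062768417734557616394220232877011621454028736633714816350770944049803929960029260465082599332223790982001687353629538304716802908945800532699508520703287532119505405926826337107500910325444996891202323546020098795301332696520488691620616284467213727960206999222802294826039941558020605898090986922834616729568485559452366369991764069477565797789996918369780238314826409166908896513629251585206656273127104839514787008923940885823284863725091514504725850252350756827865152550427238202385708386566925524409193807973800463700160399030961566577411157088826420590953221051739864669390456303264955640450079411101660350525436914413621592189721087456964020667084731952350543754074795358248059723283021385778166953620473327591846988953087873967076838889921417686453322556419356595930749850531350801031226554634626808828104446224864675734136993725416839351881455387112554883541954532208374839388498964363528943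4193434349903125796901762183567291775264434720862049929395704770186088318285442815453598735324085079204936892879515249600852908438336710796499866598130836695977932737453968935479411256913653539914862166418477717472731314160794819880455612827873963619117098055989189717917552101787400283947670240782937811582442140700628139287747363691189225837788051852564810942959063886833050667598423167103950587245827839597635418448491591778795184368884769860943812511999859626612571847041949205500766682318545975756669977448479369486359554417133968235721907023893235331978651733344158754674149849890841482113403207497800293082451447320881753856587272697204005523777207092720480072047237677375145092895600758452070752453359750137353550755826161271472615086343343473786714169870966493861856501601272634159947328641700535013339418673172733381258427511351524983477545660563498059826868275340242768827939516702412863226108092043400164197684030613768922021846857140313446594817731646535909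4301881460452080140177619545661739101615303351650750158695296101508612040446542441337525471998809272444454623461369430184257847096440156008210816111388505859188560916886728399798272960111973321742389357104375655025961586569353228968983457689845508232863242661951061512019114941737958492298013160411141522477299247046595914470116530292617984826711124935210034639976820890332650633203776625132368244082601976832122425368981096468431838936733418473968851396551755459158493377070075169154322702138439612903738215747477044710536536704669083124471983513494627271190923361118985722711638806137303950537214060276544842528234914528531608134830454598862595314176762958537857360776162910178006767566327430986734244595751241708688463149860634541202353144126088968614986325580813538516759875244890408997850731783377486546459325681382996131118164882822471459435440178513063912187716784865825400339746663508211896073758567986008478457755721848950009380901257380922284135464806388710200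8226028336796186402635492973164210722987773407789201160285475243561833258711145044218850686404375026777030112971823358014263013659018420272266812186365216518762270954395718105754817252332196523890793481167762623410816818667240145992368402142882599237323232996528135430110090407173022492632210739827970614324400858676052973167706713459102777093750384546494695277494653718591859613428355290672677341204610677414800872463492263280816839809211694753750886737448662145115142988444703463716626908090201144993046976841557081300059214538954563934526444867623171507392042918718241407424549223952218949631779702018612769443253420725091061831037638080271294980770353598241587607074701759919053495198847884915004607944007016632045150948137551315862561240518019761534956312794667393865656961981274769466087323636418479481414231575842084036914871859627385429435196580188989648250217777077332494959297303334189950942855753528362962629049425583032232404490015247322291087283630660001820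1257038700476598220257326652531908709612223328533308407498501922500851079880615208111272956946123167107921032032009452121075249379206647091469266761527120767731577989908106541555100581615025175909040257619075306500481792709162529113121357978372123428887661368877619640345473714508908155716878621433337524312927564385722847500419083588870905319291895519429633313401607244091511892602871075770044538105434792066534230585207645620791620091283857422053713211615298905956573075542359905211298555199320570754628083048011584913856443302855868526643856593868830527132944527891760265190222707006855612748297496306442576310038471110164934877502790338956201606449482708316025924349769913298377419394813367398724332902761276648492047630306710171321285079003884134732902900938112884350674897764441940424340849426205574290531954122517707887065061321338481656001614665665372486299412761281721056822178266663758936479590150998931432252750715132546075251449324023931566745799183874725004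0044057391139061148816874116060050811185707469660095637323437964730222700014545703554273447491417620594884638746205012258950657707375442985586948884634125812945139346944959905672153146687485621210565986351542068938122917743816021946580414534010919723182775866785302592036490336727672262424498233757982157671109870396005320026650680740188150080281032611210483657401381705208938477008890935510510794990923696090365223983252255211092746991152171721275149432693106692076371231727429661955682529381298979650222227488242862851695584389514888545244492344700298935963421591591026404315506880238011591717736385981369565698143112962608040762550818329469632377388789545887982101673265048533243556629593805659946226295876272141716573792309074454528176076429229228666629557090739850046560523828897457428199075675052657903236257982065397129225909032656226052869816017685669628691550790783489501275005840912945681842207093064223745656123134250589297120082888043172090241072857271192603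1691802509688564491917580786894442440734882078956460432637550979828276807342407987466426156454328522526666624338094844351201291455710906707189965713128597019489037880640950961987281348698669137081489845954710249379419632506255566759519644763676060767801493124303906550276280175683678102124448188162696059334804964522651223498121160857474395669303812063196700796220064977608819598342412620351011110647198083763720403534144276514455921078426437614634173090546340149683114347072823523717414685727830625233941173453943213237131286595725680046450213951524698483893956711058866618775460395199863321925581157003910016577864317982801518763479518317791128277154083381888121512165561299010528218102615232588721645326267590119479487952360287928708506251246918779006699081052377125862163309603592921000555598356046552032005222470765926396491017330615363322686891889835801652039426312042719175461868385932303976823175251676270459927735220368225885517753960426343134464580581509364376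0655730282979603884732512453585323703693122473791140725364349463027443862003189753755361381059159005815075718286671264963151980459661433025717165436576224706490602982455486107407077960112029713491125746261898358564186307495409675332435384973516501571117465566884279840644345514295535832644908361775851832088196572808298069483001415823640595960638903049961232644730520766796194449142114202111831254602044598558958512258905857122428169324523622523647051211841395878413271259484114264850778500205184636503026511595504879929515382404600005291728280732839934340466271750503275098962447416732702718158637057431548476086791319093009141727983053693155819816734345321127539129295953239312315970153719288141783021040074586019758226299934444291120089602963672714710801271226434980901246806136226023539971719532753325059255772840480295606096878753344446017876310431460440756150174740442574554915255706333243045235146199440779669118354890160886910087948398016738618172145217984695679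5167222840519841880719968509361190288560117740594049855654302467365877394647386033447013363126142988812054637736988804848737019303962443272908557416878666210451687844792108269661058266767126544022444687362965991873723875983166547908341622406512680298246731494251997345996977529812535218311058922238138234601450729643610170334840229473582858724617039133443309982993900964112151556256862996153427260131477338985364273950101154676888853879304586533765367806572168863836395850533180420074899708494252285031264691484806978836621430401293155400803875943033962680035707444847308910189861113559427697222153336370945938757604184672243064177643637229402602502425540204649154863096923405163718014920864904055151551040240840732436755662704728516521403083504922954944786419159063335641153762586959251255850705696566917828490525880767191193849905234006873725760032755561279707281418057848130165199742082200252124606433084116517601235065978609051709141117139175114433730854806127524371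9851052574174007956731510939937974103532658291299758928048016277567265414824797560027520524504749403045746760354736481685341089877491492534391862549092306820533811404645262278647348862881940409919283497182002669596876024898336454083404626915792749246765104605374170655211295343964250610463339868844793719811230517382836001954241938081657160232239590194171977274985586212417513568340746144376222580514385707226622353796986395148439895038967277428987437646860261681698345532205305081714403655711655631442916456944819170129504700793208249206935326715254922073524246747994735880024905532556345877649735071131905852398147047779098466798907270282508206021760950498525439300125815511397837958848652582737634651213431966233900068327287322175653065367637833142527416344517365479846118295207505162051926469759550416792569636812904500617689121211480713012515296013886705707922500250098381238232604561493050518237462232311091645476679509983520932341500111764290088548555324771274765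5429567941090641604928920021098308643277007733684251488505695931116476281289025761704631598477850012005513872974206171039068515737591558902991545546671106440453150585200018316137324280035399890543477346010461654571626861073271608668863895633936352092211872147674413433391620996184440811464935412474228469998366156820629107431885878971992260024407178559486690665740611072118850126386042943611837622447755907460857785846257013099063606103799409488987724195830217200093085907450790256197635075614165162052957127180084898470914925887338841409658597374935446095902823554070993492902789188280092079776744269281784864744839468248943021589020526228998861111188623991827622237060384938548860353132806932368677228476658132352831473794365105099628704488126408799785045575426468681946288262397162347068196741843151936935078392242796805396131268327252888340704828677249817469870479719744199238273837988454310224096979193507391743457508518958171619806229167790868586121001027723168280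9824698103924442220575663860377351440586201585672274699441027346789084532553131952973071205669561867097608015319163308869341512253192805347184302869321436770085606094451943658844939565112890953214954978271728709030429561590854909313792798189069398818850663196582056947060033099795155019078790047921348319786346613088527754982904386423862749101721716634476467354148094150057959165515200365538524038672932234205970112536620670529941137682533952848879539544158263560848125678521769942664214126820187572529115354876372220693386590596258533931970673317030925234967215020844801696666876677453956197316111268487509216084668709134255624458643798231005871904201276024752831534044770226412693838702177850237605180011446673638798908499004312812476863052586498412330213085112406419652135330976225015478376374591789542295966039500715803160013854159856208079443054340770207360636868810782809194849493438713866916583735476074576535031856185253787323341215121504515977210182194077704712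8059244057999188287210989904751909400652511257688604546629444664231717235329040747885985971723151820679596686155103082954321772121998808512621262357779334736233254388030663594777377184114477620520314008051046850259467052982777420034546061928720685547913476923080853865233807063439392869572991891041344971184909378963770186130111288589717075046909600064165520009032033859012929994428917012409683507517886366332162419750332913740617101789269931702993113868651526504360110368711772828371370906095066996320549021747495145305564246926688690016486583163451959010751052453805954362728709066500671497785068015586843724384728938775686424525896254408225369913525551437121921122426995341793259710026258808281585949562952799509364963695372252326852445614438814691121796973586796179134746466192296489223768398758364523497573342729451658887770532100508724360642188228018580702522891413786440808475180777053733205431347931484996946079776560435373892245114073110266521465014994380693779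2974095902114034269243786355792995108997667647798205576272870395004220281567284658145835514530435848633402091238156581613929311530241491865307298628442911999104242934001417531426673855516665656549785942442602689192871269996819486209990417655867515629815863266625037283539420134288041823833985566734972324625995036796482905086743685323102307895732853825207190013773235898149573234140814703900419971316914351639825718327886148426425402880725551367036646784522354487882191452902089264785931953115307128809107271792236953860567049034214015857358385063846972410872106985815731747598729074709310209065506018116396602674054379725643811771023688261394445972204463881424643483512546660778328526835803912516026077838690555693971332668885862497411769740143173594915692642172953221772689537639782166078390977321998930264451304714921470817866041073844734526506538388237336366522256297153544740829580253374992901455017686113686785559491277108114570900057139453668350950720405571634587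6499031549798747519285253787554528960836569799052398924792342418803285497637896337714044694320281084913555286811270377323518751394393163014642644551738326895118988587393424300452258188290779618092064280069834209423382868309938921923547014276961530836294297363315480072738330209659352224532438629735272649374768273984423398138782298132262245576319535178333150659298628908218822607541143415064323817951916840854200353891707037680761416836634356667698321276048961477090491761177893951740545612997373525027708156159196676915306447243778879978228592850433382745611598060632819296317258176227686980400550414454782195212254843760486569334145047263638222593846554262852933178520537809632899188654054334003067723038519354962867247677927599450575349752233578618605366290917824729428053612562464858262793264013004628578234748832669448675442801674922015007026021015661015201246845335861040699448822153539539054018134166369128475917868402759225898244871965399476759390258392434070589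4944534373540257511276213265321478702348372257541406447762250397362521457058333840165694457267752036047450750859774094090005168744422161373138218471228268833642806770809440965455037020784488858487453528574035059879373465025329502242479902955159567806526132297674837097873780431379787131152046822579952587142409768341882693054196664370735731158167470467392169518158797686939085520154196085964285837972522529951034130431357608779588039468120388736874353221390157378311964204699125431674912890325471851747695348266161352762768355479204293503722296718591502850345827437839749695129251023541596292538287617624523816216917860706616438439936630794916937611446809844817716801652562730670045215635493168775061322251564426451443067360806888938060780435386149661265420351022990033556717356331257330944447986063982604138414139423381201153117768987414473370306237584680377115429604882634375383389053133087261401668596518748814782722122015153805824307603866401833639999283230098942727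672028782848481183675755593901472850292732791523708552095671781336050615847755599587627139424349831306313953460528960119786985188867472847962462405590135602818956292232964209870321048686014128678139558968403658315191598031856110210391279016520694270265250028239436836631146146004797728793458633125627870099859012049089956607794136886653120750637423383003797658057069908145771925852511741102473856191598847455602322665558922842957439775572948013177136968158812094289434599719536161548518828175007978825072823232364544)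

noncomputable def rc18 : Nat := (nat_lit 334666659833455259048022555565526591643756594653196458674725365923935446835132255330107493406435758812713788034257253938032244461687231027723957394214408286739965005705820866786999493927485093888093974773975880535191574046222127808485726884187517127121320374704120461023638449006375790708275855335396870609619545258241853241882552267876324010884153567509485830331549903988731659431794724115706805445782041107877206681581767378134440780035212382409130449231120192057961526885331680272940312964702586206706712969545082981245858646130937831490795076765950497700724265698167615250251735838824003653525433052221933938073201078017634381569944373184174590139166488457827795044646696444306932210221924283926555957714924087791198754335329521830699940424915573828759425186787916623150647831536373684589545435766134841564270380510884396525632247288538835576987010272658150520791094022900901025566903464677288540598100586377236632591648468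7526157308106979272408277356829687187596703449088182135324210575435006829230462211401869849072520109885030525318828213363117757336002113636727547566371034453870472850664929662744313410076935896004099437206280857949711232077862517573056660707401152032861853994837226379939025151043831565814895619678473845023178800243001613019275058547620188713879408250329164449084285462391015496460452772012017997685591355967239854211902452306314934271766145773016619219566128975330776768578035205162608061928285999398125796953963392785170078831347214432705958180858949701615237545532752297437891976170806367754921857077230775791891633572188813235301365985450976256659596491464873935868883084945558817872372632257243264394524373266040226200536089548366715775244879310436844973780301482732929305058850874127439576877389819901000709021290670044501966215500163954452873692059351419809101585219031409953271908516468739932423148278592447247279966447263589665471463661644506272405316689259253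3839926785994950656942640427247512134757095315471716398608403623838534437768976687906831593202633278715053834872073525876959070837891122513155529472945048903490697354549797842376119829390589134660501662471116826082000540764780591535110548765432877134374775211192309557371468594159015956188746992320943078270223833614595089079388782548419678038867734459759992753318216338020266417612201726851429685958925784914859456225907217783022002536236355432261646424896500176275615244030200398764881510637127107585014084993591030984991171876038668398737365586930024240833681784663040630422130254211347640423656522999635421058675564857081212798981957074949744683278105369982938948831900375276608041653795782828351810334511369506894775761336301494963149931692762788394576308189103153330698838447436146895812536530542293021229522138290261527499314334780483616451749217472701152675558889768785137660028497908691878684564433841591294566814977850013229000472054076770616426411246136995318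5520957637067223585834594866623321315854711160336873848617416855788551995613158806275686971888770377662042586549377288464725907131962000541788585637697956158302413798176252498648347029794437425016108053644656382494821149427361523717745320322403079799525587996183385877697402736789178110146994824664048429390081331328543067907661401975336520920065371044836893394736466629357775883995537779381513903999547174666064919504354804015166254459514014198136808820978218504956633336318192376445051789025555029333287828223446776832492362823083079827895033358912021442180728197428889591328765637618325992627440848145274290397884529034173040759388489945294696224793036975593933396455599718013830075145629522714673801338278744153763840313676275121497613879069835386761101742743978640387034013796863660713012036034609206022073526524532480879663926134366881724563644361151590422405957578946489295545794489322325709969550574377387979361113027558374262345116557797684412769007222439624610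7116817236036114200345973485926594467252518343202844721349046650864389172238194586639544597185185254929245381056190651390092976512554243183854587813413100495617088414425127971916065626281122300381310721324867397187275547691563868945486777885724055392057526984544826845890662298042943936412246352824297919282769023940092615102103612239092500976370930420735624615018784528085352615213895933098859682537982981713739931523876676239676398646883717853519694316528159869876447012885021990495948036675214209811144051953338021205870457567205369318070794460089905251182442335946471172512411095045947032474525415697359734977847151438342732621097486974079602922981788411606323197543870235111145975772120075025990851505432286092067586416321610527978842285244873424915876882644335613321955387857180604861148366002963450524467341798653752841240767100835131630334400942159053439525010416904963847246976489983131303111854132920610121648811782424989801486474998977012461117059183459670156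1848535145392242709888837315204870493519596731616773348672192668473044545344024040152619534022288285757639230893911987326293723180676742273030156491328310943976408762268510669887576942839503262237632663421029165003876007628344465303246764014118274506108621126518908620233674889007036973555347245031955311080188901649482098408341051437480975898964302883326916765837311777673656575412682817359380880825156281620880847226797869424306085793536175227454155377879135667891195631578885941970181836146709088106845871255369908360344790992789003938520610481160619315570129918932847661327482580136265491774609393467819699054118157919140761856925011345847080142754867175286329287092879733217653410956830356035697881481207251493154571195055223314166151292644489579867879848818373115686458094618791505216478878285326601963087923264226186633547300935570514929635239787406415604721221296007064293340434301662346549649549128053291577026400780433757368432267376178033892714969381847057242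8380372656635711968831249143860107160559165254031666236585512101246460059695845254479865927640943056662897512479889915849032313725229789496845782997332699302236728745622805820645189525870493066614416411517827449726443016029853344073233166057508969437548076676933142440677062418175960561361997649845696849317635616333970941960996837456229595183441862906001846529582692881612484952886823137131634229742805702997549343336665339382478625601247017253116182247112200960485463618481506843120177381828903501816053036174766509535461107445838091488144516348363463725457133254499669291375219159540054351477480838547823684407388948077510763541861584741378127784369315414492601940802839608605933192870313575802256480118048022533791458143302978925850449262596169291415269868815244275166705913248796948805566167945930554421192028809645447458257321392994396572921107914190129922987499669413897475132252421651233568967197112847868599343309270608979681062897525582932917270904853084371399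6739515048510151044686510188965883944648247352057981014074157772999992008639462253303256703381824985543447367334302202162804449587813499723269045881424950255136174083784068998613959191524677930446932099410506346683100241144934106466757357902509214503003054838769796759820091470711158798484790981364622275505832395277022624013641624407264650833602837546414215532781284441655775921714566249107817007373618376096410114350200838023477147204008567257333222936203859886590128603049101099926859063482222194732748343090487006162423960092937149420748912002694894420825971707847604909377519156682446688026265578130033381951419793211086714460599040080311976331765653519546438921808763250594358018675662584243749409151462892456446558565261175750945750378708669639222257182337777686081899836076684611093572381877739005604443936491894113789929833310964376673676953032607776083344815412025247524288175982484761759013324824154458822689888221176666173100363380829015353803419786246076179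3230073288246557463409857562083061178993720035137477267626839377839034411356681595098540389294309997558270982129734296050319158507003089642043594211317489472398265627361622322436912529703055502636489816784832911560562349222605756213501599845300472275356034538848711198911594883466744319314201197837451472820821507248157633145336668326371710153052170723968954752220571286810954832786313024937554515238864838766149259997341529142836120472588588635341619305951735011949255572371064878852451244753162994624167844683124892241617785694213763839055973074453708776003330149527135904662317384621595626763869717104813570124309668707314342880733428919571263152908496295610340474312828017510005602326508014750588386761508588456058085198700517247946108872943707069339677917406967800405747155071674147478217073017387196733013908184635445912715043629560153274242081132231459052498477269282596381526897613123389063647990106794273562680341608786619564457337055446169690939636937177039080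5003728177194634323889658313485514920788108155833899697306255322644555941125785632108720503041544733772771411583193827680383752815105100110907278139330383259738702029202104258220426286381558303108539614092991862102907638552676995030632873316799486478978446118242886588843258310744770375229408905484224041939995668933644791077244371745709148782892807852084546318552402435986763966293126073411622017052350739341276444862904850169700044495700613461379236662873667731145698445595361772230849886928357188999800835016336408766685892394462993748498481981354563891046096922275228594398638154078540115490169740833105073635656136559199135701567482749560323613482134557965414939214660467257079539144332521141815646673092526993196924659932367679413288686108112547944649287479254700915657071546081957802583475053241014021117709361666883517176283265104449070797201662004255638082384902234360314402917402419847414000458346960151803011496689296603564216037568923679235531510880143772818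2549573995351647954188751941471116885864108255700105020249803969525013057111711569323925645707231063456606909770225273583206429266195583787924825039266502301853591678307082217516788492377407929257692255451577579528762177824180438771928281961637355213557774049634578132346664921538203121581201112528180560756098009899376866409202772495081999176648341429370727890492797170048039635317549848817325348674247508191370146353043505591904327367298783347840361760182016063111942281996493185928456177412054642574371934331087616056819332329135920881205565821825998959871205280237196878810645931921506718962520768376463309373639198714948770466216346095620348388705691745590851812201997444322270496348479532722524923400428159212147879732341625318716708714041475656698824939621145129722472604312704507950417729719203528351477457436203620049070004288491602592917964094909695763581985445597429578562091095102779757615027542440717874596962601595629606838063214204078809637075555211989721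2324278091463735451859964105396789919665878013049741243107440172358801736266532186590745707067056074470534998269771689388634035421417856119129348888433887572689565520174489211533936985877877076573956169486453620012411761824885044059657799198915417275849452821017720816672514267023924559495404977108279835436199027535090972155495157091634490760478632598525881590222606220340675997218784335859268355309605197444623717655637242898431721646929314080951865324043082028824527893397299278384043673372744877391817655639287830996601211866004973611249963927124537147524616345958750245544793573928821977978366882989615536732453878158715083544866020888869297367384520194039324756710052457453481599548591118021890241219665365645540068306916634614283538311094526488563758844938612323519753763604306402091256558999177590266583838577740347065741837695801482151740475843479228255724729405699378893936184207471453040506516995148452409516254907582181565812879226596006211094280285908670782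7923914952590796996738248565008480869936793542131608477198762186245131572517028045180692921301832835374563679753010793522120477070639031501284966727506864110452528970397106183252493331010737949002680916377952945719674929445261958209423262709964380852137593450980560548724650520984777078532068739643912225666082015277331421891273745717988285708923719141446661236898662297497963767505915741104657220685513936406488640360746204718775557307658998211855682663034606197006376336768845619745196891408011521792585108736837973757309352348774087650942481417593647733055083907279053545126731267141492405293073725964584043481169636865486435257915181920233941093252369070921949048333192866015596366568843991653526619600183023551051848601546217820695559312981680854182986644492802555056915058301403469699859180537827607280656266186662438791789073034391986613405568396397641767366547622119072504912674565330357585722850288135605724917505241067611987493626804442839658003481123243133549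7908229187781317190326612950317756849141824023607401376816210443344856117009653594858754936429498130310652018753429284146735126866462978773579296557624967979538496772808505857852472575949879026158213699321331664607683643643236035768692060789473767560722785854135491823042529160908704169427499445640235763006052734493459308058020117249213674624347996249922582553681115734877067688468414795774551572845859435190530024066736401598241571093310595849764054508447539798816998707143655275134090806911097796212535308215661441308932575586851257794345892163979190125796135551273930611491966554743504910540035294126186546534648464612235391271016162386135104286149322157557855226291973358214105524718508225853824892235415906843287029373750211940239154115113595061684581162873300521209897296918333304908525175274639148236813563326281543537783973279669347445427562106181483005652245706307030211519928893677715817039196890359066264211400343603095662465931263499469715912137853729530529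7160863136753193194537410880386322600406342600302829198706701294237753367244928135562733029062437336929555028139826685970726403037840909385994282165338448283193555928655293806103127725558996505399957383134897052650975464168989509724930360688192059096652772102346836009459241684631091988765908855055381515330171442250501986138904027697622518906094718200804983661676685009017745813052676499914699656874448205200314266921246293879729070617225832015776274540072447174801968498905722670613304296823015755767733366451244529008979989585843651866365343025545278683948663394459637279206731200702923991663215195387871255295820934802003483416339682119929888767347275287524060474826232304107257642778119488540749425028857805719508541434788563721670667925717395481622936840058754696637090676515033623506962833863592805189705200727731709845304502470676328935235657849744351037608523912444771625167192122155083196719626749807296889296445600527725985697917147461105185594087860680132674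1276945179667093403788607053941269341211305214240972957963791806035952535676769686329254829931196261976960013033272168170378904289938142776218871310227794087877210024307402263745110155964268174162211061882454115808217521397649166075181112578608772247622546733316986634869224761838953134144767570069804667621640700053751619878818104013277894478169750398270679255793644414566119075391903270543396236857210311972950126955375464121903190687657891291420715427385536426503201164064523225237888317102439803348384344272648494488093080144382684759526953810900791477550440196342463951817939453295076889729097257204818995333245216580024663053902734713958746168799859371118316311235214104358336805629747199580370508122020279047260410373636248050417137713242661471173911944514667269668379206247152638662411000396274531223148937970264158872788823836180182948617350286909748747025134826528471340493485835523949082222793605877308890944241222191768962861232518172306098853594657770824294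0079619824403559509597733054595178430454362211080712751338207483693402089194307800906770258540296168020333581484714650541259642424224172395117158918547892877666162250902598261123791444893563156960921367793420203457475167197562320405115720208333558080646087690287737442863337294627420501657475909570716800669476299828908952363521118243097709852791523029532380037114699773854346346182264038359948797027496727545084797663885033778525386515781201855051099433244928406186313260152608346364322754303447539598876692768821686943968080580175705249696910843659842693702966605428357053548518851677894602380458978247913334699822949776632931975380211872133990115702025611862942741337590609215461879757295778023026453429428563918136501295534349607986850393603690351465543410192322626533627542335074892246318290985950148330367518332119265600590718567323630173467387394632374539012655284159704710561797733335905206710038368679883315880152355544244007607703346653799236733227723623535144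9738446728666849822351538700588236658208219029475636750273602133397433025176021622836667392209388472687785931635610236968318651652819836549494382720843214344405476391052927121450574637511683419215273328900580572603714545281050668665955984461645989159617996594142789594131605849741009549671955397038347477051967868416579165858667548358544590111530413026778230346449393484276151164844912430441290337678435910860246455618579146666412924103660023756626949655816912476035921138356053439304311994528903566979051003132181588734337658567855827833632925350275512198433481183325697885629011238735711131675474683886881709944908376748249565716986605024072226595512722501796976700089435667797816801455442354043045866577114199501077337904713384139301051899345066199449092140265748367730903340839453463457676670914673396833397211190763569209704924665333501257188682306639386230784611834226366873780498481296669519915173657048812775622128475960478200011289252777744351428274890780437196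591664595072108473453520361204282726837586388503036418501571206801870049201851863937368617544615230300294771396421637497574973471205586625926914428429925572498719767954227982074999390553457886420853762750350672026454789462160768873104050323292615568649874133609218626145138272733315596068555502198093662486644455606287331163915347004610164852085637004767158253799345130886419025012606327793319980227415490946323898033149665692831885158618910173096013071036306427620477453361493366658615886919135266485503996572205056)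

noncomputable def rc19 : Nat := (nat_lit 335552284406879430991606117478439248516686047473895130247144503426229453383882606470145977217980363394601185466994923148826314266003486775648071592190599776262328560399607084715010708118676013262760616956205912141625283941500376455087254283079574267562877697409515956805384729222770535607393075051836002771340255838830488613139702154205344060217644967720770331135317890499237022710494659144297699290247108936247672271152896734763379314164973500275929175763741577308535725815874040376037710574378316394385944970178399886856092555672770925538053630098133949472390630429535606550444253031119271469800653296406814446571028206403416036888622129556451202812055682163009586488826702007726424034780202848694302481828009503602576065327045588743903275059046982479771163037426707568095982252815909538285463778582903014011313094567244837953684452397323575591031455459980090222357355778539851153226165703290776565315312677492662952428508289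6145123455391437040042592196010210002452624657906181999504715477546703984166764349195356128227552911588100044645519901798147959142723283467339476811091664580785972783670091707093079878965377258474827600280330317307397678373963320699868629920785276657478836100431259160800648099106512977345625763937433383528827718461458505447676595962337645278390086110502221704803379023160241814121272925905935926524559756002082877953267164489299053821286729114224296931544421421009585323966567704024046341725689037074388917091332651253699009264233671859896829761900319201417916725770197020709118260936849781602723773170164836605205276745822498647068134976925084133420394248897622942144641985971127040585379210364344537071145774571516400418348156200631915853116083011240130315261098513645107011222789788288806816689453258802230531231577893196816654521794907199468431675607919045032401308680164819241778568715500164222257336415100800366982696945053170664069985532767862144223282571872615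3681401137313942435204879495860136146535457772647434080081464870725155764742450495326974341975513801670269308534917185893672159910195945074992212225057979094100814205879193456010361025429504347341542632335829013957757603709392123942799902940989565788627402139241060212839964807869209371813748837029711688764714179128851474365595735209427041132361984776946276190513896648288798572538432420857807373393314089146425986157729203019983733414157545415575846113590888554430285200577211612943509960001783979315165214115148687633043148643490686664478590661260191091486302579551328053049533615170117193977390953085698288646198243799677294527766894795790495548238983584050137027680524962338381097285660347225892358269018618080550399154273000056035573899384528984367782704013281641901413192407440592365354020338419982114768391931509465951789128836434192150736600956765253531233902200038367700927503113664170639601774811827300329002111263183326559495326654275340960475487824937952378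4777265233370774856799498027109194520781396076052387595909006546405562358527255811457653298860578758216508166708542101431401980908814853360215358595820724440653665705475615193370466228657414245639263676484160848526992884039950398480851837454103649435163578362726466213120287780788821696040660008073050038816303673795221736917289495161968759800823106068699983849318781687647435272628636321071382052803015271255294831248428717179343423935784028369334619290803835482298111481211809592167665342875154160855897670488266145865417043586011446364562676452224950272640337824238483426261669467454762054189985789190199625945137846055089582013109899139708179171264506122995287364003380394220803924107874238992701919967529306152945215050959425766236655776510110219201412462073133616368276522637651765544026657940352434410681833110080031655510940134550617684605217055901537492873742114654295051540265157606779565958285246317696989736966377702307124921993531802244590659486387244610404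5634682915116857342720261831951072612293684930578089939879767770775606084787952271188280729085662194704944968733799830429068692437790296071194211967188785856085380270768135860599104546044106876816429585381301980167351823453312401982593757558568591687363040236092219003640527861467170641640700504742929476091523035268630142927880852663417701439026584908800783843037676561523350483407730450062553594439079813875009799143044217281180796365077752972709414821836447761122572505250285234505183635111554802285372113452821909543274729297270180577805993802975615991730993008950157298249431817723205640504920643871633837066003519829486770978039549962174844519778162593578730922281668479250736522344386745142397135977503537701011535881054630135774217922189131592006097879504341558262185063799143188604676144752859061783393959801710649738794916390456154828915107397212274545205191398312535473652684908383266824382598081506208050281351529420886963911843492799603771654698374419273829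9651724941409089246234315674396382834146598246756597358098200503762166593923861540494154360780263277367577548382382013278282301201522453422964072258947889782537747304252603053985808269797649903426385954776455391372382573311774220590478075421654748810563034096137409063959017494393313857062856319502106804772482289895705762733009244863301073095551919772096494199958240828342700560999134064724454247043125775887179603929014594234866630529711949135192848957497790272528173325907737684952053443239380849970730055725864630462978710023705764133808232508490837659277153522841091926973475339266516149646145121281887015095491706905471446852464086953430357451750014601270627333933555155611235173437888575985979665298833256241662280468295124029997714046884485732932271345663852592134420439170456297829853342706993054506602508548790209032109950071876453335164398287959553256944571452400088123487604145327671677749526508842690172784196757829335866669058038342087691264180070384590868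2669675495259036359105061497335157201891333986215042127216804860989509591574021320124528009079755496248211515388793849969957271118091767615744931387484832825829754794171889037389180973851728114716895024249435966829794850740175483768369216093609035220247844710293935766605887043587482242307769019262461275327658902543195748125298535298297053794207613766463128625455616129342395984570037897446097605537910187754997324071145354213230659492034850515193298578265255964400498296530932318553420279493355508381621214286862011441064426975868490879458833976272867276529015617339737717376342165924207897067228947169869507021016433076086464812371145891192624328419608226992558536065451975718464424466299670671980768563932646707969515061081791583222163044048722036717689734271097508821927333178335548149766027713423676087737510155149667068615238891575681136216905546841683354540722506046422461461354010652222385552263737617713861651173885423881368724683007276795779868617723115695087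0021946721456690440235951130799079811858494114311158856300881773548351894643326957256683283089226016049311159135893616025103073177913247719959497235153096203941420888999813227679240734769242849431843504791650243855983984453388022995870487519689396830131537407255708423268068024458863290473157780323248133812599304738445914328105227981437727534816181439544298184255467409545144144196845006573186483472514471381410645945552339759001520438686237916840474060645310868286022601614426210933139574510087339560194281920083894801121006788729588858664545097706914183269378373472424045158086718199124729976026670065372296181894266074326040940421586811833881250745793454843897274270790800933756249068136112475442229101109011480925946029641208759749036756872583247534993618763395659374346464608009605052179348498953081467164205466194994283371308894559955630444386833335525748326094089929653803420609477638433778908020464782180857166426303467422377581323785847896951880907216600029823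9608314404889960828658569333372541393560498854710177336366842840753186404388810030306334173564145985875539731860044744245735803001786238436054607343533268188433290401062639143890307841621713305011747985913295314525266329278732940201355021667557422528132785131888569975838481565982073823582002363798394930923571422220033597518530919095434202857329836172439824209431731285847220251297244928568841879431633574977216628299653510013445434334103233846655943969338534266716082107116482526397983069965109752284506789673681130543086729088928334375802235814037012607130528232045248172126848001731734543225355685781519651151101415167347255769236748685046884721923633445023555376532213585063341040592260710110240378797225965456987853412183493374957559660271777068160449390427542417708894436624899634632475465928572376839092674007787010242827838712168949726981421996196002948888151853696633196364855437490254124538291531416175438879347363645278785079558100433688626575079871649489515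4180122857176896752756456824986476787531583877053401865467344929813219167529843734496721642759005238745597562041998249454700989321130383614969866268499684569836356691940912587768370524289215945000251228842336240788957393379228858367078535155015084916150403539632522511416292113403666399930780133404240822357735077387488349507915332691192643481371228969451467123384074465805271475982021299353708178975635686557568167463194276976313751050609642181148668912887749304072031342315268548878376246312981745003499924187157895282989938595247681988732413801652209209542498088957651734866455533592670579874776270513966061665685822505588077938061924582094064784485270806038846718927801204058232860662416706014601114249480781237488915616512949630757725712621496531429107713340446993203364982287721582660655919796189195810523097533712954137061945556850653536982798781499945897287391272069981956327927935334332605139457650360711289142656108422107076785468051813684814692379555445479289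6297223851222399582574334677518814991431854805012087805540209129764214856999648866768900481128775211047679239838892685064298191510743786953000520293429304793109093163563213702058450569905312606195460714046378117955793867977251760288773208419457183587142204478810454443207882345846998298738830742939424974283820979734189865142037657185050172291492797846768224035911909836879436371195923624154027033573250687040905017524311760303574221201297855505357381830110861152017269214619434948411302514623145687727783173018531236952799178392119583711117871929573941529283486747988052088811033350391106870556655877541557178369470934913142660366008829268135029661752178730993734337971352511632263944701979005459222732116034462524931722950095129891254938748953805700252427361559643450173761617869795926845955478702436145662056130793335120058946975444096402693997260994072656699550942866964763331198675108311934172422462335714754376779406080282460779360047557511008051423785772183308926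9888771475661626343097244738856023990942827517791145928087186629097006669083775440996627425727656465363639454301703966661641502491829660854106974436550016918406434541854275890207137083775559690135798707916515244741454271761586732872614982484943194532771459425682623759873468835912087226927291787159150036639819312913531429502546744181329335670237665914644977775136204896902711179351731371591890254725010520893218748481928526099782904996246532313958769146086018623356653344061785334195757342159610318830316023958543126221116199253723123421532953020662425055780896430159150414605379689451824243880915874188874857790181210231868751408885877786724002924963760171590217823030600409219620696621920277489900893274157336783838663355624408115117931959522681001328951638670758804926920344185633623580900263918204659730233710446310956789368236047201565980087907993148598211825345942365883385133999942639325589748261837372867801272754601484315838292706624869754872601249388101294465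7412528132879796581508178383729842414841236672225019272916985540868556983228032826807420384565358906073581493127856096143643334349101820542808481093785047369009922156636497082016590099420519325687337055984345051087040584915070787557538276178978340136430344660327500675246341751663012119924555039462513254672692757297248151176064077426303980646080340716213517377050428529614967011257166264081093688548381003495883823928939634862984048284942924202819528766563153376169364833174922313511068265025364635371550500830133725877140932230364985928710036675184850545802693906170875416886362890248812037610203705588732512269446032810378051834584768939890558689565072007147678967090188233033538839351291305978135181794933652446966320610372171042413848108857096139874055698055390944899531228246620472565630037581097079093870613038140102365130824302664062178952486519679853933578648052228735467077730895674869397948038571827663773589021441367679123652690192968821218368425934448123176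9178964933904930331579692076926352783793094491412645916253834397510582860230375499190650718177279043231558573852652495408630558171932899687350526772932200861040850607353942141099011116722815748552813143133405696110722223307303968185380467326560845045877692556475216127170341811626789374167007616309775305535438906147483805186437667504467413154878937567235289196154844564482722352541118837127631718043256666330409175836573704982504049803974183100002020914909162841905462084267761442247530617523782985813344058278034842133128892836188797453074493812507148691323694034263492589313619880397987263775919620186107049099135372448457762039083745752590257090767381512807872678181687885529949754594304149699699428546415490820206232627441363019669681763988689542290457685365063242330788234899876552764221673129640960045050063733482530202972919413068672949365247299617306338009857720247191182665875435800353416265073761094392072414062479184728396768078739386492661833152846576636246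1061361750667839977948556315680382309934437353824802453893663549337354507260876868586457371147476083567437530550295673729509491200954172067199909513733336383525897394506857985345570182020363309062150190308612781594438043776053132630274364966284478547783781725395251793599202385716534705383991765145870862920592471076955769836596006036244515017014228396376566002372962973014964815079351415847734957994078007614164807560209032930701029163516538214014598063032235177430528425683339173697232440481075131349535660860492954408543725382618566591702033329031100468108781671637703370903280281269683726000429595399191975377035180352132794965826321627596010487818139884665929527575544074593762830412330780223091449462162161552882919157368848052419666802584765973192520501474003196773028264946590626641890866994224251526681054243027121224001177784268813447180413914149966144132535647899099683962413957858455898004522852497253906207316806609069884894452670905776088671426910859077985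5271569511096812001053303724309933817669579822377556528092032670075376140415056693878700525941042354949620030775743201995962797348923107616281961697946271497917133981205831173497326414432090304683767654563899435778284811815212323553017215674577611154794237609192390919324780454065841968448160477301700882635412289652493485937126390360397269091076465592882663488774441608521837058513620236678972994509751230633819445944025155421644515547892042356081265977081531202236122129649344031637396569465830124290008306665378463939684251308622816849504275181348786346919541852971189489874896310615314452439589300558905081199846950379834330285533087375373308037946547179165882370624081261388958944303369805958066403941217173241927669334310426908743513800408755408810095643764663500800086856932944055177322243307313739187826913147514985312375727216911437290917377214049049014416381250503844841225055640839357064161640957748101062883508353008456362477021415910763981517281025131381259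4886391521058070708331854510981937974306603484136054662632421100473411027935634287659670871088623853532815720607228294078498869349264016297000471210380923508305136021806964291410999162942658173588296109725347279580389038272958810471140568763417682658133801140918089860293081004032398368851505076647677937417900796763635049740894571773629704182699666915678460068834692493614008910598014476856539231004677701261308863989211907806067532797139009540583574927311326691491650922673476020088749596453630505582371207986236617510425596870671885917505579173700271683515654581515675214959402572943538393258293778902971876243543993940662955855768654114845935868782579063701611103187443912398607650056224253651505695463593131807451642413139762653595532237507657191472925915088190823142275013881403565478625199666126977547345393010609782494196529286985745409871804126223134989882195051615297186251572201151237781770812261688903628032541898302004379649830863574271726522979151033804426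8592301611899975842505865712189511746225193596735653584449689159546295927417480576201498808185067014824647703187098775347205802969437873635584771919849295724993578352570223951925490706090730356452042238876426921825919133126001969678091303496588357709562741805408273427450739107204776737421970669289498227131577941425369371055347621166715421846031086970135664089462977103309333420917874220766252441166839083971418840627753033682137935228575328335621279933423940593679150511446772339195260215392276733772155529075242574987646423641898441724242928380762775467008041729718930509797523410258427436268422810634555920658272351152692596750587132082045608026457771741692429860034120129889983484619245824336364187567410349228365242064632909794475374846875623688858394526464903427094355291175374384314790225696356556774239408192566956320986091436552113136738000341453325823529839187707571397846856859585553720871527258545040991947702746874355524905270425091743792209425459948472260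234085540899364288182637563158282399821570858454626699689373429912348706565256352119890552544854586243607429422323313983091022101036444013468179783592889055880172783536057076187554851857912858277368820244322162027413220237348942476901280791953886055445319063173315288815219856217071916460212567227590160597717076367089332567785211586105221003596460897118679168857160202682363519244854052786041828885107456973982614759380265064105043339591613349635182041993464789779753309795065813120012228136486508633421381841715200)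

noncomputable def rc20 : Nat := (nat_lit 336432598897219739559296398577324023127195419163979124367249439929130670193802853871566315314123153899206056316719876808817367335780043386205681669398993164242436930372936488347468049245491223846319313687063857095569140297083280477478419003676931740177130798126544484539148855900953752878101842948165356936962762735506373071184432243374049542909066513654682258670517301770914587777674119481030391083661486451695036426884639177660247384490565968442919096620921663584249742355106511151118561280531751176783460455546613780343025955857366217162565772045574535230745415855241535192347683853590897264517742207208841444482527528394795995250171103336861379896559388464446176831121882255939224720327764478234852352873137598281481640085220728816753076899652615535804335874669322105382856780666492813004800967158844344302208261657565795294919596402648377046759464467469680770558165065228233456831006882709538928907899751401810024070880395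2392340588319180193247443700982702450984286603822723018545818494595665947178373438076412892237478542225864052066329692774548098230973892993110018361695229438971567847281604712823485332815332818701400856608724633394902437040016154961251877865938112968784716063026472635555426286434950165472408144814748250399956593010357950899140946608037233830464862041294255017870579600834996447527226163204059639946843009673434179203586975479025215215150858887475514017148487548550914527959469732971167176220488496321460546701653729678474644166849169230140000495012921523667997914146519737421721252996879459117082515563132110761248333664192233127069127605692937447590544995541407027108584265933557201525114584228763699261247542271530033451488704963143884098378116191319223766332586826714751657820085667246469693224659154691088906913845272321096937618468394886183887961248739137111634940808923143930323969686416766066559727717899217336386418273783456832018013636116079999896301853260448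7307124798223841821817331873679010424037623055283466704134226520583083396236522006613073790471036463214377636407095149637452315050335228652209478487064681725705147910525471468302456954962610132485070748426920680704732153345248799453765149503366991971493247808596623419022752581128771489895029901925114053076073579563769390057821726560589688525948634102171970955995109214131786508666043158678064262180233472904429552682923788365418078327768438529216816487495766716745869079633297266468080721377588115686634872929584578010958883718989769747974411100519975258541704703952692113001655059780103765842577193940177059262553490279118281680358201293951793085277411323407899814156602867377363476569448199471454512722555396250222258718955200625190731097665516504925215464553172671921264394207930108102374581356754681525913674904302533309596988415840705361188491911614530094270009334752771029188112330643258319179132528730297482196801136390448524100535682332702573866660499821596850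9478142941431044161736798013878614945150929818409976914970984342724356811153456235430164271974091216166264282666975005527306744023779519114232883815135685906477771443560607790983510688404912672143164823719888370777619490835960401552423797413997357974433117924766847097348427252617943251865698808522215157515706552879067335129908728305827841676893173721754446269828623031280644054772827948961882490537412243532863643568165437966651682200548652120690086709963574617527832509877989078682141573362906945251988761225669708372738690282363947399347527081776869900571040518053454981682062171130134096206844917218132695160623946712791129035485031132659542796296165790053525948898196424798183896370857331305761377063389061589548043566302784070178980137502259925179609491561381530121996452449842233103012390801121718933243443178030446759729396443799177469694797674967811126299606557630015051774583899088362402019786520903288543458543151267869712107461659663509276839839576102912716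9993548575400647771817200104911536974472950104982275198455165464022211532671148313353889215865113179405124018509903080032701779237240506488077103554525739754625201414468114104348485589210200740505966722559353388037169120876819187943271907601042735941632791463577581222798591588334937870876941956498740890135270140463522094357634620148015991026284292695872566290567514870834473316888421534769067013432901278039419240562836865152950284455659831737453556651321943581802719871613730475512197491055671337885406204267300526506528534992595936981544454110682763796950483214573127672997430995548533344637365258692187643843061488233922404549964880162095036413500351556708062378616440360353280457201942722514739633226132247551202175177537582983900916681167648907982210735222065899354418488931560203652487261242140276639910688737904545924343476948410336630488163367889504343485593529571892410770833540122116020730993050975420882680057184943464300894652998522255637743138985111483113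5709872196871289961715069382842507488921086690828255425330265321114832623582087839154656064744041336486036749477864039618039051417726675513727602843922735330075782804811643223737690756575204093093077188772762257205433540301862481852146333187599699767316342766856941227890133127764936701730712550303261392766794933995811767485220696568944914965750289213496354308668911227386034088812125575622097195531192502157909825212965296594548248417987616947874607474330320588904592611195416731409428989873525829254324641131046664192437255471255235295254474941004207923415778184665905320452616484680402681318239235412024946685480214374340180857064843492892419923859823110233382060400691131995074189022907186949883433283619187936865493293096712393417213191930606263132235755461515405534814242474855197343790448201224920312866764985778955725774274478846694541415293250582937557666281562398471609176023444101276080657507902510757072788523080633510686171633700474573864055642009512858285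7191442142693889984974396704579584688917121327867934183883246244328623470707818607602223824182597627880535344471154306395444559589854040285449114770738694859284355747404631298397588488757286746442117527936503519400425463840408452459595907312789026963843118754476674930838686952224094596246228503489891170104110809283054864294092708635564010317101141235504809143008520704496352816231348968020430601441452727013912726815684101986053619687182323143015421402935667084562903091613802987289646328125587824412597808620688736343710705137931726780581538192389249469568046675890516687744347033337365527092750700633124769645376480906898309146856587675737041908108369592176975374494077710356040529495337632284421604195468067053565475962317297199526397853153307269375288027705842981169920050767885448911330615048661336109582206938905033619516430252798721350837847603051589138136229623994308877320779443071993338346474442686515274020097102933319051959725017644094716579332050885206395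0234351159987354702663175671194586893193058329053276120449175805148049811343768945357291714385573704737802240132098426162609209986457671772768223774221879585076339885232263685043867764817981288326090521296131081581009890247436670611274041403046955597622302436598613572320860650695770621928429654809764350706348485038351497789392583108352847197884644959796761932968888517481907229044840698637670149589364505490820193025647435134529801324784019134726796711406364036837352043202190472256887244270202448072286618008787157307804254079102376567704836088429959797490197754866663362249350311950949943247205987553847414196462943230419637186620133424551853331392485312673982042669037127042387989086975725722231844817912378031440023873688714418607800107162111376563776475336431180970251487968259088579039365851007819330649212250792013666648265039985920334495188182363905459291456249055335613890644026057794728822002984902800787348911970609855138428713054748530333147760733719474479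0898489329133805455585086716118480737340230811211902047587332386796214169791678376538506094415978697755023099660881764446299574423219157210484379919814960756724935981680736238648276104368267343558600187622947517595157344310976396765878592555476821130180554369665977029207366445741383512463216386984789027151901861422914016706280674366888108984047888323220019639187241011305229279301483086849837212255250258733884386357605588527033484400885114742078646895585564453757028446255484827002186265114761613196922118585024969317477249365111190395675053644864387684670297481722910418544328785158721088560237549276684020808955414344183344229775007940339388179150216575336206655811499580537060384563051673237294677469745795138646258225797429153487640159121278508420780898969249357872962740636254058633434371257943321205860093976185107674955870190432254920866809904065042013065720170614484312916938138219642189940814535076222609517588699530935686730341512440196416521251914332140418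5612352679352327602607138725350078183605005411209897861956785887378722882707558408713570339160720745948232414041528321738413598949913697922193057742689783998811144138564756184238716600522601552498944227777776033507548542565673258443774163572309815629025775878050932248043113622078031646414583500852790484739050639147011595713848518297976061659320465871167261909306331815367537036199478931391687746128035178778529899786965865691818121033184806950947005275313175627725393621256295490169092251010909154858511678618759626943726942648283266916454901585927540938763229721553019282453529699346548402290265166902714067837263192586879307711337537003274687741415950141732310222883294609952569918247989697681738979051526712376613884639008564783027775141642324743032531408944834925304661141608720156525704907482674946255290039192074784887084299881366924928527693873676688968524942480603968545464606983159210097101538962989134734754922085994791916347054957909461704739201449002807900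9999742172369157104335354094049843039100099461701842721698074462951524962759968139312622612539275154183511948900650392375019537347816710420651948796975645225076025647049866266539139697034755602837913823230960303560675164718323005695467893831280046255545874316165752614902306492351704967666270857127410858294466527973501303040454727457117091586881212591729651189594953887783634227294982123554546090269165321271251761898647975721141778902425075603556381557563216104885618723622176426370035078326017814551544226443255351278085353964598612359771059700360502922668718708482133795645509682554143934215047988323826793198995068108569379814578294351686039472127629610288097395358479533598902767423530359270183191934631776706806474807201704933470029738248820211010604024954957288267944319563957315968844022695696967735064200719964635652611194229174864037259297531518402244155636093475788091476127279838679809075089389179895667934146270613300577295583552273657662554363358985812175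4205466371247399389685297194609215750545695660337749256820565883502396387839207004259233972890224061245134230955825828637336955945624638049481757116898063800623398456193328081814478161992564549063396703794819968905143147165246297218556287191859101057472301648556125385583725136376849357769916310738268885090364782631525480528949527321067522419248581613830455703964629352296798459524089048641497402474274937658358197816118054016297859479580015996020670582994489772478996343199461779680683058767575788529287853192480385307271240000994281674287498562081261352940051506604108426306322816803529607631588320364415358383714987390787132045687075966680636566543721144490865029281154112093242611201677551747324566674487034110980965905387836592917529010637768818963743670936653043837679000099520552449740826973852673565230799209285107768256202281456830162961010675665883190381449806037178647801210575467816006363847124363799912991720520991952507096497716363975693272084277702890163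7243835596604555582869407841192938718452473354005387541548780032057793746250498613545107358591756415362390945236616625255463543420208393803581059100042774572226075197851617014804602330387923214716078960238943985169086525650446670899034043307800684564166691297123324830032739524698728212123470002531654775816367039733550681197303648562979452653939072962313328667648179055160554007652550067199622078907576178755591517985501661723709005676285388485648441870001643403007210197738786251129897857958427524124927303627540934953748511703523658987939226624925493619345289265059498497317807951262844534158592583958129858744777805356500276950467711822875127078893507633025028105692720841457605082245598132465766548415660688276078966190746074362368695148505086779689786803645057037513352234935698844486928172886695684514666970155727160079960929392876011123206823037758850279470681847073061834849693919266197561731580861126692992953916405217300857070471341104779124222553974382712402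9351754166762120419532188451874019359596847531371472174356367046018316424325848317859815449827571489918280764954611197004813047898375688768268158881917047634157759408896232245835453511288997250651687480847954746693490994932402598235860050568748000622426520782424720344708193358346575625502425092884519151026943487240013947194208584121529473044754500484676869177905297508608796643430066541452186427257261163225728950428018134592811373805976792063371070829518505612566746596236130904459439626813468089833336805675051686508768862986954670103878693833005105989147263937922216004931483519598611504950915834598648153859149771222415632943164371700958186359760504080570144646712670197977795694263363885908847686509746430723538584192695596957258050695281682876880653080720868415284250448926073776121107341126488274090005727919836172269067573053367648450469369611952802043583140874363558698029432064843375427729368007492131028472372090570660854631899394900279569481566201187808635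6933264579245360499970708948447067695125969921616670005107729447443273430780251993580206545878527855799821301611768640866745951251275429676060265051726796555964541595322104906788616426908017292478477402387330231535512106628846756207292305169812895753150920725588083910550769790255707319788988855662556152239008646368524970277640533963860005935633702175772589933913888689614954536108513410875578997070426864276678245315116427176312602454798971998745339116071256641063493623976574138939343260958431908638227121053774197057364151439638340177461281772076769660907426628053865066668985817003056522641584848278041230786142850009331134568386826807370191762230781611342465239126470194010021257761918493359217258756664736995501694316747670371915985024035986750498400905720831879056976379433401756522948221085691112191750649671564884615885333796957725379908797775143281336348986382685859404055305592578466147263151006676406595935953429369044321180444610529978103301913904733617891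4033023540127469429018057877336089130301289972012242767381431457450501777209535737694157372555957532630487696445840085042637910651270286446941069186884866740656328099766051263283940983555206302932058340305269543289713499481350906768890793785443099514004153928757751482670626865047686410820024614706614174568179232801703683718768951294647326817692297768757523425232860993577684805611456116812637248809390355504243733536709204000119912652141192579013846034466091758888846155679674935943358542896097308913083070429278880938420027771141647566002035303919168004842181728484369089317402943904446504168045434593223073938851916337559144399019655457186313924333382552791692041826399733981787237908728005940817760988779746641693858738721641762189014374197071069318072791377506242490490645090541516904641122208342223392089867183081855422858492620692690820377579076485501874297176870419022822045155126764168529722703541914797893834964388153987385812451342771851110536958820962665427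8498869452361892037437284132259074642777564095918417829170750478543516440800850970721198227862911458080555517089827229670331070359995356975657888444189451250943778228279152766724548870678404881022659835858601208802775138550145587457745324860854083933060598538128292542302353607579578486347989064390940192795384556594417350206624799274663910459016777085522351499836153827942648851206493367822283745100478677017191665677351001796834618317646912553252682618293136764376022249081982080386629224228852001049059742532530411703674051218810747089976772298403705348945897369089509404519218072355898553786037229365334659783492817446755191137364552861585932015201879851660799335754017926717159150691602998728178769117665614055036543467315692930298490480552501961173730939926191053164740130520912317677102365258911897478660122947265088111231228437304793521793697291364441411118578680388528231536612141246326896830675948480639886247910862591642745406077583733646665473056546120989456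4177484481677334626778911864350094815591721735575453342930372127938571121226472231294907375349316221789811364995984851170231228807482747452152842836951684731843753208990099749942396762519330987308748275630947193553544712517223918839385498431254700983933185827960370229899607991309046177725092867761893145263243528409094290027445134003938090019913182636360158472529904131947944114099549300679691205248300465355141631130290288817531446925216309640308939978903334519595681862501549395008316281486103472650608938263936148740678390730573173372211025548192870176647517105237652544935230059222862457842509926061721439196803392827581391885686915638360252187191947613435224999900841035006915759024030845905265066107621158907174083975863494252224239839720624144743100396546530250398177801500870596849970780042505598859512144886720247671450084405856427455186783414615027703822360088175617626959449477459243053283211241471694857540246221569566558265424915237039915365793660021985534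889471675138593212535600058103942669598659008449451270846251840920223344349932849232152737420649766585152734194117009071272901210291905067625732262616668351692253884942872118884844519369307290081243691120254274018495061023357501965253270073492360743696684741045194737997850679817626956896481776266709283432303079912153152336155988385232798226977962563126830359742826125858813645870860230809773860328035893683440674033520876503227764018918360639718769241806286750583518107046035814280282116723191213896884636941811712)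

noncomputable def rc21 : Nat := (nat_lit 337307519456829817202755734331687416316470887515538486518520777381090451280174006098885396126855533298709310918379810253250048799131089435035706046253854145714406069428266381927205943462185529914995563830015319277173333598494016623730052975181505252626359330861523767180023868717309425612407331536396657479235625631204578676327169911620942024613709120836406722630486694639864989113822741510756941443467873850609827189796731028292356931500911244723145072997208211965081579748023311756226165712275526683145487013583521674501357124401358567222615809507653320800609802046370034037032484470059971701954191101729896572459813756208006995747852468333005238390046175497928641455885587148484103209299038167686817356964318722056122316183744785805898803771783729699214958154352321521163781398695509446509277396591099926865183966277587233068673637666383927035608182347116429826867193760719173755325234729087039205910830736402916378777408727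4752953989428772606814921358406652011972527818134977702072456174198512445761661671508246855726293304984986958142598728738718243005318153549969343601010760101271927314217318759559164823218688995363266275465413343586382369089712086464518828766020100240437077545398912189250977115436738165448193000733990438992538855420577484848013784156452607856548405905211774071899745462143797575398832648872879287495215663666312531824649030009083730273522233661923067683938878071799455037210611574119761341075966137785472229919855904874811231316822250478287210329997766389422852680096167294735163509311657701347828038922176594728453072720545292069510593665039988602600040019195679397327152947774280797060572171511451659754622173543407133863981708643914434982403282701077803384131833383031605984496418999125330447326934473413339411014921011777386854181361872606099027043693613935701723265170672374978391431228250734884493277491276247009419383445774604493996745055614968209101083720986829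1038757159180512950377476097714831674869367003321967805738823847968401106634758830456258481712283533226901155065129914400156956598432046916933279341535230343889910201026017959942005042197212885648513863875037683484019951482298308516854119179783972360452682722040099482077332854553810358339914078609243321086636760208827405172373319931445280283644075967124132714425865766289385200671967166087806761940588289379073195122879050952611356012729479219656379543369448577837786322884742705588897065215758834676562917034181648421420121475166341447488745982688872474285338254911736373824723308950191333506833158705595866505717762213762713856803602309913089931713792966237517658921905361235263269222452626478585725135348432553598015264205863338591435254735028762999443760867029067507069179924218544092508018612590314002868832418256819677333956028835191808333869564741546285522703743537035896210735937782122639186572583958913452321088510105649710715941800682811773197429147358113521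9176180042081749689136629501560491264385973712617731760117496544683397607391632634935076347485453325304115601956731997880719711262215953900687227674312852997468635506665358379966348975261874138881133421120836187332191502276294756225078104932475079069365588995751274422079037347777231645006285620076550917041203022762564575060736544768113652070972477208552139666139848522550160003322613823388457421783630924780850421294448845529583202096472112463544574362579505814816568903747131014760488916236958240057438915245358750327208174778270242810281701117429343326548322442906250825520032445871630048463232604316964623481987258946914892191735559579253108705086326607833764196997911206846297179769826825967961154325563102543866530214249286113035603956199127762793435280671222635599935400056540062780547232351416077981638334551122455353468715602878041019067296118315310310948270732151094222579529717280199096818804728943436485667042832440819067482326726860440835479006792382588375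2462276788439884596822277682283117122110797405186213682446432291031907924585936951128450471709641171558759077154739257829166540252586808687289339951172604777241732119880129400258310169647379213467167768955897092226892800691389067801388432482813517035683478921671498804259310382590612626714029230250494508908880199698908994963588490145451562342349983383360625216606498958805455600236130906095167452681700477260824595527636389764934621683105151902516099004174441642388699555783803917551733773544747005528422304975402433112878380099271004471757159916953310017548914361510839388689228636301995979105796865223132483682212673556101761197597995064204475546002955362895343735169853956174510936918634315484717876878764620097016334946376509304673722641771414670239825846711554247992291648934338397821141928374212276756792100279924114358960689709787046361807927636791767866593720277577152129298409609735018850780821678550944572832622700374485194614928756031157989425548474299031332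6603266968669432952852477524167357258735605059099844939714331691998714958742007907378711963013241367455769436490839044509811385432536499320761225481443085723894153598580737468807888912977749406204320299171656938093601092970245640176528990610098479234905272131587914956185235454112622427807617429864706177613692710083759834625306110215135746548641876846395711202272222110974881943442911085957258139798032459117139737365296196433334739728700693557118802290037501924355376560527870528161107042227795212470820699201019854682394226036676204354164177232465442473558309092450218012579822933713431636666393331440274126023050762101713751052545416124007288362111424301085209565604149940036684694520077300973858386996052706256438102304274456053692413663404151725867973338625767531418762428812760735986797663092848043750998438653511897761201028964268316284453764569740853268574005374807162764548429562603694430741056788758423623725798587720739211379009567865075566028532511668248380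4245137671881775493075790099457750362793596914782181724659766757774435315008385007345247268563436936614665728789556321922268798222072351307989043605666454362067272086263046585515808135557183186429690563912030777274934445909856433532249285783868825124067093938080415579839354060518161696232759953760635514536463295103430700200323785972071730756880168661225018280590845140422724743103149382714775749755088363914086018588086545191212792121606624914572117261780113847720468517142410700440305996655015335776480913487978304183279656509941871299827285151104141074380506832128611793970924379582777374712025619978296056519475047208494846672788567054711097237999785128897706283131352137149983676445072826383030297546209519123679006213845199265188444492487598359531662288034472219602790190147492443694380557881725042337937586867209798800501222673772056769453095103273316915696455941744596386882583785227294403647210037013781190991439098006651825780419414040285811417897327726817006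9013859972679533820698779024758998674177744078089316839589956856192646748279307937418950701024460685078938398903705676045885556167891325174121880045003437326425000352734686936807782965985528559598119324498032411796533523298521273371426594080755376821397191153921213911129140261598252054776921913854869664251512408565258690170890288982869247317075899407721798244884863828340688177393835151363642422162452725064804259347060899266132629818834528819039971615461630059842855482764775672681161703180198667744346236028757287195520993780002566435253871583788811067506605488947413236159028643244519824566135063795273285430831106184383500271088410191381461113470920605327509588447574289991229587916186173134599190793687706909039672756916480052305787674310190997904586319885629451606004606132607727570759978285232180725915481466955700608258117335031608106113841605373337595055554402083261907359058117362578156780099299983308077028466514660390518724301077839742609350992662825846496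1155104976416147313001828675835420906723553706892112889033266042464726877957095328082320370491630396435009237161866002879108452203046287402352072578582963042584221299699041083727806830991944688586297193997796182892819379122430256793759102347089367032141095026979631456786118255437552621199259255468149405910524377593005645193199536573637570137088882257508037789748945643159614651922609531921819133075644606974291865875990975688839789333607086694458417109645812571913286918634135785772874310617390727954061525138634697054749441545488153799270423489408175681553316307987969232941720826772631940351098010058405890701606335851251405464706684901779803802650437344274474764780830598931847402599006919888394280310757228672539435903886617583043085334684211095813648630080670293983356685169584274516860153489579735845072437940530202557137095047616045949294038844546392667448522512906827414587578548695595308934999158386824190143780559191226172635633333443307220456903926372661679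2820897887362631225084733686283755231323754398703402910660813280657770929153881209626693523225740301434001264028215945934127458202636669709473808241686657511115622669267014592526822926986255596683892430170707764239007535243934151864565184547018742258081036556446988448586683173256411104588140887803215774194200358867975354523598622132598585499696626952487861324570677243077748907687116151165053259408639549160874768399227696429473251425485215255754151658295473923482128128347419147319292837373782299580492117274136084672747663692678871767930370403303384608020703877114349282744424729557150528527940197077680817141750840773178801218533991728657965038157273964943127229642422873302679568481083546740913097317646162030072556995947659649552310539399661349373349689809850810859765121392286095559837258298852862806202685808976437886489146714979137777797426866486444976788125907103974773336740819381925055852196844204552506412288545481184090482769748047078830662790684768797554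4774785024174049824644660731802845235072530553526232419855919755540843136114971777253418542806494504314524661596849808798694499044052614602292426403793605693079291819602749815510755289133119653762851649413574167234812187593114525655133187043826585947191908375344977056549575585783466450035053678211011714040834968823959213108507517561064503168762289339410968986213235094224655655034939212130342429230964361807998183589664407493006264662672079091810863154660584502133916663818970000506351089670123336590879916020721042480424861195928705861588312885077380180347281794065286990463023812358612154132956066655384133482247902391388990414339478082159924286841396477965442221825065438917500304419695985332393135370229879498757411557297381616271424195257983669652711262373623630458964404640645408062929545370411245154188195691922560100291184725514908357267560284028777230526424261998623344332692214882738526005565472971265919835186121116091946301632222173020911556635710823457981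8077721522432948077096850511328604816313562512456186212726167999200249727000835720611009691291445636481210970827739639563182817508612370747083024616985794326743813561569383216621577024449077456215658911684949064335805817357982115136551579714391176412768165300175406285979727449844765184669061039712412684493215971333627732326180367817727387649069338813830784290759859874571599205472533610737056454802330416000202425055991402787119436120966644169469518686141048304362440316007354647299443771192701732746676016297298121235533277345213816046248051859376461666268185346267320823463563665271613711703977542755828263376944321454157552575759359526135788168496265818808526815609800014739525152469625576433885360213775428081796075103333461355276996425924752204178791720539881211923634503732095206269118849931822076326533467737938797697905578821657544935181759501529553534107300171151764304119475161115424986224091480300943662835584530498446133619930306322840068150863138158018111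4261690115520284231723901950679320447659408042470511593560341726703824285768107153735364652266237015220719085810098273185075710102350804257932460381541484001765053242821826585883819460229212615024246972190487197904568502886948917135835938930110650791186575054666754087555316913747712045625645743458466705619979268256937636769589132555301085491184709548662257372171208417050872066272829651042950268600736674216927134251740845466522704870895911020842302156814268697977602933801393326410556459330409661837445603618829448187173195887543097445718866363760124927310348205443742740394143347921282860236123098598762535738087764706925179341503807335903194634915640812380378713794639725549097560070480931595166975860140323335095777941829836205033137145410026046573999637563452998392157940618090162485544251909956597884216303247779877923060698736966667958889462092970352663862857369965521477115105236299314841572887813985894115209460414896131325918113725168085664253273836660201564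7009555326480431910383340139024362865831304582565104026942958472921717763208990637169025470379261741584173601421134456633674563582546055305333765188873001116525697436575587294840425735136949331615367671978737998869527311508798957173971273538821309311404314835794980736677158823719228265253265864303732602071105314587984020443259638373490889478767205112409851774686409135796477826666446492286679275828646773376065212208223597391772374507405135023462990018316858480511186179595153792458303006060219568210985772153320489294905660716252196166499075996710500179155321605553169771159479796036336893769051786241352987043736984999457380273273836857953049504581027707690182700056621785916550107010174720546700546924527012397890480295609542740069896459928143042121853244883420092472828282342564522968774345703365560108067027195605377135518087828915066366504023743493899229133848566367777665115679947162006230503478135690267709739241622166956184937440748440352122822443437094282379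3317698542454202880626331387552337905463977977288345808143580794431851188200042098049943759009147030110571013019301787149298423844980839300817666826704371789240774645032315273838664339643394013314251877388761544968774631097211593657135338483689705398640769857393232042886743574465505430246336611293953734944645611983135811821384496833043524878069331400017156396434151103648649474673826282013300463094564687830035413473345261269823032027892262095807935767079382515167072098782018392679715356916782060009586711396378611095425960220058857142851060610219010152315916308415900262639683384148589822881248841014172660309755873699799516464037614499514655540625753890444831788414607012194784598299426624618284160415814377049899945129368848027353707507954654855808226556152034522977821229652425685181672025543612127837131216332710058534204832226279616289188898208599021662263259762585122525301015810018478831305459698337385911458683991415197315113757055491200640094829958845525296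8916390335659541882508316705535018564619203671079791233352402365186148930046795414798907185617807388973540372529197214271990139564130967446319936984975715360562719019826328981748796525322443852787639389625522876561013831025772950895091258333369921237457532406953375234610610011453171521660532455275804313655666282837443649393892212022756190941291651877935079235309794370493193366252940474510623642498538960181313561180310304758088703911509631633649025896785443905990273319797137106051780601014000155321302924258971242327768281426775026788357878216213541401374276336680060546283241788267867745555406036332986011042215794321840686390873702188915783598807832065620379532162098981557735957353696986410017322498750347634390428669170237189096382981748637637733505270881668353913987226487220610931349379845570909992035510685922774171092211048937049376577785373853205626167469392422612234056551770473374120394326709207112289036709365316010435062331246245004967150696995783327537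1583628840365499743379035434460042442808721085873273831016131084429970550195882802117327630742316213808777616457180162630209583766532715667318474558844839571018717063941759995620445659907396925292678248206268687597812935023945043824250524035248565190774780482442055471769905577341881319802436992563473447840916714898910033301642122331054974455187190776009088086236168629155981142622965757986725721764000467744060912154398561066436911347473501697046163587683235080080927000046450887846929527931910433215031529027383206278255205413417499782500891352884529222212534534540432562897588921351951687289759651056236458115679617348621369589363155127608668482023599872908709973493857839620324837424979380650277465826524103881751803078745237662103015487372659438266076266220981297306814307933232292481392364921447860940780559337596519031031745686463550641052463750820963703293789009672639094707910128570676005758997547859735571970221635490005257370360926509598758836852505585569222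1260623625511947186708382077067277988389634848135752501845819791807401682461530061313496326575022677578603329959309292315200216924642749076832343916428299648531192347537356891503440505052000490099686256159977926196272625656208504000522303289616804891358967367192349934801547290352096004311835444009968202201175397023078437457960828858660161696577493922145306542648457260996541796579827978476464231806590306906195993829740214742896801097654983892567398128201886249737397411263586273570395971020652045028618516723281997549008998728054707993217755174860682871536724238291652075503241114703328322073566143208856127479501416278866774154785654769297995765688730460364441903980766494910013092109404182466350698194577012311695127221184985856666898261045173690532402509106671528526886165928917364829909078169465026938961831258837007622100363017537165332643968325248546743894261557441649768129970596526383088265408634283453545951763958185393926613563513802407010645619518762829225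910842512673275015668407798712604600310412876652938108615434265395848952233116830873691473553919432868623735142703354463732876118290624505896899913450194229000020136352553910228625862158590816092455449914010705051595829292358182423421217531544071866331894922947644992650905416944397966606033877719307370586636303827672528222370170821065958186669230981247814217719673583110860907400863328474202886013346497036911140389511263518300286916828074141819822924338196465919078255091306643400512637273077726132168690828836864)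

noncomputable def rc22 : Nat := (nat_lit 338176957388514628349527945800695635052482324225393287483273894521479480392634982629480648977589423760206992992900380144351801021598979782833702757659639220527688066319858631916787635779947046193108157291141642738967239997647202655536785102179841731852164894137902743015841504743673155436044685285055221548809326422057135454231808670815654481014800607994041427063991977777506348493057032863228120785410909602023763084957253485266916770877646188114837086345651915929106938411822991988175945808117627272548877887481671723668774393794403750269432757027154331251028893513985448375817349833800259429400562265524136021026456120788624385782821372395739085327152841559823574261074391430126012911804779729051829066634700653803845132391851946775688366862133134490444070636540182548289929915099741694724244192085679285301158610125428553034082717121008043327164824147686020750473240702472514779577808376545855815323538307329341396047948625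7009531019577308982617278259188899813684641820214544040960255096465227650483281111527117015227650927445660410952195711984016387239068341591163413163620062523819778399255139886099805578475517862119080801544960389326739058914750887296668868638679486433690816434485907037786952303200741613390133470279676718397744571126071414126011390810748612785163052991635542269988185722149955727808707411839941873498513715430628494705148876194492007200326039108006421442644996279616905027670337880167730676697832622442774425262738122904304710831455011886741584911367837552746679974293719870915413081537436040166166817727410931619600547432662852958323835001006628480946659084801833238300945093494293347584308206219722634661713044972719205779354301090313840715732214552983236183302857825540904086832648760443200327401782461386999112691702329016088296572484122959085786176728783912486653519377129822384757275560676203367450818733235874856546341658085043312194127384720205880325585455972789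8725616128597828028356341004755119217291826468875242317372476455397513148067892595907788874439945754534460504138433029326085440127548338558227377962988811133322646360008363792545018905882712218285347095239778981551574083699756073431096925256507345478619808240724226682535360848380949569772621153756545814227347581804530937678719095351339390209682355104475594669989487739915851608182680137882013316857567589363194911764634603487690607897993167389158720668535470240418011646416527219708309563505837725486591861591556430418992183788183931236230933478841882874946046450349630103621224266002264431431076657181406061570506098976294681728192630163168770834732635911307615682275944592452102844921049672866673044933675757942149244742304479956146834197449547650709176681279997539704112172895644825235414217751037538975445396800416803371887882510083300936880130642577308228528077510260148589358182972074857208795542700847819537931303769963932035527981646456741789947334440066456414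9187871601332844061519377522731713466564504307150227635461220946840884527371250935332776922402730455069492586432913004216242073361427404737225110124536781940111925389681212616744912523281240109107733876328318293969135622449604057444738733214577509559072643208625962736237209240064027430494512190688065217368608218122607322516844181871806902086065325720196559266601397510340114307202441185151911091002163119749543829721281809072323479295657994410831327013816407985728539925789706431532325592887177379586840986797471563667974802799720120840413771348238731749474480719454214209512270910963048260540598255074704759949099609572641986617916693716849350260498951121887701228681729745090279525289690594102074259483344357196946349743664366194335395020860059270378861417780513881898411846806795248746839515126021788298029986557496318629406540028009482773303487267068212941642452666538510798556298522916143054034462981376509349022905949107087593815633161694034034695154959822724534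5080317573317463874249972723382509773582946734998396632639356135627891176766311519226384309545672242363028333783546449077689610948371712354445513930581146176625035510657762591893080309135979137704416928942349594267801327458543499374216423717211399416980668565949600341454043765169015848958236492663382250974166427735131178485642930314642681793391808629169875828228729446174771875187180147171992230877946733260838582438074247471988690186533409742572989580582196288722243411827836501818340193744462747866128350491525008791739706096437408788119363982745955253244989656144557217182144242929953565657612904007143857756940197780523511613568700912772711961526917128463194635084819754570656775197621730263346873231756113913638350521768559999799442767848979554929703651419783598548049863479332013069242258991685255925240692867943733363284071261755676853728910716995021557132155883681802587741965273199059090883139473231175999909632654069299810803191549035444655618196219285003686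8248396225989422741991005183983937093303670714567531655292126128840202404805998930902978382637131270679475770564441834001556117540652267165704246839602911685744351863245311668461350656065281188190695890325287215453728747230077270395194189957224638135229861820829731260716650497022235239757627620325106702776015624016629446404139539600758915694697712268549488351836730657580953904695901502002980030097522645833674959972316246335850675862340246969822647495509215051811408216458344392109790357970010137652157120796625086379896950885295243820400327627423517846368630102956565595371988877514520706094044447824300437117284896867157490717314371121356442312648361631143750099783339263139246503101259238935190773688399535052680778670804224206542768728370479090766690487543214593741691590857528097884241243532267271858819415574727658848893871618012397899459672994090689291490665938234792217653314312084085320457300090288403921591698732599483062860256429935933784677719174017140209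5230918422327814257095070675188393860723677318692785662003780193060763157156221308360330200169804548164895868452684608765934147867578652351470220803172907065835266456549135583497432159949544274213651863783720944734785801273394823871531036071134565949257635074772146190858941421114757971326231359769154463016202834396966726490417496703777620832818103703845958178130983134537391332190330226465674095535247982746929918717846978869431618124388043906513279614400896102477710848033709139638172164917424292823687531540446199954897315184112687762034409569150052493373007106811732128205596824925915451018634460883196471177618139387723535028673441136647170471005007386892385218807128997976867861966217816890107611312906040140890033381070377878030187109163350784556488990127451140464534117798441314661571856692394350374981243346119020156273694243128131102357275572382212519667140097198623545861801249705855723608111221672547146409220743213433842960971671574956634281582676605742030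2466425498303422263042979104289918478619453689156468303540135081387853085700257236738058983171133209119372021987778570851812533819960044791649796492058490401919857457199244150175962727920649157923403386815786967989812988709161500000301556112496573360459926608134456083319334817329164723071797250861578153479808935886251453603637073021056360353519642151589297452282960767004430628196037977876173181827879595666203548610649856609774547086993745056892767142049784133266085959444967325568032616904354538950134379126421720849368715858746421709165046002907023356556346185000656830454477413225815056104717058404685195448201328184449003390411628384886209387622660748478727896953805129822769271262235717403903246243678913920755709141752646014953612358770500678081576531712761532265548105180591147578647054683733703829373453709795931638234223278972809076691156098731585492304589516166536279336922777231843286633828532809855836390087424791894853184151268930368660097653606418250327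1333530962616233907477549438366577847236461362479056854461129924690805455501721079751484982505674342725431657104461638717588527891739129367387802279228319180028996279463646975423666685484983974401205707512097867190901542951542867013384457577520249689035085470408413221867051777822853789492499916028664935568747856423694336410132407686487791006254406462726979269850795453117102325802531359566114488019356574251908126223999568364874068179777091140773259728036368780622103557916921102350214885306662608788891608681543479065716031811616844570230659896630372523799228035086624670457700920351363868899358868502914314963300209384294852998378130488902024068621798669465033275127769014441135614533562985042918076744432553878213381945849150344409246875838171128898466282090887201021054952633976723264531452317725543797412152652096911826104695939425325491674836359284967313236793505649023244699281058290035816473148637860778814625223220616367514455586061351729495132603981906996454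3877286274272450658867508146112251170671033256765807556804703338310375362615061366298497784779086586746793963492217948994497639674492197887577371507650603959145033080264706792880869548334035387884284680128520127237966476457427946914518493204306859003851895139028250163017909962043925348805936978700556468981566016505291172419083576493115983430183664821742248775713171382162865874638109459724821713935294475884796773998122643549850366951837314249814683622619860148670158950708202529795784945984039790970162990135218239300362934656845459811284005189031255567977978928626905282978318962969824249172215743768166642943266155301605682004017477056804035643018531695974814847972864564865965354987881626173590642504326364958122797912552689590156088175424008164652286098064289662198533987583027659547641824839364045006656505756658293602300568491942660108210180022476488719997689935621406507281514410115902700923466946107424207963309039162187524202763921206574302447275837599813527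0203664401166646545519333143770528344782661897694007024734315125374260405683464612133835403906095060109240908092509944020054751622243593845028559964554942967846958737474950666955681073550072627347604425597096739824952802108220066595713078487383898685093016090225148464194812728359789816873995510464705685220133643938751815188496205416516141890352958158335899446714315377491006222871240390001873385427553741379262788386824397367648048668037839589372697475308153846091345650652387208338297127972918556801679027630369650710113421726906849163799798582635338509536948307074415107134745400992799352942700912953020414662766201085046503829238309877186673711859928265058275879432919605376064493987250568121803972519422755498393626705435972476848389236993610175946352859081516320642877315679371904925217951724204938721376601841458030967230818810529220633696829663310484194555281666001153976121745135208144875940471234930311202062301969468991853655148833517564469649252243147931777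2489833267823061843126296778236794354865628755350561146862538036809896096829740265925473399206176332168467963182080431522636760219038863406881136855889151222206903564086385679351142728800778703780197236607497722901189706691499256437312604136347176314594346387817171105479882097934737173285242553575897073573705565729222164927524715469801061361349256270764206243019852307272085117690928382295951433219866008867095882589734072393564916581231701553091410496272728848652282751843989687775304032084896450208562778218655881565079937020761242581858379549000897108121179061529227536678994899869938506330196075248231398143685837095270945206500749311971963544923060590604712589015629183647455112877155019384795645789208736212597788914812582233986971318680349346320476188148914732350495136597112605852157829685471875150579951696084452619396346092010652755728512130843654452290775055698190913136319387750592814550530557453581278772318512024624933191443205836819492635795875731167491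4527893947580353390916359052512449212119260015836727368313023059287179307064641056715439446906123421595859938314051797183104331236452667393078549122026500082710252553111086600233523514247146354210133671087213555312294840309509357536482897498155174730391886712002390892197034937694736801027222399129913548052442892194222475330119230131105485839064508915353147747000736162039423714260402975976701009805334485910610513673879553260213512109724844462165370057968223199744429677293021002968671600401635534344152326229360843521517034904241708798895135626747424671115091074829826904437505765659031815689579516123599057823376915079584613057094602219519175533207615219887822423944654787896714960664926642062161051404388170307269731720233885830788284316471471869966339726554786858494485999993838748193662948753284474945105863544385448643628619954416717688555293073268108579892170318270072604298919877764167347226747781259122688088216260808652001275108247053941888882310614824261443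7440971717147877295658242039255493246167204278110561561347806069234769624590880227086750312765059482523735235274890890984596289739437317985726327109407445689847441536686455016128655736594583224908924160079067854045358847260203429630566778139923043500867520588198385522847803353055069601564446829558453268197779299401574248829005234614672381195775252112345168021615234650773527647332571197244543805941301094438882367744614743226787287781695961084052459289440242739998776804172637136102817671326820111385276732519178421196704944932872336666941397717244317723282263584257374751949301365741455478537996722083310583763232697019433612540594721863198591831620103273864236096477703077499014568868132374391203106879237829105539091185722340345993001775121448653259555648160273864070702437090909257508616962202829409782058398774377041565434522168492464081934204268051757051826567359585256490711050347350876306611191805768499240575124929475470050895497715700760351809496073835644038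0648258623573280561770462577975430309638614693953294027802460357015359349750236778943394888919871035843871293211229673687998711942844400004576845399451653510610101529691665766457101130559675864394815095810609295259402264030594226689430741777025028773512053367019216487279928446978549802757136837191946205351715727300537839559888278844617908240099016961438069746492972324810065227416259822023428747732344092063630443519480509777958264120040677872915027822434613162981819538382083082775800064450368272323726219617677614848944199184283345281389719332786120260733987427674025868124804854684311968932181663192138757423694353789059109161144282674123669969718957355346088328418247774698719492083950625431248728324564845231790138992057734159212454400509512359987885879248863954556261585082969066308337905167646902123096640206489011691933302901515518401792993869396605861699732898704009026002908480458930449968099824770326510750077725401607879265801639671220491888825272679577678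2789048329808842260507354213987045881349128457744812366667607386936503555294236803442903050693396372232560726710563217170156374712082599299066974487806835110604699886407715352518670915720672606478474011643557668347832428244501504892911158910765999316727873351514002425929050449366334334547329194705582851473084577740338398978271778453943307241109664134287488267787038977075959693991940642355891771888111156338969225290316774864507115134547231742804984535419649267733631792908500663896740159083503692856747852031182013017428972179026384285419736935126849889340813917354860673485857117884623587508430023270170485732518169183390635346430607251705813242216682280143224434727518088472888032812403580904657532063357783649987659159655212133449400346525459814610661804226815727395500913038740776669661081379995386302187502792889689366319627300669303786153750258123858469485426948607426140465622610851372982322742063182813192976654013515723826679933074419647657082008154032373374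0328699409347028105082863085691039610801087994328064273755383260911492236576712110183567526061904686461223806607749830674469692653448737444970624537143703081653147578825676046419827119834192719360609397806663489460593355285960498763371412940169561937284194046888403120034839093650841289020420105778445867554916876425479720090187766151627510099307511336148812291871374673945478512142056402459698351748693953032602758860340983823453070629265946839291236473991210766536626456552591848443350185941026151806691766701705332328269930997798713539082511120444844287124798347741201478001403617606462626199989968535064095021998655658676723830995952078615266814940129928949913567156364922239569513320132257462150013707077118504950084617055212431388251414358278918679364453271074853414910463756685352974500018391752459122159453245598263560972787314616434940646308537128362740046779243022922070637926089622083933744823453337841217577436527876807286861730840437250544215546646314576341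1636729874970737451166260782129806289559588229937610198548611718886884564903311670767052417145327507913683980886151986145183929052582563848358809697680781528844366345267963693463435535115116722225364708616658240720173852473332728968263844040298659060303008441253567157029064048313969571007509698371045742316831329862113223218347428891281299082600917337932780417923072362481494747107073977770389536664767675489055920637121065829895912532490698276690250571248290619740463415461128752835673402259632953948784931542872234533771520775989647875010951464661619341525254449098267769783252155659517065346761199491815285499675484628158403178328140305902662657733860155858841322947337893601721192749011178817550048780779665243831995827069476540120347333207865685950904840223636223734638341220131222155121518663043850299265017559247386988728026813322804371296688085750766145120464622557093540950237076231059448459153377162709471058912096582916147108257944298096140852393029694341376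391264156799193090592880242359269083513110150045818552433546288307174498487667390612619475471684236730447305511925991381571869859500140152608927703035608356957046441189228149587619628945494319852389141144961083786251842525524901383543834236713223971657015588067635636576627906657845889323137454648196167746498851228173876068536268888238373879875036381990214527917026295311600552818638091428892474850050710367589099221432564057339020634157044693705721991505035498534587167762171191436690522293987013358295639417421824)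

noncomputable def rc23 : Nat := (nat_lit 339040834790476429503061661553318177294524011253260360418364359629653293413496032008108444981114269306810614258638593913398776119068745841358924681245840662872598524456322295662913038914399240575285638823840957220071116474154539993309259084137005958563548192437326645231280026967693026301214085056343497015473447670976315712961101573883288923380881986213304368951075879805276523691021044527808034579922996798414993644099413123864453574682299658305438674384027607286762895228403999638366867145815963297724642844829172342100776507239099192973015475364872434284799854841380591281554862920179927663250444718895521398103482398486526566947648187640172165991601361414993225112576191336455281315169327096229654203234665183583842755492619936444155767921660835972965658148247806585742427690809535429170972964544093503574233322322166179596915691152236325003604459214313723167100995248838146299397996286450486091654336290282213711834570038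7254923700257673822148207575592865619990284696864725391698548516834783644635524695528009815579531944978881502640640051641366652819509648038838012575008571058567875794588646313630760838426659429861061198452829581662570431450362554823370849222897766293386614204413177421711810885656886300399931907231204643556053671624253591110182911434783975825177289425590027780595192893146647343820241610031540500520024070945399122890025558648706577924646788266931512784285111400154175394132648241092570525508017529220180133932277361932762220775922470978934286121487900419654769609315466841273901162012514766590214667168953226470255385990611481201730642879447687220737120999643832197537652815687769551532729214650909743788755460581477318624995097325685511354708718632577471289928036680362165584948347419739767773003236857176755839371360411618637999991699496749673374363653908150872177641780879562127674810914820469382907548662676991826560016184186581407070353012527686427877432376370555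2893969645936288096375993028633867442941089899335307540293041235453368531661918705615320977778723829968056150452471330069464274814158734683521792235603738969717712615548426678283895977629091113985993868160579081234520075794063585281396171883679341101915589209682196622217995111316282242111464652781956559905972794244057190343401431376999037813150738037809790482923773251979230606959703153297112775171447308091673477429241332841015904453807360056926263188779726544053498233303211789338232886057531807956690433776354736551510696376314995256043550771249143248107618258215879248696881368282058403506727755956046560514591706773104612059152377776154692876773013069665899323561257110638363270019589373424606553030328403489161508614363642576955317778010955756604173652919029730729591913865929971388162212616395911658605148384770237821852501388148880871247150861473254771662531276915586087965409196451693574187857219724675026169520334637351841797457894344147894939072969485401244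9245276271420342322104550347971046602756253194608733301626911348001467498060377581297473043829811852676669033010975693460706546596725432980338869210731188876465509324025325488890370383662172364603799210403311958374922884545761395294076052370293983136760044493835442052753274001790010427487213773586076929336680337009766897056233770492597845233089790698154911686000797229564614827832078119013922246450424579149916915823903578985535732342682633009813685530582788736319433681798693120810972400884107319330564576521498494557318480488911863131112761733088673874166624208007983514346107602278723371246301979177526955160258517742219012593458507691192884926363551770996972581342973103592507353697936696477925575041525104265638345006844991322625173621782412319442156462926442758844781190764731981793759790599594383273812142102051704309891677346277824416068180221500917438975186202929403906311187876526579066107550062951515900261749968968232270793415033395388728398144969490687019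3846317694494421523175965866024809475838991030565535250117793764544851450245016621282603972533439933584834196085861854181442926762611614974137689929139238567113865616550785515853383804028395971158346829250089767722974018023675624359413694913705018442429823463677650421638428508826753220256787219534898759287436548357312831140334044649012078244561218118732379747904734189730830999119758012236063099533456501933338455382063167826479887231236048652872231422214446687575024403532565766469411422341073581042263227614051282133822238436389256190118021639085999953627361466440425666579002487917026094937851858904277872310566716695221655982070799994247713979688675703121988287648864723069665058588094222664292577336843411296928355094169629578854755522925010190412087032620538458339551434006889982078471998301501172752770873506916373619298164395513228324856289549533208425957972154241669899092303116938751059534943697345321474566167261803330672873402247700404405549682807483509528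2434657910414417108169569974850204817238616342596478655148054583604129835225069381626173150483479123144135404065248818619155256292986057060054236119744829513792273861862439023961838807250866989587117433748147923137600327051979186431191129994573022359817337205813141913882285841658453819011894511057001943818700587197509105907124898646014955976432446853098672532578773257029343370365670557631009825222863781693947711950327336439468408111734443581338061753379351488395040241970794684534053479878415757209770374938191487980990735558527991536319938136114944290970104753377864780097183903640627805983210437460317064620714831898320864088438392358660471675516676437486363915850526397233832786219643448640981621142981785102621987943992617606609866411760667438113381451233176889339306375354657513998737721082452468499822131420605476027696531351015427555023527026220576460125403821515750031766541096323983401012689262853709568669683044505332177491548287031724021958338350576894785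1007019733403573708892242592290275684642817966332853944924324387048162233992034526639737370444721343353699931286473121111431052887560722824269966711487445338162568468946889044796807073272601685535816995297763341276930042622631993442640464379550020922338113537892361055169556909260513024424860614673577243383433198391128996049163416116460548024559211584840337387948527284230764058022745974899689923561155327756258913362484878431213085312026315408175482289527542296060339445250589315730824816089383943811080311479134625895751980582924242811570299234361892273936234891431161561492319564902070416006816764772163083532847406487406860714627854454671694405794445032075210553907774441565521699449823158629358119256523091440039167818365170481655131541121663538027752212039197589367674834901741313685161961403031533780601253577908271690305388412151436341487088823468544604591299499552578364123494813837260796517284341664014092768378866020329867751234011183626040346113130904819301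1642075172069156726262131951549486654332307758582922338025588879595550444702631601737568843582817938445110870128838619263415364738936421996681819932501136552638722291698340761746013379465487761379245073134014187621610168573349389391763642664461050026690694872716690259262551964678653575601379214043836685020202621171060316816007223459982130485847997368941966568062087529216095070582646627658483225860073345135687125963282065107901645140319219301971030100624363607902017928961662122309364138334431163643998629851044069828500892279035687583215429032798796101798791376472803354917505377977778404288966116917390088801021812049124591615605285056700726901507584809465742950815090216105471603442165582421124503856873905488039522027115665043625758514703153550995345314813200600064849921441449434585768467182433950496787715731309240642438736518578317808681900912963340719496863527524270903400714482993197877601830117197742804073622497722334084855225359392984710386165030083314711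4488705791075353433247604669403896300011992581341558565412166093867765849079524917408846078920463829173704033788344291934450932547958753389462383198505221059589856204576385287678448460581422255639254848231241955818126904634586753613270682731847827923527988951742416657825891422438400544037695920507397896414594206799044806197697104843747918020553885517135254512868221870144950015612386410201404574459889057426907588220188061781794147409179495926294535699669202320072775438803474443145237649848769220014980313836055792604743626297283193455288954469655710210401342991803325809406668324773446767860213050186505171969640782918181677538158266377631930071918245076103444696942772535261019159829282310864299954360004102616632999011383497574780483149637461499934828264430527742225684427044156284183701710753001710530984905297680167755104598171494047261207555339864562698913763751356718729762136770253099215515060284487785807460844957444385099258169566850626176772597094388781519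2940921418105658312946751538844849489234909878889911621550390056599274630716611550685369447195887492401711537415169021407789106753963734130013683772956585539682057204523966852231020874815926088085540430420142037122393187679151362996528254763495681427675646350024103309395664749581846816113808644407590828396454464698928556333349006988685884716127767082543246077496921872025436094015432359462383714950492592821025468827951789558322822666035503996762805377474027170827613288010649387246399301564278570546282850155960250694388556453270672583234488003943196929108610739190054806881566635965653858159733380827427260524466221724681740029338949086645044997404136084108264389751354170822447976491288382629091994548402744843281920482088600217057596034722910537933996560380787996071145910080579568700641417531435131467904437680530243371529417199681045730166133186805178750484301722774782207976438510955795993696901489838926229344459196996837037678840441398017577738958592718269620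1896637273846979859500654503878800779801179889040379269269227705394228900640597354334661714770360048531299741348390829010784700401261876550032662109417837029052571130677869280585441490376111080870640128363481511803587448428860566342476997859944733641882122219418951461967829397902783698189785471863912268769510774633651528522567126723324394359626549778967889068871217451754085978908897505413677544840273286100410472524391220804864551021904443635859131875903147466764945654999520026272613252142253154752114750223352936978314439315924411658995500629917717365916666681840948002494975518144410594806737910843372809150228764423808470379332477855532817820367482217345017606441487736834293054149177554019352104664174005090021765350659729969297610229553023002605060433556724631585972552593598046375125880446779688822723411060544854275984391111936819134599814583147111091334241775856704308607702597817613123751867450075339334828865410206420779873044689925100966418866065414846586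4372536027871244495175310821564058319387490048913073775801178807067405310074636308403122700947645169067298751980110149832658579092375336020732906051324867745380829890016407630120875429360692298775779358165802721774807870832131396967158094969694708735614286076019349828327116494845316321460884854670106676014539694981269556097286370109511926675822816661483780955604472823520914307765036697667293117231123274775778457570754884251136986219451851112552177343970605091761115917422502868995343108286714094060430866954123678880030929019690646175691150330909005261505880162865043697142981632747112600007166038791644110248447086056561606077345305016606903225723998050584928682596434161610022206927067915260059456070345877801745585305217195787773118824973914817958025026160788954771830972044535181268947039945101796720997306460010052624181276374524166993838627464771986087292359952914062347614201692831828418668383177846636047025820801819532891134078262696904146111298742690729832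6665146843991751035953160099006520742639489698087510219094335362167095137542964487710926998927512957546599479163117159915208221623475851497200559958124461929669575260397061152839262182354536283601550273764886496492397333829141137238998498646668556976861712170519060917448348339226274019591698153182400986369416332531381114908786051301510783894411389166792824006845643797620933478719263796011551541894929243941618129899902176946214023288469560080057824086265079414812433914006311649277312060674098418112441505836020716911066738058940038113134190540162158949359690389206696361607918928456489738058677051737667303635617148797993295242799617800073267658852159246949324086184469293530759235735736903427733421930880524756223312474497156474599532047051737906921434103850779904354748250457929775112547795164668662278504539588753315945777355727156786815553540440466887610297575412451695195684108879838341199915002447732029021822327823770686740595144429473157248677953624715974210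8359931460312598091743287992461171499516432967991992169467593600383001539164449301344056836870180717137534396713112326414304112593364332955786318454437486028113884799870813289242345125856448858210853927024255213352902158197437376060567903746670339527581923356752856993852766253123529329723844462214657793428140333222861052134605850479009066345235578136937828782315282183054562174510966219180143894523386092953753627153669737945657160938994182454967838865664519796893562529117580643938321986157038475267132006704175357867836421849096220145516728166837587016814845869057600105331865138249453009974865375110921422702605680656329001339086173178315867682514989028282731102084901465761011663610550396230287014952605788269520036261820331460982177605992046412566582435308944667788554663593622414464846220387609917502147705139584502919906009858490285894067033697540461585706389485063228082622404509636912771718276113635350056478729858371901272060131857433790139136059954591006105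9386156829681774779654023954053126125968887709889914877708229271815067736515089344056141515316837976205990400203434583613149703547735844377742073308052069791329117740290744296479366807524596350876558855474491375505823331063896368528967248679408987224010817217614936601520860878067428173027281446752736862371709696846563678212501572576565219372573312067792529476383353895325055263616100124209503599811725080999907901503879329957585023700328853864294867921568209626365444192424578591921564830860477284860992974765104121974973403940363696427621294437545923862270900898307326399188338881709207605927000758016176437096310389646982758161141478038042146041222392836695794446906543300805624495778120009395947719894702164503945320925931024025199431075414790896062737118371392591037519399890449515786940235884460873798176192214230063173211867672094235991520334233963348833077666120100768357992895258365901262239738726260825529792543410530759957047753744074115059673611486042716284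7421465782277339533750423395241990560873945045693993401270574410822416256928268655484490253238854920820599391315485641098585304570925590671559430149948737294805207031223362627848083750611999840366632653399301375755349391296844639035499414768411613979275643714865107353462057535252918373301314477665120544595037986541744731089395965441215729095357875885054959815076107416429788005853323907139726823252441173503857368029846723822338367077572273955636896398100198732568842557833810807752539900089833791560891605825750123319741224974231725799930219656042750101624806213246141686559586950928039023225519044891247668210343696825876450071684724664331991955842882140322059131371165199948095557968465297043873078200209942052387472272734754633006684651754808907907987356566303095906396101018944872965867649682924027647232817030971965074177005515505058836779863990540792821571931874173846271312448350650525511369794249368713001579544974487842539398416811675118894360801935147828276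0352015538529269802853623444549638398646693836875410877110762494446747157786258905363650518736236461915327662985454047183663796777372423328354279114001700109490425922526969926015592693745054129096414464704704906718171444020582941143269764092245733173432462116903323853633145525227825160806508089071755098492449986680527722798533891567448121182425602227878501703077227084946008222785852645778601571003756883633464752043005948151433449167635849679997694521917178322652129977599202736030133538628277099696290246282444161949600024737272633758276966991094934113343944255796787743498203947361765682825492908501574248238997752220469185836490758244770496529430290096891746884267814082030434996585558346136689076943480476632457913328255754409561213934742666316107453787475636149571378581388474332096252129265636036877097379414173944206562233276058951441802761298460517922659818289304818729362497266015776934895194019062749229691941966028672754923995337349450241844039259836956352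4474049463222354013954452747111204243253174337181427914569897817543646361394462971401118782903261472310157566021109264358661247670121114889142466184690919981987263856278985850682854294568192854779838068516402797123210630532945849080522035900252587046179865469556194512181224438390605457931233036052844130611646914046278835137223639324003191179098030281831064957451911473786930301870548213061225339271514064200983186655979239114427645955000091926192306975482054587046870087720858383889056830776944150218382933618476859958660691626191011843296026943917805263561997844311144943811503055255216370860266995451525382024421613285214394730579049038144520941078932436293326863719373318378153421241399736521324478797360490629718761285163121115330213223525880452133852206327276098026447900447517652292978296688813521168931105970138858105112769058714969750986175530812535877983425553538963913481929306311369324120472671432029726002491167638085853620085533318994989274592987839851115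881300259018037075510624985716660650878190943631392767967084250623145389643039465120839787784401002719270666452448328104941130101399320848849578347569417599129714577464862858086599729412696387680490842886077351412787419301301364187283718407092327995671326139331774766898240148420357156331964062737679566178875318713084986736373952473893400298370554541639548082028287812281427483726830607073047555080303759080732711887320197462793906680329001524257903549207779977931154282975020802107791383087478224186144420733648896)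

noncomputable def rc24 : Nat := (nat_lit 339899070327435361327870377115743342074678031353415008602744250832911433256251205131679768153874531886125275984058754501782708680772036536794106667138692386579506442625170779802292310916056982000064152510161282696229019521617032633658672536908423524165261746822967917538134552305928242403422679295401540273673546307729980166944396478663756384330801735343998862447743863723497300516989794242500758894065148863640593947029096461354947450229693179536915026935614269302763436106676442021225078916305296726445173285782807285570901463426277494732089422891487880650254659572747623995095523899437934114372289082033477291598630621201518251408551322720575710414373049633496973183804643473671040162409426204226355580598780646098596287914991240185402403065665527378663549492467437624188234371257232813352742616184520002118444352208150257457350349022657605908206344953147400603658180239114623477830015215363152246866806827466342328283461176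2201021638249131436523525040748720745959659022739398865106205038416758658897358768752092990993332088021268449855444352907772542768177022595570872288602016827802940422231824755805201776745337486005927394692724132257496166301262260189501757366670014148801369089773601502125996963464102162195167788722813747258597159464970443630136479270639020033208998310950934373757700539532585484968280502727061817271646997367130742441356796686559068937433436783006252592050960195304854679136440739009351015728625396158039954885749263964764456266717503698444179769560215669583635627455277741075861172663846375128630215267394815564825207020599822133610450925140929626133247030639602181803346084438388720179252637680492228165681712084402491805025411941670269360550217180830812262060590421766117227947273810700495352706242737326145014141925754549153259244380358252595797457410173883533544804120292243748365231373670139694290606030021290941885601328749629658625045396427401360484677919205990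2175629174061456982485801241856842098332500921561219785085193062405971201119380692658809351386975205095698889068974770129357138498978330631525862876735227611866155067474982558597482819373639691069714595130331301458803246322564978761544280448015126081337806089022874911749694227279950961490994048679738029671394721089254695515131731565523325837137740205876987871828553643445406599131083360257251739734642473761894578265436802930323992364592997006334099815005771389513473374550759430804638740421810774719803426883466386202891395708295596986234952892856236507679593584646101470519505763412883040660349671502851251702486484944154501254084104873607845426585777473890277870996286479475486372546288784095586461573282925035365516509243682489965620143610438313435360558904982922889313210487715106852210981550209656683137373060389114763244028526044849167375834380795088241748026424906366761960313934744766792879304056647345090213095395177620072620937884436204916336650451146084029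9786243781421351179158526304130928597332413644041262804664758052033869528123456249256088490613370328281973508787269110401408677783215037396238738204524837234599887676225738029882082670271378154229315054488817157967045385377025997048882266004519627156572774945817225575634423730651890808415418770346591185157307579357647200993004540523349690771045545562344691630888060569036751137223432808239494968112360061103437150268705937877532307219776708634490939289002689621538044799670754354045104026381279792734283853193966498223238867528583657419844495836812068623478554195473840504386601356912716569795274400469472034714591230652878585717065997762187697034915694408023733256509976494362065963707990452812010602130731102035172591398136114097893920864053110303213027574070952649529759084492251024687071347435019132311390237555696803618902046201690590704807968150663777072006402353219578518055740230284678828206618517768510460461352684209888386306293408295999529849862806978415188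9990260546537690591656666602809608281421366052238483247846890006391041886738686259342817727213144705657619896938026308519786038649141789486718042008164753539650541291332179440762173977197631113957606095141470442503577421839596995387047183375821099607870155190616750879461069701880456945340029660277828277469356261437566494764443436580010705508323109947463541810312589149256309921430639615756945546919347352190712197371110647014238513348949097437657719578205928841543764050973588872132967980542537958740572657108803032515756503137976612860726876129023703445102555038618683228604295411959577819765152423723407178909311251668721419392173084609569105926173582274744629622993637586568376670447409156528734644627438918739914370918492422204286572442084080919034836816394595183587128365200008867311080032871611525624430708608142390155465599825827685936994804677332846243032519362866724399804590616950777648464007716969831192787020670856960287339654360792214818868462812673428455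3111172665128410424358359233484436934269821779182202617589107274981737029558715578573596163872410893902771740308038650400444781917252439207226568093650176231348803641926629960773362294227248161003740289138062063343803942046504041970304309801166815932904011619625607064027997934256012524578379205335575184306615959048396622212195702729243170476323427364098620552441405845800635352325184634058076897149015342119935172471355450082118906649499211528565657901744455322897513221422633128018383023419102900904226906004986788934106422057361694954858934761325477397918018589497660118262447446546064092731270561114633182276703027997879371339298509693013103845234043362114201156765756175391764830214035204732383522724455108184705343733056905958831255202908767656165591777598462927846031076871759064049425444521405706889082026147083344464730165698279548437213118264796071320579588599246351481586529785700705275581144692582022134937055378198852955588747108787108585621593907030910274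5281762658870180097310043655853228373889618671998124800651960279222692670336208848480197381595595064733395904048509630951994009054314918731889761878325334738346195398817713257892815412618032175367777975339936915956072090724418340833681039507658533902774360022720206520970124439877446630770101230342589700165467353142053798723747367524781288349862782180606693955251892101386058773547994770018081965250697509291304641368342434505214703906980168700371771569399116191509916949213887186082136571217668682622045642876027017260961821201807973161370704874193515609453138614460977049524337328011696145246763434176234767655583108412856449701980818145488255360665886676794650330148285786500754744964541900367065859349432765624216382398822317407787953897877511433066185431077148555483782966246458941406543744070077765938077614820147516234871224179181831990743795147093002937897505486202996589216441882687980616947414286567581640751026834303418726160507449786386661844056352798766472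4154718157118509915661195494254757332575734973122949620866512645666049208027750628086253632870142109772788980667901234729395297074549107488359572531933639669966596293997653444674381343245320458131117344172901236863947077025640394670953644773086323186018709767823522126426221135981864447365056133947868576273045498786791355049712757573093622876407427570999664328172610896277223961452283011511197730583453540902411037911011200080226664165523709277840059382481954732699281411404381701691226355881976157990181085665096148009955568660386807694067880013241796689391200709173587830923714221477484247059247924675488299568949017834536030889446840329693969226696767357563870158782481736330887114150401486356036400585468215265884654370598366963657501520943280988017142446476619007677694974490615369881690538018412068157359998054269532915918127512941999470666439509239276013051913617440524851842104656788659919835370332697475785599706077349828973415639833562301330879288118771310390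9347181234416518567378705243382119713505524130236156941746489610658870195230123371597195771563634869404371266136576903193080463512082040440288152589403459633420552687252013534988749302586789290309320553398286622811177663511456972393211950097259326150441270751105843815174552086372747571313585260225453498499998942684325955659005190374470539336913262135051248265573574200222416192402665820847778458018362791625937996622888775663957266412217076133028805561527065815901500541785191836548440913847659599987553528542197304174480445228435662405180570974783281788732504161500384493060763548223849757082866072961521525842008446526190228096177866550156949385247548156172181792642498158137931303936998782239539748886244441103755497838732157596889098871973196530207103809336984257709715465782440787118472723857281788560848536068157877829077886208167418371885940936445040357572584726449714173829152916337849760836051849585081669717101655286962238892088192422645809921937705941649162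0898792770722568400650274161605221659498256376352475092197486728691562523989532922725282843369745934884906471585279652249220313056521155187895993664821185039974868905636453542466450133521814707816293836883028585828348035575192862805861081526534274244736497928245200135786856236355830371060726909497115460637790844824071916441046985330793802495352131513359124928373030682038220625150405628497606109787440722846094194830462575850835512115442254593562896804234301001225320962957533902382915363097303502648213537260601936073005058439558668648281209095916841173405118814590663818985907843883224946233317884803229067439556806565025082933560286204334216147083519301421140085868940062187185870927140135649800512349935695087008653244034667751033926924351205903482173201366906051701258597176110671669210112032338347358301361401521405914428412907177850826575835313852364414578814203272148014243565644594452566986145575047584769177702000386212702139041479548094035891481174492795466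1047679700215756181585457732158890318734443756543505857576321408149846547532151107225787914075146352387920649448930014119911620294354503088640558012659999609866669355942123139500857343412498324352462108021807025517813295455420308125682702604858152501855570620287516667439677002393504628224140862842899136780706108449599313050902716998931565820603159162235285669841888423923373679039963337990407308928036014069103119020125893784259676865999849028594199866346368126532669918781223752073476784153019058273876953711623107602069482631483311903820911854824759477954791018772580359127994147732091420531861777484011564695428056928239667611138188099923267863481256369679282972904306971599749280157531609095092418057772976737355664604673611629066131150348316325385862628663024023421037274021294719179779784614504605190136327467216282598735152626951802146656474866478088549569185527923815304502293602481130826455879716219665181940324169706070850499291447445932327651920794059741214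7933173148262274970345549653317738234316563912044271807433397087879218689606551240488271657097317779318769117885714100832393495407421894703842684369707528126331103844020880152365064843138712748573381907926524037087514914548009230235070670646882442328806013795515754211027240036069024367987792781157912695182589287030877262186822752712386961557415978001126248399820685536972105628723880402642385522638409626191793395109845997916340270231000323794468872477427320689165935994913068453168149717320414930088164138170095674591524943537338739339677447780700943340583031769979222150186955201973401560126588748549935075767327324798365968405608400368253896271152144867575664650402783458473307325108320283355110604944612667998340945203935124755573515157617951883860609479022235090161686796814395382169778192582178751319851615455719802845225159261808083667860425011708942002416561193844273411964317392384516314456746812380161287810690232653871177112356980804455994020076046163970309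5567708290565971024632405735458504453495332366225703414354796863353219736486568755223065348204427300658598836024539274877113589124256305613713165489786094750205581959929719046807192178292843614862000427612718773449796138659107683046801903162056530109360704169057059005808889520025411191743074741664904699914265132189311959466829277374992881198020940195333598701889582360185391357059624155943529998302212564015120312769874539073205335098060356513880464951391716649788998522332964048323628007830406918493212693790923535550392506682628487275739074147982169606585255316663674985882412165366974422352981647044350064923719380463216718433667911240240288489698756797483387939702597671715314332018996827358502009000138406101322692435361806653854514814786397019267259701323471194914275322025072099402594268256244164084506893332939636426378596315964535258164504992466760404178628369232242761529792585769034078094268707253879928392599319209737464691366662477005095622669050796595866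4608104212914307634151146303149687994453472354231233869601868461933253302382378774480052879247620664620979512464231603404808030880067620078572622629273782883672481506670908234525580298752896219355547980775530505409658682951684872242063593585534119020705608489785976138078268970091395977204221407961176137998292285006605759413455693145144522006159530810922038491523892993235573262073707602718935755962788592576087298624135033407499349014413268496557072360783735985402492563365845432283929202508116476440056943282650963440957408861258683584663330808427619510216850180728094172443640672764114926692311504548226167859992468049074875699224786120612401773597011808535481058700632901688273272190097106323936685409712395310603732276901759430868065536459279440730437845352135112215032969032146500453380381765119393872247779928515305194539329395941546382608449907428093123740833036539522502087183824567399829505660246891612144117098447010167287117050710680130002227189417272863932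2020637038271500520321519025468956412154999161337305886622895178420170362320792241111445646946325147606088136161552596810474299010553165080204458097283349926384857365351315592894121035161142668270263002859150946805254070170809979296401491309770777353124524907450845433636277427834101795659303284935935145484215051812329240985324139627411462845849305147293035114215031512256009747723403054703785705426013065105548308474442310688265588434555552210799471001854745349400996474021057555643501166728286011010190277228124545667245422000014422746943864442130728973275695175369816889088176627635391851592547707006165930335923365400511953705724207200399094772300875092897592894475994722433970298407217621896765673460812324748407592671312777569556718735378144225425900152281609239540795701789689833890287613803994446799646110963301159120714529999114818115870779065119516469468944997749925877418452971992825263051558201280398431293233357377997817725307331677838267213785095361904710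9817277994393552275648265205313842160823972634330803125128714063988234518369286424273468909370400205471547879059359213147338769176551879888509096830072604359143660900772585479998926043334265261080653769693454940706959268441681635297705598641902667178525410746869742363438309109323096109791263408975858360852123762901699820824894714414890515395396833315977292969117922016618951756648278465409348836162644037176083002444731998083863208525537015145390851592536134669146823444298397925209243627041840629691719591381243410667815775011063164172711278955456940291622648383133905729028634948151100058779429011397588218170220454725144185399164936874995858469419693090575375376431195836419113180887366542151806928493125363453372813936614380816486355305281406537923611693191206925697720895106211418077391973563506874764963941638970590001309976147773278306419839178326169044992436231659421404947332641149372393703963637573405784687384241375398470770515681319182013217639191039349891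3406181612072316702318040305162516265797955265940282431510441027595599593168657704192367357679116694448369162635445513841417874260447338145245096203087885820225319301090547319599319912861183296343612446278587504605814053513379485629784490168984931963117440123360866792779481794489747529893997775179032526171500115280608138167920927510808520464611529259794587771379136496552132614278721655563996493233569446181097642937322453641392138259312367679049953624754164067422950952688069856037154271358705743216128864471122192097457632735677220608221453354858453262579955626530941064610858958443555999235568489484505819189724113931395016417058698109816890060641790136594755419587112834621426482969553782965388533165949187628114748654686677116531265539594315456084774879958930061421230665568097103416673719837877542271872910256308670595497221457582122564685876839754495193102368721722307422931942795789361781876336707768014569176410225529408037131018307787326871605003098164324907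5874998086460386088176829856304342615879614788474718007078290367836036325792320267906676432419492727402099217850700128886070371515879106111388608360538327763092992565748509093755609191945084610438735259294976244615241351248263308421609535572685097577087005694064897184570916636300821492703616695674615197300628770431291098058536425909276049549938546595554712572328430376094930991894427796440367262477769749003779504155143801940549738196656285914201165920961736281290136311230782038804543546601331533804810445370341383994402117623821863065219494914901659846049095132960944861247568157399287351556718685710631118346926982317249300932730308809648226632799172259957485583311205993369382574577701658755716119351433585049900293318153178666827210260064574232922914871776928893410933037223974064743376510935343091942997868562927472889014343698846890676895843378300838866957487253055084209605736244445188248114008798361160690390465398599730214374080949617186247732884046861875140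466742205468494212873303731813146112335045182047898918955759225215976177932837977818874050801421756663420141443142775829225782955641491438437444042740381258481494539087946415099033533725759534259700171634272186988190449426883044953258487987192215200617399188221272881270979065575587928113228433700960516672386014466025803794585687031956501733951369972566141376889965824777102118306452197909600574164638281463453617353155685357618210221505526209046645420567093081286747870863123936107743486736308272183559279691694080)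

noncomputable def rc25 : Nat := (nat_lit 340751587156273273127282253114419971832936091069021920099138274205658308229866638438082966402737762212051281858101231403752552567722103116658204420775042156038750885613302923699769447644487817329197607633381117989306350792019587236306162851493608783890193011144868415771386422195530263470975116200081300404268575544939720735729701181212218931619918904604567030264503262791385777045396921117915282803518514287738270690393940686190153167911055425116067874893792051833390115728012379802781503783600037109440669236661020792186603012283832050187721616095489106232051817284788698555540589066345280017468526687603798468568822299750993486721141116469019397080577952451827272828073624584446122517593209159749994633105481407550958454342492430080339140100145616306509333138147417758445462371130788425773511789732541673875490994684704990948537880820604889549801613022743872469249610473037345352347241734122663712439964569794893929642591156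8820614412651493409073521323934310601859137494555140035265823120869349798091915320661376310946935868810660323369893253756788237268373297702727959768231324380754981442862594431072110681641820856729962192689472646120994854184693587653891174285813070214237365699032865802645414307593413390940782163522265919600873982917163397154476219942258273493629722691603342833249574662330658138838968817715060812172278729328505421201858967283252188678734529654891046165404436483390358016305813661921822503224917730239755910665969315378801701760742977716222478273908654080647712492570330125230734534667181866025312455196536344348525030709316653059751243124436953631781187937436976967235261500350292012925850866835151097322647134898546332218027956861241956205358236757641934314697946471695794356958271118828648509097490137050876417021682909679252361004617148381751447613771550297123823936595482660624481618881321935336922863917792104050273480996862838420922478878428705343267424543332792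8208170752799800720799023519162377622849611673361337448227975122223531059307010415550190134675645127478978750086920638292611237120710495945950296604632858796675954488862049258370089881195270875244822211569168747252681122141664276404742677925116595083559798119287086255330633193688588121768441162524477219737010445958155714276331372344650371248372486622403039237522217745982612649205450746946935303724740385670049741762041630895236325612806664104417895709079026464095672566152154177903379576959750280262985659468967168705341268145206553548033418739170819519503258935027170352038753798950538373171366422341004190106860801669646030156822527175830843586368932652693303122907791165113662624464149140451128876592646171997240332211270751525815853264734374470640186660526515849738520741270757956380486758357100683408673993939161167315236704137929437531625991716944317517071264538093792484022104749731011328090925927798406240519935355426737700317252506814782456030177005653185543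8191663126134821395693686943621755497002878104801896832604299331889535604441217001187347031235571738193386135594367241556808206468660753629606681718196614487834317882341917058210280733893329273005101223056141532581255206497946188402121249993097105129599185852407579893082714578121461673313553135862236370913145426995440523622541981055657598617751865358774654796967189781058420565283154536353994337189660625879129073675640923989828216197123387067703631804397947450759445934157450615079509561123529706313389520966210378462729879907507215722824584777682363909016866336941223659679121494205215917743865150529751102963454691829533778285461959843347391724902056329920740800046026236387449905084990129706187596029519414238829669747338431505308561181374588485843976598137822122761563527409317830862744480022059843624664872264444041903999109548035182105341063739428930214109855689054027937087370377213058246642446893393660907611520253859181396929927244910799721275980910499104468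7347538900664871802118909280733401335006356299244239960298803119665163976444579972601942849121972800672959291176777375256512903648909013635327889372203324633792319649203810019009636273825732110990128059392049633582438320845388410290740662714991837436411416647594059142169758876321165924520357861734496121095197922146339308257246344854919046476303121317699767003879507646443787507099534707737369228045382707582629775938430538611965310710400156949584879502035810081274678663354503814922099216988974685171775094452694990655321879178614151969876449908687744246447982076592261615466371141199250070629749062747850567665296691184835179422779278912191386498713363289365662525256457862374034929304327923706345198799404260586749965750594850699171575386315020642389332879832390960082832861462506386947573401554988643102583832337624286610835227012118306555750107858605284783014185774770104390305826797508032913725645472716477631456330997663005942264277416198606755787099350161611308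9027523196663107159075603931772637198304000561592362072483265727098976764717295519154057589659203946236855943142849418930487445389144914417535385276159454121703058451844388143422112336666648206261284259748584441413417238432634127737414825375007382774374573809888533555510014702264445497577096105382428619440711298474796309994642704623525382761137410203126486952450529358385477852046112282953808853451093319588163396494271005155180900431747259198027331241318033952858130359490689463108096013526215510191052040669282830144757842794529577324894460118081806556218845241847367207646948299236055495566029844012497841201484620388764134156551741524226514961264786028592879745781767357305543857348307708527328220761732883325301806959363668854028016315720475639322864532765421052037363434215730277897380216842777713905773215433868819627880812849350603495407939339397805242802986469861073056038464828590082211301184534110574386625584878427798579629644906288836993835903376535305432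8437258053743171148721440809602438995540383982833995313096336100917723984055845731435776724612824775241099070124126723593978489439537939489643744563486010000274011150027156424682196837687929576004793242597741594816744194178019746312647284342996976078656269795929331759848917446905769457242778999350113955544906881058484685139270577459483670019800271545544578758815869042560132367378853094531984101625143065730174961073808570645004028109031747432823477522062511941809856829423370465830250052476934963884557025074380931988406033630494399224784135741670528001928401881154474470343992014272315892836750827915109620104389454242736652551996430812073405131964910363078700956919337024834018708732269269100475193802616187242875507158125110660913491963964326401383755253266200689362021968129792367032103125091432903629954277670999095231285920218386258744178846313059360195459895703332635724446507372183645517040038472405792215899120829116146985150004992725518078945462160526961815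6942450613405934527511927224861835796310805056015869694111562332768189416674260230070179842098015633901152372756582482150751175256170818375754506234756656195279713941300932827819246344908279837762156226894325169429843526157965648370829667772006820193569769514013445719561428494647035520477262663988737483764283801899998626555525012198491385968951446950148679539459956423183997357561283335118760842155801536912481876690310234278382196349525079641478665254927263623473346620260255443559857344397474122526687414527238584552953558768374782791911013910550748438867159689958782018962014380397874719512467774171164837873990751712070017147609466474270062032808105917069435790844770353501023306299107197998460656622608167244307249676749850206532616311281773590729282683834838127409184487563201063353221119999550307501446226563034269481138472641347938560407256036975692202247373227159149931551652794608386171122530764103355238084821369859778601176794916373483238078003236086915282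3325325478533991795881119096709175531255197941692959404327118779932046486920382260464811232680748951247726704377044517296563629266069723368663499726116486598662366545743353907372373456687854282198287380549763722889965593825641740605121647641378610313713375504860479853981789317240876092666978746918035332054429588621400626819132407219945483993509009528860957143882036671952500607014604180212812658239277751633788968914794919008377077688750647423372138885917966253890428635624087361481105476281055698321014983621745950460370908668546567390558337659583316602304981095832919913749452405169060267373118062147040006063148858751558062706879440336929337266103286976046002854575906536640572432867048638755345733424697546119046537762238229764739957547707862355224947186856523190056745419395163964285746074362570389415966683802236432542306087861026988289715468177757733938550293912194582711499934665540866975264714115691612634300340051594673422757944031100957327695210624574660806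4168615228174470761884599936126560590381276494927386975459334653506845518663539848383248464135150968026842767156074250361172480637980296035798659426993786607198170120601582200010545411088534320432446589625119508015653774734120389893716915553283086737057036009016865735819681451685048785982494866331144908474396479042484864826330792210006524656339039830440824973315725593916930259660658525996677838434744797087949477050580080869870149152359321619364048192474681086820813348453302983950104270320849083421698891182730090941653362216957371933092394478798769739429495251507547327559895238095706841269973495313520768639697845225502105986868229728644902758183674649777449859238151035762784695160219434463669940691507478330787748781829243643626182401205036364674667607874943007808885885838040698983897302386856944565538185606828047340531909867092597293620934504585493493908342600817230252215772398296550224433848977837497308211335394545403403091195256015528941970657660436958088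4955586237546458947477869065578466497412235298856002651599108543832752769738880120807219116831970723591305324351833551624708664558778348976677043915493817580271971290088080066887210788788787036110920894766140145842562941102326431745607013000600624928926892925185802956128396380289813435391799844418142976206091176410206387923590567132323653615161456992715914555208159935219587259430004117235071574742527616588065642647972457595637143104892062963473395354237305292704368394484910753674251258202783839331995562284025642354710810651601938706315937471441658557049610937576140013951295953018949992020537658173409462109601307441241131992196119393917477246755232401924828494816527600886696896833360270092694624266821081017914736606503637001721400348200453372997069651599461650147908430303076630508911828633194513348431463926615123718544074142721460250283701057569175736232380620950977537595861304757942248617073461073704025562603325198681679174371002325328740574901275859092607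7113276772142669220256614684165619736128550098028073811541953726277465684337181174830592116224293718369196402621316821872223846496533231355872722632330545401421307707627760795631377586116924554554588527387848723387427802466765521686644801014500107258549260653463554964563364785185784928571274720604208144707075108779596330059969874862794667117329796124818399538996774747520565775986581452520657250004973804948711445246956328916508124593969295943319425097585401096045423753139956781000180090205759443768096452522824618394997838352154581907767568931605633880771357486091881091617070823101399710399806674283591278959162933207786078188610831700827757590309088098565048629775994797478063001661364448228799161802595329972543204514530774507796847264355467391670264519327142232600437116562723974661578484970483289233479480424861505731049219115161153841667685050991151716689143353353067162517448595065706478274204323981522892142589900059607101347903308159792370794588880597388999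7010223355887732945131430424531672806580856260446406768855612469757525343234875836475435325062740911645456573962767566175505820893317453600957685261665970472452066951110376942134822720618240625056159011557648333449205856558273676132063386896943021479190482524227965470879384882981390467917987276911091771919796965586702099755682522319226616917617273868243697249384580237096741483834608197140112645635456075420263824962099866687177626315322625637277480099330137640481006946290137731229982659865935364462266969151444796499875507569656023524757021128239907148990306478170806063923819724798810635813244247836061084003422092746068370327614244154366445230777790228559301797011799791975868254835056405043944675933052131922902116125115049872582434908104921761945543157604258907732456075959962474322514460862796742445109029612381138583487427072023140064565016819229723781600478143378575443431060249581700334109978229817962665536758905753520106206848753650410363368673296785007372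2289788775791942319491710756360337653956151600437248710967031986316896263036097914386281310801622439060686641366316763613333203979576832690147116748439672970788104547031021250250414324738060642711477051227516735188157335177151556076089348627130249991577509604417339839324114579806978172525519275033739145641350807258662516796803963794986355976911631295192679715101201461336249749517301305995087475111541427205553164714427452927483810241911252061455209045197898997798311109514847564476635324251141010086364453512459343478084927167585968815176470105268550731587690605501025612985647847332959670642373522817720075803675753874650434130656914250778785295375099683678016388405670241524871779163851586852334293796688759570042035110541414783167180437603343666216153587131426411303036743352997290502952957999512111025956878339685038729161940257156255984835084621537490701848433355384594596970105374116894568050559908142412084232871806959491290954626575401968065040125851274497074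1000037348268223391743766000218840009172280372028173865341439086669063041304514729303376528688871395842014478749773021735481931594342279671515718342079853500764336202176348042889532697383006730929366458889066135578436896912475641361043433511069354693818134836923217545844804440302960483184683695639120641367605324765747971697294831466537280280527317089187212747463908314955703589502581922173735448702789675530004127304357511189817635323791327629103638205965307783014340617932963870580707624476534904074492036537202228947821106220681117879109927065111969933422648116861430000496966940312934196933804052769922131082467919036297019187889087071531811317056482530801028888601179074977484866039532409197729770852500778697950178723052821600076632426678699265316031067996266989560266660077553575093586869339179040410943442114016564615831065632114430412422877279214497342478237244178394993670008732446935309067896309843052012116648162876897826414635995714792411581231223945384147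8027202359845941111038831533420063083430557638021345563439260076375194703123397942956708511895960988050205802054093867345625959588264390727099344114314644295643284346884173650017615249578646267701556444700644022310519285347828452242481483304265007900675825758868945368245232236777202682002277413757509826346993418471944334560176780330103122334503098844062973057270456278487067579515325562548956052524053764476004155827943675907521651139489684759078564446938976145034038498315107800026212702600469410417576600758278854127589214007185816423907497491921935529230167794657225067187861948040003538434450301020673546510870218929983500108511017705728611947553656247049961875645841186625223380622362042647812727948657930446789608265004582648466699611966886020410511863433064806499413971661922431736719957097182379334349758155760578466504925955983776482445875094890170311412795008458848103413331582164196181490003272154362436597240991548832783584244174380034936705546363480484162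2562944959767516529449029408959456961005737803168606675984351213226807334067477321460241791295263944039610569076340182995727000410585212993754071965546526333076038935382181876826749625656664276601666731887143564572502765870396320596959604559643848315177712458765484738496732702774306213981862346894238682637651501147132209046371452559735503820802740499768972710197177834212234544361336536893533451025475683860669074170234348811918298045288979822045873428719482352502958212225626478421709866905365467650443378489620311456059308212652013931588059963505014902786003273757750848053179354299707974679080834685780104556076584559982936604617183363949913743866582002222758782629915543067704886835148162679511730140996859120764752375952410749562230727045582245199306921201959285628618612071775506803773198248086757027300297081605250546709625749187294635141580469923810955788385464047321311624972672732084321600756539643039730456791302253004982455173289181111944134948355490500466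5803911462951097693600250958085015694641195524903038602583434508252176861947498184352658318337066938735917294018451819413419075492370826851795339661273862271441981233948047464329511275558704834710250783782065903454130947024291185138512534584433136550189449941101097289375472731321039998384829668516229722977689997638121559578550509139631529990493004743379301043465639279939047019894249211478319862620026947789183755997114279561180198642473406012820041839945528573738128072358750144924809305912962773554539000443599867057885611067197647849059200130476519931742421986332897106255411574477009538796565908105467310604898787867051707881002272836979241053659426018205305524747298957944511550453250793300843070150054856531404418882371309585471277381221919952281817345408390920223023282893740976024182171894773384965414888871434573652534226779188815067587120676398442426707077339824807111982718182995994036680517978777853427108872685535566185087178827346906524101023472284802348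924528130613772772450558472629280418994749156921336304677238265268625930409547296038518589810397362615285021479063244393622424770445256593861896315913297012057487175262088474835470291813824506567417171411946177176171862822291131605408415782351207852305539009212627813264920243935066048368096888368886832267845252124887889074912938712273986849113195051242163446345401252941295205153696534705816935621125709702642229098130333903414245086328662174362404560678006863016071711036079349167993289089152996688985551540322304)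

noncomputable def rc26 : Nat := (nat_lit 341598308455307485945447371220671650776305829006342524542545680383138846661329210082744168825085434162989608158725130461397862588531749483397497351188209957343071705759607852949165885739279807937406235157687271136296533134931780906907029749340931476591120137046957789352164001615897587128715525371879514752853969681260393265913651053842291010345219687053608782720719166772397786863669338833538672454584146557769030861853810060908160276446684389046501701233731718772309629542959167714958236870447199599424694282470934837597107887352412541213872489504419201036273223082686421168719993634681524832335675622517231021376783706768049431585054825813790518635897848491925052479421292368459801348784386252492384569935009023990179695277826494087579354329093832512127160707012872298284160415632258241054051608608118968225521356504912731623198981313453193601768638290349294068831031712517008330864336826688305175736454655819759855200248676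0233331320383326146088792894788649876213981290449608298225830101729970260934368258250581186468993517435358863120228762430922888588158071752408742041096074362921458350745474338364674652234530899144213593636739230922644130770341568839143066269160526522131216257759844474136979671158165303977701446547063732721272351909239157123449757989530699738305227744266665832377580231619128046039397195932110157871072038308237666979806921293362420959481920050995936547657289174695326898578249578773989450225837963192773223524562319325817735435550082801280260993243853483657930951061901755940207086410232848379583943405813449490486091500951156714278339505983269169862476689090085741091183139569164193588845555158476510600283607076802784413023549350686709427415477451774974799528983547585521758546977458083962760589782973602310293393526163573242534404910774069296900258599851902214237058469408147245284047365757135906375586203202800092900707022060011163573847534585354564829683182757868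6965402757931489073103730140324359457635438327585095446973782868630078681315407435065409668176883160862465037538094026537302921874143519993741631862121944809793939677643078404973801067100890998145153578199970731923122770129236340455371812938044138712586482962328516839137915045352046171576573106025883445623369081642589504497915289943145043050726255227067732196638215490298874336017970968895834743433834486593981080295200932675417655608591502851884605208133107498475259061082183873537028944927852735179032937358501698921288307869192743547723033121026621751828427335642836195923723905492550521772650071104930174370445643960297371923798524666722843362894800142237999639964702234588833543728110528058310042385393084909045059077601471334718801536416330344968001685178383297015502809643071970303912370103942987012600650779425781760489406113113198428819243037404483007570852537860253600586118371770444305388928137611631243066149805632055815413674788189168786988799997578884945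6564813326576418095506459948584631008521058727896213029713199175814367479226510882762299295746739513938440559521800325736111381869227887757967360421943469941726691370662380990470438547982055596561391000426008840847366751389838538367376793010881518818966696766015887033438705228018371939407119763936865329047769046963868441323222243374860871321116058404140043099279441943258741072001247218690484952208866900133475829657605947341519301641131634272523948433805959329419983968455003414860108534976370099732896801541434890312458274944295766707380831076891489615900472523051156214391156736553344284359328181601876411864913513896870434178325490202440459154546209623122610330892612100125953801710837937241867109512014048899207054084245746230877149193671525964515715641497368997775962589038103074216026408406548304190952440142499533245961562304106742358952741727086794405455710519615182545817971087456715950774018843220148067985112636341514462228567144591857632758011218817854712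6118176666410676297522170749998472573919179843476291849863101365830483587272368352140175720537968189153135683586229671915859800941502643017836143006316128369110561546962126363569963217365171141769779068963993592309941813280336464809479290701637294443642312837499359839015373120308040513484567572244135137783687100986889851063776631400236524408677046925767544774325478514519581508074156336182428894533100336786123180502647951030372232110337064012294337369123084531554099818057583702530727552487548262264298153205701190046109789769456166807394154658457232144767495425290153139168740438440449202650575274806614834305516172280154277836405486083436034692995773758599232150054226113076151900586471318403024139870559232900912681691285882939456043296898812545453102521793071082962025037565616280026363312924340362578471176370327672429833574078044293175829236624774118420729461563147186286677739204544013388926918092978181736440542322472818627971279223079859714850488250553018411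3979878358276964712449804294488566352427676833665508327242618770929368064042120544576825762100332732117257229028318620131600517686900711607791490671960878258354321067630613750900896130948823847546435620102801354662276921276751021355270418759337803999329474461289716513020442983181374479434247925694970440052832710402501695684049098558138235143851884785906365719304637025976123968629692160698990139109123981485037672978520632198287211843610188412348028555902376080177974582010967558230834603579735008748940008383805611766845054283421731934914515790746663354053491750357406918210549967448053863994943881961017686815034948629936267080375380390318248695438176544247211123461876277818402743999042270211756789911238294461090982873984136039198398650997376047566352985947442528922483202527874507313293987868615200466407727400189799345166012074835621310588493907102062591628420041153443888433184048742469646025308601967295606494791206346025968357988921490184866388162694144429295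2433294985359572912974369445637909125553544930622869996709883756174114787542089332856988001837901844625595831438547411675311120879479332358291985293198277821771973425074250534401022818626033025810171458245492407344110306143006681801590172959741400429935269077572874015475144339684539247811471151815727483566351948490397876176773747906538115666338832955090082322519161293775322500051144389399152864976492385366767444636899268992551832949428355096204848445833977399181536956452071830631368259747487116339079292522129986060516911509925558433970198519172643161508408605833700596870704894398215012165724516350660679617438402748990066148799695740701929723378962852011170635424181097980007572802219047689160128348461697941650197849760269308167359508831500669515260200847447243578442846895070090177283195533677902116351062444108807121193154061930840583922782811790865500248391576852332908927066304398813759596438886994675093491988819561045336465431495943339861932786847804215398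9926461181347470321188311356647056949589440696151203405088589056860710503659682071779094619328689425255144364660411823428246924328460295815346812095147623956166296965118323117086521831646539835916355637549107652490359627097911617396686097129247892616708408655528323382591405029405891300770027111303795369478595218235795468613764087330983975360177668261873782127492529406359146308933834865545048259481422179698803380864249285357494662358706138660355876690446700618372578034876753067478278328258007501145023373113100460520305700782393817731698399021151497550240969476123945247579720817160223419752154379591073228258314638999049008820941400325211629772497078588190616399015209387053774653176791811405198316676132351500272657476465515297061414077294479606056426179643619539280073637475814147292227020962374548882101480319628203060895127920782508295766582163501986404739099523176297521587626951942254188801352569978816927660286922208093040313184670158038337903892128813900616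4469097657932185642725572775546881317570525164776352070024597708019536542018840890661747254348170303407306328141226691817662103883770137349811242050303779736155151216139815791106365893389047020191148559869378432147948415214510955718053907281622646038348731560860817766299336626892415313291907076909028301973973492536035351174838562532757882992294861534334021265387470804071307821314875316653333050243150425809071263131418799907570604413580290383815420393926768869302722350054978233170372947838219641629398280951803139339341038336948446913820838408591736803630109292062017908913804079452967277407150310467673478633204002809908255354413683382589989591404135117423247697166866778802209232239331325504601729765879355490875365539273710535369326347628048667854171642172531326696929617290014539996468572444885826085161109364219271052732336616809795346374356944481682782274685044923526857276337193378064868425916753208460127875949973551260081131428875218633654550006268568039257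1746105931324003345766571618110892724838549192604576638150312165248205622765007715146403614931436411315201630115000408534510767833685379119809209543060424933639752029149859556191039068393739420577377835166634136101343058382666137257143411576607501861946907538120876577230258404500299202359448983682645379647344965321653136091546127465875959058977028837460903070233081905048098400322855308581768004993542283443956049033102425309600690895611577346943987314164770529047198036184778310876885399268698490209958563116841797691863085941673364646313904114123475875657928825307468779080341880305260075729185947241479125948702403704955412942738335963175012575350170627276244892954847366433439121734594172147497398051336934335535104814456067672910376479842667870633810702851050160412932819096460731935111666598126514478801941460837492117017491302142914979055001612957512810977871253470110233383349644851922889827794506283351004922879262491896980489474734592559636415660961509919277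3577759847337411127613525098351283015620944324134730778807640809244686090261346367695361006552231039067233938542339353236939959352388763780261080026354739626054773920160758934387487200145231816548030064735645414860287675517833756341767073943965254521918425000409782333025696427152889820256375058868064821017957491216501506612112590510422665301360059532098943012422195412212071639570503842821901605062803226888161045363467589679596842858066526581845589890270851395768742474189859303535318323207709190977849600516818753064530793272059042918331498489139466013886712195888921842606556384467916427697460982475593144964468709175901028958232733336387921361940809750247085033998693015756557947129053839651415061258791770071176080543248779051469789833214051278425741164152685266443542681233960446861028898470869677299590092344027384918844249988460979189970434955966185088343140598950431665992670910369762223109656959120400202678274773089891053915431063975435107775437202558056167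8825093763832482265379097503710339294061528563197617270922838296723537490799759293956216599856834156439384963997856358394804940224412150641570690293851961019237705643855897219455094557332862162725599939233303918959263117744987402707270598098375361077320059561011512759551762904401298233462643145696264509079351175958737257857958546396884704777039002965096146702465527416119289436857235491715457106870396063833513086195088430274308990031123426612731900715696457118324450626164077724335602601971775165468150073748216692311313456120508564013872498480692312572922988338626062847616803687226414039841343014516161852125034168082971035042994998133822002398699374969490048120150003023857537460459225314109189961275840836027522519400429654798512881874790834249798824022822713803303229932602353899642934960272799527943422827657199575181726629776305055916521358258386995677201897739462785393006433092114597599660777221390749285895905041407256056968351706523397758839160541092675663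9434297066035883037693824732472583780090127032847364002752527225936598140691626353533274054665051947368384267196311205533803875168935358525318277310553520329718758227399773074946382379956475131656731095978420519671802351331884950794574073282111017624376430373305900714388702869947627708554742333509692381683581960133752290199633345128420110890533659581892296719922432101864972245762395893264949921773472392732887664125757952203577947693104432736971983756102729888452895363558457709526925176930583913633488443368561452898787819353405244305061937585196290186218624753032991460904588665264424560081902811744045266712767163270397157086030312362862610916921053371912884839034523846088870996535834137989104902517103886584861423841978979029036939485631996979983589779200021012812103050141132670681705714237874749616019007959384371849306000146171304965415879595924841396296537588263057181420292884727264829793689593638715170120925449907707652197633092122977444016503236005905522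6864731572444729390148207447820308010779364319347768435352242299651109117005765360218193363762154174177858072005097905084236883264813074802191460168060778180151125170519688386474775881978239084827289475168802936223450328924981294975980623021825601712077064097400991521245973515091645778443832762992587109305183681077573328318490425311917057479079988773598681920232853849954524412841133787732635413813953195452202778460722066168904228810083485833428932307983765482737222803499451344110014478536265489597204898451943406434427889283653602521169149124423466018222899824658865748571605530602790161011619265657958106223381426262054811317425256070759883838114309117291357644739201669844098127035152766099200739696402513570264004334735300582410804474044093995794292239653966492536508393132682893273731385297228219379945449194963463873701561305180256799483937402842113702709868172603964002942127351741752541146071891052497844628948885242253960122292899252180304815319275060237235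2326170949034246623886288169444830487283012699590392600335322459450513840584842355065649128291711257736502948771016486425353699046670439344186000649609017007123237934397699977580379148432993902193316108056766634896167082755106003905597628482250883792787801224962579873998402273638570102029693582814259873874653409139373221368021589563132935890542606649687607984713621437576086077797877874937155877702212306911067000310590251233322320086816215859178468377890844340686127349033429237008640653214430215842994067537643474628279658416979990051071391193693492870429238800452568520141784321789942122881006396875645945527297939322038810141091543176539278759274121460970126392622166400276898910341074845686868025366000339594713124021528419257976101098446683999009415394704319044237302553901125694065886540920591497503733233128402504411579402885996320508565899274709300769716698443926266771125079396128384637992270351606729109006571881020846079623280431087963078851503366645120786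1997309723130407894009261304253870320526482820378926877409784828511365004609303689518612323477834254671590774378662481730314976260765538990210579630087708193820869170557372483951082395300206425799232801424156754100160043652078160766027240659020246002294162113075049162750615680499188792051903553338759391908596298613472259318209908005666754226675482203780467634904670951583652219183314009187562131751582138311103473910792921759480323889933664632101447039143719472575265190432274764591395351015530550429632880799392883119417210206369687365954092716398518828967181138783457704213814835349063960920254654648652533833832354693935519282884997707864825055990901634522205937147340329278676457361747963145921052113544059011279587569886599247433589426793057293366129028873953488290314486410468422437483271094032357829437831187320908037748924867740042352114162125466262703546166382339692637306070883636106796285965897433886382479968901752975948449741388079157171061867161048742410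4004983284643194344430842133953039378742379076467841471943251465677385926743285650241856964528266343294358861079276628223690578217454320852652569186867106608001793730977562220515119890813885651773419659763710051270342207030376447264491470655876805183568346370905244075124058671094623581036697053095911068578249186912867163184919375902919026347007345645826512010229040635771600281478596761837257259327364661121129361391239000465740605659276412939162345633058879585509124209764310544420422084369210021759484103371077103181993708626480687110038963468992048126948840394377845503280113037271306770420989397491104157514384135707317948492734739575618647297320124055880390831087182240388362562222677214753485320636710600982626652564494612489562134733621266875220615194433339707378519508069002768815926850900609405476612931223627225917917230549975637452193676751778931419458888661532623632312591224731102080632932440409165472643301123181245311688575487472322642227720005055284508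2533983268262223958841803166648256536197674548280482345140620323471592322599967697673318136533522984434975968704838462816968599068748883172247287439548521387485984214697654437499448132314986068464483158354143779958110370534086410490997513591970123433124630547146201683404158767262450742007360929733202942377088939944490002941772474919769024223985245489886507087425076994141332149118792545006764177369561322456910670144069009386672077463779784186830643207137246949579934177774050002688446777192095962925691919534970443419726755486547812812812349189137318160449910573409819463547143989483105085164421014719754070089051658356891479369163627912132416686561501354253012802602314799169513712970452254090622952788305426162544793244329213140256167880638049264984239393759180511172487905073512029316008296874363088859457474510706436394860832576959783005669433702241689796029136579596127355824248034380602953843333311917769733966927496899138423309815618079197696029285756886430120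905513972576309100670142940440800500119700351998121987833109870682990249499102056187304084789731177603054108756344815792282900675869009775959023735971065942780403088126053398725862011957510133786865936744634609628859181650546980380369456247216907733320343419900853699078981844478749174236455847378320193813488853402169405409549176319510912756957084387889680291318457781437606856835597190366989359294954675390044743542010512995079848107833736644664596436571388831333119420298737704650337345127447979947923322706067456)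

noncomputable def rc27 : Nat := (nat_lit 342439169521548235358278521967275446715881964800003926342762139887744604478159082191560342604225737263351940699977097295661716905628777039379922832162404415993890585295655591683878128603152093529008850442725918034030239559906839995930125942432258616910259727291015369370668834044754601866984627422374368032284542474070134040713037891567260778393869819491152091165258693045867788321233133801585035005333295821480449415530470163542417927738257631439548866507697196027287595650814555776761003576407009377449852163086610649415300666607517640977481022000739324704980781300419548067675837253685439797973686238664527116416944112905113945944895958594802221039993985442332393805293665204113072333766854384492693972330214221308583159184296084462701065510290335046652850802804135983447454713242535934825168035307528190348180302992578941867669089851468097373285776213977035971149356168627859614119302997641035640623972349547472186039241580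7783501563421878715057807893589707810385780873513174567942235637779270271990049452773773138465382359966153611009696759644872111424220276083883556911300164101174594246510727620921059722101910132285968928560662561483462648423796319263728653895748366717150575144964257065298238995423375034301613688197820256277658237595655157405158315264006038354426661252863669311020969686765849836830820775963546994433620901492115818018386891572455390270094225545890790673642658868621880346642305290530799200045637029287408547846047965249056788741933796658488550261460283388471460166131490404927134980807002594078382105211835543238481461957087061062323602921947426363108984055335135815783889968663588564388010196115192004636558247345238204891638088493892538400495835558092442624729899634745194002610925115229307435374772271455857840121189361709504480267458660645437598256627589496238327481450383240720173295541455620725171430789834811610701502681943235479973045361590601765029032507754548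9178882334351495128182847015661551723051248359518582857186832812076669366978805598930859838561192139086390113812715277690026452470354955344326129911519364190064339322485491471799370556295168644714600732857296303939716569646983754332614484409819514681921032242502470407938089988161405104530095982265640307651899349202132028409742911237019614583761316833228855548033350949737117162886901697481449989500425990977955034150115999580629023100098508613794944967601240081371100479760714771029133690114383904201183357447016992928068352325815152972416115459844394301226050891343608325275395371297768395096299581252766936947841569964606398978109393497389052224874384141679413246156873115122866402333014353725685158549604359269170979510572041662573016713534730431464942326307995130589194304621706731148738573020877123002456478675391048009995009115368284639781246662488679603447672510002765353232508112818002027089834472335094478585314874224793025256167164210191926468985937921575353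6682668375806915791829445642620887536372411140507595034507989670798736586038553732533456389241474280208231762848963134724725967361310904774903790505137143973063815361426626177386501841354644735311451858718699843410241039456873918329208829398651390393901467015061307246905780808137244843364255177298186187299191363521580200622207809303784667835273537886961002719572795839065156450272154464007698821384157105032338845852842925289868398363630770606064334753604047067101096219589604675072435176070555990072960709116372136701956567806306877688040626875667882980170279639390110180725865236344971979040442306106349185861373039163253571094911530329513701890866745790230690517672993180077873895045099293248454643337547173382179648964466714607026239983543902594146366326907995871490796815557458057129595506643328494964802985111671719998692877124173454340670288174007311292830208343115746207107199614076111943150170855826910709902292453916918718354074184401225832587725806252793017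5393846046704164976031576586011192822868675685871229988129139893393370401045394491357362193029927813829749689778386900071760834458220478215643621083429156570646712948573829597093580928147221131858214598559590675880515111806717599275786607687807101845721838036199927916847620471867088312059382722511798286968921462762740440676309307625469751183509545390582186004284918208489565750994706764063463950165360058737474702986725350154432065156347366967163520376243036596172466271075131069812224661406250343835584687334247547678072575700573800844696077371921300181004118609343605099866625706520298437612606740688359891002800047414306159724227106124908044492287238331310014899147277609873393257391735743860920250301016975717127612057358601230930743448991455496714186037335916675180187622491360962546025674013003767170387045320712346778004600809445769059550662178324163155205598203625653119763426744239536006555989728840339153815347151292335140718953367549383637229915029770505167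9305844299531982640382619145314974989404350145910293580023733682844439929572373121241463427722880253411232419635099703726261089370390049049655961572327713023155073517419478872173754730416775615423781304406641707988752628262784293914776818470542981238461376699547548182573017658348030615027894006132390341325007675596216260652141738468189828742588875001243013790191640429693738669485402986186195952787963192823144326439260339071392539197436274021182368790548723581840411905047840314535147140216648844132523405636719426277513779668768808370754966909622860728240315862321652544068667156170620151749330779129991905712485954161279914019571771014437078807135188622178365334392518942498796219738992795968888205860670912060953283081070974444307252939685276063093674069019285178019779071681264708526562185737706706811220672071602087236934396708690590182591350120475920863606677220227065515557603118150258444918639326991742398412009440072486456001826798578614097704040745532781609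5752164101233145616315427330346365400130737511031252534049541697451915322127659551872894172019996735786603902821072983937333803159644163124649789031880444430895008484726932393113528555489313811050715131933381688477924164170129075200531466105174464846311486829864942255584935619960170034817214390705542971106165471785419418877294173237477525376664645325256796216249375670882954316330144380445939384408237944586557337775694124983920519350888018812008297213378110389179981154358209350400414142937155315461495764079306353077984554648254528130952748405308403342414552905758666200402008290065075776194360111732495894930329820403708704910925943518900564581111742436830648402324550271521719604895598383715674791051871212128024631424508318318272512690542578066594495124104825444686331538965950915574287244561443706473838862352009783310534306445759410640386378515533425292159473954070133564469408266295925412548410201153778362106931571498085772947905402089876184485867385456813025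4378268679483082405218994970557085893768743737364843903525128599597739619491229540629737274524692713691772694252871678487968933090064471910738723318032548080662146150619592430514933310288469088427988779387877368083858703079330720933322633839726431155236107965179711377292393306987340238604975575145960948551554906376766918732433546875438783698631155433079903253582233939188973616231359764488492571033740843722049848790977258545156952550660642729350193848053273646209286841395333529479945581971866262024332951315864076475348924536421468271472308114309629037718037682178575598578881662029561665912438632895782998176620489097573688072823450723117775517071487970788062206092035760042519624498821397466549878881901669370978133493766912672855120044384739494631655797114786553301455580134133818202917499668144131847447730097252676585887523710675335720636797941423434770810451057720359545624681985855490617308791810915705867244804045737866291847572983009231451613457170229427459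6361315184911094737994051726192564216236774393133257654413860361218213999141552002711062805062604210614981121120733583132874944836966266904252699406100324610748411809679943619281397693281488122119554316006872352053863003193683241226241959142274651238309558695797408724829308573615074735258805766690565949321370500832587213113412268364052648106786725027256036725982213393993882856404309986220886838346990050962242039314972197733526846751755365934947386623871558054520288854578838425763396302269027955460034909428466697872226712770888386165204136623042739310460613024035267851026018923566182957715719181377302173476529262433877151222889931356574867703759794317335301373684727809238763834568088607457574051750804419330362533217079451005009047282417760808670992040393148735069843733195197755901336587540535657088673717368164012760264766692523804689665251910831929260376334038094463393179355404225191632760915490097588656465803598931201327387123194582004040936612273561061318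6155039360792165736433368250686252783084573117006462500802294343718133500931595489190282255407356697021892261779397781290876814937103241932489119104865853750558081932671925178074421810267514776096738154774772992928827655514792393104782242160425619794817185268416106599266843522155805511765890717927252200260384917514327520690630543015588246844756411629365753090643587708459411778470729829471284143959286674830993167560715785529521568922361815865626574757753087534879798219271745595115324596639562927857461467598491462019046224679959971165928534800014646230800478748365231101837617746701913060271841160133564131515738000025111174270605532672560439884889170790298435084374928465754248079231183818342037283036359468330349277961546157149027670635705756466780427106288373407125852370610210483781470038566937199205914728358915447735497605267872383205769300371441139588432999770960529612080575831617539246948191021851355910961013509860436379241422686977665640666075694236976922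2886662171315477018459570938381648651647510031792672656524841595195295902591858375330850192493564065699928146812949177362501743602703150089369177008646277726488802580060998110031559028248433116168421773372610471584104643539678536431229141314484265842096672638383676759024490454221535587402785248130783076284136341368306254734385186286418374271391779616937859501791142243958741618195692964823864752549852115248675433403053044215230628696360659507029605670688284074314059996009852813907973118437369288495164534138242487290307893285871828314025030010914410002958847488150205172718602670709702024975004377785037761543765288845778677662026745793694728738810791135013581037142173672803186960176758078451214724637173696101424229130939353193462822059163308765007772835204105604820085216530984355702513201263031635048237311640386473453820041921945054598793098759459087240395564389487938980812179801479576585371324896581120697290158330897969931188018624198051318803054979288275369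3988283803545058114413240634849259532873589346488570966329209567177145034152019050353028812644686888921530056362203823280164192637878718097841081816766127203154777487589746896282127169048460557692604403675201224288074850046942759655834635867920355380065954966154661458881830374281074033453634810392167667465986543672257973366566408175462760821142021161058306748913615500496298369794360020092169673041368269248241155937516759722249419693548351302315709514411974832335261915656208837164504927505603327434693837340440955729468605806687595732715958619803579620800246985607295929761899889003658687886161602907720783781669986347580538008932350286726263947970724879428595996104285921075988303037492615069464443181865770213326605102580576651812277901107967232749519737333784649967575328472843861062430272210323478681676230930944489497490349017978237425136075039469604353686633549422800303530127149126146524836363583574379007965876711678075035662696341068498108309128517061905275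0177321408060328409508663686531259512663437290907274440631401381035707718373634201847751416930128127153080930570422450311060888688860537990991591937654752251005901897313857595222809831378207369240365923249259799299698200977081305087533702995444580630641216692446559770597592577092917883920035854397658967133664314745022791705380049173474057907067770077094618566654497406674488762414625896906094096864380561783971142332877482487844836775435053732841839985291636785383717290875004499724021925058432790490166951669891866197600096576974578761977651160353817890595060636144746350679162802783035101394010925613687858605131912747453022755316768845127687465668907390609020242105747445054340636833461240792129282612938749596053816016802423342305349313134650785315514487857969369812305096331888818328575030617384952026789007193101865930510036606319351309133557857280718184661460122980145668539232301153305677512281028067619765029974808162533990247695283508263072892899528411749802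2479685744331162722680247600959512246856615561231679426491248147632992218303108508148285922543505214865683698523315295793608407841965123956986259468782815062633396696010843329079685259526497333505577476296757526950533263358011023195448391433800320884300567756569946038551501341842145676489940760567498128055221016914131461429418469205855376198540887332179604444575685103738319334960812231065244141320492227267651854782108024157164059647519428073663211486034676017447380470786372455027180727032433343914371545742660302836717588518515341061888795698547365107452086075868526399158683021423452225258658422311780593358343753603556102967650478231355650161216043002884958742699477064628200932731302191747707840099783899115650128368730603778356143223697289819222396370881245890492000751130379494765772892798376582619815962321597264227821711010395364064352450110969263928498230015986328874622528894711774368231212322344430415799971429159359410789239440207939017830819994152226637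6947974891434720326163928877780314040558351845213964575768448625779772104608168558207184033206842392173874660823262560788266671934264717798393373429651652868857694722378774564927879351436228845468016050734243618852551474286301093496820161853818425395909222349281071791651881884857445647025351344821507577038458937442800793955719757270451820033727983494076605107489122596637846525460661905231192959095742566086930596929651696298304354537159048930981680419906371685391600730308624930106076296508982270728150626595797918765160833436879798348501853516907708234296886370968294833366495789328839006368059802281666002883244187828084715778933523571508323602753373029650325731121903587893375756274456232376302805165027919468338890649579668728176198902935366323850296454514707335633125279617430638607331326543813698613933955357796948012394284975196518441339943722335835837945051442117135338737724295441554074672523004953129675194456340964001161972733222516705209586624280540349137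3283712738486910166927486463133137974843138646082339995046201107596061528270655008633334686263003936684115792404858824337236949999777460659557141999870126343900725706669901325641582877896288396543730011236845553056282063146148040741886176670432864343204585155563051361283795866913052047248225813399389189574919216978543738002513929939325471250417951952615565801452104641246884185419180575225455709800149969130218863269156097925508957197624983615280683892653970891251957812974871685270397194397495856001615400694579301340098836483209062478020066953206216093709628321690940901404834242767347611243042771747149101999965065138763057862966668051983664833451421754352625698394654588613605696333574152366879733234751782604177259187238697435164759006206562206627747313703885656867279438814076781066996574755723076096096502367383402638708452428765870087712501369761539695261672536972224076747705270383604039800444515184623440906239214134861414155169536068510594543629655097948497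2114068087098962436681963213727285281213126798314483205195029810928092264516178647458682540011512134880429156014404772322752525078966836199508869654096659340030725973769303582253861124899900141997424502571717683852677186875304693160584726226549596108315347769635719256770434884736566905878795872890304595312739975511011541072109871780013584478463554712025764051441730951835891933580257290061520270743664380700383926150034057430853802045709873109116531811337832537482741465353176154805420647845519257512125500446627544255156540102519987019840847799628703431400288008110814198917916536862229654032359170233124213342907226532627590194241211578105787790458985815190496023950928387967356285892313545500496061486337121393809372677703972615362382806455391428904787690637920313923290459875861497370029230637829833785536948813341613901907544050418929364707179836558062731288619487795712898766318023412867960670554847682572714493766547211892711276739028646746922423404536744719494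9974530318348840036584879413795003827104382409996769339008511270722806660659572252178641087346398160526275059013451373627265709081610469230256816992875221366553588483232190791756605307768865237848019382402983461845185755922802883520862927816259235290689163699281099060562450008901194244186559183142382148448893999611556543273265626672889313448402806986577522807760870258045477065600694788513791653186872324290811078592823529289670316484799815203235779280394117646777361312537007343498533205966566850610369488935425515727977920419750680445490723847479857356480263719174048015839984516628970406923650289758153645429329582159555236480858427970606589335433171502608949024685878847632713779788679231734949545446879928619741815113241246401273438048142346455219757736127683769542995120110565240979152966844996008926509451705344474625909933046619915456067447708615487169325319597695594795685308374808020740272703384601075420575648198930615171890148104589823351975444404006561813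971096040940678600043455874271344474725571317155439577141204816738325775770988576872106724293504398062012411734552838384325589685759610028399411832511103680845862275699220053316532920002736781145711603820191068619246725898769368202560680904482109892570653283258794687794439279978266525752106662173161649050660591049979822420974189753481744659713213463786288715857517253054030102776261474836042246503599004210702190293613813862876830726608570561099896351090734805867850602286164790675274957310735274194235007946457088)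

noncomputable def rc28 : Nat := (nat_lit 343274111980653905311995511927585236124280483623508384844936349453967604412291464601856273384059636628571432137541707621989335588537317458216404947789170731531978106090306435425737899482351414910408263912761324673072283037162478374249698777209687670743179080273254030835903058164384799217168156326406013800777420880050871787980157197145134969832371628289496814997822920457320090215155535210189838066128452755881235489521934209416782453849289452711233496192869887059889094921904623676365965370463008653848957822737346335337735233334625583430258768432131763057207937565240975034505330993480263965945911560166272554759928591899726736684634937846028035522620218126330273111176975524099455527993636630696848457151393071561640729034063296761842307457631054232672628676390609411491087159800966092552124077890840909340939979375296314670753140029289718009268884023347975639953095236117874590039804780894654824088516459891021264121014757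7703316689389031963747187294142690558930756110540909022922724160038820061041024238160713980545267482165997347952639221060323597023201432038451187413019538090497571856453004897155822985907411691424884603493309376171137173425095141947723048801868682762167747980037636685696946240126036119398998537720210914106839282102991132026613951983333339045563662880615849605958740445958277908722156326267059051087197730353183166159528866233357153094835155071069399704999130828430884016027707851699165129979188003463354689610992489498530497190911071877792375685602651276363372095049350241142876177167110663541080019525732526721979686034438581166239120619913842084664206255198327495118983419688119956998299705076852619479847677189652550434041083145705217177032977780564438865307272813729797182218853019799364057511654473674630521353938341004846360217587289246781902667235434116108858448876735438088473313053761728668648728746738473959162194208232350537289909729453929877504704425468246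2174834547490003140750248613728017958858518677731027732820653198410712018946478527045947708840681304686260279427024473098391405706803732597662493682526202019036849425104570888222139826023699648760556188372000302917713997929746347039269194047238610308501472590708572178683668401936995373691675564532053452408831996717170113450195221794404173151953619244014848399160920786714584072226600707513476969515939835312871019834314868660141345778210615046570090389772163036495432330472225083515862982945070265627603058363470075492615301350933719251566530962730505076995388549481716478181983129936674236747402169798661613188150885127835629090398162270884133121217915244136044455499490663915779282964740838353131863039807550236925558767670344738295007630291205560393646990605500806883243892902152864477108529353470660913836404874385448461057965361995072902312897274551426118909955287475738401901033718289182126276447177248300908150454198780882148069797196618339069487735606905519040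4183629653764393543965138788254748580664294229640594845066816232722425946525064807365143410662022348794633271302043181398288381127224289641355749911402012939212860264581376748729161153962852989549056951413563978188826877161247499005283202662655751213519270525746858700529928022989955103953333525662598568903323132287533911247667538868898748423185004151589218758431949372184150385301499016403823443133734019881020519824074015155007396489372761605451561305232559851160826128716455379135945089350370152322201764679413018821121467225170174803681784663289584127022731661194230792298667710754863724378298237817268864657194924775766615110225003364307133629146510113130329537644709628442124693385156030108114356176030917235854070336185260970314775581975272159366599361466176430813320403459385783139650657104618074686853616017664703653108870198405917700241685913431439222131758005543730840644889965601285257008672289632831573857043023165327607688492158055794538019765268997699120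8376889565257722320967393958125364362670069907240610374300138152033927463651496800794150994517246575054283788631945384088612459234885177312094439001204483067679180383018787345816564474354477475737312319778944054389303529330218772008043857111629274073143543837640517251425080444134881215711319730116755415400869071326820025607885621035995729232509030313515892212021406042364759112487029183784796696673015350358884732404649053645119219594564736308921505900071361620307491757937109281587438982041315760539448583002875670610009785113298430679925059787195838736039075873712643259500653099719573588984000541135629191580571462411019778925076684766699758899558482149026424361605987337424203659073362126415770493149472893171845917237962348780251438279685981383650655631465910831869124741018923010185484959912110624937729608956755176670824195868995161069165124850052581916343905639848255321212457321502859960615640814513504825952162132756076691964034956374525819833991381666465898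8791341829507864805360025655309071708107383317346778251347602096768932503758621019527914499329928031891989828401629228150449569407809046786993244475129084484827928967249984005983850024638301692839485970385064463649880909573755017874130526924146004271427462611141646715031076211664282563217730804519619826114789833761023341223404980346321484753046338667974248621618700818799456348045610447898089310741511948709833232448941443011941411600989682763231175556515926532661192638209194012138656309218790273067837308100030711229071713979191047235077663839135818370579149064996415246624437705218592070736018224670597292984888384259489402901799543849061539614952414184174380227825704006560630932598525390073117201199692880273025150510308722035833318952060027958309644141789689333198649793741265933120853146101611306235283520747342558496098938007424626062232470076689039393354798429351793462555358413842244433426418809490628671291241704845242279754770825093903003091758471307240401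2639478337310466098422119574933244093350634429629930048339677650295020026785927593590458931462850974611303978452950293192136688979736536770019681524367297701212887819359443526171187681549178757071385177757128698130102887245141528408073948525323250408055841862920408245818245215647857996732519824909664546295435856605206767883040776864052364767313657127088013877664089573220839347151372882447593355186972289513589848314310985277099629150869819226558966817910419004300650538424818717993017542093533180777264248731954906541204500162916399470275897978548951006561910454414188735274529355714714034785701522248435573392935948841312391283466376272904856504661020630629851291377731632780069007781470307719246432905899913315955812470219488233859290040465836998506812643896629517948209335224303678066598408619138900539794769128128370122918519293852368878373175043691915920104303078537270384068793747606863627254396024581827696739197772233590718152752197990865077875630052156706483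3545869778119084195155575704497519303257630216173776276303184601360388936166985729965530805024347680567496663946971434437100197946825886155865149140233135430228260192999221927021484918165129659226467903764890293730864210710166285155944211490211600383736735736516492049965434780070041062427873202883366245825806427893490233635677904063469518917207290297034193909628495351814974074771448267823207189231831702043199548814281159855552381069009171925077900285834606299764236973180485117786814768632401567522129672352791482493007629338967270932917914601122753417109926019611741828874629695851727829527322405166248420091065845452797450812404427715431723589406098120868970670849101159706386669000808656221500105319950463152190781893732128648322639730029895227450222201431315654699314876722424163779582954818737736700075507001762152444848184377216929653319153878735491970743156411140430846440693453120094763066679677824075295377923394860610171623198593434692277612195806588632213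7997142703531255265637139420962522032079077719224956219472309648726683869983950517641151448353145761727548936500666961787012998413429996289155157548693695860892512687867699649358739402172525287165097957239086637071215053447029669951543055605784535234900517629549123587535411639701808111278918007861252334898264790823113368184353741445721592163358931364258752104069883354466858067151427975080886439342932439328577448176172816444776095565851691997186610440271758872527103165613611148802696458226067955530183779798647530930886110537390167248650259347241548137242505565265219672337440269216151187444475680367577642926720444620788149879471755610709898300453890498347477394398293528846218257019249425221599619575135480210940967171027791055460430104739145224435179490263550774633838154064303551500862463193463893893441771366606475452037453956702441672694151765759264807262795856907040361011016986308181604541589020105939899487850662345439803676032140179824941226697531271556300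4318369366155057770064710939120174119649066720121223984793143895495377776726743946308944008877130392428488190635815201923589614922319665854034976090857968532596623055336844586657107062452819158634674148663235329533675391004463122890123231930219188125218881609180109240947645732025480307906566885906780217614744077826820259122074434582464673879196613474128173862630873475096999211473035457876631713310490756954430432727791762493690052021913337060274653493977028407735322281966450922056483453106709184177045507439162542437322656634629191189828439902005740916449497487537188540571357513505260222282748748467448313908329023654394330859503565955490666042768352051366507090880596361463701072072531394368268792237033659087501845192421964587963808401076071010421922530256384415423867890854999656148289499493595248399743781301006569999493363172396692081910226423613877283240982429318836219326882939159015354128394395359090793934147494522376101957702167505092574272170507727037952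3421010686526092971804915624526076761790176356448368779464412634820014147910446660911919232488389770719729101070957750654866746841831197263100063734991695399673928466802442914388936186109376667301089636525363921647422402557992473055320258606076706239425145590191230000246305897789086004084478363687212224379229370146386431889953360439256450154562569949868291380047348792746944660502720324228891659274469888940313002693624887285465784174331755689474148430904087172806281212731351719255697249510472231768172291292835578301691736893168907687218477201367585617447059278201464560807725599243342712641937706573776561553554187641815913330825998315896988537162384629802600386129316331567391650912152919008558712400394627621176341629823530547616260239166331531590432439558592450907434949564426692325343983757884409853626204182617655395865094050192433988829404971855364118763418027436715205556051225230604483651876133606163942428778797170297367611941396596403041541126501732734886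4437592756323171294351284198916562305475485237091971561740623879832471921033927310446487414683069198185668252935261548643817480983223628246514676336498301669183981974864783366395491053061784345922746037473441895452566008655502263659740062374726377472545671785120651471499433233953800812438110581137024320948588484420289734856544536209368932842820484185885957163559010453971895673475442540554498373436750960433603023864050794276537296941779273906959271210123044396747705500318386048636460149795607676784979406337383814280871766643696198450503845059466696633699596132104062726749369461718336105186799342816807178238159980575375724787406822967241558481472311010361281636670250527407873971115603488151652229370370147746087628099494211290512724144156046086614477791512567512943135813276062890904753479101938522567097556441345970899275984188793774924340342478405552298431089556239698504821602973155735119107326818849697843881129997480200528356304177238510718311834400522848128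1253061510456366600626933654978451175791280358184462190142679335626352303543299168581394097489568485115815612890902766538979976579252780566371089739927623937726805907615987450422131699603391367927351741526020840410948969214814970497072327092991082612517931344998787430394900900519671184702139734697824346804188002032237217720384515922537215543455182489548091725486134204096918032396499264473878072832080801068912217630700317262148213789503227876957648226003345171120735373796435703547058618036043577207874491738726052974059663143517699135062233438814647680834304759445985753104427638556431604193734815306532115341432334812319516216346220906609964099162585448655664315091166207715907539472445656149285788840240115509238921568779000552356951453125209532755607541976478160203745027094505021414590463316598086991670168647841902771316731118073308100079522984693635372324312213865316672742711996041189057056619602124234726329539324806341647488463944918337056288064346585571738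2688320198006730003606261276003676487860396680868003601714680910969646434731397303362165205499435716825512518806559309849404048437723901023056519115297728885625889029800893547863192476731363660235967290466517873469268672554205918301457855860800848861257311111601711705150907217580416413237039066737637626369605153780528157587135601958855196433646221799632804035793234032651189935929452235198232458864872011583936580630613911217018167856652428651607669361281212807402607007659056353250173879648226277433066853757579906456578506160778778788155609434917831958500274101201796044272532770416969658659663427854279209483183780952210555669698752954383690473130763226082744884499970724680228764717693894916312548601308803746651367087585559560051245435546523244749658297059922169389914833821748036696569543881732171411369875372285519895882246681133973799927446681748687577015440521188523052821285774094119545649067788057984331042183563355267496492238579257637701699746713445649969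5356879029632519865218433402001872988138951384343528972449632682800141032465688438014836350721311107916804484560421712329350787811414889592176514157498906945865647981634172968882944069323649013838537681473495950047656703405356723908361094751456177495350966627474448994232067018721763500220615935824876976058478439245294266505174954320907322199485877858280366320073539864998294197932361106029326970389506855632663543050030053774478026448612418924580234555705310384172117217680018246154312634146580964718846951607484495292897010393771532221122332245563124797319139365609450113704527327621303631391349312883635508736923581563113925327821914014404492246316699697448254715707899239384237596631697352514674495028665552395565403309019412196992797183666154601159343350883244827122410171604478182317507467109077048770971538367942950760739367119560982699645189185522772559830026472365215479959009459127156569082617888259523464736992320651169307533423236187928395600592276491935042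2866837795448402973601016328867110908913283625385940711235652595536510902554906475027411810201107089322816103891296286466477677676803377189385114294708213178508374903118759033158883736689679892326414083611255815411536914354411163285543814114397477914880970232185221349756471237555711184069337233596997004637642998869351039270407239972555407708173799558603955938225610109809414481400797446870596196568141595909471179603386083824183816840706132273336724276003596238159058514910350262954818823564658533315858627297109366836230056072152830657721778963919774503039277103542460641691646828007310103273745141172768069150456709568040745967777547258484471677809712280883316708079482935242749759794641570792659853820761200687289435720658465382192140649022749763567498700994742075593939075907967133830051842172605038240320501951864907218261004723093765447391840339775582422657988890890134013887067639832094335163971416449964807364683668434552930820440516390492860117994622595905738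2298409689143131988333272286611410472709307335427321755067779044495909886847195963686533314221671332557919718066871471012450299092368041083555741751305557300089777803211994447647634051220854884483124188087797050355508717455558104552545898419349937241734651141661713748809110678851216063472681002776852228536191386614379339035427600127058069331592661859395096458815702661068064868337236019519388384256235517935923544319928622885713812463372645953999213614194269070825079620731121211451689437019437471549776727136227340291617067221349015417926809956114333111357487595759173205919556979050890752524842890059723573022129257210827130251561401549392005284988576139845424657976524399093731920911576721731249064952414670099163883330243236836777847305841370835726438645166087688694479926700218543672979114621795386057107425089722702721289061896529983435973947298990798614619370902434154416437431021434997558810873222899454831858138544559141531159297472057258803665680597522040611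7712787365285452081805873930325558208678848604367325116462399158434111134110988025733999586615146741136840789648957391467028453102271254378282617422436065314601194951327705632468081748837017026068880135726584728863819547345080875527920142880364128691966228880160385563985587639883057037137038832063979712484357287148446178210315326456289135168219353494268988978453954228197695830919740653370601177329672549880982386288625483692135326637691188905558444232796667279978745055983482688183625275483722069258423293562423312240992276222708071771150260879715599766252709084096709644805160718955147106184291895365491410925881836245810196945163447911143591883195929438171785738189708277811407874122056284440830795541997080638307762647122409939901571816426519732127958370131253121319206454985468937981455379715465994973834453916044089891595809228750588421361295137322595925570730060356522488682695940310681260076492552553723164548555353298685496960857073953916021554925667583407641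471388859306668404119544293378392167794115185498872928353446431927310580453547691075639342495677327974689423447187955264869421857469774014675877381481332458381135820193309118354601818654556747167840203147038138257599595675939782286969668020496305796508938353187720319261435426976686908631552638372796246242985036315267296160106097806121438494276792921179983182882227630526357736648090515598802841303705756837111116932176268476798247932133982328993183386741676128961197818990518361906972251849557047758907481857720320)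

noncomputable def rc29 : Nat := (nat_lit 344103070170755111077994875429044504231284672862931113034707243339934796395957244271100381898951167261737339183402608486364703882272502857628187063142447384689837106883641728763746167345289174237305841560965392553673479698602072606807490818930588336125203975975934228710305853895462240303502329529820426236056002482376488974995618899641324750245087473187874529494637124524062013550981380254137330077068496089439928685483659732432461569609710764149614111771758443934949913561792653764814599770253730854855252630009482722136040922526597473213676347958944431243960719966808901684303093266306261741041772094638124325326935002268985053551505722420397982252157991715945784313649153147670003044103483158850540695353732975723158337024237656392644026753518743191001311453817143161315213807276632292977532352801315267324101428822914429409403711845490586441656423990101095653021082384593842578791037583706111940880069885189932442143193015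4251998806221967684807199316182600172976016677926899374986899283853136979154772604823951802037983361630218451936828913135542435755559641343878760676174857670652737224250051271108855842035575366380314460871920012451773307819984351313149237082076239211989459573324927566568628430127239738831864541121499162482424045778283214904743723985178890789808695140097624666483183185983492528819216652475418618317118974973084487125150288017362915116354831617778536051370117104764669631208328799741098828282601530134268734350670939987139185334645074887339019873399328254488741253237496354510519739145691267463855822358436720367580511790175717114496786663354747392214275245476963703137401861661219201155557177887887077644599447550408350016017607725757089323721107124661693473021155547027329573632437438560379744126172542949306358806247819050502689112767258468970012409164207583998125143983149637649319934637173935341170867824246088738058442459611903889006679974749088680739936823182738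7905583354963214606022788556324666180868921131382579049215309018357838569505866027373306692805850311914994486902596727888069970929448966847670795985503866104696479393612047122391620279786427826137769734275431595256963946188203735595409168623569722848198802241835869693832094225910036468091300394010516620830169226195196447105972021053812751543629091944303434458384928650815938435329205052407962145858088932822606710931794607647078104630296700574621046524115764976792751835007409614406817399615193176621025433322789626372610759039110791930413693289556454060011542405215951148289629103368376910667803907371935604075932580282522067272698675576638913414894683055914079576957907219297341458726814410552245450249380282364554914589143918837802098648034017163114153433303518754333867202687803187412442144507761018350232060338232708450762683952719472346300055215389093638077239967778241390891896565359788393728647768496612232012503106499059110497649424083856296265648597308813308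0638041697255021293224218399927402696216876204188983879608265840155393380098358592988928324755573781314460885386271265386992715536168605140720666599729154595330331119537506768965060031537394111541366199668469344058231309176949421525105353473602542305390245507825363358046363490004227005844711233828562664944438847222284807094998255075182107933868268352894494383648228108981353470053281186874688230181894271467187618146034357962658851032404200234652853359710944971356897398140712778094040144701199807488106307225083855762011673162283624385833239119856356389122789937913904841784548592039918508315594732446134624059821261776283612801559044028014888460313571445755650707593508934764071888906885403901075877643894729437610154886667896121780398734232047179192072797254749025281439543818773544606968296321547176750820895818031817417473973993480311793534972911469572105575646198315745912508441646551653946682256299886992467609210990752609658419539692693091492478382918727792719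5921073367629898080401068462793166435370588910297777572471311403425781508480072779173834174077495398460999353013816522220783202644871306618101343093946042060008847013993997072227480486124290796570993835485047033652960003264874302310541945835698788462023525726148397432074734639910010509701206154780172952665000720388609447227896977778935761411468960111450853610009745804528483548489911340517717539531459460988136913628395489224696634294150872364418881336655136885259047283723371717722147672836762120590993732912008069318454496196198148359563113189887419939815986827551318870760069130523786898473833310498392548207564266772757470722331773282971846211934469824116094833877059349487259289418069553070833117949397755335655021779231978992062098518335883033008662304941776392649917909606853681069487339193719470632449833260572062414687340807392276024458213451179987114167675030800628664921422484421213410706992131466138851417871913912095153747246044872944865950257361409629918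4807741815578662561426902122031046510002605606538273264901572718366401119956209901629187729976234487728125935363906028237164445274682033513217668782810665926209227873353044265178308827927921951886792789706458748926400792593756079949136189727673758884365194594918591866701642458993630221596680250943591251309609425338156414770016817912283363039562811950562961117725192131116158056799939444096143194984326282807152735516863809906750911529244557411890136625195150970544581969855780349656964287699220036805701088568233680361123966195513130957408866881277097217950686858087012263883205413623122889680518166669121571710297521542413979508429325110001938237701969945051453273373834282567909137327306751173211592393117668927236202923862459479395628521894442171051140103292572482301333995917350176691535537730824375614001815794176046575976341663590104621724769288559291800008383525291754261290182702093382245326223086577462020535586294289830280005416053625787970564412252034695701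2539597350198980231178364962476587906503810628383604280666011647233295422517561416981428469477471278186668001462839983224099053964370921335172035946353596828195502259247647583177509741753805432799328696743807364745667032974903729283749099184887733177825822818671426648339688478733479309675919127286122393163033981847476459241640623063870829347425560517765263438671096168799078312705915747354522966430672349749940518485812211150073001324332768539812899386511245030040779074603554313401862652074218598930819867942286037858798331003968617802266288512895378880032906742584724978825440688880895905338813964996941038124406976688068949314761281523671773003438205300403311685464120024213003677371036405721786609390448001707228612056465061115116575838460858799418345914432775462474187770505771934485491090707400675202640939411090735697469150748681957040946420777488600992548816993943325229948314403742081980052089127464284128371121180406121267768353238044595636252737279018303855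6795733765318828627917853432423265817921544386148972081918274771464883657957348845367155080975384223260172370993605559046037523169594180701073618620759369805383478265813992403323771514361570812454587667177576896497303701293237703752479596234197121742140983537532899183133204151446620035080172081878714101281273710438560878102155947554452176558361139266127913720475304218347760964296730960484932598779276764243070937559109537652395734273116693852195736899885997963616684609163180516177290923303134587391990357764318223149242264729540096694417733038391458914772393398651159716755252111371733697943745915750999564394270557446336350175539228401805624172436600693256887373230351687903036358269491280128233231868187813699333066421867083325400872625626852173512413628944415661333253867505190030574554713860280071714630259898183402956666886955633734587219357072007010763498537677055956152855741359821649686771172755780067034561735903054503339343043402405062472529057591979120112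1527404917563735903187488357758316568658338679808300356530467424939295092818279103640125174631653384828394806877181123675799651538791404402946885916248159065293023559668402300448331758602315274386886024331779218735120082037325072315809316956661512098976776110223500912398486994548647520080359569872625126023284015712319869213655788341714280061219420462640579038584008791073671578245291645300154224337764640865837043102119768143839196265698911637144920251028040636294792944152086830750300161989850185675043517307581746874819434187498405097789686061506247842170924092117007101053965033392838283093550051037330148434169447006928649972933361776609887340525211328356315466324518696329720777663125952411969061191050706691162176272384156132979701461874556129414676332975271291022198165277048606411854518707842558894894326522199217164401763126811121085735386911543476606525050152467994331514047289771346195419819151149087020363682647328204535441395050086598862221001694115571194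0676635349266195210124077557593271097937999917970096887356841431248673849306277834306221354769121425864427614503866304195226306408225148820794452512101607032005456706896539570046483139511429753456619816558820673910727299868759792330185894369551559731223113737530259128440964917257728727811802471832996009484101676520030517816070474344481866075842890808736626151383005204486471957153163351880727717225694636129203125028884619723470928489318292362063561379975932772270607443852515310814656962281193708394690634811273728451155675515895294969467397956999676525208989542254436546484424396878239551363669932091802411751838412921757490235275088129765201971878634832009435360868267805969570664099012152895294684056759532867431768904937558488483034709736147060214279164979960456973947215207974042440665977338435555880720043753833064460240631304036091226460380468772184321611510583328917019102660686209265690119533069174896579529783568430119147199501185306485854147812260854866785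6414055820684955051244745135256042143470248252854231923661063198159010549194951883895481744076069346453896173579819259646062134713222642559343892498134524624234367279998148675048637694240817942150568622384550636981137174076009158442127717643795828178896096998541758377006225828847269635787330627000235893867913359212410839666848329904494301159055634082011947856711729174770230849810913626415592494620313561465978046597224191842842787231275531529732540612643436368116869873458907891628253914024223365246785439828454155967031872105655001871647807820069057732807928048769381889930689153484531930064245400122263063917476547332879388292372879504660269990197092360785388796916027406284153056058229091197190873823535842360798057312801034141922615687088400070140590178975645523221438115920224660292330482140449797103575969245718827484595869936861179565173456462024894440046061801734302798857318100731125164867838550282659886890494810385399218092663754903159128208162181110131674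5549852345794806868974804027856837652820458667225038248221931634863435158157512116885265759353319443939220924901868751969206872753028372458833333429171741367976374461785892170171106373240080542563771445618365989049708444346615515116662551625739758396598378067703314570875680208675276737943895379964833062902794267074120327110434900257934392380729224962791323458247968378819960868307459298073841288800742699557725594184095665793124784242806391275500046968029102072093832946882697983276451567125718936772119802601146105955764251690412090783491082207988518298390668895940139259693481860511457762379132592907357859785598781841929882078318314211786438542965495815888362992961316511077266391445726207335463020590805807988522785995903199708221248747795502610304658714077750373493130019539266291002981000901056363133586235920510157424328625310599419838780708074491770027018518833226228033164673880155171672816539911232098059103878086843084868804993069150323284447460230043663625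5159968704313446301071184281752065924671607694417211793516024529809183241300629616844439801134513449278965736162952874635043923930567458369492064627769940261119711691000906986860102995204440096684535880175769563713331632104804388539868521372541051219764315702777221456675472366678903074901691222147543409004129844263705158972375516705143050754095939749148509747231076357805442864073130445330240999056823182062828081215517130102457888150825341912207366968629644850207367481871191828203790632052803833245593532461861294747579367308739989770641875126236643882687768593528260901801319062821861057058535710181993431929186119169569069318351455052079098059945318300951991302046707381039392199173400694447060532900063744700577057947806457785168158562602308166681323961677846849697302348490842953882331238204313795141492944216234688336243415750997296476167975595599041663958432772704782209563352906892671217932620103517028884539403866206703262307891082783649640573750491500194785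7720930763908502199091478236743194681410817978707674912609892501118160961681061434371712245234843718660913189524631403129107620110697316947230727980987113836683965633593747165766344862888212709471741870666936889270536402127623670364787545489148176763894425292163096432628856731976128491147142999337615614215097536274742874557770903253050608591952429930746598509477662620709709077373420821082910845263197710394355520084305775114178966480398664503108361479262870666746033424753185294134509449620003727973399406471770772656189040841526471048150813711018817118180320691365859852562009882527240031519994582343464978193506791873726492604325005456240968737161039936277091545246266096813671913802743294573692924504220851634584425020038138021374787060482129415425658262478036084110995679049868397995503936635057302370129456885157991491277560999350400373156471227173942503097418994468789375026850180914316295199639277563884710938375540780529228241303173936013757094453966378708663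7206114203621582658989465380967631208503368270929431345379393080822356793442496732708262755354764171403048706145107515165729357511750179426740973563321042136458822371630215474625430759941246365736120458209362664326038646041855660038113071476684176203114539663557361222506746611515785405098788138904162328390302178793245296343266545516491011538688032815110675936600817513747827406159416859845149985464317267007864964511152365390406037603471892690551651355988061092005997981206873050396456492648333038134123337388884868959906448013740078485633682818304570216652060230656587843546975821259359954944082732753473580350955124972398579372239769153573614833392887889558248085562923603839708914721334767458915248649664090321298568180988502315250048978278089055254928882255967878937374064318751722600956979694664892821826229269609752040218476028894739264855087631248907420427032505986523584623692622217900411993306270069457867687833252300689819806699186208745766418131570786154111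8675119813136646462878187155802319494541500963009960015930902913398365163385116096037273852498969788255483285640879688546750428748070379725017395793767116754093521125466998207044368831153778693532660366107690687722120686986682829939119332590129411011919570155341747587567722094707451704701928847811158536052979062366838695435085233978022398668951225966901691581387116219008014555827719356692531472155729610629675451071501674208739105186397298727310665885519693048860778676224241468384043348198462548205398592920732477020163579605498170772573479987472018081239974178302520986254763497087013530070947213353904519279581661930332630007353905332452944812765132107343435865942606210930416919751777308689581631436296169469436182473582633282409874718999613502439782252518159885299403704219231387752927082590250718831169188589763558086135990218830114023075352945093815357470809694689516830503392168148182232554207287248373846761518754144987847560080217976270767133849475576663405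1178208190984729266627660474730730027511812226783970875608956620540845363546064459672693646778010118093753436003667792564430721736458557969064209491223551997039704815128190374268478192223311395931269800957110468685505417580067533527845078998043751594965364209700043881745544702776740694844406445800357392515291733199920135171995859057540508945642034806375502453089863943521315296068964431741614189115635413886141360882018009873502816041672504533463971423042153281387125717414187336661861696988646228501445974055028297895358816388484081009772002036794272036945389968219049239141897878179440352454074810277130493428126565139652004053810715800132387835797801447924869972768213980478702982454558223901930005181707371069663613637953339295199372316337803401790550175224473871771898129832839387857258539439458853473724793760290074802741345546026226039019660835229535046233532702427106858431608183269370370028776951962167931465418561677819438078695672568170059147359025589367611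3631458134016398231039714621190987332110249979411392927235420794052346104769047457758003434238969601166966802130521850088806760192230030871441602084316511143660759337155208187986527133294491833747916631517435683762384376199268510044271565555522139751493817026299292498826575663045899968904266730113019334171693093670865099614386511078843362457889402288866611601360804061722684664531916839454048249582212859699667294019856399518383105978117713421820803956222640034539561377590354427974937821664251322805854362827383641226606802445005379604724410849878262998033997599357948272791668097916224662672434622802099386603492136696891999649944583318763523939684468743665249212604330217725486397552236491584019395290186320662568704744433143427986730231055758930762773265791561805076423714808007254776775597573901485443916933247085716199568694405145584902192107816473378658504545558005633627906045175383325542507389072640551592982609308097449769650034107800840970442570035830588376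323388113744039711909697667909486254675851871000954472424210031800770042000145101949100773050445487768208123134804339443828136341091358939637119893286821244868339679593245585227694933939431713627626256026973201640790135394279493502606339035297098750760795207316837578824292169119789526325722782369364699342691493720809427891399175279233407828154478835927399959936448989553116777248685382947172729564018093379840337812804393638427899590867952702636400190956853835997021681809742321180408064646965425907184584148123648)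

noncomputable def rc30 : Nat := (nat_lit 344926013024105828804259361251699533879321332098029850473109164916137563357498551735987637963179237757308300067035431723465284547047919020583145372723630197965626780210855562600560935714283326722259316979142422867986489186600520800355691956644888451612317047461101170859319231206420196450179965704683403586888120428738737135974316933280189583250119556296380602738585849419427750915054930702774894398168814376554028852608680816560625601965033755968115346667286543797771032298760523175904303391150270095869114067222184511279632392509842633243170755684397758071825606555042517703343390341107054753204644706006250854570127104226001166913350560119843510410824337400419772165866559409087886665171006464800329137815208779056002824620351452869600497547100156233438116717981782737596628232324350666208368234176263829568489308878877262197220963334547152569381211390411723962066903677376423179543499024344255636230031779638965892096241104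9904737370309214107551559241135816711368074715065361086523353459526728625451246983896929179645880046741318978786080711001715021954620766728717132765045247069206301608767006264162587527157615352041898715706379663588035189460677613585993400494810034331267620846782609019980762418310820282139091572843717090439739638170589162964376236430855551302149878924180162007299823484706418560002675773480768250855299094334869861324944490038033087571201297316437281009712185842893271440658604458106097185729997720192828774116926529944232608150557238991592124795092745666667441964509557511418761154680321327375490442213314685184444217090216030110174627078974261395645744716664873848858623997027228769979565295519297244066163039974771065572001016909991160815429255205862519252263177646560094037381380975780305385537486880994685620121528543341691222984220310868889646499902853302545157236119082821504727210354415983927679265641908354810840367662440557935202616154837937733814021364096744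1971942192165092900149094542405851347476051621745911290486100773884009744151269586948803840942605351918628412157676333835690932542865406452073064833823967564619183604171766691445162035339903708685802121999648884849429171181175594995875817884713276319397217428658170151219720232223795088836663094082499764104594173411442288669852181399440678568745930160147803324383674800151443276945985214065163110210504319604567378729043384401211781399223587143971979777536418033928141035218133281859947140355827177888562578285402350220023961104486650640724627487809142388638968308435014805582935480880185088023259807600409535491162199008010175230825364933463792993935532389127559807030737540433325885624958532336037726030803042194343334966924459505422307498435712977105609639102929274898880042292975601358596500738605600478972054201164597193195154983092307067388873021085533527734329705535706723993051750163960724867437696385945110080176419903573671299649120291704904604506039845070295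3828196920208244272793071480124451936021993625493787321575724494714498498321616165895812685445681950230373751138413619020204900836941482711828621456916063331732436783345382193136387750568470420333194086286743120824191706885278673721933415231719136284239926613241806616583207388107864197362021144190784285193975138928973326406093108571075635542152464843560390085733193817788017598808314424430230147715934605969643535880226755370283214256305990686022420715040440451915302870214806547231318693572321468618500378237082134662739882083234157188318803234763683617847031684009481831504864722049219258637881714470878788340641973204806376521185960988702631698156443486039075366007874176999765941888172975332868658379940705696787745545982551312938164734117226000486327121981249580818338161022599941401630717044564590163294248431167295928752807397573857963062586497214368235617853632019456869800971359968967359878537199838763866328922223444476579688494264135433688809346928054659264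4289620454673954541528958093586789841817881716984051255587655988549516846482487638707438561596211836843111809368056200978998207302098662871195702553177649438733378421329416555348738491975741997424439632745206636371505089977102395386628679810330745657157615042075190198081374411055968144453613021012097313672024732576484851158837432037771224357304920845675078720141602799211035474602201423807784392804891123079299780883130451483257595228713314612294800941046639341091242357341512483885378219588581137169567056316863087928093984456867703779277285830095331914031102695647675093814883484272674121706203429408758363918655800324453632807584224150785663289720443265271688908832913806477001606336127325754376083671257287648322907414090827984140260603581716462520130559494860280325606956361008388841507821544563493195561479110203448953178108916868056872579216688094597736084439951755262828451488292976037037965706259929526492485539019238935454054308627154084868746053104728388431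4213719539814560166868623345330715797659061271029582035668738255235162647197060211487374751789956185138220088984827399520461539969710593390528711307836057695188249512965194948110765196567341954493750296869841399629561605347631616803293026170749443576839998843022615556779458269858253225691005713031145496359615930933214476297430697792223224136790443525088770615647404688756206967954349864408661249236568393589685852753910809195834625512346532252372689647550697535366732147597035021991482975779357006527497221256904414145638555335870113759418187776388574182078495145411141290117470502858348307044810194917833488644590179271960102209881903089009290625882811598927069548152941117324544878506095038545314208636978906275597927912827934777972143668291685444494948794195544168659527332275847501735246624455137080046011999590333885482678804175084035551843334915133463120809300834925166298439145460498672202716493655267329336926945531115973866882362150543058468872936269228555144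8475292612576963024879910509117409353215789407808022404248790647413220250340946913761480722148198704764437035263917565141917134762330453768966154656387518310522712765195976222183781789986923897080531820789310193986194851672112190032238862106583666035444958327866364512778421209909573785388532348262869804416259476617405231285572912316218656885968325627445050049426320306200786779445381872211393375209687492685803028431750088671435074363234615152521740542305620584488436106586296642045569170914828182250821692347366157105988907872256427001139778028912882807760489274297352558601547081455463937466942848299093909372172961600326563138424420220482400014423709264485850744228772964079687354050843577812010374991444981176256804619066465289538237664497471072888496652997734396934291090808585105339619123531565012686195431344788642080865679667764330382002690442227989434922876261891414541250798047296162150742551739478675999441996697609030187529733189990746359779988837817361541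5700972870564881924961991661904693294581699806619180775772577234559125880809030872188724599919654587649867228557357754999947168889818479210323112223177428936115282275274344635457510602499250353207268399977028894289589935705433197174957806404473777697223104377152870722035213380660707171712992373049469417809364008645963433512590507419377172322815972533616954999493841209353151906111786578493976765705970516036696156665766441151364025631896496907740752034610460141548165282051754044704029116101574062831974982886968143308539688324182278558560013577632954010365380553664875569327750670822201883591896627616479475914406089893705325595158360548921351995730544185685650462168325933007804061893095909653137430966596406507484088291976866520755000423094526616189805372960748872493128391471184304701098464994361373753305009475103102116618175263295284547853933901971773328975935156050788487758335560949001436254664180761867331526468174908848758983159701381336319402927572627410145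9807992581255003640403662815894332849511124731133437294244361278269159117849544562471034634673151003179317481175947766808966882426780163256804650358878343151422074021162074661616249281519028666191623973046411718567601280234844168709043256483818278098564445058262520520973418642854336457752048679744423078175704175315475072148444707049243923499586018512441629545522100839710288832095772259110356660905873010506765747592029767288433355215871949353799778570178465665106568099226816592773806243795761486829993333414430754150212936024638301357641952266177878653939085008475538102074190599955541683118298656300976724961550072269770860487927080622754045754485113569545209390978741628694942408109006494911531131675052604063764081527855860328712843240098481527675287894700704609453559922932185224144618673067157154797296199603257035607826364567016523529546499654063860590081586642269181982385446573487170574815498754413991275336509651131450315881343749681180993561822798388822086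3911102581625882839651597219544161108060655637338002996015883351615461280397742932102814453914784927033999870706985614605301778570124784399097685797758411122861417586756143506066080995854128508623330485640218000243873154541595897675750878508703308729388630722337416934677546138485530198393452994281493792377742798997073180760785357389842178465992091293346120501812895892961234677323149420318401755216951506751780431700162612117257813812400302069546441280553402371348894460578558786243046573730466608642249640165124782289364646286621881751395732291724040404342193100754145125791208840421773243273637272948263432435790583163624091357920221131072132060559414885052795424083087937886807291616732493324449512574378093783154388951100405307923040686775669037027852759016989017781616513491805428152235208878631747308774576957350443060208157049907537356736811540175187284699294831260668103352861583696712672585157390452437196512451216259697624490082784278236776559589910042819800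6249794869467361356876642160855612795673722155696658721650877650171502460961026254617381509280447852052755426905484440658974771620584109326294921083405448163946441000790345985279016387336432827877289937424244194413888170176739709185393859079467518539386619825825867298080058280704153260339926770160622337020526686019932390332917011889435528111742275349165324273964068498761018762912333539841249750699028827462557168611405299429644168271901822366631728856081284171146722481426169394423200712063431418282547416333057600385387924998698184412378580695950632259359276282421495952954468904608183763311188478641007800096632544756631991139887637407967157120969735850141771222507701261302685318107273876250894996692116201104634018314831967378783809650588504559155680655490836731102643907842694836463971298607763513352686975757754002304614055134026573370734601426171888927970209300724319197005260638739310589486103950344922732542488910988603228675145688688231715644788832619734614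1894221188655317597167356737445838113976412688207474483669131225309608294643017755459174767294595508158309652124211383795313916719295541472074189956615277382548536530004412674228804883620380658577661614750290614587969265479663847056020164506505804040096754402479105142223188626350614529720120500884256651346174453619389868394543450676547369438563229479312076169784569689648610309604665387168218102808562022585198532898071030371378612624999295804649271004896659533004549961460172804733598754885212866390969299307738499858440832408319687704647132719689594653905234692043310787486083097718517579894404051286187622596924328868468008312643447423020966398129783117326616948249240904862377906986593747272264416637779132521090181089060777545916529212923643055343050581962884181303310518130998554297489161696041496627074434973658847279111936654129569754461728811651437511698311001201419453085958015247780754163974196896716729449060990909457909032131280450451602457008143938589953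8111741706552151037914575962357691117319670635806004695027940712143833598082523861152898465231860508875841244703949715827824770765368024942965745191583695855953891731698060586767230064068683121804585324687501270267999574553935080220037233439027075410959986970453024593589637034220229264659255020221468846463417350434198745450896441035684394213869596602305823682186476619929320621923106174063707888376765315829698123751900828048580619482395899583612764403510071340206731237696865478640608748783448513801498503775710470153347559884679969478299020256389559309249202492991837481480771678990850930311764846053738538056508367934872154417504224812532068893224740394363621068410973517990514899751095621265075513364454103256390542155353975697540977941477904370723847695370748899764837382845408878544689053657666631914218567699158614867042347613013245121215703258616326362056752872530162542715800284391508938453126403495835388899253200760640978137922143046931639464851266111471471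1368168209485300214183556199892215286051524743275338686179297314116894003771478603967798575731840940532404423963834983922586388942337089008089706955669257900789912073443834673381264637705970264105071583395797137893047690554426763037757217489608063274019276932911233468580351012492552472887786201753765179002857584935774825990292215456088930482733807064343799021013974268658585589936503434436815141998177898489725006465783656552310001572173730468602368411418841947769038863526698097650303252941015003915504829739914679880044149572396999978817928178942241813612625139059098080642951741208371493016784767326145246315913708794717720657861594305939392464226261209308775286515552866424135239743480823893701422745392747805432507958783954320585372101705716518235146091397358419748555579546313501861259545057683464397012393036264734498523348789107727223919013645761561746528236938613546232136221780606627223975935517254189978373506778194752032879783507085500014194914455603608017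3545339347836053371844197584914328642405343834289763001196785246105573409908212340862923475419302965924969494607114343692595940980365482734118809110856071555651840471451115248603983824639189315058199470856185857000474596707065841763013024495755905519694063479423828250248835940050471431872651550261766858751605236404819426514869265654908395237095280261650985331251250498650217560927480268365192644097978346845409700748730821471462084840303575277576789096005172817960441342789793320146064603054056075628703995612546177272471201556634753746380361372316612755485604079798440601945444717825400720689833179762935853340979782608099264268008035494343121931660018531520647196893177907590089492175411585865069312304783295118290125045302147820931755205305518998486579935844563870512449102549184597446006891497052544465556120022195656162776325283556564663232160848840771529251726369191349785716962407797926628526625704058771070721879760508115270920557853339927922248833055801593603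3254174401183346928148876884876940800937119589620626024714832128589693111432207401038319667431835979940484984284343993553267426862595647340470106057832099289600665234454062102555658084177841406176344582774672508608369288351792378055952081063878977299948971040282591536799320690370848612160282146457194716251579070235586040790558378269448340021513839716118895717949169911552945773498546494983145318731019897399693910109807049553672799286646674247280404551770181677262627294250883100162853409686247818651841461236438247941990344611625732795187614034679458796022243427142757431731054110698625623975972045211574826018969107323313585765319097815438364655869533967083696922798307901357674555291208963246370302476072240469015733273577450977179504962332694999892006497128262772574180583139304428695790885832075297759096370862765148583797242133849929812290581838131200322710184268595814178818377507191929278262489974353168597854906022906316833492977483968053684820405075099251315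2646909827531539864375084192017185232080075582898154899953525946744109958970110745860683848605360061706058067829953350520455964912882453032351214754709283626985161236859164572883286704887684821701906549311219992916631018221767467364402563457407083775318370181297150131733596277341053994119736623759420929269925822115697813185641599596805297312440916928687981803129294584369316923914908336810426849699109422207746195096503512395338150789213471225145589263205383345278900324099325591224534522908769054383543456366641029381201368874127086441719289815110095778772757925755754655391717047935104616648384206210844824921883220353281891968268620584488655969883453243979859458163438315425687296398458342025872398278140674439222072242877260759901238324105670657517279479636504819786419710400336541418360461797351372895140260229554517729621444697956567009565547906064461028017993568617483779803987691692899558400398784013346087678786376698068112584759667476816134026392418793073526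8032678514418269158279997038530983056021120760852713206784836266085743179708673401268837992688856194286707958801646763503168168152505596783933691323336424761594140722242516543518925868155978655719478564298131190013150349308788729770648905265973300266889073552703743635785087193362092486220789989257340567550275943891605114591983740901139415093512117626662029162317647949036130679100969211169682313747005020309681861863717937528878372954408671058562371017578791475732859784418547905660975867135549541020821051239204567409705635686805848313213782507619514476713052319174384741683745448071318029369214469478960986117521132402889303346785904687226581405868631898454254424722017327682978753607703900203589584801061187725780148616391116063166350894517690640105039623992946205988226918046657804791402108609220306536650144291644752315362262774971109030528374209470808115879356760653835554858872758887752741476744707937369491500274121534015703251858888666699113243511548857719431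605089246431900984161144554916618670562135601089121140102638917927414344002075735409946226229429574206099495761648683406317306508809620316797840444791328303546939439191286681873497779065961202363633476677726225970953213200631948204459254407810808406277395792446928956441406146303177480319758626324410370400414032457925737604720032026083284178542447073892640192455995918295530315500040699224646380983068145549547374271045564090593782353182569620814117248621180625834399605698629578288186785381982005818220249043959808)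

noncomputable def rc31 : Nat := (nat_lit 345742878742038175319002172676438302251516927182206669966957191562779258655841960049537761250787558952257501020437831449992518577410515041273324796723285184341209319688335089906098290594497254498303000740327874607199764561225460245655124964316330313706203775779824863024979163109277739626229622524173822066426891077629780561724612071340532654321365126030044226563555023685396246826644074891245452784633682908735348209978093065046990517200949899581739921718498379796922141439165343092238036400718454858077997389364181139827364736839663907212878265736635208993434350117058397457260986638815551240907545466911535442905984832556784747707615026543359849325913789496873802992590998978979625673484396351513710229718020575232594593370303964610346663392367734301944284435930336572200409483390604731348853611687701891344369794702870339449141156019154651174999933768286582693513007975230309440789455755202694350946935056054508463131868307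7465692924911782674732545845304108999926129658123773294618258085758646932844724587358962045429392258536342045838328819646705640442297363922243103386571426682991286967624312688397799442269367380237767347799138743355657626202249072055280994375333877011300071536610849693334547156267665495944802218415039126373507227319002464575587132575184648222997538948085867725705518016860080627868861919095500918081591829711218230610473552174779863930537401953510472701818088798882487187830525170797795950372760466774114185663719790021251948722086008451156709287674769338896877458852896395246385959129530804942369429241952674127569749682995266838187306889127020056573458539016839152620790963341502277337395905574609661585227692432246495133739945142658724535882573965840744134209325519324997379860946754193976333353560868536437062465293579517273860677415162012028162344385917539745611345048590027783512723394973497322485637873735139130269441468264281718773487047205332512980904947448051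4622858828602040801049932802811071823734780760385388324154946964832892084777393194680045900131153884478404847288438100034177222129837225069901560198373670480526284808889896567085987806690166302625429185218742966598441739493020831444066092082644036638934336509528838946893485944730103034917129185920528627827503433327514820722089254474892993440680007094641298873349072972223517020651589849562548769916523791797299635099342311735302317555884802278436208880866012606191825916412934601355277360426141449810955996085663286183051017837659117307411066675430559588566185220729982160262806277206744902292065722876420736499170080030687614445404453416254843474105019995849987373666530354520386445999230811006968498951489121148523197495162729199820295749983582682156961579137666170230317340175180055137582786555500989745680828411554335805119969473319904852546562921641730931218616487694798968425401514376491577255408543772021059749849462077956611187823843300685288895528453996925059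9335569174420291708178244221077269802244190379984396515277899460598479154803980143820954781202485788977934888767596567894103368890582306867453900001111077383370460756193540057408453297987207511593931669631487114932327227741815978690302076675770270591589084168824085522631170943726377076425220153676618460541652296414912260424657560611878765130565109230320519167222203155829422271065272699640904683052954808669725586843320998597660071887146906637380318324280184608267315447260748751911333899283607766112826695032994090547989550698913537440389785666089727696158026768105622530720178604343079753359170306208651474674273484930429882520139762844148818194584464796497501461904825309063791934240831087096394295191744639200515228214741330325847497431730777672065575350449202277884626976985394137857322784131189418517296489524625314306772884928378286471628718323598531533110357839392931882021420872441961916496960128919354816142768820512849668162500568888059622609239427486930958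2107690871135057270185473756270878421183422227818300215132788705152546481290339886906102122991160314498718507034663928624011643972177669375000201067510064491091059314977336102478997797975566118134113267457445942617254963788915739811956153381642999204413527204667533282881540762723007202822772309927496892615747552774002097359447606919148218570779062711596969608247320663106302452679044318991369738497105661065536811391134247374980422985102226908217275225812689409425403879526946279163439943894738314073224319535137855091863884974256491349618336463676126147522414789691746412987602227462825129818975018190015859601264788966330072826006600200863810929480091676510439247488518612098632461676494912057202285640372810879386822202128943994224036460234823969809929743301492542369555097124737951288041892534361559973598685008821033929859440744724046485400557146221816755414933703213276247700388463215903114548653132351204224840058119337450841972470607246549477408330404675356964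5835821220239863847313128376760295915185074502462577867411325786571089227128679250831614110245343603153373278212864953369167315937448941176944869906606816490330621840057805594628686725258277849333532100331191554410480371049654116804989288683108020011542043708963568950859593096820824661584843787726313920640378327649374432218973231801763581443735257119903287702473768291280897616703891571258830707106402773865384936358452515786191952689588469180187908905408693685727830311931204558731837585263805018865833456078170569030792474233465125737852173014192207510439769992888413993671101232914044738961242245372068091218121564631412829270635183998876956779745335023745487225328477084523569914004237539321378284953156718389096130201698778189493006391140478008469968522541551089285419387616193694277905726088524240370638916227248939771970467590225932928858561289663563778219490503701183665048066097573412165735260127023614697913761633251956013780876222175523316412391402837860325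7854714899459618382585652061867121814194907779224330915839415724792474494669022846848393763862498670758720120785611768632603750637995728329332051268968612008987400843983856166989524823767062390501896130104832533308996893623888571129819791831981219155034566152152661634148008703170579592074174036257968493402660382677690958552304601719998430225909949123735495843139348205551939163933407921107855859980223229365722251996873954877052201769146894368867555128390616599072400318722297996337607369298671816545217640196624400803584539357422466522621952155363543720356399867648716194988959134125152330325301449884803904105120645043480456493988124181607883257034419932147471207743455461873698058325782955648511843122072022189804603170505978277203606757440491807950518348575273487248539149542077641836009679230119433105653468299747572818882805730856593238242133065445709105388083286432725940764587168684691948311177889723302170169294819948002247728588338787625755745279685067556935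9707198800790800063967656869552256556254073606755649230292293795311766743919747253915055290937408329633349515336484370393055513651694468036022218263519498151485794616112215853082432278937319155237212990898717087746740806794467787527385237222085013239955455058612668866455505344266155480881980278662966064237637710985633424029653535994890565174833500369640874312078363710634161314010465273360831414243807830219569033342112619574419214990494431290581006358276397610266113735876977757852651219967782672398917861299394972844361326026352751910069734522427050377286641651911920769168243219490172645942162120749794895539808262169272421747811524599778179720287091751935137036569772252043392474878307873326046375776733427560340561454742627777777228211034653266985896053233244299227661623343982393754241084649822935553916732721262416621505625757335857232564541603596815274534364991839285490661981653213793497738658469986504762483603326829301849386969179086951326295878664557360092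6717998579694363410063975942463121853347639942426612480260677152184328739884266083286188047166277434650315000805528718060517546789976387400387152525959540666156867963719106542543841215924956916846587086445029064108928520755991290921880815905732787982347820425494231412735906160232528323673315093063319014497835299457414408671171728989024394624694832092718379690936493621881196484513321449347924305889942243547177518688976896545225203549065870886269491221685632181256302720205618632185737371649467078238939597391362631254061359266617338878067204944581028583372762067666424736760177447574018550010558040611674767050832962340176465357241087698134479024725772800168310450302103561253155489214975801794369193491865599861688749837630510030341947273261929757659247302752170647887294264005020674626689007885457510780726798226745001312910593433593719343856762160500064970623142660372778542364505498891086881457178870001070141568049538539824554560690797787911932954433264069811628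5001701282514832917728412894503157864891644079603694676019588933485644211356791309019476354553888424936525101140900330502173619093627529685729902026119396302856371712352282778427952256099102449629584887914872596620694833924317429078825527115334294833777592615303610871344673325235153040419293499040423783915733414231179070349415893141306049287640323535125167751284953074056611893543053656404789356051798611743387666742022062071331059784440115939453995683173410993159241668112945570459507395322085790563685489022924087694101312035541488562504044867525340730665864511821211491883738366242824467408849052950338644313299325218217600977797133653798142664982905282014942523851496873184084400210583985668821922362985393945227280356570675177042093806809540667553738151198166562385434999811933684451537036794219652043884176182362359878619332395429400334523025018974634675951006306732018963427501034524171420118129353070278333688755574644899213767580635231601896228982486062336754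8237179565249792488652068482652475408183264729212358360729156612160204971636967292121759899335381646247223280801364271880820953541252134445984864692843187556779625859748667285073798343324897910687401723279283723131265746384886529166718541504184373159735034996068681341756564086245252700080489922564239269430781248234694864284766395331004811515571663122546735873115833178655750749025521707128629281847572694167472044930050540811695922360844466385868846882855680468609941565615312520042750175601067561291068294738053733911287330920706835408119961510298379515046193594068092022649878193701804912223084688801485657209984345458226612428817599031174429288858283347886622308964378333062332497825162455696920940389085038264913630927189983265246786985579487540451216001936356744311802363179104565198087585279472153311457398905808594023672823603484423527697260558597805480999272761554353991257657561860781906150444478629243885986088146539315263871672051532238400976346798912369787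0265348509959500547346369132889049274016966473470104063403464804820933783580250844620856746492100847760034112922958925263129266426663321819150684553222420151901342209784525476316117901828607768658103846015561178212377100561599269778766228089447908793806173653125368877408664370025217791228496683380824299216357717951116999013866944893485873465957694832125557684275571566395720415113482851379934139421832356834715433873204427921832605866939141608535447591692744289791526904751276307043213385270730361154885072507843046851832106614287141812497318879831519662808594316271482150105184672760330354066095445767906023413933237455160944168771963348494588617107362968924916599773091990752893719466189651997269226708790985097437106822274239338721289569660821321830275382389084609433430282151183655100301547848785877210813368578577287504400491134300669362203860152579924744234274362692348713467351816970568406790274462420770433343819463695816952815637466575468438561647666716354099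4660027738536011742416255086222551990835375826468280658509418331622479961867229051487966871041470718027561588055387371823479499971152070843796000226291620650722394251740270732687385965996538806001924345128777646685955481785094205748669840785724517981749080130905265786261259410023847663149745831704065393771092091185487541119825681172573446475249114721327353478162410913753981085138690768227381260241594567310480858960400592154099657435786021355386984022676859834207238994103678315642727414503356990339121986375997736889678304756142682255176949700380234160540828660398251032669279823162320515840874382575286476451477878963521016424724593326004448234948447276461180419299061596488510784284576334817672513682764250591770046765578061694796258572433069990554169211979919085751837153015140567236862246677647460300709206125248892106748022722980614763855670712737347533408761621603878353809768979206502197792222773051687895609492147436389519968773382529141072581071525187221160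4897310788547777809996286027001556037825728310755858020908975977484438541642016913310658675472761121997350837483187096682963957846202033647592522233123221124202028035241117246682801973402654943452781565844712149267307473022326304287111069431893348993379356952126526996606240983642354996797998353137100420638889403848332151003185768988396444786711561471477736829647299854233529152659847588393654236086652275039879437531237847077564426533393207398132652879899090395218158495820980629181339282534955990506039254017511959316655459823012662081626729116627980633251921185146898716813696918925377911653689457427477486143957848633216184233956456892308983099663790666462000593770179491844692594623998657162752593071816113373992430454023218588212143872562335542827184711605183211226496865972336494358420924761289841328702483060808357783263429159680978132431105370035156935353646554892732203446250097048732269761317642189299395285305519436414821268966481489867998435683574401229292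7766519065980367850611954616881835592538905582353654882591490506982750851474945349054793873717301601035552511920980487799652231799834694332325197432755343633817613133602968576098127014732498650779301981915069440218605958517440141455606867665903847621314021090929274142682603007423298282909269020991379656225993956000999098729600249010329559843082895840332439721269311980389230515330459496809221032119180973791820570315130921685873621634103566567535351048327131167395570607534045180347093615533475516433164660143113599498067033878655079960998811728577413575340097818995871525207527216955540064046483187489794299254218708772550755647172004057754614912347625847640202198956525765212168075227989211028664172216589236668431838019788108463427565400882843220968848614451974664733941930354852065429255449779273537922725320547004572345590676788644451516126408737641514745387073404139863407704625672544658784659033543760006302222086350540336672435604999314200829283917078491869029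3341718573908911744745963072495717110962022443233721206950682689544249131528437234998011581524553046773969820986155089228746679077629238416227597410033111576307704094603235967747581334567530077330317306319626335849062433038013930150136339275325653662887443988688374409638341010608693727045325971955701638606983655429268223997942806632976343265584741955099122564380437039800195158238741427480464210110477246694111695298294071119991746790474089458640312306285468385110649520908037273450199700329116246668626209582222231406029698704636495026452148664072628868081476989144574564694612729103521709556476252212405784349838353943036433281707964940428616167243151172089125284581653269786796038515845642999349385352184232466150617150997397767166400936981835456042102763072155354345750443111845207214631183065214701973649485299942846160770417290358928311161415725476732821415347847973741228840027988990886108935634979241782374469798436555445930088772607952462279657812953449488678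3357277967989711040085989677320819728281723134666639154746986692126508378309842791994879164721053377330950616684768374936611199035583735861490946789313281576895378863771914310695705406425030649948320651205706902904278825580481687507367971139257074082558768158392083562225814874544375762598813184982802703647481846783369305291513454446454354129062225018357066036554522649623923638407221855548026260538058020947526805355484125917515492487618246686463678692820738175391704749996011850411114590010481681693475874083212093590943147026630601869402381877566876818818395629704762783873570395912912899435263056651081781284776134608274260825074951384946981314339253176489696118190633610108842084131174758216487158615248366877979548881326666846649719832444783139037495168221927529140135608908419774196243202897034819281737399858729045798567210285657029581250283043408663511009470701546668971411554873493957993403546294758447484014963444012464202533950438277046005912250631006625344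6720416768259182919093812625464567218642265760315737271204813224019952092555877818641993167075753454991326288753614998817128090548066437613290583820393529701158146502902141240548860779894676630776773641251411995927150297285487506909729720129000433124989184937243509755201938951103555798294471102300323791185510339722441644153086589948821662570074197444489973768522509746141343680890558057720859911141124347040152974518654761839494563908514059135845827288294262869172876943367249894081169928444615693118224567253507686269419895060598367772396767586861319259364858408930403841461950445683677051764185145793142883460579683570936528974809073955993781122033029739249792432362367824880901072373291532742170233034381419050112387233611993849016698327800824353233427558778252454610964075528795986363977758909987743465875965591280981313587348975577981632196929074652414854446709481472706761804755298096252648002281123599471610079260978646009406334126653159235067160586652773185581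700776267597756949369274039475120276876494276248087758899109895635595672975638012968695188915293921941957501954218891171793387291369361848113927675645599930112412682972915614574824775966877695444771518889376641257254375780741960004474857515106600839631066020359254104810459423309749319243508995192691734487078663831437694145876464311143679575524659576158770522336734685424573018754448797479382376297296548445508090043032430445627728101658364473393593364659411456899465634884553104012540626412886482501601572237082624)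

noncomputable def rc32 : Nat := (nat_lit 346553615892702791603177948800447924252098402528867620513213225903003597358129487285165343843479452702884624322309338375435822562824172499935858080629442292862501132895424183153942535275810524360789746960263346250739620867991552366304039309892892695234570401424229498744586148120369047845010594569048862949540444504402488660617358364737771798671927386900879530174077251139257654084199916369426213845468485071030699693869367795803034950072526475814114153097399732122037162132139373129335717723635586114414394865234824570773515142341971307493050323937605562334527883852519636408594301167562262066826560854084247194488389519884757425334026856043002322557999139192597697129559834986727529978662413041481970097496160254467371898434126171668650254647744665511667926396874700296909884629545374830555000973832328417261237263846748248665238024538928558729973613135316522307683297129585820891484446547335694201406241417821341431253166507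5282214677242701618616612531806580150244457502227725366684964577713647860811009538876238545674968008110286418608799825236564730377493794537186630938469172714055927963748934943380333608553430871059740885863495895703470398162091824686223845907094915051205435368468005056144853137381888818151673035511708926048702411924401113915465453531095042669475248593247094762237344366200934203329241012563958611136997382928173227147449743515855089636967481070928944990729622507951137240962637904786471649137505637588326407210262594223032370590404729155937856162322100263299361577940913476908536702568749933265089515378986867194481671788443467550528421790513130192556480263854023790830467403003034675959537318088388697870038637167266408611006181175594983601196951372235331138455081477483547238285318756761318543416115097004099390145761027599202142266899851226146846067165758445285546688867830181270184182243790518634053525420531015011036346589248524456917688275318076431791233950680271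6450715355988248431405673013587765471840134842230379488874803722048441629335773295304582310465216176238161430783872098108477390859709047666312104920183693780144154821148395590753763023976514974735470828159125170108883483746982272294097715706699437020320320201253850155865926201213160713602223049647365260295480344748211990228434300468180717365568262034181144806881502253717216926557642895498265888266795327146317542303701197071734486336744076053179949831832840593511452434715635217428331529566565663503366721914522084251105964798543308185219729787634443230760669970999925758423118242607010834021388762770090737060533351337839849377332882692019239424184093055766393109464952138852393213087481733691341171542251363330336501909793380803745218620318260840666950539860380441262480084458875017718355628594515562555873085545704372905316362134385027408132630962759958418617644098016161716018700469137957835296179009895735815002431454595919492752952771942073375599021169870268220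8978965831988096972723063683196025470207811752409298575463196634175888753778855823465050606444846159748795512210593587456487063601970694865185206148016384951930836114688551549283881419443315070334384101382651205006480509065713575613242323954899942733867249355402122989321549394029556419406604521305881669241718829094586981750822130801343312029124720301170513340810273637670740120904138911154483393637439276891905349845595733817570075412322247957235877282456780908864372130064040506097116682877687664882809437112489077096453480194459595977617446254246353642096371154224660469128546502219291548953636975587289289796950504801386556890866441269799017884216957765389571618357557818016054803422866765515143686644207785974813951932410545462866390246947933455473937245040604849174224436994571923530054423749147579819645298196413413227206463009338469870137481912912129970212131776597723127758818755500185866235757890754838538638306855098749746406988464823622002633186610543602368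9624327076544811507113067994582866663572081350762793279454422866667639172388295186547506423009420677808821509448642006764411401976572098728714948979944117765975438802382265401633823624680996764188594389108771702202514943343135345037034552133498152064387812362839923040712661656665156884995938847667751671399104670427930686247894585636688440206973889801031107964187831936622066802750966736447582817493105951279392644277045974759886246657769801098920116957485239983571313496608412746921180444222300532628550664431507579309607220069943287680554438007771915638594243176041831862488066372222379102750283753846364645464299891071852911862307053639381038482319743015567630690757169963643000215885368801520780669072855065790038053802303029167864602201918283812992429955909844415949244120238002553972170691185452770106678615431207604299299361397036695372039989014939130704802779943944914874814876773109496854340620314022088664278856826978760257647725579751457365351776234831839663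0221997298182576654033501251469551115879223219591381602191502446621095400635431696493730821462740524685809598050445247510803181364830779672188058676358396144491775372601982672503470258270280834725162584349433312112003662227093493756304807089091023424661216587468725646427725605901778460381162095935795489570086142250720116561065721974820693304848263419896530226486635303762804340478997516140490035913358336184069356781328535657228550410594100457072475524093911606062648336764008207730959882297280232857248989978375961123018594145525475289594943636563913095013768505226358967388144502582285877044343352794795521250078400492848408602665298444107023427683729723604906198839692932119845818854414407535355575871429340325406068454696454195327765985067212388034728633919922122946751563321394604742907666078667479140958185945044830867797595500599761979662751944719292545233596322975661937248244764494552038461850479895070833203908856463976063557771492125029884126662396515739798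7149733783390567664905743729789932230570739471545988975765245568232667477636387086441349260966605296682052783002705946015181365756490125351361180044859197823783193633713594734615829920977300015200563602544720531411676396368659091511790952530424467444911752147864830078501606643451481356319158222929279621578118049247843893362395950147862844118630384414174555372963261171037518991733285303191630878101825344422851706676773238097360827040873472771459306500764510655541995550354810157606470707518311963937251071286726073525351060911912845763031171348307147096622728192115825000384180320230683151895828736266200927799525042094157213019622935164435204069842625944896533202456501774012883418754397172779008466619691599303989470347631567732147748570255648052210055265204261888365994903569386677447738681868441131591375215249162599382348293125498571523055894259548211649161067305524518442712994145359935002386749880470181951381970751640294655604365210868259803905712932133926742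5817247605915982723758192174384751592511421235756095142389143175399656029677388932416028079542181469143556140561572136264152262572742286075213512647383573990109801627136838541778115296580415639106981285025628003043320504365150656271214728383138019369052436596711053563174783194820184704270645754433071710687154368814688148778479001308631915580929739978904068202835066310059962701504007954123517139011640397243677152166122595632182172195300836996990441000388234723663875763718235696432713761651796847929115342813582248608847034605141828737839611022436091043095775113980196581910523016421250138720596832693829365279604751023942441369179827441975641800666319232362069961684479592817584749629041192023336571393253827117418466172825850939562758937915508589960628208315838419591676902430364129900096307605502580996929927039085949029682474821003393361989932946493095658419340698671927429262480519111186464755236929106514381787499722954331528551478258096283726384564327243189637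6836638277894667612938052874471789082237941615769036103863064751827790723386196083699334585215799662684230877390699177001832494486178279050554469343873489248330847212400135631099201081200920815395386088471977789401173788139458018175558497583107506001260236967828639372320618337569797896280109694787434969987825545315728726809309359490360283320339097650161204614843168061304866001657109161026482150781127233138559735141477279102034414658137663144199716387133976376900662746750034350002303841480980440494864153971255812307830607799723824645791347795402577061077711360563176283754764337066712688360437706618893476395952706634811974054468101557405222926400163006965191407923263467497384717874112959331460786843854989667393389423240496679696881480717475146601453389255745561951738814163246205569689297913945789875119112144857321271985617235974742426272930729533087043292165373609575488103534088586113577176574842467833984759915519956684374829276035298028549147253938334918012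0550611203632148277429509500216520053595676050954977071398912867180096345406258374426088742905611516249021525453341592581613461795178670779351278880506737215190951256806194524648023334259824630481653773031038493561325910121333091576842102028519985873370279804363387347521299706327124270673615649427147007234312368720804394774341476472693493758944799696085254015077944153879158362802315687702338980898113155428197034270833923454715644329035763529469866299284199830516896245463907205558656435115563622535928531338640565684520360388335943781637626219598482586744833476234835335743877867852982231540146544244515028355241513453906490989947768875759414197175274904931868605297975648317735120609306397081217418741295722722665604805169142832083109419608086132418496014129958455537012051959121096921796140191845711767145075229567948186513927235314343893324389030726244966090036941561830252921460018362041078041415608888903732374084824803394987230418115121133796519916742080689463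2266432259385952208967352647673167560664613615544095323158456588273909816202856730814623180845055950299545895834898250408720154359351066819667378619393593651813700510616037281428535350245042081856045676733495728453977384782062810914584778990174680202219821597635769330816720159495198914408730131871489504969047149018492769262056897264773632557359952272487575866876358143476155186892432126942976820549912744668232421995366311703582498556193015039339749269881837512190971276312576391049604744321176113615950739997854392232503522049327024852488997328925806949258270966894824102990824342787912013430890669597130177289697861523390107680983382318651475927913232314040095717376408691775695089465107651122225913132442297255767343326362503506806660390369163912080621202865937791963257226713094997220656996130775583943300060245636059937410685599516378739233661757179233450860183951169775313682261859343524537032572131680374545575850733985446515314435596478278768670287730685707413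6715920945513982445834063850640039007465847797076971307791929639529916321101123302597437934475350298137766940293521298198823363416704111678348357038886999946964692462575343178568808401768960051996346850937283585285711066589035151716985533558578829130439286265017069766648071233321028191383256743342524965509619917980873445233495947765127208200579284070134125553604254057453938728043376576395403830125709749589900960456762619329018835788208742786212293327350605236482244061706931390584499041621052553140828884225040578221144934871743346141574332260741493938960087958811637970776841172094423270864111736492134139995933399393145290370287015797203603221912367953310182169949391310789619030746874436301958545899350480991307594770842255326363580663096881239694433854514318732581304506787578213593823732861565240698688102524888823988565467574207174551849668026270825916457217596303574907440971949408757711217014663586192491679425443404787335049555355180360105695455061126833232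4059367524304657731546956064711796858597147935012290502519573669272039677138392137952946909642120124837453898342705355845107271650578759379888074970894319937224053740744489373139775638816788316105219902346801676699435057203476698861846461104512811932386186091101007985136647153102747118140470350206646264945712792529797550145874802197689486964058324985404610261486463611769010628091645237080637253339366409516693358116831787617695717152294247042499170904799307611838857888803166785271406350031292539905874903855710830111752946402848250746898496225962848807553222866234994853031474266519471144183561069995914088922225566908434369560996940461677838110321027722947840584698840469770039639379886911841704831439230827273272002308260937686250862600186171708446463707898297290952758687238384326850775503904830805120642009013637064683708496110731871406752765454279997291536721689033913596734812833357026213380891662653696067746687803202189152794375868838691358515748614379124916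7434995916514088219902258190657683165850691294353100924633554042858232973376587571325325637068391870984089979041873426683299564811555871107593995835628473969020397126488184188882494954886567816183169248514195241423798785215871988877284633008960153411437486640765699058291095509852756937418854461002743751786611367023781255124935487090904612421485807477920522334052703978384259819149848213661518306926582370830042765777861509922315721661994986531003122558125220329666028931157965673039039747592810152086896670501116941919763230925142981910250981976487298613642685567269025531957389050141040017733200745841868456302607965485579723262575757498773926437939761293755708079961262179089487313160612585187635958784366400956789488230996865199382272214092791353598529499571105899383781278304975362138501200062044966125283116145833045081401775745941095565794544689162748799352421068424269722933194963650248140389507862391212805007052482583980448029845964582799232779829381609947094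9715513805062727847736279085482716059767511122026095421199298945417640531271084013692706037050668767354686143921979796423053609470039520551568171270700531215494891704662355361341470496264748710316277303459980074387508398626183011335634686664035738549779179499203636213245973045718021023766373252207145398132616327016956852564170733587933305217758426780263075940366086074859627141850977680566860157015601528392110264851674308212654075122569534662882711816606647443401568192563350240054151944124570986078233313464154656213496382357560616703269145343453991600910745411991142063033016295642396408727772845077565005328838095024035810224203328902165287692237588620411690969058764619327506190741108300783668985139039773944974921666477923355378607980726985210947783978320001415256539815739464099227566434204207190798874487494608101619935741925837279935122672532612093403450050878044685815747706494262274763818507567045977162273478965169276237339144467657480887971508838222175110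2311670334781016073813583269914153524456230366294363727795485838506072752849367142238273981431238934001433178636152935697020887502386933613381102094012482144991471459734310618997769071200175482855741579776743856433074649448040966758872567190660487336292861961618054150785595750495002974241903895449156054497461933326855731653682855242667289214421001312691487952349463342576400777731745262065556575387949955272549089761028157458505143608439924670914772106450508087204104781408384861048683352874393730761043665707317548740056002944775373136901572456336609672242386959382003194398733874539677218625380164139830193943988767794263739125520814812847109059984404792309209619335933163450915128776261975565013894035615159681657367391738707270484176109335744933993992965366074685961111637729258457711608547389759754465038669052056189567965452561640231281424715710665875921905385624116394196566882628575322442049591247501074477021037925333812362893710776518645099082608982495254226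5043951433315299335489964797390853487637162949383617776644124811592034070807653181291341710629198869012070784948820047214529933159045070344860129675464924571636029889621469435036256730708333765247723222350467706247430577149433893176465300925096488732879524254486417970110912095951257877782676255562327802976075897732689895406779473950020979993645167651566227836218005250096714926563312077514128369054537201838072190869187271361904092236622454497367816517921522875522591781249286793255971425197658262465525452409486361261986181400295665231863413129040820323769504399697348101424653772799392088295946157844819307514123123199714725498977387950728846480864223654311440011764370294680291676389360489748284374876347677460144119172194170111294694438905417784498627313988783501377147338892486844873716777575072797661468029902065755384982076799089242662363028438605344102350306146328671857898248274026519455697445177905852382296079937528310427783520972608592953278007395740964839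4611500988196264394729516182737433336447371631968556363758833305174301233419968462735438334072314613611169457777759251730644222991825755286090025280375544015471159813345399049206298356890100657707733896508373726045091998620243939828435016969516463387149724243939335462742801807735373665221662907667174808269699912627061036125395508842119605406948318042481269986585006729782869548247450198023305487835887966904518110076599981334957986837033542424808951526544023357536302163775667310635500757750202432940732734832678274471024801854642143314726711759539729589861276996509438159978588165948882862512906556209178879971043349175928024497230599895937217218459670361553305632011261642433814845789647835167943390087843002481245051985688777612037642659009056588654804364640493547937632098729948380752379469914902831501380530808627014947173102042112635984585651780364640692405073643165116913435512771191063624632650860291232026529481898547588611236227251317694407261010600132415450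919926923454402825861303561961556519622558180492655977800907119783504333211022780519861289271115640347942267520693162409257898089505851343759917674780276709472861443878148770807461838954187757066193953461987006705206610686357974540698308827277488714455054825592442372565504801114535673971058057069798135832221491364813032737293851498383329533363455401305921015587908188002606158858507728475000409667497672211146807769045121062455363545536450291933947229011418516838163391945398271741273848500577039838331537708810240)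

noncomputable def rc33 : Nat := (nat_lit 347358180716560768135332021234528540982561270777492133889784863081221737152005126727736458518128091328794054818108274083577331656100995215143876849504576533387643501100677812876064089731104021116507077861349463081633919148563521273984018492387387705218871786857423994415369568624405711262217687240584300221228837800472859467313782230988583595378556673232373731785382209109712828785069983065005040576037584640185924762888879848190790233456236065558835087380237940924051086865952133934434276948283288410314616061994026531240231290589362483810126659216745155485196816717592132454001207628707737133294747114229184405900997645779229241451423554914532099345372121062260185960915326233775368338116122557076357573838291903772450652504694004703666918824182721969879782779720453460697562462658898724542663393326590729220641630522962165202789679384165174103116552838637925311190527971239129964979503125288390609419173428295751601578038334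8546081675705939878883615319404435251003228581192290055283145508459531328587611061111868149631233917708359986507800862909997295584754618515119106173553159813394836260670354714076477134410771064403273121198257471137449639670693615095539973606528036769555975079487139852789058048389806625958414039846402679978679569315236177651883483684187074882240195248584515820286600766399428780346948979227087774152871334285278355695398141959102387986662009835026723507979302821308223488876907507020125699580275932283266963295482101894253925074140087329810082875049831924884867456634646872686716118944795794956579982579616939029574320443980559021604710414535282154660838827023018988248169385951729792371609690250054432803104775687963007050083265598665916082164079020648394828987724906085642306328138198734474026903898497886175405282631031287123117373151759075042887903670188457495007405033779146977045793978050200888408258853231380960045095465296232530636107094901671193142950944588573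9157034198545114251109815590643937089712705715891458248922398268214828158231736512825633195963535923585757773881402248125285506009518157295850225269274397900971737826755110804645223693196838867655823874060876424249337812254618050374826662963010237262484693111717235821114749508636814648093556174788889186172246751884846185966234408432333108288044194775639619038124898229343535769029992215725951496305805712479349550961320638201983949929912915382561237493625082942712312273555390076804925760715376779170369328593246334907401893976070781156455902385429302014191471522002917921739764895863937473920008659821519210339667591679094216534688981430222869906325368731360138059674882678139903934317772956624016081893593076440756633083545951213277667972472497837823011569052254255373775339581416488775494453984752928079694011554642463959956340424018016218787509342132064461991584728897082452930687554402872089942735932659008929231591326753336115967918291118135500934421237496831450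1926181643940287749234005345598396135892806849711161864000363007256480217141103869161945304312417976525517316308964473169719675491364554562591093343427952405787726128059331476117336586747055396217581228152349724269838109291219888646183886168416429375374222516331081438760727969958780095223953719078030854398828397015279587566743204234292283729505256661076813902073715616213512389468130778579727087186943553705358440023659554632423079387144778435072331654472036331309116567853534179987409604702467649461235319753940373840280214137567411485527928090705703772109387360582884708713774020006459515481595564240435707852275458179135345222101214743157603621559387206198435821852376095989511296584583056079273270617110838295164183074524884952254536541408415583641892760307234324006734059862300054146420683731946634032334157801262360931449032784588273673511831878224632666023010172515641168028198358852055218749676491009303717158060358557065404535779589874544332784769959745094912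2565055703101996729340467652655791871445329079763404361127607013208530063066945137062161737466611858023697521469371693746279842752049982029570108254711466719300655936496799771388706463357221963205072421299807118002271939642680938794906965387165126546974090221467712232293439616305807289859464687429077670559457023086066297177130046853332388126394303845152003241663337368516273885426990684348720729898448888795355490304398969866983270264333108849531702337039261030988666145640826344373624712478884578952108791526703532262526007837767558529149489878856581123394816784688950933766734936015777936943356980968990039384062470383120984967580489643688239148011076196410675634979224927888767484508417296481600236877772471194368273341377813033373134661589936184502320434185597495844208198203771212118010575064690445555715455546520664057966942533143268556505934115158934102240349917333864440923957635462829610572202941667644234469281811034603889993772697444929840902128103199574223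3723929070489700154161157867456543440748376815697050234641186473834582815842940940550262576081871489088945007532053390750362520698259772899767108441326667790566503405462146213959329394192574051279718854077226646561303283999474928618250296176042590540448463669117595369918788109969733524069965647497160033150510505402004996560092927886600773678789956704774741622077350374437108142848161325600681144260878231452251236147246990058029092544748192937915899950439018123285633373956949438637652973767269282302683705822189277103609101952821371051959797752029188017124057989706227771812013774327789380706444642127609046545155574690287481264117849006073155429631089147452644349402953468881941121294706075049359483809217734225966527321670157011646065043526818627432096440672143290008572765022206965731095884721812493224076526589007046664273324982692111974516059988871479493396847728914996524558379772256620136416898118908913522824234738291578251995016583084904972492108743206369896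4866194059350339630781175512797495704224011781313595491839655442379188467137767140844633625923482632881671402375722055570319174072707994722873095497999175318963150882713776549895763090611131649910983214860972005942320347548396545263700475648897988100889577932867347413126627636893772352188279344797797153889412724169945029671379052764604750934112901915244736270355446603747160819863789612933107805054179197918316768201344131606735198023387652112795735306295614637313013856625580498195865408710603554463970180495273680640062478681988253203720245731406146544723213612174411255019152807297965980036874991848359852022087772420269654734524528984093517515213725704997193917733235284611438154081454234473516797276882632177604274830848137661701334444804905051264049070162915699717572348377581154373986134855926853987615562216974672128342353524465351614972956296379397716797534089484879649695401787585524301412880096461652772092175210044153546435573242240202844307757329093132576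4681507637858188894621821443612865257702509862932910649270447290303281012031127270993287552102912764816717512924102933486670341874738643368134754159340208198406646425049325699712851056554895175952235773389112518507949625565933777233658030493054791743568720074117484949793338917785355855506710335366459394858958756866373589165148806374298190448130977240713450705048172272069817832321564970057185043934323096052103054903632834011251776155180095101320896628923714895422580322897301982715177782011565217636543180749570253630439083396253225554794112607369811002411981198218031327663063700583538827093595641930425261633334632956205684320232609236951208501140000579722421426230577226101649759480425010715803328353410432628885051419944962879190717330348985067504405914089445196645516993377556425681854815365608940114778571350278158419388844084846965834596161999879865975007640643851585111659549118671700216583282802022338288570424847876031611075386354065821094901534284492664365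4386614030714944119558724045761284547311284990180815832036269823935773290683738659304547112625787881047507801003369279753044978424076241200603214335167933853029455788773800939080351517403067695305594406755666490820564060001599447954625308444280470307390863664784716619418886692543347338457380181710546817063830223855578821603582604400046565872352997775692649145108380385385086694437594353116073427848396470269218290505818421744963114839541140088813268290928278176522575030539145469807133879924780078171236316768212298791647097543141962690926528175905206603330428944050236672975847182459881219094522148627701070286450203960890025247385115198783219158798143280707686901885355645947613553877562184945516391639846964190181836544001422955068094280951534790564169204604987310239562662581780312593666972548986343275363561446292115195486258319885355253565959223008772893918369062138047009021774575241188469516708924763993081833277553227685567040746853658635766667356720735994214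2677182012708774383895902627227181915873719540833957090460043584881270363412633678969678369527625537611889757996800482890447307528291777707343299601243748444977028925613029718474443375796077707756491109445811121901342764580349387946228962608313857136982034263548441815851907894150507697766041516652509362662236429387890862185893602575425122483063377485735082738370000302274879982047192445624446009464051189450802926786588571980504242757503814356151937969926869344867568338208859990805915234366226424522198126496428176465380291879309274508570322233438456375839732443444875278261731804564471253549323654970131895878445975936051797678915016545730739809436903849105796001264122911830623514373713193784190338447945105705267384359091455001632896318631026296596216497858719221265955390243972850631563726398233618820287144276285105334503376902729367583791297991965611276419686147442089124740572642494717505861528406765466637218942332213012842661720473407554058901264779181212692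3379942841146222271836417759962572140982703304296175860445081094995110017020845266466219871202248272879866632954353361843921123565071927909538004296111023472389614785194552691094692775727600711930860549553314234154248035006504713310247858379536006683989376155495388734327293184043719961212650757469038701414881278616524435640083747940682682836367464727433742816352024380605080774010291341653566422047758643117472440109348649931382695686693051501552075233142657354706345330317452401000773410490100568011936391499326255395942513570462369781240557288541195414032387584084109861182313553966821143759941510119556234378224148721749536998465697749936194723045532084895372175005235990020879340168090446233304178381862038602459112262286010176578354184067834334283145110290075466907572379507066015354457952503273159520648521723991981402197763352324134289065246338204806545728879019037786284846596512127742714988815081497228198052357646402102141673372311542726508096636522855264093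1075212381464111543740287891286587470118815924752139655548619020286298751597503400950046753883002188074263069291861994624052265735634723101039379691198813189846929903590979396757094590035516205926625377148921560695723601915534396631710167554500094562371370128602199171507613349262508170963167763023333711473838293629791342529257321059431156319235272441112074820637257252985838185253276810514976442979231179653912059822944207716520231523619434696199931009794315490555180443527849614092824457181252392817817498682794802625256496526744117493195022602806769962717772342606580110756911543658519111115893918814164671937436711010245147523761065061468654589095230565985699500313036211309589890201281320129063152648661197092791826060024766202203379405738182318597122924294298114496025965425822759849668777303408135584538994667078859416177563530185114905178083636395033870158105183450460392756353082549311674585888195902664783546416216111615538003237502849506700927646647425560023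2273245040130603239576306749186042024664511243753214997930548500806592643323953071377436124217825632527504077130841731235734489628067120538262682639195033612777088357019476459051514602195226512935294717002027625415426630205896388967924791469652257866198296038266293736337831383824035305749681580225762625714542823564482124412006219140356333055617260119029021549719828481329484744541441605227449359990434967788973353278939901171932950974648377609689183503331757149999476718430000526185480986769781208226433306617520588826287158004129096197748030418809398863767488235590340872989507458712291017362258680541297496965758928345982824003906907068952705869646040805833714909594762948308026484565544745997346293919618636444374637466254522661175130964647582752392470074103574150951498221411758993136488990957849707361271111973304055294946521420138739719026078227910929357575573822737621089191079690859423413849927115769375961509924811865740416337989193711422080968029189093670638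3048596542420073981809092470073782066421967525290617939744907170721843118452404786555197345825398504557288794169923088013740976445118918349041839195218455893161375197885722289824206935839340805514900560309548865586368515494257598407026809480695027064361501833091490432620968306092253864003560148511154198426499205401219958572175076251090233649337459584820135928667662618297318906817984564051319249174292839334017487812778985127474488554410504093676219563891982463224247259657540118867629569830704229547173710420779740047623616366170608880974693106867652865311227714939330826068925059015140830508862214383085053129123922298219566263940081110301746995744652369141332985665916545907619505745086137033566075403820035704906395846324843833280266552549033596356822202134950056030102603638838902156783567783960195431182951870788340713628012954769703480562145721986963333259885074489730970363502515801374165975145246018456276625100595520660501262368875597439306407750220564352610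3924023425444016256442870460502611246509929865177938408641488056643123540803944642847163750638651215900123515613130909948324677450075305252276057124168940734950178742913581796874383558881396714993157091428455550400404348188655560300452670775149261164454547595999051200741200188119379018875710685643711091851414422062435341495251556243617794738521480518280347910890339856220479790006621587772328061559505065684671776633132810390772923482194384635744176689578880231113031413852383825830300633585350958045847396443496814437782691618592423184490334427883607774745520142404366017720380930917831686656848721636954817240549977029374435999833947261209563277056741328110418175031278186075508924001101237796191850805262111478443431156849173731948439628810040757361513138065024217936166646302237813312244757851166467037299265908947005496264052908834167683808112896577798371576341422588982050671646324102806165328201943278830217918938777148176045018555607572266721416723249565896285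3750277668817721660407168025776450378808860146953867111468883693744052299904535825213614136823191798014305655874600965336982033072430045830096250122348738860906860864823400234233984442686404914743435874265630745287882616968947342424033839466114449904867429620555605586828018320873855045406089900447259633184539565384538863021202461860809749207135361374252333241063857314913193505441663802145437322749257377091367709134020244300705803597436486260300551998980128068810772144255691581563076341693134749479549681943565145905219322105192960875349160731246998288096202200188143192729800660622227267482155270531798899404751734968147389366330209677301500540355388167234112630562742369000803156639025445164310489103725742073640116750360803235892123452767202586197193726176221867468859966158986748054352847731127391017607035717514476298623453393582559639170318545409655450372941590914554328788649352593327914105230717986664728021947075275557312305536043484544921912684922755513053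3880370131214536607798057176234003755159182771838052522134744553378873803187770203589547037879039021191516799154254872200043061842365675307960553149006673843808281671278985408819444480321484734413465877360818452108913913370998641062850672716836111174867621839076416498521213668366461135920410417946571139159464991994512151357137966386000037462410360107165905133586913212881520642807698315582707561864099304835992849895667792073431160537578821435601856454167609509214447211608223449681544330537646990682447743609993910728863550164511612704363238119368824430149976158354941947715206050686703107856429184017443670471497276624238378008129785444954231005483939990988793873883816598538078063224948897117675918397827187805924669755390405065283419594692502943292299159537817415328076564021167501323572672524504512457831745198649922923595231713977382106718022636911055821015893181832217175652834965651521020783363291811877531375435279901010768262448546050548303494591563260127301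2535675689900153973530667456650923683567353271440000359540160406436686505823566068440849852307113371322080387516185244308525832759711818028300736838880857097389215038543368935105219600649243973011731971662035214254010789465348021097047263236981244939997132983680511137908058807973060184454882330119656809139438693246639848825370494857612383475314074618915190084361945187690057525509815864494099449836934517366448834988718568203475360548916493120825150370826743918966675823190949368537902877300743531031405516466076256752637911334963855038222048897391664980539673187324347128080037383845052461642591299279734998878679581934641613672134023758453931005105936336730979762103487874057703311237194559076611619679905262948237801098480292721170555503953089909120448044490616512441036033067590780187313488446520650916004380851033720096492003498722547082170500303202531885099609604676497829440137230180321265516539039429631551059616401885771078518357636538161412317502762042765339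928330776368802406501673685026723466776714885483011813386870097043823861639654662129043930631630274052205705220990036420781194947572317716295495966907734351110943611646516056552106190511087673364406104458832838804870090647902074937162302461396256054342570441039580570645397718516373769557386677084906539188257400848292998869902381756135875437024196507605415597816991637362802964618158325069885871802732614770743969473386727157379578781216843455843190309140411477614061885112928095954403805313897933910625321591242752)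

noncomputable def rc34 : Nat := (nat_lit 348156537732068873179173828465749554048635868118464005251936439105025876893596383209351850907414338421329428099276802905694804575127710433285276837852586202117236460901805598860536154069946943504707021747617861224178568144868209940050013013906910468621953252491692248350998151007918170169484995580170810865692354691981784169614314331532235702668765255495231810269429905536967140982304737914794969328951694586827761698788763449954530476031286738625989453730844104068383061837445532309163186276706385214406876115581697037058282795006966550430378506514704055613842601354949865944259104528705980753331524232378525837619856992575049754182852706937828444148150842870920144108779962953744006541664333004699029199975847637807652045128120626592732026973356030527533466822628746213548367399438179804799019258523739852353546444703708427528774320653916183829273643989953989265220570941956528425164034543809255085356756007281246959819636938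5007262019037321385016906208185918768847769091225147351908218567044048867536511167814095328230832240594228334434187322167217709925199695134509967117466481209006114392405467239871748474183388088344952322132771644000319024262867448780426679380067673541682638665666397349736286919138904061911653697079146785565406855511809089146419616005705448127908083740205912464023084107619514210539168125564711969716922459147560628297278708189948317336561193041378231733173915296267895309629287294431218437350295456517559697470324598392194965257057996981258116879688555683369623997398344089799512130826295742008818975051093687428647043684723825360396750798991579364105365959264301436818401949477667753626133419763778902507416225294966966680480465535496598365395149107289305208780520453511590906491618605636503823371627827663791797861758649587268979165841819058593949653165494967859328233583807511147530238686278898062691961048338977104814136968040601582374775130802609329858694571750496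5491918489723562435639450245749814439587478967131211281005142896103943436793324527330766011562379177983458486434944792519670613223765702652104145902399148169941556589153208277456687251358806433014738696964123694009991026834078334596395448994738569935109985139323949944346305956262139887337368766308728372078643385646990395788095603363954550729836580168505012375112376077752754173389721685695636580280451853800407864296823772956983894703303692262922181047656527591915431991840819243939599675648037055781659832118599819385842337429056551788552471263173566508575857478471917848994514915124601091808453367423889452318232071695887621693368403718670265213261885219301204627212969781386622985087023201369477795607954953443364137941252895946259238642233611660994336152657618308659736380727205695980876447015485809186528916809623946403819075216200288770826822214384006494075868243383233831673097462108341482954957542107942832880772388749293825879604096540810644493506740970529283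6444429804296602919922063584068928642867213777033995702041570788019028242220716947174538801281770569857369868562846477728904561551901854792089276061793201813314351856599880842488908774007776648877021308641005263014378410529587997370196380269589381831836734182578426430085292974150651091123160740810631635778690486405474803398305517048814269329858700171867021897399306481502179311075747838501190978807586597037019360976282064429319346342978121172942668488279890133374308600119474896244442008570547234914697662540425726747109444980316629826116154193013875941544588429020919790079566620921417256491129757951844633154956947996696162244772237137142058138901176192704397661211259723618748558418569899687720805397465297425612043278340239892448859260825698902710870569680377375325539373597579116043430087978729852533915794231686285654509318707339400021016285010136545480895487955818067082861512201067541988630612580878824360549130047572759686544324695390316441686357854685021922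2167577660982173577647260696717883822181923357980380940535056785765308563825643992506728999442206752553232968890977567883714597248143110539393723688382213673086072631828986196490762108845477312847180767924323584342226990192468928439312875469824964761979312322765084863357935941634030325192016351325994164561951525114880829729337212835105821892199965463283970958811017870059071316508489435975602356160856139377751391550424144093816897712067045556886454106044935408916463358097275858965906314351018670082568172722991679220143828956387418689423528163086931910984916539007832254238658595879988374026545472008080299646182229219599192169188684178940250165219650789609625883853790769515098531104972178651644824325101192374564027565159970157544511463913940991724032335673218546222333998318279611360958810832755600848045007787991414847872562700671800315573640859804569956756420278909140411419164579208464329673934405029934859742227148582796614082522588430697041253784969982420617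7987973787306431401294463808204777725658932293876848835399640129968480678994073209737278965288283457254882875865075226459912928197088053067531128340206733448703433983042313958706059087295140581558614872747091149123018104706013103508736001698003844462804988297399068811217689998397302169580658313184618836486046886780368595136196780181353116853575539502062485338696038556383879589783527102742285745437332732593269127951687897055043067546481882475204244550238168482929555381387215855191318326894984814505675808592486244416935974560249272541538864123501279245078171051532528769576716089279520270303748637950866400035307931497562000032322196096184712329732068385102584602738688360562815126373376796720760690480207997170297031867203414532415541005824475020686562169311547158775687619300509468526617646991834268321611037609597080470070106054779766071014978733961328709247182921945263516850905321623435117802655103040605346356877447181169495812884486145994566979737375984551219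4363578461936023607367803194833122105689585589874780815986449403229229135294057910357241839020492727991150453737827742057318990824042277991937658855492477169780086289897468602244038796312628080135557928027449013639553808014863361564736210947350367276264953980547516490906148096267978445955920787465107779601819876390294495949948296556991073681774789941811601287661249822524456141272147254615076052050810883513229619758768997643127541174702144928257483723638066819120561658990706291330888630534569821775120364319009188818795767003463401014942112821577276650779439781409655042704094024929676923887205119234302283376561407042163425930138320498432401620072035592233244101012920817038779790673449475682716519874642615904937222870053402292524377973937313271190949790714218550714297813192245170680110234066192618202264907504316136202183763142563874879564519622090201862918165223505963913290896058077257891012168909037988353645027989688315198939455495788283535175129263694328356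8300351111109822650660633503775581126447106457934157546979026856570432830155428736938539489149965723448505733948845736624363969529696764300946187275655517301647868771664996492434999176408372087009750269075064180722813663243519409880570243693376612780407247833638953062631203249917036557740028243702091734023745066305469737779155938725376416702998323376805021549687873187074739264521476650860702600469253928153718093155823806895135082839627087091081352915599772030761364652458642764508161525704374633135411929107089060259396124430149473436422451518918031908158433159617788129569074098279438115760637403705390663914932153184301977675733807503802596690767733175134214276341010253563638436734569396457358135057567260005766218517721159431972867799769255559840784750978188417778955252312349360268109001021134828380870802709484474284578292742161596784982288355195985071694821919047484219625611254330620020935034733978346012227683531628049007847616991495470212294735734534860092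3493779632625807816938302958157270463410031371960373353602974043661765979788455119474176325222403503783137768162685259614470066695126297498469450915045808681138475439924182732110780525853099170443266180957119183431678695709422462203503548364632417307298317131296436772589389554624147509705431598150206905026310148050619715862329256751043431415848728028565667360501356686823805387254692029619667067975302327160996687787057169349265088125501651492640714202603692159912569935867680974801679516378598754672154509954815547529113788073947310188688684950622923965264596609443283888231575021914794232596213077511270348842096821961447866051257679639720650931991905892994047432299037611276789229495410585971027702300810335118000006659385273674319653932436124897984204260707776233359160383510677516920022413148603937211855647879869049865772259483871853698942518372681019086981492609316033918606462999672200470227493762259010309977950810581464389887382141128953873737455635211593403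4996114443878110323670455890308820348934049693376641734818943497292909227040253102075179622815659485649811719305463668752993067098890973771761764232499402144097223446360013897870838399893250467652524472531577020264643271032003397302630609344121246141196507075495054807306885311630184700643338046107371115771723352038131056692431920907991699356991551067446441286490423696160225833402906881779140863966045192784988074594722663534930565316905043581062987295695020021677618902666246159842010086138052818829234338350534228234373855701004211258713216258699524180388633078680376346029787952977554234569623509463213564999371937038761627876061231071253758087870994773159814250523757114418552391375951158983781781743762799232842997385963210328946267757494354827017933781618579100371355078665522666759885222336484639765707370062331430662626421643998577138031518651668655353627400568113712143317242139095956947546342374689277685860312233483592909532682326161546448310515162526854864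4454230421914944002947527493268673045441134443198829255542391338380679278620268941002191670735154462512176996950037517416870801808428205793124097026930573670479237304085548046122172351800958764869946460536011142822425965759998170263069026069990481665979002822170451166613899571641013861114448620351277982861606143116515447098606954286738229080618331246784204977639891253835421377331832173510949620747154689607292384456895563009549380969752173666624384782156475150253234641358243456596670385761877626448795940231919449468891870310915707925973620662850052223139337281515454393516646424463976003393774077013328905081153896499695803114515530618605663544379192752301596198949976062393278100821607578600051594661801681942956044891414295385873785319206524300593722984926560699549131566116478054280049853285588972385566930297196327410188083977697752622603578612383272249267136329454913067014226386431556900043187331660116443674842158811314861420618046114074646621360377714582313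7649168212439088012992122071461881307030990709144976613577375011532149253421142759398719364406821490556345082804035393651978568729869756630477419079468193483285350873652543385443155550225451815281140300730000581344584745312984799432788143272681371603371241730659300505273128519325854470313791015447966895800394682154265824192845482489596695594782884913189197736178581699168209954375466485704198085742827556502817265686059133787516083973555610273849890352250294191013805452577745285966734425428372568044007121030129434138861606083325820655805376647706620050555011410258515353323916708261508504797472635501172263387467927462868434932183407195654534808689454280042034817372091558327985640750143020448004096540561668172634420249774917767801381979081886410885632953655131287757990324896288102767778756033945205711721435608642076056981300477807763683711201873475576247160249208278220694016244016475719105899038958369892932608245404899019496523864788062383072914445525652005804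2260712516875728850619316215015962717098931862270086838869291665908595820034856441270621235485787357272120506907776837130513003005888891362594694587689967765613968407971229847022760366175503094356784666372059991300535242413801176769898162799254319463490310260440932252356275574519595046668590493677920708685025063912373038022145542384453983636643924307852233867097350385393290420485170079569155221801094747995063259495097709096973247969753817778750539968728136832685754590080755062677846991136335878691456089189096606134753628705531627309295199393231473123369802589438139223467954106308822186652957793812832331898023597236205503446709695309208132988053005621272553681903320022979111776414193063412605664538258594032620832714725783929630704320476506225936535558122945715458334472304500266876856372841968429495149300613594890692036160185094692488925510528904105044578480945975908528179914050497238569700706977065209475961929721435424535688188666712292362163739032040074167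3539251338693985246177525791385261383647759319755034633233022438331723568863182683776838908459477550009625566642615798354103189755674936045971444245860340246033198297191732752047218145641188525721308562232192251656202777254290846927479614769882098993431519516707862156557496258208624803572046468732452498576511977824584676499733851219577708362194177419289409318357118356257603475471766453680870720548095670150999371581847007624499731888919308026608789773911288135115492992601798131912401170867055999676305627326675214886504745133876653766314132645641144878647097411842683108996937171841633465308146639543063081487600584143941851772490631523527563616066103157071531028272566005993556640238418409710466666800937364939135911757161585800849064430372401404833084045564529096994879728134353775583185901642807255922691553620326306594639300651239304660986637317010913863233403553129007909430257523740317525654329230790649240383434779284708253813524039500757609317219078986481674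9026681720579969486827115725403723427129149068833064689583876394093239997603473935152770804848958273969455096740654408508432384936603471904336067302278715749123919101368788888722384760529876668038081049812746187542874217590774699186205931116480348902037884982234751240783220161613915247357192529701074912572673979592781958715511339536229969904332781459184820767897036235665292053990826110555064227304799662863830931898683218196007653160402893107339839350741791410398846809526819982555147838336880093658603388290742304661777274891654657464638010283478974101602553798870804937239492254853198704680535818223904045194850651048740110090747643158604285909392671177451667923989474980410889375589273603618963991382377529074097441086518700970396440180580968092011876324265747580632758940446684640353717554648544975057106457687863227890971349035591702498721088337387320796858547383078659289417348387204323843893658401374746660419218544632012442049361799410732470522684205207156208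2373752478012960267314580400671704231205854104622715027518047810916543562447686872075529012728740797622863662972416802794442414830039529371866372083104074258253284155754286439589115093219104381200609812947107627659127128570758813094148819536540682470703979770266685643415640959712366612272613432849034927595268031137726930467237124278229559390974888391125187490158023643527068995529216648843037921275534588975387067008252821778395906784303029343133261662962081138854304632870393116773270348950156673218472812939063837917706744996796485425727505562477029098628647576461969414406498239320698387095535601105612440605820574672077944786230437188706752635894379645650010458287458613442896799766686933369920770292619583772032630683746601909372938177282615550302109461884869778499728972951687394666065450678103079783524401130509800942271020235081088475959396335366986924553758070341633194954350024152930213828674390794478742677203565638810179536450466662189233724611476530405108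4284782867354469881655962582121951712123182017199613101156401524129886065707923610775401868003437601405485323420552156452015494457127944032288196417460025219840565658959689647707668887778254978315705600255649160271873591998211728334494948278127148265143626735836194912421364342784729346315532280944695818607057237517501510790455154101730280823433775911413428031762430510189873121237726619019261008565131938632515278994922228854899379765254370556665536388105458510935316635638860066968468541998737332344412024343149383710955796557841583702483444025025119059575347243966237669177443521378550537633116419793468480327571932280316630611816151572479719627463923089296480201984160795005201410879742124545575692657973860901851728712783193489889718744700948438749765685477534989222682955129185997473703316994574170013636200469379235330495358564682990216676657477691129914325799803533485202786781979980527688867769913523521555060464447232727004526829091530444748637548205774894317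6829881452103666069963112592362206123180925067380158735518641092824768884418715673309771587497044893128782146965093101507298277670413354479824076325252494893680581819894267600028870583628581450173666997352820048177360455573804562986335776220785058797903550532925110089765821877307219392454590268275711889007207799479834280361625343830151906849983641743707964147601607229855439782076058542971484336290791002118721989300265765718088637571493372275207815098372671223020949471034267532488759536842417890978772140805700442405702459229094164305605300518532631771932884495646286356002144305108866890620739050035755986412181922567208058640137793715958400362195767237921338216347264447562013554836484165654886332822369877286894735724102889380541957153985876909933072430806908256366448042019625078357061831021093430222215534203713806244662374151517727523696798315232752557963031076741116618420733297551595828052628137594753883441153531982101216475333219604829471189976389591995059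656857613922526370121489521663868764953636153609929194830437697757311962469524340184321816253008416855173268969630386881772543053176277882337205052388888988864258381450214605390868201254091300037031362032504391997087923290810186880140108301823895254831806024015856337919618463319769522683061495959011241695499702069399477285723219308218009317752379106238330861828279275375938936735008196380651657921703904894105210639928521211202480546264883615411897377620733297002306728609631293280662818268059289242615703318560768)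

noncomputable def rc35 : Nat := (nat_lit 348948651811947060084751796747169293509431507780181456931925257998356436311140815940077461141774027481639904800697502973356834503453924613797149750629559335947163366750229545843339997718079029703217620795300755032707147753657488537720306571628290615765657125888346781911894119726742790689546653772080760775349803754492747839875834448898888423114834598642284927528115272544712892031156213022789546050363865792803688976588326857983403357692649003056255492594990315236072721187272614308247594323677697448768810006664538363719651114816359967522243799613263418183108056404127336599273251792779219010477150491624506630576552659200099155556587429152783599463519392864634944204459096695114172088134117310215753749852950946683153824751983740232320810482904347649061761215420871065017487626152569916526768692132949615999737222905982425878624633720619225769144879970161032037190204786236460476434161362553797748808647861315019258918632670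3246529382565712116425377296446495986929042802561171998724785303517834392542069078895973695085635113152526100992369225770486604745312747160935454995388069285117643189523711477128083627869274915153189313427178652133634670513584516417596348560039671168730422151224197098996305706532092810701202761840752352357927540407281459336254515536941273523935647574212011884202259975116949037183243270798671764723645513190337441787209837908451081486070407269559608332697884711065474926908579405068429879581331496697437925208052725051387115287432049687844156906418523023052922906570649701749430627591669749305441644072645298217031812550851649589920584395812512593560330868065637056577843008656686669432568424880361055585086179105879320325199891178017796092173948848983515414648272931582521666291696860939304994784549283664305468073146810546729387269041963263158541286298065750017296577958783652677976298942185075333546419710355449878867539976513376840479289072583996826561802311739216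7958722461870029093064121748597603004245274324229847691595108453681366173350523403037550180700016325786618165323214293032642264346955031566247825743777294763017567842758595562599661339013493664780842538445700912216300116922657522102821555920854579086278149182127050598322017580841845917944538761330205137620848675504261965994567875727021067063778646759998694339836007937919597305202056855514738082846857516572183050082532908869070348941259368438861811446423310917290095049093438998293433585760661770455975271870045259588978502906993667671984173108146765087377660286234222743485038543337664939159063675625913478203462748273918881595973297527002261589401624504045083974506470287964829151904938820372416342324758139608459284361394865186207836268131987977118187226575028081852389330565494201117383854049834996426040966412976573769288210744317382693240011856137604361628397432425359751357793613364651422154094575718796606681211063576296874369518683781575956894904543357075392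3525215343773527716135971904359221718065186752961914577139602722109101025183951801690430763492364926277538891315658440174756866593514178948334483333798808237090540012366576410862060786907557643917861552512005592094969024905812692917097131581885391508739034860346551891533474054988568816326794902849180756095436300327725835826279549200537255513008356282073930676872366908430534426981108578817670085462355497415016382283476027327240760834830462295970081682621405893921730239814009811515164139633839132061824891162423901634829054946070049408324519793650250648759686089490613524400949828222502740097938977021591467983774224224440970179478410232312061946112187719085631382065673934465770751474731850121573305448013651090278191371825624958010832969303812149206882358251949648504382842034282619261825584460879869611755420759123002187622732440399575437179729135822334293561205115176123956980397523843298237578437905714192223948505254918340850078451307263204551233962826202492689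5782092982390812856047607913085238818049252579036895206987541460924887471472432481718535488358807212721610487239909418841092935078950599855925461086488584074452132226652275224233171922248344317287865693190421992695581340395357286629695903593647678161374367923664387462986515866835972011290156130554684117566965787358909831161235668302643998166866725359656889037593813037321809681191657256626164621294075932217411489792405232912413690328588100079966836651012512915119907464882063599427581849016704201573749534064386968054156393364112092308542117080885558210644220791465186903464043948435321771464634371046820148343983435816227670452622118632011240021019636422091122724611889252425937619940781575702633139470547752817261935923270563778006833694234534548377276050957736898284262969196152534625650450936232886758933942523686997719927090171115023264281467001088159885671873964865185985910616911056765277955462057505565133324077490416824947846584525874652438583040925888535417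5520777256851352624006831973871363667989898429877801372627572912691939810106108444887681315807666717136603186467574579945188859632457308280145731032835442415741345525945800882429210573117981324036628295356911123801886771273282571937578328641555800118507950983639042143194023052479885181714799860258592789454906389212918243812399905372663581455584608202620863935561566753277943514597043872577413004696414280251016979917057358091573156286958300638839123192374074373576552500572828407811294970153349662435997317895489280270329042049459232764563603505507444907879609375181732046826219162217463218225122106321513115363055784142648055188243221224874465949398567970449875646158541408521117996134495135782098189908582838365761201133337007487479514479431802014026131431488425942961252985965118206955696842865712894519346380133187269643908412857534768536479943304322982831359860638680608799397880450465177573485913331439970741948820682455582621094280936408571513634403834022069380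6841064058307522941135338087611747363025881055835117744005100440846429092165362478071993011735984507435423651033127076533537769254364010798852449099576596413451486874059056062802521484374378367083430245614401969522033845884494419567106937474132542512865505105142400127681535484947874381354339229451849479311450026268235305990117325450058722827337827442731282446476428243177737396925078647211574039973073564974673239439844189765641210190225240548933014807736339840736047589350555437562746555934954413396948284112807947367363330009240789595341996015931809858919068583066294590992709253912978103246036595511917608947174583925706351113111984060724445322150942303967133111071227965597502195760302408836903210931620722310905003474155693069497985389300476098762851147001718726799324025217182617373405148385204728130671721714222274615326674543897886430921792558953609764407482676908800243932824451817205357120906493399205758193179656119485742091157536582733830813772470957530132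4666931634100835499823568586159187266755065316962011546580614632686430798404630358401006607976318079529217880692956646199872137073563579063955002149922742477012751222478321787322529260954190143245482443238714836784386393334575206035156015634037157503303719376609105820357272492696825374904755179852046821688162850868092045965149833001843208294147957623308296117820922601882618419659318135661044632453910525156924290524916095595630549858319755898884268358846133725573395553374575451027603767124961888033921991047309911840362395780109337149253655990703274605076285400742698240002910151535604508071412448998756487161706509393061605890229290358072455321560321794244024331834023145433145653316416439138462799499471217207278772147697455822915144340490948461039098066640483801528222371339935681347529760520988752624953201262141176430734785585809096984173009578760116914288039061575529976804222994368502356637601811575883952758029607494391033149124740432609857313540402466291625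0430873961577966785840596494318697092757792942671475998302847918368165340010278722153207606523723613165065061452658212635624059877657238000741611160343718054720046567475730572988487858107775194684857368588656978599043386791339680986096477210068196879701928301880352273576590794659287181098491723618190734307598184534776642142953358342486833257370873974262971122198038945344263325458580436601452454784517284182166994055932540494621204800507202229370514150918422770894661667782793039839002233389592150585913726367233329884505075467024977873222345807581424499177894825969743197406648068337931973966733547991934131009179075775248351844274641508928985660518007050694082253025026351151842949752462857014848355069508982099471075935381992260506568365796599861335735203815399138084376098910112153213577296473708893881198847313943895763881254732036098375677373482483628947822182367392399202430081462688319304058855586704014275033617348172252638977359407183126858920146369289008817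4269552276598635723044028378340568095793260402027540162322676018267302704636597716746974871014453215318088463772933974588650196370537743543370309866864008170971784429396328173878005820160436481478087206646950843399027475716374028557028985307529693088042447652744243955988485858140613548892371233434534291791123863629895673765028491875174717815991230612736532185649570332379602949858759302372170260439762582793774880366475917682987839437222578542903584004663302202458503312056838971179847489646013275147738191009135838840840026358046007046387312962072626298875551714968664092686013171909739224904687888495109085833264789206384170086110300217009812659647440414557555858348570161095757549023703356004250035609957788986441461194776807521522384768791288162812219720764455432255792969657435429955166952909981079960075765643562520357839513374145173409536778594726056215290246778149436549779759240036381661092029118079979399707112302613200412948913799983679162136575180604456839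3833833700850882958188802516593599150053072359199794011415303204099215173457717299032587780426215579976928803519120531693029444984469959081212687784330853257911638473747564031314043495692497016298163277591968898468106050954886874891405747035753365011504273801994969888406773771294285998347077042570024114715313718478502615386131926169923232507831179973358846419671351882365436140535992003865225351135157734221590601346577777365640647254947650729896768823442496662423142193215599412801978570819659168403393287097833825436108974198618956478041001898350769031840595857552019531026694803630677515509119210129025329346919721010006182163468702094089040285156021666034696742526345384939759376502506414710949917161663931727549482365211172967212610596621920961180503280367368535822593734224350276536695055630507306978690478855223719873886760223594269260558500725221177390287456598481287126481579875246697509455042731420774341802093900590855880926317598974379533906068887084467389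6201999885590594622119501721047398462607781932071246451196865002629618794058236166249597147448392349724734602415235857654875392142903655097403496068292961974896377102370446408712387852850605104632510525541919631044448661574892037545630688650204306884634622520247480043798396814226713538257531072311103505495992525900375640627700760339126238005819956232143201051748041494518907947673778996575863747539396181557300333228178474631052890052151929457626136850725077666400996440253002114510796334701867758887440956732917386239651095176790762226190155375829915416771134980218781471085152588124914371298793755651544992097530313092136845441419102238786328114021091729209993522032710319094195100445820522795065883906018961758034358232675136429706414939247155764412065577628246586868859823670795014381222190421233742475981261325881327181929897482159995074701261156375725912356960649521345157608683100814361028760264711519923890343124171233822865196583617772170571158548158107614086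6175372969994614338512645131888978678534120789053551363548474194832083446425876281668983333714117571325805271905244896544714019391460749308145275195198317857169865941300121643141843643683926199633683703590265119304112107963297627134884758281208280939893989642936550019770816880890173790218117656539119624375477695635431871087330691509011383740607219276787643296945290865354505524775375112222694503704459142265747411073286657609579546676591962739126570923953520845880495779393664399359682194899275986610079367328539143170015353770754804076400896752823505052344182599375502831709724735206182333119687415399055882102209291808213758289876390212211361967397819423348255901658216882687293195057129856787697034808969692690340732226423457254842599554343159449549312445321226837497907578181138809811289773727570722828848478193175422225571510738078205485701398077714488499696152287827049184079159809283565523935145287216411867209848226196943984619475183861228691454723226812698996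5536010643768121392311849202713377577239515836862269073909435988067348275766246267167470020078200527462685703075387803427949826089442863638742048885321405914878879407096981771649835353084542475340401386066957965126144575004882212440043286673181806828063486309281962087604477089344512962912413354599782415662451418015566795972203844977878195628955239558004079151357655306727592931380594577882654097989051741335171269012904802613902845388422715592786273063267375435483984378504533427832406028342639704761336427515163331956438249185814375842715523218355571028567041664068533469799231297903217651391298714196726372758233348736288424764631339526062942734355079815328585688680000981589727756184382477414446468610274236704560329086857802451369425916843698050622577010541135110822267577112311738774610715099832651648548563176418329374422903213904661461546138095278300864995015883862936950479549464106888861607261244765855371107399769795691323369107589684453115404590247268576092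6388193969969487157793075552818088135921454923734118754761872389134998723939538838251359821366413369901169811118223242531875133931474948190860011269735169147990019822188306956230237556485926508750612245572102692881487530181603377348259940406345862208554807379247848373673435079379331834876796273963379597219910057583596453996000048236976660009306593259124567350124319266375766735387363027200824103403977166878310059262796526871888334244867574016609145467116491422594233362515429974148908191835477260752281577078335216249283230437832514940495771011351286032172605669507603855924565764922684291616296441583162222912587759835950655698597680868691153889395988858140779106855968116449419745043742428371926736395426803723968668433518803469307056614269235889756250105472404355340459646026892175141714837710916191962781796852202346322341712107789031940155631572572932544170671406196111079692031412772789213863622699522467735118370325009096597194428999160115401402897847930970800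9547863619317174325900477884772780932685609256343405017414471457893917377229335504181779875549998696177907297003208931238717755108306807643960859800445864702407874020112761610376309680093654075852510155720489096644465091667257668386678812085362645260458822009217501378809844370911573397709322417336586661896675859571504451197853331059836873653561316145856450984765567949869429081680892873939385480390129036855114715301427691524433572856610149526815140989449767952100360318215884938011094408273257510941768822857142980124527979168569301982842453558851442127584139223134433573952634659943790732640734993625361028129770629515789664370115341742067920629454755793800281734856584847099435738743047768877972106679542932446785100896016483108980304802100055092921830353116258812202428681459409400219160609013705805849783670463167492718231121067745149465259350877214446558009430845258837822744593085239863679536274315514587871228405610837304664390950322548720572028131076773717310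6048637982230257912863168741591813331013103959951290349379373244629994795472445191603324368079183313479598610848925108061032791634572146033294478341946860749621283687261817314022976217968578949177532585533742284766898333885425719650804770953473899703121782826809517259086164643639766658017373350836418382156074994218486105652950659588714023822652832186332681509664172398199009051317233985515769674404932837025713461155967153137186903521837833932249928229275227872779251889974600985823424105889933427518375171074188847512414613664535618858304465816828346728658956411693220981188121875018325748454710131625013025006410744679538170984936709595935179616702155071762603257873381906916481616174974397867420073797534536901901624027212365285960928030621257337275041537284121631637107199909682909930274128708721899630805857491061494199454523164338290389340470163320758955494760158147324070750919848083749508827474511625110852723070705620444897839010685401448362381180894324188018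3685037602362515228239131340691678856716365029761100495484816641598674559256721305506851317146630950579745394266712338107518409368338262221366820357304284723086606020454516327843280570285996373124268227280713892830971081892694766742152746736151092388084314564537979128741908525679800398470108110669558632686448664365295930127966622191880509880996704057178079325868718294340468932486821652485619979880575912865912313606569806499619432590179289451772500673591412422461456199119885154317678773134839102314355381717134752503134335009330120894488971823535858796765806899190925092424164109979098691961022449481242210731403458000518258773416541226370432257510779518323717964494895697461442995791066642752323176456995481113363457594779157600885982649852519339172399835650725661867125287941510015414456902822980387946262578895022033207289433642725360811718302275720492357217480315715275112175318641297611962383700160323936371764569788876246787267622424252422526634063235450723492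799341256846493828546517086968439149430558599323042365619524570151454922649855078854204694998950037482043945625886956251339109015430864478389095323781161262008548080042381372386737699517527731637102228209710991818654733836234580684821643912104549825184664331904084836185152857196719201495498309926874202329156734537709682023026512213977223446843818874449604451825310922948474440695523361471130156303700108243922829766322046805405664649457745846225858140723961299115438467058085622719344240670225386355817304683446272)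

noncomputable def rc36 : Nat := (nat_lit 349734514578739444203812948405177300128969619094651938612663218450334025604986908170726218035241210490531450959772394794746178695896326537180175567271338816354249193294505983487156015475058767135289798842407026423003885577629797312497891642935145272037255027060790032459870910665408592114237245214024394278299308162490341091177120187008203185462393474471198599032309970444700905827204903694545500579511419710417394305516895450614541261942726820792050016992257294674112803963895623452242619920757717295976400166718467284307429153860471557301887970167392602335736725331911093722116070963169559041746989099582743927908572928504599187072752097423662779034220888389634832667084573401405581288222109099285283416197744560879545879285455065536345884292383504345184116222691505983275955013619678815400205789809267890796981256941897683216179450981197756478073631202993408155301997615212456463733920455062259290255729907957354606929555855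5606655623818635606135521106831485807887618811364103425942195061265304321894814692284955255429321686233437715435330608248372883424861087688485798419277240789126891797034788237157901181008964426902194223058918069365171935678912720544857528289306289749875858014260185936765120425074599644846062493909395540030148008942417414641354651135748233047427568006980090553567462713035772936245159723497945501097600537241640430236683181483002058801815002376276535627165360039834861256558986019973658670885244005517306942779595532382808296837399234147280296392948606066816368668650615953494184379827969381166449052918380224045497645525248922762530033274039870374923243822111702817898603572805440210128452587046362831311450971640927179061178885025927938121835817285185981656030999024532027138092152136639376733226548939575128244925258544204594964377853055529967010077680752455482614530701823530580054017659297798743181380647301575754662277836421346302448940737128370815929326678134679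9660440729801071286544018140843018884095734090233371067577881968241552616975881925589642866524149440300432538318201398822994607195143062752824043559644067526328098351954177276909913228291640355407550679437302727049740599037602866826169450213952899492254739856002465980064313200883557208794655689194498759283094420657748291047812593474363993887223342799080134012636714877217446118783562008617440830902158737299813913135039350301247565754277279432828824145731084521304642966981857905188440948295817485587069113730107791547743568845303415995603749820984228908859991695989646933645271329561181425426882903515988669636928562386413037498540406935338300433950987597758998268313160209160384277500994057744506278863406902699457569878080172383767566944806548912663967936008389663387531217310577775592870495465006767717398330491628121557648426636680865698147503281297544637902404514795643048713062361858557709554957253641446531362076729677137478459098872009193847671776952723255188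2718273628709506354689568388313700522969650021196747999122740656978499198900526323567876323578929923586964760092962050988611100944625092440232688481744790027039841713442605872791134922400645256775791057521317747916768111213435350794900043920777989104186176995814542807855145406875198111819966542733465033754631581335705302080231011227566808337816754804458269078418067222582654094317320997353842787552382257921501167730714650055804047592780673725507904792346935581198054076269959400806984680983768374649447323909387432767662062086496343281474760540168649992758500519461066855335271029893304511925812224390071527313790446184234326424265816803437806689673212172221101193568741914564376336792133396666388230863447654919696893679288078729677664855409462193622315161728347595880122792592553847922691436799117639309780684137375894316601938706565694565721870300088433556747073824324294657282614674122855914169976435958753739474424817320904275577322756728857737401612157458521314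2850614244038348465558652248914748391408073239689906942750533449043526468728696493448185390243541554648811187342379180728798113245602998375671802955445101014408194914768603473284052936019789211705377622605043428797488892420794799472729679272743638762916970362634121719043795543883067693658242078586203712537680118423142871751120889474804082999446367147851534913997162808544231224146770647849474403500526034757488901814108011671924446189829629271422643416500902286385759098534981376215356071290535575303842186953486386005916336579627458916297762274137312206138680508830710605010596694409260613224340458896831673790006044034125253898975116972360894856925485350416037850199486188266464797973378960485737113202366384582547432074372494131646386522976381439245914490885571508050193831243911697493054948013208904870973506287274345521311518104545774622275099073176814491567149045584680989523854055517312871470111659371247170231560446211435207229311851177744693925666202054660678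7534252985598261644197152709479976586883968979942541293953732175575044258172331628426447482193338760357441593209416532369726313424317015107259308370697946681200226641913693399503647357329547243067036442769667124383830381273546836161734132000996348526744129541128595592811049201007002856544690518626214514145391637363088962048747741448802508251626423763882992785487411962779929497301017684730489518538158106351995433385615480299825748386876635246339975637566089541351682106246393665875724783814288153067615628348269488596399190509618232884537186566144222737274286505126143050487988897632086571312276345162435785666509398121792694958461357784980591895181738161163624033075293972965128557504229107718743991142956791480946385380699012263490668950325310308787886368641531992507152644320568710336600184684536688745747531107010476844028563477393726664116353170162213869941961487671183378665534964648955676333263972212477657519451497793453178938300913381798787714906012857757386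2606224948714194362333504112701217270538963211103581879817256873513514846541981855695602893078853747165059862542698949195039686906425891948486409135671452096641352735622908188046042395116543636674309994051982773748179546363597887332481254821650057161558149189136657410365791986484547740297252707749549148295176840468428792836395449897244472773780993356424960471992845845661285792883515410962302955092104271468820906968946271224194318472627638939092843934244637162352561366976395404838623580417386664515374452193023779446503773314953212730361870771382360638577525587333479614758914101063514708071913222015716065984199295264625381291249117487568159256745357699171133237954657231994644763104297570469893586991814002100396998387816377023910932742763134065010603632406447001069913540521077061159575277567731874856229731619240753971399630661262040013645674841439488004121188559159553219734964790439899244072907404847015431362057849399098826112869057749333701785826678066784952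4357753453888178473595940532227483698246474435365174671765996860397340485160211191829494360257968960585105053421107001524567052311193839384197256541203457333589567739933989857954982740329810587810979183650928779378341182079933325678799981243550275158214490661254208545256077095539148344541191517789382748404167474169649998989476110850364174380563604733427233891668006587281007191439467735152058883421115649921835622677109569648163547529449287729989745635238571292988482472601672883307612397038674701990795753357197751653414948392941563745482538324941720096350570855468060334359013435013893958509669591546549029511883181515620844645556760828353052883642703195730909503153672354842316400788886224876997109403069257508873303930854013981170367805325624316770876925406349466056624932933191709530756657329174331080439229996402049342346162356013212350486161679466681926226729870867145792359262256993422543252330154196549558595904930437155565075505871225702014080058331291329791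3035253444373390504792195308492560698588725383630993182196623911445173841641957979935607686859881784541815467201117194288241241577378742574641019444397719005026152066287449840306017406590361650781993423119284876653920798995339643287528088199144537111826022899823742117492426865003885658584790981447807183561543663094496460586908140176382968364074521659700022373664936966762053084478297345404967424151563703639840212402045843612317480569775981888183437815658655568605756723680271871675008815636148458691240665496980187365389901384285708272899788855763574601250061344605376978226685434417853310887101596374929906912609708191644901457345915159944981688866030709997285895469524804987533140187679964236066935723008269635992979238171999134646195420018846180812959859371369567945729578638033629961071218473267651935255787311153660939676292901464939355128486882543790156790092067358679677146782767430734642220704620716765184033772216047705467194256933583930204269784070819641380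0582686443134384679448237183031648641164293759030236632617501458842660165869832261551495690701439808820550117856215110706252916196624589747823233235510491710750574993903349313564168972764983880886198934104584721779387426612820826202632489960741032391988868963166122394427093949818708143674085969513245175771061234948008151686519626302974337894807801769194259077683991344547471488935266895974386998060467221384852519866132393800893614720527621905816372256536590721681205271725888111685077539062942323749428522662128102341777745847586628265880286164548815326818080734059728037626023757335589880061723026798016877378331723823224812526765023296503975249058538937549288872978025885156423309972912125804227342739998564742894389440676505286773052420081020066399194258387830657333563692208049162994809435596690831892720053361771816906368103214585461217899024271357548512655438586138796491947889718971535558644897848742081091669351554527443415051163049411323786918589257685136402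5780546170097934741165293880850021654754559763484086771169691305745763057418606329224043525390171113550190273348901519682712995836178068353789995050398711698302594378168859519050016174070648226540257621182339533961593750179838034871818226154295110270910787870430314287640835995103020915994176798527903897769705259997679994651492476073883407293779157435595000514230091772190427162656005501429254552095619495693732246003479680208833759519548095796160849877511958073801184811337975824456212664923681707003115519490605711744912663394106913354206594193972334323175515939430849161393143808645117533092014035900552912882579952359372804015452775349657990641347542824482744244670688604607609892086094232507269718797477098332728195193590439057659329431637640996641578217891538424010165882585072520724052879068523659982112483155629124942402758116432456935526116054388983444439063257755816239383146405143837474631580041045264318495023257922148901375947263337791165177203699987366672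9169622663132226105606184047651590805189679146120987115636688374992531706362693356051598902781717433479813406770149738179589696366453215698398464336702842485186919861023914785222703492029742892257669097538599049722779960031781548277631411852010264857112609598406535454705340867741074313543953775621271505898934187679021064514555318654735312898613428129175469736270123145316331067858532513752742055505838636963580581288598770261466444610027484184032811515092010442331373089068874659341363184395778769384105688779810846307148517394702272214340561504415587469633379994142260122837307813729382837260478182448038470611344955742364200458162831829782658779680236560631119771243835596046189399821354660823827775570974971321534753381134575118884880745937132427383327751282915752477604893608321925068967497557543272094979430688280844038586668845251087636917504548481157827201698572589417290822411166738014156900383440529019494219499494417555201389465190244067067724073252655770568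6618471486988586393873731561569463762767167725436664992931787422253934736215283819086536486206463934267787964016165748537884274760139465000245170968710437728798338759511020415578627884718257991415800196936523005372692380540857254575020424546782508201108232253450618140500259922352607605849099726273419946165726936011721556562678766244536004174024017622823201773538707522178913134648431475718606539382599948235790411772403975320017685150586203789637617583320722424294240926500773863026772517086901227446002959645411389087615038766378696072720822533834941605149537103472093250591217114844584330500655910026752565949603586325776103286995495796984075791303761921958662599566159008326617096452845078549724333433041586722113086917780443183027881146739404083394305775240704866328115964601390403663756726411274740840936308779485095111313841369571628337337826837838931454394214705320525031855457368699803419133728596688468023559044266115786441641289822118543243280010592298680905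8476705981014561356944674417920524264705818209573193319350082299322815475496180951596597153415991183162233455209588549131557780095569493230529214871567043727860756874675379018914325552868570280039119946055361742259066299882036685353456038788778009401672481439291473580883962308420924743097444419963714870574535721482373076900430308648759253528947510216706480312405523547664737620878483301746908684407671598538342261261729348629153621124834326503976403046076617528450025858670967009383939366867553084320226797856240975956718896182406581211175690680903615604239811497361009393037338675719313293596043941246393707788826520720462290567065009658292027748078896762560881294732751284127991212354041509794229709101004246876599096452649435903225559100046409825373795122487913012028685717955791194989684032576527129087665290733121901828838221987339019250662742961347585015722846273547655660051932177154661445048317201992152577371627860434195028285627601749662881572789180080966048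5777745226734642952441626709183442692269204610775287156265620446237599686434235392535117704817961392342245038178476593129164118055261681196784183506325430833912767199916527364007689323443021223558705288991077285208844490149524254705929263294936694910530171595931995816564928604686757139583171204477999152817664748445877741484265647269192157327009651623796606297633339290627266946832170480080927546912199705542572318507223308228990506908669902663768944389388135271765346229364875132032999160813345026647892165759974170731075623923567377167853420036524384544846916284163222590498597637931189318533556628129535331704437018462926983601546001444942592917572487413884331809105214850846514897908279353763116400965852280191292904556657018378391546251550888114422565733064440195198213497600057328314404990515621649773112630901203255268638008220940555981346622744269114124651315033712012093640281367541993208887387790967290036057577693348014348637999791521696895062556868172838023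7593077830801970819896897805410533273452463636416225213091444640901957689764122425267713604035662239902542596665042200117211590605523586001120878552187615681846757228487594245216674946957926196198271921691443001891160070153120547732300537512757910160875189605906156459121864351662348488636325132779965565418426806044086727738455456519500421792542747317443314844763529736117640751109158997214121840284437128247579261034460856628375456242214467935804399529466719044158275224938889542424023236598835696414837679206435299268611683376406260884829997260215640911806674153466981890507802641693049368614860199616860056687107314833202495476629412755571383654575246678683367490709506407184131025923621509761457333506501057616130220834849981785453782247643793487427051612766167937041178945341163919718958691883128582155659586745492522518672611145853036463237594130040093635233880459921430689321166571556256908391989149995912316120164500230754225656869119539158939876402524027934886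8545741032716178358464945846665216056680451467739473634485478648689882969058467111326677661122655973953718848288626631379093652130332844466528510024908672135452021979150243705066447078891294963436477094030788561549174799481704714348181584515264212875123803559196706062421921364448593733720222406280867876411657371117421315423346178186071936880170639078299365150623103777016561330874102067683631303783850121741702262152377681724524320897872718718118835452093415445344590687459667203479545237354150286161254631561832926426689527980108349440050858481927888190774307207321116995695846547326123513983769651609471670741412378105681920099091380614154947789261717345440023208552779722110257768124453604993948479539522936837713729096416332784685943610007786184538238401034038018455789275783365326800972637619844861939182792096353354718890584384169453717012124317686749196094318780542104171562252325024879958380839028908541992978125291513047500935746182175313899416227252211361737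0399386054194859398480640536600633496596878002954143884402113106141199256333731153816303643353798242107062415047876216374676307134800192320826324880761415023860589158434042625853727676698585909064324685894115700626505196645073789199359104560249407867581336334153135071595303765814595037203160106709593898674803737224739122186350142678203819364201973857813075281344680711651398230900583670902893609112788964092485837082271814458459515398101525431512887069592000880608061292967736446387539277277662130800401063713248436920293382925606581891566477093836950340098416725133606220444473485653101736746921467814823779859233364665104417453839308864932940311765170928108012106818559610213163061645499529743799658369930518745708616861687045445496385638293003390882156041949478847351918711176319857237846543280646481037548684578257037407128270881522678015271231968192700733655573703080779890267579740894185892079346528808619847554312257687281204912091924940282025372012424556341597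706766538820852091545056641032480555394756312887532487618453319273195477996683372225499667846120120346202395986274562819434930592594535027548951778000384224206146147792840168047718099630158628708869931555695194411713277866896427363003615236300741635477674716939817791765248484870960193969715465573876183670824869856227700488052940626057347577536382424610125125655224826881264174676187207244212527069106437515210089458464929425691034215214887882382570812253047251849475426745234430807330517228688533395871661541031936)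

noncomputable def rc37 : Nat := (nat_lit 350514084060490537842787455694296419076594643652512343795806769459426959867566490400001162619217926491953842265285432404133031562921477559804351107681781224900607258015393837027238392646290078545609354044184336039574832718998996410025027322863505781259397988139738753051794696179666687455280224579720157831699760873027308116121958776190410985671210424309280176196373147608907693827422028475140355711638268894350752978355832769246860339054024647196805482245657390505253033550674444519260976644526509593295473224730697011078879492998859426637133932786020421158355376324667920414993637654252624038682057972580446278684333257229424522551429970619413721338158088026932944308330730461928255915605598698845656595148439938686450698136272279679995206369224186903608340968248840316055024767797957175514606388577404258249029651360454558752911801764270038898661843003306902761128510611373868261854360121173797014586067502920863987760623954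7232045898913976003971574285905512532972907956948675045415755094544892626378568340152639631055168406440911267877246818769384004769838613303345066851754405706451389896683955313080599857105365846071096904391600290656031970717183343155435342110232196596077509003238220420122055444322092298026063607331497297257909701342865316532659223830923086876379267204950029610571324011375127264619810036359498059148365018347903031131680807209045003365210740854724626942437313977553201628925786148678192262367912636260061427094109739447005683781014414166385567177799431071703558888767778780303951539267420711010462760802702784852563372698543809551557151445247367009619560685888435134106459379483886750713874498899913324439465645221971431794724714948680325930430011154269700649052251648749708360278751982668525354471163559995943358311538564635580791302832053314272026029455417243024866042209212895696825459998981717607360445955893141466486012788575279792049278542030176256914517430753378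9831945019700128141844814613406489501331767914885148902481838026794442268210206592278270719078147891141633562193672914039588029378549297107272618164615814877399604693214947090964240744694664468665089796019908023729999092624463034501065261806565178529610975996685931340666532208482866136071354810255165602452677127112605034615324452162790357160404322546559134630493978778229568642426199167492507490829556904835298772091899972531592907690971096542511335751761776858967455335074152764283624500230028630501536309427127960328208734633228170495319436263190557205956957960129701747630922587313346621333639323743272319968573994883915897976566952587145879078455889784149724179633110937930453433107850511083534245041547659048686345337039923324776026316778530547417024867453323276287141194941152314406207805429999432837643891687939462571773787814094047218373528967362145355458136785377781164740337024394183804339980067683275054734366364996912333087179513756651735717719250819978430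9554973246124502800382949554524681394460640746114720613579773956620774449030373841132291575738020910111537265470252936963572332153894352299459200341181220961935893360886105582082127952855367141989645140408008004137668265741186336593807643834453533687039857599690602245962124393065019847760829041963871825110358599362293189311973361697798962533604293279080374790766442380522184844622167378927881061440083279617556861112161868545263129595410895629960837332764236346865820857086456720046961195908378103873431946710977657979840287267580988305557874690105563684395440276482097157934276355519238889712272513457278110054808955975260644765906026113100130960231777442840115022866547891796395632946420104331824673622895782456486944787139357711047252467230711096987467451697490262431395873841597395980422548370483755552456243704217449158809266026751642068564899819502087186174288333795744772625165670880306712607687351011779839248919839482622717487630276065313364910998962502492119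3701559715528451652889375120942690969330939731182151943794485277428638899386440126584447303425528438453450131741538735770282878923935606727132667661393833258007371067815240599674167390545371477719418126457480381623921539554220086000073166409197794166618859894206890761067979924197577664757934223508208746875624039033192531046249878679962431876009948072330575983684622354853627577448091278272960803812793507263879004818307341465473396587959995607595936166517509840264146990648151839452575179108026047527953463511264772533889236768255427848530472644091596465316245595657118880864027836266523822965050053490281612757590250161712246252308181047853793515299905814982212565085873421405595490110271296603744335410915812458215493767925047252767671990270781338981698290236407929667627364083364028076824122282797868297629445938256736239077776572247562520971489789636816591197717641579475705115032365970764645207447059465633297441704083080939729015986169754066403322271820056865231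9169104253428453351244357136199983015139155793205869950645655604199128934825079337069398386259292817544581846160048476638607610963058105386449452860690592431493343144601408947803969844499745618079342961742648540836503945857238148516730376065779535491589028077073066462624386994534799606410849182647519168201508106204403612062976054925013316451542579012134730010460165311274603567961519389688904147967589119082042783012099313396696650344861505524500262075396372408045641985539090384255239317126763167330894514730472592544333418043498572522869228050206968628731208215754565897264891365447645404410593941164936231995099608440545102748324142789459218658555760778446403385923305604797385334217380072953916313183331136921633697352399706219653676908336746902310702951842220851000454671488213835280772315141736928508994764802964278284194123346151709157160209558835210511218494927004087519562536601187769024889570194063339739608296998063243628632944588784026347180370890472644236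3752303131112766092267920701646264146170314449272119461420014974606809404998860351870122181936841125224695101444004182486703499696462445628559189932735137937500185409377749726180346734392375602492611044292073998478515699299588595812832735886318943419503462651288837801062786071125922708875142428680758942704090497126532046930666635311526785794638863023024256047203512024671710952962496857306666134088427296742186282587357330915813888402091760751200286991349629783738801234995041025327347362337205406652536569834320656760832649394291217947497338765513234976218384315615060093169150539046998054824386563505361459986495735217866642993028890616467923914376218527976915392911962505176855874292184733237158408605312894770079564529278004803864535989654293502728305648685720336168716711217049304945748896251659682570708489479612783605118673881153925466608341697955841073230574758551447403169259991149559805957707439890098680288621756778534517909962310716723008308067381034594087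7855423247832452045989241022103262801281106550145600693132890579158974401367859264495080685717770698160148160044126742635291371379463355625525221940855683789102330830965114371228614751195370768076015234064310347313588293066554597490108747728514070675156621350772344592067336692497822688371025324299088999741980041142735683014850236856841963723462770345039467268824387224168601701966613786242447323171795471378437211936627017737615033208450694516031848592529524166606509303543414603928632921834555969767499544324976447469740564303129702940542052308471300085708036840579321180380854098187651511911985804593308375003154836338583119893792369702408654400333827508955816289626956169958460936849406555930943226929348749959303550294392272289246905393333411454499769826053182441744009008354815241757776216592868911414197918897329806178438692923323374541194192255249129941208629457394060536490785039980833474032893715960458027199649739546269227343259624697952803397262368112231250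4893674638011832716345376632986430665218337891020226860734431341564221725701150930075425189172299485583912478606713193782578131945758352580643598132415410048078803110689815678754686208504364436503518693888630681268839588039716408773902715649389213279944697482935892316419605884243132227227859718107545852577330121827898164787286488899520133742346631511911387564579392177204535292242752853121591721342590443701420779055627315607936020830567681451190707571376589464799186596189698844990934960816269776049791259896465983357101259770962799710437791052636082336371260369091217837273988550044706954536798987925572013507184284178932544866148617843303584117655465922718133939153377711028625631679057248478646823526103597567160898565408139760629058840526628963774646256187972988470165632938510557267179870802735998112787036010180885590996173761815279258468362571057213548671562395175388939163039011448536047446122656974784474317908336095889193421195202957400412502660643329898050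3462044323409209587947430787705348583196491608793838514962835171105138452051904652928277866584543936563545300629152469661325744036105004004772909490002982372519533503777472734768071753338801063750886903506630845004771448701258005573091286069892691664638230982149559926198063595282391697446088803728382823042866512323208057633251805678912228793973436538462296961833919083398500535101163009850677593730139241254873014700250721754488050830672930459044422030684263650803321044502370775558514977049827935243213619998614187963182611246771589494721133751025966644778336082289415577738705609745560391312167608604567487418598133977957316019891806340865573937028196818691769163508083040130971835414698588431084787942532545384362792491658778303352503752535128867717251827220867317280654833933294565310416861493635918560569028243427112377796084046652351912962280141262304892632065148801470624012666077013560569581740494004251683429443534492890420897691988232513700701045426346321714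0844483085161436774340172660966474618601132103505877374748410792854404299922934694178280644614560125756253022915903870309666496558986717470301011224234834290759860887198383050665965247812587284539598447475191604282905752294088198797290337854724843185048323781729531524558560293097896333355383738483833833537069981219586802838247846862788062004266953581432267323574604940629031225959350594895021083684866151016056141997176657870361917254948777787326561144266885575674522798518583072132580114076961670924144535013873229430198672582360918332798714331355443231407963867524521139116031797467908766223250193282844396166279565608816017682881715931608131011794174965367457354820803349987077945097349323828945745270740186756567109926903550062776326946004501696291191713101304075960777954835044384395564451821621933475397780664294476866901273612609104665034141261590766522393477431009977084743940103666166963817225896907833672378532828147200770437938599675309046876080121568611859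3909547787454558953262717764906833977676755699282757340219091167896270217023386903480456980974740431895044357157163613534944720914770454681685064294313712542054738269221975299024609584926412051747502320634399646070969590882453518236504475380618437948191455142346487118992243936790261880043211527868314037624128330067591083849548465948501896041106711916750443181591697956152056926324175666734946679662456372000726441080808272111178563818858508893378528639584599109829214400567527717057668911677298215902660579487999291643188387570675385186062168406160231476361626851208876979170581190680234662151125209513738039184734272131236735985695580257961610396370961495036782089310229618652736332561596463123384929330754112689174463657888068066402284921527796871169818418436267330546992053268592723176941349318163574587735544838690261907963710454717078150001214262989177138732473663399179408604106353765883491384331551695588132694401028145386567587225258934560640340205841811763293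5631737207904862278453040307210280704792860163926584742564882631442015238383326527986147637599479583236205945391290397626915449288371649507421440987274881614017486467021981519024939589188217581037096832606754758921598048409059130413519199541374387308050380309464395512787195425718481439012248006177492683277123106623606685487214557737431166001278497207071463395604618691791912171232387555591996526232489244127353869516000741691582432113134989774720910423774992941585818045470535327738283341532967893553655103765706529859660346939651846888494684235905043519901378932721363342552648390395008046558852853094549423855485781894985860844846189183483413888434153764331291315377329032699766186090784929148428864193491744510743749208815909315029144952026282660050042730686832233771366495739122139902983189905198880363543688574321021988713722871392447551838981678990795025731453865185298302615714086742317136267942970176077565632100993848531327631906951975968078759532951756710301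7396412821032360628556948026562418005063992024392716343811915486107478197094072744845151302381400331114463151292380471991713022163386415968931759012271610970221382914370059718772867568021219799427320401483161585749695635402729101716002801017196008290591318349353658420176077862643533036279017134445386110480327297332458510898344577247056696075829504267355702971964594271762381605472330792840324946761105184313762655828543831527752470817536106231273868171088898810642221289913713987854460394133000648135732807397690930122956245641348528678524119976864258806530383508946164070768713167768662602463516633338489299151156738108238572065331246911757883708490641743916886785318235701303515524884846923852482687035514785533997666081926387210248351232877109302030262874466729085552777185725853906524808810365404951641859016772972014085537610933031311729700840583746440307296504591971751711116502822132706593302411804764917798510137954427224652867427781989874880185391133210738342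6875764031623629780903772343541680919371382809382416650643765087154765470097418553113620924099098223989925826949212145490827746185074598325062281780404521726951033056963281612940343745645918974828255039521150037192431255406253715205240418143027453821985768322291800634665717639309196261483035215600438026070364248697748292291355473586204978857646454527899239899626365501296977102720370121833844087887884653467830791340530206728853806850902938997675008709629517043378924414624629551655966683228953686353295488591207615763880367780466590361522157714274974217331678284855666494309222603727846559395572069556199286274317640729737247077246625998612408593845303817823150580025513955996159592816379408387649465661813609898582657816214644597720779397110025700358567964199760018367826672429062887220049457801931941643636092461915452794092896902223504154011568620920233846032651147406666669602393838888356170660452648691824068399723641798004575527119080056566261874850461255245776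0357435624335528724122365354235674734472309228846306953982626576476603806285193175103823579426274236310198925101046084634998711987294153392336920034113619596048448192122849192018676030085094464745079095018409749363493618432331358213289352145651749353071606846117643900176822327812218305200345115167357552408573234544417553972263626623579106579860648841265445721387868068584875001615234050203538511034231086152948843275711913869671588150449402702911696758215752835004876331311965878013772209048171133906214398699806466644793873743312299063821268302929618395296969926747990021603141008908437924237147504320620472233279109830025156034674286317075570195511966765995000621238457477260469167440325531046627319793194921899921814718945395978285914399123336150432092186516014163743606373832858872279718637385851559121487353703057279063242288649711775047372304781860055036317502261015149334176370632732179323477716039618313958240639363627997953755391941888621999280120135067941607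1039312690828062643255403512640211259113026139444409772937408245037193757705628136315696058157556050355845127372275175424201799558192637138817953779279980666186380288475218445216372095443941508789599501694386046489181117418753569075959385814975652784682322971713794276975577988234077822402820115599728245393887890408661031913270237407479877342026124016881115401795423235887671365802895765251283459900689719464563055955161959502983870914086522011710965183971455943243016642069910369229061532322826435946232109796255818234064806297036457576803388579252305335578192338707999881997038343135851205685099432700509089846564163329022657156288231989134968672444219032654505535975632850842040060576224991171845233938458235133786217630960391631713148374144634370490106664703743640032182371804707522756399442025427702275276226379984768846907045964010980906618634454349698694136469540221656282445213423176027101035436467415601565968344271519188180750083361389275363015372272971840274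1754281040212974300812587127442572057125149629415561096608286030858153844527300672832791104142388120735327349497209600890296261475441267428363067837540259428166608158804135266587444123056467317092826367872745700106252005947927296790077357049108916928415179395365762624428684310276609249741586281801550590850797358695891495181374828007294563835216863505673459275398899055748528462684007930972491239605791886505968452670555291878254937234555903316644029226532376379839602688204391392317113161276656626903391255373214594724623386527561510486319923631651297758306886049140368471700465794646901064788674260630815572813780226548132614762675519703258836016859468516341796295503005320074067954137950086304812394804828199536059824346590753610305194298437885008157740479306243596485868035079907559255558916538829429444768045337533758960338542702598992534000610648752513449551190057632996249474852807131963175206096407318879695285103953371609771847618668962225211853952109904147867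528834733516738735400159056852826705964688905702388165739146132401772861253274685259929367385371195257363237562858113687080447991272111436711698946923495670382025398624235966958776619396765376379418620565076653498623560722160380743824711953563932793105165275465651912686711503118151551656457916234599369052101748255638608356998642072914177989282178891535936357794768385269037220710274177885864715918862429039918176793158286319640498126437081431210265699394521302346322328680148953478661561823750772558459602672287744)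

noncomputable def rc38 : Nat := (nat_lit 351287303611529961257813834742269166981182454610522205554202728521937956754528674910001696019464161444887322724055057122815910066955224071209292311224320742586564647102249476334499213082520421052002093335890799881051601904985496202344067810455849698745779286132528155297604917686488124719282717732713549341276484733459696193431252128475102441749119562367895902173871721552877003052934689232355973943263408942506233276121828991576853522582421834165593878815764530022560065374115911000302790396798018327357100421618917205932944027855465593425689513261850939757070018298927432449704819611987230431820620039535822889134439547136704075727844077004748950360807954979750342472283094651847660389842503247027657324418971911724123032847386037677981606469004448924835787199385080829550413710370506734233905817190840875092080105197661116945618258105434823363248366605133681527362110333142560181308500861915601359228221253529353709580652449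0949576080993840686640673824900046525852873727628458243570508615385255676739666308009688522031010571453744326452740700769466456064158635818607400523333511381177857425080282799916415460555579683716992987196917616366844902976046297551969721153266141532698028609538844170029627080794056438486984551632296987405817808805703933531068090907692922846818204329111635169571659823454179508858397403366288928300618517677824883376201143666949741221755003197556561025144468233280952890525059350209932689465816184096963667735912458706333135106832294787765333717431983753760224245518354874682289193804040491206741761980707063524522546474220861386693488802115717877238216719418801194758868028023201959988987509746509825133175415730848819637066376025798591134345702452046184438432940382341549159633581363783147867928646589433750783462336775202880844879680963061082610864211192101654973734568527277411774284100814318633733980138974303173053698737639783064787596396852407218387605101185078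4790438232962148420803261828971135252388645993400985904708851520793904295623716211747245471412238068286033461694057874537912464618507051063886601010830213217747555911070143021148985438437508021027097522396925390570761379568766158665793689294260225841929468495128669268952588406819393224654284169757198046884605422383239047873145107854949987036697748308911042902699307591809874297311662959485588099475882606443203027192515535915251656503084549428835900896663859676812591715774477963527625198072272905320344392996157316794147396700929375804338496531695501111571482849229296689071301542653999164775341881706302640121890899169130530740291447330622786849644458471974307594866647705429166405721324006105255441958828935396584889824457661589478596928283409491488628298017794761404833669819332388787279874118433179372426783610071891870896695550570121131189557341409524427601549820941250474049766169658119483713967933989884950435742974542496904518678393966425461626150950361615160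2770679168153409226745363346839511330553551567774188485788651795638735316093131038457357345860739939491113836446607339931692816155794121566521288782969405125163621460370885400676046519388142373142781231283619485814520704003674161285565680176645772826272130192327422975253311402663682118798235692698440355125082214708926730878032578016039814873659974423151865307513945863966001428637331860450776794932623859924208754955026885292860550373748801135247751808462391264790868753732087898668363857033473719168047914713878353289462618074261959109280096505977183055594200481985473610289939044542581077286313229918142023891716604836569882697106989017204632349015588516234774563603256612625124639197661269107005558610659536882450545781199904690097109658513613267677888651060326582739040796886298153339339716234830143547484985650331173787676493242492759159882359543553628909559146575079255309435893400711103113253032065656531216545869575689386154425963876858945015168673407787649910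7413806421803484921589386958723295358230261460289983206861926977702769763154095340112688745708990793354991254009688489432515582947200125380443868793103287187338874692481338724111421410900703032452753632554460872386118092898955930411980442301003900654028378579085502321184566288597262912692367165574959971473278390644269982181914688320233393322455225140805621416351575089281169161237648535336859735937455317386288680762965509427475333706950772738045921873375931604803821812282406993138896394025844327376542317399478404710605593112251310914275804551679766958578338872787675696791971633074242824729632345612381784846458338105181065935793771224965083736240282024174798109968590173750692795406899110436119853227987736544581539582573270784041150485109534695954053767542673365031890621876045288942755736391183330335615651376709076616413588396787441901167991343661447067812593834458369299682830970485765303113921021961687924862725378660193281227220510542535697362896312621908190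1394743045675977983527220720613912585155401234886647971533511153772253974663311254814222625600981265322410803441789115773359883137943540925593999124343926611922476357912942426602857300815159472496629227158223407251769835760754997987502811156152700102751361047401595873386668853588058411675688106612259100002814829055073651458867876994361365672156008216081837418133779133573016176623599895885728958066018542831896857520532954835998382448769003897686673440129157580557459833621883241430983250495069933695780178285037737052779051455522266575485595457766810516050563170046178709286385692246335066559470130442591563597358890294305914451684252261388784412136359986943593631392798729355572703620070748734562285043414142928190027640788515703391186183045188993997206830127901841512498059865140076012732947790989841614075389339410997042142179003329723894542486177151126354147576429220899382810615050815830494236507334530227563920829475733674943616013076255253779052699931445171690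3258069914601163882916911596348471493716378187587476210169047416341067322860303827981039781302592538040397171240691529833381747587191619454209042554447310536328822235350185656048098533885375856875220776036210910640138781026768454845987628501255324779316064598823303994270618134883324439458523202984126733661878008304873623465758054294062203464642439981750842493254628232901082919399151786408538891805292638923334655211097494418537324163892818715070576829311172072005192207253158566135619718772295631524532567075963659566614842321869330610290252035438417306186942778547337700952425236728908682108242808402061179448886772596105962715260643675557456311981790679747772814773985313793007601220548759552669589832083123247485937936633283257776415040479426854899793953085649367098648591750660379400710465543766999513498110707262379864088643882856249765541897134046810584932776511799491427303622369945182713271521427783836498813572967186388394584722827143213260591643492866790736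2607016037493241321982190590289822149040689071019235246705803533624432990829891435163948595395764038320997380980062674355709846538552411672034255493350207932211072603916453919878767413341077713099880301033540443197290790083402441583005101883392308051977565435592491226053862540204973576645516147513944512510511027366002284992918867646511883970600790777718393187517322384569846437011888050293121414654659015588814794200916212014327064429462547190517972887168406421840092324146370801722304047610429894299883367093163770615269149185178983965231046338915504044965601206587202238837812421142120803090369087859297221169688876220810844613493596566249042578504570892383329596730662274296390954250943951162337624738554740273748704960135246494980567813800770667087238815133142434043423563114749587106512547633632050391816402774299681786670053668992447676536971320317496052747065512025439098452402568969846619856772156543404619847254340063534426732362643289316499741082255574303424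3379968971647929987458095275752488406625685845197655702729770137594545124010404003359277144340655281583624973318516657720522956241386471728483033172428547022662631239293852285323266780319753434586555980837312451376215787515111184297585292433302507869956361709144284108253539987250139421158644595114413665896210590464078801304286468808642727610435069600228884081380849018195020077330331597686791131373008312479693042336968471734930396972451521641960707857141253848453808463811672191928084667818474055381331638427702330670992849571764391631014696917178800776262845160075992091588808616886246065729746772735458056600958836647738370072782029158894333085779642165710661220604016736771257657800667182057784414853706427180434815347102206894869682879318277745307742491473627464562855485548524283274522592841815287464803803345918707960803379872293829155900697434524606468451398018998819836513639397994419204093995476355644730804385315595042303745329486546311971416813425670706701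1426003450058645283092680286655246207664803472248831246781396645103798766709985687547712964291921458148054326605528722603358908878099320794388531079357766389944649420178004669473490155643901253083736321394837756974900357940652480803149054374551444554189339217086188423995954904863493024156534499432356173080597466436250125710577643168560627469360059421645463996614197461098112868600703454009872528352279248475097609436998399103445213699935584407768945588886378999627192479992618604391491693842478703380382968085400468143702674165353589639277619023238226308694524750974013066522764768672415473016677475067503529020095351940657507368067536525048469742230251591520549926587029565149148996875714689844298224356780545602200683373449174459806578920269191228218384552518054971966570173345929390080599931044580991774875779233907794522508337099733115314199139111373835404293713658449700465021990265577866145031724987717699127682756237910812631910136023163184246659646514036402634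3275089369293816532276619339264121272403750650391988306950672124139478572191956460078753384412580581191890240899560740459246751437237204276671513903252797346053708055912840345712825704055528232489250330214792397374580521075829830749542246653554443541298263634422070461626482538929495060644241634823486669941777641096621469113545033071689143592301401183469650140800263568000564018784992358859719786077769347737754793676146702349760379944312806013324181366986893083321160261922277117306826994530666734151572059218942789000277074571432459983760550201219585208351960546502854935552980200657839056406751311172381379359997015922664442074302199218830990462258358441034931442395896214440952592779779542107190073606238463967971965430210968253176036907415779126438670041468073011166802144045992637630133748725493354807564286626636368358053797383903145094644610370793269954714877808977383032091075025871387387003738264437921452279119398025230101111950441027419728827391912579919116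3290596149479390006418166352617568886290591121187673214534630758132176164928207252030387345872823032769297292784589420144520074568900097731567486802507335451793966483846977199117627350060592857650610517658697979783019457064231264609495639327919742092706465052049928172354180274998368974253095926282843853781558654670643350944394444789736430741797161433274128228862470764624614858317604341818755657336968316912361749340255648316413213943206329558868810504941176310563036820768656151431549800478811003805939606906792034882107082570481159475818366378474929805743380906550853097427013195375715651119456899939220397212096123984689334195671281519029259064999767217123830042559834023384830003212289569444047229956942902683683128363674965500153274543376810626439286225243772394680875380383356817652934654348743696005434587645127623652978577538075385909784390070225759512058597701667890815928527815884003400324536693101687685878769853620841076733056639517288992234437151641110020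0524547694746476667352724940604308429982494032389765317862585092943238059004034509058647371207339167638716145283509515189456164045543389189248009257394950809537748480518933395785519470873418970524847442905169144583543248365292291453500449330813788635947395167031845181473217067465498410897135038877541926567030064084506658101920282216480480006011535147222296306732292775191262367396515003844954915389334331749179739722166091665750872807720115253608009147488938544143803831118729159223544836213266924701086337417854056640831129040424844558834346887393945659398956917434872798149095897337506699450417408176942192525799760835291592897706835921302368315287300849978807674772106619017087071414237096582195891650491216242175372715682156709497860194625605412652140674839200359906543000753883590371388840697493392371570631433723859930602095192534106478846356934491501456643650411132697521349190976527731568715694413004588315080708788894036940142573213503067610732081848859824658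1155583885915257359214458651817078645134813119857087009785652954044821390966781520022726489821063534415227888449299987185647265926291005833692866445830355569095187624148287585944058127837172309928946981693167501928669738928068701584661742384889901262128791567824707406990554838412868065706205498226489245427874413614501274735547765602007496348701566470733265314892727715091585483288816824564389401501858566699638939906028676709052170937455130504275360384355914214247668628172090612827092529385608315964310134799264463517949253513078463917698597673202783333685759726384369790542656285510980434827192592890690409761964340934567469309324243386566609691190187604228198841773991904112890528964855492512417475539944630201056732114962852256546969741797632880878792696658707725796330831711999042745426793537456358568047892922011487148565205479778441967940229221633752941438077441485514036086610475680748641749443050746707521076765013047437691178994978858731410765679880215351700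1998699217028086740389955340437678676523923081085778831290093914142879190993442745325795903304900965683835393949020179788534935085120216146331736520174604669124556405410125570939884793221183981802151337396075673401030094809557981624953199214686663799652568142653923329475528253362518879293541415476896101502353642683301075317697800729845835204243781463557890906380128879641661716829643905478866105232108966769968878415737593442698012750335209026390750709124159257808032446069921087803870240263971881897681106502868070650557616274612058546517876414511114390930404018079606151988615483250693356988149142695184238441824134385879275733803126310515290348207713833466723535519799170730187762619209920285867000773393041699067512840002975809821503559869221779942256704165690832368148974516255678876970398261051282891330859626864453557482390803648037276119878825841744622276512763779770668243745408994812169007459366032377874365616752084278452284954719349620386757614269539041316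1001055091468237905757192659828885434576140210506368320876948104398989319090122630482873620516325631846823101164038884327720386817105990275028432520978306604620132261505540832194151289813438510449761028638611348598888269760026255053486602540346266522050649918292757510908928179782578773153757957535851966098542845006032465187851200779623959426876378575858752757183564402746752348651486202901990475989476321888979197721640613494061289149793599527315512034560065996714069096013203044081673434970139432216661249317957613705846269033725958311159600890817116390053570890672252683374730985469972261783650366461445254496022979403666664905111230607511381938806028768266954099701634291459415283517917969782086058921336287497296148962726919546813235054263198459143733461942914800196558728035054211175328328333574164462801067783949742064741664693616054426131751256021292614375750018389532767240478977765796230500693965450947249739395116002724240902664848042459157127677908920378795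6126331090603600398088793165587898123895485477823935516211866560656707089876216945791095148717846728656571695957945131991395970954256378804054983031428796980913170194793304347521968002494438398844428480117867676108259387172617526253742672637209002896246342367445700781993030634695947432599135521396366425411761584913032359289426942665339744145729709936694733766077881244616726084614919782103300818284168926627840973583928474939469721205424448230034613309043684658283575397554853673146418138760465993580368825127557946057889026404502999247072473425196395354564695500547456270510693561516995240657730218264554818225454263388829117540858156582282780346518939630231471297271163387989701845564632420802762424544981962651510326470652808167330419780688988203205977870823461100799517293654260471928182740214821821518819640220702176504309035455722963032493834995264941502553044209968334326910429969325008404667293695436688412197129549659792367757309595857289241815901308327213033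0163182239326196558728262267761416300356740153377763642149678383268297287608102969483862707452961196953348728744983742219672925175810188508130140404019552776344834230947361379218086787766928391255333434980783480501319872239868969025390332053131483279816229479335839676324005741630038915741499853332458254983556368308026694974303938483812710188581961638055126884575570476076912832033119913663042650523543544179083410395556488162427344435988397322593510564465332245390973294659464591718139367855372351916631610326504773962589239873899601018321822877162793566938418162967515405887896080503948858118683949733439884158345835063903286114347707943229523026835810659036607383821446498744139847948318490673625328131462209501700856966898902158161188884022042201860996070453688698538750723379552770628125989974287430116321605903999918668486006131401380406372216217353094895152877752223845135952307674381850929973413224177784380286236278641238366839376766797488315107398043753195165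146903072560219357898397583240361465078152669803982275673468783101484851349006331892224592981634812152701055124102264809971006277000409178576853131103126212303529098219999605767603027084368779025493369041266947945955813308990379943697267096315646507908660335420200834182906318984013958420858438578121694962616596617866865092554594964297635559988640357844738029881870155620899244963971332994346414212152302241372126088811038040131295870166686823386434525981180892468117750683427374154322499177367312080174003347521536)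

noncomputable def rc39 : Nat := (nat_lit 352054158158285729705347603438350476501114356671815547043863587062170149498331982167242581524759070396895379591777083751809073857847911566628927448647949951654651734270488892364698538326371933201838814990926201644694700675991202040117897810213160651096424499874144991129169192076932296473335683844092917361272025667607262646837211469322278079959073651609082925883174849172791053746245227444225559844081083101629168634535417466037869216373961809933058081447081001767625262413336376121951392278727155680964643523230780833704505613465737680396370199111056873177310325937895312012024128395262412275629931221241368667380472799427920130396112450635516040606154932790741429556642220188258406624936312501673450539379600574178241686071876876819981667167834519017180030473922654177219278617576765783539960570113916674720406987678660512896211684858160370034967946080001108671319161995051871207451631038470343032030998133177392178209911958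2294384622858350977316278685343679046558218785526850863625017853831031379281854367042459636051790951549654359787223749589952552543641205398716411442631544285660905112526018940296257019610757685957777323199773330457943833267224879797659024314232209424814239183738162047000636195820496120654024238198724371296084411093699961523058209390876174381403570710861516530259222001386681525646697067645644997452217913178512698551638516043813701464419800362602598746253389851039535976247943882005559332901581846669511790762475763255555538038131114076078441312626348775190405599820480145402423229700458423472136742941735902392617821681434358108356485151096429579413560026048494659576714749182366685474235107295560251480592137669336374351263805640066472355078987428849109174969790718495687644755437290226788760475635593735621470914375746184299491150575045851566960419845139704143238760849203981952346287238536551015019791764058900902575426824207187788131696692188498502102533834934175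6901831684968904030745881331575361883439967874308764829408089292866032354246471368720736340943622784912568057335382514676685202492635265468313985597847631388729250336669236928375772042529405901496664145542371397686034601917792977928341390609747898018392965513956880187758466257138344719827615279358429128245361306177411501418807733929369986799504646344964434419101173039219741549310265309641451581790748342822659816306960885185468281161518670930235381912142931377048123503051567341688146430918564442528247476546141826931346127840223997673934756358483097417179400428112554643202206447127960829992147842487405598867857499521674722096307694361061316404190123492392155834811859643528049159392487404111981548632974869313144877981162318369742179830906149136833037848437094363114267815117750923284988657931059255691688272613156736623157787670266999728227513282844971488259476612849692531057659895786751352857027591942782685712329588347465796587910396767702216706778282710042507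1363574616407306759490972051448916952974270005906945670348971299616107958857973624156974923594849660661770058803825628395506610032201025268869545839594730955025524133072484469042055178448690858920221232438717254783947410488395417122435997227903344834194635479919389751027442523169556952940401980839552642052204235426537090314951366473953598343555113685823922811102160460709784638081742923536062650512543431936663605991748417953482929756791145183526964704754342869566916251416160513754909696351013506456764177555506304268402822175101301330589345859159909903172219008294015288399615364760769898458237325093859065841507742897110353726438001711717441213432180844097072634357137308429313478439183464259540839952766317287037919790465185272900527976430513136886041518338219600709761137487211004098882238549021200497285465156630425212943657541930832982454882622415522257179424694271850552982688232056283321354820821602070698459737855658144786998054695334337506430317243506551306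3866444959388345559384240778068796772490385324953664167852008113204557698315785559220482619232401423401502599576915688707839868899285305860658482667724873575068011520957671940080086266003780281112395841043240570884039587559459156687093020279020533877380480255390496625106895948310983861251569167541199584400882085656830027357729971342043663278507598267546975253115220676802683728698101587972772647980515190641931936899241878027206836308705696306133606267092584342946592871566947095341639177158040168682823880249792020374488212575568842313526648878320991738442764450143507362396424018120720734266493083587161192064066778197706783617380284163982074483304853246536315923252971820838358958442722375252107958604331279989127500860045727904602574920525675326868158683857732513489958463799032794696293928930382261415860661226006775041891662098633063089801398931004614854064779528804311025832414771125020881598393359117590859534720718880480917196595131653927475827163018210442980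1220315154784657854214629496279216299060237246047690992689453592190991745454120753417628914851547496377182794390027013686999756452827096048491773619774313552507637713919827128282326320181132241662136879979637229360370779837407272589432736624747802256154248095155726996253006255588142075122359588947306249501697287999568466461868084544906499637637077423101126075176175181500240713299924804453533481672158397042662602752686400600713587263151036428416561040685949410363599304947719519524322323765964208333325750476476763414559950140845160047330173821814491929688993030183644365655277007304988031220564271245571733367130179311227644704181937527703461288308047434795069500935905784857711361808780787916490539968894914929467716150320098599578657783944251963799538266497694269198214788792003499099924638539467244728845414708804832508025749299273823341937053534572125580159436768622764793344067651372651219196417288952857154039876864556479707948392390734804130288116713228362107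0829610270423833415607234035636362801732591257986646311207859776479591692492450021200474237413490101219686536909863266547609234969276981745941072883837677533364981860884649266297076391006591643609932687885960904797034702086104545922363676592396783443318619220811655057059917204813420154866109814166578417974557025703449868057816852022809083821472496261366043621114456431976636813591375820412006846193714282348960246859894840859714712533974623683929871178893139885624855614037036493839101752900898186190723980731057020692604888425823489733297581550743324805957638684705140721849682958837240407323574542871109276186082753449468977896621913608661076095447162046527211059365029172931757755457243079047637819485537064886207795839257733968906021859771135207954294297354715003860641498515879965571485045802745377153618722827798120746847887733003353595908978070996009891631974672184164775414590697578477325518337555657863415558666619754097279857833432503499584876579143638456322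6797938408354536355960156258979942359020605033409391666639530889712793148303492576933948773641329006579962147577541862180435418810854670718857899660016143976488091343007682599602751857514421289016482126151851224378392728909104685660145383483935449293577072299658624980261063409165362868992577561563124296637096193535289410318704248511170384073354251313922264128994040061191368265791807737497682073810291790005428568845647285191559666618929228885505752723453978601330944912323874243763295508437970145032433842351510214661077314274194998584130985479367897899119303001781676220087584699834024903891144221446098254356406305489487554218117954135486307845297952159379229590619651092241094139684176369364426568627014860629577401062584159920048737501739174950763228718345095509168013927718850263811710107987258658840680231976840218031417930687673481263418378841127889240645494480279673622882198893647832593286481584029066613558466699533344484436835855828651070348522112572821965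6151737980007524377638676817042923923723652215001782555706792799311599785775227296748817043571828782730260382426354495819999905714640951042680478248359145445929397450751160928954827595556265629652371811477876381401928906026937704428794691452445286771874052752630472647176713482022405516812060406363919617283151325964709593283425868216502234976592673385838776558166288755110662424679192178323229474130477506613442137642110679653713710427380921864614548348124740600892542836006004748019082244011734677955411678867262190417413371760221952738579954457759494495895724680994511206023427663313824197538411130821543638638399251576177087965054043794227639291806504193133567192328240537512362408408719871113302598898888416820619104487642042090384455788400450066096484335113943980230954045980210585920488071878267770394171914602429560338345670593833765968251261504482862003922988349935876492418438584528469786515772434226757086128074029668636713972699497816460208328609278791085572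9260805638441974542827134930098212971089204849507717319846169246125082352581445305480439115613860070224153475503924986106541634398253324755959500004988555606509919140901676437080700787381008855104170871439627147164553950430916654740057240588430804093841386876199729546320160555019546147819622656162964395616553602082899850295622813100478456160025232846114674377624858035332804808702022940800082663564714670899089979020277793661229792420627766261576729064558047068154448410326589670114617620200288174601885686201877594512316837423685937039693916575524693625683120367500325977224748064560443599964619085237772348561240230865009849569899044442188009329863663803527293728351622101542363209753964620718547665738520374486763421829984360263564003676239558748581737206390787087879103269764336162353870521483349799331881225813163942945496873660539100852220539237780093307988608399417045921461969218639520085439325777455320329409554370901103949514629027128139723752099852707495747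6189565720398728568633072308745471888082449601026780284236374956369700269783149227691601297739192617808115215445343040684412264106079545863522681588736559255920348537164350302669782368270855426105289930228475729594225216226753098385098350756169951881798000732064846118854988031366536979049946031670624686022941641212698953466636375610499569708524375828482584252221855471415089873097634050609182738516615442266680930805611364291542664304898987559792107155035232393863326699960684368389821528731284864301291987886908105812738450015040461261608613875807230340275732120272687012390482295628903821257309203434741557745898310122039634681178680593721453214406556234772964145000705544087918255782860131278806257011048869142357207437470112779258307943062078999561947140502283955442712822641221744880751794872948077953170978049299597433756309165778744177171260620536931834468317989230661692635068573281501543374635445389396552031434544994386000619700518505358063245030645644123663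5269148691530010846854119082951156161711616153262180427091597288538948210370414482828689955221553768099600767780064091792365610597940010869183742634813714376411588535774945049251278521284929421262689316642083255696640061116080764653258260237036140595689999848125853317836386229983756995765624973986205394603888551266284939496048424157874073426029579003259608597869474263633802355221102560645477920922873617074487507668531880186625395767727959708178850089989960995425995312501340577907464647262490806847998668380379632799514288841624284967783960308056861358237159690465672671667422486270281917119225237532220772711072588655761941731071913282765555680640754581800156474722181717724028995439878126119187388097789491597101233326923159197320105418083555466166804656659116635179367275286530264254223962138209579199483226660750511066413491519897717914999363543970448940493263059301266918897183772118266476825285571641023094070505781686559531043159286376393607662824307058368627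7066705050045313840266025326235113560696255633364695729649177261238044363867128847244728914162624247616390869795566875535308542886678647027756584454334462048797248604310821172986289203355079690158021861614290639075858496658891936480912045753112814916189427428950336592550774608286452499882106905942247531465393763187331860613682314714900656657243686974118841335911269194634343617020509169084391526796519852827557060349700876948973183291013850970122119353346278229474895788679205903343017653064798785581954433903141804981934469776480874767817771463205803464961073816525791349048082046107509970934684168193575460399148055504448804505887198877357817283134358799294266799021258739643644436628564296638490538735986916923534698063593965565045703095317731882102471865455112058258073143485866031354558520901403870124924809302308388811870366375113363161096657476986929112622066253153098302214759097989470936012268681450195117373884964153612996504727085066891736518067469742627015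4372122970982477796439038550457547989910638227077855692755289794419947306450589771279491234960997377211314385172777099220898338905409569982214924557703237075375344261629060465935030196957327544586129833437175971650818493918516916439905457285273447773095832685617982149027758828934524888999611972581978265558361966174160501744811561562614249376701394409172364683881086564495316078020946267553856211800755444000102646097540756712934268759212417403845313934504528133825000208464471127632838457593677994712368670797157844825870533867890015675165552908719186950165876475190991979390168507173605879490470778820490566760027735548491235968043170051465001294837992367207838986228159458394440060297562717362059611654149526828503534070352037562168761122545270036708169629066036730915102733574254442273334740056689161989948480241260015799655607229543926877681517338529308882966041101727197969795799287642922950950915506893054166424284586805137820507475205606013583543980713768380136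8328312275905549774686519023536742108841898652941740439775998369422550640174760511437002785736439611554067926845579739805277428437048288191942381092858691984003797752387329564931271715759862979804633522974433747811060964248263683948353558758820457539684839797949543072670870641047440345873637728023746531480085695084693787082947502725514906431407512449991886869820346853032924330303287719440089767668672995289136428921161545665099701331504742401743439503084683407014714029526391925347942302827257431688554333739101094347615289286357442951480901065056956131652987944807197177172736959104370537732603019192972421607766937615878286993685159251942347938588917778405757809603423827052357380038173184053679133624057756679553985021014745304450593189827623984454457364542922870612956170746667426871389788794791906629753004702491165365605378607402462591032793310172963118424075909207511828630214920569188367507906136248969107551668947077036694924049933975575657149069585510531903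3055772195546960996843040249196581427774035738456985280507095891855170483133351688108438657607547024337356253859354641874371013377240771837692367321879883543032652239121151817665844755599852451962566548566005959849946353503439401405104665951111567537598067635849147248834584905528234835668806441237676346959741120871979069080844334156510220546669407840883682698273972446478678716898379655926871167647881177373773717314183544182323367014823215506847736590002566547926907623047298484913261754901553349679521164931137023981256325779875876425270831797184089142530530465024918654281545622529455600054320279350501521917754022592299493266131897515859967959237807178224551890790311826850432882645624015896247543310443839314602907620195338323446340569335678545611941021613313596632501074642519869888124695166998816229407091829198730944861122084412910020795823078709853582491951719026345313844230797252638956159298981156912962731674132709659815769256277586200568147775567261187531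3750226925227948302034992368896795454636813862398570145292695680018028494745793622372382171026568279410220567464210272318606668255651299762562126628423355812126018152020943742436279563705443793813744529927613227643129267732686760097118067216960390715046479985392342990569464114010628566939125933233506236423514764804338540310961359950326970346539081673170562746717946114734409802784719347210992844702166917862984437108930999960698586705304815564324848076668897920664351700816600853517735484832439064572777461330568290140989626712638331095824649386760572224424667727487760542962546296100089072588829700130695601235853037408867733296292676714779242806885841490809180029164535587134355727184585634048138264022377548836209508822663745792736712745994878893642855627995128107316870382388153988865629227587359518735888087424194511598483508547672916123934891360899282657639454676281605860340590759797829612062908073719045278460626389539084743368717605499126649131735888173249148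3734077702226331775369158447788620108863339440839108586044993816344543037053265819524638233867367383201905923316626030936060063985130439097233000940972658181005600666165390363910550483047175188614916957319648674484313231367902040635995922629995864820385467625546823446370143831365355530215464860585548929419845300578893050042334923188954640781634013583792472940523662407009450404765918178151696740168172615939984716998056358783110849590224892736520957648288618806305731240487908953363795454192239923426590583804212153606881800330806207723396903740412915482417015269304851533201828480388059719254690165131032526382909269836337117813957935283076376903445430661103426009009180611181432391885631215538913078666250285696148134463281181789770647166982339934544631972300675727782953240202877927847522268814185914533009324173390062288889124185465728266454654747631039316134038285017885751574711485022991373416762598484910512274839944029700933279112297189335385118878945005782330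436682564453020969776084689260232554051840287782023236744236950246703185025713587675379606969016082136165531827811270031079599403546746779998778250822314488705304463898282071476835280925270911239365375079322266215378032142879586769486952225801142925299193594545905045063485254255965570329172626960104450250652284856495271572376383308593727388758740139990710258810425781127137469456220457757141716131186126309490942058481805010091546342929923406137668473396573173118389944599626592984967768569712043154910558782750720)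

noncomputable def rc40 : Nat := (nat_lit 352814651161050302475309761502004429680780478212652216370443312273286279798089726209079360011271926433956929656595095711295611491904704497354977610161414987081139827258980286686703144476251098340158038139393673844713349991088523261870994875380732208150074958541213253676923153740067363337882299292505014456404720666652356914492410014900973279460896449613965497002960062630457614011028626613926688012601758467846053705558259882789855988812828720355847468104020558664564776718880697750372398427402836509063620784183879295696004030074887149593179852674791492489404398580949736700440131719970178628353107140822685720319371671998538491592927340629886761953531106592779990387162805831348326035983986303525951089836234383653041468004306856282237341487790320396788772331949849583602068292509095061685317700774639958211801573750013832179534899377702551308531246488116785073677239659844135999748577844324091252792305168374636197372124925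2616278506690773716722042851823740800179108233214077450905602717056453144919225105742450750782904940232879231539673238589941561295961077282454209948535670785022376229668736518403036392942765765061787189949454162876986123021715351936936408048106618722859784875839324265173960611193679807343749387192605861601995592773344958594063662276569028224564587700281218319866909276682081340703275048134494328144159942398783584629069943369391769186599171782498934744653362542369181717551896663495853520949977171442073483136472618274844313499405983689364016348771596458042844680426852854422274276614132228985403907904990093844647951713773922360409327602087824426091694092715348097609199356496326485378455190232323368177425839864032100860047036071592141143997801577596792382164863035893740664453960020351374749399679624312792061187147781492988598117844948519968893738483996786648727927333033612186770499139148296695350018896962420102037982323543522489906348215169464960552039344688699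7000889176509786414534152920671271380020843895850908501461518854957427432230992670251002264619077615152338278107689276619827103391555074515321237612608618991363170528082423401624121556078727321372438385690775602812654103417956533960963392337615383180701202202893106513643695527883362250190408912199896818916499776083264834664650141185027809620742650139081798721230835596394777951247218666591915281258911573027609628088057192491983885875230857093886743257814698037373991617145236117271737920223758371970957102128280476182379015122827352406936437897405521081557595983740053842101336943639686476423133762168503505739420138051895529602388350089989408763347466133217265826849850266067697747533687682984468066015186657051164366414371827296663106624804666435865376637601399881700401755746949701299877595701703900884003226002189267361291372850589149867845918557968759497571029799552422588372407805543584147023746425293588229439763078823238844795236658034549858039305638879369477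3800820388633186300044024310812758165045264958707548080373631910094085522706897258943186658285838474571392219521313650979318348238446688827584294918085979788847510873340639899999042762733167915299402203950865667877517195176670252981631620901663656427223024527146300828871830793987951185200968251851411993838495018990457988652514346040127700348559695914657299928042713331701892245113349781282175018870691876833021229447908372054639097479301079563360551954519746352706544011314355662331485026835001832325177932433041666325609978770121705912987625862061984573647219485393431859624060052992726906655586318948149058766221672370609591744331690030348859698395118654365688469484514989365904633594299906607286532544875810530409860944722317208480148430979388669359914253768138744356296148238948671273807292012441818797761616981385762199497252538125439203191970211543393939284045602559322643477641635224409860282416708535136603759469033738374399860313001467283314650058606805145588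1139872828669409006051706189868519953222665513261217664144871811871633362765674856620115554087176747957806307096483648380618418111737223086814419124489068558536109380929663254150908567723690827759112059554583025594754825603771277869189727098876379568142322022532954998765896070524980599973958034299499551132813718455887147238233005270157694176771324380662128887868926782606359955789049367247401288139501042851755807695287349677761631854644938742981537712871965553594668476649081334448012906627040333459314777776075884511806637748569007700249998730980798383702140964880047704352915890357744614448677467026569813441122875145143569160154469115845625337550585163772856219061968472517828360179460740365442407977608593638620140701888284934239399305708833629781914764273043544967634115098004961534827334010818742908716264464783855219274213652383844661642570873152976813557718322998003779279230386390522612378586417454936740011150121882284984135168901811997237274013997595012453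6143571808381265360104928693496044628201728108107053725090336201251807976991938458723710965935992835077074068735563953066358992642179374039094652360397796068436637558685385880365531681539583704302607859213362294557637100942086683591390265193597972881926852161574069059430764952229858248574232387853809882747187857004255728421286909011985077282125050716245241189768569194941277666412785657002670510714870307469062763496428485837193677038643291661543493123409724335240015257997369360655560136433259730041089280996283249440540813855626158124956876287590609291221093279110184787092342037516430972117991033690569007589825025120243412531399041595914589751849823656176151447165368196499543996992073922005962442867101800782128163032596789215865127505180795203603130660664868757371123306498004440453792044542195272693919848144800972123524762571407888918557534707052677593792318120970229068658668463997755711579164922626381920300405601524394931453388882557752574389162161680902668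9433843746018044908011087535327625649696174623474265752984201037661762885704757272152504689209372891162323534606550999101651256170180962122319275918939708460412940200926973665650648439202300426620022342365784270981131952579523047074226572852544863563467110026031877216725245897318845271889392425085124447357304488136867741260915779566572036576450542883022567397706243607103740247131021074220342706975222299968854944117449154881782014326209987518627745822805203749652559166126834849571130782495041403081455525849241203111851934103080732007470895635516407827454233836825195616286675256453422336663160690347959880708334074158764428161882838544114838407892079971303823751662365603286603846165329962039169531099741533121785991842571273343072448175635675685593055291940949295821534721702093314224325464363768887616844835832536155353993926529318423354260289764608128555554862049077233525405566091068502144145811595283368478262461060144340559265101835247497028105626039462257995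3463943276877658253291443326149758635370454123673136078380401230696725746896541054478023976346423453251993416206447658852540866338631525463201866758628263417041715672335218046038920427563529143755437878212523870209116027706493408882540367589029193385718139790331688971300948328605480779278511840863865234797779862721629511661016449191391874077855033962358872649815169228296758234074052137330098140156006295788039602178463096853748719177024616141389038514490158630347399153452398915582403208437290627617321764079948079315008697610779390358098670130022704433790805414476416447870942469044742269203320579259373871370295688185712725089843583040011467265793129417802559958034392490316693888936781257641621138201393843762167239450750045431619480617213193813143592347787164146232249234454594557177018581532290074147912503184869300610094814492402762119031852540271040573282865809390355799059081013730445545580497171412823562079936173109848458722674789400237101741154602965774529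8351865581631206021921068083668098677415458577381259417715646543282339268979641062911222259224254360400939955231997161898118547286996110130655200693046904726344393759963467679858856840691474376816772354176222102558217947246126955984178568515699465398581102064260036328131873087247819484650955937476443869430798475541045628271970914269180017972825161787445902734161500329972885110075637789490641125904054311804870086607360329627492289990399565073286655820294757149525760385662798082295576318711307516916795778606152606035292119460903715371178513659499073143784871042375803297129525008763342559293425107073565397547028621576689683590832548224072214313243394831389869820100834452079485973039302582826961562384066457491073494943509748870852185493233132593569982545506500408345961078549496493881483703510420068992760737476712736400284876963738562634832890133716114716096036285255963759834488783513290805126681678407551086320877926178725851785658291121320327803636937829411697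1308977583070034017117345960562610810471489204287324374245780205143420733795495841812681131339489474779483398326080966303055179044186765299356232238719790058787540646617253253055453555795005167825780313419279872229945150989194515284872077998530201871309955536991652006373004184282726425588545566725193196170755615344878003735604197247866108174931022938682940926138478596901794229103721305445970161317766812497820852704133566547107531506469462758818343851129704563668777985097956623547333177338831511521012419487379808067377996871516790797587131881681011084715432932657380526637488930482649961452310605251016214676447322380758267752886456437744405109470000934957160501469482582302293872101175890854799156805087503897121581905628997020249407855483235326353425145204726283904620169095288607345963247186228817926068607263490938054347419518795098056874349502931863471642620688023464116660013807834139078207481603965931856757575581653671345105185214853625914025139142118995871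6112711891500620914736081952660124000250509918946446616703472626956336282978263137794349743136160057900674559284909367983600175890240040663893166578218750493900597336762686925201827021732543552793943410756634601952961895516561420385106222917528014128662199116949876387165885638614232430000894979976181259925721546069926104569699844882593202707070718986448259739370316012321951794004282001098110442353437556178284253920323174173711057819301430552217576692389341109181889725109584597602430588229314145114113144925654046862620724357377229471079848463942819664245902383931486377825440643268269634592804324873090691720853533954692257839304320540876910424560129001257837322301411244836949766762210596662887246262498755366453677032804529071807601139208717969930692453501734820167089809011806040022412010218605729638448902221401371113209299018671551772462155098337072055497351121217196299425506886443200095853067069609384022402064919742559718684018219649993956351461541239696034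2577148091398349808102911483873054860366700314484882458091737023934060222388565268407804846941274970667166881301488969317746584399807731413847632961269889646866238216556584782101646593267980103277581440024096096114587739577962413940652105699605902502972372550553105839881497674490660325596972604151362020782855358272978529237876452445141496799256273639895627118191531286132535588666500755231298943808553320518606863776749041977297920335446053733319837603023887859535761223243118822382244896541981022821702089787990806306722561586111563996334093774356915807193784714511506158432912088344703084788286763564772852399808392386561848526505810853490501119351364141631801901567381986140489389810653785340701560643838610741494035035852036681543406283831515021705281831039692722992063686400170337055934539599472448580401758459387509269258363625940001808269899996441878709992812357188913039162959151745527812164706987394800437857181631552201768430112776017382522797777045596433414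0704480086606873417059895280814704586940006639662277754581684182494161123439194389440412415699872527519944016226530412026646975860427176945988132891340881434170834511793063741486673315368315106532598318947094515211834642077247295701114366000014228941918922454999654900246133142795323793628047447592004676045981331561626616850239497329404578553424777268304748221463356037670675539280323169891821333555526103096874537353994533702960362446046585294064469283532298480488676566971389135101303177090995724743974996982070402050937849890018315672122780101317559323813011167846608411100099768864332511951587894065247620881505294835200401989309270371957205795336273349561978689404083320571049026150950934185917160203828704946593458995592297667351639273228199329862190110210205468454198855944617238259565636110583521360933855656247854431933695663497583630607698736522429007757265663488353356578244075800086837931207911747983009770896487857500505623266534253778669444624633863331988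3105686455754668658706641954875945487571564205662740598382935830827348133470394057888470707726972616457941821998151279785338919901341948163414627906405242218017237733085672817498710833338373587899987552206614545948235731607870567183019461873058525934132148331654658502374441126677988013595301244531665909870697367258553378824896011351859216055549352028589982156809920168398013917813081106480551672715913139930787365252844320218787302588719947679231819454936184314536475648303054289923303485099550374737303695123647509181195542656056042907944411693701309391759779333060314414116765745380292361825225904532816432333659809823713736239044729210004614565106064956886608222833647870076863371183859950362880620299505888181896107011580303642266831698659089523949900696866903166295962010059228945073894308286283993254854709650958716153548126675648329705043273265358754151366938189412696782810240362473030377128581462419142293541118735848134347217877797020738857919478793856613480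8120288076039492341839428465166485537902970953800226247735826082251589509945467467213266369194189988321737358994913782732281993843506892138440339507992083172280263300776713915942076837013421965714735280362613268933117004625712322376363007775974492643919936320927006059905870361368510606564817528257640380698362308772421330621456688620244302507562947377211876773288668137439028048692662015158334928004867786133160527135907363740940214063077528172261934627687762892417437452938288265951590775288586050423986884301821112406201505884427323698800869855231291957600092301217673644581723209723558921002740950212107337383723678880079235618702163411400414251757916262496673803538780333954575635989064215313003370728679937682626654905670509489254164069679685295709223267814446184297913328455298537274300678541920557600718100729927681906937781864054847986024190401146901253811381953837864418416237592344196532837228368910983479583198991374438813675717075668162797264835521597395932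2664112394255422561460658721923984476483494298450346681540273234805958262321633673332199644701109003048139451125730329422331717979310316088109881808791835453030730053168800818881839690079330812822801628951966786689454793977661616638437094575046687911014641708586992887794072267017089402042281640656352961378996658419095759927419840161487019583819452246748420600099972365692591672562444062092285343801288117719376971148920344550005189223933637528124799655381372911342512222382203255594445158591261402324853701844546386696772656720857363456099335228477355528791320606419826892031794970448040242158186340446940275518059873480826978257612053268355846582627452220848414389222056283363963077347945145541892597977335955617031311927023121693528388298510533535506098990454224273091214844149502929603824050655777086249062675999707741017507171100784490844127225544765874584375852495301449188808517794575275057573810132849615364376793692063004878849823227117287078736901800420009890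6175371259121809308474974562616402246066396730025716353810105848445152317824042722775586975799003165966442268861717428095507972925345330634744397131573959980354622715293413702589295094762220789820265900352961940697498014086513966991025396492657685929455625951122489848452538070018853143526183601073363854762023093127272370349144641450427394240910281452502704725441614984627771896209468763477813974970731590574627713867086182914501172526041454378372350133696252107399602936108017955106724401654153095773584643389902595294253185511129762015040578507189564768209428195373774959520499539044810336127962139220152256484149169426099519761287713763335008969053601619557063562232971141499679615029478666278104859126784360011151874834978078761697144887734678135879156144634547878810459457768698436073825165738843027907848564315664906389961684574369931927020742890430672645947281524922519061944338442163725243860769328161082005200259615157490002200455963966075760532451243187475365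7741218499460311079238079848286849249758950947998658093934244419438446233567864081883044662674102756824306955293106853906385918097176906165070118435838926424951497664476212741381441050562637431109451853880194859833403636389499356344071002486353181563553021211066886856221405032107583642521850638942099658054652788831485228279523143821983880187351256887031056736618386346636727605897628303559732042682712369680897525309819177646220437046343164106998964008777994421920628762667016001503832945487303289613876491225738215191894368441511959464304551065477366174048217522420278793222625614632632235753074360151953234134241756344386336822243056764381848649525415998303602115053946639301985464274465101299450637741357612969849629061912701803822999101696705214593676049993850498836613409281102082878537012637815656402308964001697849104068996476736247735893102514959974533889149703611496102902347400391770005871757882430285921663689133312407814587733270110020719439093981524919458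179914375060409421879564545633488947662524573393925443232204366919694175113023659100153098453299882525574126233509397641864564648646841958147336966388409504905919162885180412234026340713550476642485283437158134587286481671828092996555502320981942106026341955461951614314275278190129580117795715670205905705423669414575833421672665961871098310163786706713622998087742520926778947590339602472785863715222190333262502488143692740911634151497021233573289825817995203751799838376534422435203367335189816101251689576660992)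

noncomputable def rc41 : Nat := (nat_lit 353568779058345017633494569917806059157032960182459017844454046024208969118214873157427921132657886345297938312083815694522278864225640037781536249577581316867034320810081711310371259410197386252985350451826529668542892383994160359269351507744416366092777839689403188535516653212580267868065291537580496665236950923580302968020967114868207437407269057577152937800503376487483911885796496547768034345466623464237297862242396845410314150742921722644507848882415731469906818637393451509700724899440210905606141067867605205978011885378939907264285335706156752943739590732039198954632867554565001559682836951105789560716814874730583862940236016707775269952394968461657733239601919282492601041539221076857491195877315727469607593450205639711541954636387429789622305755977373961913501805542889149529492721772910076809239257085940980932046803470294741303230548616122654535361123710876948203313261341420077946758371194745437492759030648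7544796057493015785777811834516826588792149960557774181326146275753675057387078226979915054041616270493802157861801357934019768696430685622391866090987334112142253976382816602927397155212073012116538017729731475234416702473738769091668703248906853490507462042987019025711622846076049959461846368054403583408586070760063722978780108541634832599593850662941920268884577662097417200174216066647132734591549354810737434529705839001263443533642845202452791216689189246010044588164748953773143990269421504444459490702862852279585213463792055711031891845209236531277963525315029153462273280334781599224464309079448486765942421627160673793486924956638712118821761021441553457373153697555272837878788928862924739522934026069693841288055179243772565855392581721841817991737416798770748163810373976484295500854648534698738394170354730807376567618745084711396817147145626345494605372459728139352832367591137911426603325732836521030809589615684930665120402625708151802817714996190266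7428303107136416095658305243842419381795405839886483723180249110028558867561723999112143306354537028173722010879444643434662912456927331184263895484731535198301698223587379133841568183871585042382167085047987348341711952201834616150644965865028869359922258095261418100717276839824890137103707512676454632159642972972972890693122935621528850797047638463883270869243964588705860893514329747047020704049445142850310677759401415635648389980948432953784011022439766327130314381864779764077980739960127977347895598570881207289505615692439450067153560831883826643164527815725706779722049995134337912623212946643343547889167739948657919994141144124238358873137024058694124407774849299869375811081588109187171727489615004871809080329245083723147662245689749776454057941533134242763884570911056348512674643530139926506667701553915497585059301095012982745562948865287733509805238237806099940171138726806827454740966973254677430288333842148030902532020575315012851192363139026009688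5643553501030287416401159089558022932371104207559091172382192973148318261526875526638474261479316318546809788907321102165071885569137672716899376070647349539702572802849135894872436313996910412619566322631553932819929523761228420431688761018079859426100616058390831820659259796175301474425364741953883912514386131733300139784718403748168880824709437905395424390635924489554757723229865316546445255230626507984871229179014826493591079619656256983301056664718311893536575177369780120698157497841222488802202493136398292218384460396013232653054426746569386479566872273700203327931985264333021766987660361353901316928028289184329611003336244066179803961907357919404114988459832859022104379352867273704805846185113874382452049603493046897769947880377644543303682043096061950145807830668325268387947092476680387953312743898160026350268191233617334877192371626842508603248808369927119035010392349754996299717499608508918648986453557278955251371617440620807852775325776527293759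2673311758301025297675026518478071613675503720659547669317778892445067451599192687771101549211913483755813660149894565244480511755612690286445098629805070609636660224573058644761043603738144533204997063033285382765645976479315697818304915051555134321199396331608563102922302271283328849975320504531635926821462722469390189314119809014335593740727833188630733055293403992311210134012827572461459416633966921525535947961970686605000444390924206066206054996833847085276761296411247856390424325879014871179164587277137218343227056373416076340007468020491804021165865425863427401060840026051462198694642681840275471075444993231973123324295203297935361690649962018836270797294059986105400830192468928133204805931163557570775075130343580188671245011170410764500532702074718132146275542645557760978163221068161606916518376530605591355355377099069851753429558794208025570973415650317764272792704510720281770752092524269960768552977724088876799807001346388692545776560288390007207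3672064986720619274597947276967862286924054206008975543032650250930305731527486979137498738615433346725041952432594770651223853587716050050557578228884233374178278329541560041460659261429780079165856538101386275178881518272728454830929088972481528096289767647853230596778703095111520693366956131420793108480687189422696527986752829667691320542167233266016559872053577248963941999375424801408594054305042573766134056117669657632586245165584953783677046277390063132879222528564115992768840266172913528370616028433202253357668468825324741771473610928491513827885873752696709016212643339197737267557308393042085054795647438871441906201342839440452971438921103321683095189332465906173508743662987538297541715496715425030068116535082899813517498886918544224191936800954064845644512956731916839088857495149805377248691639689102639906967443762410193112104560679459850556345787097119973848121222241618823148785888551099662783465565247567410946754848305673526864782649094672207323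1771381716859688398386461046836154714349512414782614993437404788150432024384481626446114419454186510606141294373531067265535342320458224708809862148176286777381864134851825079117702206326771117971302217906931790940248519039504141744381076487695200699595772700905851381256288181267211033713895231226984243200494984229055438453643244933676931516199597943828215664109347959216465724174039262588148304670715435423476936014825871626107814164416105693638559511521405123387118417417961329902570973314826180162282240484373117636221447320762824720948517203255230426247970259067112761847838593014178288264443322447259542770532410850010316707094126846958083317845159468468332332363577574900288951297297220307176600766538378085480660242321699945780010935005085405234776549359604035020555182085927784165877512199796075928268100979679171238526497338557188289097096546603596282412207785945466143204560512009727773771793153013554861204972926965202235308243834784158590376776030453727061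2543133534154428764131364507372248988071706086246484729349471939118415839697559502422188868516149239616827091578523355317590539593569963474098371167434308064561550284664871240515711886028151463600137676810574257090628204809347411729044543036578449766645869310319808927104960172272575596947568016601727723053139527265447537194986308903700424732028238155923830219856843065647136192045356793796627565237286254706608238159292685056349886437924476308859667119242028918109671076108796618220755053990133487837165594667878037447719355894530630175777815032803873979303354228752370691698809510310861878993211878761334184867217156522829969370460707410640601472842384014197994144523610350128290200180641782604024214089436186744178189779074156340686112012478233138151757548581411860094870507613220427029262002839914851728793086902020713264311918828208025970878573379726706581937852553234640979783391762586334347879470771742529426446018950835675498663647686716957298938326634948013644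3719911115707756839464824949426205120793039362536679306218240428055688404069945821830194795747523349990802578950846866143829259268995708631457566357145948288569638426020075431103354282826188455833234353623746631085363642330405895191321727923774532167641503813701172744109295700007936487000158397181482497064851430074104831150239470332584461566115956504085189057788148032117042302376893901613955746831381001808200295747187458255300870618206727126478747950832784876781580366308891692509621551297937060564297144204855135668077575033004180111230190007510889630896204127474806150183226358139303800208584496448065741033334215299179962830934508918201211872951721455641275436857692253929785189967221437702453409418078082825496586838282373746460953636834622014400228114692083164758632814879388429883699722203703691983894700786887838941540542437752626481264595768206598725991451903768878531047606682996485160663956216540712567617406411247709452527303902336193203825817623128988588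2810354896251797400749683218833877687149274595893728876154672338853507674956604291984454409640730559212104639475848057982444708047128439544712579086456018697285489862499488710928620316447431043439422775925185965356470087038703979187851964166282119180777339719973364815932707641221978935942147521988464144179333485654802562639057684308603552823043156358316250750166733680349561761582132694778268022854170382196388791136221049497167348820810514214943210540407759612134285450494118253085786477245050670963004251053509859647559551736142151420050138114664934682579580906794712973835222442552466400113371538173724389156650815872708329819926915524413927402762526873631144857206756926822072514244549585262558297277919869967009132273367645391733499629290472782293767590164678452054919626471556506746270006857861490396273376635381933734284984887320528862493219787016949832461612038519313623588482336706631021530550893998382664169341413934620605846243690445735464998143659174715688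1405939765195508652213079387986410957792496120887598363714264727768483136700260707798537636652295768751898117655357143849697593403701906809097694264859473916600806729545703725517852598020528558953743000164713811736494627561095594275899008084116228303515092660214171486133759893278366434705800669017122814397073263510812451952698893587955530229197061007661465775029903851039960721727536523941930231060910117462429574497455303364477579591048902374642295646425262630834704730142161377390883743662108784372077406888700419891853059022723170996191326845849321295293970943595961645027248694148448003128117723458279873330108493667755641956323456727671911482742260532994707697941286774857302653117257329734296378564934794758155488288313444970987330539660977005260322627653179209658041640769751407081002579609219703356766307786037361577871271712611130620240856812194839057485756332075660148249500415797974044880188175310731558065923865256067810337929640460618313856887987076428755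9073621560446641278516971816428517029424183839419715768276969680947885022302703999841186861583908754958287875213922894949537579996179773032581454973980970793533996756044926423617672327248216050562479573085843568094262511157527366656285391297448547174171711049688154852491853126482888102474803249996255789511524732595702344688842262363888040124012995359257228435342720320780919938957001761599986245116756947799152646313011327781678647185886391740048854850338886958925449394508345420239082042868827109760867936272954400236889638675982220227091782755321417333536802754757933297731254818873044078008009978378083544257624171508302066448707713387121625416366939289674744305744073320517928178273839013497528405685853227588417301688136332717418901511704571031217824800817092172681055067295068756474989980941506027846033363116927099039586375148965355405825508504339901752738264591645305531830766412234878664387536828440105297889381704962332381020505031577429941997545065830160560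7995854011085083942902415251106612113338023459147358820714964649716062949933159350140252890083351517321349342972600750492221778569831648968679896007600932485358730938889937118117061683136703163948503056524210209533212413971144301065150461653663798157805240072837036815704091471446451153466617359988150985207949051365784005588205249195922831875212268899114189978853934341992715150254867589777784513959581125102440411880476133184369037718642682677514999643440624242381910238204444689324272658834242955213218763759516306187176568238474816613336578067578263328872285857762545040463566764463820344246345628263846616888518834700505472468454628156742296560635348406984867463123900277492288207853486073708272834799127420905115546593321003026270155102699830601375271906684821098683315078729693703278282357826690808302007388326339224290895923374042029234141520225645641305041636143667675509574426981468515930760439461442176758567086358384982831108952813005534034719865845342291541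2824397599413154272639271196841982621616016913173284855362878003012287800320752679710675691154811874945509960589162393896123379174884409250825036073428071004081963746886595940456062116114771714620839393595853271449571923158959344243905285907643206412493013576708755076748247679216281831925152624544415603742085246174628471831091109610565845270229650860143905915621304856262311050840283310956565774171514087995148304009877151523445880576488354030302212014509664218071955817440745887269168556348574566640940714681420072443641515508585552358482633504237278367104921884715960861107008706659461177384336499475800433003863229464937396090129092168112621580395509431771355532586243914512132951478074371899758527259152103662288510964594608373619333689542383814320323614892232812046722989066992979043655606922291997104917944134403161189398968372050725413927223386948020350395693310015460143098730456371020505914969701190294132559280028531486811773647316096006394011402386520718337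7289524222572159065566556719015502990742955914456633072887088776018799025954391641228555833190245545248746753921527914953084920935949673397081040142061598429309774065602032151495572895255467342721048557377941276098217163566800832597089846216393004577572475823617448848174581735688981465450949493169203986886197421341487762459780778196214910401129219764595734916621324897107717499561944988789080686286022759016444334530312229868432801258946602229537080181321903683125814409234994551876780330529814347124388899711479012209304893129370193066856620958681043538234356635026789974432802444042990511500566395843322763092865566203999602383766993123778348814630000852690691039520718569580464419202667890813613000364886742030092163033143779229635621033482098043823300365821314091186376673749988605763510226642797547168750806295214459001836370110898947488999115688230214393856501376538812379886488956356360596900361129890147615932306508069343013959351791097234580053360284767128525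1618553896050723660768140625294263720340510660289082166774063082411080012763626933285167489209562901725954406248185163188665113503369915787362153577162620370557913087001376148834073110034102385923173161848453891034319837075461545888657732215482526275929674523612626343992571001892723775020434486445218114567407598344006327413709586988760252644530432544023232656455025801116550857775030097804040058140065715490344052170053082998012895482479111878383776237283096508082878613024336291803727405667570786720288731121879785059999085461227869716702730260376707636339711766569151928240409271174419386421079717079081110194554513253899663665614846251807840548557081639111751711903863628283446989566286241435713488384775833019733863502621892627369627486515028075624862691375818890311966831642934667294111131799376030898957745716935671619518213235335870367012417517109755520667828761195895094603738753726441837770174318727920727813906126615743799947965900538401395746942610806555309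2243453995515876318094635058162396671159526238362388422835355348998055445415057212201884383159171073818985134374289970027832301336643685306818008885614646200536846207779708542694018092626815465082619674112570472505762803422108009384759123240380728062782027785510482860111161147791261082746142496754204577995525116168254902996937032248942325538439936629393726241646186858993451905211241140777341644777172447823523832044782608265146028130180761588558220204186345615561759894173758356647046451913157828490282652330378548879308444265847236657094827330955607134512471603360935553773731957826222217501510612878462380496468874673915893659313478662783332413432457861780517147156275188847368885313648791121487082410442300327468086216694112172872977051353680540608558861936910239786752526057561900824555685512232220263162468455408566858808770378757532236293440530063274652737598381834086916924019537428002763368586085125042770683126237211814309859822890013809663031459657554589272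6937420758594260221963002752848621779086970171204186149044467242488089518445101290582583028370924530093117979633596497872001053471000883613026651005609277250879634549824486180054664369647745285632521530370145342584028200143476374996580166277342157515026484347795421981838996272223444623984558184995540365532576854683069147702858419320338783491561318228725761378788564973276136596994969892032270228134080391733178642774146967208185887241463636982002837265708449104754990352974512209615785986749881939908155078164722815920588610064089301573526680255817358505488469486375532107979487237517744449553914704091046676604348559384200136015364055826657106164696608973740067063929182263722908044193409473480443935093134010107767988058156910595659442184077668776067585771754721854332524426957051892867156235361820493860284781643075857976592262014009455191393444811098662199106472324551446843088574139525849441493870865681622611975054773721745408571671199036046501153531694517323675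180726302538675921459594772502655286136229376097693056823957052970216975756311174395228690055204314801887853057708286769788802777189474552186479599045736266078364772027292142170019482664358192877618564348780534180607726246295129581633237750256475959564432796101298753844544712364606061633864630580949590398225286042896441459499501761571826384769899085905532437522493238652510083753899277537817807521036555079017701489611520871692889795130120486318225997507930871338878347332782045637687908800507312696702494977294336)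

end Vale.Agent.Lib.P154.PChain.BC.S8
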